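import Vale.Agent.Lib.P154.PChain.BF.R7_0

set_option linter.all false

namespace Vale.Agent.Lib.P154.PChain.BF.S8

open Vale.Agent.Lib.P154.Chain

noncomputable def pc0 : PT := (PT.nd (nat_lit 5954208) (PT.nd (nat_lit 5716776) (PT.nd (nat_lit 5479656) (PT.nd (nat_lit 5420220) (PT.nd (nat_lit 2810262) (PT.nd (nat_lit 2810184) (PT.nd (nat_lit 2750904) PT.nil (PT.lf (nat_lit 76) (nat_lit 3) (nat_lit 1) (nat_lit 1) (nat_lit 262) (nat_lit 46) (nat_lit 262))) (PT.lf (nat_lit 152) (nat_lit 6) (nat_lit 2) (nat_lit 3) (nat_lit 261) (nat_lit 47) (nat_lit 262))) (PT.nd (nat_lit 2550678) (PT.lf (nat_lit 152) (nat_lit 6) (nat_lit 2) (nat_lit 1) (nat_lit 262) (nat_lit 47) (nat_lit 261)) (PT.lf (nat_lit 684) (nat_lit 3) (nat_lit 9) (nat_lit 1) (nat_lit 240) (nat_lit 90) (nat_lit 240)))) (PT.nd (nat_lit 59280) (PT.nd (nat_lit 78) (PT.lf (nat_lit 760) (nat_lit 6) (nat_lit 10) (nat_lit 3) (nat_lit 239) (nat_lit 91) (nat_lit 240)) (PT.lf (nat_lit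 760) (nat_lit 6) (nat_lit 10) (nat_lit 1) (nat_lit 240) (nat_lit 91) (nat_lit 239))) (PT.nd (nat_lit 78) (PT.lf (nat_lit 836) (nat_lit 6) (nat_lit 11) (nat_lit 3) (nat_lit 238) (nat_lit 92) (nat_lit 240)) (PT.lf (nat_lit 912) (nat_lit 3) (nat_lit 12) (nat_lit 1) (nat_lit 239) (nat_lit 92) (nat_lit 239))))) (PT.nd (nat_lit 118560) (PT.nd (nat_lit 59280) (PT.nd (nat_lit 59202) (PT.lf (nat_lit 836) (nat_lit 6) (nat_lit 11) (nat_lit 1) (nat_lit 240) (nat_lit 92) (nat_lit 238)) (PT.lf (nat_lit 1064) (nat_lit 6) (nat_lit 14) (nat_lit 3) (nat_lit 238) (nat_lit 93) (nat_lit 239))) (PT.nd (nat_lit 59202) (PT.lf (nat_lit 1064) (nat_lit 6) (nat_lit 14) (nat_lit 1) (nat_lit 239) (nat_lit 93) (nat_lit 238)) (PT.lf (nat_lit 1140) (nat_lit 6) (nat_lit 15) (nat_lit 3) (nat_lit 237) (nat_lit 94) (nat_lit 239)))) (PT.nd (nat_lit 59280) (PT.nd (nat_lit 78) (PT.lf (nat_lit 1216) (nat_lit 3) (nat_lit 16) (nat_lit 1) (nat_lit 238) (nat_lit 94) (nat_lit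 238)) (PT.lf (nat_lit 1140) (nat_lit 6) (nat_lit 15) (nat_lit 1) (nat_lit 239) (nat_lit 94) (nat_lit 237))) (PT.nd (nat_lit 78) (PT.lf (nat_lit 1368) (nat_lit 6) (nat_lit 18) (nat_lit 3) (nat_lit 237) (nat_lit 95) (nat_lit 238)) (PT.lf (nat_lit 1368) (nat_lit 6) (nat_lit 18) (nat_lit 1) (nat_lit 238) (nat_lit 95) (nat_lit 237)))))) (PT.nd (nat_lit 118716) (PT.nd (nat_lit 59358) (PT.nd (nat_lit 156) (PT.nd (nat_lit 78) (PT.lf (nat_lit 1444) (nat_lit 6) (nat_lit 19) (nat_lit 3) (nat_lit 236) (nat_lit 96) (nat_lit 238)) (PT.lf (nat_lit 1520) (nat_lit 3) (nat_lit 20) (nat_lit 1) (nat_lit 237) (nat_lit 96) (nat_lit 237))) (PT.nd (nat_lit 59124) (PT.lf (nat_lit 1444) (nat_lit 6) (nat_lit 19) (nat_lit 1) (nat_lit 238) (nat_lit 96) (nat_lit 236)) (PT.lf (nat_lit 1596) (nat_lit 6) (nat_lit 21) (nat_lit 3) (nat_lit 235) (nat_lit 97) (nat_lit 238)))) (PT.nd (nat_lit 156) (PT.nd (nat_lit 78) (PT.lf (nat_lit 1672) (nat_lit 6) (nat_lit 22)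 (nat_lit 3) (nat_lit 236) (nat_lit 97) (nat_lit 237)) (PT.lf (nat_lit 1672) (nat_lit 6) (nat_lit 22) (nat_lit 1) (nat_lit 237) (nat_lit 97) (nat_lit 236))) (PT.nd (nat_lit 59124) (PT.lf (nat_lit 1596) (nat_lit 6) (nat_lit 21) (nat_lit 1) (nat_lit 238) (nat_lit 97) (nat_lit 235)) (PT.lf (nat_lit 1748) (nat_lit 6) (nat_lit 23) (nat_lit 3) (nat_lit 235) (nat_lit 98) (nat_lit 237))))) (PT.nd (nat_lit 59358) (PT.nd (nat_lit 59202) (PT.nd (nat_lit 78) (PT.lf (nat_lit 1824) (nat_lit 3) (nat_lit 24) (nat_lit 1) (nat_lit 236) (nat_lit 98) (nat_lit 236)) (PT.lf (nat_lit 1748) (nat_lit 6) (nat_lit 23) (nat_lit 1) (nat_lit 237) (nat_lit 98) (nat_lit 235))) (PT.nd (nat_lit 78) (PT.lf (nat_lit 1900) (nat_lit 6) (nat_lit 25) (nat_lit 3) (nat_lit 234) (nat_lit 99) (nat_lit 237)) (PT.lf (nat_lit 1976) (nat_lit 6) (nat_lit 26) (nat_lit 3) (nat_lit 235) (nat_lit 99) (nat_lit 236)))) (PT.nd (nat_lit 59202) (PT.nd (nat_lit 78) (PT.lf (nat_lit 1976)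 (nat_lit 6) (nat_lit 26) (nat_lit 1) (nat_lit 236) (nat_lit 99) (nat_lit 235)) (PT.lf (nat_lit 1900) (nat_lit 6) (nat_lit 25) (nat_lit 1) (nat_lit 237) (nat_lit 99) (nat_lit 234))) (PT.nd (nat_lit 78) (PT.lf (nat_lit 2128) (nat_lit 6) (nat_lit 28) (nat_lit 3) (nat_lit 234) (nat_lit 100) (nat_lit 236)) (PT.lf (nat_lit 2204) (nat_lit 3) (nat_lit 29) (nat_lit 1) (nat_lit 235) (nat_lit 100) (nat_lit 235))))))) (PT.nd (nat_lit 237354) (PT.nd (nat_lit 177762) (PT.nd (nat_lit 59358) (PT.nd (nat_lit 59202) (PT.nd (nat_lit 59124) (PT.lf (nat_lit 2128) (nat_lit 6) (nat_lit 28) (nat_lit 1) (nat_lit 236) (nat_lit 100) (nat_lit 234)) (PT.lf (nat_lit 2280) (nat_lit 6) (nat_lit 30) (nat_lit 3) (nat_lit 233) (nat_lit 101) (nat_lit 236))) (PT.nd (nat_lit 78) (PT.lf (nat_lit 2356) (nat_lit 6) (nat_lit 31) (nat_lit 3) (nat_lit 234) (nat_lit 101) (nat_lit 235)) (PT.lf (nat_lit 2356) (nat_lit 6) (nat_lit 31) (nat_lit 1) (nat_lit 235) (nat_lit 101)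 (nat_lit 234)))) (PT.nd (nat_lit 59202) (PT.nd (nat_lit 59124) (PT.lf (nat_lit 2280) (nat_lit 6) (nat_lit 30) (nat_lit 1) (nat_lit 236) (nat_lit 101) (nat_lit 233)) (PT.lf (nat_lit 2508) (nat_lit 6) (nat_lit 33) (nat_lit 3) (nat_lit 233) (nat_lit 102) (nat_lit 235))) (PT.nd (nat_lit 78) (PT.lf (nat_lit 2584) (nat_lit 3) (nat_lit 34) (nat_lit 1) (nat_lit 234) (nat_lit 102) (nat_lit 234)) (PT.lf (nat_lit 2508) (nat_lit 6) (nat_lit 33) (nat_lit 1) (nat_lit 235) (nat_lit 102) (nat_lit 233))))) (PT.nd (nat_lit 59280) (PT.nd (nat_lit 156) (PT.nd (nat_lit 78) (PT.lf (nat_lit 2660) (nat_lit 6) (nat_lit 35) (nat_lit 3) (nat_lit 232) (nat_lit 103) (nat_lit 235)) (PT.lf (nat_lit 2736) (nat_lit 6) (nat_lit 36) (nat_lit 3) (nat_lit 233) (nat_lit 103) (nat_lit 234))) (PT.nd (nat_lit 78) (PT.lf (nat_lit 2736) (nat_lit 6) (nat_lit 36) (nat_lit 1) (nat_lit 234) (nat_lit 103) (nat_lit 233)) (PT.lf (nat_lit 2660) (nat_lit 6) (nat_lit 35) (nat_lit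 1) (nat_lit 235) (nat_lit 103) (nat_lit 232)))) (PT.nd (nat_lit 156) (PT.nd (nat_lit 78) (PT.lf (nat_lit 2812) (nat_lit 6) (nat_lit 37) (nat_lit 3) (nat_lit 231) (nat_lit 104) (nat_lit 235)) (PT.lf (nat_lit 2888) (nat_lit 6) (nat_lit 38) (nat_lit 3) (nat_lit 232) (nat_lit 104) (nat_lit 234))) (PT.nd (nat_lit 78) (PT.lf (nat_lit 2964) (nat_lit 3) (nat_lit 39) (nat_lit 1) (nat_lit 233) (nat_lit 104) (nat_lit 233)) (PT.lf (nat_lit 2888) (nat_lit 6) (nat_lit 38) (nat_lit 1) (nat_lit 234) (nat_lit 104) (nat_lit 232)))))) (PT.nd (nat_lit 118560) (PT.nd (nat_lit 59280) (PT.nd (nat_lit 59124) (PT.nd (nat_lit 59046) (PT.lf (nat_lit 2812) (nat_lit 6) (nat_lit 37) (nat_lit 1) (nat_lit 235) (nat_lit 104) (nat_lit 231)) (PT.lf (nat_lit 3040) (nat_lit 6) (nat_lit 40) (nat_lit 3) (nat_lit 231) (nat_lit 105) (nat_lit 234))) (PT.nd (nat_lit 78) (PT.lf (nat_lit 3116) (nat_lit 6) (nat_lit 41) (nat_lit 3) (nat_lit 232) (nat_lit 105) (nat_lit 233))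 (PT.lf (nat_lit 3116) (nat_lit 6) (nat_lit 41) (nat_lit 1) (nat_lit 233) (nat_lit 105) (nat_lit 232)))) (PT.nd (nat_lit 59124) (PT.nd (nat_lit 59046) (PT.lf (nat_lit 3040) (nat_lit 6) (nat_lit 40) (nat_lit 1) (nat_lit 234) (nat_lit 105) (nat_lit 231)) (PT.lf (nat_lit 3192) (nat_lit 6) (nat_lit 42) (nat_lit 3) (nat_lit 230) (nat_lit 106) (nat_lit 234))) (PT.nd (nat_lit 78) (PT.lf (nat_lit 3268) (nat_lit 6) (nat_lit 43) (nat_lit 3) (nat_lit 231) (nat_lit 106) (nat_lit 233)) (PT.lf (nat_lit 3344) (nat_lit 3) (nat_lit 44) (nat_lit 1) (nat_lit 232) (nat_lit 106) (nat_lit 232))))) (PT.nd (nat_lit 59280) (PT.nd (nat_lit 59124) (PT.nd (nat_lit 78) (PT.lf (nat_lit 3268) (nat_lit 6) (nat_lit 43) (nat_lit 1) (nat_lit 233) (nat_lit 106) (nat_lit 231)) (PT.lf (nat_lit 3192) (nat_lit 6) (nat_lit 42) (nat_lit 1) (nat_lit 234) (nat_lit 106) (nat_lit 230))) (PT.nd (nat_lit 78) (PT.lf (nat_lit 3496) (nat_lit 6) (nat_lit 46) (nat_lit 3) (nat_lit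 230) (nat_lit 107) (nat_lit 233)) (PT.lf (nat_lit 3572) (nat_lit 6) (nat_lit 47) (nat_lit 3) (nat_lit 231) (nat_lit 107) (nat_lit 232)))) (PT.nd (nat_lit 59124) (PT.nd (nat_lit 78) (PT.lf (nat_lit 3572) (nat_lit 6) (nat_lit 47) (nat_lit 1) (nat_lit 232) (nat_lit 107) (nat_lit 231)) (PT.lf (nat_lit 3496) (nat_lit 6) (nat_lit 46) (nat_lit 1) (nat_lit 233) (nat_lit 107) (nat_lit 230))) (PT.nd (nat_lit 78) (PT.lf (nat_lit 3648) (nat_lit 6) (nat_lit 48) (nat_lit 3) (nat_lit 229) (nat_lit 108) (nat_lit 233)) (PT.lf (nat_lit 3724) (nat_lit 6) (nat_lit 49) (nat_lit 3) (nat_lit 230) (nat_lit 108) (nat_lit 232))))))))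
noncomputable def pc1 : PT := (PT.nd (nat_lit 355992) (PT.nd (nat_lit 178074) (PT.nd (nat_lit 118560) (PT.nd (nat_lit 59280) (PT.nd (nat_lit 156) (PT.nd (nat_lit 78) (PT.lf (nat_lit 3800) (nat_lit 3) (nat_lit 50) (nat_lit 1) (nat_lit 231) (nat_lit 108) (nat_lit 231)) (PT.lf (nat_lit 3724) (nat_lit 6) (nat_lit 49) (nat_lit 1) (nat_lit 232) (nat_lit 108) (nat_lit 230))) (PT.nd (nat_lit 59046) (PT.lf (nat_lit 3648) (nat_lit 6) (nat_lit 48) (nat_lit 1) (nat_lit 233) (nat_lit 108) (nat_lit 229)) (PT.lf (nat_lit 3952) (nat_lit 6) (nat_lit 52) (nat_lit 3) (nat_lit 229) (nat_lit 109) (nat_lit 232)))) (PT.nd (nat_lit 156) (PT.nd (nat_lit 78) (PT.lf (nat_lit 4028) (nat_lit 6) (nat_lit 53) (nat_lit 3) (nat_lit 230) (nat_lit 109) (nat_lit 231)) (PT.lf (nat_lit 4028) (nat_lit 6) (nat_lit 53) (nat_lit 1) (nat_lit 231) (nat_lit 109) (nat_lit 230))) (PT.nd (nat_lit 59046) (PT.lf (nat_lit 3952) (nat_lit 6) (nat_lit 52) (nat_lit 1) (nat_lit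 232) (nat_lit 109) (nat_lit 229)) (PT.lf (nat_lit 4104) (nat_lit 6) (nat_lit 54) (nat_lit 3) (nat_lit 228) (nat_lit 110) (nat_lit 232))))) (PT.nd (nat_lit 59202) (PT.nd (nat_lit 156) (PT.nd (nat_lit 78) (PT.lf (nat_lit 4180) (nat_lit 6) (nat_lit 55) (nat_lit 3) (nat_lit 229) (nat_lit 110) (nat_lit 231)) (PT.lf (nat_lit 4256) (nat_lit 3) (nat_lit 56) (nat_lit 1) (nat_lit 230) (nat_lit 110) (nat_lit 230))) (PT.nd (nat_lit 78) (PT.lf (nat_lit 4180) (nat_lit 6) (nat_lit 55) (nat_lit 1) (nat_lit 231) (nat_lit 110) (nat_lit 229)) (PT.lf (nat_lit 4104) (nat_lit 6) (nat_lit 54) (nat_lit 1) (nat_lit 232) (nat_lit 110) (nat_lit 228)))) (PT.nd (nat_lit 156) (PT.nd (nat_lit 78) (PT.lf (nat_lit 4332) (nat_lit 6) (nat_lit 57) (nat_lit 3) (nat_lit 227) (nat_lit 111) (nat_lit 232)) (PT.lf (nat_lit 4408) (nat_lit 6) (nat_lit 58) (nat_lit 3) (nat_lit 228) (nat_lit 111) (nat_lit 231))) (PT.nd (nat_lit 78) (PT.lf (nat_lit 4484) (nat_lit 6) (nat_lit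 59) (nat_lit 3) (nat_lit 229) (nat_lit 111) (nat_lit 230)) (PT.lf (nat_lit 4484) (nat_lit 6) (nat_lit 59) (nat_lit 1) (nat_lit 230) (nat_lit 111) (nat_lit 229)))))) (PT.nd (nat_lit 118404) (PT.nd (nat_lit 59202) (PT.nd (nat_lit 59046) (PT.nd (nat_lit 78) (PT.lf (nat_lit 4408) (nat_lit 6) (nat_lit 58) (nat_lit 1) (nat_lit 231) (nat_lit 111) (nat_lit 228)) (PT.lf (nat_lit 4332) (nat_lit 6) (nat_lit 57) (nat_lit 1) (nat_lit 232) (nat_lit 111) (nat_lit 227))) (PT.nd (nat_lit 78) (PT.lf (nat_lit 4560) (nat_lit 6) (nat_lit 60) (nat_lit 3) (nat_lit 227) (nat_lit 112) (nat_lit 231)) (PT.lf (nat_lit 4636) (nat_lit 6) (nat_lit 61) (nat_lit 3) (nat_lit 228) (nat_lit 112) (nat_lit 230)))) (PT.nd (nat_lit 156) (PT.nd (nat_lit 78) (PT.lf (nat_lit 4712) (nat_lit 3) (nat_lit 62) (nat_lit 1) (nat_lit 229) (nat_lit 112) (nat_lit 229)) (PT.lf (nat_lit 4636) (nat_lit 6) (nat_lit 61) (nat_lit 1) (nat_lit 230) (nat_lit 112) (nat_lit 228))) (PT.nd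 (nat_lit 58968) (PT.lf (nat_lit 4560) (nat_lit 6) (nat_lit 60) (nat_lit 1) (nat_lit 231) (nat_lit 112) (nat_lit 227)) (PT.lf (nat_lit 4788) (nat_lit 6) (nat_lit 63) (nat_lit 3) (nat_lit 226) (nat_lit 113) (nat_lit 231))))) (PT.nd (nat_lit 312) (PT.nd (nat_lit 156) (PT.nd (nat_lit 78) (PT.lf (nat_lit 4864) (nat_lit 6) (nat_lit 64) (nat_lit 3) (nat_lit 227) (nat_lit 113) (nat_lit 230)) (PT.lf (nat_lit 4940) (nat_lit 6) (nat_lit 65) (nat_lit 3) (nat_lit 228) (nat_lit 113) (nat_lit 229))) (PT.nd (nat_lit 78) (PT.lf (nat_lit 4940) (nat_lit 6) (nat_lit 65) (nat_lit 1) (nat_lit 229) (nat_lit 113) (nat_lit 228)) (PT.lf (nat_lit 4864) (nat_lit 6) (nat_lit 64) (nat_lit 1) (nat_lit 230) (nat_lit 113) (nat_lit 227)))) (PT.nd (nat_lit 59046) (PT.nd (nat_lit 58968) (PT.lf (nat_lit 4788) (nat_lit 6) (nat_lit 63) (nat_lit 1) (nat_lit 231) (nat_lit 113) (nat_lit 226)) (PT.lf (nat_lit 5092) (nat_lit 6) (nat_lit 67) (nat_lit 3) (nat_lit 226)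 (nat_lit 114) (nat_lit 230))) (PT.nd (nat_lit 78) (PT.lf (nat_lit 5168) (nat_lit 6) (nat_lit 68) (nat_lit 3) (nat_lit 227) (nat_lit 114) (nat_lit 229)) (PT.lf (nat_lit 5244) (nat_lit 3) (nat_lit 69) (nat_lit 1) (nat_lit 228) (nat_lit 114) (nat_lit 228))))))) (PT.nd (nat_lit 177762) (PT.nd (nat_lit 118326) (PT.nd (nat_lit 59202) (PT.nd (nat_lit 59046) (PT.nd (nat_lit 78) (PT.lf (nat_lit 5168) (nat_lit 6) (nat_lit 68) (nat_lit 1) (nat_lit 229) (nat_lit 114) (nat_lit 227)) (PT.lf (nat_lit 5092) (nat_lit 6) (nat_lit 67) (nat_lit 1) (nat_lit 230) (nat_lit 114) (nat_lit 226))) (PT.nd (nat_lit 78) (PT.lf (nat_lit 5320) (nat_lit 6) (nat_lit 70) (nat_lit 3) (nat_lit 225) (nat_lit 115) (nat_lit 230)) (PT.lf (nat_lit 5396) (nat_lit 6) (nat_lit 71) (nat_lit 3) (nat_lit 226) (nat_lit 115) (nat_lit 229)))) (PT.nd (nat_lit 156) (PT.nd (nat_lit 78) (PT.lf (nat_lit 5472) (nat_lit 6) (nat_lit 72) (nat_lit 3) (nat_lit 227) (nat_lit 115) (nat_lit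 228)) (PT.lf (nat_lit 5472) (nat_lit 6) (nat_lit 72) (nat_lit 1) (nat_lit 228) (nat_lit 115) (nat_lit 227))) (PT.nd (nat_lit 78) (PT.lf (nat_lit 5396) (nat_lit 6) (nat_lit 71) (nat_lit 1) (nat_lit 229) (nat_lit 115) (nat_lit 226)) (PT.lf (nat_lit 5320) (nat_lit 6) (nat_lit 70) (nat_lit 1) (nat_lit 230) (nat_lit 115) (nat_lit 225))))) (PT.nd (nat_lit 312) (PT.nd (nat_lit 156) (PT.nd (nat_lit 78) (PT.lf (nat_lit 5548) (nat_lit 6) (nat_lit 73) (nat_lit 3) (nat_lit 224) (nat_lit 116) (nat_lit 230)) (PT.lf (nat_lit 5624) (nat_lit 6) (nat_lit 74) (nat_lit 3) (nat_lit 225) (nat_lit 116) (nat_lit 229))) (PT.nd (nat_lit 78) (PT.lf (nat_lit 5700) (nat_lit 6) (nat_lit 75) (nat_lit 3) (nat_lit 226) (nat_lit 116) (nat_lit 228)) (PT.lf (nat_lit 5776) (nat_lit 3) (nat_lit 76) (nat_lit 1) (nat_lit 227) (nat_lit 116) (nat_lit 227)))) (PT.nd (nat_lit 156) (PT.nd (nat_lit 78) (PT.lf (nat_lit 5700) (nat_lit 6) (nat_lit 75) (nat_lit 1) (nat_lit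 228) (nat_lit 116) (nat_lit 226)) (PT.lf (nat_lit 5624) (nat_lit 6) (nat_lit 74) (nat_lit 1) (nat_lit 229) (nat_lit 116) (nat_lit 225))) (PT.nd (nat_lit 58890) (PT.lf (nat_lit 5548) (nat_lit 6) (nat_lit 73) (nat_lit 1) (nat_lit 230) (nat_lit 116) (nat_lit 224)) (PT.lf (nat_lit 5852) (nat_lit 6) (nat_lit 77) (nat_lit 3) (nat_lit 224) (nat_lit 117) (nat_lit 229)))))) (PT.nd (nat_lit 59436) (PT.nd (nat_lit 312) (PT.nd (nat_lit 156) (PT.nd (nat_lit 78) (PT.lf (nat_lit 5928) (nat_lit 6) (nat_lit 78) (nat_lit 3) (nat_lit 225) (nat_lit 117) (nat_lit 228)) (PT.lf (nat_lit 6004) (nat_lit 6) (nat_lit 79) (nat_lit 3) (nat_lit 226) (nat_lit 117) (nat_lit 227))) (PT.nd (nat_lit 78) (PT.lf (nat_lit 6004) (nat_lit 6) (nat_lit 79) (nat_lit 1) (nat_lit 227) (nat_lit 117) (nat_lit 226)) (PT.lf (nat_lit 5928) (nat_lit 6) (nat_lit 78) (nat_lit 1) (nat_lit 228) (nat_lit 117) (nat_lit 225)))) (PT.nd (nat_lit 58968) (PT.nd (nat_lit 58890) (PT.lf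 (nat_lit 5852) (nat_lit 6) (nat_lit 77) (nat_lit 1) (nat_lit 229) (nat_lit 117) (nat_lit 224)) (PT.lf (nat_lit 6080) (nat_lit 6) (nat_lit 80) (nat_lit 3) (nat_lit 223) (nat_lit 118) (nat_lit 229))) (PT.nd (nat_lit 78) (PT.lf (nat_lit 6156) (nat_lit 6) (nat_lit 81) (nat_lit 3) (nat_lit 224) (nat_lit 118) (nat_lit 228)) (PT.lf (nat_lit 6232) (nat_lit 6) (nat_lit 82) (nat_lit 3) (nat_lit 225) (nat_lit 118) (nat_lit 227))))) (PT.nd (nat_lit 59124) (PT.nd (nat_lit 156) (PT.nd (nat_lit 78) (PT.lf (nat_lit 6308) (nat_lit 3) (nat_lit 83) (nat_lit 1) (nat_lit 226) (nat_lit 118) (nat_lit 226)) (PT.lf (nat_lit 6232) (nat_lit 6) (nat_lit 82) (nat_lit 1) (nat_lit 227) (nat_lit 118) (nat_lit 225))) (PT.nd (nat_lit 78) (PT.lf (nat_lit 6156) (nat_lit 6) (nat_lit 81) (nat_lit 1) (nat_lit 228) (nat_lit 118) (nat_lit 224)) (PT.lf (nat_lit 6080) (nat_lit 6) (nat_lit 80) (nat_lit 1) (nat_lit 229) (nat_lit 118) (nat_lit 223)))) (PT.nd (nat_lit 156)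 (PT.nd (nat_lit 78) (PT.lf (nat_lit 6460) (nat_lit 6) (nat_lit 85) (nat_lit 3) (nat_lit 223) (nat_lit 119) (nat_lit 228)) (PT.lf (nat_lit 6536) (nat_lit 6) (nat_lit 86) (nat_lit 3) (nat_lit 224) (nat_lit 119) (nat_lit 227))) (PT.nd (nat_lit 78) (PT.lf (nat_lit 6612) (nat_lit 6) (nat_lit 87) (nat_lit 3) (nat_lit 225) (nat_lit 119) (nat_lit 226)) (PT.lf (nat_lit 6612) (nat_lit 6) (nat_lit 87) (nat_lit 1) (nat_lit 226) (nat_lit 119) (nat_lit 225))))))))
noncomputable def pc2 : PT := (PT.nd (nat_lit 296244) (PT.nd (nat_lit 118794) (PT.nd (nat_lit 59436) (PT.nd (nat_lit 59124) (PT.nd (nat_lit 58968) (PT.nd (nat_lit 78) (PT.lf (nat_lit 6536) (nat_lit 6) (nat_lit 86) (nat_lit 1) (nat_lit 227) (nat_lit 119) (nat_lit 224)) (PT.lf (nat_lit 6460) (nat_lit 6) (nat_lit 85) (nat_lit 1) (nat_lit 228) (nat_lit 119) (nat_lit 223))) (PT.nd (nat_lit 78) (PT.lf (nat_lit 6688) (nat_lit 6) (nat_lit 88) (nat_lit 3) (nat_lit 222) (nat_lit 120) (nat_lit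 228)) (PT.lf (nat_lit 6764) (nat_lit 6) (nat_lit 89) (nat_lit 3) (nat_lit 223) (nat_lit 120) (nat_lit 227)))) (PT.nd (nat_lit 156) (PT.nd (nat_lit 78) (PT.lf (nat_lit 6840) (nat_lit 6) (nat_lit 90) (nat_lit 3) (nat_lit 224) (nat_lit 120) (nat_lit 226)) (PT.lf (nat_lit 6916) (nat_lit 3) (nat_lit 91) (nat_lit 1) (nat_lit 225) (nat_lit 120) (nat_lit 225))) (PT.nd (nat_lit 78) (PT.lf (nat_lit 6840) (nat_lit 6) (nat_lit 90) (nat_lit 1) (nat_lit 226) (nat_lit 120) (nat_lit 224)) (PT.lf (nat_lit 6764) (nat_lit 6) (nat_lit 89) (nat_lit 1) (nat_lit 227) (nat_lit 120) (nat_lit 223))))) (PT.nd (nat_lit 59046) (PT.nd (nat_lit 58890) (PT.nd (nat_lit 58812) (PT.lf (nat_lit 6688) (nat_lit 6) (nat_lit 88) (nat_lit 1) (nat_lit 228) (nat_lit 120) (nat_lit 222)) (PT.lf (nat_lit 6992) (nat_lit 6) (nat_lit 92) (nat_lit 3) (nat_lit 221) (nat_lit 121) (nat_lit 228))) (PT.nd (nat_lit 78) (PT.lf (nat_lit 7068) (nat_lit 6) (nat_lit 93) (nat_lit 3) (nat_lit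 222) (nat_lit 121) (nat_lit 227)) (PT.lf (nat_lit 7144) (nat_lit 6) (nat_lit 94) (nat_lit 3) (nat_lit 223) (nat_lit 121) (nat_lit 226)))) (PT.nd (nat_lit 156) (PT.nd (nat_lit 78) (PT.lf (nat_lit 7220) (nat_lit 6) (nat_lit 95) (nat_lit 3) (nat_lit 224) (nat_lit 121) (nat_lit 225)) (PT.lf (nat_lit 7220) (nat_lit 6) (nat_lit 95) (nat_lit 1) (nat_lit 225) (nat_lit 121) (nat_lit 224))) (PT.nd (nat_lit 78) (PT.lf (nat_lit 7144) (nat_lit 6) (nat_lit 94) (nat_lit 1) (nat_lit 226) (nat_lit 121) (nat_lit 223)) (PT.lf (nat_lit 7068) (nat_lit 6) (nat_lit 93) (nat_lit 1) (nat_lit 227) (nat_lit 121) (nat_lit 222)))))) (PT.nd (nat_lit 118092) (PT.nd (nat_lit 59046) (PT.nd (nat_lit 58890) (PT.nd (nat_lit 58812) (PT.lf (nat_lit 6992) (nat_lit 6) (nat_lit 92) (nat_lit 1) (nat_lit 228) (nat_lit 121) (nat_lit 221)) (PT.lf (nat_lit 7296) (nat_lit 6) (nat_lit 96) (nat_lit 3) (nat_lit 221) (nat_lit 122) (nat_lit 227))) (PT.nd (nat_lit 78) (PT.lf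 (nat_lit 7372) (nat_lit 6) (nat_lit 97) (nat_lit 3) (nat_lit 222) (nat_lit 122) (nat_lit 226)) (PT.lf (nat_lit 7448) (nat_lit 6) (nat_lit 98) (nat_lit 3) (nat_lit 223) (nat_lit 122) (nat_lit 225)))) (PT.nd (nat_lit 156) (PT.nd (nat_lit 78) (PT.lf (nat_lit 7524) (nat_lit 3) (nat_lit 99) (nat_lit 1) (nat_lit 224) (nat_lit 122) (nat_lit 224)) (PT.lf (nat_lit 7448) (nat_lit 6) (nat_lit 98) (nat_lit 1) (nat_lit 225) (nat_lit 122) (nat_lit 223))) (PT.nd (nat_lit 78) (PT.lf (nat_lit 7372) (nat_lit 6) (nat_lit 97) (nat_lit 1) (nat_lit 226) (nat_lit 122) (nat_lit 222)) (PT.lf (nat_lit 7296) (nat_lit 6) (nat_lit 96) (nat_lit 1) (nat_lit 227) (nat_lit 122) (nat_lit 221))))) (PT.nd (nat_lit 312) (PT.nd (nat_lit 156) (PT.nd (nat_lit 78) (PT.lf (nat_lit 7600) (nat_lit 6) (nat_lit 100) (nat_lit 3) (nat_lit 220) (nat_lit 123) (nat_lit 227)) (PT.lf (nat_lit 7676) (nat_lit 6) (nat_lit 101) (nat_lit 3) (nat_lit 221) (nat_lit 123) (nat_lit 226)))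 (PT.nd (nat_lit 78) (PT.lf (nat_lit 7752) (nat_lit 6) (nat_lit 102) (nat_lit 3) (nat_lit 222) (nat_lit 123) (nat_lit 225)) (PT.lf (nat_lit 7828) (nat_lit 6) (nat_lit 103) (nat_lit 3) (nat_lit 223) (nat_lit 123) (nat_lit 224)))) (PT.nd (nat_lit 156) (PT.nd (nat_lit 78) (PT.lf (nat_lit 7828) (nat_lit 6) (nat_lit 103) (nat_lit 1) (nat_lit 224) (nat_lit 123) (nat_lit 223)) (PT.lf (nat_lit 7752) (nat_lit 6) (nat_lit 102) (nat_lit 1) (nat_lit 225) (nat_lit 123) (nat_lit 222))) (PT.nd (nat_lit 78) (PT.lf (nat_lit 7676) (nat_lit 6) (nat_lit 101) (nat_lit 1) (nat_lit 226) (nat_lit 123) (nat_lit 221)) (PT.lf (nat_lit 7600) (nat_lit 6) (nat_lit 100) (nat_lit 1) (nat_lit 227) (nat_lit 123) (nat_lit 220))))))) (PT.nd (nat_lit 118638) (PT.nd (nat_lit 59358) (PT.nd (nat_lit 312) (PT.nd (nat_lit 156) (PT.nd (nat_lit 78) (PT.lf (nat_lit 7980) (nat_lit 6) (nat_lit 105) (nat_lit 3) (nat_lit 220) (nat_lit 124) (nat_lit 226)) (PT.lf (nat_lit 8056)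 (nat_lit 6) (nat_lit 106) (nat_lit 3) (nat_lit 221) (nat_lit 124) (nat_lit 225))) (PT.nd (nat_lit 78) (PT.lf (nat_lit 8132) (nat_lit 6) (nat_lit 107) (nat_lit 3) (nat_lit 222) (nat_lit 124) (nat_lit 224)) (PT.lf (nat_lit 8208) (nat_lit 3) (nat_lit 108) (nat_lit 1) (nat_lit 223) (nat_lit 124) (nat_lit 223)))) (PT.nd (nat_lit 156) (PT.nd (nat_lit 78) (PT.lf (nat_lit 8132) (nat_lit 6) (nat_lit 107) (nat_lit 1) (nat_lit 224) (nat_lit 124) (nat_lit 222)) (PT.lf (nat_lit 8056) (nat_lit 6) (nat_lit 106) (nat_lit 1) (nat_lit 225) (nat_lit 124) (nat_lit 221))) (PT.nd (nat_lit 58812) (PT.lf (nat_lit 7980) (nat_lit 6) (nat_lit 105) (nat_lit 1) (nat_lit 226) (nat_lit 124) (nat_lit 220)) (PT.lf (nat_lit 8284) (nat_lit 6) (nat_lit 109) (nat_lit 3) (nat_lit 219) (nat_lit 125) (nat_lit 226))))) (PT.nd (nat_lit 312) (PT.nd (nat_lit 156) (PT.nd (nat_lit 78) (PT.lf (nat_lit 8360) (nat_lit 6) (nat_lit 110) (nat_lit 3) (nat_lit 220) (nat_lit 125)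 (nat_lit 225)) (PT.lf (nat_lit 8436) (nat_lit 6) (nat_lit 111) (nat_lit 3) (nat_lit 221) (nat_lit 125) (nat_lit 224))) (PT.nd (nat_lit 78) (PT.lf (nat_lit 8512) (nat_lit 6) (nat_lit 112) (nat_lit 3) (nat_lit 222) (nat_lit 125) (nat_lit 223)) (PT.lf (nat_lit 8512) (nat_lit 6) (nat_lit 112) (nat_lit 1) (nat_lit 223) (nat_lit 125) (nat_lit 222)))) (PT.nd (nat_lit 156) (PT.nd (nat_lit 78) (PT.lf (nat_lit 8436) (nat_lit 6) (nat_lit 111) (nat_lit 1) (nat_lit 224) (nat_lit 125) (nat_lit 221)) (PT.lf (nat_lit 8360) (nat_lit 6) (nat_lit 110) (nat_lit 1) (nat_lit 225) (nat_lit 125) (nat_lit 220))) (PT.nd (nat_lit 58734) (PT.lf (nat_lit 8284) (nat_lit 6) (nat_lit 109) (nat_lit 1) (nat_lit 226) (nat_lit 125) (nat_lit 219)) (PT.lf (nat_lit 8588) (nat_lit 6) (nat_lit 113) (nat_lit 3) (nat_lit 218) (nat_lit 126) (nat_lit 226)))))) (PT.nd (nat_lit 59280) (PT.nd (nat_lit 312) (PT.nd (nat_lit 156) (PT.nd (nat_lit 78) (PT.lf (nat_lit 8664) (nat_lit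 6) (nat_lit 114) (nat_lit 3) (nat_lit 219) (nat_lit 126) (nat_lit 225)) (PT.lf (nat_lit 8740) (nat_lit 6) (nat_lit 115) (nat_lit 3) (nat_lit 220) (nat_lit 126) (nat_lit 224))) (PT.nd (nat_lit 78) (PT.lf (nat_lit 8816) (nat_lit 6) (nat_lit 116) (nat_lit 3) (nat_lit 221) (nat_lit 126) (nat_lit 223)) (PT.lf (nat_lit 8892) (nat_lit 3) (nat_lit 117) (nat_lit 1) (nat_lit 222) (nat_lit 126) (nat_lit 222)))) (PT.nd (nat_lit 156) (PT.nd (nat_lit 78) (PT.lf (nat_lit 8816) (nat_lit 6) (nat_lit 116) (nat_lit 1) (nat_lit 223) (nat_lit 126) (nat_lit 221)) (PT.lf (nat_lit 8740) (nat_lit 6) (nat_lit 115) (nat_lit 1) (nat_lit 224) (nat_lit 126) (nat_lit 220))) (PT.nd (nat_lit 78) (PT.lf (nat_lit 8664) (nat_lit 6) (nat_lit 114) (nat_lit 1) (nat_lit 225) (nat_lit 126) (nat_lit 219)) (PT.lf (nat_lit 8588) (nat_lit 6) (nat_lit 113) (nat_lit 1) (nat_lit 226) (nat_lit 126) (nat_lit 218))))) (PT.nd (nat_lit 312) (PT.nd (nat_lit 156) (PT.nd (nat_lit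 78) (PT.lf (nat_lit 8968) (nat_lit 6) (nat_lit 118) (nat_lit 3) (nat_lit 218) (nat_lit 127) (nat_lit 225)) (PT.lf (nat_lit 9044) (nat_lit 6) (nat_lit 119) (nat_lit 3) (nat_lit 219) (nat_lit 127) (nat_lit 224))) (PT.nd (nat_lit 78) (PT.lf (nat_lit 9120) (nat_lit 6) (nat_lit 120) (nat_lit 3) (nat_lit 220) (nat_lit 127) (nat_lit 223)) (PT.lf (nat_lit 9196) (nat_lit 6) (nat_lit 121) (nat_lit 3) (nat_lit 221) (nat_lit 127) (nat_lit 222)))) (PT.nd (nat_lit 156) (PT.nd (nat_lit 78) (PT.lf (nat_lit 9196) (nat_lit 6) (nat_lit 121) (nat_lit 1) (nat_lit 222) (nat_lit 127) (nat_lit 221)) (PT.lf (nat_lit 9120) (nat_lit 6) (nat_lit 120) (nat_lit 1) (nat_lit 223) (nat_lit 127) (nat_lit 220))) (PT.nd (nat_lit 78) (PT.lf (nat_lit 9044) (nat_lit 6) (nat_lit 119) (nat_lit 1) (nat_lit 224) (nat_lit 127) (nat_lit 219)) (PT.lf (nat_lit 8968) (nat_lit 6) (nat_lit 118) (nat_lit 1) (nat_lit 225) (nat_lit 127) (nat_lit 218))))))))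
noncomputable def pc3 : PT := (PT.nd (nat_lit 178230) (PT.nd (nat_lit 59826) (PT.nd (nat_lit 624) (PT.nd (nat_lit 312) (PT.nd (nat_lit 156) (PT.nd (nat_lit 78) (PT.lf (nat_lit 9272) (nat_lit 6) (nat_lit 122) (nat_lit 3) (nat_lit 217) (nat_lit 128) (nat_lit 225)) (PT.lf (nat_lit 9348) (nat_lit 6) (nat_lit 123) (nat_lit 3) (nat_lit 218) (nat_lit 128) (nat_lit 224))) (PT.nd (nat_lit 78) (PT.lf (nat_lit 9424) (nat_lit 6) (nat_lit 124) (nat_lit 3) (nat_lit 219) (nat_lit 128) (nat_lit 223)) (PT.lf (nat_lit 9500) (nat_lit 6) (nat_lit 125) (nat_lit 3) (nat_lit 220) (nat_lit 128) (nat_lit 222)))) (PT.nd (nat_lit 156) (PT.nd (nat_lit 78) (PT.lf (nat_lit 9576) (nat_lit 3) (nat_lit 126) (nat_lit 1) (nat_lit 221) (nat_lit 128) (nat_lit 221)) (PT.lf (nat_lit 9500) (nat_lit 6) (nat_lit 125) (nat_lit 1) (nat_lit 222) (nat_lit 128) (nat_lit 220))) (PT.nd (nat_lit 78) (PT.lf (nat_lit 9424) (nat_lit 6) (nat_lit 124) (nat_lit 1) (nat_lit 223)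 (nat_lit 128) (nat_lit 219)) (PT.lf (nat_lit 9348) (nat_lit 6) (nat_lit 123) (nat_lit 1) (nat_lit 224) (nat_lit 128) (nat_lit 218))))) (PT.nd (nat_lit 58890) (PT.nd (nat_lit 58734) (PT.nd (nat_lit 58656) (PT.lf (nat_lit 9272) (nat_lit 6) (nat_lit 122) (nat_lit 1) (nat_lit 225) (nat_lit 128) (nat_lit 217)) (PT.lf (nat_lit 9652) (nat_lit 6) (nat_lit 127) (nat_lit 3) (nat_lit 216) (nat_lit 129) (nat_lit 225))) (PT.nd (nat_lit 78) (PT.lf (nat_lit 9728) (nat_lit 6) (nat_lit 128) (nat_lit 3) (nat_lit 217) (nat_lit 129) (nat_lit 224)) (PT.lf (nat_lit 9804) (nat_lit 6) (nat_lit 129) (nat_lit 3) (nat_lit 218) (nat_lit 129) (nat_lit 223)))) (PT.nd (nat_lit 156) (PT.nd (nat_lit 78) (PT.lf (nat_lit 9880) (nat_lit 6) (nat_lit 130) (nat_lit 3) (nat_lit 219) (nat_lit 129) (nat_lit 222)) (PT.lf (nat_lit 9956) (nat_lit 6) (nat_lit 131) (nat_lit 3) (nat_lit 220) (nat_lit 129) (nat_lit 221))) (PT.nd (nat_lit 78) (PT.lf (nat_lit 9956) (nat_lit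 6) (nat_lit 131) (nat_lit 1) (nat_lit 221) (nat_lit 129) (nat_lit 220)) (PT.lf (nat_lit 9880) (nat_lit 6) (nat_lit 130) (nat_lit 1) (nat_lit 222) (nat_lit 129) (nat_lit 219)))))) (PT.nd (nat_lit 59202) (PT.nd (nat_lit 58890) (PT.nd (nat_lit 156) (PT.nd (nat_lit 78) (PT.lf (nat_lit 9804) (nat_lit 6) (nat_lit 129) (nat_lit 1) (nat_lit 223) (nat_lit 129) (nat_lit 218)) (PT.lf (nat_lit 9728) (nat_lit 6) (nat_lit 128) (nat_lit 1) (nat_lit 224) (nat_lit 129) (nat_lit 217))) (PT.nd (nat_lit 58656) (PT.lf (nat_lit 9652) (nat_lit 6) (nat_lit 127) (nat_lit 1) (nat_lit 225) (nat_lit 129) (nat_lit 216)) (PT.lf (nat_lit 10032) (nat_lit 6) (nat_lit 132) (nat_lit 3) (nat_lit 216) (nat_lit 130) (nat_lit 224)))) (PT.nd (nat_lit 156) (PT.nd (nat_lit 78) (PT.lf (nat_lit 10108) (nat_lit 6) (nat_lit 133) (nat_lit 3) (nat_lit 217) (nat_lit 130) (nat_lit 223)) (PT.lf (nat_lit 10184) (nat_lit 6) (nat_lit 134) (nat_lit 3) (nat_lit 218) (nat_lit 130)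 (nat_lit 222))) (PT.nd (nat_lit 78) (PT.lf (nat_lit 10260) (nat_lit 6) (nat_lit 135) (nat_lit 3) (nat_lit 219) (nat_lit 130) (nat_lit 221)) (PT.lf (nat_lit 10336) (nat_lit 3) (nat_lit 136) (nat_lit 1) (nat_lit 220) (nat_lit 130) (nat_lit 220))))) (PT.nd (nat_lit 58890) (PT.nd (nat_lit 156) (PT.nd (nat_lit 78) (PT.lf (nat_lit 10260) (nat_lit 6) (nat_lit 135) (nat_lit 1) (nat_lit 221) (nat_lit 130) (nat_lit 219)) (PT.lf (nat_lit 10184) (nat_lit 6) (nat_lit 134) (nat_lit 1) (nat_lit 222) (nat_lit 130) (nat_lit 218))) (PT.nd (nat_lit 78) (PT.lf (nat_lit 10108) (nat_lit 6) (nat_lit 133) (nat_lit 1) (nat_lit 223) (nat_lit 130) (nat_lit 217)) (PT.lf (nat_lit 10032) (nat_lit 6) (nat_lit 132) (nat_lit 1) (nat_lit 224) (nat_lit 130) (nat_lit 216)))) (PT.nd (nat_lit 156) (PT.nd (nat_lit 78) (PT.lf (nat_lit 10412) (nat_lit 6) (nat_lit 137) (nat_lit 3) (nat_lit 215) (nat_lit 131) (nat_lit 224)) (PT.lf (nat_lit 10488) (nat_lit 6) (nat_lit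 138) (nat_lit 3) (nat_lit 216) (nat_lit 131) (nat_lit 223))) (PT.nd (nat_lit 78) (PT.lf (nat_lit 10564) (nat_lit 6) (nat_lit 139) (nat_lit 3) (nat_lit 217) (nat_lit 131) (nat_lit 222)) (PT.lf (nat_lit 10640) (nat_lit 6) (nat_lit 140) (nat_lit 3) (nat_lit 218) (nat_lit 131) (nat_lit 221))))))) (PT.nd (nat_lit 118404) (PT.nd (nat_lit 59202) (PT.nd (nat_lit 312) (PT.nd (nat_lit 156) (PT.nd (nat_lit 78) (PT.lf (nat_lit 10716) (nat_lit 6) (nat_lit 141) (nat_lit 3) (nat_lit 219) (nat_lit 131) (nat_lit 220)) (PT.lf (nat_lit 10716) (nat_lit 6) (nat_lit 141) (nat_lit 1) (nat_lit 220) (nat_lit 131) (nat_lit 219))) (PT.nd (nat_lit 78) (PT.lf (nat_lit 10640) (nat_lit 6) (nat_lit 140) (nat_lit 1) (nat_lit 221) (nat_lit 131) (nat_lit 218)) (PT.lf (nat_lit 10564) (nat_lit 6) (nat_lit 139) (nat_lit 1) (nat_lit 222) (nat_lit 131) (nat_lit 217)))) (PT.nd (nat_lit 58734) (PT.nd (nat_lit 78) (PT.lf (nat_lit 10488) (nat_lit 6) (nat_lit 138) (nat_lit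 1) (nat_lit 223) (nat_lit 131) (nat_lit 216)) (PT.lf (nat_lit 10412) (nat_lit 6) (nat_lit 137) (nat_lit 1) (nat_lit 224) (nat_lit 131) (nat_lit 215))) (PT.nd (nat_lit 78) (PT.lf (nat_lit 10868) (nat_lit 6) (nat_lit 143) (nat_lit 3) (nat_lit 215) (nat_lit 132) (nat_lit 223)) (PT.lf (nat_lit 10944) (nat_lit 6) (nat_lit 144) (nat_lit 3) (nat_lit 216) (nat_lit 132) (nat_lit 222))))) (PT.nd (nat_lit 312) (PT.nd (nat_lit 156) (PT.nd (nat_lit 78) (PT.lf (nat_lit 11020) (nat_lit 6) (nat_lit 145) (nat_lit 3) (nat_lit 217) (nat_lit 132) (nat_lit 221)) (PT.lf (nat_lit 11096) (nat_lit 6) (nat_lit 146) (nat_lit 3) (nat_lit 218) (nat_lit 132) (nat_lit 220))) (PT.nd (nat_lit 78) (PT.lf (nat_lit 11172) (nat_lit 3) (nat_lit 147) (nat_lit 1) (nat_lit 219) (nat_lit 132) (nat_lit 219)) (PT.lf (nat_lit 11096) (nat_lit 6) (nat_lit 146) (nat_lit 1) (nat_lit 220) (nat_lit 132) (nat_lit 218)))) (PT.nd (nat_lit 156) (PT.nd (nat_lit 78) (PT.lf (nat_lit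 11020) (nat_lit 6) (nat_lit 145) (nat_lit 1) (nat_lit 221) (nat_lit 132) (nat_lit 217)) (PT.lf (nat_lit 10944) (nat_lit 6) (nat_lit 144) (nat_lit 1) (nat_lit 222) (nat_lit 132) (nat_lit 216))) (PT.nd (nat_lit 58656) (PT.lf (nat_lit 10868) (nat_lit 6) (nat_lit 143) (nat_lit 1) (nat_lit 223) (nat_lit 132) (nat_lit 215)) (PT.lf (nat_lit 11248) (nat_lit 6) (nat_lit 148) (nat_lit 3) (nat_lit 214) (nat_lit 133) (nat_lit 223)))))) (PT.nd (nat_lit 624) (PT.nd (nat_lit 312) (PT.nd (nat_lit 156) (PT.nd (nat_lit 78) (PT.lf (nat_lit 11324) (nat_lit 6) (nat_lit 149) (nat_lit 3) (nat_lit 215) (nat_lit 133) (nat_lit 222)) (PT.lf (nat_lit 11400) (nat_lit 6) (nat_lit 150) (nat_lit 3) (nat_lit 216) (nat_lit 133) (nat_lit 221))) (PT.nd (nat_lit 78) (PT.lf (nat_lit 11476) (nat_lit 6) (nat_lit 151) (nat_lit 3) (nat_lit 217) (nat_lit 133) (nat_lit 220)) (PT.lf (nat_lit 11552) (nat_lit 6) (nat_lit 152) (nat_lit 3) (nat_lit 218) (nat_lit 133) (nat_lit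 219)))) (PT.nd (nat_lit 156) (PT.nd (nat_lit 78) (PT.lf (nat_lit 11552) (nat_lit 6) (nat_lit 152) (nat_lit 1) (nat_lit 219) (nat_lit 133) (nat_lit 218)) (PT.lf (nat_lit 11476) (nat_lit 6) (nat_lit 151) (nat_lit 1) (nat_lit 220) (nat_lit 133) (nat_lit 217))) (PT.nd (nat_lit 78) (PT.lf (nat_lit 11400) (nat_lit 6) (nat_lit 150) (nat_lit 1) (nat_lit 221) (nat_lit 133) (nat_lit 216)) (PT.lf (nat_lit 11324) (nat_lit 6) (nat_lit 149) (nat_lit 1) (nat_lit 222) (nat_lit 133) (nat_lit 215))))) (PT.nd (nat_lit 58812) (PT.nd (nat_lit 58656) (PT.nd (nat_lit 58578) (PT.lf (nat_lit 11248) (nat_lit 6) (nat_lit 148) (nat_lit 1) (nat_lit 223) (nat_lit 133) (nat_lit 214)) (PT.lf (nat_lit 11628) (nat_lit 6) (nat_lit 153) (nat_lit 3) (nat_lit 213) (nat_lit 134) (nat_lit 223))) (PT.nd (nat_lit 78) (PT.lf (nat_lit 11704) (nat_lit 6) (nat_lit 154) (nat_lit 3) (nat_lit 214) (nat_lit 134) (nat_lit 222)) (PT.lf (nat_lit 11780) (nat_lit 6) (nat_lit 155)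 (nat_lit 3) (nat_lit 215) (nat_lit 134) (nat_lit 221)))) (PT.nd (nat_lit 156) (PT.nd (nat_lit 78) (PT.lf (nat_lit 11856) (nat_lit 6) (nat_lit 156) (nat_lit 3) (nat_lit 216) (nat_lit 134) (nat_lit 220)) (PT.lf (nat_lit 11932) (nat_lit 6) (nat_lit 157) (nat_lit 3) (nat_lit 217) (nat_lit 134) (nat_lit 219))) (PT.nd (nat_lit 78) (PT.lf (nat_lit 12008) (nat_lit 3) (nat_lit 158) (nat_lit 1) (nat_lit 218) (nat_lit 134) (nat_lit 218)) (PT.lf (nat_lit 11932) (nat_lit 6) (nat_lit 157) (nat_lit 1) (nat_lit 219) (nat_lit 134) (nat_lit 217))))))))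
noncomputable def pc4 : PT := (PT.nd (nat_lit 177918) (PT.nd (nat_lit 118248) (PT.nd (nat_lit 59124) (PT.nd (nat_lit 58812) (PT.nd (nat_lit 156) (PT.nd (nat_lit 78) (PT.lf (nat_lit 11856) (nat_lit 6) (nat_lit 156) (nat_lit 1) (nat_lit 220) (nat_lit 134) (nat_lit 216)) (PT.lf (nat_lit 11780) (nat_lit 6) (nat_lit 155) (nat_lit 1) (nat_lit 221) (nat_lit 134) (nat_lit 215))) (PT.nd (nat_lit 78) (PT.lf (nat_lit 11704) (nat_lit 6) (nat_lit 154) (nat_lit 1) (nat_lit 222) (nat_lit 134) (nat_lit 214)) (PT.lf (nat_lit 11628) (nat_lit 6) (nat_lit 153) (nat_lit 1) (nat_lit 223) (nat_lit 134) (nat_lit 213)))) (PT.nd (nat_lit 156) (PT.nd (nat_lit 78) (PT.lf (nat_lit 12084) (nat_lit 6) (nat_lit 159) (nat_lit 3) (nat_lit 213) (nat_lit 135) (nat_lit 222)) (PT.lf (nat_lit 12160) (nat_lit 6) (nat_lit 160) (nat_lit 3) (nat_lit 214) (nat_lit 135) (nat_lit 221))) (PT.nd (nat_lit 78) (PT.lf (nat_lit 12236) (nat_lit 6) (nat_lit 161) (nat_lit 3) (nat_lit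 215) (nat_lit 135) (nat_lit 220)) (PT.lf (nat_lit 12312) (nat_lit 6) (nat_lit 162) (nat_lit 3) (nat_lit 216) (nat_lit 135) (nat_lit 219))))) (PT.nd (nat_lit 312) (PT.nd (nat_lit 156) (PT.nd (nat_lit 78) (PT.lf (nat_lit 12388) (nat_lit 6) (nat_lit 163) (nat_lit 3) (nat_lit 217) (nat_lit 135) (nat_lit 218)) (PT.lf (nat_lit 12388) (nat_lit 6) (nat_lit 163) (nat_lit 1) (nat_lit 218) (nat_lit 135) (nat_lit 217))) (PT.nd (nat_lit 78) (PT.lf (nat_lit 12312) (nat_lit 6) (nat_lit 162) (nat_lit 1) (nat_lit 219) (nat_lit 135) (nat_lit 216)) (PT.lf (nat_lit 12236) (nat_lit 6) (nat_lit 161) (nat_lit 1) (nat_lit 220) (nat_lit 135) (nat_lit 215)))) (PT.nd (nat_lit 58656) (PT.nd (nat_lit 78) (PT.lf (nat_lit 12160) (nat_lit 6) (nat_lit 160) (nat_lit 1) (nat_lit 221) (nat_lit 135) (nat_lit 214)) (PT.lf (nat_lit 12084) (nat_lit 6) (nat_lit 159) (nat_lit 1) (nat_lit 222) (nat_lit 135) (nat_lit 213))) (PT.nd (nat_lit 78) (PT.lf (nat_lit 12464)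 (nat_lit 6) (nat_lit 164) (nat_lit 3) (nat_lit 212) (nat_lit 136) (nat_lit 222)) (PT.lf (nat_lit 12540) (nat_lit 6) (nat_lit 165) (nat_lit 3) (nat_lit 213) (nat_lit 136) (nat_lit 221)))))) (PT.nd (nat_lit 624) (PT.nd (nat_lit 312) (PT.nd (nat_lit 156) (PT.nd (nat_lit 78) (PT.lf (nat_lit 12616) (nat_lit 6) (nat_lit 166) (nat_lit 3) (nat_lit 214) (nat_lit 136) (nat_lit 220)) (PT.lf (nat_lit 12692) (nat_lit 6) (nat_lit 167) (nat_lit 3) (nat_lit 215) (nat_lit 136) (nat_lit 219))) (PT.nd (nat_lit 78) (PT.lf (nat_lit 12768) (nat_lit 6) (nat_lit 168) (nat_lit 3) (nat_lit 216) (nat_lit 136) (nat_lit 218)) (PT.lf (nat_lit 12844) (nat_lit 3) (nat_lit 169) (nat_lit 1) (nat_lit 217) (nat_lit 136) (nat_lit 217)))) (PT.nd (nat_lit 156) (PT.nd (nat_lit 78) (PT.lf (nat_lit 12768) (nat_lit 6) (nat_lit 168) (nat_lit 1) (nat_lit 218) (nat_lit 136) (nat_lit 216)) (PT.lf (nat_lit 12692) (nat_lit 6) (nat_lit 167) (nat_lit 1) (nat_lit 219) (nat_lit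 136) (nat_lit 215))) (PT.nd (nat_lit 78) (PT.lf (nat_lit 12616) (nat_lit 6) (nat_lit 166) (nat_lit 1) (nat_lit 220) (nat_lit 136) (nat_lit 214)) (PT.lf (nat_lit 12540) (nat_lit 6) (nat_lit 165) (nat_lit 1) (nat_lit 221) (nat_lit 136) (nat_lit 213))))) (PT.nd (nat_lit 58734) (PT.nd (nat_lit 58578) (PT.nd (nat_lit 58500) (PT.lf (nat_lit 12464) (nat_lit 6) (nat_lit 164) (nat_lit 1) (nat_lit 222) (nat_lit 136) (nat_lit 212)) (PT.lf (nat_lit 12920) (nat_lit 6) (nat_lit 170) (nat_lit 3) (nat_lit 211) (nat_lit 137) (nat_lit 222))) (PT.nd (nat_lit 78) (PT.lf (nat_lit 12996) (nat_lit 6) (nat_lit 171) (nat_lit 3) (nat_lit 212) (nat_lit 137) (nat_lit 221)) (PT.lf (nat_lit 13072) (nat_lit 6) (nat_lit 172) (nat_lit 3) (nat_lit 213) (nat_lit 137) (nat_lit 220)))) (PT.nd (nat_lit 156) (PT.nd (nat_lit 78) (PT.lf (nat_lit 13148) (nat_lit 6) (nat_lit 173) (nat_lit 3) (nat_lit 214) (nat_lit 137) (nat_lit 219)) (PT.lf (nat_lit 13224) (nat_lit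 6) (nat_lit 174) (nat_lit 3) (nat_lit 215) (nat_lit 137) (nat_lit 218))) (PT.nd (nat_lit 78) (PT.lf (nat_lit 13300) (nat_lit 6) (nat_lit 175) (nat_lit 3) (nat_lit 216) (nat_lit 137) (nat_lit 217)) (PT.lf (nat_lit 13300) (nat_lit 6) (nat_lit 175) (nat_lit 1) (nat_lit 217) (nat_lit 137) (nat_lit 216))))))) (PT.nd (nat_lit 118092) (PT.nd (nat_lit 59046) (PT.nd (nat_lit 312) (PT.nd (nat_lit 156) (PT.nd (nat_lit 78) (PT.lf (nat_lit 13224) (nat_lit 6) (nat_lit 174) (nat_lit 1) (nat_lit 218) (nat_lit 137) (nat_lit 215)) (PT.lf (nat_lit 13148) (nat_lit 6) (nat_lit 173) (nat_lit 1) (nat_lit 219) (nat_lit 137) (nat_lit 214))) (PT.nd (nat_lit 78) (PT.lf (nat_lit 13072) (nat_lit 6) (nat_lit 172) (nat_lit 1) (nat_lit 220) (nat_lit 137) (nat_lit 213)) (PT.lf (nat_lit 12996) (nat_lit 6) (nat_lit 171) (nat_lit 1) (nat_lit 221) (nat_lit 137) (nat_lit 212)))) (PT.nd (nat_lit 58578) (PT.nd (nat_lit 58500) (PT.lf (nat_lit 12920) (nat_lit 6) (nat_lit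 170) (nat_lit 1) (nat_lit 222) (nat_lit 137) (nat_lit 211)) (PT.lf (nat_lit 13376) (nat_lit 6) (nat_lit 176) (nat_lit 3) (nat_lit 211) (nat_lit 138) (nat_lit 221))) (PT.nd (nat_lit 78) (PT.lf (nat_lit 13452) (nat_lit 6) (nat_lit 177) (nat_lit 3) (nat_lit 212) (nat_lit 138) (nat_lit 220)) (PT.lf (nat_lit 13528) (nat_lit 6) (nat_lit 178) (nat_lit 3) (nat_lit 213) (nat_lit 138) (nat_lit 219))))) (PT.nd (nat_lit 312) (PT.nd (nat_lit 156) (PT.nd (nat_lit 78) (PT.lf (nat_lit 13604) (nat_lit 6) (nat_lit 179) (nat_lit 3) (nat_lit 214) (nat_lit 138) (nat_lit 218)) (PT.lf (nat_lit 13680) (nat_lit 6) (nat_lit 180) (nat_lit 3) (nat_lit 215) (nat_lit 138) (nat_lit 217))) (PT.nd (nat_lit 78) (PT.lf (nat_lit 13756) (nat_lit 3) (nat_lit 181) (nat_lit 1) (nat_lit 216) (nat_lit 138) (nat_lit 216)) (PT.lf (nat_lit 13680) (nat_lit 6) (nat_lit 180) (nat_lit 1) (nat_lit 217) (nat_lit 138) (nat_lit 215)))) (PT.nd (nat_lit 156) (PT.nd (nat_lit 78)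 (PT.lf (nat_lit 13604) (nat_lit 6) (nat_lit 179) (nat_lit 1) (nat_lit 218) (nat_lit 138) (nat_lit 214)) (PT.lf (nat_lit 13528) (nat_lit 6) (nat_lit 178) (nat_lit 1) (nat_lit 219) (nat_lit 138) (nat_lit 213))) (PT.nd (nat_lit 78) (PT.lf (nat_lit 13452) (nat_lit 6) (nat_lit 177) (nat_lit 1) (nat_lit 220) (nat_lit 138) (nat_lit 212)) (PT.lf (nat_lit 13376) (nat_lit 6) (nat_lit 176) (nat_lit 1) (nat_lit 221) (nat_lit 138) (nat_lit 211)))))) (PT.nd (nat_lit 624) (PT.nd (nat_lit 312) (PT.nd (nat_lit 156) (PT.nd (nat_lit 78) (PT.lf (nat_lit 13832) (nat_lit 6) (nat_lit 182) (nat_lit 3) (nat_lit 210) (nat_lit 139) (nat_lit 221)) (PT.lf (nat_lit 13908) (nat_lit 6) (nat_lit 183) (nat_lit 3) (nat_lit 211) (nat_lit 139) (nat_lit 220))) (PT.nd (nat_lit 78) (PT.lf (nat_lit 13984) (nat_lit 6) (nat_lit 184) (nat_lit 3) (nat_lit 212) (nat_lit 139) (nat_lit 219)) (PT.lf (nat_lit 14060) (nat_lit 6) (nat_lit 185) (nat_lit 3) (nat_lit 213) (nat_lit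 139) (nat_lit 218)))) (PT.nd (nat_lit 156) (PT.nd (nat_lit 78) (PT.lf (nat_lit 14136) (nat_lit 6) (nat_lit 186) (nat_lit 3) (nat_lit 214) (nat_lit 139) (nat_lit 217)) (PT.lf (nat_lit 14212) (nat_lit 6) (nat_lit 187) (nat_lit 3) (nat_lit 215) (nat_lit 139) (nat_lit 216))) (PT.nd (nat_lit 78) (PT.lf (nat_lit 14212) (nat_lit 6) (nat_lit 187) (nat_lit 1) (nat_lit 216) (nat_lit 139) (nat_lit 215)) (PT.lf (nat_lit 14136) (nat_lit 6) (nat_lit 186) (nat_lit 1) (nat_lit 217) (nat_lit 139) (nat_lit 214))))) (PT.nd (nat_lit 58656) (PT.nd (nat_lit 156) (PT.nd (nat_lit 78) (PT.lf (nat_lit 14060) (nat_lit 6) (nat_lit 185) (nat_lit 1) (nat_lit 218) (nat_lit 139) (nat_lit 213)) (PT.lf (nat_lit 13984) (nat_lit 6) (nat_lit 184) (nat_lit 1) (nat_lit 219) (nat_lit 139) (nat_lit 212))) (PT.nd (nat_lit 78) (PT.lf (nat_lit 13908) (nat_lit 6) (nat_lit 183) (nat_lit 1) (nat_lit 220) (nat_lit 139) (nat_lit 211)) (PT.lf (nat_lit 13832) (nat_lit 6) (nat_lit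 182) (nat_lit 1) (nat_lit 221) (nat_lit 139) (nat_lit 210)))) (PT.nd (nat_lit 156) (PT.nd (nat_lit 78) (PT.lf (nat_lit 14288) (nat_lit 6) (nat_lit 188) (nat_lit 3) (nat_lit 209) (nat_lit 140) (nat_lit 221)) (PT.lf (nat_lit 14364) (nat_lit 6) (nat_lit 189) (nat_lit 3) (nat_lit 210) (nat_lit 140) (nat_lit 220))) (PT.nd (nat_lit 78) (PT.lf (nat_lit 14440) (nat_lit 6) (nat_lit 190) (nat_lit 3) (nat_lit 211) (nat_lit 140) (nat_lit 219)) (PT.lf (nat_lit 14516) (nat_lit 6) (nat_lit 191) (nat_lit 3) (nat_lit 212) (nat_lit 140) (nat_lit 218))))))))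
noncomputable def pc5 : PT := (PT.nd (nat_lit 119184) (PT.nd (nat_lit 59592) (PT.nd (nat_lit 624) (PT.nd (nat_lit 312) (PT.nd (nat_lit 156) (PT.nd (nat_lit 78) (PT.lf (nat_lit 14592) (nat_lit 6) (nat_lit 192) (nat_lit 3) (nat_lit 213) (nat_lit 140) (nat_lit 217)) (PT.lf (nat_lit 14668) (nat_lit 6) (nat_lit 193) (nat_lit 3) (nat_lit 214) (nat_lit 140) (nat_lit 216))) (PT.nd (nat_lit 78) (PT.lf (nat_lit 14744) (nat_lit 3) (nat_lit 194) (nat_lit 1) (nat_lit 215) (nat_lit 140) (nat_lit 215)) (PT.lf (nat_lit 14668) (nat_lit 6) (nat_lit 193) (nat_lit 1) (nat_lit 216) (nat_lit 140) (nat_lit 214)))) (PT.nd (nat_lit 156) (PT.nd (nat_lit 78) (PT.lf (nat_lit 14592) (nat_lit 6) (nat_lit 192) (nat_lit 1) (nat_lit 217) (nat_lit 140) (nat_lit 213)) (PT.lf (nat_lit 14516) (nat_lit 6) (nat_lit 191) (nat_lit 1) (nat_lit 218) (nat_lit 140) (nat_lit 212))) (PT.nd (nat_lit 78) (PT.lf (nat_lit 14440) (nat_lit 6) (nat_lit 190) (nat_lit 1) (nat_lit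 219) (nat_lit 140) (nat_lit 211)) (PT.lf (nat_lit 14364) (nat_lit 6) (nat_lit 189) (nat_lit 1) (nat_lit 220) (nat_lit 140) (nat_lit 210))))) (PT.nd (nat_lit 58656) (PT.nd (nat_lit 58500) (PT.nd (nat_lit 58422) (PT.lf (nat_lit 14288) (nat_lit 6) (nat_lit 188) (nat_lit 1) (nat_lit 221) (nat_lit 140) (nat_lit 209)) (PT.lf (nat_lit 14820) (nat_lit 6) (nat_lit 195) (nat_lit 3) (nat_lit 209) (nat_lit 141) (nat_lit 220))) (PT.nd (nat_lit 78) (PT.lf (nat_lit 14896) (nat_lit 6) (nat_lit 196) (nat_lit 3) (nat_lit 210) (nat_lit 141) (nat_lit 219)) (PT.lf (nat_lit 14972) (nat_lit 6) (nat_lit 197) (nat_lit 3) (nat_lit 211) (nat_lit 141) (nat_lit 218)))) (PT.nd (nat_lit 156) (PT.nd (nat_lit 78) (PT.lf (nat_lit 15048) (nat_lit 6) (nat_lit 198) (nat_lit 3) (nat_lit 212) (nat_lit 141) (nat_lit 217)) (PT.lf (nat_lit 15124) (nat_lit 6) (nat_lit 199) (nat_lit 3) (nat_lit 213) (nat_lit 141) (nat_lit 216))) (PT.nd (nat_lit 78) (PT.lf (nat_lit 15200)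 (nat_lit 6) (nat_lit 200) (nat_lit 3) (nat_lit 214) (nat_lit 141) (nat_lit 215)) (PT.lf (nat_lit 15200) (nat_lit 6) (nat_lit 200) (nat_lit 1) (nat_lit 215) (nat_lit 141) (nat_lit 214)))))) (PT.nd (nat_lit 58968) (PT.nd (nat_lit 312) (PT.nd (nat_lit 156) (PT.nd (nat_lit 78) (PT.lf (nat_lit 15124) (nat_lit 6) (nat_lit 199) (nat_lit 1) (nat_lit 216) (nat_lit 141) (nat_lit 213)) (PT.lf (nat_lit 15048) (nat_lit 6) (nat_lit 198) (nat_lit 1) (nat_lit 217) (nat_lit 141) (nat_lit 212))) (PT.nd (nat_lit 78) (PT.lf (nat_lit 14972) (nat_lit 6) (nat_lit 197) (nat_lit 1) (nat_lit 218) (nat_lit 141) (nat_lit 211)) (PT.lf (nat_lit 14896) (nat_lit 6) (nat_lit 196) (nat_lit 1) (nat_lit 219) (nat_lit 141) (nat_lit 210)))) (PT.nd (nat_lit 58500) (PT.nd (nat_lit 58422) (PT.lf (nat_lit 14820) (nat_lit 6) (nat_lit 195) (nat_lit 1) (nat_lit 220) (nat_lit 141) (nat_lit 209)) (PT.lf (nat_lit 15276) (nat_lit 6) (nat_lit 201) (nat_lit 3) (nat_lit 208)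 (nat_lit 142) (nat_lit 220))) (PT.nd (nat_lit 78) (PT.lf (nat_lit 15352) (nat_lit 6) (nat_lit 202) (nat_lit 3) (nat_lit 209) (nat_lit 142) (nat_lit 219)) (PT.lf (nat_lit 15428) (nat_lit 6) (nat_lit 203) (nat_lit 3) (nat_lit 210) (nat_lit 142) (nat_lit 218))))) (PT.nd (nat_lit 312) (PT.nd (nat_lit 156) (PT.nd (nat_lit 78) (PT.lf (nat_lit 15504) (nat_lit 6) (nat_lit 204) (nat_lit 3) (nat_lit 211) (nat_lit 142) (nat_lit 217)) (PT.lf (nat_lit 15580) (nat_lit 6) (nat_lit 205) (nat_lit 3) (nat_lit 212) (nat_lit 142) (nat_lit 216))) (PT.nd (nat_lit 78) (PT.lf (nat_lit 15656) (nat_lit 6) (nat_lit 206) (nat_lit 3) (nat_lit 213) (nat_lit 142) (nat_lit 215)) (PT.lf (nat_lit 15732) (nat_lit 3) (nat_lit 207) (nat_lit 1) (nat_lit 214) (nat_lit 142) (nat_lit 214)))) (PT.nd (nat_lit 156) (PT.nd (nat_lit 78) (PT.lf (nat_lit 15656) (nat_lit 6) (nat_lit 206) (nat_lit 1) (nat_lit 215) (nat_lit 142) (nat_lit 213)) (PT.lf (nat_lit 15580) (nat_lit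 6) (nat_lit 205) (nat_lit 1) (nat_lit 216) (nat_lit 142) (nat_lit 212))) (PT.nd (nat_lit 78) (PT.lf (nat_lit 15504) (nat_lit 6) (nat_lit 204) (nat_lit 1) (nat_lit 217) (nat_lit 142) (nat_lit 211)) (PT.lf (nat_lit 15428) (nat_lit 6) (nat_lit 203) (nat_lit 1) (nat_lit 218) (nat_lit 142) (nat_lit 210))))))) (PT.nd (nat_lit 117780) (PT.nd (nat_lit 58890) (PT.nd (nat_lit 58578) (PT.nd (nat_lit 58422) (PT.nd (nat_lit 78) (PT.lf (nat_lit 15352) (nat_lit 6) (nat_lit 202) (nat_lit 1) (nat_lit 219) (nat_lit 142) (nat_lit 209)) (PT.lf (nat_lit 15276) (nat_lit 6) (nat_lit 201) (nat_lit 1) (nat_lit 220) (nat_lit 142) (nat_lit 208))) (PT.nd (nat_lit 78) (PT.lf (nat_lit 15808) (nat_lit 6) (nat_lit 208) (nat_lit 3) (nat_lit 207) (nat_lit 143) (nat_lit 220)) (PT.lf (nat_lit 15884) (nat_lit 6) (nat_lit 209) (nat_lit 3) (nat_lit 208) (nat_lit 143) (nat_lit 219)))) (PT.nd (nat_lit 156) (PT.nd (nat_lit 78) (PT.lf (nat_lit 15960) (nat_lit 6) (nat_lit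 210) (nat_lit 3) (nat_lit 209) (nat_lit 143) (nat_lit 218)) (PT.lf (nat_lit 16036) (nat_lit 6) (nat_lit 211) (nat_lit 3) (nat_lit 210) (nat_lit 143) (nat_lit 217))) (PT.nd (nat_lit 78) (PT.lf (nat_lit 16112) (nat_lit 6) (nat_lit 212) (nat_lit 3) (nat_lit 211) (nat_lit 143) (nat_lit 216)) (PT.lf (nat_lit 16188) (nat_lit 6) (nat_lit 213) (nat_lit 3) (nat_lit 212) (nat_lit 143) (nat_lit 215))))) (PT.nd (nat_lit 312) (PT.nd (nat_lit 156) (PT.nd (nat_lit 78) (PT.lf (nat_lit 16264) (nat_lit 6) (nat_lit 214) (nat_lit 3) (nat_lit 213) (nat_lit 143) (nat_lit 214)) (PT.lf (nat_lit 16264) (nat_lit 6) (nat_lit 214) (nat_lit 1) (nat_lit 214) (nat_lit 143) (nat_lit 213))) (PT.nd (nat_lit 78) (PT.lf (nat_lit 16188) (nat_lit 6) (nat_lit 213) (nat_lit 1) (nat_lit 215) (nat_lit 143) (nat_lit 212)) (PT.lf (nat_lit 16112) (nat_lit 6) (nat_lit 212) (nat_lit 1) (nat_lit 216) (nat_lit 143) (nat_lit 211)))) (PT.nd (nat_lit 156) (PT.nd (nat_lit 78)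 (PT.lf (nat_lit 16036) (nat_lit 6) (nat_lit 211) (nat_lit 1) (nat_lit 217) (nat_lit 143) (nat_lit 210)) (PT.lf (nat_lit 15960) (nat_lit 6) (nat_lit 210) (nat_lit 1) (nat_lit 218) (nat_lit 143) (nat_lit 209))) (PT.nd (nat_lit 78) (PT.lf (nat_lit 15884) (nat_lit 6) (nat_lit 209) (nat_lit 1) (nat_lit 219) (nat_lit 143) (nat_lit 208)) (PT.lf (nat_lit 15808) (nat_lit 6) (nat_lit 208) (nat_lit 1) (nat_lit 220) (nat_lit 143) (nat_lit 207)))))) (PT.nd (nat_lit 624) (PT.nd (nat_lit 312) (PT.nd (nat_lit 156) (PT.nd (nat_lit 78) (PT.lf (nat_lit 16340) (nat_lit 6) (nat_lit 215) (nat_lit 3) (nat_lit 207) (nat_lit 144) (nat_lit 219)) (PT.lf (nat_lit 16416) (nat_lit 6) (nat_lit 216) (nat_lit 3) (nat_lit 208) (nat_lit 144) (nat_lit 218))) (PT.nd (nat_lit 78) (PT.lf (nat_lit 16492) (nat_lit 6) (nat_lit 217) (nat_lit 3) (nat_lit 209) (nat_lit 144) (nat_lit 217)) (PT.lf (nat_lit 16568) (nat_lit 6) (nat_lit 218) (nat_lit 3) (nat_lit 210) (nat_lit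 144) (nat_lit 216)))) (PT.nd (nat_lit 156) (PT.nd (nat_lit 78) (PT.lf (nat_lit 16644) (nat_lit 6) (nat_lit 219) (nat_lit 3) (nat_lit 211) (nat_lit 144) (nat_lit 215)) (PT.lf (nat_lit 16720) (nat_lit 6) (nat_lit 220) (nat_lit 3) (nat_lit 212) (nat_lit 144) (nat_lit 214))) (PT.nd (nat_lit 78) (PT.lf (nat_lit 16796) (nat_lit 3) (nat_lit 221) (nat_lit 1) (nat_lit 213) (nat_lit 144) (nat_lit 213)) (PT.lf (nat_lit 16720) (nat_lit 6) (nat_lit 220) (nat_lit 1) (nat_lit 214) (nat_lit 144) (nat_lit 212))))) (PT.nd (nat_lit 312) (PT.nd (nat_lit 156) (PT.nd (nat_lit 78) (PT.lf (nat_lit 16644) (nat_lit 6) (nat_lit 219) (nat_lit 1) (nat_lit 215) (nat_lit 144) (nat_lit 211)) (PT.lf (nat_lit 16568) (nat_lit 6) (nat_lit 218) (nat_lit 1) (nat_lit 216) (nat_lit 144) (nat_lit 210))) (PT.nd (nat_lit 78) (PT.lf (nat_lit 16492) (nat_lit 6) (nat_lit 217) (nat_lit 1) (nat_lit 217) (nat_lit 144) (nat_lit 209)) (PT.lf (nat_lit 16416) (nat_lit 6) (nat_lit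 216) (nat_lit 1) (nat_lit 218) (nat_lit 144) (nat_lit 208)))) (PT.nd (nat_lit 58422) (PT.nd (nat_lit 58344) (PT.lf (nat_lit 16340) (nat_lit 6) (nat_lit 215) (nat_lit 1) (nat_lit 219) (nat_lit 144) (nat_lit 207)) (PT.lf (nat_lit 16872) (nat_lit 6) (nat_lit 222) (nat_lit 3) (nat_lit 206) (nat_lit 145) (nat_lit 219))) (PT.nd (nat_lit 78) (PT.lf (nat_lit 16948) (nat_lit 6) (nat_lit 223) (nat_lit 3) (nat_lit 207) (nat_lit 145) (nat_lit 218)) (PT.lf (nat_lit 17024) (nat_lit 6) (nat_lit 224) (nat_lit 3) (nat_lit 208) (nat_lit 145) (nat_lit 217))))))))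
noncomputable def pc6 : PT := (PT.nd (nat_lit 118872) (PT.nd (nat_lit 59436) (PT.nd (nat_lit 624) (PT.nd (nat_lit 312) (PT.nd (nat_lit 156) (PT.nd (nat_lit 78) (PT.lf (nat_lit 17100) (nat_lit 6) (nat_lit 225) (nat_lit 3) (nat_lit 209) (nat_lit 145) (nat_lit 216)) (PT.lf (nat_lit 17176) (nat_lit 6) (nat_lit 226) (nat_lit 3) (nat_lit 210) (nat_lit 145) (nat_lit 215))) (PT.nd (nat_lit 78) (PT.lf (nat_lit 17252) (nat_lit 6) (nat_lit 227) (nat_lit 3) (nat_lit 211) (nat_lit 145) (nat_lit 214)) (PT.lf (nat_lit 17328) (nat_lit 6) (nat_lit 228) (nat_lit 3) (nat_lit 212) (nat_lit 145) (nat_lit 213)))) (PT.nd (nat_lit 156) (PT.nd (nat_lit 78) (PT.lf (nat_lit 17328) (nat_lit 6) (nat_lit 228) (nat_lit 1) (nat_lit 213) (nat_lit 145) (nat_lit 212)) (PT.lf (nat_lit 17252) (nat_lit 6) (nat_lit 227) (nat_lit 1) (nat_lit 214) (nat_lit 145) (nat_lit 211))) (PT.nd (nat_lit 78) (PT.lf (nat_lit 17176) (nat_lit 6) (nat_lit 226) (nat_lit 1) (nat_lit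 215) (nat_lit 145) (nat_lit 210)) (PT.lf (nat_lit 17100) (nat_lit 6) (nat_lit 225) (nat_lit 1) (nat_lit 216) (nat_lit 145) (nat_lit 209))))) (PT.nd (nat_lit 58500) (PT.nd (nat_lit 156) (PT.nd (nat_lit 78) (PT.lf (nat_lit 17024) (nat_lit 6) (nat_lit 224) (nat_lit 1) (nat_lit 217) (nat_lit 145) (nat_lit 208)) (PT.lf (nat_lit 16948) (nat_lit 6) (nat_lit 223) (nat_lit 1) (nat_lit 218) (nat_lit 145) (nat_lit 207))) (PT.nd (nat_lit 58266) (PT.lf (nat_lit 16872) (nat_lit 6) (nat_lit 222) (nat_lit 1) (nat_lit 219) (nat_lit 145) (nat_lit 206)) (PT.lf (nat_lit 17404) (nat_lit 6) (nat_lit 229) (nat_lit 3) (nat_lit 205) (nat_lit 146) (nat_lit 219)))) (PT.nd (nat_lit 156) (PT.nd (nat_lit 78) (PT.lf (nat_lit 17480) (nat_lit 6) (nat_lit 230) (nat_lit 3) (nat_lit 206) (nat_lit 146) (nat_lit 218)) (PT.lf (nat_lit 17556) (nat_lit 6) (nat_lit 231) (nat_lit 3) (nat_lit 207) (nat_lit 146) (nat_lit 217))) (PT.nd (nat_lit 78) (PT.lf (nat_lit 17632)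 (nat_lit 6) (nat_lit 232) (nat_lit 3) (nat_lit 208) (nat_lit 146) (nat_lit 216)) (PT.lf (nat_lit 17708) (nat_lit 6) (nat_lit 233) (nat_lit 3) (nat_lit 209) (nat_lit 146) (nat_lit 215)))))) (PT.nd (nat_lit 624) (PT.nd (nat_lit 312) (PT.nd (nat_lit 156) (PT.nd (nat_lit 78) (PT.lf (nat_lit 17784) (nat_lit 6) (nat_lit 234) (nat_lit 3) (nat_lit 210) (nat_lit 146) (nat_lit 214)) (PT.lf (nat_lit 17860) (nat_lit 6) (nat_lit 235) (nat_lit 3) (nat_lit 211) (nat_lit 146) (nat_lit 213))) (PT.nd (nat_lit 78) (PT.lf (nat_lit 17936) (nat_lit 3) (nat_lit 236) (nat_lit 1) (nat_lit 212) (nat_lit 146) (nat_lit 212)) (PT.lf (nat_lit 17860) (nat_lit 6) (nat_lit 235) (nat_lit 1) (nat_lit 213) (nat_lit 146) (nat_lit 211)))) (PT.nd (nat_lit 156) (PT.nd (nat_lit 78) (PT.lf (nat_lit 17784) (nat_lit 6) (nat_lit 234) (nat_lit 1) (nat_lit 214) (nat_lit 146) (nat_lit 210)) (PT.lf (nat_lit 17708) (nat_lit 6) (nat_lit 233) (nat_lit 1) (nat_lit 215) (nat_lit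 146) (nat_lit 209))) (PT.nd (nat_lit 78) (PT.lf (nat_lit 17632) (nat_lit 6) (nat_lit 232) (nat_lit 1) (nat_lit 216) (nat_lit 146) (nat_lit 208)) (PT.lf (nat_lit 17556) (nat_lit 6) (nat_lit 231) (nat_lit 1) (nat_lit 217) (nat_lit 146) (nat_lit 207))))) (PT.nd (nat_lit 58500) (PT.nd (nat_lit 58344) (PT.nd (nat_lit 78) (PT.lf (nat_lit 17480) (nat_lit 6) (nat_lit 230) (nat_lit 1) (nat_lit 218) (nat_lit 146) (nat_lit 206)) (PT.lf (nat_lit 17404) (nat_lit 6) (nat_lit 229) (nat_lit 1) (nat_lit 219) (nat_lit 146) (nat_lit 205))) (PT.nd (nat_lit 78) (PT.lf (nat_lit 18088) (nat_lit 6) (nat_lit 238) (nat_lit 3) (nat_lit 205) (nat_lit 147) (nat_lit 218)) (PT.lf (nat_lit 18164) (nat_lit 6) (nat_lit 239) (nat_lit 3) (nat_lit 206) (nat_lit 147) (nat_lit 217)))) (PT.nd (nat_lit 156) (PT.nd (nat_lit 78) (PT.lf (nat_lit 18240) (nat_lit 6) (nat_lit 240) (nat_lit 3) (nat_lit 207) (nat_lit 147) (nat_lit 216)) (PT.lf (nat_lit 18316) (nat_lit 6)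 (nat_lit 241) (nat_lit 3) (nat_lit 208) (nat_lit 147) (nat_lit 215))) (PT.nd (nat_lit 78) (PT.lf (nat_lit 18392) (nat_lit 6) (nat_lit 242) (nat_lit 3) (nat_lit 209) (nat_lit 147) (nat_lit 214)) (PT.lf (nat_lit 18468) (nat_lit 6) (nat_lit 243) (nat_lit 3) (nat_lit 210) (nat_lit 147) (nat_lit 213))))))) (PT.nd (nat_lit 59436) (PT.nd (nat_lit 58812) (PT.nd (nat_lit 312) (PT.nd (nat_lit 156) (PT.nd (nat_lit 78) (PT.lf (nat_lit 18544) (nat_lit 6) (nat_lit 244) (nat_lit 3) (nat_lit 211) (nat_lit 147) (nat_lit 212)) (PT.lf (nat_lit 18544) (nat_lit 6) (nat_lit 244) (nat_lit 1) (nat_lit 212) (nat_lit 147) (nat_lit 211))) (PT.nd (nat_lit 78) (PT.lf (nat_lit 18468) (nat_lit 6) (nat_lit 243) (nat_lit 1) (nat_lit 213) (nat_lit 147) (nat_lit 210)) (PT.lf (nat_lit 18392) (nat_lit 6) (nat_lit 242) (nat_lit 1) (nat_lit 214) (nat_lit 147) (nat_lit 209)))) (PT.nd (nat_lit 156) (PT.nd (nat_lit 78) (PT.lf (nat_lit 18316) (nat_lit 6) (nat_lit 241)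 (nat_lit 1) (nat_lit 215) (nat_lit 147) (nat_lit 208)) (PT.lf (nat_lit 18240) (nat_lit 6) (nat_lit 240) (nat_lit 1) (nat_lit 216) (nat_lit 147) (nat_lit 207))) (PT.nd (nat_lit 78) (PT.lf (nat_lit 18164) (nat_lit 6) (nat_lit 239) (nat_lit 1) (nat_lit 217) (nat_lit 147) (nat_lit 206)) (PT.lf (nat_lit 18088) (nat_lit 6) (nat_lit 238) (nat_lit 1) (nat_lit 218) (nat_lit 147) (nat_lit 205))))) (PT.nd (nat_lit 312) (PT.nd (nat_lit 156) (PT.nd (nat_lit 78) (PT.lf (nat_lit 18620) (nat_lit 6) (nat_lit 245) (nat_lit 3) (nat_lit 204) (nat_lit 148) (nat_lit 218)) (PT.lf (nat_lit 18696) (nat_lit 6) (nat_lit 246) (nat_lit 3) (nat_lit 205) (nat_lit 148) (nat_lit 217))) (PT.nd (nat_lit 78) (PT.lf (nat_lit 18772) (nat_lit 6) (nat_lit 247) (nat_lit 3) (nat_lit 206) (nat_lit 148) (nat_lit 216)) (PT.lf (nat_lit 18848) (nat_lit 6) (nat_lit 248) (nat_lit 3) (nat_lit 207) (nat_lit 148) (nat_lit 215)))) (PT.nd (nat_lit 156) (PT.nd (nat_lit 78) (PT.lf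 (nat_lit 18924) (nat_lit 6) (nat_lit 249) (nat_lit 3) (nat_lit 208) (nat_lit 148) (nat_lit 214)) (PT.lf (nat_lit 19000) (nat_lit 6) (nat_lit 250) (nat_lit 3) (nat_lit 209) (nat_lit 148) (nat_lit 213))) (PT.nd (nat_lit 78) (PT.lf (nat_lit 19076) (nat_lit 6) (nat_lit 251) (nat_lit 3) (nat_lit 210) (nat_lit 148) (nat_lit 212)) (PT.lf (nat_lit 19152) (nat_lit 3) (nat_lit 252) (nat_lit 1) (nat_lit 211) (nat_lit 148) (nat_lit 211)))))) (PT.nd (nat_lit 58734) (PT.nd (nat_lit 312) (PT.nd (nat_lit 156) (PT.nd (nat_lit 78) (PT.lf (nat_lit 19076) (nat_lit 6) (nat_lit 251) (nat_lit 1) (nat_lit 212) (nat_lit 148) (nat_lit 210)) (PT.lf (nat_lit 19000) (nat_lit 6) (nat_lit 250) (nat_lit 1) (nat_lit 213) (nat_lit 148) (nat_lit 209))) (PT.nd (nat_lit 78) (PT.lf (nat_lit 18924) (nat_lit 6) (nat_lit 249) (nat_lit 1) (nat_lit 214) (nat_lit 148) (nat_lit 208)) (PT.lf (nat_lit 18848) (nat_lit 6) (nat_lit 248) (nat_lit 1) (nat_lit 215) (nat_lit 148)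 (nat_lit 207)))) (PT.nd (nat_lit 156) (PT.nd (nat_lit 78) (PT.lf (nat_lit 18772) (nat_lit 6) (nat_lit 247) (nat_lit 1) (nat_lit 216) (nat_lit 148) (nat_lit 206)) (PT.lf (nat_lit 18696) (nat_lit 6) (nat_lit 246) (nat_lit 1) (nat_lit 217) (nat_lit 148) (nat_lit 205))) (PT.nd (nat_lit 58188) (PT.lf (nat_lit 18620) (nat_lit 6) (nat_lit 245) (nat_lit 1) (nat_lit 218) (nat_lit 148) (nat_lit 204)) (PT.lf (nat_lit 19228) (nat_lit 6) (nat_lit 253) (nat_lit 3) (nat_lit 203) (nat_lit 149) (nat_lit 218))))) (PT.nd (nat_lit 312) (PT.nd (nat_lit 156) (PT.nd (nat_lit 78) (PT.lf (nat_lit 19304) (nat_lit 6) (nat_lit 254) (nat_lit 3) (nat_lit 204) (nat_lit 149) (nat_lit 217)) (PT.lf (nat_lit 19380) (nat_lit 6) (nat_lit 255) (nat_lit 3) (nat_lit 205) (nat_lit 149) (nat_lit 216))) (PT.nd (nat_lit 78) (PT.lf (nat_lit 19456) (nat_lit 6) (nat_lit 256) (nat_lit 3) (nat_lit 206) (nat_lit 149) (nat_lit 215)) (PT.lf (nat_lit 19532) (nat_lit 6) (nat_lit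 257) (nat_lit 3) (nat_lit 207) (nat_lit 149) (nat_lit 214)))) (PT.nd (nat_lit 156) (PT.nd (nat_lit 78) (PT.lf (nat_lit 19608) (nat_lit 6) (nat_lit 258) (nat_lit 3) (nat_lit 208) (nat_lit 149) (nat_lit 213)) (PT.lf (nat_lit 19684) (nat_lit 6) (nat_lit 259) (nat_lit 3) (nat_lit 209) (nat_lit 149) (nat_lit 212))) (PT.nd (nat_lit 78) (PT.lf (nat_lit 19760) (nat_lit 6) (nat_lit 260) (nat_lit 3) (nat_lit 210) (nat_lit 149) (nat_lit 211)) (PT.lf (nat_lit 19760) (nat_lit 6) (nat_lit 260) (nat_lit 1) (nat_lit 211) (nat_lit 149) (nat_lit 210))))))))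
noncomputable def pc7 : PT := (PT.nd (nat_lit 59280) (PT.nd (nat_lit 58656) (PT.nd (nat_lit 312) (PT.nd (nat_lit 156) (PT.nd (nat_lit 78) (PT.lf (nat_lit 19684) (nat_lit 6) (nat_lit 259) (nat_lit 1) (nat_lit 212) (nat_lit 149) (nat_lit 209)) (PT.lf (nat_lit 19608) (nat_lit 6) (nat_lit 258) (nat_lit 1) (nat_lit 213) (nat_lit 149) (nat_lit 208))) (PT.nd (nat_lit 78) (PT.lf (nat_lit 19532) (nat_lit 6) (nat_lit 257) (nat_lit 1) (nat_lit 214) (nat_lit 149) (nat_lit 207)) (PT.lf (nat_lit 19456) (nat_lit 6) (nat_lit 256) (nat_lit 1) (nat_lit 215) (nat_lit 149) (nat_lit 206)))) (PT.nd (nat_lit 156) (PT.nd (nat_lit 78) (PT.lf (nat_lit 19380) (nat_lit 6) (nat_lit 255) (nat_lit 1) (nat_lit 216) (nat_lit 149) (nat_lit 205)) (PT.lf (nat_lit 19304) (nat_lit 6) (nat_lit 254) (nat_lit 1) (nat_lit 217) (nat_lit 149) (nat_lit 204))) (PT.nd (nat_lit 58110) (PT.lf (nat_lit 19228) (nat_lit 6) (nat_lit 253) (nat_lit 1) (nat_lit 218) (nat_lit 149)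 (nat_lit 203)) (PT.lf (nat_lit 19836) (nat_lit 6) (nat_lit 261) (nat_lit 3) (nat_lit 202) (nat_lit 150) (nat_lit 218))))) (PT.nd (nat_lit 312) (PT.nd (nat_lit 156) (PT.nd (nat_lit 78) (PT.lf (nat_lit 19912) (nat_lit 6) (nat_lit 262) (nat_lit 3) (nat_lit 203) (nat_lit 150) (nat_lit 217)) (PT.lf (nat_lit 19988) (nat_lit 6) (nat_lit 263) (nat_lit 3) (nat_lit 204) (nat_lit 150) (nat_lit 216))) (PT.nd (nat_lit 78) (PT.lf (nat_lit 20064) (nat_lit 6) (nat_lit 264) (nat_lit 3) (nat_lit 205) (nat_lit 150) (nat_lit 215)) (PT.lf (nat_lit 20140) (nat_lit 6) (nat_lit 265) (nat_lit 3) (nat_lit 206) (nat_lit 150) (nat_lit 214)))) (PT.nd (nat_lit 156) (PT.nd (nat_lit 78) (PT.lf (nat_lit 20216) (nat_lit 6) (nat_lit 266) (nat_lit 3) (nat_lit 207) (nat_lit 150) (nat_lit 213)) (PT.lf (nat_lit 20292) (nat_lit 6) (nat_lit 267) (nat_lit 3) (nat_lit 208) (nat_lit 150) (nat_lit 212))) (PT.nd (nat_lit 78) (PT.lf (nat_lit 20368) (nat_lit 6) (nat_lit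 268) (nat_lit 3) (nat_lit 209) (nat_lit 150) (nat_lit 211)) (PT.lf (nat_lit 20444) (nat_lit 3) (nat_lit 269) (nat_lit 1) (nat_lit 210) (nat_lit 150) (nat_lit 210)))))) (PT.nd (nat_lit 58656) (PT.nd (nat_lit 312) (PT.nd (nat_lit 156) (PT.nd (nat_lit 78) (PT.lf (nat_lit 20368) (nat_lit 6) (nat_lit 268) (nat_lit 1) (nat_lit 211) (nat_lit 150) (nat_lit 209)) (PT.lf (nat_lit 20292) (nat_lit 6) (nat_lit 267) (nat_lit 1) (nat_lit 212) (nat_lit 150) (nat_lit 208))) (PT.nd (nat_lit 78) (PT.lf (nat_lit 20216) (nat_lit 6) (nat_lit 266) (nat_lit 1) (nat_lit 213) (nat_lit 150) (nat_lit 207)) (PT.lf (nat_lit 20140) (nat_lit 6) (nat_lit 265) (nat_lit 1) (nat_lit 214) (nat_lit 150) (nat_lit 206)))) (PT.nd (nat_lit 156) (PT.nd (nat_lit 78) (PT.lf (nat_lit 20064) (nat_lit 6) (nat_lit 264) (nat_lit 1) (nat_lit 215) (nat_lit 150) (nat_lit 205)) (PT.lf (nat_lit 19988) (nat_lit 6) (nat_lit 263) (nat_lit 1) (nat_lit 216) (nat_lit 150) (nat_lit 204)))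 (PT.nd (nat_lit 78) (PT.lf (nat_lit 19912) (nat_lit 6) (nat_lit 262) (nat_lit 1) (nat_lit 217) (nat_lit 150) (nat_lit 203)) (PT.lf (nat_lit 19836) (nat_lit 6) (nat_lit 261) (nat_lit 1) (nat_lit 218) (nat_lit 150) (nat_lit 202))))) (PT.nd (nat_lit 312) (PT.nd (nat_lit 156) (PT.nd (nat_lit 78) (PT.lf (nat_lit 20520) (nat_lit 6) (nat_lit 270) (nat_lit 3) (nat_lit 202) (nat_lit 151) (nat_lit 217)) (PT.lf (nat_lit 20596) (nat_lit 6) (nat_lit 271) (nat_lit 3) (nat_lit 203) (nat_lit 151) (nat_lit 216))) (PT.nd (nat_lit 78) (PT.lf (nat_lit 20672) (nat_lit 6) (nat_lit 272) (nat_lit 3) (nat_lit 204) (nat_lit 151) (nat_lit 215)) (PT.lf (nat_lit 20748) (nat_lit 6) (nat_lit 273) (nat_lit 3) (nat_lit 205) (nat_lit 151) (nat_lit 214)))) (PT.nd (nat_lit 156) (PT.nd (nat_lit 78) (PT.lf (nat_lit 20824) (nat_lit 6) (nat_lit 274) (nat_lit 3) (nat_lit 206) (nat_lit 151) (nat_lit 213)) (PT.lf (nat_lit 20900) (nat_lit 6) (nat_lit 275) (nat_lit 3)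 (nat_lit 207) (nat_lit 151) (nat_lit 212))) (PT.nd (nat_lit 78) (PT.lf (nat_lit 20976) (nat_lit 6) (nat_lit 276) (nat_lit 3) (nat_lit 208) (nat_lit 151) (nat_lit 211)) (PT.lf (nat_lit 21052) (nat_lit 6) (nat_lit 277) (nat_lit 3) (nat_lit 209) (nat_lit 151) (nat_lit 210)))))))
noncomputable def pc8 : PT := (PT.nd (nat_lit 59280) (PT.nd (nat_lit 58656) (PT.nd (nat_lit 312) (PT.nd (nat_lit 156) (PT.nd (nat_lit 78) (PT.lf (nat_lit 21052) (nat_lit 6) (nat_lit 277) (nat_lit 1) (nat_lit 210) (nat_lit 151) (nat_lit 209)) (PT.lf (nat_lit 20976) (nat_lit 6) (nat_lit 276) (nat_lit 1) (nat_lit 211) (nat_lit 151) (nat_lit 208))) (PT.nd (nat_lit 78) (PT.lf (nat_lit 20900) (nat_lit 6) (nat_lit 275) (nat_lit 1) (nat_lit 212) (nat_lit 151) (nat_lit 207)) (PT.lf (nat_lit 20824) (nat_lit 6) (nat_lit 274) (nat_lit 1) (nat_lit 213) (nat_lit 151) (nat_lit 206)))) (PT.nd (nat_lit 156) (PT.nd (nat_lit 78) (PT.lf (nat_lit 20748) (nat_lit 6) (nat_lit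 273) (nat_lit 1) (nat_lit 214) (nat_lit 151) (nat_lit 205)) (PT.lf (nat_lit 20672) (nat_lit 6) (nat_lit 272) (nat_lit 1) (nat_lit 215) (nat_lit 151) (nat_lit 204))) (PT.nd (nat_lit 78) (PT.lf (nat_lit 20596) (nat_lit 6) (nat_lit 271) (nat_lit 1) (nat_lit 216) (nat_lit 151) (nat_lit 203)) (PT.lf (nat_lit 20520) (nat_lit 6) (nat_lit 270) (nat_lit 1) (nat_lit 217) (nat_lit 151) (nat_lit 202))))) (PT.nd (nat_lit 312) (PT.nd (nat_lit 156) (PT.nd (nat_lit 78) (PT.lf (nat_lit 21128) (nat_lit 6) (nat_lit 278) (nat_lit 3) (nat_lit 201) (nat_lit 152) (nat_lit 217)) (PT.lf (nat_lit 21204) (nat_lit 6) (nat_lit 279) (nat_lit 3) (nat_lit 202) (nat_lit 152) (nat_lit 216))) (PT.nd (nat_lit 78) (PT.lf (nat_lit 21280) (nat_lit 6) (nat_lit 280) (nat_lit 3) (nat_lit 203) (nat_lit 152) (nat_lit 215)) (PT.lf (nat_lit 21356) (nat_lit 6) (nat_lit 281) (nat_lit 3) (nat_lit 204) (nat_lit 152) (nat_lit 214)))) (PT.nd (nat_lit 156) (PT.nd (nat_lit 78)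 (PT.lf (nat_lit 21432) (nat_lit 6) (nat_lit 282) (nat_lit 3) (nat_lit 205) (nat_lit 152) (nat_lit 213)) (PT.lf (nat_lit 21508) (nat_lit 6) (nat_lit 283) (nat_lit 3) (nat_lit 206) (nat_lit 152) (nat_lit 212))) (PT.nd (nat_lit 78) (PT.lf (nat_lit 21584) (nat_lit 6) (nat_lit 284) (nat_lit 3) (nat_lit 207) (nat_lit 152) (nat_lit 211)) (PT.lf (nat_lit 21660) (nat_lit 6) (nat_lit 285) (nat_lit 3) (nat_lit 208) (nat_lit 152) (nat_lit 210)))))) (PT.nd (nat_lit 624) (PT.nd (nat_lit 312) (PT.nd (nat_lit 156) (PT.nd (nat_lit 78) (PT.lf (nat_lit 21736) (nat_lit 3) (nat_lit 286) (nat_lit 1) (nat_lit 209) (nat_lit 152) (nat_lit 209)) (PT.lf (nat_lit 21660) (nat_lit 6) (nat_lit 285) (nat_lit 1) (nat_lit 210) (nat_lit 152) (nat_lit 208))) (PT.nd (nat_lit 78) (PT.lf (nat_lit 21584) (nat_lit 6) (nat_lit 284) (nat_lit 1) (nat_lit 211) (nat_lit 152) (nat_lit 207)) (PT.lf (nat_lit 21508) (nat_lit 6) (nat_lit 283) (nat_lit 1) (nat_lit 212) (nat_lit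 152) (nat_lit 206)))) (PT.nd (nat_lit 156) (PT.nd (nat_lit 78) (PT.lf (nat_lit 21432) (nat_lit 6) (nat_lit 282) (nat_lit 1) (nat_lit 213) (nat_lit 152) (nat_lit 205)) (PT.lf (nat_lit 21356) (nat_lit 6) (nat_lit 281) (nat_lit 1) (nat_lit 214) (nat_lit 152) (nat_lit 204))) (PT.nd (nat_lit 78) (PT.lf (nat_lit 21280) (nat_lit 6) (nat_lit 280) (nat_lit 1) (nat_lit 215) (nat_lit 152) (nat_lit 203)) (PT.lf (nat_lit 21204) (nat_lit 6) (nat_lit 279) (nat_lit 1) (nat_lit 216) (nat_lit 152) (nat_lit 202))))) (PT.nd (nat_lit 58266) (PT.nd (nat_lit 58110) (PT.nd (nat_lit 58032) (PT.lf (nat_lit 21128) (nat_lit 6) (nat_lit 278) (nat_lit 1) (nat_lit 217) (nat_lit 152) (nat_lit 201)) (PT.lf (nat_lit 21812) (nat_lit 6) (nat_lit 287) (nat_lit 3) (nat_lit 200) (nat_lit 153) (nat_lit 217))) (PT.nd (nat_lit 78) (PT.lf (nat_lit 21888) (nat_lit 6) (nat_lit 288) (nat_lit 3) (nat_lit 201) (nat_lit 153) (nat_lit 216)) (PT.lf (nat_lit 21964) (nat_lit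 6) (nat_lit 289) (nat_lit 3) (nat_lit 202) (nat_lit 153) (nat_lit 215)))) (PT.nd (nat_lit 156) (PT.nd (nat_lit 78) (PT.lf (nat_lit 22040) (nat_lit 6) (nat_lit 290) (nat_lit 3) (nat_lit 203) (nat_lit 153) (nat_lit 214)) (PT.lf (nat_lit 22116) (nat_lit 6) (nat_lit 291) (nat_lit 3) (nat_lit 204) (nat_lit 153) (nat_lit 213))) (PT.nd (nat_lit 78) (PT.lf (nat_lit 22192) (nat_lit 6) (nat_lit 292) (nat_lit 3) (nat_lit 205) (nat_lit 153) (nat_lit 212)) (PT.nd (nat_lit 78) (PT.lf (nat_lit 22268) (nat_lit 6) (nat_lit 293) (nat_lit 3) (nat_lit 206) (nat_lit 153) (nat_lit 211)) (PT.lf (nat_lit 22344) (nat_lit 6) (nat_lit 294) (nat_lit 3) (nat_lit 207) (nat_lit 153) (nat_lit 210))))))))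
noncomputable def pc9 : PT := (PT.nd (nat_lit 118248) (PT.nd (nat_lit 59124) (PT.nd (nat_lit 624) (PT.nd (nat_lit 312) (PT.nd (nat_lit 156) (PT.nd (nat_lit 78) (PT.lf (nat_lit 22420) (nat_lit 6) (nat_lit 295) (nat_lit 3) (nat_lit 208) (nat_lit 153) (nat_lit 209)) (PT.lf (nat_lit 22420) (nat_lit 6) (nat_lit 295) (nat_lit 1) (nat_lit 209) (nat_lit 153) (nat_lit 208))) (PT.nd (nat_lit 78) (PT.lf (nat_lit 22344) (nat_lit 6) (nat_lit 294) (nat_lit 1) (nat_lit 210) (nat_lit 153) (nat_lit 207)) (PT.lf (nat_lit 22268) (nat_lit 6) (nat_lit 293) (nat_lit 1) (nat_lit 211) (nat_lit 153) (nat_lit 206)))) (PT.nd (nat_lit 156) (PT.nd (nat_lit 78) (PT.lf (nat_lit 22192) (nat_lit 6) (nat_lit 292) (nat_lit 1) (nat_lit 212) (nat_lit 153) (nat_lit 205)) (PT.lf (nat_lit 22116) (nat_lit 6) (nat_lit 291) (nat_lit 1) (nat_lit 213) (nat_lit 153) (nat_lit 204))) (PT.nd (nat_lit 78) (PT.lf (nat_lit 22040) (nat_lit 6) (nat_lit 290) (nat_lit 1) (nat_lit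 214) (nat_lit 153) (nat_lit 203)) (PT.lf (nat_lit 21964) (nat_lit 6) (nat_lit 289) (nat_lit 1) (nat_lit 215) (nat_lit 153) (nat_lit 202))))) (PT.nd (nat_lit 58188) (PT.nd (nat_lit 58032) (PT.nd (nat_lit 78) (PT.lf (nat_lit 21888) (nat_lit 6) (nat_lit 288) (nat_lit 1) (nat_lit 216) (nat_lit 153) (nat_lit 201)) (PT.lf (nat_lit 21812) (nat_lit 6) (nat_lit 287) (nat_lit 1) (nat_lit 217) (nat_lit 153) (nat_lit 200))) (PT.nd (nat_lit 78) (PT.lf (nat_lit 22496) (nat_lit 6) (nat_lit 296) (nat_lit 3) (nat_lit 199) (nat_lit 154) (nat_lit 217)) (PT.lf (nat_lit 22572) (nat_lit 6) (nat_lit 297) (nat_lit 3) (nat_lit 200) (nat_lit 154) (nat_lit 216)))) (PT.nd (nat_lit 156) (PT.nd (nat_lit 78) (PT.lf (nat_lit 22648) (nat_lit 6) (nat_lit 298) (nat_lit 3) (nat_lit 201) (nat_lit 154) (nat_lit 215)) (PT.lf (nat_lit 22724) (nat_lit 6) (nat_lit 299) (nat_lit 3) (nat_lit 202) (nat_lit 154) (nat_lit 214))) (PT.nd (nat_lit 78) (PT.lf (nat_lit 22800)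 (nat_lit 6) (nat_lit 300) (nat_lit 3) (nat_lit 203) (nat_lit 154) (nat_lit 213)) (PT.lf (nat_lit 22876) (nat_lit 6) (nat_lit 301) (nat_lit 3) (nat_lit 204) (nat_lit 154) (nat_lit 212)))))) (PT.nd (nat_lit 624) (PT.nd (nat_lit 312) (PT.nd (nat_lit 156) (PT.nd (nat_lit 78) (PT.lf (nat_lit 22952) (nat_lit 6) (nat_lit 302) (nat_lit 3) (nat_lit 205) (nat_lit 154) (nat_lit 211)) (PT.lf (nat_lit 23028) (nat_lit 6) (nat_lit 303) (nat_lit 3) (nat_lit 206) (nat_lit 154) (nat_lit 210))) (PT.nd (nat_lit 78) (PT.lf (nat_lit 23104) (nat_lit 6) (nat_lit 304) (nat_lit 3) (nat_lit 207) (nat_lit 154) (nat_lit 209)) (PT.lf (nat_lit 23180) (nat_lit 3) (nat_lit 305) (nat_lit 1) (nat_lit 208) (nat_lit 154) (nat_lit 208)))) (PT.nd (nat_lit 156) (PT.nd (nat_lit 78) (PT.lf (nat_lit 23104) (nat_lit 6) (nat_lit 304) (nat_lit 1) (nat_lit 209) (nat_lit 154) (nat_lit 207)) (PT.lf (nat_lit 23028) (nat_lit 6) (nat_lit 303) (nat_lit 1) (nat_lit 210) (nat_lit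 154) (nat_lit 206))) (PT.nd (nat_lit 78) (PT.lf (nat_lit 22952) (nat_lit 6) (nat_lit 302) (nat_lit 1) (nat_lit 211) (nat_lit 154) (nat_lit 205)) (PT.lf (nat_lit 22876) (nat_lit 6) (nat_lit 301) (nat_lit 1) (nat_lit 212) (nat_lit 154) (nat_lit 204))))) (PT.nd (nat_lit 312) (PT.nd (nat_lit 156) (PT.nd (nat_lit 78) (PT.lf (nat_lit 22800) (nat_lit 6) (nat_lit 300) (nat_lit 1) (nat_lit 213) (nat_lit 154) (nat_lit 203)) (PT.lf (nat_lit 22724) (nat_lit 6) (nat_lit 299) (nat_lit 1) (nat_lit 214) (nat_lit 154) (nat_lit 202))) (PT.nd (nat_lit 78) (PT.lf (nat_lit 22648) (nat_lit 6) (nat_lit 298) (nat_lit 1) (nat_lit 215) (nat_lit 154) (nat_lit 201)) (PT.lf (nat_lit 22572) (nat_lit 6) (nat_lit 297) (nat_lit 1) (nat_lit 216) (nat_lit 154) (nat_lit 200)))) (PT.nd (nat_lit 58032) (PT.nd (nat_lit 57954) (PT.lf (nat_lit 22496) (nat_lit 6) (nat_lit 296) (nat_lit 1) (nat_lit 217) (nat_lit 154) (nat_lit 199)) (PT.lf (nat_lit 23256) (nat_lit 6)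 (nat_lit 306) (nat_lit 3) (nat_lit 199) (nat_lit 155) (nat_lit 216))) (PT.nd (nat_lit 78) (PT.lf (nat_lit 23332) (nat_lit 6) (nat_lit 307) (nat_lit 3) (nat_lit 200) (nat_lit 155) (nat_lit 215)) (PT.lf (nat_lit 23408) (nat_lit 6) (nat_lit 308) (nat_lit 3) (nat_lit 201) (nat_lit 155) (nat_lit 214))))))) (PT.nd (nat_lit 59124) (PT.nd (nat_lit 624) (PT.nd (nat_lit 312) (PT.nd (nat_lit 156) (PT.nd (nat_lit 78) (PT.lf (nat_lit 23484) (nat_lit 6) (nat_lit 309) (nat_lit 3) (nat_lit 202) (nat_lit 155) (nat_lit 213)) (PT.lf (nat_lit 23560) (nat_lit 6) (nat_lit 310) (nat_lit 3) (nat_lit 203) (nat_lit 155) (nat_lit 212))) (PT.nd (nat_lit 78) (PT.lf (nat_lit 23636) (nat_lit 6) (nat_lit 311) (nat_lit 3) (nat_lit 204) (nat_lit 155) (nat_lit 211)) (PT.lf (nat_lit 23712) (nat_lit 6) (nat_lit 312) (nat_lit 3) (nat_lit 205) (nat_lit 155) (nat_lit 210)))) (PT.nd (nat_lit 156) (PT.nd (nat_lit 78) (PT.lf (nat_lit 23788) (nat_lit 6) (nat_lit 313)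 (nat_lit 3) (nat_lit 206) (nat_lit 155) (nat_lit 209)) (PT.lf (nat_lit 23864) (nat_lit 6) (nat_lit 314) (nat_lit 3) (nat_lit 207) (nat_lit 155) (nat_lit 208))) (PT.nd (nat_lit 78) (PT.lf (nat_lit 23864) (nat_lit 6) (nat_lit 314) (nat_lit 1) (nat_lit 208) (nat_lit 155) (nat_lit 207)) (PT.lf (nat_lit 23788) (nat_lit 6) (nat_lit 313) (nat_lit 1) (nat_lit 209) (nat_lit 155) (nat_lit 206))))) (PT.nd (nat_lit 312) (PT.nd (nat_lit 156) (PT.nd (nat_lit 78) (PT.lf (nat_lit 23712) (nat_lit 6) (nat_lit 312) (nat_lit 1) (nat_lit 210) (nat_lit 155) (nat_lit 205)) (PT.lf (nat_lit 23636) (nat_lit 6) (nat_lit 311) (nat_lit 1) (nat_lit 211) (nat_lit 155) (nat_lit 204))) (PT.nd (nat_lit 78) (PT.lf (nat_lit 23560) (nat_lit 6) (nat_lit 310) (nat_lit 1) (nat_lit 212) (nat_lit 155) (nat_lit 203)) (PT.lf (nat_lit 23484) (nat_lit 6) (nat_lit 309) (nat_lit 1) (nat_lit 213) (nat_lit 155) (nat_lit 202)))) (PT.nd (nat_lit 156) (PT.nd (nat_lit 78) (PT.lf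 (nat_lit 23408) (nat_lit 6) (nat_lit 308) (nat_lit 1) (nat_lit 214) (nat_lit 155) (nat_lit 201)) (PT.lf (nat_lit 23332) (nat_lit 6) (nat_lit 307) (nat_lit 1) (nat_lit 215) (nat_lit 155) (nat_lit 200))) (PT.nd (nat_lit 57954) (PT.lf (nat_lit 23256) (nat_lit 6) (nat_lit 306) (nat_lit 1) (nat_lit 216) (nat_lit 155) (nat_lit 199)) (PT.lf (nat_lit 23940) (nat_lit 6) (nat_lit 315) (nat_lit 3) (nat_lit 198) (nat_lit 156) (nat_lit 216)))))) (PT.nd (nat_lit 624) (PT.nd (nat_lit 312) (PT.nd (nat_lit 156) (PT.nd (nat_lit 78) (PT.lf (nat_lit 24016) (nat_lit 6) (nat_lit 316) (nat_lit 3) (nat_lit 199) (nat_lit 156) (nat_lit 215)) (PT.lf (nat_lit 24092) (nat_lit 6) (nat_lit 317) (nat_lit 3) (nat_lit 200) (nat_lit 156) (nat_lit 214))) (PT.nd (nat_lit 78) (PT.lf (nat_lit 24168) (nat_lit 6) (nat_lit 318) (nat_lit 3) (nat_lit 201) (nat_lit 156) (nat_lit 213)) (PT.lf (nat_lit 24244) (nat_lit 6) (nat_lit 319) (nat_lit 3) (nat_lit 202) (nat_lit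 156) (nat_lit 212)))) (PT.nd (nat_lit 156) (PT.nd (nat_lit 78) (PT.lf (nat_lit 24320) (nat_lit 6) (nat_lit 320) (nat_lit 3) (nat_lit 203) (nat_lit 156) (nat_lit 211)) (PT.lf (nat_lit 24396) (nat_lit 6) (nat_lit 321) (nat_lit 3) (nat_lit 204) (nat_lit 156) (nat_lit 210))) (PT.nd (nat_lit 78) (PT.lf (nat_lit 24472) (nat_lit 6) (nat_lit 322) (nat_lit 3) (nat_lit 205) (nat_lit 156) (nat_lit 209)) (PT.lf (nat_lit 24548) (nat_lit 6) (nat_lit 323) (nat_lit 3) (nat_lit 206) (nat_lit 156) (nat_lit 208))))) (PT.nd (nat_lit 312) (PT.nd (nat_lit 156) (PT.nd (nat_lit 78) (PT.lf (nat_lit 24624) (nat_lit 3) (nat_lit 324) (nat_lit 1) (nat_lit 207) (nat_lit 156) (nat_lit 207)) (PT.lf (nat_lit 24548) (nat_lit 6) (nat_lit 323) (nat_lit 1) (nat_lit 208) (nat_lit 156) (nat_lit 206))) (PT.nd (nat_lit 78) (PT.lf (nat_lit 24472) (nat_lit 6) (nat_lit 322) (nat_lit 1) (nat_lit 209) (nat_lit 156) (nat_lit 205)) (PT.lf (nat_lit 24396) (nat_lit 6) (nat_lit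 321) (nat_lit 1) (nat_lit 210) (nat_lit 156) (nat_lit 204)))) (PT.nd (nat_lit 156) (PT.nd (nat_lit 78) (PT.lf (nat_lit 24320) (nat_lit 6) (nat_lit 320) (nat_lit 1) (nat_lit 211) (nat_lit 156) (nat_lit 203)) (PT.lf (nat_lit 24244) (nat_lit 6) (nat_lit 319) (nat_lit 1) (nat_lit 212) (nat_lit 156) (nat_lit 202))) (PT.nd (nat_lit 78) (PT.lf (nat_lit 24168) (nat_lit 6) (nat_lit 318) (nat_lit 1) (nat_lit 213) (nat_lit 156) (nat_lit 201)) (PT.lf (nat_lit 24092) (nat_lit 6) (nat_lit 317) (nat_lit 1) (nat_lit 214) (nat_lit 156) (nat_lit 200))))))))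
noncomputable def pc10 : PT := (PT.nd (nat_lit 118014) (PT.nd (nat_lit 59046) (PT.nd (nat_lit 58422) (PT.nd (nat_lit 58110) (PT.nd (nat_lit 57954) (PT.nd (nat_lit 78) (PT.lf (nat_lit 24016) (nat_lit 6) (nat_lit 316) (nat_lit 1) (nat_lit 215) (nat_lit 156) (nat_lit 199)) (PT.lf (nat_lit 23940) (nat_lit 6) (nat_lit 315) (nat_lit 1) (nat_lit 216) (nat_lit 156) (nat_lit 198))) (PT.nd (nat_lit 78) (PT.lf (nat_lit 24700) (nat_lit 6) (nat_lit 325) (nat_lit 3) (nat_lit 197) (nat_lit 157) (nat_lit 216)) (PT.lf (nat_lit 24776) (nat_lit 6) (nat_lit 326) (nat_lit 3) (nat_lit 198) (nat_lit 157) (nat_lit 215)))) (PT.nd (nat_lit 156) (PT.nd (nat_lit 78) (PT.lf (nat_lit 24852) (nat_lit 6) (nat_lit 327) (nat_lit 3) (nat_lit 199) (nat_lit 157) (nat_lit 214)) (PT.lf (nat_lit 24928) (nat_lit 6) (nat_lit 328) (nat_lit 3) (nat_lit 200) (nat_lit 157) (nat_lit 213))) (PT.nd (nat_lit 78) (PT.lf (nat_lit 25004) (nat_lit 6) (nat_lit 329) (nat_lit 3)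 (nat_lit 201) (nat_lit 157) (nat_lit 212)) (PT.lf (nat_lit 25080) (nat_lit 6) (nat_lit 330) (nat_lit 3) (nat_lit 202) (nat_lit 157) (nat_lit 211))))) (PT.nd (nat_lit 312) (PT.nd (nat_lit 156) (PT.nd (nat_lit 78) (PT.lf (nat_lit 25156) (nat_lit 6) (nat_lit 331) (nat_lit 3) (nat_lit 203) (nat_lit 157) (nat_lit 210)) (PT.lf (nat_lit 25232) (nat_lit 6) (nat_lit 332) (nat_lit 3) (nat_lit 204) (nat_lit 157) (nat_lit 209))) (PT.nd (nat_lit 78) (PT.lf (nat_lit 25308) (nat_lit 6) (nat_lit 333) (nat_lit 3) (nat_lit 205) (nat_lit 157) (nat_lit 208)) (PT.lf (nat_lit 25384) (nat_lit 6) (nat_lit 334) (nat_lit 3) (nat_lit 206) (nat_lit 157) (nat_lit 207)))) (PT.nd (nat_lit 156) (PT.nd (nat_lit 78) (PT.lf (nat_lit 25384) (nat_lit 6) (nat_lit 334) (nat_lit 1) (nat_lit 207) (nat_lit 157) (nat_lit 206)) (PT.lf (nat_lit 25308) (nat_lit 6) (nat_lit 333) (nat_lit 1) (nat_lit 208) (nat_lit 157) (nat_lit 205))) (PT.nd (nat_lit 78) (PT.lf (nat_lit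 25232) (nat_lit 6) (nat_lit 332) (nat_lit 1) (nat_lit 209) (nat_lit 157) (nat_lit 204)) (PT.lf (nat_lit 25156) (nat_lit 6) (nat_lit 331) (nat_lit 1) (nat_lit 210) (nat_lit 157) (nat_lit 203)))))) (PT.nd (nat_lit 58344) (PT.nd (nat_lit 312) (PT.nd (nat_lit 156) (PT.nd (nat_lit 78) (PT.lf (nat_lit 25080) (nat_lit 6) (nat_lit 330) (nat_lit 1) (nat_lit 211) (nat_lit 157) (nat_lit 202)) (PT.lf (nat_lit 25004) (nat_lit 6) (nat_lit 329) (nat_lit 1) (nat_lit 212) (nat_lit 157) (nat_lit 201))) (PT.nd (nat_lit 78) (PT.lf (nat_lit 24928) (nat_lit 6) (nat_lit 328) (nat_lit 1) (nat_lit 213) (nat_lit 157) (nat_lit 200)) (PT.lf (nat_lit 24852) (nat_lit 6) (nat_lit 327) (nat_lit 1) (nat_lit 214) (nat_lit 157) (nat_lit 199)))) (PT.nd (nat_lit 57876) (PT.nd (nat_lit 78) (PT.lf (nat_lit 24776) (nat_lit 6) (nat_lit 326) (nat_lit 1) (nat_lit 215) (nat_lit 157) (nat_lit 198)) (PT.lf (nat_lit 24700) (nat_lit 6) (nat_lit 325) (nat_lit 1) (nat_lit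 216) (nat_lit 157) (nat_lit 197))) (PT.nd (nat_lit 78) (PT.lf (nat_lit 25460) (nat_lit 6) (nat_lit 335) (nat_lit 3) (nat_lit 196) (nat_lit 158) (nat_lit 216)) (PT.lf (nat_lit 25536) (nat_lit 6) (nat_lit 336) (nat_lit 3) (nat_lit 197) (nat_lit 158) (nat_lit 215))))) (PT.nd (nat_lit 312) (PT.nd (nat_lit 156) (PT.nd (nat_lit 78) (PT.lf (nat_lit 25612) (nat_lit 6) (nat_lit 337) (nat_lit 3) (nat_lit 198) (nat_lit 158) (nat_lit 214)) (PT.lf (nat_lit 25688) (nat_lit 6) (nat_lit 338) (nat_lit 3) (nat_lit 199) (nat_lit 158) (nat_lit 213))) (PT.nd (nat_lit 78) (PT.lf (nat_lit 25764) (nat_lit 6) (nat_lit 339) (nat_lit 3) (nat_lit 200) (nat_lit 158) (nat_lit 212)) (PT.lf (nat_lit 25840) (nat_lit 6) (nat_lit 340) (nat_lit 3) (nat_lit 201) (nat_lit 158) (nat_lit 211)))) (PT.nd (nat_lit 156) (PT.nd (nat_lit 78) (PT.lf (nat_lit 25916) (nat_lit 6) (nat_lit 341) (nat_lit 3) (nat_lit 202) (nat_lit 158) (nat_lit 210)) (PT.lf (nat_lit 25992) (nat_lit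 6) (nat_lit 342) (nat_lit 3) (nat_lit 203) (nat_lit 158) (nat_lit 209))) (PT.nd (nat_lit 78) (PT.lf (nat_lit 26068) (nat_lit 6) (nat_lit 343) (nat_lit 3) (nat_lit 204) (nat_lit 158) (nat_lit 208)) (PT.lf (nat_lit 26144) (nat_lit 6) (nat_lit 344) (nat_lit 3) (nat_lit 205) (nat_lit 158) (nat_lit 207))))))) (PT.nd (nat_lit 58968) (PT.nd (nat_lit 624) (PT.nd (nat_lit 312) (PT.nd (nat_lit 156) (PT.nd (nat_lit 78) (PT.lf (nat_lit 26220) (nat_lit 3) (nat_lit 345) (nat_lit 1) (nat_lit 206) (nat_lit 158) (nat_lit 206)) (PT.lf (nat_lit 26144) (nat_lit 6) (nat_lit 344) (nat_lit 1) (nat_lit 207) (nat_lit 158) (nat_lit 205))) (PT.nd (nat_lit 78) (PT.lf (nat_lit 26068) (nat_lit 6) (nat_lit 343) (nat_lit 1) (nat_lit 208) (nat_lit 158) (nat_lit 204)) (PT.lf (nat_lit 25992) (nat_lit 6) (nat_lit 342) (nat_lit 1) (nat_lit 209) (nat_lit 158) (nat_lit 203)))) (PT.nd (nat_lit 156) (PT.nd (nat_lit 78) (PT.lf (nat_lit 25916) (nat_lit 6) (nat_lit 341)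 (nat_lit 1) (nat_lit 210) (nat_lit 158) (nat_lit 202)) (PT.lf (nat_lit 25840) (nat_lit 6) (nat_lit 340) (nat_lit 1) (nat_lit 211) (nat_lit 158) (nat_lit 201))) (PT.nd (nat_lit 78) (PT.lf (nat_lit 25764) (nat_lit 6) (nat_lit 339) (nat_lit 1) (nat_lit 212) (nat_lit 158) (nat_lit 200)) (PT.lf (nat_lit 25688) (nat_lit 6) (nat_lit 338) (nat_lit 1) (nat_lit 213) (nat_lit 158) (nat_lit 199))))) (PT.nd (nat_lit 58032) (PT.nd (nat_lit 156) (PT.nd (nat_lit 78) (PT.lf (nat_lit 25612) (nat_lit 6) (nat_lit 337) (nat_lit 1) (nat_lit 214) (nat_lit 158) (nat_lit 198)) (PT.lf (nat_lit 25536) (nat_lit 6) (nat_lit 336) (nat_lit 1) (nat_lit 215) (nat_lit 158) (nat_lit 197))) (PT.nd (nat_lit 57798) (PT.lf (nat_lit 25460) (nat_lit 6) (nat_lit 335) (nat_lit 1) (nat_lit 216) (nat_lit 158) (nat_lit 196)) (PT.lf (nat_lit 26296) (nat_lit 6) (nat_lit 346) (nat_lit 3) (nat_lit 196) (nat_lit 159) (nat_lit 215)))) (PT.nd (nat_lit 156) (PT.nd (nat_lit 78)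 (PT.lf (nat_lit 26372) (nat_lit 6) (nat_lit 347) (nat_lit 3) (nat_lit 197) (nat_lit 159) (nat_lit 214)) (PT.lf (nat_lit 26448) (nat_lit 6) (nat_lit 348) (nat_lit 3) (nat_lit 198) (nat_lit 159) (nat_lit 213))) (PT.nd (nat_lit 78) (PT.lf (nat_lit 26524) (nat_lit 6) (nat_lit 349) (nat_lit 3) (nat_lit 199) (nat_lit 159) (nat_lit 212)) (PT.lf (nat_lit 26600) (nat_lit 6) (nat_lit 350) (nat_lit 3) (nat_lit 200) (nat_lit 159) (nat_lit 211)))))) (PT.nd (nat_lit 624) (PT.nd (nat_lit 312) (PT.nd (nat_lit 156) (PT.nd (nat_lit 78) (PT.lf (nat_lit 26676) (nat_lit 6) (nat_lit 351) (nat_lit 3) (nat_lit 201) (nat_lit 159) (nat_lit 210)) (PT.lf (nat_lit 26752) (nat_lit 6) (nat_lit 352) (nat_lit 3) (nat_lit 202) (nat_lit 159) (nat_lit 209))) (PT.nd (nat_lit 78) (PT.lf (nat_lit 26828) (nat_lit 6) (nat_lit 353) (nat_lit 3) (nat_lit 203) (nat_lit 159) (nat_lit 208)) (PT.lf (nat_lit 26904) (nat_lit 6) (nat_lit 354) (nat_lit 3) (nat_lit 204) (nat_lit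 159) (nat_lit 207)))) (PT.nd (nat_lit 156) (PT.nd (nat_lit 78) (PT.lf (nat_lit 26980) (nat_lit 6) (nat_lit 355) (nat_lit 3) (nat_lit 205) (nat_lit 159) (nat_lit 206)) (PT.lf (nat_lit 26980) (nat_lit 6) (nat_lit 355) (nat_lit 1) (nat_lit 206) (nat_lit 159) (nat_lit 205))) (PT.nd (nat_lit 78) (PT.lf (nat_lit 26904) (nat_lit 6) (nat_lit 354) (nat_lit 1) (nat_lit 207) (nat_lit 159) (nat_lit 204)) (PT.lf (nat_lit 26828) (nat_lit 6) (nat_lit 353) (nat_lit 1) (nat_lit 208) (nat_lit 159) (nat_lit 203))))) (PT.nd (nat_lit 312) (PT.nd (nat_lit 156) (PT.nd (nat_lit 78) (PT.lf (nat_lit 26752) (nat_lit 6) (nat_lit 352) (nat_lit 1) (nat_lit 209) (nat_lit 159) (nat_lit 202)) (PT.lf (nat_lit 26676) (nat_lit 6) (nat_lit 351) (nat_lit 1) (nat_lit 210) (nat_lit 159) (nat_lit 201))) (PT.nd (nat_lit 78) (PT.lf (nat_lit 26600) (nat_lit 6) (nat_lit 350) (nat_lit 1) (nat_lit 211) (nat_lit 159) (nat_lit 200)) (PT.lf (nat_lit 26524) (nat_lit 6) (nat_lit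 349) (nat_lit 1) (nat_lit 212) (nat_lit 159) (nat_lit 199)))) (PT.nd (nat_lit 156) (PT.nd (nat_lit 78) (PT.lf (nat_lit 26448) (nat_lit 6) (nat_lit 348) (nat_lit 1) (nat_lit 213) (nat_lit 159) (nat_lit 198)) (PT.lf (nat_lit 26372) (nat_lit 6) (nat_lit 347) (nat_lit 1) (nat_lit 214) (nat_lit 159) (nat_lit 197))) (PT.nd (nat_lit 57798) (PT.lf (nat_lit 26296) (nat_lit 6) (nat_lit 346) (nat_lit 1) (nat_lit 215) (nat_lit 159) (nat_lit 196)) (PT.lf (nat_lit 27056) (nat_lit 6) (nat_lit 356) (nat_lit 3) (nat_lit 195) (nat_lit 160) (nat_lit 215))))))))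
noncomputable def pc11 : PT := (PT.nd (nat_lit 60138) (PT.nd (nat_lit 1248) (PT.nd (nat_lit 624) (PT.nd (nat_lit 312) (PT.nd (nat_lit 156) (PT.nd (nat_lit 78) (PT.lf (nat_lit 27132) (nat_lit 6) (nat_lit 357) (nat_lit 3) (nat_lit 196) (nat_lit 160) (nat_lit 214)) (PT.lf (nat_lit 27208) (nat_lit 6) (nat_lit 358) (nat_lit 3) (nat_lit 197) (nat_lit 160) (nat_lit 213))) (PT.nd (nat_lit 78) (PT.lf (nat_lit 27284) (nat_lit 6) (nat_lit 359) (nat_lit 3) (nat_lit 198) (nat_lit 160) (nat_lit 212)) (PT.lf (nat_lit 27360) (nat_lit 6) (nat_lit 360) (nat_lit 3) (nat_lit 199) (nat_lit 160) (nat_lit 211)))) (PT.nd (nat_lit 156) (PT.nd (nat_lit 78) (PT.lf (nat_lit 27436) (nat_lit 6) (nat_lit 361) (nat_lit 3) (nat_lit 200) (nat_lit 160) (nat_lit 210)) (PT.lf (nat_lit 27512) (nat_lit 6) (nat_lit 362) (nat_lit 3) (nat_lit 201) (nat_lit 160) (nat_lit 209))) (PT.nd (nat_lit 78) (PT.lf (nat_lit 27588) (nat_lit 6) (nat_lit 363) (nat_lit 3) (nat_lit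 202) (nat_lit 160) (nat_lit 208)) (PT.lf (nat_lit 27664) (nat_lit 6) (nat_lit 364) (nat_lit 3) (nat_lit 203) (nat_lit 160) (nat_lit 207))))) (PT.nd (nat_lit 312) (PT.nd (nat_lit 156) (PT.nd (nat_lit 78) (PT.lf (nat_lit 27740) (nat_lit 6) (nat_lit 365) (nat_lit 3) (nat_lit 204) (nat_lit 160) (nat_lit 206)) (PT.lf (nat_lit 27816) (nat_lit 3) (nat_lit 366) (nat_lit 1) (nat_lit 205) (nat_lit 160) (nat_lit 205))) (PT.nd (nat_lit 78) (PT.lf (nat_lit 27740) (nat_lit 6) (nat_lit 365) (nat_lit 1) (nat_lit 206) (nat_lit 160) (nat_lit 204)) (PT.lf (nat_lit 27664) (nat_lit 6) (nat_lit 364) (nat_lit 1) (nat_lit 207) (nat_lit 160) (nat_lit 203)))) (PT.nd (nat_lit 156) (PT.nd (nat_lit 78) (PT.lf (nat_lit 27588) (nat_lit 6) (nat_lit 363) (nat_lit 1) (nat_lit 208) (nat_lit 160) (nat_lit 202)) (PT.lf (nat_lit 27512) (nat_lit 6) (nat_lit 362) (nat_lit 1) (nat_lit 209) (nat_lit 160) (nat_lit 201))) (PT.nd (nat_lit 78) (PT.lf (nat_lit 27436) (nat_lit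 6) (nat_lit 361) (nat_lit 1) (nat_lit 210) (nat_lit 160) (nat_lit 200)) (PT.lf (nat_lit 27360) (nat_lit 6) (nat_lit 360) (nat_lit 1) (nat_lit 211) (nat_lit 160) (nat_lit 199)))))) (PT.nd (nat_lit 58266) (PT.nd (nat_lit 57954) (PT.nd (nat_lit 156) (PT.nd (nat_lit 78) (PT.lf (nat_lit 27284) (nat_lit 6) (nat_lit 359) (nat_lit 1) (nat_lit 212) (nat_lit 160) (nat_lit 198)) (PT.lf (nat_lit 27208) (nat_lit 6) (nat_lit 358) (nat_lit 1) (nat_lit 213) (nat_lit 160) (nat_lit 197))) (PT.nd (nat_lit 78) (PT.lf (nat_lit 27132) (nat_lit 6) (nat_lit 357) (nat_lit 1) (nat_lit 214) (nat_lit 160) (nat_lit 196)) (PT.lf (nat_lit 27056) (nat_lit 6) (nat_lit 356) (nat_lit 1) (nat_lit 215) (nat_lit 160) (nat_lit 195)))) (PT.nd (nat_lit 156) (PT.nd (nat_lit 78) (PT.lf (nat_lit 27892) (nat_lit 6) (nat_lit 367) (nat_lit 3) (nat_lit 194) (nat_lit 161) (nat_lit 215)) (PT.lf (nat_lit 27968) (nat_lit 6) (nat_lit 368) (nat_lit 3) (nat_lit 195) (nat_lit 161)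 (nat_lit 214))) (PT.nd (nat_lit 78) (PT.lf (nat_lit 28044) (nat_lit 6) (nat_lit 369) (nat_lit 3) (nat_lit 196) (nat_lit 161) (nat_lit 213)) (PT.lf (nat_lit 28120) (nat_lit 6) (nat_lit 370) (nat_lit 3) (nat_lit 197) (nat_lit 161) (nat_lit 212))))) (PT.nd (nat_lit 312) (PT.nd (nat_lit 156) (PT.nd (nat_lit 78) (PT.lf (nat_lit 28196) (nat_lit 6) (nat_lit 371) (nat_lit 3) (nat_lit 198) (nat_lit 161) (nat_lit 211)) (PT.lf (nat_lit 28272) (nat_lit 6) (nat_lit 372) (nat_lit 3) (nat_lit 199) (nat_lit 161) (nat_lit 210))) (PT.nd (nat_lit 78) (PT.lf (nat_lit 28348) (nat_lit 6) (nat_lit 373) (nat_lit 3) (nat_lit 200) (nat_lit 161) (nat_lit 209)) (PT.lf (nat_lit 28424) (nat_lit 6) (nat_lit 374) (nat_lit 3) (nat_lit 201) (nat_lit 161) (nat_lit 208)))) (PT.nd (nat_lit 156) (PT.nd (nat_lit 78) (PT.lf (nat_lit 28500) (nat_lit 6) (nat_lit 375) (nat_lit 3) (nat_lit 202) (nat_lit 161) (nat_lit 207)) (PT.lf (nat_lit 28576) (nat_lit 6) (nat_lit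 376) (nat_lit 3) (nat_lit 203) (nat_lit 161) (nat_lit 206))) (PT.nd (nat_lit 78) (PT.lf (nat_lit 28652) (nat_lit 6) (nat_lit 377) (nat_lit 3) (nat_lit 204) (nat_lit 161) (nat_lit 205)) (PT.lf (nat_lit 28652) (nat_lit 6) (nat_lit 377) (nat_lit 1) (nat_lit 205) (nat_lit 161) (nat_lit 204))))))) (PT.nd (nat_lit 58812) (PT.nd (nat_lit 624) (PT.nd (nat_lit 312) (PT.nd (nat_lit 156) (PT.nd (nat_lit 78) (PT.lf (nat_lit 28576) (nat_lit 6) (nat_lit 376) (nat_lit 1) (nat_lit 206) (nat_lit 161) (nat_lit 203)) (PT.lf (nat_lit 28500) (nat_lit 6) (nat_lit 375) (nat_lit 1) (nat_lit 207) (nat_lit 161) (nat_lit 202))) (PT.nd (nat_lit 78) (PT.lf (nat_lit 28424) (nat_lit 6) (nat_lit 374) (nat_lit 1) (nat_lit 208) (nat_lit 161) (nat_lit 201)) (PT.lf (nat_lit 28348) (nat_lit 6) (nat_lit 373) (nat_lit 1) (nat_lit 209) (nat_lit 161) (nat_lit 200)))) (PT.nd (nat_lit 156) (PT.nd (nat_lit 78) (PT.lf (nat_lit 28272) (nat_lit 6) (nat_lit 372) (nat_lit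 1) (nat_lit 210) (nat_lit 161) (nat_lit 199)) (PT.lf (nat_lit 28196) (nat_lit 6) (nat_lit 371) (nat_lit 1) (nat_lit 211) (nat_lit 161) (nat_lit 198))) (PT.nd (nat_lit 78) (PT.lf (nat_lit 28120) (nat_lit 6) (nat_lit 370) (nat_lit 1) (nat_lit 212) (nat_lit 161) (nat_lit 197)) (PT.lf (nat_lit 28044) (nat_lit 6) (nat_lit 369) (nat_lit 1) (nat_lit 213) (nat_lit 161) (nat_lit 196))))) (PT.nd (nat_lit 57876) (PT.nd (nat_lit 57720) (PT.nd (nat_lit 78) (PT.lf (nat_lit 27968) (nat_lit 6) (nat_lit 368) (nat_lit 1) (nat_lit 214) (nat_lit 161) (nat_lit 195)) (PT.lf (nat_lit 27892) (nat_lit 6) (nat_lit 367) (nat_lit 1) (nat_lit 215) (nat_lit 161) (nat_lit 194))) (PT.nd (nat_lit 78) (PT.lf (nat_lit 28728) (nat_lit 6) (nat_lit 378) (nat_lit 3) (nat_lit 193) (nat_lit 162) (nat_lit 215)) (PT.lf (nat_lit 28804) (nat_lit 6) (nat_lit 379) (nat_lit 3) (nat_lit 194) (nat_lit 162) (nat_lit 214)))) (PT.nd (nat_lit 156) (PT.nd (nat_lit 78) (PT.lf (nat_lit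 28880) (nat_lit 6) (nat_lit 380) (nat_lit 3) (nat_lit 195) (nat_lit 162) (nat_lit 213)) (PT.lf (nat_lit 28956) (nat_lit 6) (nat_lit 381) (nat_lit 3) (nat_lit 196) (nat_lit 162) (nat_lit 212))) (PT.nd (nat_lit 78) (PT.lf (nat_lit 29032) (nat_lit 6) (nat_lit 382) (nat_lit 3) (nat_lit 197) (nat_lit 162) (nat_lit 211)) (PT.lf (nat_lit 29108) (nat_lit 6) (nat_lit 383) (nat_lit 3) (nat_lit 198) (nat_lit 162) (nat_lit 210)))))) (PT.nd (nat_lit 624) (PT.nd (nat_lit 312) (PT.nd (nat_lit 156) (PT.nd (nat_lit 78) (PT.lf (nat_lit 29184) (nat_lit 6) (nat_lit 384) (nat_lit 3) (nat_lit 199) (nat_lit 162) (nat_lit 209)) (PT.lf (nat_lit 29260) (nat_lit 6) (nat_lit 385) (nat_lit 3) (nat_lit 200) (nat_lit 162) (nat_lit 208))) (PT.nd (nat_lit 78) (PT.lf (nat_lit 29336) (nat_lit 6) (nat_lit 386) (nat_lit 3) (nat_lit 201) (nat_lit 162) (nat_lit 207)) (PT.lf (nat_lit 29412) (nat_lit 6) (nat_lit 387) (nat_lit 3) (nat_lit 202) (nat_lit 162) (nat_lit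 206)))) (PT.nd (nat_lit 156) (PT.nd (nat_lit 78) (PT.lf (nat_lit 29488) (nat_lit 6) (nat_lit 388) (nat_lit 3) (nat_lit 203) (nat_lit 162) (nat_lit 205)) (PT.lf (nat_lit 29564) (nat_lit 3) (nat_lit 389) (nat_lit 1) (nat_lit 204) (nat_lit 162) (nat_lit 204))) (PT.nd (nat_lit 78) (PT.lf (nat_lit 29488) (nat_lit 6) (nat_lit 388) (nat_lit 1) (nat_lit 205) (nat_lit 162) (nat_lit 203)) (PT.lf (nat_lit 29412) (nat_lit 6) (nat_lit 387) (nat_lit 1) (nat_lit 206) (nat_lit 162) (nat_lit 202))))) (PT.nd (nat_lit 312) (PT.nd (nat_lit 156) (PT.nd (nat_lit 78) (PT.lf (nat_lit 29336) (nat_lit 6) (nat_lit 386) (nat_lit 1) (nat_lit 207) (nat_lit 162) (nat_lit 201)) (PT.lf (nat_lit 29260) (nat_lit 6) (nat_lit 385) (nat_lit 1) (nat_lit 208) (nat_lit 162) (nat_lit 200))) (PT.nd (nat_lit 78) (PT.lf (nat_lit 29184) (nat_lit 6) (nat_lit 384) (nat_lit 1) (nat_lit 209) (nat_lit 162) (nat_lit 199)) (PT.lf (nat_lit 29108) (nat_lit 6) (nat_lit 383) (nat_lit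 1) (nat_lit 210) (nat_lit 162) (nat_lit 198)))) (PT.nd (nat_lit 156) (PT.nd (nat_lit 78) (PT.lf (nat_lit 29032) (nat_lit 6) (nat_lit 382) (nat_lit 1) (nat_lit 211) (nat_lit 162) (nat_lit 197)) (PT.lf (nat_lit 28956) (nat_lit 6) (nat_lit 381) (nat_lit 1) (nat_lit 212) (nat_lit 162) (nat_lit 196))) (PT.nd (nat_lit 78) (PT.lf (nat_lit 28880) (nat_lit 6) (nat_lit 380) (nat_lit 1) (nat_lit 213) (nat_lit 162) (nat_lit 195)) (PT.lf (nat_lit 28804) (nat_lit 6) (nat_lit 379) (nat_lit 1) (nat_lit 214) (nat_lit 162) (nat_lit 194))))))))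
noncomputable def pc12 : PT := (PT.nd (nat_lit 117390) (PT.nd (nat_lit 58734) (PT.nd (nat_lit 58110) (PT.nd (nat_lit 57798) (PT.nd (nat_lit 57642) (PT.nd (nat_lit 57564) (PT.lf (nat_lit 28728) (nat_lit 6) (nat_lit 378) (nat_lit 1) (nat_lit 215) (nat_lit 162) (nat_lit 193)) (PT.lf (nat_lit 29640) (nat_lit 6) (nat_lit 390) (nat_lit 3) (nat_lit 192) (nat_lit 163) (nat_lit 215))) (PT.nd (nat_lit 78) (PT.lf (nat_lit 29716) (nat_lit 6) (nat_lit 391) (nat_lit 3) (nat_lit 193) (nat_lit 163) (nat_lit 214)) (PT.lf (nat_lit 29792) (nat_lit 6) (nat_lit 392) (nat_lit 3) (nat_lit 194) (nat_lit 163) (nat_lit 213)))) (PT.nd (nat_lit 156) (PT.nd (nat_lit 78) (PT.lf (nat_lit 29868) (nat_lit 6) (nat_lit 393) (nat_lit 3) (nat_lit 195) (nat_lit 163) (nat_lit 212)) (PT.lf (nat_lit 29944) (nat_lit 6) (nat_lit 394) (nat_lit 3) (nat_lit 196) (nat_lit 163) (nat_lit 211))) (PT.nd (nat_lit 78) (PT.lf (nat_lit 30020) (nat_lit 6) (nat_lit 395) (nat_lit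 3) (nat_lit 197) (nat_lit 163) (nat_lit 210)) (PT.lf (nat_lit 30096) (nat_lit 6) (nat_lit 396) (nat_lit 3) (nat_lit 198) (nat_lit 163) (nat_lit 209))))) (PT.nd (nat_lit 312) (PT.nd (nat_lit 156) (PT.nd (nat_lit 78) (PT.lf (nat_lit 30172) (nat_lit 6) (nat_lit 397) (nat_lit 3) (nat_lit 199) (nat_lit 163) (nat_lit 208)) (PT.lf (nat_lit 30248) (nat_lit 6) (nat_lit 398) (nat_lit 3) (nat_lit 200) (nat_lit 163) (nat_lit 207))) (PT.nd (nat_lit 78) (PT.lf (nat_lit 30324) (nat_lit 6) (nat_lit 399) (nat_lit 3) (nat_lit 201) (nat_lit 163) (nat_lit 206)) (PT.lf (nat_lit 30400) (nat_lit 6) (nat_lit 400) (nat_lit 3) (nat_lit 202) (nat_lit 163) (nat_lit 205)))) (PT.nd (nat_lit 156) (PT.nd (nat_lit 78) (PT.lf (nat_lit 30476) (nat_lit 6) (nat_lit 401) (nat_lit 3) (nat_lit 203) (nat_lit 163) (nat_lit 204)) (PT.lf (nat_lit 30476) (nat_lit 6) (nat_lit 401) (nat_lit 1) (nat_lit 204) (nat_lit 163) (nat_lit 203))) (PT.nd (nat_lit 78) (PT.lf (nat_lit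 30400) (nat_lit 6) (nat_lit 400) (nat_lit 1) (nat_lit 205) (nat_lit 163) (nat_lit 202)) (PT.lf (nat_lit 30324) (nat_lit 6) (nat_lit 399) (nat_lit 1) (nat_lit 206) (nat_lit 163) (nat_lit 201)))))) (PT.nd (nat_lit 624) (PT.nd (nat_lit 312) (PT.nd (nat_lit 156) (PT.nd (nat_lit 78) (PT.lf (nat_lit 30248) (nat_lit 6) (nat_lit 398) (nat_lit 1) (nat_lit 207) (nat_lit 163) (nat_lit 200)) (PT.lf (nat_lit 30172) (nat_lit 6) (nat_lit 397) (nat_lit 1) (nat_lit 208) (nat_lit 163) (nat_lit 199))) (PT.nd (nat_lit 78) (PT.lf (nat_lit 30096) (nat_lit 6) (nat_lit 396) (nat_lit 1) (nat_lit 209) (nat_lit 163) (nat_lit 198)) (PT.lf (nat_lit 30020) (nat_lit 6) (nat_lit 395) (nat_lit 1) (nat_lit 210) (nat_lit 163) (nat_lit 197)))) (PT.nd (nat_lit 156) (PT.nd (nat_lit 78) (PT.lf (nat_lit 29944) (nat_lit 6) (nat_lit 394) (nat_lit 1) (nat_lit 211) (nat_lit 163) (nat_lit 196)) (PT.lf (nat_lit 29868) (nat_lit 6) (nat_lit 393) (nat_lit 1) (nat_lit 212)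 (nat_lit 163) (nat_lit 195))) (PT.nd (nat_lit 78) (PT.lf (nat_lit 29792) (nat_lit 6) (nat_lit 392) (nat_lit 1) (nat_lit 213) (nat_lit 163) (nat_lit 194)) (PT.lf (nat_lit 29716) (nat_lit 6) (nat_lit 391) (nat_lit 1) (nat_lit 214) (nat_lit 163) (nat_lit 193))))) (PT.nd (nat_lit 57720) (PT.nd (nat_lit 57564) (PT.nd (nat_lit 57486) (PT.lf (nat_lit 29640) (nat_lit 6) (nat_lit 390) (nat_lit 1) (nat_lit 215) (nat_lit 163) (nat_lit 192)) (PT.lf (nat_lit 30552) (nat_lit 6) (nat_lit 402) (nat_lit 3) (nat_lit 191) (nat_lit 164) (nat_lit 215))) (PT.nd (nat_lit 78) (PT.lf (nat_lit 30628) (nat_lit 6) (nat_lit 403) (nat_lit 3) (nat_lit 192) (nat_lit 164) (nat_lit 214)) (PT.lf (nat_lit 30704) (nat_lit 6) (nat_lit 404) (nat_lit 3) (nat_lit 193) (nat_lit 164) (nat_lit 213)))) (PT.nd (nat_lit 156) (PT.nd (nat_lit 78) (PT.lf (nat_lit 30780) (nat_lit 6) (nat_lit 405) (nat_lit 3) (nat_lit 194) (nat_lit 164) (nat_lit 212)) (PT.lf (nat_lit 30856)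 (nat_lit 6) (nat_lit 406) (nat_lit 3) (nat_lit 195) (nat_lit 164) (nat_lit 211))) (PT.nd (nat_lit 78) (PT.lf (nat_lit 30932) (nat_lit 6) (nat_lit 407) (nat_lit 3) (nat_lit 196) (nat_lit 164) (nat_lit 210)) (PT.lf (nat_lit 31008) (nat_lit 6) (nat_lit 408) (nat_lit 3) (nat_lit 197) (nat_lit 164) (nat_lit 209))))))) (PT.nd (nat_lit 1248) (PT.nd (nat_lit 624) (PT.nd (nat_lit 312) (PT.nd (nat_lit 156) (PT.nd (nat_lit 78) (PT.lf (nat_lit 31084) (nat_lit 6) (nat_lit 409) (nat_lit 3) (nat_lit 198) (nat_lit 164) (nat_lit 208)) (PT.lf (nat_lit 31160) (nat_lit 6) (nat_lit 410) (nat_lit 3) (nat_lit 199) (nat_lit 164) (nat_lit 207))) (PT.nd (nat_lit 78) (PT.lf (nat_lit 31236) (nat_lit 6) (nat_lit 411) (nat_lit 3) (nat_lit 200) (nat_lit 164) (nat_lit 206)) (PT.lf (nat_lit 31312) (nat_lit 6) (nat_lit 412) (nat_lit 3) (nat_lit 201) (nat_lit 164) (nat_lit 205)))) (PT.nd (nat_lit 156) (PT.nd (nat_lit 78) (PT.lf (nat_lit 31388) (nat_lit 6) (nat_lit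 413) (nat_lit 3) (nat_lit 202) (nat_lit 164) (nat_lit 204)) (PT.lf (nat_lit 31464) (nat_lit 3) (nat_lit 414) (nat_lit 1) (nat_lit 203) (nat_lit 164) (nat_lit 203))) (PT.nd (nat_lit 78) (PT.lf (nat_lit 31388) (nat_lit 6) (nat_lit 413) (nat_lit 1) (nat_lit 204) (nat_lit 164) (nat_lit 202)) (PT.lf (nat_lit 31312) (nat_lit 6) (nat_lit 412) (nat_lit 1) (nat_lit 205) (nat_lit 164) (nat_lit 201))))) (PT.nd (nat_lit 312) (PT.nd (nat_lit 156) (PT.nd (nat_lit 78) (PT.lf (nat_lit 31236) (nat_lit 6) (nat_lit 411) (nat_lit 1) (nat_lit 206) (nat_lit 164) (nat_lit 200)) (PT.lf (nat_lit 31160) (nat_lit 6) (nat_lit 410) (nat_lit 1) (nat_lit 207) (nat_lit 164) (nat_lit 199))) (PT.nd (nat_lit 78) (PT.lf (nat_lit 31084) (nat_lit 6) (nat_lit 409) (nat_lit 1) (nat_lit 208) (nat_lit 164) (nat_lit 198)) (PT.lf (nat_lit 31008) (nat_lit 6) (nat_lit 408) (nat_lit 1) (nat_lit 209) (nat_lit 164) (nat_lit 197)))) (PT.nd (nat_lit 156) (PT.nd (nat_lit 78)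 (PT.lf (nat_lit 30932) (nat_lit 6) (nat_lit 407) (nat_lit 1) (nat_lit 210) (nat_lit 164) (nat_lit 196)) (PT.lf (nat_lit 30856) (nat_lit 6) (nat_lit 406) (nat_lit 1) (nat_lit 211) (nat_lit 164) (nat_lit 195))) (PT.nd (nat_lit 78) (PT.lf (nat_lit 30780) (nat_lit 6) (nat_lit 405) (nat_lit 1) (nat_lit 212) (nat_lit 164) (nat_lit 194)) (PT.lf (nat_lit 30704) (nat_lit 6) (nat_lit 404) (nat_lit 1) (nat_lit 213) (nat_lit 164) (nat_lit 193)))))) (PT.nd (nat_lit 58032) (PT.nd (nat_lit 57720) (PT.nd (nat_lit 57564) (PT.nd (nat_lit 78) (PT.lf (nat_lit 30628) (nat_lit 6) (nat_lit 403) (nat_lit 1) (nat_lit 214) (nat_lit 164) (nat_lit 192)) (PT.lf (nat_lit 30552) (nat_lit 6) (nat_lit 402) (nat_lit 1) (nat_lit 215) (nat_lit 164) (nat_lit 191))) (PT.nd (nat_lit 78) (PT.lf (nat_lit 31540) (nat_lit 6) (nat_lit 415) (nat_lit 3) (nat_lit 191) (nat_lit 165) (nat_lit 214)) (PT.lf (nat_lit 31616) (nat_lit 6) (nat_lit 416) (nat_lit 3) (nat_lit 192)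 (nat_lit 165) (nat_lit 213)))) (PT.nd (nat_lit 156) (PT.nd (nat_lit 78) (PT.lf (nat_lit 31692) (nat_lit 6) (nat_lit 417) (nat_lit 3) (nat_lit 193) (nat_lit 165) (nat_lit 212)) (PT.lf (nat_lit 31768) (nat_lit 6) (nat_lit 418) (nat_lit 3) (nat_lit 194) (nat_lit 165) (nat_lit 211))) (PT.nd (nat_lit 78) (PT.lf (nat_lit 31844) (nat_lit 6) (nat_lit 419) (nat_lit 3) (nat_lit 195) (nat_lit 165) (nat_lit 210)) (PT.lf (nat_lit 31920) (nat_lit 6) (nat_lit 420) (nat_lit 3) (nat_lit 196) (nat_lit 165) (nat_lit 209))))) (PT.nd (nat_lit 312) (PT.nd (nat_lit 156) (PT.nd (nat_lit 78) (PT.lf (nat_lit 31996) (nat_lit 6) (nat_lit 421) (nat_lit 3) (nat_lit 197) (nat_lit 165) (nat_lit 208)) (PT.lf (nat_lit 32072) (nat_lit 6) (nat_lit 422) (nat_lit 3) (nat_lit 198) (nat_lit 165) (nat_lit 207))) (PT.nd (nat_lit 78) (PT.lf (nat_lit 32148) (nat_lit 6) (nat_lit 423) (nat_lit 3) (nat_lit 199) (nat_lit 165) (nat_lit 206)) (PT.lf (nat_lit 32224) (nat_lit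 6) (nat_lit 424) (nat_lit 3) (nat_lit 200) (nat_lit 165) (nat_lit 205)))) (PT.nd (nat_lit 156) (PT.nd (nat_lit 78) (PT.lf (nat_lit 32300) (nat_lit 6) (nat_lit 425) (nat_lit 3) (nat_lit 201) (nat_lit 165) (nat_lit 204)) (PT.lf (nat_lit 32376) (nat_lit 6) (nat_lit 426) (nat_lit 3) (nat_lit 202) (nat_lit 165) (nat_lit 203))) (PT.nd (nat_lit 78) (PT.lf (nat_lit 32376) (nat_lit 6) (nat_lit 426) (nat_lit 1) (nat_lit 203) (nat_lit 165) (nat_lit 202)) (PT.lf (nat_lit 32300) (nat_lit 6) (nat_lit 425) (nat_lit 1) (nat_lit 204) (nat_lit 165) (nat_lit 201))))))))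
noncomputable def pc13 : PT := (PT.nd (nat_lit 59904) (PT.nd (nat_lit 58656) (PT.nd (nat_lit 624) (PT.nd (nat_lit 312) (PT.nd (nat_lit 156) (PT.nd (nat_lit 78) (PT.lf (nat_lit 32224) (nat_lit 6) (nat_lit 424) (nat_lit 1) (nat_lit 205) (nat_lit 165) (nat_lit 200)) (PT.lf (nat_lit 32148) (nat_lit 6) (nat_lit 423) (nat_lit 1) (nat_lit 206) (nat_lit 165) (nat_lit 199))) (PT.nd (nat_lit 78) (PT.lf (nat_lit 32072) (nat_lit 6) (nat_lit 422) (nat_lit 1) (nat_lit 207) (nat_lit 165) (nat_lit 198)) (PT.lf (nat_lit 31996) (nat_lit 6) (nat_lit 421) (nat_lit 1) (nat_lit 208) (nat_lit 165) (nat_lit 197)))) (PT.nd (nat_lit 156) (PT.nd (nat_lit 78) (PT.lf (nat_lit 31920) (nat_lit 6) (nat_lit 420) (nat_lit 1) (nat_lit 209) (nat_lit 165) (nat_lit 196)) (PT.lf (nat_lit 31844) (nat_lit 6) (nat_lit 419) (nat_lit 1) (nat_lit 210) (nat_lit 165) (nat_lit 195))) (PT.nd (nat_lit 78) (PT.lf (nat_lit 31768) (nat_lit 6) (nat_lit 418) (nat_lit 1) (nat_lit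 211) (nat_lit 165) (nat_lit 194)) (PT.lf (nat_lit 31692) (nat_lit 6) (nat_lit 417) (nat_lit 1) (nat_lit 212) (nat_lit 165) (nat_lit 193))))) (PT.nd (nat_lit 57720) (PT.nd (nat_lit 57564) (PT.nd (nat_lit 78) (PT.lf (nat_lit 31616) (nat_lit 6) (nat_lit 416) (nat_lit 1) (nat_lit 213) (nat_lit 165) (nat_lit 192)) (PT.lf (nat_lit 31540) (nat_lit 6) (nat_lit 415) (nat_lit 1) (nat_lit 214) (nat_lit 165) (nat_lit 191))) (PT.nd (nat_lit 78) (PT.lf (nat_lit 32984) (nat_lit 6) (nat_lit 434) (nat_lit 3) (nat_lit 190) (nat_lit 166) (nat_lit 214)) (PT.lf (nat_lit 33060) (nat_lit 6) (nat_lit 435) (nat_lit 3) (nat_lit 191) (nat_lit 166) (nat_lit 213)))) (PT.nd (nat_lit 156) (PT.nd (nat_lit 78) (PT.lf (nat_lit 33136) (nat_lit 6) (nat_lit 436) (nat_lit 3) (nat_lit 192) (nat_lit 166) (nat_lit 212)) (PT.lf (nat_lit 33212) (nat_lit 6) (nat_lit 437) (nat_lit 3) (nat_lit 193) (nat_lit 166) (nat_lit 211))) (PT.nd (nat_lit 78) (PT.lf (nat_lit 33288)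 (nat_lit 6) (nat_lit 438) (nat_lit 3) (nat_lit 194) (nat_lit 166) (nat_lit 210)) (PT.lf (nat_lit 33364) (nat_lit 6) (nat_lit 439) (nat_lit 3) (nat_lit 195) (nat_lit 166) (nat_lit 209)))))) (PT.nd (nat_lit 624) (PT.nd (nat_lit 312) (PT.nd (nat_lit 156) (PT.nd (nat_lit 78) (PT.lf (nat_lit 33440) (nat_lit 6) (nat_lit 440) (nat_lit 3) (nat_lit 196) (nat_lit 166) (nat_lit 208)) (PT.lf (nat_lit 33516) (nat_lit 6) (nat_lit 441) (nat_lit 3) (nat_lit 197) (nat_lit 166) (nat_lit 207))) (PT.nd (nat_lit 78) (PT.lf (nat_lit 33592) (nat_lit 6) (nat_lit 442) (nat_lit 3) (nat_lit 198) (nat_lit 166) (nat_lit 206)) (PT.lf (nat_lit 33668) (nat_lit 6) (nat_lit 443) (nat_lit 3) (nat_lit 199) (nat_lit 166) (nat_lit 205)))) (PT.nd (nat_lit 156) (PT.nd (nat_lit 78) (PT.lf (nat_lit 33744) (nat_lit 6) (nat_lit 444) (nat_lit 3) (nat_lit 200) (nat_lit 166) (nat_lit 204)) (PT.lf (nat_lit 33820) (nat_lit 6) (nat_lit 445) (nat_lit 3) (nat_lit 201) (nat_lit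 166) (nat_lit 203))) (PT.nd (nat_lit 78) (PT.lf (nat_lit 33896) (nat_lit 3) (nat_lit 446) (nat_lit 1) (nat_lit 202) (nat_lit 166) (nat_lit 202)) (PT.lf (nat_lit 33820) (nat_lit 6) (nat_lit 445) (nat_lit 1) (nat_lit 203) (nat_lit 166) (nat_lit 201))))) (PT.nd (nat_lit 312) (PT.nd (nat_lit 156) (PT.nd (nat_lit 78) (PT.lf (nat_lit 33744) (nat_lit 6) (nat_lit 444) (nat_lit 1) (nat_lit 204) (nat_lit 166) (nat_lit 200)) (PT.lf (nat_lit 33668) (nat_lit 6) (nat_lit 443) (nat_lit 1) (nat_lit 205) (nat_lit 166) (nat_lit 199))) (PT.nd (nat_lit 78) (PT.lf (nat_lit 33592) (nat_lit 6) (nat_lit 442) (nat_lit 1) (nat_lit 206) (nat_lit 166) (nat_lit 198)) (PT.lf (nat_lit 33516) (nat_lit 6) (nat_lit 441) (nat_lit 1) (nat_lit 207) (nat_lit 166) (nat_lit 197)))) (PT.nd (nat_lit 156) (PT.nd (nat_lit 78) (PT.lf (nat_lit 33440) (nat_lit 6) (nat_lit 440) (nat_lit 1) (nat_lit 208) (nat_lit 166) (nat_lit 196)) (PT.lf (nat_lit 33364) (nat_lit 6) (nat_lit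 439) (nat_lit 1) (nat_lit 209) (nat_lit 166) (nat_lit 195))) (PT.nd (nat_lit 78) (PT.lf (nat_lit 33288) (nat_lit 6) (nat_lit 438) (nat_lit 1) (nat_lit 210) (nat_lit 166) (nat_lit 194)) (PT.lf (nat_lit 33212) (nat_lit 6) (nat_lit 437) (nat_lit 1) (nat_lit 211) (nat_lit 166) (nat_lit 193))))))) (PT.nd (nat_lit 58578) (PT.nd (nat_lit 57954) (PT.nd (nat_lit 57642) (PT.nd (nat_lit 156) (PT.nd (nat_lit 78) (PT.lf (nat_lit 33136) (nat_lit 6) (nat_lit 436) (nat_lit 1) (nat_lit 212) (nat_lit 166) (nat_lit 192)) (PT.lf (nat_lit 33060) (nat_lit 6) (nat_lit 435) (nat_lit 1) (nat_lit 213) (nat_lit 166) (nat_lit 191))) (PT.nd (nat_lit 57408) (PT.lf (nat_lit 32984) (nat_lit 6) (nat_lit 434) (nat_lit 1) (nat_lit 214) (nat_lit 166) (nat_lit 190)) (PT.lf (nat_lit 32908) (nat_lit 6) (nat_lit 433) (nat_lit 3) (nat_lit 189) (nat_lit 167) (nat_lit 214)))) (PT.nd (nat_lit 156) (PT.nd (nat_lit 78) (PT.lf (nat_lit 34808) (nat_lit 6) (nat_lit 458) (nat_lit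 3) (nat_lit 190) (nat_lit 167) (nat_lit 213)) (PT.lf (nat_lit 34884) (nat_lit 6) (nat_lit 459) (nat_lit 3) (nat_lit 191) (nat_lit 167) (nat_lit 212))) (PT.nd (nat_lit 78) (PT.lf (nat_lit 34960) (nat_lit 6) (nat_lit 460) (nat_lit 3) (nat_lit 192) (nat_lit 167) (nat_lit 211)) (PT.lf (nat_lit 35036) (nat_lit 6) (nat_lit 461) (nat_lit 3) (nat_lit 193) (nat_lit 167) (nat_lit 210))))) (PT.nd (nat_lit 312) (PT.nd (nat_lit 156) (PT.nd (nat_lit 78) (PT.lf (nat_lit 35112) (nat_lit 6) (nat_lit 462) (nat_lit 3) (nat_lit 194) (nat_lit 167) (nat_lit 209)) (PT.lf (nat_lit 35188) (nat_lit 6) (nat_lit 463) (nat_lit 3) (nat_lit 195) (nat_lit 167) (nat_lit 208))) (PT.nd (nat_lit 78) (PT.lf (nat_lit 35264) (nat_lit 6) (nat_lit 464) (nat_lit 3) (nat_lit 196) (nat_lit 167) (nat_lit 207)) (PT.lf (nat_lit 35340) (nat_lit 6) (nat_lit 465) (nat_lit 3) (nat_lit 197) (nat_lit 167) (nat_lit 206)))) (PT.nd (nat_lit 156) (PT.nd (nat_lit 78) (PT.lf (nat_lit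 35416) (nat_lit 6) (nat_lit 466) (nat_lit 3) (nat_lit 198) (nat_lit 167) (nat_lit 205)) (PT.lf (nat_lit 35492) (nat_lit 6) (nat_lit 467) (nat_lit 3) (nat_lit 199) (nat_lit 167) (nat_lit 204))) (PT.nd (nat_lit 78) (PT.lf (nat_lit 35568) (nat_lit 6) (nat_lit 468) (nat_lit 3) (nat_lit 200) (nat_lit 167) (nat_lit 203)) (PT.lf (nat_lit 35644) (nat_lit 6) (nat_lit 469) (nat_lit 3) (nat_lit 201) (nat_lit 167) (nat_lit 202)))))) (PT.nd (nat_lit 624) (PT.nd (nat_lit 312) (PT.nd (nat_lit 156) (PT.nd (nat_lit 78) (PT.lf (nat_lit 35644) (nat_lit 6) (nat_lit 469) (nat_lit 1) (nat_lit 202) (nat_lit 167) (nat_lit 201)) (PT.lf (nat_lit 35568) (nat_lit 6) (nat_lit 468) (nat_lit 1) (nat_lit 203) (nat_lit 167) (nat_lit 200))) (PT.nd (nat_lit 78) (PT.lf (nat_lit 35492) (nat_lit 6) (nat_lit 467) (nat_lit 1) (nat_lit 204) (nat_lit 167) (nat_lit 199)) (PT.lf (nat_lit 35416) (nat_lit 6) (nat_lit 466) (nat_lit 1) (nat_lit 205) (nat_lit 167) (nat_lit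 198)))) (PT.nd (nat_lit 156) (PT.nd (nat_lit 78) (PT.lf (nat_lit 35340) (nat_lit 6) (nat_lit 465) (nat_lit 1) (nat_lit 206) (nat_lit 167) (nat_lit 197)) (PT.lf (nat_lit 35264) (nat_lit 6) (nat_lit 464) (nat_lit 1) (nat_lit 207) (nat_lit 167) (nat_lit 196))) (PT.nd (nat_lit 78) (PT.lf (nat_lit 35188) (nat_lit 6) (nat_lit 463) (nat_lit 1) (nat_lit 208) (nat_lit 167) (nat_lit 195)) (PT.lf (nat_lit 35112) (nat_lit 6) (nat_lit 462) (nat_lit 1) (nat_lit 209) (nat_lit 167) (nat_lit 194))))) (PT.nd (nat_lit 312) (PT.nd (nat_lit 156) (PT.nd (nat_lit 78) (PT.lf (nat_lit 35036) (nat_lit 6) (nat_lit 461) (nat_lit 1) (nat_lit 210) (nat_lit 167) (nat_lit 193)) (PT.lf (nat_lit 34960) (nat_lit 6) (nat_lit 460) (nat_lit 1) (nat_lit 211) (nat_lit 167) (nat_lit 192))) (PT.nd (nat_lit 78) (PT.lf (nat_lit 34884) (nat_lit 6) (nat_lit 459) (nat_lit 1) (nat_lit 212) (nat_lit 167) (nat_lit 191)) (PT.lf (nat_lit 34808) (nat_lit 6) (nat_lit 458) (nat_lit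 1) (nat_lit 213) (nat_lit 167) (nat_lit 190)))) (PT.nd (nat_lit 57408) (PT.nd (nat_lit 57330) (PT.lf (nat_lit 32908) (nat_lit 6) (nat_lit 433) (nat_lit 1) (nat_lit 214) (nat_lit 167) (nat_lit 189)) (PT.lf (nat_lit 32832) (nat_lit 6) (nat_lit 432) (nat_lit 3) (nat_lit 188) (nat_lit 168) (nat_lit 214))) (PT.nd (nat_lit 78) (PT.lf (nat_lit 34732) (nat_lit 6) (nat_lit 457) (nat_lit 3) (nat_lit 189) (nat_lit 168) (nat_lit 213)) (PT.lf (nat_lit 36556) (nat_lit 6) (nat_lit 481) (nat_lit 3) (nat_lit 190) (nat_lit 168) (nat_lit 212))))))))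
noncomputable def pc14 : PT := (PT.nd (nat_lit 59670) (PT.nd (nat_lit 1248) (PT.nd (nat_lit 624) (PT.nd (nat_lit 312) (PT.nd (nat_lit 156) (PT.nd (nat_lit 78) (PT.lf (nat_lit 36632) (nat_lit 6) (nat_lit 482) (nat_lit 3) (nat_lit 191) (nat_lit 168) (nat_lit 211)) (PT.lf (nat_lit 36708) (nat_lit 6) (nat_lit 483) (nat_lit 3) (nat_lit 192) (nat_lit 168) (nat_lit 210))) (PT.nd (nat_lit 78) (PT.lf (nat_lit 36784) (nat_lit 6) (nat_lit 484) (nat_lit 3) (nat_lit 193) (nat_lit 168) (nat_lit 209)) (PT.lf (nat_lit 36860) (nat_lit 6) (nat_lit 485) (nat_lit 3) (nat_lit 194) (nat_lit 168) (nat_lit 208)))) (PT.nd (nat_lit 156) (PT.nd (nat_lit 78) (PT.lf (nat_lit 36936) (nat_lit 6) (nat_lit 486) (nat_lit 3) (nat_lit 195) (nat_lit 168) (nat_lit 207)) (PT.lf (nat_lit 37012) (nat_lit 6) (nat_lit 487) (nat_lit 3) (nat_lit 196) (nat_lit 168) (nat_lit 206))) (PT.nd (nat_lit 78) (PT.lf (nat_lit 37088) (nat_lit 6) (nat_lit 488) (nat_lit 3) (nat_lit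 197) (nat_lit 168) (nat_lit 205)) (PT.lf (nat_lit 37164) (nat_lit 6) (nat_lit 489) (nat_lit 3) (nat_lit 198) (nat_lit 168) (nat_lit 204))))) (PT.nd (nat_lit 312) (PT.nd (nat_lit 156) (PT.nd (nat_lit 78) (PT.lf (nat_lit 37240) (nat_lit 6) (nat_lit 490) (nat_lit 3) (nat_lit 199) (nat_lit 168) (nat_lit 203)) (PT.lf (nat_lit 37316) (nat_lit 6) (nat_lit 491) (nat_lit 3) (nat_lit 200) (nat_lit 168) (nat_lit 202))) (PT.nd (nat_lit 78) (PT.lf (nat_lit 37392) (nat_lit 3) (nat_lit 492) (nat_lit 1) (nat_lit 201) (nat_lit 168) (nat_lit 201)) (PT.lf (nat_lit 37316) (nat_lit 6) (nat_lit 491) (nat_lit 1) (nat_lit 202) (nat_lit 168) (nat_lit 200)))) (PT.nd (nat_lit 156) (PT.nd (nat_lit 78) (PT.lf (nat_lit 37240) (nat_lit 6) (nat_lit 490) (nat_lit 1) (nat_lit 203) (nat_lit 168) (nat_lit 199)) (PT.lf (nat_lit 37164) (nat_lit 6) (nat_lit 489) (nat_lit 1) (nat_lit 204) (nat_lit 168) (nat_lit 198))) (PT.nd (nat_lit 78) (PT.lf (nat_lit 37088) (nat_lit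 6) (nat_lit 488) (nat_lit 1) (nat_lit 205) (nat_lit 168) (nat_lit 197)) (PT.lf (nat_lit 37012) (nat_lit 6) (nat_lit 487) (nat_lit 1) (nat_lit 206) (nat_lit 168) (nat_lit 196)))))) (PT.nd (nat_lit 57798) (PT.nd (nat_lit 312) (PT.nd (nat_lit 156) (PT.nd (nat_lit 78) (PT.lf (nat_lit 36936) (nat_lit 6) (nat_lit 486) (nat_lit 1) (nat_lit 207) (nat_lit 168) (nat_lit 195)) (PT.lf (nat_lit 36860) (nat_lit 6) (nat_lit 485) (nat_lit 1) (nat_lit 208) (nat_lit 168) (nat_lit 194))) (PT.nd (nat_lit 78) (PT.lf (nat_lit 36784) (nat_lit 6) (nat_lit 484) (nat_lit 1) (nat_lit 209) (nat_lit 168) (nat_lit 193)) (PT.lf (nat_lit 36708) (nat_lit 6) (nat_lit 483) (nat_lit 1) (nat_lit 210) (nat_lit 168) (nat_lit 192)))) (PT.nd (nat_lit 156) (PT.nd (nat_lit 78) (PT.lf (nat_lit 36632) (nat_lit 6) (nat_lit 482) (nat_lit 1) (nat_lit 211) (nat_lit 168) (nat_lit 191)) (PT.lf (nat_lit 36556) (nat_lit 6) (nat_lit 481) (nat_lit 1) (nat_lit 212) (nat_lit 168)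 (nat_lit 190))) (PT.nd (nat_lit 78) (PT.lf (nat_lit 34732) (nat_lit 6) (nat_lit 457) (nat_lit 1) (nat_lit 213) (nat_lit 168) (nat_lit 189)) (PT.lf (nat_lit 32832) (nat_lit 6) (nat_lit 432) (nat_lit 1) (nat_lit 214) (nat_lit 168) (nat_lit 188))))) (PT.nd (nat_lit 312) (PT.nd (nat_lit 156) (PT.nd (nat_lit 78) (PT.lf (nat_lit 32756) (nat_lit 6) (nat_lit 431) (nat_lit 3) (nat_lit 187) (nat_lit 169) (nat_lit 214)) (PT.lf (nat_lit 34656) (nat_lit 6) (nat_lit 456) (nat_lit 3) (nat_lit 188) (nat_lit 169) (nat_lit 213))) (PT.nd (nat_lit 78) (PT.lf (nat_lit 36480) (nat_lit 6) (nat_lit 480) (nat_lit 3) (nat_lit 189) (nat_lit 169) (nat_lit 212)) (PT.lf (nat_lit 38228) (nat_lit 6) (nat_lit 503) (nat_lit 3) (nat_lit 190) (nat_lit 169) (nat_lit 211)))) (PT.nd (nat_lit 156) (PT.nd (nat_lit 78) (PT.lf (nat_lit 38304) (nat_lit 6) (nat_lit 504) (nat_lit 3) (nat_lit 191) (nat_lit 169) (nat_lit 210)) (PT.lf (nat_lit 38380) (nat_lit 6) (nat_lit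 505) (nat_lit 3) (nat_lit 192) (nat_lit 169) (nat_lit 209))) (PT.nd (nat_lit 78) (PT.lf (nat_lit 38456) (nat_lit 6) (nat_lit 506) (nat_lit 3) (nat_lit 193) (nat_lit 169) (nat_lit 208)) (PT.lf (nat_lit 38532) (nat_lit 6) (nat_lit 507) (nat_lit 3) (nat_lit 194) (nat_lit 169) (nat_lit 207))))))) (PT.nd (nat_lit 1248) (PT.nd (nat_lit 624) (PT.nd (nat_lit 312) (PT.nd (nat_lit 156) (PT.nd (nat_lit 78) (PT.lf (nat_lit 38608) (nat_lit 6) (nat_lit 508) (nat_lit 3) (nat_lit 195) (nat_lit 169) (nat_lit 206)) (PT.lf (nat_lit 38684) (nat_lit 6) (nat_lit 509) (nat_lit 3) (nat_lit 196) (nat_lit 169) (nat_lit 205))) (PT.nd (nat_lit 78) (PT.lf (nat_lit 38760) (nat_lit 6) (nat_lit 510) (nat_lit 3) (nat_lit 197) (nat_lit 169) (nat_lit 204)) (PT.lf (nat_lit 38836) (nat_lit 6) (nat_lit 511) (nat_lit 3) (nat_lit 198) (nat_lit 169) (nat_lit 203)))) (PT.nd (nat_lit 156) (PT.nd (nat_lit 78) (PT.lf (nat_lit 38912) (nat_lit 6) (nat_lit 512) (nat_lit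 3) (nat_lit 199) (nat_lit 169) (nat_lit 202)) (PT.lf (nat_lit 38988) (nat_lit 6) (nat_lit 513) (nat_lit 3) (nat_lit 200) (nat_lit 169) (nat_lit 201))) (PT.nd (nat_lit 78) (PT.lf (nat_lit 38988) (nat_lit 6) (nat_lit 513) (nat_lit 1) (nat_lit 201) (nat_lit 169) (nat_lit 200)) (PT.lf (nat_lit 38912) (nat_lit 6) (nat_lit 512) (nat_lit 1) (nat_lit 202) (nat_lit 169) (nat_lit 199))))) (PT.nd (nat_lit 312) (PT.nd (nat_lit 156) (PT.nd (nat_lit 78) (PT.lf (nat_lit 38836) (nat_lit 6) (nat_lit 511) (nat_lit 1) (nat_lit 203) (nat_lit 169) (nat_lit 198)) (PT.lf (nat_lit 38760) (nat_lit 6) (nat_lit 510) (nat_lit 1) (nat_lit 204) (nat_lit 169) (nat_lit 197))) (PT.nd (nat_lit 78) (PT.lf (nat_lit 38684) (nat_lit 6) (nat_lit 509) (nat_lit 1) (nat_lit 205) (nat_lit 169) (nat_lit 196)) (PT.lf (nat_lit 38608) (nat_lit 6) (nat_lit 508) (nat_lit 1) (nat_lit 206) (nat_lit 169) (nat_lit 195)))) (PT.nd (nat_lit 156) (PT.nd (nat_lit 78) (PT.lf (nat_lit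 38532) (nat_lit 6) (nat_lit 507) (nat_lit 1) (nat_lit 207) (nat_lit 169) (nat_lit 194)) (PT.lf (nat_lit 38456) (nat_lit 6) (nat_lit 506) (nat_lit 1) (nat_lit 208) (nat_lit 169) (nat_lit 193))) (PT.nd (nat_lit 78) (PT.lf (nat_lit 38380) (nat_lit 6) (nat_lit 505) (nat_lit 1) (nat_lit 209) (nat_lit 169) (nat_lit 192)) (PT.lf (nat_lit 38304) (nat_lit 6) (nat_lit 504) (nat_lit 1) (nat_lit 210) (nat_lit 169) (nat_lit 191)))))) (PT.nd (nat_lit 57720) (PT.nd (nat_lit 57408) (PT.nd (nat_lit 156) (PT.nd (nat_lit 78) (PT.lf (nat_lit 38228) (nat_lit 6) (nat_lit 503) (nat_lit 1) (nat_lit 211) (nat_lit 169) (nat_lit 190)) (PT.lf (nat_lit 36480) (nat_lit 6) (nat_lit 480) (nat_lit 1) (nat_lit 212) (nat_lit 169) (nat_lit 189))) (PT.nd (nat_lit 78) (PT.lf (nat_lit 34656) (nat_lit 6) (nat_lit 456) (nat_lit 1) (nat_lit 213) (nat_lit 169) (nat_lit 188)) (PT.lf (nat_lit 32756) (nat_lit 6) (nat_lit 431) (nat_lit 1) (nat_lit 214) (nat_lit 169) (nat_lit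 187)))) (PT.nd (nat_lit 156) (PT.nd (nat_lit 78) (PT.lf (nat_lit 32680) (nat_lit 6) (nat_lit 430) (nat_lit 3) (nat_lit 186) (nat_lit 170) (nat_lit 214)) (PT.lf (nat_lit 34580) (nat_lit 6) (nat_lit 455) (nat_lit 3) (nat_lit 187) (nat_lit 170) (nat_lit 213))) (PT.nd (nat_lit 78) (PT.lf (nat_lit 36404) (nat_lit 6) (nat_lit 479) (nat_lit 3) (nat_lit 188) (nat_lit 170) (nat_lit 212)) (PT.lf (nat_lit 38152) (nat_lit 6) (nat_lit 502) (nat_lit 3) (nat_lit 189) (nat_lit 170) (nat_lit 211))))) (PT.nd (nat_lit 312) (PT.nd (nat_lit 156) (PT.nd (nat_lit 78) (PT.lf (nat_lit 39824) (nat_lit 6) (nat_lit 524) (nat_lit 3) (nat_lit 190) (nat_lit 170) (nat_lit 210)) (PT.lf (nat_lit 39900) (nat_lit 6) (nat_lit 525) (nat_lit 3) (nat_lit 191) (nat_lit 170) (nat_lit 209))) (PT.nd (nat_lit 78) (PT.lf (nat_lit 39976) (nat_lit 6) (nat_lit 526) (nat_lit 3) (nat_lit 192) (nat_lit 170) (nat_lit 208)) (PT.lf (nat_lit 40052) (nat_lit 6) (nat_lit 527) (nat_lit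 3) (nat_lit 193) (nat_lit 170) (nat_lit 207)))) (PT.nd (nat_lit 156) (PT.nd (nat_lit 78) (PT.lf (nat_lit 40128) (nat_lit 6) (nat_lit 528) (nat_lit 3) (nat_lit 194) (nat_lit 170) (nat_lit 206)) (PT.lf (nat_lit 40204) (nat_lit 6) (nat_lit 529) (nat_lit 3) (nat_lit 195) (nat_lit 170) (nat_lit 205))) (PT.nd (nat_lit 78) (PT.lf (nat_lit 40280) (nat_lit 6) (nat_lit 530) (nat_lit 3) (nat_lit 196) (nat_lit 170) (nat_lit 204)) (PT.lf (nat_lit 40356) (nat_lit 6) (nat_lit 531) (nat_lit 3) (nat_lit 197) (nat_lit 170) (nat_lit 203))))))))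
noncomputable def pc15 : PT := (PT.nd (nat_lit 59514) (PT.nd (nat_lit 1248) (PT.nd (nat_lit 624) (PT.nd (nat_lit 312) (PT.nd (nat_lit 156) (PT.nd (nat_lit 78) (PT.lf (nat_lit 40432) (nat_lit 6) (nat_lit 532) (nat_lit 3) (nat_lit 198) (nat_lit 170) (nat_lit 202)) (PT.lf (nat_lit 40508) (nat_lit 6) (nat_lit 533) (nat_lit 3) (nat_lit 199) (nat_lit 170) (nat_lit 201))) (PT.nd (nat_lit 78) (PT.lf (nat_lit 40584) (nat_lit 3) (nat_lit 534) (nat_lit 1) (nat_lit 200) (nat_lit 170) (nat_lit 200)) (PT.lf (nat_lit 40508) (nat_lit 6) (nat_lit 533) (nat_lit 1) (nat_lit 201) (nat_lit 170) (nat_lit 199)))) (PT.nd (nat_lit 156) (PT.nd (nat_lit 78) (PT.lf (nat_lit 40432) (nat_lit 6) (nat_lit 532) (nat_lit 1) (nat_lit 202) (nat_lit 170) (nat_lit 198)) (PT.lf (nat_lit 40356) (nat_lit 6) (nat_lit 531) (nat_lit 1) (nat_lit 203) (nat_lit 170) (nat_lit 197))) (PT.nd (nat_lit 78) (PT.lf (nat_lit 40280) (nat_lit 6) (nat_lit 530) (nat_lit 1) (nat_lit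 204) (nat_lit 170) (nat_lit 196)) (PT.lf (nat_lit 40204) (nat_lit 6) (nat_lit 529) (nat_lit 1) (nat_lit 205) (nat_lit 170) (nat_lit 195))))) (PT.nd (nat_lit 312) (PT.nd (nat_lit 156) (PT.nd (nat_lit 78) (PT.lf (nat_lit 40128) (nat_lit 6) (nat_lit 528) (nat_lit 1) (nat_lit 206) (nat_lit 170) (nat_lit 194)) (PT.lf (nat_lit 40052) (nat_lit 6) (nat_lit 527) (nat_lit 1) (nat_lit 207) (nat_lit 170) (nat_lit 193))) (PT.nd (nat_lit 78) (PT.lf (nat_lit 39976) (nat_lit 6) (nat_lit 526) (nat_lit 1) (nat_lit 208) (nat_lit 170) (nat_lit 192)) (PT.lf (nat_lit 39900) (nat_lit 6) (nat_lit 525) (nat_lit 1) (nat_lit 209) (nat_lit 170) (nat_lit 191)))) (PT.nd (nat_lit 156) (PT.nd (nat_lit 78) (PT.lf (nat_lit 39824) (nat_lit 6) (nat_lit 524) (nat_lit 1) (nat_lit 210) (nat_lit 170) (nat_lit 190)) (PT.lf (nat_lit 38152) (nat_lit 6) (nat_lit 502) (nat_lit 1) (nat_lit 211) (nat_lit 170) (nat_lit 189))) (PT.nd (nat_lit 78) (PT.lf (nat_lit 36404) (nat_lit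 6) (nat_lit 479) (nat_lit 1) (nat_lit 212) (nat_lit 170) (nat_lit 188)) (PT.lf (nat_lit 34580) (nat_lit 6) (nat_lit 455) (nat_lit 1) (nat_lit 213) (nat_lit 170) (nat_lit 187)))))) (PT.nd (nat_lit 57642) (PT.nd (nat_lit 57330) (PT.nd (nat_lit 57174) (PT.nd (nat_lit 57096) (PT.lf (nat_lit 32680) (nat_lit 6) (nat_lit 430) (nat_lit 1) (nat_lit 214) (nat_lit 170) (nat_lit 186)) (PT.lf (nat_lit 32604) (nat_lit 6) (nat_lit 429) (nat_lit 3) (nat_lit 185) (nat_lit 171) (nat_lit 214))) (PT.nd (nat_lit 78) (PT.lf (nat_lit 34504) (nat_lit 6) (nat_lit 454) (nat_lit 3) (nat_lit 186) (nat_lit 171) (nat_lit 213)) (PT.lf (nat_lit 36328) (nat_lit 6) (nat_lit 478) (nat_lit 3) (nat_lit 187) (nat_lit 171) (nat_lit 212)))) (PT.nd (nat_lit 156) (PT.nd (nat_lit 78) (PT.lf (nat_lit 38076) (nat_lit 6) (nat_lit 501) (nat_lit 3) (nat_lit 188) (nat_lit 171) (nat_lit 211)) (PT.lf (nat_lit 39748) (nat_lit 6) (nat_lit 523) (nat_lit 3) (nat_lit 189) (nat_lit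 171) (nat_lit 210))) (PT.nd (nat_lit 78) (PT.lf (nat_lit 41344) (nat_lit 6) (nat_lit 544) (nat_lit 3) (nat_lit 190) (nat_lit 171) (nat_lit 209)) (PT.lf (nat_lit 41420) (nat_lit 6) (nat_lit 545) (nat_lit 3) (nat_lit 191) (nat_lit 171) (nat_lit 208))))) (PT.nd (nat_lit 312) (PT.nd (nat_lit 156) (PT.nd (nat_lit 78) (PT.lf (nat_lit 41496) (nat_lit 6) (nat_lit 546) (nat_lit 3) (nat_lit 192) (nat_lit 171) (nat_lit 207)) (PT.lf (nat_lit 41572) (nat_lit 6) (nat_lit 547) (nat_lit 3) (nat_lit 193) (nat_lit 171) (nat_lit 206))) (PT.nd (nat_lit 78) (PT.lf (nat_lit 41648) (nat_lit 6) (nat_lit 548) (nat_lit 3) (nat_lit 194) (nat_lit 171) (nat_lit 205)) (PT.lf (nat_lit 41724) (nat_lit 6) (nat_lit 549) (nat_lit 3) (nat_lit 195) (nat_lit 171) (nat_lit 204)))) (PT.nd (nat_lit 156) (PT.nd (nat_lit 78) (PT.lf (nat_lit 41800) (nat_lit 6) (nat_lit 550) (nat_lit 3) (nat_lit 196) (nat_lit 171) (nat_lit 203)) (PT.lf (nat_lit 41876) (nat_lit 6) (nat_lit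 551) (nat_lit 3) (nat_lit 197) (nat_lit 171) (nat_lit 202))) (PT.nd (nat_lit 78) (PT.lf (nat_lit 41952) (nat_lit 6) (nat_lit 552) (nat_lit 3) (nat_lit 198) (nat_lit 171) (nat_lit 201)) (PT.lf (nat_lit 42028) (nat_lit 6) (nat_lit 553) (nat_lit 3) (nat_lit 199) (nat_lit 171) (nat_lit 200))))))) (PT.nd (nat_lit 58188) (PT.nd (nat_lit 624) (PT.nd (nat_lit 312) (PT.nd (nat_lit 156) (PT.nd (nat_lit 78) (PT.lf (nat_lit 42028) (nat_lit 6) (nat_lit 553) (nat_lit 1) (nat_lit 200) (nat_lit 171) (nat_lit 199)) (PT.lf (nat_lit 41952) (nat_lit 6) (nat_lit 552) (nat_lit 1) (nat_lit 201) (nat_lit 171) (nat_lit 198))) (PT.nd (nat_lit 78) (PT.lf (nat_lit 41876) (nat_lit 6) (nat_lit 551) (nat_lit 1) (nat_lit 202) (nat_lit 171) (nat_lit 197)) (PT.lf (nat_lit 41800) (nat_lit 6) (nat_lit 550) (nat_lit 1) (nat_lit 203) (nat_lit 171) (nat_lit 196)))) (PT.nd (nat_lit 156) (PT.nd (nat_lit 78) (PT.lf (nat_lit 41724) (nat_lit 6) (nat_lit 549) (nat_lit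 1) (nat_lit 204) (nat_lit 171) (nat_lit 195)) (PT.lf (nat_lit 41648) (nat_lit 6) (nat_lit 548) (nat_lit 1) (nat_lit 205) (nat_lit 171) (nat_lit 194))) (PT.nd (nat_lit 78) (PT.lf (nat_lit 41572) (nat_lit 6) (nat_lit 547) (nat_lit 1) (nat_lit 206) (nat_lit 171) (nat_lit 193)) (PT.lf (nat_lit 41496) (nat_lit 6) (nat_lit 546) (nat_lit 1) (nat_lit 207) (nat_lit 171) (nat_lit 192))))) (PT.nd (nat_lit 312) (PT.nd (nat_lit 156) (PT.nd (nat_lit 78) (PT.lf (nat_lit 41420) (nat_lit 6) (nat_lit 545) (nat_lit 1) (nat_lit 208) (nat_lit 171) (nat_lit 191)) (PT.lf (nat_lit 41344) (nat_lit 6) (nat_lit 544) (nat_lit 1) (nat_lit 209) (nat_lit 171) (nat_lit 190))) (PT.nd (nat_lit 78) (PT.lf (nat_lit 39748) (nat_lit 6) (nat_lit 523) (nat_lit 1) (nat_lit 210) (nat_lit 171) (nat_lit 189)) (PT.lf (nat_lit 38076) (nat_lit 6) (nat_lit 501) (nat_lit 1) (nat_lit 211) (nat_lit 171) (nat_lit 188)))) (PT.nd (nat_lit 156) (PT.nd (nat_lit 78) (PT.lf (nat_lit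 36328) (nat_lit 6) (nat_lit 478) (nat_lit 1) (nat_lit 212) (nat_lit 171) (nat_lit 187)) (PT.lf (nat_lit 34504) (nat_lit 6) (nat_lit 454) (nat_lit 1) (nat_lit 213) (nat_lit 171) (nat_lit 186))) (PT.nd (nat_lit 57018) (PT.lf (nat_lit 32604) (nat_lit 6) (nat_lit 429) (nat_lit 1) (nat_lit 214) (nat_lit 171) (nat_lit 185)) (PT.lf (nat_lit 32528) (nat_lit 6) (nat_lit 428) (nat_lit 3) (nat_lit 184) (nat_lit 172) (nat_lit 214)))))) (PT.nd (nat_lit 624) (PT.nd (nat_lit 312) (PT.nd (nat_lit 156) (PT.nd (nat_lit 78) (PT.lf (nat_lit 34428) (nat_lit 6) (nat_lit 453) (nat_lit 3) (nat_lit 185) (nat_lit 172) (nat_lit 213)) (PT.lf (nat_lit 36252) (nat_lit 6) (nat_lit 477) (nat_lit 3) (nat_lit 186) (nat_lit 172) (nat_lit 212))) (PT.nd (nat_lit 78) (PT.lf (nat_lit 38000) (nat_lit 6) (nat_lit 500) (nat_lit 3) (nat_lit 187) (nat_lit 172) (nat_lit 211)) (PT.lf (nat_lit 39672) (nat_lit 6) (nat_lit 522) (nat_lit 3) (nat_lit 188) (nat_lit 172) (nat_lit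 210)))) (PT.nd (nat_lit 156) (PT.nd (nat_lit 78) (PT.lf (nat_lit 41268) (nat_lit 6) (nat_lit 543) (nat_lit 3) (nat_lit 189) (nat_lit 172) (nat_lit 209)) (PT.lf (nat_lit 42788) (nat_lit 6) (nat_lit 563) (nat_lit 3) (nat_lit 190) (nat_lit 172) (nat_lit 208))) (PT.nd (nat_lit 78) (PT.lf (nat_lit 42864) (nat_lit 6) (nat_lit 564) (nat_lit 3) (nat_lit 191) (nat_lit 172) (nat_lit 207)) (PT.lf (nat_lit 42940) (nat_lit 6) (nat_lit 565) (nat_lit 3) (nat_lit 192) (nat_lit 172) (nat_lit 206))))) (PT.nd (nat_lit 312) (PT.nd (nat_lit 156) (PT.nd (nat_lit 78) (PT.lf (nat_lit 43016) (nat_lit 6) (nat_lit 566) (nat_lit 3) (nat_lit 193) (nat_lit 172) (nat_lit 205)) (PT.lf (nat_lit 43092) (nat_lit 6) (nat_lit 567) (nat_lit 3) (nat_lit 194) (nat_lit 172) (nat_lit 204))) (PT.nd (nat_lit 78) (PT.lf (nat_lit 43168) (nat_lit 6) (nat_lit 568) (nat_lit 3) (nat_lit 195) (nat_lit 172) (nat_lit 203)) (PT.lf (nat_lit 43244) (nat_lit 6) (nat_lit 569) (nat_lit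 3) (nat_lit 196) (nat_lit 172) (nat_lit 202)))) (PT.nd (nat_lit 156) (PT.nd (nat_lit 78) (PT.lf (nat_lit 43320) (nat_lit 6) (nat_lit 570) (nat_lit 3) (nat_lit 197) (nat_lit 172) (nat_lit 201)) (PT.lf (nat_lit 43396) (nat_lit 6) (nat_lit 571) (nat_lit 3) (nat_lit 198) (nat_lit 172) (nat_lit 200))) (PT.nd (nat_lit 78) (PT.lf (nat_lit 43472) (nat_lit 3) (nat_lit 572) (nat_lit 1) (nat_lit 199) (nat_lit 172) (nat_lit 199)) (PT.lf (nat_lit 43396) (nat_lit 6) (nat_lit 571) (nat_lit 1) (nat_lit 200) (nat_lit 172) (nat_lit 198))))))))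
noncomputable def pc16 : PT := (PT.nd (nat_lit 58188) (PT.nd (nat_lit 624) (PT.nd (nat_lit 312) (PT.nd (nat_lit 156) (PT.nd (nat_lit 78) (PT.lf (nat_lit 43320) (nat_lit 6) (nat_lit 570) (nat_lit 1) (nat_lit 201) (nat_lit 172) (nat_lit 197)) (PT.lf (nat_lit 43244) (nat_lit 6) (nat_lit 569) (nat_lit 1) (nat_lit 202) (nat_lit 172) (nat_lit 196))) (PT.nd (nat_lit 78) (PT.lf (nat_lit 43168) (nat_lit 6) (nat_lit 568) (nat_lit 1) (nat_lit 203) (nat_lit 172) (nat_lit 195)) (PT.lf (nat_lit 43092) (nat_lit 6) (nat_lit 567) (nat_lit 1) (nat_lit 204) (nat_lit 172) (nat_lit 194)))) (PT.nd (nat_lit 156) (PT.nd (nat_lit 78) (PT.lf (nat_lit 43016) (nat_lit 6) (nat_lit 566) (nat_lit 1) (nat_lit 205) (nat_lit 172) (nat_lit 193)) (PT.lf (nat_lit 42940) (nat_lit 6) (nat_lit 565) (nat_lit 1) (nat_lit 206) (nat_lit 172) (nat_lit 192))) (PT.nd (nat_lit 78) (PT.lf (nat_lit 42864) (nat_lit 6) (nat_lit 564) (nat_lit 1) (nat_lit 207) (nat_lit 172) (nat_lit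 191)) (PT.lf (nat_lit 42788) (nat_lit 6) (nat_lit 563) (nat_lit 1) (nat_lit 208) (nat_lit 172) (nat_lit 190))))) (PT.nd (nat_lit 312) (PT.nd (nat_lit 156) (PT.nd (nat_lit 78) (PT.lf (nat_lit 41268) (nat_lit 6) (nat_lit 543) (nat_lit 1) (nat_lit 209) (nat_lit 172) (nat_lit 189)) (PT.lf (nat_lit 39672) (nat_lit 6) (nat_lit 522) (nat_lit 1) (nat_lit 210) (nat_lit 172) (nat_lit 188))) (PT.nd (nat_lit 78) (PT.lf (nat_lit 38000) (nat_lit 6) (nat_lit 500) (nat_lit 1) (nat_lit 211) (nat_lit 172) (nat_lit 187)) (PT.lf (nat_lit 36252) (nat_lit 6) (nat_lit 477) (nat_lit 1) (nat_lit 212) (nat_lit 172) (nat_lit 186)))) (PT.nd (nat_lit 57096) (PT.nd (nat_lit 78) (PT.lf (nat_lit 34428) (nat_lit 6) (nat_lit 453) (nat_lit 1) (nat_lit 213) (nat_lit 172) (nat_lit 185)) (PT.lf (nat_lit 32528) (nat_lit 6) (nat_lit 428) (nat_lit 1) (nat_lit 214) (nat_lit 172) (nat_lit 184))) (PT.nd (nat_lit 78) (PT.lf (nat_lit 34352) (nat_lit 6) (nat_lit 452) (nat_lit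 3) (nat_lit 184) (nat_lit 173) (nat_lit 213)) (PT.lf (nat_lit 36176) (nat_lit 6) (nat_lit 476) (nat_lit 3) (nat_lit 185) (nat_lit 173) (nat_lit 212)))))) (PT.nd (nat_lit 624) (PT.nd (nat_lit 312) (PT.nd (nat_lit 156) (PT.nd (nat_lit 78) (PT.lf (nat_lit 37924) (nat_lit 6) (nat_lit 499) (nat_lit 3) (nat_lit 186) (nat_lit 173) (nat_lit 211)) (PT.lf (nat_lit 39596) (nat_lit 6) (nat_lit 521) (nat_lit 3) (nat_lit 187) (nat_lit 173) (nat_lit 210))) (PT.nd (nat_lit 78) (PT.lf (nat_lit 41192) (nat_lit 6) (nat_lit 542) (nat_lit 3) (nat_lit 188) (nat_lit 173) (nat_lit 209)) (PT.lf (nat_lit 42712) (nat_lit 6) (nat_lit 562) (nat_lit 3) (nat_lit 189) (nat_lit 173) (nat_lit 208)))) (PT.nd (nat_lit 156) (PT.nd (nat_lit 78) (PT.lf (nat_lit 44156) (nat_lit 6) (nat_lit 581) (nat_lit 3) (nat_lit 190) (nat_lit 173) (nat_lit 207)) (PT.lf (nat_lit 44232) (nat_lit 6) (nat_lit 582) (nat_lit 3) (nat_lit 191) (nat_lit 173) (nat_lit 206))) (PT.nd (nat_lit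 78) (PT.lf (nat_lit 44308) (nat_lit 6) (nat_lit 583) (nat_lit 3) (nat_lit 192) (nat_lit 173) (nat_lit 205)) (PT.lf (nat_lit 44384) (nat_lit 6) (nat_lit 584) (nat_lit 3) (nat_lit 193) (nat_lit 173) (nat_lit 204))))) (PT.nd (nat_lit 312) (PT.nd (nat_lit 156) (PT.nd (nat_lit 78) (PT.lf (nat_lit 44460) (nat_lit 6) (nat_lit 585) (nat_lit 3) (nat_lit 194) (nat_lit 173) (nat_lit 203)) (PT.lf (nat_lit 44536) (nat_lit 6) (nat_lit 586) (nat_lit 3) (nat_lit 195) (nat_lit 173) (nat_lit 202))) (PT.nd (nat_lit 78) (PT.lf (nat_lit 44612) (nat_lit 6) (nat_lit 587) (nat_lit 3) (nat_lit 196) (nat_lit 173) (nat_lit 201)) (PT.lf (nat_lit 44688) (nat_lit 6) (nat_lit 588) (nat_lit 3) (nat_lit 197) (nat_lit 173) (nat_lit 200)))) (PT.nd (nat_lit 156) (PT.nd (nat_lit 78) (PT.lf (nat_lit 44764) (nat_lit 6) (nat_lit 589) (nat_lit 3) (nat_lit 198) (nat_lit 173) (nat_lit 199)) (PT.lf (nat_lit 44764) (nat_lit 6) (nat_lit 589) (nat_lit 1) (nat_lit 199) (nat_lit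 173) (nat_lit 198))) (PT.nd (nat_lit 78) (PT.lf (nat_lit 44688) (nat_lit 6) (nat_lit 588) (nat_lit 1) (nat_lit 200) (nat_lit 173) (nat_lit 197)) (PT.lf (nat_lit 44612) (nat_lit 6) (nat_lit 587) (nat_lit 1) (nat_lit 201) (nat_lit 173) (nat_lit 196)))))))
noncomputable def pc17 : PT := (PT.nd (nat_lit 58188) (PT.nd (nat_lit 624) (PT.nd (nat_lit 312) (PT.nd (nat_lit 156) (PT.nd (nat_lit 78) (PT.lf (nat_lit 44536) (nat_lit 6) (nat_lit 586) (nat_lit 1) (nat_lit 202) (nat_lit 173) (nat_lit 195)) (PT.lf (nat_lit 44460) (nat_lit 6) (nat_lit 585) (nat_lit 1) (nat_lit 203) (nat_lit 173) (nat_lit 194))) (PT.nd (nat_lit 78) (PT.lf (nat_lit 44384) (nat_lit 6) (nat_lit 584) (nat_lit 1) (nat_lit 204) (nat_lit 173) (nat_lit 193)) (PT.lf (nat_lit 44308) (nat_lit 6) (nat_lit 583) (nat_lit 1) (nat_lit 205) (nat_lit 173) (nat_lit 192)))) (PT.nd (nat_lit 156) (PT.nd (nat_lit 78) (PT.lf (nat_lit 44232) (nat_lit 6) (nat_lit 582) (nat_lit 1) (nat_lit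 206) (nat_lit 173) (nat_lit 191)) (PT.lf (nat_lit 44156) (nat_lit 6) (nat_lit 581) (nat_lit 1) (nat_lit 207) (nat_lit 173) (nat_lit 190))) (PT.nd (nat_lit 78) (PT.lf (nat_lit 42712) (nat_lit 6) (nat_lit 562) (nat_lit 1) (nat_lit 208) (nat_lit 173) (nat_lit 189)) (PT.lf (nat_lit 41192) (nat_lit 6) (nat_lit 542) (nat_lit 1) (nat_lit 209) (nat_lit 173) (nat_lit 188))))) (PT.nd (nat_lit 57252) (PT.nd (nat_lit 156) (PT.nd (nat_lit 78) (PT.lf (nat_lit 39596) (nat_lit 6) (nat_lit 521) (nat_lit 1) (nat_lit 210) (nat_lit 173) (nat_lit 187)) (PT.lf (nat_lit 37924) (nat_lit 6) (nat_lit 499) (nat_lit 1) (nat_lit 211) (nat_lit 173) (nat_lit 186))) (PT.nd (nat_lit 78) (PT.lf (nat_lit 36176) (nat_lit 6) (nat_lit 476) (nat_lit 1) (nat_lit 212) (nat_lit 173) (nat_lit 185)) (PT.lf (nat_lit 34352) (nat_lit 6) (nat_lit 452) (nat_lit 1) (nat_lit 213) (nat_lit 173) (nat_lit 184)))) (PT.nd (nat_lit 156) (PT.nd (nat_lit 78) (PT.lf (nat_lit 34276)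 (nat_lit 6) (nat_lit 451) (nat_lit 3) (nat_lit 183) (nat_lit 174) (nat_lit 213)) (PT.lf (nat_lit 36100) (nat_lit 6) (nat_lit 475) (nat_lit 3) (nat_lit 184) (nat_lit 174) (nat_lit 212))) (PT.nd (nat_lit 78) (PT.lf (nat_lit 37848) (nat_lit 6) (nat_lit 498) (nat_lit 3) (nat_lit 185) (nat_lit 174) (nat_lit 211)) (PT.lf (nat_lit 39520) (nat_lit 6) (nat_lit 520) (nat_lit 3) (nat_lit 186) (nat_lit 174) (nat_lit 210)))))) (PT.nd (nat_lit 624) (PT.nd (nat_lit 312) (PT.nd (nat_lit 156) (PT.nd (nat_lit 78) (PT.lf (nat_lit 41116) (nat_lit 6) (nat_lit 541) (nat_lit 3) (nat_lit 187) (nat_lit 174) (nat_lit 209)) (PT.lf (nat_lit 42636) (nat_lit 6) (nat_lit 561) (nat_lit 3) (nat_lit 188) (nat_lit 174) (nat_lit 208))) (PT.nd (nat_lit 78) (PT.lf (nat_lit 44080) (nat_lit 6) (nat_lit 580) (nat_lit 3) (nat_lit 189) (nat_lit 174) (nat_lit 207)) (PT.lf (nat_lit 45448) (nat_lit 6) (nat_lit 598) (nat_lit 3) (nat_lit 190) (nat_lit 174) (nat_lit 206))))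 (PT.nd (nat_lit 156) (PT.nd (nat_lit 78) (PT.lf (nat_lit 45524) (nat_lit 6) (nat_lit 599) (nat_lit 3) (nat_lit 191) (nat_lit 174) (nat_lit 205)) (PT.lf (nat_lit 45600) (nat_lit 6) (nat_lit 600) (nat_lit 3) (nat_lit 192) (nat_lit 174) (nat_lit 204))) (PT.nd (nat_lit 78) (PT.lf (nat_lit 45676) (nat_lit 6) (nat_lit 601) (nat_lit 3) (nat_lit 193) (nat_lit 174) (nat_lit 203)) (PT.lf (nat_lit 45752) (nat_lit 6) (nat_lit 602) (nat_lit 3) (nat_lit 194) (nat_lit 174) (nat_lit 202))))) (PT.nd (nat_lit 312) (PT.nd (nat_lit 156) (PT.nd (nat_lit 78) (PT.lf (nat_lit 45828) (nat_lit 6) (nat_lit 603) (nat_lit 3) (nat_lit 195) (nat_lit 174) (nat_lit 201)) (PT.lf (nat_lit 45904) (nat_lit 6) (nat_lit 604) (nat_lit 3) (nat_lit 196) (nat_lit 174) (nat_lit 200))) (PT.nd (nat_lit 78) (PT.lf (nat_lit 45980) (nat_lit 6) (nat_lit 605) (nat_lit 3) (nat_lit 197) (nat_lit 174) (nat_lit 199)) (PT.lf (nat_lit 46056) (nat_lit 3) (nat_lit 606) (nat_lit 1)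 (nat_lit 198) (nat_lit 174) (nat_lit 198)))) (PT.nd (nat_lit 156) (PT.nd (nat_lit 78) (PT.lf (nat_lit 45980) (nat_lit 6) (nat_lit 605) (nat_lit 1) (nat_lit 199) (nat_lit 174) (nat_lit 197)) (PT.lf (nat_lit 45904) (nat_lit 6) (nat_lit 604) (nat_lit 1) (nat_lit 200) (nat_lit 174) (nat_lit 196))) (PT.nd (nat_lit 78) (PT.lf (nat_lit 45828) (nat_lit 6) (nat_lit 603) (nat_lit 1) (nat_lit 201) (nat_lit 174) (nat_lit 195)) (PT.nd (nat_lit 78) (PT.lf (nat_lit 45752) (nat_lit 6) (nat_lit 602) (nat_lit 1) (nat_lit 202) (nat_lit 174) (nat_lit 194)) (PT.lf (nat_lit 45676) (nat_lit 6) (nat_lit 601) (nat_lit 1) (nat_lit 203) (nat_lit 174) (nat_lit 193))))))))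
noncomputable def pc18 : PT := (PT.nd (nat_lit 59358) (PT.nd (nat_lit 58110) (PT.nd (nat_lit 624) (PT.nd (nat_lit 312) (PT.nd (nat_lit 156) (PT.nd (nat_lit 78) (PT.lf (nat_lit 45600) (nat_lit 6) (nat_lit 600) (nat_lit 1) (nat_lit 204) (nat_lit 174) (nat_lit 192)) (PT.lf (nat_lit 45524) (nat_lit 6) (nat_lit 599) (nat_lit 1) (nat_lit 205) (nat_lit 174) (nat_lit 191))) (PT.nd (nat_lit 78) (PT.lf (nat_lit 45448) (nat_lit 6) (nat_lit 598) (nat_lit 1) (nat_lit 206) (nat_lit 174) (nat_lit 190)) (PT.lf (nat_lit 44080) (nat_lit 6) (nat_lit 580) (nat_lit 1) (nat_lit 207) (nat_lit 174) (nat_lit 189)))) (PT.nd (nat_lit 156) (PT.nd (nat_lit 78) (PT.lf (nat_lit 42636) (nat_lit 6) (nat_lit 561) (nat_lit 1) (nat_lit 208) (nat_lit 174) (nat_lit 188)) (PT.lf (nat_lit 41116) (nat_lit 6) (nat_lit 541) (nat_lit 1) (nat_lit 209) (nat_lit 174) (nat_lit 187))) (PT.nd (nat_lit 78) (PT.lf (nat_lit 39520) (nat_lit 6) (nat_lit 520) (nat_lit 1) (nat_lit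 210) (nat_lit 174) (nat_lit 186)) (PT.lf (nat_lit 37848) (nat_lit 6) (nat_lit 498) (nat_lit 1) (nat_lit 211) (nat_lit 174) (nat_lit 185))))) (PT.nd (nat_lit 57174) (PT.nd (nat_lit 57018) (PT.nd (nat_lit 78) (PT.lf (nat_lit 36100) (nat_lit 6) (nat_lit 475) (nat_lit 1) (nat_lit 212) (nat_lit 174) (nat_lit 184)) (PT.lf (nat_lit 34276) (nat_lit 6) (nat_lit 451) (nat_lit 1) (nat_lit 213) (nat_lit 174) (nat_lit 183))) (PT.nd (nat_lit 78) (PT.lf (nat_lit 34200) (nat_lit 6) (nat_lit 450) (nat_lit 3) (nat_lit 182) (nat_lit 175) (nat_lit 213)) (PT.lf (nat_lit 36024) (nat_lit 6) (nat_lit 474) (nat_lit 3) (nat_lit 183) (nat_lit 175) (nat_lit 212)))) (PT.nd (nat_lit 156) (PT.nd (nat_lit 78) (PT.lf (nat_lit 37772) (nat_lit 6) (nat_lit 497) (nat_lit 3) (nat_lit 184) (nat_lit 175) (nat_lit 211)) (PT.lf (nat_lit 39444) (nat_lit 6) (nat_lit 519) (nat_lit 3) (nat_lit 185) (nat_lit 175) (nat_lit 210))) (PT.nd (nat_lit 78) (PT.lf (nat_lit 41040)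 (nat_lit 6) (nat_lit 540) (nat_lit 3) (nat_lit 186) (nat_lit 175) (nat_lit 209)) (PT.lf (nat_lit 42560) (nat_lit 6) (nat_lit 560) (nat_lit 3) (nat_lit 187) (nat_lit 175) (nat_lit 208)))))) (PT.nd (nat_lit 624) (PT.nd (nat_lit 312) (PT.nd (nat_lit 156) (PT.nd (nat_lit 78) (PT.lf (nat_lit 44004) (nat_lit 6) (nat_lit 579) (nat_lit 3) (nat_lit 188) (nat_lit 175) (nat_lit 207)) (PT.lf (nat_lit 45372) (nat_lit 6) (nat_lit 597) (nat_lit 3) (nat_lit 189) (nat_lit 175) (nat_lit 206))) (PT.nd (nat_lit 78) (PT.lf (nat_lit 46664) (nat_lit 6) (nat_lit 614) (nat_lit 3) (nat_lit 190) (nat_lit 175) (nat_lit 205)) (PT.lf (nat_lit 46740) (nat_lit 6) (nat_lit 615) (nat_lit 3) (nat_lit 191) (nat_lit 175) (nat_lit 204)))) (PT.nd (nat_lit 156) (PT.nd (nat_lit 78) (PT.lf (nat_lit 46816) (nat_lit 6) (nat_lit 616) (nat_lit 3) (nat_lit 192) (nat_lit 175) (nat_lit 203)) (PT.lf (nat_lit 46892) (nat_lit 6) (nat_lit 617) (nat_lit 3) (nat_lit 193) (nat_lit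 175) (nat_lit 202))) (PT.nd (nat_lit 78) (PT.lf (nat_lit 46968) (nat_lit 6) (nat_lit 618) (nat_lit 3) (nat_lit 194) (nat_lit 175) (nat_lit 201)) (PT.lf (nat_lit 47044) (nat_lit 6) (nat_lit 619) (nat_lit 3) (nat_lit 195) (nat_lit 175) (nat_lit 200))))) (PT.nd (nat_lit 312) (PT.nd (nat_lit 156) (PT.nd (nat_lit 78) (PT.lf (nat_lit 47120) (nat_lit 6) (nat_lit 620) (nat_lit 3) (nat_lit 196) (nat_lit 175) (nat_lit 199)) (PT.lf (nat_lit 47196) (nat_lit 6) (nat_lit 621) (nat_lit 3) (nat_lit 197) (nat_lit 175) (nat_lit 198))) (PT.nd (nat_lit 78) (PT.lf (nat_lit 47196) (nat_lit 6) (nat_lit 621) (nat_lit 1) (nat_lit 198) (nat_lit 175) (nat_lit 197)) (PT.lf (nat_lit 47120) (nat_lit 6) (nat_lit 620) (nat_lit 1) (nat_lit 199) (nat_lit 175) (nat_lit 196)))) (PT.nd (nat_lit 156) (PT.nd (nat_lit 78) (PT.lf (nat_lit 47044) (nat_lit 6) (nat_lit 619) (nat_lit 1) (nat_lit 200) (nat_lit 175) (nat_lit 195)) (PT.lf (nat_lit 46968) (nat_lit 6) (nat_lit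 618) (nat_lit 1) (nat_lit 201) (nat_lit 175) (nat_lit 194))) (PT.nd (nat_lit 78) (PT.lf (nat_lit 46892) (nat_lit 6) (nat_lit 617) (nat_lit 1) (nat_lit 202) (nat_lit 175) (nat_lit 193)) (PT.lf (nat_lit 46816) (nat_lit 6) (nat_lit 616) (nat_lit 1) (nat_lit 203) (nat_lit 175) (nat_lit 192))))))) (PT.nd (nat_lit 58032) (PT.nd (nat_lit 624) (PT.nd (nat_lit 312) (PT.nd (nat_lit 156) (PT.nd (nat_lit 78) (PT.lf (nat_lit 46740) (nat_lit 6) (nat_lit 615) (nat_lit 1) (nat_lit 204) (nat_lit 175) (nat_lit 191)) (PT.lf (nat_lit 46664) (nat_lit 6) (nat_lit 614) (nat_lit 1) (nat_lit 205) (nat_lit 175) (nat_lit 190))) (PT.nd (nat_lit 78) (PT.lf (nat_lit 45372) (nat_lit 6) (nat_lit 597) (nat_lit 1) (nat_lit 206) (nat_lit 175) (nat_lit 189)) (PT.lf (nat_lit 44004) (nat_lit 6) (nat_lit 579) (nat_lit 1) (nat_lit 207) (nat_lit 175) (nat_lit 188)))) (PT.nd (nat_lit 156) (PT.nd (nat_lit 78) (PT.lf (nat_lit 42560) (nat_lit 6) (nat_lit 560) (nat_lit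 1) (nat_lit 208) (nat_lit 175) (nat_lit 187)) (PT.lf (nat_lit 41040) (nat_lit 6) (nat_lit 540) (nat_lit 1) (nat_lit 209) (nat_lit 175) (nat_lit 186))) (PT.nd (nat_lit 78) (PT.lf (nat_lit 39444) (nat_lit 6) (nat_lit 519) (nat_lit 1) (nat_lit 210) (nat_lit 175) (nat_lit 185)) (PT.lf (nat_lit 37772) (nat_lit 6) (nat_lit 497) (nat_lit 1) (nat_lit 211) (nat_lit 175) (nat_lit 184))))) (PT.nd (nat_lit 57096) (PT.nd (nat_lit 56940) (PT.nd (nat_lit 78) (PT.lf (nat_lit 36024) (nat_lit 6) (nat_lit 474) (nat_lit 1) (nat_lit 212) (nat_lit 175) (nat_lit 183)) (PT.lf (nat_lit 34200) (nat_lit 6) (nat_lit 450) (nat_lit 1) (nat_lit 213) (nat_lit 175) (nat_lit 182))) (PT.nd (nat_lit 78) (PT.lf (nat_lit 34124) (nat_lit 6) (nat_lit 449) (nat_lit 3) (nat_lit 181) (nat_lit 176) (nat_lit 213)) (PT.lf (nat_lit 35948) (nat_lit 6) (nat_lit 473) (nat_lit 3) (nat_lit 182) (nat_lit 176) (nat_lit 212)))) (PT.nd (nat_lit 156) (PT.nd (nat_lit 78) (PT.lf (nat_lit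 37696) (nat_lit 6) (nat_lit 496) (nat_lit 3) (nat_lit 183) (nat_lit 176) (nat_lit 211)) (PT.lf (nat_lit 39368) (nat_lit 6) (nat_lit 518) (nat_lit 3) (nat_lit 184) (nat_lit 176) (nat_lit 210))) (PT.nd (nat_lit 78) (PT.lf (nat_lit 40964) (nat_lit 6) (nat_lit 539) (nat_lit 3) (nat_lit 185) (nat_lit 176) (nat_lit 209)) (PT.lf (nat_lit 42484) (nat_lit 6) (nat_lit 559) (nat_lit 3) (nat_lit 186) (nat_lit 176) (nat_lit 208)))))) (PT.nd (nat_lit 624) (PT.nd (nat_lit 312) (PT.nd (nat_lit 156) (PT.nd (nat_lit 78) (PT.lf (nat_lit 43928) (nat_lit 6) (nat_lit 578) (nat_lit 3) (nat_lit 187) (nat_lit 176) (nat_lit 207)) (PT.lf (nat_lit 45296) (nat_lit 6) (nat_lit 596) (nat_lit 3) (nat_lit 188) (nat_lit 176) (nat_lit 206))) (PT.nd (nat_lit 78) (PT.lf (nat_lit 46588) (nat_lit 6) (nat_lit 613) (nat_lit 3) (nat_lit 189) (nat_lit 176) (nat_lit 205)) (PT.lf (nat_lit 47804) (nat_lit 6) (nat_lit 629) (nat_lit 3) (nat_lit 190) (nat_lit 176) (nat_lit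 204)))) (PT.nd (nat_lit 156) (PT.nd (nat_lit 78) (PT.lf (nat_lit 47880) (nat_lit 6) (nat_lit 630) (nat_lit 3) (nat_lit 191) (nat_lit 176) (nat_lit 203)) (PT.lf (nat_lit 47956) (nat_lit 6) (nat_lit 631) (nat_lit 3) (nat_lit 192) (nat_lit 176) (nat_lit 202))) (PT.nd (nat_lit 78) (PT.lf (nat_lit 48032) (nat_lit 6) (nat_lit 632) (nat_lit 3) (nat_lit 193) (nat_lit 176) (nat_lit 201)) (PT.lf (nat_lit 48108) (nat_lit 6) (nat_lit 633) (nat_lit 3) (nat_lit 194) (nat_lit 176) (nat_lit 200))))) (PT.nd (nat_lit 312) (PT.nd (nat_lit 156) (PT.nd (nat_lit 78) (PT.lf (nat_lit 48184) (nat_lit 6) (nat_lit 634) (nat_lit 3) (nat_lit 195) (nat_lit 176) (nat_lit 199)) (PT.lf (nat_lit 48260) (nat_lit 6) (nat_lit 635) (nat_lit 3) (nat_lit 196) (nat_lit 176) (nat_lit 198))) (PT.nd (nat_lit 78) (PT.lf (nat_lit 48336) (nat_lit 3) (nat_lit 636) (nat_lit 1) (nat_lit 197) (nat_lit 176) (nat_lit 197)) (PT.lf (nat_lit 48260) (nat_lit 6) (nat_lit 635) (nat_lit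 1) (nat_lit 198) (nat_lit 176) (nat_lit 196)))) (PT.nd (nat_lit 156) (PT.nd (nat_lit 78) (PT.lf (nat_lit 48184) (nat_lit 6) (nat_lit 634) (nat_lit 1) (nat_lit 199) (nat_lit 176) (nat_lit 195)) (PT.lf (nat_lit 48108) (nat_lit 6) (nat_lit 633) (nat_lit 1) (nat_lit 200) (nat_lit 176) (nat_lit 194))) (PT.nd (nat_lit 78) (PT.lf (nat_lit 48032) (nat_lit 6) (nat_lit 632) (nat_lit 1) (nat_lit 201) (nat_lit 176) (nat_lit 193)) (PT.lf (nat_lit 47956) (nat_lit 6) (nat_lit 631) (nat_lit 1) (nat_lit 202) (nat_lit 176) (nat_lit 192))))))))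
noncomputable def pc19 : PT := (PT.nd (nat_lit 59202) (PT.nd (nat_lit 57954) (PT.nd (nat_lit 624) (PT.nd (nat_lit 312) (PT.nd (nat_lit 156) (PT.nd (nat_lit 78) (PT.lf (nat_lit 47880) (nat_lit 6) (nat_lit 630) (nat_lit 1) (nat_lit 203) (nat_lit 176) (nat_lit 191)) (PT.lf (nat_lit 47804) (nat_lit 6) (nat_lit 629) (nat_lit 1) (nat_lit 204) (nat_lit 176) (nat_lit 190))) (PT.nd (nat_lit 78) (PT.lf (nat_lit 46588) (nat_lit 6) (nat_lit 613) (nat_lit 1) (nat_lit 205) (nat_lit 176) (nat_lit 189)) (PT.lf (nat_lit 45296) (nat_lit 6) (nat_lit 596) (nat_lit 1) (nat_lit 206) (nat_lit 176) (nat_lit 188)))) (PT.nd (nat_lit 156) (PT.nd (nat_lit 78) (PT.lf (nat_lit 43928) (nat_lit 6) (nat_lit 578) (nat_lit 1) (nat_lit 207) (nat_lit 176) (nat_lit 187)) (PT.lf (nat_lit 42484) (nat_lit 6) (nat_lit 559) (nat_lit 1) (nat_lit 208) (nat_lit 176) (nat_lit 186))) (PT.nd (nat_lit 78) (PT.lf (nat_lit 40964) (nat_lit 6) (nat_lit 539) (nat_lit 1) (nat_lit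 209) (nat_lit 176) (nat_lit 185)) (PT.lf (nat_lit 39368) (nat_lit 6) (nat_lit 518) (nat_lit 1) (nat_lit 210) (nat_lit 176) (nat_lit 184))))) (PT.nd (nat_lit 57018) (PT.nd (nat_lit 156) (PT.nd (nat_lit 78) (PT.lf (nat_lit 37696) (nat_lit 6) (nat_lit 496) (nat_lit 1) (nat_lit 211) (nat_lit 176) (nat_lit 183)) (PT.lf (nat_lit 35948) (nat_lit 6) (nat_lit 473) (nat_lit 1) (nat_lit 212) (nat_lit 176) (nat_lit 182))) (PT.nd (nat_lit 56784) (PT.lf (nat_lit 34124) (nat_lit 6) (nat_lit 449) (nat_lit 1) (nat_lit 213) (nat_lit 176) (nat_lit 181)) (PT.lf (nat_lit 34048) (nat_lit 6) (nat_lit 448) (nat_lit 3) (nat_lit 180) (nat_lit 177) (nat_lit 213)))) (PT.nd (nat_lit 156) (PT.nd (nat_lit 78) (PT.lf (nat_lit 35872) (nat_lit 6) (nat_lit 472) (nat_lit 3) (nat_lit 181) (nat_lit 177) (nat_lit 212)) (PT.lf (nat_lit 37620) (nat_lit 6) (nat_lit 495) (nat_lit 3) (nat_lit 182) (nat_lit 177) (nat_lit 211))) (PT.nd (nat_lit 78) (PT.lf (nat_lit 39292)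 (nat_lit 6) (nat_lit 517) (nat_lit 3) (nat_lit 183) (nat_lit 177) (nat_lit 210)) (PT.lf (nat_lit 40888) (nat_lit 6) (nat_lit 538) (nat_lit 3) (nat_lit 184) (nat_lit 177) (nat_lit 209)))))) (PT.nd (nat_lit 624) (PT.nd (nat_lit 312) (PT.nd (nat_lit 156) (PT.nd (nat_lit 78) (PT.lf (nat_lit 42408) (nat_lit 6) (nat_lit 558) (nat_lit 3) (nat_lit 185) (nat_lit 177) (nat_lit 208)) (PT.lf (nat_lit 43852) (nat_lit 6) (nat_lit 577) (nat_lit 3) (nat_lit 186) (nat_lit 177) (nat_lit 207))) (PT.nd (nat_lit 78) (PT.lf (nat_lit 45220) (nat_lit 6) (nat_lit 595) (nat_lit 3) (nat_lit 187) (nat_lit 177) (nat_lit 206)) (PT.lf (nat_lit 46512) (nat_lit 6) (nat_lit 612) (nat_lit 3) (nat_lit 188) (nat_lit 177) (nat_lit 205)))) (PT.nd (nat_lit 156) (PT.nd (nat_lit 78) (PT.lf (nat_lit 47728) (nat_lit 6) (nat_lit 628) (nat_lit 3) (nat_lit 189) (nat_lit 177) (nat_lit 204)) (PT.lf (nat_lit 48868) (nat_lit 6) (nat_lit 643) (nat_lit 3) (nat_lit 190) (nat_lit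 177) (nat_lit 203))) (PT.nd (nat_lit 78) (PT.lf (nat_lit 48944) (nat_lit 6) (nat_lit 644) (nat_lit 3) (nat_lit 191) (nat_lit 177) (nat_lit 202)) (PT.lf (nat_lit 49020) (nat_lit 6) (nat_lit 645) (nat_lit 3) (nat_lit 192) (nat_lit 177) (nat_lit 201))))) (PT.nd (nat_lit 312) (PT.nd (nat_lit 156) (PT.nd (nat_lit 78) (PT.lf (nat_lit 49096) (nat_lit 6) (nat_lit 646) (nat_lit 3) (nat_lit 193) (nat_lit 177) (nat_lit 200)) (PT.lf (nat_lit 49172) (nat_lit 6) (nat_lit 647) (nat_lit 3) (nat_lit 194) (nat_lit 177) (nat_lit 199))) (PT.nd (nat_lit 78) (PT.lf (nat_lit 49248) (nat_lit 6) (nat_lit 648) (nat_lit 3) (nat_lit 195) (nat_lit 177) (nat_lit 198)) (PT.lf (nat_lit 49324) (nat_lit 6) (nat_lit 649) (nat_lit 3) (nat_lit 196) (nat_lit 177) (nat_lit 197)))) (PT.nd (nat_lit 156) (PT.nd (nat_lit 78) (PT.lf (nat_lit 49324) (nat_lit 6) (nat_lit 649) (nat_lit 1) (nat_lit 197) (nat_lit 177) (nat_lit 196)) (PT.lf (nat_lit 49248) (nat_lit 6) (nat_lit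 648) (nat_lit 1) (nat_lit 198) (nat_lit 177) (nat_lit 195))) (PT.nd (nat_lit 78) (PT.lf (nat_lit 49172) (nat_lit 6) (nat_lit 647) (nat_lit 1) (nat_lit 199) (nat_lit 177) (nat_lit 194)) (PT.lf (nat_lit 49096) (nat_lit 6) (nat_lit 646) (nat_lit 1) (nat_lit 200) (nat_lit 177) (nat_lit 193))))))) (PT.nd (nat_lit 57876) (PT.nd (nat_lit 624) (PT.nd (nat_lit 312) (PT.nd (nat_lit 156) (PT.nd (nat_lit 78) (PT.lf (nat_lit 49020) (nat_lit 6) (nat_lit 645) (nat_lit 1) (nat_lit 201) (nat_lit 177) (nat_lit 192)) (PT.lf (nat_lit 48944) (nat_lit 6) (nat_lit 644) (nat_lit 1) (nat_lit 202) (nat_lit 177) (nat_lit 191))) (PT.nd (nat_lit 78) (PT.lf (nat_lit 48868) (nat_lit 6) (nat_lit 643) (nat_lit 1) (nat_lit 203) (nat_lit 177) (nat_lit 190)) (PT.lf (nat_lit 47728) (nat_lit 6) (nat_lit 628) (nat_lit 1) (nat_lit 204) (nat_lit 177) (nat_lit 189)))) (PT.nd (nat_lit 156) (PT.nd (nat_lit 78) (PT.lf (nat_lit 46512) (nat_lit 6) (nat_lit 612) (nat_lit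 1) (nat_lit 205) (nat_lit 177) (nat_lit 188)) (PT.lf (nat_lit 45220) (nat_lit 6) (nat_lit 595) (nat_lit 1) (nat_lit 206) (nat_lit 177) (nat_lit 187))) (PT.nd (nat_lit 78) (PT.lf (nat_lit 43852) (nat_lit 6) (nat_lit 577) (nat_lit 1) (nat_lit 207) (nat_lit 177) (nat_lit 186)) (PT.lf (nat_lit 42408) (nat_lit 6) (nat_lit 558) (nat_lit 1) (nat_lit 208) (nat_lit 177) (nat_lit 185))))) (PT.nd (nat_lit 312) (PT.nd (nat_lit 156) (PT.nd (nat_lit 78) (PT.lf (nat_lit 40888) (nat_lit 6) (nat_lit 538) (nat_lit 1) (nat_lit 209) (nat_lit 177) (nat_lit 184)) (PT.lf (nat_lit 39292) (nat_lit 6) (nat_lit 517) (nat_lit 1) (nat_lit 210) (nat_lit 177) (nat_lit 183))) (PT.nd (nat_lit 78) (PT.lf (nat_lit 37620) (nat_lit 6) (nat_lit 495) (nat_lit 1) (nat_lit 211) (nat_lit 177) (nat_lit 182)) (PT.lf (nat_lit 35872) (nat_lit 6) (nat_lit 472) (nat_lit 1) (nat_lit 212) (nat_lit 177) (nat_lit 181)))) (PT.nd (nat_lit 56784) (PT.nd (nat_lit 56706) (PT.lf (nat_lit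 34048) (nat_lit 6) (nat_lit 448) (nat_lit 1) (nat_lit 213) (nat_lit 177) (nat_lit 180)) (PT.lf (nat_lit 33972) (nat_lit 6) (nat_lit 447) (nat_lit 3) (nat_lit 179) (nat_lit 178) (nat_lit 213))) (PT.nd (nat_lit 78) (PT.lf (nat_lit 35796) (nat_lit 6) (nat_lit 471) (nat_lit 3) (nat_lit 180) (nat_lit 178) (nat_lit 212)) (PT.lf (nat_lit 37544) (nat_lit 6) (nat_lit 494) (nat_lit 3) (nat_lit 181) (nat_lit 178) (nat_lit 211)))))) (PT.nd (nat_lit 624) (PT.nd (nat_lit 312) (PT.nd (nat_lit 156) (PT.nd (nat_lit 78) (PT.lf (nat_lit 39216) (nat_lit 6) (nat_lit 516) (nat_lit 3) (nat_lit 182) (nat_lit 178) (nat_lit 210)) (PT.lf (nat_lit 40812) (nat_lit 6) (nat_lit 537) (nat_lit 3) (nat_lit 183) (nat_lit 178) (nat_lit 209))) (PT.nd (nat_lit 78) (PT.lf (nat_lit 42332) (nat_lit 6) (nat_lit 557) (nat_lit 3) (nat_lit 184) (nat_lit 178) (nat_lit 208)) (PT.lf (nat_lit 43776) (nat_lit 6) (nat_lit 576) (nat_lit 3) (nat_lit 185) (nat_lit 178) (nat_lit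 207)))) (PT.nd (nat_lit 156) (PT.nd (nat_lit 78) (PT.lf (nat_lit 45144) (nat_lit 6) (nat_lit 594) (nat_lit 3) (nat_lit 186) (nat_lit 178) (nat_lit 206)) (PT.lf (nat_lit 46436) (nat_lit 6) (nat_lit 611) (nat_lit 3) (nat_lit 187) (nat_lit 178) (nat_lit 205))) (PT.nd (nat_lit 78) (PT.lf (nat_lit 47652) (nat_lit 6) (nat_lit 627) (nat_lit 3) (nat_lit 188) (nat_lit 178) (nat_lit 204)) (PT.lf (nat_lit 48792) (nat_lit 6) (nat_lit 642) (nat_lit 3) (nat_lit 189) (nat_lit 178) (nat_lit 203))))) (PT.nd (nat_lit 312) (PT.nd (nat_lit 156) (PT.nd (nat_lit 78) (PT.lf (nat_lit 49856) (nat_lit 6) (nat_lit 656) (nat_lit 3) (nat_lit 190) (nat_lit 178) (nat_lit 202)) (PT.lf (nat_lit 49932) (nat_lit 6) (nat_lit 657) (nat_lit 3) (nat_lit 191) (nat_lit 178) (nat_lit 201))) (PT.nd (nat_lit 78) (PT.lf (nat_lit 50008) (nat_lit 6) (nat_lit 658) (nat_lit 3) (nat_lit 192) (nat_lit 178) (nat_lit 200)) (PT.lf (nat_lit 50084) (nat_lit 6) (nat_lit 659) (nat_lit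 3) (nat_lit 193) (nat_lit 178) (nat_lit 199)))) (PT.nd (nat_lit 156) (PT.nd (nat_lit 78) (PT.lf (nat_lit 50160) (nat_lit 6) (nat_lit 660) (nat_lit 3) (nat_lit 194) (nat_lit 178) (nat_lit 198)) (PT.lf (nat_lit 50236) (nat_lit 6) (nat_lit 661) (nat_lit 3) (nat_lit 195) (nat_lit 178) (nat_lit 197))) (PT.nd (nat_lit 78) (PT.lf (nat_lit 50312) (nat_lit 3) (nat_lit 662) (nat_lit 1) (nat_lit 196) (nat_lit 178) (nat_lit 196)) (PT.lf (nat_lit 50236) (nat_lit 6) (nat_lit 661) (nat_lit 1) (nat_lit 197) (nat_lit 178) (nat_lit 195))))))))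
noncomputable def pc20 : PT := (PT.nd (nat_lit 59046) (PT.nd (nat_lit 57798) (PT.nd (nat_lit 624) (PT.nd (nat_lit 312) (PT.nd (nat_lit 156) (PT.nd (nat_lit 78) (PT.lf (nat_lit 50160) (nat_lit 6) (nat_lit 660) (nat_lit 1) (nat_lit 198) (nat_lit 178) (nat_lit 194)) (PT.lf (nat_lit 50084) (nat_lit 6) (nat_lit 659) (nat_lit 1) (nat_lit 199) (nat_lit 178) (nat_lit 193))) (PT.nd (nat_lit 78) (PT.lf (nat_lit 50008) (nat_lit 6) (nat_lit 658) (nat_lit 1) (nat_lit 200) (nat_lit 178) (nat_lit 192)) (PT.lf (nat_lit 49932) (nat_lit 6) (nat_lit 657) (nat_lit 1) (nat_lit 201) (nat_lit 178) (nat_lit 191)))) (PT.nd (nat_lit 156) (PT.nd (nat_lit 78) (PT.lf (nat_lit 49856) (nat_lit 6) (nat_lit 656) (nat_lit 1) (nat_lit 202) (nat_lit 178) (nat_lit 190)) (PT.lf (nat_lit 48792) (nat_lit 6) (nat_lit 642) (nat_lit 1) (nat_lit 203) (nat_lit 178) (nat_lit 189))) (PT.nd (nat_lit 78) (PT.lf (nat_lit 47652) (nat_lit 6) (nat_lit 627) (nat_lit 1) (nat_lit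 204) (nat_lit 178) (nat_lit 188)) (PT.lf (nat_lit 46436) (nat_lit 6) (nat_lit 611) (nat_lit 1) (nat_lit 205) (nat_lit 178) (nat_lit 187))))) (PT.nd (nat_lit 312) (PT.nd (nat_lit 156) (PT.nd (nat_lit 78) (PT.lf (nat_lit 45144) (nat_lit 6) (nat_lit 594) (nat_lit 1) (nat_lit 206) (nat_lit 178) (nat_lit 186)) (PT.lf (nat_lit 43776) (nat_lit 6) (nat_lit 576) (nat_lit 1) (nat_lit 207) (nat_lit 178) (nat_lit 185))) (PT.nd (nat_lit 78) (PT.lf (nat_lit 42332) (nat_lit 6) (nat_lit 557) (nat_lit 1) (nat_lit 208) (nat_lit 178) (nat_lit 184)) (PT.lf (nat_lit 40812) (nat_lit 6) (nat_lit 537) (nat_lit 1) (nat_lit 209) (nat_lit 178) (nat_lit 183)))) (PT.nd (nat_lit 156) (PT.nd (nat_lit 78) (PT.lf (nat_lit 39216) (nat_lit 6) (nat_lit 516) (nat_lit 1) (nat_lit 210) (nat_lit 178) (nat_lit 182)) (PT.lf (nat_lit 37544) (nat_lit 6) (nat_lit 494) (nat_lit 1) (nat_lit 211) (nat_lit 178) (nat_lit 181))) (PT.nd (nat_lit 78) (PT.lf (nat_lit 35796) (nat_lit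 6) (nat_lit 471) (nat_lit 1) (nat_lit 212) (nat_lit 178) (nat_lit 180)) (PT.lf (nat_lit 33972) (nat_lit 6) (nat_lit 447) (nat_lit 1) (nat_lit 213) (nat_lit 178) (nat_lit 179)))))) (PT.nd (nat_lit 624) (PT.nd (nat_lit 312) (PT.nd (nat_lit 156) (PT.nd (nat_lit 78) (PT.lf (nat_lit 33972) (nat_lit 6) (nat_lit 447) (nat_lit 5) (nat_lit 178) (nat_lit 179) (nat_lit 213)) (PT.lf (nat_lit 35720) (nat_lit 3) (nat_lit 470) (nat_lit 3) (nat_lit 179) (nat_lit 179) (nat_lit 212))) (PT.nd (nat_lit 78) (PT.lf (nat_lit 37468) (nat_lit 6) (nat_lit 493) (nat_lit 3) (nat_lit 180) (nat_lit 179) (nat_lit 211)) (PT.lf (nat_lit 39140) (nat_lit 6) (nat_lit 515) (nat_lit 3) (nat_lit 181) (nat_lit 179) (nat_lit 210)))) (PT.nd (nat_lit 156) (PT.nd (nat_lit 78) (PT.lf (nat_lit 40736) (nat_lit 6) (nat_lit 536) (nat_lit 3) (nat_lit 182) (nat_lit 179) (nat_lit 209)) (PT.lf (nat_lit 42256) (nat_lit 6) (nat_lit 556) (nat_lit 3) (nat_lit 183) (nat_lit 179) (nat_lit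 208))) (PT.nd (nat_lit 78) (PT.lf (nat_lit 43700) (nat_lit 6) (nat_lit 575) (nat_lit 3) (nat_lit 184) (nat_lit 179) (nat_lit 207)) (PT.lf (nat_lit 45068) (nat_lit 6) (nat_lit 593) (nat_lit 3) (nat_lit 185) (nat_lit 179) (nat_lit 206))))) (PT.nd (nat_lit 312) (PT.nd (nat_lit 156) (PT.nd (nat_lit 78) (PT.lf (nat_lit 46360) (nat_lit 6) (nat_lit 610) (nat_lit 3) (nat_lit 186) (nat_lit 179) (nat_lit 205)) (PT.lf (nat_lit 47576) (nat_lit 6) (nat_lit 626) (nat_lit 3) (nat_lit 187) (nat_lit 179) (nat_lit 204))) (PT.nd (nat_lit 78) (PT.lf (nat_lit 48716) (nat_lit 6) (nat_lit 641) (nat_lit 3) (nat_lit 188) (nat_lit 179) (nat_lit 203)) (PT.lf (nat_lit 49780) (nat_lit 6) (nat_lit 655) (nat_lit 3) (nat_lit 189) (nat_lit 179) (nat_lit 202)))) (PT.nd (nat_lit 156) (PT.nd (nat_lit 78) (PT.lf (nat_lit 50768) (nat_lit 6) (nat_lit 668) (nat_lit 3) (nat_lit 190) (nat_lit 179) (nat_lit 201)) (PT.lf (nat_lit 50844) (nat_lit 6) (nat_lit 669) (nat_lit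 3) (nat_lit 191) (nat_lit 179) (nat_lit 200))) (PT.nd (nat_lit 78) (PT.lf (nat_lit 50920) (nat_lit 6) (nat_lit 670) (nat_lit 3) (nat_lit 192) (nat_lit 179) (nat_lit 199)) (PT.lf (nat_lit 50996) (nat_lit 6) (nat_lit 671) (nat_lit 3) (nat_lit 193) (nat_lit 179) (nat_lit 198))))))) (PT.nd (nat_lit 1248) (PT.nd (nat_lit 624) (PT.nd (nat_lit 312) (PT.nd (nat_lit 156) (PT.nd (nat_lit 78) (PT.lf (nat_lit 51072) (nat_lit 6) (nat_lit 672) (nat_lit 3) (nat_lit 194) (nat_lit 179) (nat_lit 197)) (PT.lf (nat_lit 51148) (nat_lit 6) (nat_lit 673) (nat_lit 3) (nat_lit 195) (nat_lit 179) (nat_lit 196))) (PT.nd (nat_lit 78) (PT.lf (nat_lit 51148) (nat_lit 6) (nat_lit 673) (nat_lit 1) (nat_lit 196) (nat_lit 179) (nat_lit 195)) (PT.lf (nat_lit 51072) (nat_lit 6) (nat_lit 672) (nat_lit 1) (nat_lit 197) (nat_lit 179) (nat_lit 194)))) (PT.nd (nat_lit 156) (PT.nd (nat_lit 78) (PT.lf (nat_lit 50996) (nat_lit 6) (nat_lit 671) (nat_lit 1) (nat_lit 198)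 (nat_lit 179) (nat_lit 193)) (PT.lf (nat_lit 50920) (nat_lit 6) (nat_lit 670) (nat_lit 1) (nat_lit 199) (nat_lit 179) (nat_lit 192))) (PT.nd (nat_lit 78) (PT.lf (nat_lit 50844) (nat_lit 6) (nat_lit 669) (nat_lit 1) (nat_lit 200) (nat_lit 179) (nat_lit 191)) (PT.lf (nat_lit 50768) (nat_lit 6) (nat_lit 668) (nat_lit 1) (nat_lit 201) (nat_lit 179) (nat_lit 190))))) (PT.nd (nat_lit 312) (PT.nd (nat_lit 156) (PT.nd (nat_lit 78) (PT.lf (nat_lit 49780) (nat_lit 6) (nat_lit 655) (nat_lit 1) (nat_lit 202) (nat_lit 179) (nat_lit 189)) (PT.lf (nat_lit 48716) (nat_lit 6) (nat_lit 641) (nat_lit 1) (nat_lit 203) (nat_lit 179) (nat_lit 188))) (PT.nd (nat_lit 78) (PT.lf (nat_lit 47576) (nat_lit 6) (nat_lit 626) (nat_lit 1) (nat_lit 204) (nat_lit 179) (nat_lit 187)) (PT.lf (nat_lit 46360) (nat_lit 6) (nat_lit 610) (nat_lit 1) (nat_lit 205) (nat_lit 179) (nat_lit 186)))) (PT.nd (nat_lit 156) (PT.nd (nat_lit 78) (PT.lf (nat_lit 45068) (nat_lit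 6) (nat_lit 593) (nat_lit 1) (nat_lit 206) (nat_lit 179) (nat_lit 185)) (PT.lf (nat_lit 43700) (nat_lit 6) (nat_lit 575) (nat_lit 1) (nat_lit 207) (nat_lit 179) (nat_lit 184))) (PT.nd (nat_lit 78) (PT.lf (nat_lit 42256) (nat_lit 6) (nat_lit 556) (nat_lit 1) (nat_lit 208) (nat_lit 179) (nat_lit 183)) (PT.lf (nat_lit 40736) (nat_lit 6) (nat_lit 536) (nat_lit 1) (nat_lit 209) (nat_lit 179) (nat_lit 182)))))) (PT.nd (nat_lit 57096) (PT.nd (nat_lit 56784) (PT.nd (nat_lit 156) (PT.nd (nat_lit 78) (PT.lf (nat_lit 39140) (nat_lit 6) (nat_lit 515) (nat_lit 1) (nat_lit 210) (nat_lit 179) (nat_lit 181)) (PT.lf (nat_lit 37468) (nat_lit 6) (nat_lit 493) (nat_lit 1) (nat_lit 211) (nat_lit 179) (nat_lit 180))) (PT.nd (nat_lit 78) (PT.lf (nat_lit 35720) (nat_lit 3) (nat_lit 470) (nat_lit 0) (nat_lit 212) (nat_lit 179) (nat_lit 179)) (PT.lf (nat_lit 33972) (nat_lit 6) (nat_lit 447) (nat_lit 0) (nat_lit 213) (nat_lit 179) (nat_lit 178)))) (PT.nd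 (nat_lit 156) (PT.nd (nat_lit 78) (PT.lf (nat_lit 34048) (nat_lit 6) (nat_lit 448) (nat_lit 5) (nat_lit 177) (nat_lit 180) (nat_lit 213)) (PT.lf (nat_lit 35796) (nat_lit 6) (nat_lit 471) (nat_lit 5) (nat_lit 178) (nat_lit 180) (nat_lit 212))) (PT.nd (nat_lit 78) (PT.lf (nat_lit 37468) (nat_lit 6) (nat_lit 493) (nat_lit 5) (nat_lit 179) (nat_lit 180) (nat_lit 211)) (PT.lf (nat_lit 39064) (nat_lit 3) (nat_lit 514) (nat_lit 3) (nat_lit 180) (nat_lit 180) (nat_lit 210))))) (PT.nd (nat_lit 312) (PT.nd (nat_lit 156) (PT.nd (nat_lit 78) (PT.lf (nat_lit 40660) (nat_lit 6) (nat_lit 535) (nat_lit 3) (nat_lit 181) (nat_lit 180) (nat_lit 209)) (PT.lf (nat_lit 42180) (nat_lit 6) (nat_lit 555) (nat_lit 3) (nat_lit 182) (nat_lit 180) (nat_lit 208))) (PT.nd (nat_lit 78) (PT.lf (nat_lit 43624) (nat_lit 6) (nat_lit 574) (nat_lit 3) (nat_lit 183) (nat_lit 180) (nat_lit 207)) (PT.lf (nat_lit 44992) (nat_lit 6) (nat_lit 592) (nat_lit 3) (nat_lit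 184) (nat_lit 180) (nat_lit 206)))) (PT.nd (nat_lit 156) (PT.nd (nat_lit 78) (PT.lf (nat_lit 46284) (nat_lit 6) (nat_lit 609) (nat_lit 3) (nat_lit 185) (nat_lit 180) (nat_lit 205)) (PT.lf (nat_lit 47500) (nat_lit 6) (nat_lit 625) (nat_lit 3) (nat_lit 186) (nat_lit 180) (nat_lit 204))) (PT.nd (nat_lit 78) (PT.lf (nat_lit 48640) (nat_lit 6) (nat_lit 640) (nat_lit 3) (nat_lit 187) (nat_lit 180) (nat_lit 203)) (PT.lf (nat_lit 49704) (nat_lit 6) (nat_lit 654) (nat_lit 3) (nat_lit 188) (nat_lit 180) (nat_lit 202))))))))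
noncomputable def pc21 : PT := (PT.nd (nat_lit 58890) (PT.nd (nat_lit 1248) (PT.nd (nat_lit 624) (PT.nd (nat_lit 312) (PT.nd (nat_lit 156) (PT.nd (nat_lit 78) (PT.lf (nat_lit 50692) (nat_lit 6) (nat_lit 667) (nat_lit 3) (nat_lit 189) (nat_lit 180) (nat_lit 201)) (PT.lf (nat_lit 51604) (nat_lit 6) (nat_lit 679) (nat_lit 3) (nat_lit 190) (nat_lit 180) (nat_lit 200))) (PT.nd (nat_lit 78) (PT.lf (nat_lit 51680) (nat_lit 6) (nat_lit 680) (nat_lit 3) (nat_lit 191) (nat_lit 180) (nat_lit 199)) (PT.lf (nat_lit 51756) (nat_lit 6) (nat_lit 681) (nat_lit 3) (nat_lit 192) (nat_lit 180) (nat_lit 198)))) (PT.nd (nat_lit 156) (PT.nd (nat_lit 78) (PT.lf (nat_lit 51832) (nat_lit 6) (nat_lit 682) (nat_lit 3) (nat_lit 193) (nat_lit 180) (nat_lit 197)) (PT.lf (nat_lit 51908) (nat_lit 6) (nat_lit 683) (nat_lit 3) (nat_lit 194) (nat_lit 180) (nat_lit 196))) (PT.nd (nat_lit 78) (PT.lf (nat_lit 51984) (nat_lit 3) (nat_lit 684) (nat_lit 1) (nat_lit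 195) (nat_lit 180) (nat_lit 195)) (PT.lf (nat_lit 51908) (nat_lit 6) (nat_lit 683) (nat_lit 1) (nat_lit 196) (nat_lit 180) (nat_lit 194))))) (PT.nd (nat_lit 312) (PT.nd (nat_lit 156) (PT.nd (nat_lit 78) (PT.lf (nat_lit 51832) (nat_lit 6) (nat_lit 682) (nat_lit 1) (nat_lit 197) (nat_lit 180) (nat_lit 193)) (PT.lf (nat_lit 51756) (nat_lit 6) (nat_lit 681) (nat_lit 1) (nat_lit 198) (nat_lit 180) (nat_lit 192))) (PT.nd (nat_lit 78) (PT.lf (nat_lit 51680) (nat_lit 6) (nat_lit 680) (nat_lit 1) (nat_lit 199) (nat_lit 180) (nat_lit 191)) (PT.lf (nat_lit 51604) (nat_lit 6) (nat_lit 679) (nat_lit 1) (nat_lit 200) (nat_lit 180) (nat_lit 190)))) (PT.nd (nat_lit 156) (PT.nd (nat_lit 78) (PT.lf (nat_lit 50692) (nat_lit 6) (nat_lit 667) (nat_lit 1) (nat_lit 201) (nat_lit 180) (nat_lit 189)) (PT.lf (nat_lit 49704) (nat_lit 6) (nat_lit 654) (nat_lit 1) (nat_lit 202) (nat_lit 180) (nat_lit 188))) (PT.nd (nat_lit 78) (PT.lf (nat_lit 48640) (nat_lit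 6) (nat_lit 640) (nat_lit 1) (nat_lit 203) (nat_lit 180) (nat_lit 187)) (PT.lf (nat_lit 47500) (nat_lit 6) (nat_lit 625) (nat_lit 1) (nat_lit 204) (nat_lit 180) (nat_lit 186)))))) (PT.nd (nat_lit 624) (PT.nd (nat_lit 312) (PT.nd (nat_lit 156) (PT.nd (nat_lit 78) (PT.lf (nat_lit 46284) (nat_lit 6) (nat_lit 609) (nat_lit 1) (nat_lit 205) (nat_lit 180) (nat_lit 185)) (PT.lf (nat_lit 44992) (nat_lit 6) (nat_lit 592) (nat_lit 1) (nat_lit 206) (nat_lit 180) (nat_lit 184))) (PT.nd (nat_lit 78) (PT.lf (nat_lit 43624) (nat_lit 6) (nat_lit 574) (nat_lit 1) (nat_lit 207) (nat_lit 180) (nat_lit 183)) (PT.lf (nat_lit 42180) (nat_lit 6) (nat_lit 555) (nat_lit 1) (nat_lit 208) (nat_lit 180) (nat_lit 182)))) (PT.nd (nat_lit 156) (PT.nd (nat_lit 78) (PT.lf (nat_lit 40660) (nat_lit 6) (nat_lit 535) (nat_lit 1) (nat_lit 209) (nat_lit 180) (nat_lit 181)) (PT.lf (nat_lit 39064) (nat_lit 3) (nat_lit 514) (nat_lit 0) (nat_lit 210) (nat_lit 180) (nat_lit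 180))) (PT.nd (nat_lit 78) (PT.lf (nat_lit 37468) (nat_lit 6) (nat_lit 493) (nat_lit 0) (nat_lit 211) (nat_lit 180) (nat_lit 179)) (PT.lf (nat_lit 35796) (nat_lit 6) (nat_lit 471) (nat_lit 0) (nat_lit 212) (nat_lit 180) (nat_lit 178))))) (PT.nd (nat_lit 56706) (PT.nd (nat_lit 56550) (PT.nd (nat_lit 56472) (PT.lf (nat_lit 34048) (nat_lit 6) (nat_lit 448) (nat_lit 0) (nat_lit 213) (nat_lit 180) (nat_lit 177)) (PT.lf (nat_lit 34124) (nat_lit 6) (nat_lit 449) (nat_lit 5) (nat_lit 176) (nat_lit 181) (nat_lit 213))) (PT.nd (nat_lit 78) (PT.lf (nat_lit 35872) (nat_lit 6) (nat_lit 472) (nat_lit 5) (nat_lit 177) (nat_lit 181) (nat_lit 212)) (PT.lf (nat_lit 37544) (nat_lit 6) (nat_lit 494) (nat_lit 5) (nat_lit 178) (nat_lit 181) (nat_lit 211)))) (PT.nd (nat_lit 156) (PT.nd (nat_lit 78) (PT.lf (nat_lit 39140) (nat_lit 6) (nat_lit 515) (nat_lit 5) (nat_lit 179) (nat_lit 181) (nat_lit 210)) (PT.lf (nat_lit 40660) (nat_lit 6) (nat_lit 535)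 (nat_lit 5) (nat_lit 180) (nat_lit 181) (nat_lit 209))) (PT.nd (nat_lit 78) (PT.lf (nat_lit 42104) (nat_lit 3) (nat_lit 554) (nat_lit 3) (nat_lit 181) (nat_lit 181) (nat_lit 208)) (PT.lf (nat_lit 43548) (nat_lit 6) (nat_lit 573) (nat_lit 3) (nat_lit 182) (nat_lit 181) (nat_lit 207))))))) (PT.nd (nat_lit 1248) (PT.nd (nat_lit 624) (PT.nd (nat_lit 312) (PT.nd (nat_lit 156) (PT.nd (nat_lit 78) (PT.lf (nat_lit 44916) (nat_lit 6) (nat_lit 591) (nat_lit 3) (nat_lit 183) (nat_lit 181) (nat_lit 206)) (PT.lf (nat_lit 46208) (nat_lit 6) (nat_lit 608) (nat_lit 3) (nat_lit 184) (nat_lit 181) (nat_lit 205))) (PT.nd (nat_lit 78) (PT.lf (nat_lit 47424) (nat_lit 6) (nat_lit 624) (nat_lit 3) (nat_lit 185) (nat_lit 181) (nat_lit 204)) (PT.lf (nat_lit 48564) (nat_lit 6) (nat_lit 639) (nat_lit 3) (nat_lit 186) (nat_lit 181) (nat_lit 203)))) (PT.nd (nat_lit 156) (PT.nd (nat_lit 78) (PT.lf (nat_lit 49628) (nat_lit 6) (nat_lit 653) (nat_lit 3) (nat_lit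 187) (nat_lit 181) (nat_lit 202)) (PT.lf (nat_lit 50616) (nat_lit 6) (nat_lit 666) (nat_lit 3) (nat_lit 188) (nat_lit 181) (nat_lit 201))) (PT.nd (nat_lit 78) (PT.lf (nat_lit 51528) (nat_lit 6) (nat_lit 678) (nat_lit 3) (nat_lit 189) (nat_lit 181) (nat_lit 200)) (PT.lf (nat_lit 52364) (nat_lit 6) (nat_lit 689) (nat_lit 3) (nat_lit 190) (nat_lit 181) (nat_lit 199))))) (PT.nd (nat_lit 312) (PT.nd (nat_lit 156) (PT.nd (nat_lit 78) (PT.lf (nat_lit 52440) (nat_lit 6) (nat_lit 690) (nat_lit 3) (nat_lit 191) (nat_lit 181) (nat_lit 198)) (PT.lf (nat_lit 52516) (nat_lit 6) (nat_lit 691) (nat_lit 3) (nat_lit 192) (nat_lit 181) (nat_lit 197))) (PT.nd (nat_lit 78) (PT.lf (nat_lit 52592) (nat_lit 6) (nat_lit 692) (nat_lit 3) (nat_lit 193) (nat_lit 181) (nat_lit 196)) (PT.lf (nat_lit 52668) (nat_lit 6) (nat_lit 693) (nat_lit 3) (nat_lit 194) (nat_lit 181) (nat_lit 195)))) (PT.nd (nat_lit 156) (PT.nd (nat_lit 78) (PT.lf (nat_lit 52668) (nat_lit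 6) (nat_lit 693) (nat_lit 1) (nat_lit 195) (nat_lit 181) (nat_lit 194)) (PT.lf (nat_lit 52592) (nat_lit 6) (nat_lit 692) (nat_lit 1) (nat_lit 196) (nat_lit 181) (nat_lit 193))) (PT.nd (nat_lit 78) (PT.lf (nat_lit 52516) (nat_lit 6) (nat_lit 691) (nat_lit 1) (nat_lit 197) (nat_lit 181) (nat_lit 192)) (PT.lf (nat_lit 52440) (nat_lit 6) (nat_lit 690) (nat_lit 1) (nat_lit 198) (nat_lit 181) (nat_lit 191)))))) (PT.nd (nat_lit 624) (PT.nd (nat_lit 312) (PT.nd (nat_lit 156) (PT.nd (nat_lit 78) (PT.lf (nat_lit 52364) (nat_lit 6) (nat_lit 689) (nat_lit 1) (nat_lit 199) (nat_lit 181) (nat_lit 190)) (PT.lf (nat_lit 51528) (nat_lit 6) (nat_lit 678) (nat_lit 1) (nat_lit 200) (nat_lit 181) (nat_lit 189))) (PT.nd (nat_lit 78) (PT.lf (nat_lit 50616) (nat_lit 6) (nat_lit 666) (nat_lit 1) (nat_lit 201) (nat_lit 181) (nat_lit 188)) (PT.lf (nat_lit 49628) (nat_lit 6) (nat_lit 653) (nat_lit 1) (nat_lit 202) (nat_lit 181) (nat_lit 187)))) (PT.nd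 (nat_lit 156) (PT.nd (nat_lit 78) (PT.lf (nat_lit 48564) (nat_lit 6) (nat_lit 639) (nat_lit 1) (nat_lit 203) (nat_lit 181) (nat_lit 186)) (PT.lf (nat_lit 47424) (nat_lit 6) (nat_lit 624) (nat_lit 1) (nat_lit 204) (nat_lit 181) (nat_lit 185))) (PT.nd (nat_lit 78) (PT.lf (nat_lit 46208) (nat_lit 6) (nat_lit 608) (nat_lit 1) (nat_lit 205) (nat_lit 181) (nat_lit 184)) (PT.lf (nat_lit 44916) (nat_lit 6) (nat_lit 591) (nat_lit 1) (nat_lit 206) (nat_lit 181) (nat_lit 183))))) (PT.nd (nat_lit 312) (PT.nd (nat_lit 156) (PT.nd (nat_lit 78) (PT.lf (nat_lit 43548) (nat_lit 6) (nat_lit 573) (nat_lit 1) (nat_lit 207) (nat_lit 181) (nat_lit 182)) (PT.lf (nat_lit 42104) (nat_lit 3) (nat_lit 554) (nat_lit 0) (nat_lit 208) (nat_lit 181) (nat_lit 181))) (PT.nd (nat_lit 78) (PT.lf (nat_lit 40660) (nat_lit 6) (nat_lit 535) (nat_lit 0) (nat_lit 209) (nat_lit 181) (nat_lit 180)) (PT.lf (nat_lit 39140) (nat_lit 6) (nat_lit 515) (nat_lit 0) (nat_lit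 210) (nat_lit 181) (nat_lit 179)))) (PT.nd (nat_lit 156) (PT.nd (nat_lit 78) (PT.lf (nat_lit 37544) (nat_lit 6) (nat_lit 494) (nat_lit 0) (nat_lit 211) (nat_lit 181) (nat_lit 178)) (PT.lf (nat_lit 35872) (nat_lit 6) (nat_lit 472) (nat_lit 0) (nat_lit 212) (nat_lit 181) (nat_lit 177))) (PT.nd (nat_lit 56394) (PT.lf (nat_lit 34124) (nat_lit 6) (nat_lit 449) (nat_lit 0) (nat_lit 213) (nat_lit 181) (nat_lit 176)) (PT.lf (nat_lit 34200) (nat_lit 6) (nat_lit 450) (nat_lit 5) (nat_lit 175) (nat_lit 182) (nat_lit 213))))))))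
noncomputable def pc22 : PT := (PT.nd (nat_lit 2496) (PT.nd (nat_lit 1248) (PT.nd (nat_lit 624) (PT.nd (nat_lit 312) (PT.nd (nat_lit 156) (PT.nd (nat_lit 78) (PT.lf (nat_lit 35948) (nat_lit 6) (nat_lit 473) (nat_lit 5) (nat_lit 176) (nat_lit 182) (nat_lit 212)) (PT.lf (nat_lit 37620) (nat_lit 6) (nat_lit 495) (nat_lit 5) (nat_lit 177) (nat_lit 182) (nat_lit 211))) (PT.nd (nat_lit 78) (PT.lf (nat_lit 39216) (nat_lit 6) (nat_lit 516) (nat_lit 5) (nat_lit 178) (nat_lit 182) (nat_lit 210)) (PT.lf (nat_lit 40736) (nat_lit 6) (nat_lit 536) (nat_lit 5) (nat_lit 179) (nat_lit 182) (nat_lit 209)))) (PT.nd (nat_lit 156) (PT.nd (nat_lit 78) (PT.lf (nat_lit 42180) (nat_lit 6) (nat_lit 555) (nat_lit 5) (nat_lit 180) (nat_lit 182) (nat_lit 208)) (PT.lf (nat_lit 43548) (nat_lit 6) (nat_lit 573) (nat_lit 5) (nat_lit 181) (nat_lit 182) (nat_lit 207))) (PT.nd (nat_lit 78) (PT.lf (nat_lit 44840) (nat_lit 3) (nat_lit 590) (nat_lit 3) (nat_lit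 182) (nat_lit 182) (nat_lit 206)) (PT.lf (nat_lit 46132) (nat_lit 6) (nat_lit 607) (nat_lit 3) (nat_lit 183) (nat_lit 182) (nat_lit 205))))) (PT.nd (nat_lit 312) (PT.nd (nat_lit 156) (PT.nd (nat_lit 78) (PT.lf (nat_lit 47348) (nat_lit 6) (nat_lit 623) (nat_lit 3) (nat_lit 184) (nat_lit 182) (nat_lit 204)) (PT.lf (nat_lit 48488) (nat_lit 6) (nat_lit 638) (nat_lit 3) (nat_lit 185) (nat_lit 182) (nat_lit 203))) (PT.nd (nat_lit 78) (PT.lf (nat_lit 49552) (nat_lit 6) (nat_lit 652) (nat_lit 3) (nat_lit 186) (nat_lit 182) (nat_lit 202)) (PT.lf (nat_lit 50540) (nat_lit 6) (nat_lit 665) (nat_lit 3) (nat_lit 187) (nat_lit 182) (nat_lit 201)))) (PT.nd (nat_lit 156) (PT.nd (nat_lit 78) (PT.lf (nat_lit 51452) (nat_lit 6) (nat_lit 677) (nat_lit 3) (nat_lit 188) (nat_lit 182) (nat_lit 200)) (PT.lf (nat_lit 52288) (nat_lit 6) (nat_lit 688) (nat_lit 3) (nat_lit 189) (nat_lit 182) (nat_lit 199))) (PT.nd (nat_lit 78) (PT.lf (nat_lit 53048) (nat_lit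 6) (nat_lit 698) (nat_lit 3) (nat_lit 190) (nat_lit 182) (nat_lit 198)) (PT.lf (nat_lit 53124) (nat_lit 6) (nat_lit 699) (nat_lit 3) (nat_lit 191) (nat_lit 182) (nat_lit 197)))))) (PT.nd (nat_lit 624) (PT.nd (nat_lit 312) (PT.nd (nat_lit 156) (PT.nd (nat_lit 78) (PT.lf (nat_lit 53200) (nat_lit 6) (nat_lit 700) (nat_lit 3) (nat_lit 192) (nat_lit 182) (nat_lit 196)) (PT.lf (nat_lit 53276) (nat_lit 6) (nat_lit 701) (nat_lit 3) (nat_lit 193) (nat_lit 182) (nat_lit 195))) (PT.nd (nat_lit 78) (PT.lf (nat_lit 53352) (nat_lit 3) (nat_lit 702) (nat_lit 1) (nat_lit 194) (nat_lit 182) (nat_lit 194)) (PT.lf (nat_lit 53276) (nat_lit 6) (nat_lit 701) (nat_lit 1) (nat_lit 195) (nat_lit 182) (nat_lit 193)))) (PT.nd (nat_lit 156) (PT.nd (nat_lit 78) (PT.lf (nat_lit 53200) (nat_lit 6) (nat_lit 700) (nat_lit 1) (nat_lit 196) (nat_lit 182) (nat_lit 192)) (PT.lf (nat_lit 53124) (nat_lit 6) (nat_lit 699) (nat_lit 1) (nat_lit 197) (nat_lit 182) (nat_lit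 191))) (PT.nd (nat_lit 78) (PT.lf (nat_lit 53048) (nat_lit 6) (nat_lit 698) (nat_lit 1) (nat_lit 198) (nat_lit 182) (nat_lit 190)) (PT.lf (nat_lit 52288) (nat_lit 6) (nat_lit 688) (nat_lit 1) (nat_lit 199) (nat_lit 182) (nat_lit 189))))) (PT.nd (nat_lit 312) (PT.nd (nat_lit 156) (PT.nd (nat_lit 78) (PT.lf (nat_lit 51452) (nat_lit 6) (nat_lit 677) (nat_lit 1) (nat_lit 200) (nat_lit 182) (nat_lit 188)) (PT.lf (nat_lit 50540) (nat_lit 6) (nat_lit 665) (nat_lit 1) (nat_lit 201) (nat_lit 182) (nat_lit 187))) (PT.nd (nat_lit 78) (PT.lf (nat_lit 49552) (nat_lit 6) (nat_lit 652) (nat_lit 1) (nat_lit 202) (nat_lit 182) (nat_lit 186)) (PT.lf (nat_lit 48488) (nat_lit 6) (nat_lit 638) (nat_lit 1) (nat_lit 203) (nat_lit 182) (nat_lit 185)))) (PT.nd (nat_lit 156) (PT.nd (nat_lit 78) (PT.lf (nat_lit 47348) (nat_lit 6) (nat_lit 623) (nat_lit 1) (nat_lit 204) (nat_lit 182) (nat_lit 184)) (PT.lf (nat_lit 46132) (nat_lit 6) (nat_lit 607) (nat_lit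 1) (nat_lit 205) (nat_lit 182) (nat_lit 183))) (PT.nd (nat_lit 78) (PT.lf (nat_lit 44840) (nat_lit 3) (nat_lit 590) (nat_lit 0) (nat_lit 206) (nat_lit 182) (nat_lit 182)) (PT.lf (nat_lit 43548) (nat_lit 6) (nat_lit 573) (nat_lit 0) (nat_lit 207) (nat_lit 182) (nat_lit 181))))))) (PT.nd (nat_lit 57486) (PT.nd (nat_lit 56862) (PT.nd (nat_lit 312) (PT.nd (nat_lit 156) (PT.nd (nat_lit 78) (PT.lf (nat_lit 42180) (nat_lit 6) (nat_lit 555) (nat_lit 0) (nat_lit 208) (nat_lit 182) (nat_lit 180)) (PT.lf (nat_lit 40736) (nat_lit 6) (nat_lit 536) (nat_lit 0) (nat_lit 209) (nat_lit 182) (nat_lit 179))) (PT.nd (nat_lit 78) (PT.lf (nat_lit 39216) (nat_lit 6) (nat_lit 516) (nat_lit 0) (nat_lit 210) (nat_lit 182) (nat_lit 178)) (PT.lf (nat_lit 37620) (nat_lit 6) (nat_lit 495) (nat_lit 0) (nat_lit 211) (nat_lit 182) (nat_lit 177)))) (PT.nd (nat_lit 56394) (PT.nd (nat_lit 78) (PT.lf (nat_lit 35948) (nat_lit 6) (nat_lit 473) (nat_lit 0) (nat_lit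 212) (nat_lit 182) (nat_lit 176)) (PT.lf (nat_lit 34200) (nat_lit 6) (nat_lit 450) (nat_lit 0) (nat_lit 213) (nat_lit 182) (nat_lit 175))) (PT.nd (nat_lit 78) (PT.lf (nat_lit 34276) (nat_lit 6) (nat_lit 451) (nat_lit 5) (nat_lit 174) (nat_lit 183) (nat_lit 213)) (PT.lf (nat_lit 36024) (nat_lit 6) (nat_lit 474) (nat_lit 5) (nat_lit 175) (nat_lit 183) (nat_lit 212))))) (PT.nd (nat_lit 312) (PT.nd (nat_lit 156) (PT.nd (nat_lit 78) (PT.lf (nat_lit 37696) (nat_lit 6) (nat_lit 496) (nat_lit 5) (nat_lit 176) (nat_lit 183) (nat_lit 211)) (PT.lf (nat_lit 39292) (nat_lit 6) (nat_lit 517) (nat_lit 5) (nat_lit 177) (nat_lit 183) (nat_lit 210))) (PT.nd (nat_lit 78) (PT.lf (nat_lit 40812) (nat_lit 6) (nat_lit 537) (nat_lit 5) (nat_lit 178) (nat_lit 183) (nat_lit 209)) (PT.lf (nat_lit 42256) (nat_lit 6) (nat_lit 556) (nat_lit 5) (nat_lit 179) (nat_lit 183) (nat_lit 208)))) (PT.nd (nat_lit 156) (PT.nd (nat_lit 78) (PT.lf (nat_lit 43624) (nat_lit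 6) (nat_lit 574) (nat_lit 5) (nat_lit 180) (nat_lit 183) (nat_lit 207)) (PT.lf (nat_lit 44916) (nat_lit 6) (nat_lit 591) (nat_lit 5) (nat_lit 181) (nat_lit 183) (nat_lit 206))) (PT.nd (nat_lit 78) (PT.lf (nat_lit 46132) (nat_lit 6) (nat_lit 607) (nat_lit 5) (nat_lit 182) (nat_lit 183) (nat_lit 205)) (PT.lf (nat_lit 47272) (nat_lit 3) (nat_lit 622) (nat_lit 3) (nat_lit 183) (nat_lit 183) (nat_lit 204)))))) (PT.nd (nat_lit 624) (PT.nd (nat_lit 312) (PT.nd (nat_lit 156) (PT.nd (nat_lit 78) (PT.lf (nat_lit 48412) (nat_lit 6) (nat_lit 637) (nat_lit 3) (nat_lit 184) (nat_lit 183) (nat_lit 203)) (PT.lf (nat_lit 49476) (nat_lit 6) (nat_lit 651) (nat_lit 3) (nat_lit 185) (nat_lit 183) (nat_lit 202))) (PT.nd (nat_lit 78) (PT.lf (nat_lit 50464) (nat_lit 6) (nat_lit 664) (nat_lit 3) (nat_lit 186) (nat_lit 183) (nat_lit 201)) (PT.lf (nat_lit 51376) (nat_lit 6) (nat_lit 676) (nat_lit 3) (nat_lit 187) (nat_lit 183) (nat_lit 200)))) (PT.nd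 (nat_lit 156) (PT.nd (nat_lit 78) (PT.lf (nat_lit 52212) (nat_lit 6) (nat_lit 687) (nat_lit 3) (nat_lit 188) (nat_lit 183) (nat_lit 199)) (PT.lf (nat_lit 52972) (nat_lit 6) (nat_lit 697) (nat_lit 3) (nat_lit 189) (nat_lit 183) (nat_lit 198))) (PT.nd (nat_lit 78) (PT.lf (nat_lit 53656) (nat_lit 6) (nat_lit 706) (nat_lit 3) (nat_lit 190) (nat_lit 183) (nat_lit 197)) (PT.lf (nat_lit 53732) (nat_lit 6) (nat_lit 707) (nat_lit 3) (nat_lit 191) (nat_lit 183) (nat_lit 196))))) (PT.nd (nat_lit 312) (PT.nd (nat_lit 156) (PT.nd (nat_lit 78) (PT.lf (nat_lit 53808) (nat_lit 6) (nat_lit 708) (nat_lit 3) (nat_lit 192) (nat_lit 183) (nat_lit 195)) (PT.lf (nat_lit 53884) (nat_lit 6) (nat_lit 709) (nat_lit 3) (nat_lit 193) (nat_lit 183) (nat_lit 194))) (PT.nd (nat_lit 78) (PT.lf (nat_lit 53884) (nat_lit 6) (nat_lit 709) (nat_lit 1) (nat_lit 194) (nat_lit 183) (nat_lit 193)) (PT.lf (nat_lit 53808) (nat_lit 6) (nat_lit 708) (nat_lit 1) (nat_lit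 195) (nat_lit 183) (nat_lit 192)))) (PT.nd (nat_lit 156) (PT.nd (nat_lit 78) (PT.lf (nat_lit 53732) (nat_lit 6) (nat_lit 707) (nat_lit 1) (nat_lit 196) (nat_lit 183) (nat_lit 191)) (PT.lf (nat_lit 53656) (nat_lit 6) (nat_lit 706) (nat_lit 1) (nat_lit 197) (nat_lit 183) (nat_lit 190))) (PT.nd (nat_lit 78) (PT.lf (nat_lit 52972) (nat_lit 6) (nat_lit 697) (nat_lit 1) (nat_lit 198) (nat_lit 183) (nat_lit 189)) (PT.lf (nat_lit 52212) (nat_lit 6) (nat_lit 687) (nat_lit 1) (nat_lit 199) (nat_lit 183) (nat_lit 188))))))))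
noncomputable def pc23 : PT := (PT.nd (nat_lit 58578) (PT.nd (nat_lit 57330) (PT.nd (nat_lit 624) (PT.nd (nat_lit 312) (PT.nd (nat_lit 156) (PT.nd (nat_lit 78) (PT.lf (nat_lit 51376) (nat_lit 6) (nat_lit 676) (nat_lit 1) (nat_lit 200) (nat_lit 183) (nat_lit 187)) (PT.lf (nat_lit 50464) (nat_lit 6) (nat_lit 664) (nat_lit 1) (nat_lit 201) (nat_lit 183) (nat_lit 186))) (PT.nd (nat_lit 78) (PT.lf (nat_lit 49476) (nat_lit 6) (nat_lit 651) (nat_lit 1) (nat_lit 202) (nat_lit 183) (nat_lit 185)) (PT.lf (nat_lit 48412) (nat_lit 6) (nat_lit 637) (nat_lit 1) (nat_lit 203) (nat_lit 183) (nat_lit 184)))) (PT.nd (nat_lit 156) (PT.nd (nat_lit 78) (PT.lf (nat_lit 47272) (nat_lit 3) (nat_lit 622) (nat_lit 0) (nat_lit 204) (nat_lit 183) (nat_lit 183)) (PT.lf (nat_lit 46132) (nat_lit 6) (nat_lit 607) (nat_lit 0) (nat_lit 205) (nat_lit 183) (nat_lit 182))) (PT.nd (nat_lit 78) (PT.lf (nat_lit 44916) (nat_lit 6) (nat_lit 591) (nat_lit 0) (nat_lit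 206) (nat_lit 183) (nat_lit 181)) (PT.lf (nat_lit 43624) (nat_lit 6) (nat_lit 574) (nat_lit 0) (nat_lit 207) (nat_lit 183) (nat_lit 180))))) (PT.nd (nat_lit 312) (PT.nd (nat_lit 156) (PT.nd (nat_lit 78) (PT.lf (nat_lit 42256) (nat_lit 6) (nat_lit 556) (nat_lit 0) (nat_lit 208) (nat_lit 183) (nat_lit 179)) (PT.lf (nat_lit 40812) (nat_lit 6) (nat_lit 537) (nat_lit 0) (nat_lit 209) (nat_lit 183) (nat_lit 178))) (PT.nd (nat_lit 78) (PT.lf (nat_lit 39292) (nat_lit 6) (nat_lit 517) (nat_lit 0) (nat_lit 210) (nat_lit 183) (nat_lit 177)) (PT.lf (nat_lit 37696) (nat_lit 6) (nat_lit 496) (nat_lit 0) (nat_lit 211) (nat_lit 183) (nat_lit 176)))) (PT.nd (nat_lit 56238) (PT.nd (nat_lit 78) (PT.lf (nat_lit 36024) (nat_lit 6) (nat_lit 474) (nat_lit 0) (nat_lit 212) (nat_lit 183) (nat_lit 175)) (PT.lf (nat_lit 34276) (nat_lit 6) (nat_lit 451) (nat_lit 0) (nat_lit 213) (nat_lit 183) (nat_lit 174))) (PT.nd (nat_lit 78) (PT.lf (nat_lit 32528)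 (nat_lit 6) (nat_lit 428) (nat_lit 5) (nat_lit 172) (nat_lit 184) (nat_lit 214)) (PT.lf (nat_lit 34352) (nat_lit 6) (nat_lit 452) (nat_lit 5) (nat_lit 173) (nat_lit 184) (nat_lit 213)))))) (PT.nd (nat_lit 624) (PT.nd (nat_lit 312) (PT.nd (nat_lit 156) (PT.nd (nat_lit 78) (PT.lf (nat_lit 36100) (nat_lit 6) (nat_lit 475) (nat_lit 5) (nat_lit 174) (nat_lit 184) (nat_lit 212)) (PT.lf (nat_lit 37772) (nat_lit 6) (nat_lit 497) (nat_lit 5) (nat_lit 175) (nat_lit 184) (nat_lit 211))) (PT.nd (nat_lit 78) (PT.lf (nat_lit 39368) (nat_lit 6) (nat_lit 518) (nat_lit 5) (nat_lit 176) (nat_lit 184) (nat_lit 210)) (PT.lf (nat_lit 40888) (nat_lit 6) (nat_lit 538) (nat_lit 5) (nat_lit 177) (nat_lit 184) (nat_lit 209)))) (PT.nd (nat_lit 156) (PT.nd (nat_lit 78) (PT.lf (nat_lit 42332) (nat_lit 6) (nat_lit 557) (nat_lit 5) (nat_lit 178) (nat_lit 184) (nat_lit 208)) (PT.lf (nat_lit 43700) (nat_lit 6) (nat_lit 575) (nat_lit 5) (nat_lit 179) (nat_lit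 184) (nat_lit 207))) (PT.nd (nat_lit 78) (PT.lf (nat_lit 44992) (nat_lit 6) (nat_lit 592) (nat_lit 5) (nat_lit 180) (nat_lit 184) (nat_lit 206)) (PT.lf (nat_lit 46208) (nat_lit 6) (nat_lit 608) (nat_lit 5) (nat_lit 181) (nat_lit 184) (nat_lit 205))))) (PT.nd (nat_lit 312) (PT.nd (nat_lit 156) (PT.nd (nat_lit 78) (PT.lf (nat_lit 47348) (nat_lit 6) (nat_lit 623) (nat_lit 5) (nat_lit 182) (nat_lit 184) (nat_lit 204)) (PT.lf (nat_lit 48412) (nat_lit 6) (nat_lit 637) (nat_lit 5) (nat_lit 183) (nat_lit 184) (nat_lit 203))) (PT.nd (nat_lit 78) (PT.lf (nat_lit 49400) (nat_lit 3) (nat_lit 650) (nat_lit 3) (nat_lit 184) (nat_lit 184) (nat_lit 202)) (PT.lf (nat_lit 50388) (nat_lit 6) (nat_lit 663) (nat_lit 3) (nat_lit 185) (nat_lit 184) (nat_lit 201)))) (PT.nd (nat_lit 156) (PT.nd (nat_lit 78) (PT.lf (nat_lit 51300) (nat_lit 6) (nat_lit 675) (nat_lit 3) (nat_lit 186) (nat_lit 184) (nat_lit 200)) (PT.lf (nat_lit 52136) (nat_lit 6) (nat_lit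 686) (nat_lit 3) (nat_lit 187) (nat_lit 184) (nat_lit 199))) (PT.nd (nat_lit 78) (PT.lf (nat_lit 52896) (nat_lit 6) (nat_lit 696) (nat_lit 3) (nat_lit 188) (nat_lit 184) (nat_lit 198)) (PT.lf (nat_lit 53580) (nat_lit 6) (nat_lit 705) (nat_lit 3) (nat_lit 189) (nat_lit 184) (nat_lit 197))))))) (PT.nd (nat_lit 1248) (PT.nd (nat_lit 624) (PT.nd (nat_lit 312) (PT.nd (nat_lit 156) (PT.nd (nat_lit 78) (PT.lf (nat_lit 54188) (nat_lit 6) (nat_lit 713) (nat_lit 3) (nat_lit 190) (nat_lit 184) (nat_lit 196)) (PT.lf (nat_lit 54264) (nat_lit 6) (nat_lit 714) (nat_lit 3) (nat_lit 191) (nat_lit 184) (nat_lit 195))) (PT.nd (nat_lit 78) (PT.lf (nat_lit 54340) (nat_lit 6) (nat_lit 715) (nat_lit 3) (nat_lit 192) (nat_lit 184) (nat_lit 194)) (PT.lf (nat_lit 54416) (nat_lit 3) (nat_lit 716) (nat_lit 1) (nat_lit 193) (nat_lit 184) (nat_lit 193)))) (PT.nd (nat_lit 156) (PT.nd (nat_lit 78) (PT.lf (nat_lit 54340) (nat_lit 6) (nat_lit 715) (nat_lit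 1) (nat_lit 194) (nat_lit 184) (nat_lit 192)) (PT.lf (nat_lit 54264) (nat_lit 6) (nat_lit 714) (nat_lit 1) (nat_lit 195) (nat_lit 184) (nat_lit 191))) (PT.nd (nat_lit 78) (PT.lf (nat_lit 54188) (nat_lit 6) (nat_lit 713) (nat_lit 1) (nat_lit 196) (nat_lit 184) (nat_lit 190)) (PT.lf (nat_lit 53580) (nat_lit 6) (nat_lit 705) (nat_lit 1) (nat_lit 197) (nat_lit 184) (nat_lit 189))))) (PT.nd (nat_lit 312) (PT.nd (nat_lit 156) (PT.nd (nat_lit 78) (PT.lf (nat_lit 52896) (nat_lit 6) (nat_lit 696) (nat_lit 1) (nat_lit 198) (nat_lit 184) (nat_lit 188)) (PT.lf (nat_lit 52136) (nat_lit 6) (nat_lit 686) (nat_lit 1) (nat_lit 199) (nat_lit 184) (nat_lit 187))) (PT.nd (nat_lit 78) (PT.lf (nat_lit 51300) (nat_lit 6) (nat_lit 675) (nat_lit 1) (nat_lit 200) (nat_lit 184) (nat_lit 186)) (PT.lf (nat_lit 50388) (nat_lit 6) (nat_lit 663) (nat_lit 1) (nat_lit 201) (nat_lit 184) (nat_lit 185)))) (PT.nd (nat_lit 156) (PT.nd (nat_lit 78) (PT.lf (nat_lit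 49400) (nat_lit 3) (nat_lit 650) (nat_lit 0) (nat_lit 202) (nat_lit 184) (nat_lit 184)) (PT.lf (nat_lit 48412) (nat_lit 6) (nat_lit 637) (nat_lit 0) (nat_lit 203) (nat_lit 184) (nat_lit 183))) (PT.nd (nat_lit 78) (PT.lf (nat_lit 47348) (nat_lit 6) (nat_lit 623) (nat_lit 0) (nat_lit 204) (nat_lit 184) (nat_lit 182)) (PT.lf (nat_lit 46208) (nat_lit 6) (nat_lit 608) (nat_lit 0) (nat_lit 205) (nat_lit 184) (nat_lit 181)))))) (PT.nd (nat_lit 624) (PT.nd (nat_lit 312) (PT.nd (nat_lit 156) (PT.nd (nat_lit 78) (PT.lf (nat_lit 44992) (nat_lit 6) (nat_lit 592) (nat_lit 0) (nat_lit 206) (nat_lit 184) (nat_lit 180)) (PT.lf (nat_lit 43700) (nat_lit 6) (nat_lit 575) (nat_lit 0) (nat_lit 207) (nat_lit 184) (nat_lit 179))) (PT.nd (nat_lit 78) (PT.lf (nat_lit 42332) (nat_lit 6) (nat_lit 557) (nat_lit 0) (nat_lit 208) (nat_lit 184) (nat_lit 178)) (PT.lf (nat_lit 40888) (nat_lit 6) (nat_lit 538) (nat_lit 0) (nat_lit 209) (nat_lit 184) (nat_lit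 177)))) (PT.nd (nat_lit 156) (PT.nd (nat_lit 78) (PT.lf (nat_lit 39368) (nat_lit 6) (nat_lit 518) (nat_lit 0) (nat_lit 210) (nat_lit 184) (nat_lit 176)) (PT.lf (nat_lit 37772) (nat_lit 6) (nat_lit 497) (nat_lit 0) (nat_lit 211) (nat_lit 184) (nat_lit 175))) (PT.nd (nat_lit 78) (PT.lf (nat_lit 36100) (nat_lit 6) (nat_lit 475) (nat_lit 0) (nat_lit 212) (nat_lit 184) (nat_lit 174)) (PT.lf (nat_lit 34352) (nat_lit 6) (nat_lit 452) (nat_lit 0) (nat_lit 213) (nat_lit 184) (nat_lit 173))))) (PT.nd (nat_lit 56238) (PT.nd (nat_lit 56082) (PT.nd (nat_lit 56004) (PT.lf (nat_lit 32528) (nat_lit 6) (nat_lit 428) (nat_lit 0) (nat_lit 214) (nat_lit 184) (nat_lit 172)) (PT.lf (nat_lit 32604) (nat_lit 6) (nat_lit 429) (nat_lit 5) (nat_lit 171) (nat_lit 185) (nat_lit 214))) (PT.nd (nat_lit 78) (PT.lf (nat_lit 34428) (nat_lit 6) (nat_lit 453) (nat_lit 5) (nat_lit 172) (nat_lit 185) (nat_lit 213)) (PT.lf (nat_lit 36176) (nat_lit 6) (nat_lit 476)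 (nat_lit 5) (nat_lit 173) (nat_lit 185) (nat_lit 212)))) (PT.nd (nat_lit 156) (PT.nd (nat_lit 78) (PT.lf (nat_lit 37848) (nat_lit 6) (nat_lit 498) (nat_lit 5) (nat_lit 174) (nat_lit 185) (nat_lit 211)) (PT.lf (nat_lit 39444) (nat_lit 6) (nat_lit 519) (nat_lit 5) (nat_lit 175) (nat_lit 185) (nat_lit 210))) (PT.nd (nat_lit 78) (PT.lf (nat_lit 40964) (nat_lit 6) (nat_lit 539) (nat_lit 5) (nat_lit 176) (nat_lit 185) (nat_lit 209)) (PT.lf (nat_lit 42408) (nat_lit 6) (nat_lit 558) (nat_lit 5) (nat_lit 177) (nat_lit 185) (nat_lit 208))))))))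
noncomputable def pc24 : PT := (PT.nd (nat_lit 2496) (PT.nd (nat_lit 1248) (PT.nd (nat_lit 624) (PT.nd (nat_lit 312) (PT.nd (nat_lit 156) (PT.nd (nat_lit 78) (PT.lf (nat_lit 43776) (nat_lit 6) (nat_lit 576) (nat_lit 5) (nat_lit 178) (nat_lit 185) (nat_lit 207)) (PT.lf (nat_lit 45068) (nat_lit 6) (nat_lit 593) (nat_lit 5) (nat_lit 179) (nat_lit 185) (nat_lit 206))) (PT.nd (nat_lit 78) (PT.lf (nat_lit 46284) (nat_lit 6) (nat_lit 609) (nat_lit 5) (nat_lit 180) (nat_lit 185) (nat_lit 205)) (PT.lf (nat_lit 47424) (nat_lit 6) (nat_lit 624) (nat_lit 5) (nat_lit 181) (nat_lit 185) (nat_lit 204)))) (PT.nd (nat_lit 156) (PT.nd (nat_lit 78) (PT.lf (nat_lit 48488) (nat_lit 6) (nat_lit 638) (nat_lit 5) (nat_lit 182) (nat_lit 185) (nat_lit 203)) (PT.lf (nat_lit 49476) (nat_lit 6) (nat_lit 651) (nat_lit 5) (nat_lit 183) (nat_lit 185) (nat_lit 202))) (PT.nd (nat_lit 78) (PT.lf (nat_lit 50388) (nat_lit 6) (nat_lit 663) (nat_lit 5) (nat_lit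 184) (nat_lit 185) (nat_lit 201)) (PT.lf (nat_lit 51224) (nat_lit 3) (nat_lit 674) (nat_lit 3) (nat_lit 185) (nat_lit 185) (nat_lit 200))))) (PT.nd (nat_lit 312) (PT.nd (nat_lit 156) (PT.nd (nat_lit 78) (PT.lf (nat_lit 52060) (nat_lit 6) (nat_lit 685) (nat_lit 3) (nat_lit 186) (nat_lit 185) (nat_lit 199)) (PT.lf (nat_lit 52820) (nat_lit 6) (nat_lit 695) (nat_lit 3) (nat_lit 187) (nat_lit 185) (nat_lit 198))) (PT.nd (nat_lit 78) (PT.lf (nat_lit 53504) (nat_lit 6) (nat_lit 704) (nat_lit 3) (nat_lit 188) (nat_lit 185) (nat_lit 197)) (PT.lf (nat_lit 54112) (nat_lit 6) (nat_lit 712) (nat_lit 3) (nat_lit 189) (nat_lit 185) (nat_lit 196)))) (PT.nd (nat_lit 156) (PT.nd (nat_lit 78) (PT.lf (nat_lit 54644) (nat_lit 6) (nat_lit 719) (nat_lit 3) (nat_lit 190) (nat_lit 185) (nat_lit 195)) (PT.lf (nat_lit 54720) (nat_lit 6) (nat_lit 720) (nat_lit 3) (nat_lit 191) (nat_lit 185) (nat_lit 194))) (PT.nd (nat_lit 78) (PT.lf (nat_lit 54796) (nat_lit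 6) (nat_lit 721) (nat_lit 3) (nat_lit 192) (nat_lit 185) (nat_lit 193)) (PT.lf (nat_lit 54796) (nat_lit 6) (nat_lit 721) (nat_lit 1) (nat_lit 193) (nat_lit 185) (nat_lit 192)))))) (PT.nd (nat_lit 624) (PT.nd (nat_lit 312) (PT.nd (nat_lit 156) (PT.nd (nat_lit 78) (PT.lf (nat_lit 54720) (nat_lit 6) (nat_lit 720) (nat_lit 1) (nat_lit 194) (nat_lit 185) (nat_lit 191)) (PT.lf (nat_lit 54644) (nat_lit 6) (nat_lit 719) (nat_lit 1) (nat_lit 195) (nat_lit 185) (nat_lit 190))) (PT.nd (nat_lit 78) (PT.lf (nat_lit 54112) (nat_lit 6) (nat_lit 712) (nat_lit 1) (nat_lit 196) (nat_lit 185) (nat_lit 189)) (PT.lf (nat_lit 53504) (nat_lit 6) (nat_lit 704) (nat_lit 1) (nat_lit 197) (nat_lit 185) (nat_lit 188)))) (PT.nd (nat_lit 156) (PT.nd (nat_lit 78) (PT.lf (nat_lit 52820) (nat_lit 6) (nat_lit 695) (nat_lit 1) (nat_lit 198) (nat_lit 185) (nat_lit 187)) (PT.lf (nat_lit 52060) (nat_lit 6) (nat_lit 685) (nat_lit 1) (nat_lit 199) (nat_lit 185) (nat_lit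 186))) (PT.nd (nat_lit 78) (PT.lf (nat_lit 51224) (nat_lit 3) (nat_lit 674) (nat_lit 0) (nat_lit 200) (nat_lit 185) (nat_lit 185)) (PT.lf (nat_lit 50388) (nat_lit 6) (nat_lit 663) (nat_lit 0) (nat_lit 201) (nat_lit 185) (nat_lit 184))))) (PT.nd (nat_lit 312) (PT.nd (nat_lit 156) (PT.nd (nat_lit 78) (PT.lf (nat_lit 49476) (nat_lit 6) (nat_lit 651) (nat_lit 0) (nat_lit 202) (nat_lit 185) (nat_lit 183)) (PT.lf (nat_lit 48488) (nat_lit 6) (nat_lit 638) (nat_lit 0) (nat_lit 203) (nat_lit 185) (nat_lit 182))) (PT.nd (nat_lit 78) (PT.lf (nat_lit 47424) (nat_lit 6) (nat_lit 624) (nat_lit 0) (nat_lit 204) (nat_lit 185) (nat_lit 181)) (PT.lf (nat_lit 46284) (nat_lit 6) (nat_lit 609) (nat_lit 0) (nat_lit 205) (nat_lit 185) (nat_lit 180)))) (PT.nd (nat_lit 156) (PT.nd (nat_lit 78) (PT.lf (nat_lit 45068) (nat_lit 6) (nat_lit 593) (nat_lit 0) (nat_lit 206) (nat_lit 185) (nat_lit 179)) (PT.lf (nat_lit 43776) (nat_lit 6) (nat_lit 576) (nat_lit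 0) (nat_lit 207) (nat_lit 185) (nat_lit 178))) (PT.nd (nat_lit 78) (PT.lf (nat_lit 42408) (nat_lit 6) (nat_lit 558) (nat_lit 0) (nat_lit 208) (nat_lit 185) (nat_lit 177)) (PT.lf (nat_lit 40964) (nat_lit 6) (nat_lit 539) (nat_lit 0) (nat_lit 209) (nat_lit 185) (nat_lit 176))))))) (PT.nd (nat_lit 57096) (PT.nd (nat_lit 56472) (PT.nd (nat_lit 312) (PT.nd (nat_lit 156) (PT.nd (nat_lit 78) (PT.lf (nat_lit 39444) (nat_lit 6) (nat_lit 519) (nat_lit 0) (nat_lit 210) (nat_lit 185) (nat_lit 175)) (PT.lf (nat_lit 37848) (nat_lit 6) (nat_lit 498) (nat_lit 0) (nat_lit 211) (nat_lit 185) (nat_lit 174))) (PT.nd (nat_lit 78) (PT.lf (nat_lit 36176) (nat_lit 6) (nat_lit 476) (nat_lit 0) (nat_lit 212) (nat_lit 185) (nat_lit 173)) (PT.lf (nat_lit 34428) (nat_lit 6) (nat_lit 453) (nat_lit 0) (nat_lit 213) (nat_lit 185) (nat_lit 172)))) (PT.nd (nat_lit 56004) (PT.nd (nat_lit 55926) (PT.lf (nat_lit 32604) (nat_lit 6) (nat_lit 429) (nat_lit 0) (nat_lit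 214) (nat_lit 185) (nat_lit 171)) (PT.lf (nat_lit 32680) (nat_lit 6) (nat_lit 430) (nat_lit 5) (nat_lit 170) (nat_lit 186) (nat_lit 214))) (PT.nd (nat_lit 78) (PT.lf (nat_lit 34504) (nat_lit 6) (nat_lit 454) (nat_lit 5) (nat_lit 171) (nat_lit 186) (nat_lit 213)) (PT.lf (nat_lit 36252) (nat_lit 6) (nat_lit 477) (nat_lit 5) (nat_lit 172) (nat_lit 186) (nat_lit 212))))) (PT.nd (nat_lit 312) (PT.nd (nat_lit 156) (PT.nd (nat_lit 78) (PT.lf (nat_lit 37924) (nat_lit 6) (nat_lit 499) (nat_lit 5) (nat_lit 173) (nat_lit 186) (nat_lit 211)) (PT.lf (nat_lit 39520) (nat_lit 6) (nat_lit 520) (nat_lit 5) (nat_lit 174) (nat_lit 186) (nat_lit 210))) (PT.nd (nat_lit 78) (PT.lf (nat_lit 41040) (nat_lit 6) (nat_lit 540) (nat_lit 5) (nat_lit 175) (nat_lit 186) (nat_lit 209)) (PT.lf (nat_lit 42484) (nat_lit 6) (nat_lit 559) (nat_lit 5) (nat_lit 176) (nat_lit 186) (nat_lit 208)))) (PT.nd (nat_lit 156) (PT.nd (nat_lit 78) (PT.lf (nat_lit 43852) (nat_lit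 6) (nat_lit 577) (nat_lit 5) (nat_lit 177) (nat_lit 186) (nat_lit 207)) (PT.lf (nat_lit 45144) (nat_lit 6) (nat_lit 594) (nat_lit 5) (nat_lit 178) (nat_lit 186) (nat_lit 206))) (PT.nd (nat_lit 78) (PT.lf (nat_lit 46360) (nat_lit 6) (nat_lit 610) (nat_lit 5) (nat_lit 179) (nat_lit 186) (nat_lit 205)) (PT.lf (nat_lit 47500) (nat_lit 6) (nat_lit 625) (nat_lit 5) (nat_lit 180) (nat_lit 186) (nat_lit 204)))))) (PT.nd (nat_lit 624) (PT.nd (nat_lit 312) (PT.nd (nat_lit 156) (PT.nd (nat_lit 78) (PT.lf (nat_lit 48564) (nat_lit 6) (nat_lit 639) (nat_lit 5) (nat_lit 181) (nat_lit 186) (nat_lit 203)) (PT.lf (nat_lit 49552) (nat_lit 6) (nat_lit 652) (nat_lit 5) (nat_lit 182) (nat_lit 186) (nat_lit 202))) (PT.nd (nat_lit 78) (PT.lf (nat_lit 50464) (nat_lit 6) (nat_lit 664) (nat_lit 5) (nat_lit 183) (nat_lit 186) (nat_lit 201)) (PT.lf (nat_lit 51300) (nat_lit 6) (nat_lit 675) (nat_lit 5) (nat_lit 184) (nat_lit 186) (nat_lit 200)))) (PT.nd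 (nat_lit 156) (PT.nd (nat_lit 78) (PT.lf (nat_lit 52060) (nat_lit 6) (nat_lit 685) (nat_lit 5) (nat_lit 185) (nat_lit 186) (nat_lit 199)) (PT.lf (nat_lit 52744) (nat_lit 3) (nat_lit 694) (nat_lit 3) (nat_lit 186) (nat_lit 186) (nat_lit 198))) (PT.nd (nat_lit 78) (PT.lf (nat_lit 53428) (nat_lit 6) (nat_lit 703) (nat_lit 3) (nat_lit 187) (nat_lit 186) (nat_lit 197)) (PT.lf (nat_lit 54036) (nat_lit 6) (nat_lit 711) (nat_lit 3) (nat_lit 188) (nat_lit 186) (nat_lit 196))))) (PT.nd (nat_lit 312) (PT.nd (nat_lit 156) (PT.nd (nat_lit 78) (PT.lf (nat_lit 54568) (nat_lit 6) (nat_lit 718) (nat_lit 3) (nat_lit 189) (nat_lit 186) (nat_lit 195)) (PT.lf (nat_lit 55024) (nat_lit 6) (nat_lit 724) (nat_lit 3) (nat_lit 190) (nat_lit 186) (nat_lit 194))) (PT.nd (nat_lit 78) (PT.lf (nat_lit 55100) (nat_lit 6) (nat_lit 725) (nat_lit 3) (nat_lit 191) (nat_lit 186) (nat_lit 193)) (PT.lf (nat_lit 55176) (nat_lit 3) (nat_lit 726) (nat_lit 1) (nat_lit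 192) (nat_lit 186) (nat_lit 192)))) (PT.nd (nat_lit 156) (PT.nd (nat_lit 78) (PT.lf (nat_lit 55100) (nat_lit 6) (nat_lit 725) (nat_lit 1) (nat_lit 193) (nat_lit 186) (nat_lit 191)) (PT.lf (nat_lit 55024) (nat_lit 6) (nat_lit 724) (nat_lit 1) (nat_lit 194) (nat_lit 186) (nat_lit 190))) (PT.nd (nat_lit 78) (PT.lf (nat_lit 54568) (nat_lit 6) (nat_lit 718) (nat_lit 1) (nat_lit 195) (nat_lit 186) (nat_lit 189)) (PT.lf (nat_lit 54036) (nat_lit 6) (nat_lit 711) (nat_lit 1) (nat_lit 196) (nat_lit 186) (nat_lit 188))))))))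
noncomputable def pc25 : PT := (PT.nd (nat_lit 1248) (PT.nd (nat_lit 624) (PT.nd (nat_lit 312) (PT.nd (nat_lit 156) (PT.nd (nat_lit 78) (PT.lf (nat_lit 53428) (nat_lit 6) (nat_lit 703) (nat_lit 1) (nat_lit 197) (nat_lit 186) (nat_lit 187)) (PT.lf (nat_lit 52744) (nat_lit 3) (nat_lit 694) (nat_lit 0) (nat_lit 198) (nat_lit 186) (nat_lit 186))) (PT.nd (nat_lit 78) (PT.lf (nat_lit 52060) (nat_lit 6) (nat_lit 685) (nat_lit 0) (nat_lit 199) (nat_lit 186) (nat_lit 185)) (PT.lf (nat_lit 51300) (nat_lit 6) (nat_lit 675) (nat_lit 0) (nat_lit 200) (nat_lit 186) (nat_lit 184)))) (PT.nd (nat_lit 156) (PT.nd (nat_lit 78) (PT.lf (nat_lit 50464) (nat_lit 6) (nat_lit 664) (nat_lit 0) (nat_lit 201) (nat_lit 186) (nat_lit 183)) (PT.lf (nat_lit 49552) (nat_lit 6) (nat_lit 652) (nat_lit 0) (nat_lit 202) (nat_lit 186) (nat_lit 182))) (PT.nd (nat_lit 78) (PT.lf (nat_lit 48564) (nat_lit 6) (nat_lit 639) (nat_lit 0) (nat_lit 203) (nat_lit 186) (nat_lit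 181)) (PT.lf (nat_lit 47500) (nat_lit 6) (nat_lit 625) (nat_lit 0) (nat_lit 204) (nat_lit 186) (nat_lit 180))))) (PT.nd (nat_lit 312) (PT.nd (nat_lit 156) (PT.nd (nat_lit 78) (PT.lf (nat_lit 46360) (nat_lit 6) (nat_lit 610) (nat_lit 0) (nat_lit 205) (nat_lit 186) (nat_lit 179)) (PT.lf (nat_lit 45144) (nat_lit 6) (nat_lit 594) (nat_lit 0) (nat_lit 206) (nat_lit 186) (nat_lit 178))) (PT.nd (nat_lit 78) (PT.lf (nat_lit 43852) (nat_lit 6) (nat_lit 577) (nat_lit 0) (nat_lit 207) (nat_lit 186) (nat_lit 177)) (PT.lf (nat_lit 42484) (nat_lit 6) (nat_lit 559) (nat_lit 0) (nat_lit 208) (nat_lit 186) (nat_lit 176)))) (PT.nd (nat_lit 156) (PT.nd (nat_lit 78) (PT.lf (nat_lit 41040) (nat_lit 6) (nat_lit 540) (nat_lit 0) (nat_lit 209) (nat_lit 186) (nat_lit 175)) (PT.lf (nat_lit 39520) (nat_lit 6) (nat_lit 520) (nat_lit 0) (nat_lit 210) (nat_lit 186) (nat_lit 174))) (PT.nd (nat_lit 78) (PT.lf (nat_lit 37924) (nat_lit 6) (nat_lit 499) (nat_lit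 0) (nat_lit 211) (nat_lit 186) (nat_lit 173)) (PT.lf (nat_lit 36252) (nat_lit 6) (nat_lit 477) (nat_lit 0) (nat_lit 212) (nat_lit 186) (nat_lit 172)))))) (PT.nd (nat_lit 56394) (PT.nd (nat_lit 56082) (PT.nd (nat_lit 55926) (PT.nd (nat_lit 78) (PT.lf (nat_lit 34504) (nat_lit 6) (nat_lit 454) (nat_lit 0) (nat_lit 213) (nat_lit 186) (nat_lit 171)) (PT.lf (nat_lit 32680) (nat_lit 6) (nat_lit 430) (nat_lit 0) (nat_lit 214) (nat_lit 186) (nat_lit 170))) (PT.nd (nat_lit 78) (PT.lf (nat_lit 32756) (nat_lit 6) (nat_lit 431) (nat_lit 5) (nat_lit 169) (nat_lit 187) (nat_lit 214)) (PT.lf (nat_lit 34580) (nat_lit 6) (nat_lit 455) (nat_lit 5) (nat_lit 170) (nat_lit 187) (nat_lit 213)))) (PT.nd (nat_lit 156) (PT.nd (nat_lit 78) (PT.lf (nat_lit 36328) (nat_lit 6) (nat_lit 478) (nat_lit 5) (nat_lit 171) (nat_lit 187) (nat_lit 212)) (PT.lf (nat_lit 38000) (nat_lit 6) (nat_lit 500) (nat_lit 5) (nat_lit 172) (nat_lit 187) (nat_lit 211))) (PT.nd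 (nat_lit 78) (PT.lf (nat_lit 39596) (nat_lit 6) (nat_lit 521) (nat_lit 5) (nat_lit 173) (nat_lit 187) (nat_lit 210)) (PT.lf (nat_lit 41116) (nat_lit 6) (nat_lit 541) (nat_lit 5) (nat_lit 174) (nat_lit 187) (nat_lit 209))))) (PT.nd (nat_lit 312) (PT.nd (nat_lit 156) (PT.nd (nat_lit 78) (PT.lf (nat_lit 42560) (nat_lit 6) (nat_lit 560) (nat_lit 5) (nat_lit 175) (nat_lit 187) (nat_lit 208)) (PT.lf (nat_lit 43928) (nat_lit 6) (nat_lit 578) (nat_lit 5) (nat_lit 176) (nat_lit 187) (nat_lit 207))) (PT.nd (nat_lit 78) (PT.lf (nat_lit 45220) (nat_lit 6) (nat_lit 595) (nat_lit 5) (nat_lit 177) (nat_lit 187) (nat_lit 206)) (PT.lf (nat_lit 46436) (nat_lit 6) (nat_lit 611) (nat_lit 5) (nat_lit 178) (nat_lit 187) (nat_lit 205)))) (PT.nd (nat_lit 156) (PT.nd (nat_lit 78) (PT.lf (nat_lit 47576) (nat_lit 6) (nat_lit 626) (nat_lit 5) (nat_lit 179) (nat_lit 187) (nat_lit 204)) (PT.lf (nat_lit 48640) (nat_lit 6) (nat_lit 640) (nat_lit 5) (nat_lit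 180) (nat_lit 187) (nat_lit 203))) (PT.nd (nat_lit 78) (PT.lf (nat_lit 49628) (nat_lit 6) (nat_lit 653) (nat_lit 5) (nat_lit 181) (nat_lit 187) (nat_lit 202)) (PT.lf (nat_lit 50540) (nat_lit 6) (nat_lit 665) (nat_lit 5) (nat_lit 182) (nat_lit 187) (nat_lit 201)))))))
noncomputable def pc26 : PT := (PT.nd (nat_lit 1248) (PT.nd (nat_lit 624) (PT.nd (nat_lit 312) (PT.nd (nat_lit 156) (PT.nd (nat_lit 78) (PT.lf (nat_lit 51376) (nat_lit 6) (nat_lit 676) (nat_lit 5) (nat_lit 183) (nat_lit 187) (nat_lit 200)) (PT.lf (nat_lit 52136) (nat_lit 6) (nat_lit 686) (nat_lit 5) (nat_lit 184) (nat_lit 187) (nat_lit 199))) (PT.nd (nat_lit 78) (PT.lf (nat_lit 52820) (nat_lit 6) (nat_lit 695) (nat_lit 5) (nat_lit 185) (nat_lit 187) (nat_lit 198)) (PT.lf (nat_lit 53428) (nat_lit 6) (nat_lit 703) (nat_lit 5) (nat_lit 186) (nat_lit 187) (nat_lit 197)))) (PT.nd (nat_lit 156) (PT.nd (nat_lit 78) (PT.lf (nat_lit 53960) (nat_lit 3) (nat_lit 710) (nat_lit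 3) (nat_lit 187) (nat_lit 187) (nat_lit 196)) (PT.lf (nat_lit 54492) (nat_lit 6) (nat_lit 717) (nat_lit 3) (nat_lit 188) (nat_lit 187) (nat_lit 195))) (PT.nd (nat_lit 78) (PT.lf (nat_lit 54948) (nat_lit 6) (nat_lit 723) (nat_lit 3) (nat_lit 189) (nat_lit 187) (nat_lit 194)) (PT.lf (nat_lit 55328) (nat_lit 6) (nat_lit 728) (nat_lit 3) (nat_lit 190) (nat_lit 187) (nat_lit 193))))) (PT.nd (nat_lit 312) (PT.nd (nat_lit 156) (PT.nd (nat_lit 78) (PT.lf (nat_lit 55404) (nat_lit 6) (nat_lit 729) (nat_lit 3) (nat_lit 191) (nat_lit 187) (nat_lit 192)) (PT.lf (nat_lit 55404) (nat_lit 6) (nat_lit 729) (nat_lit 1) (nat_lit 192) (nat_lit 187) (nat_lit 191))) (PT.nd (nat_lit 78) (PT.lf (nat_lit 55328) (nat_lit 6) (nat_lit 728) (nat_lit 1) (nat_lit 193) (nat_lit 187) (nat_lit 190)) (PT.lf (nat_lit 54948) (nat_lit 6) (nat_lit 723) (nat_lit 1) (nat_lit 194) (nat_lit 187) (nat_lit 189)))) (PT.nd (nat_lit 156) (PT.nd (nat_lit 78) (PT.lf (nat_lit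 54492) (nat_lit 6) (nat_lit 717) (nat_lit 1) (nat_lit 195) (nat_lit 187) (nat_lit 188)) (PT.lf (nat_lit 53960) (nat_lit 3) (nat_lit 710) (nat_lit 0) (nat_lit 196) (nat_lit 187) (nat_lit 187))) (PT.nd (nat_lit 78) (PT.lf (nat_lit 53428) (nat_lit 6) (nat_lit 703) (nat_lit 0) (nat_lit 197) (nat_lit 187) (nat_lit 186)) (PT.lf (nat_lit 52820) (nat_lit 6) (nat_lit 695) (nat_lit 0) (nat_lit 198) (nat_lit 187) (nat_lit 185)))))) (PT.nd (nat_lit 624) (PT.nd (nat_lit 312) (PT.nd (nat_lit 156) (PT.nd (nat_lit 78) (PT.lf (nat_lit 52136) (nat_lit 6) (nat_lit 686) (nat_lit 0) (nat_lit 199) (nat_lit 187) (nat_lit 184)) (PT.lf (nat_lit 51376) (nat_lit 6) (nat_lit 676) (nat_lit 0) (nat_lit 200) (nat_lit 187) (nat_lit 183))) (PT.nd (nat_lit 78) (PT.lf (nat_lit 50540) (nat_lit 6) (nat_lit 665) (nat_lit 0) (nat_lit 201) (nat_lit 187) (nat_lit 182)) (PT.lf (nat_lit 49628) (nat_lit 6) (nat_lit 653) (nat_lit 0) (nat_lit 202) (nat_lit 187) (nat_lit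 181)))) (PT.nd (nat_lit 156) (PT.nd (nat_lit 78) (PT.lf (nat_lit 48640) (nat_lit 6) (nat_lit 640) (nat_lit 0) (nat_lit 203) (nat_lit 187) (nat_lit 180)) (PT.lf (nat_lit 47576) (nat_lit 6) (nat_lit 626) (nat_lit 0) (nat_lit 204) (nat_lit 187) (nat_lit 179))) (PT.nd (nat_lit 78) (PT.lf (nat_lit 46436) (nat_lit 6) (nat_lit 611) (nat_lit 0) (nat_lit 205) (nat_lit 187) (nat_lit 178)) (PT.lf (nat_lit 45220) (nat_lit 6) (nat_lit 595) (nat_lit 0) (nat_lit 206) (nat_lit 187) (nat_lit 177))))) (PT.nd (nat_lit 312) (PT.nd (nat_lit 156) (PT.nd (nat_lit 78) (PT.lf (nat_lit 43928) (nat_lit 6) (nat_lit 578) (nat_lit 0) (nat_lit 207) (nat_lit 187) (nat_lit 176)) (PT.lf (nat_lit 42560) (nat_lit 6) (nat_lit 560) (nat_lit 0) (nat_lit 208) (nat_lit 187) (nat_lit 175))) (PT.nd (nat_lit 78) (PT.lf (nat_lit 41116) (nat_lit 6) (nat_lit 541) (nat_lit 0) (nat_lit 209) (nat_lit 187) (nat_lit 174)) (PT.lf (nat_lit 39596) (nat_lit 6) (nat_lit 521) (nat_lit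 0) (nat_lit 210) (nat_lit 187) (nat_lit 173)))) (PT.nd (nat_lit 156) (PT.nd (nat_lit 78) (PT.lf (nat_lit 38000) (nat_lit 6) (nat_lit 500) (nat_lit 0) (nat_lit 211) (nat_lit 187) (nat_lit 172)) (PT.lf (nat_lit 36328) (nat_lit 6) (nat_lit 478) (nat_lit 0) (nat_lit 212) (nat_lit 187) (nat_lit 171))) (PT.nd (nat_lit 78) (PT.lf (nat_lit 34580) (nat_lit 6) (nat_lit 455) (nat_lit 0) (nat_lit 213) (nat_lit 187) (nat_lit 170)) (PT.nd (nat_lit 55770) (PT.lf (nat_lit 32756) (nat_lit 6) (nat_lit 431) (nat_lit 0) (nat_lit 214) (nat_lit 187) (nat_lit 169)) (PT.lf (nat_lit 32832) (nat_lit 6) (nat_lit 432) (nat_lit 5) (nat_lit 168) (nat_lit 188) (nat_lit 214))))))))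
noncomputable def pc27 : PT := (PT.nd (nat_lit 2496) (PT.nd (nat_lit 1248) (PT.nd (nat_lit 624) (PT.nd (nat_lit 312) (PT.nd (nat_lit 156) (PT.nd (nat_lit 78) (PT.lf (nat_lit 34656) (nat_lit 6) (nat_lit 456) (nat_lit 5) (nat_lit 169) (nat_lit 188) (nat_lit 213)) (PT.lf (nat_lit 36404) (nat_lit 6) (nat_lit 479) (nat_lit 5) (nat_lit 170) (nat_lit 188) (nat_lit 212))) (PT.nd (nat_lit 78) (PT.lf (nat_lit 38076) (nat_lit 6) (nat_lit 501) (nat_lit 5) (nat_lit 171) (nat_lit 188) (nat_lit 211)) (PT.lf (nat_lit 39672) (nat_lit 6) (nat_lit 522) (nat_lit 5) (nat_lit 172) (nat_lit 188) (nat_lit 210)))) (PT.nd (nat_lit 156) (PT.nd (nat_lit 78) (PT.lf (nat_lit 41192) (nat_lit 6) (nat_lit 542) (nat_lit 5) (nat_lit 173) (nat_lit 188) (nat_lit 209)) (PT.lf (nat_lit 42636) (nat_lit 6) (nat_lit 561) (nat_lit 5) (nat_lit 174) (nat_lit 188) (nat_lit 208))) (PT.nd (nat_lit 78) (PT.lf (nat_lit 44004) (nat_lit 6) (nat_lit 579) (nat_lit 5) (nat_lit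 175) (nat_lit 188) (nat_lit 207)) (PT.lf (nat_lit 45296) (nat_lit 6) (nat_lit 596) (nat_lit 5) (nat_lit 176) (nat_lit 188) (nat_lit 206))))) (PT.nd (nat_lit 312) (PT.nd (nat_lit 156) (PT.nd (nat_lit 78) (PT.lf (nat_lit 46512) (nat_lit 6) (nat_lit 612) (nat_lit 5) (nat_lit 177) (nat_lit 188) (nat_lit 205)) (PT.lf (nat_lit 47652) (nat_lit 6) (nat_lit 627) (nat_lit 5) (nat_lit 178) (nat_lit 188) (nat_lit 204))) (PT.nd (nat_lit 78) (PT.lf (nat_lit 48716) (nat_lit 6) (nat_lit 641) (nat_lit 5) (nat_lit 179) (nat_lit 188) (nat_lit 203)) (PT.lf (nat_lit 49704) (nat_lit 6) (nat_lit 654) (nat_lit 5) (nat_lit 180) (nat_lit 188) (nat_lit 202)))) (PT.nd (nat_lit 156) (PT.nd (nat_lit 78) (PT.lf (nat_lit 50616) (nat_lit 6) (nat_lit 666) (nat_lit 5) (nat_lit 181) (nat_lit 188) (nat_lit 201)) (PT.lf (nat_lit 51452) (nat_lit 6) (nat_lit 677) (nat_lit 5) (nat_lit 182) (nat_lit 188) (nat_lit 200))) (PT.nd (nat_lit 78) (PT.lf (nat_lit 52212) (nat_lit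 6) (nat_lit 687) (nat_lit 5) (nat_lit 183) (nat_lit 188) (nat_lit 199)) (PT.lf (nat_lit 52896) (nat_lit 6) (nat_lit 696) (nat_lit 5) (nat_lit 184) (nat_lit 188) (nat_lit 198)))))) (PT.nd (nat_lit 624) (PT.nd (nat_lit 312) (PT.nd (nat_lit 156) (PT.nd (nat_lit 78) (PT.lf (nat_lit 53504) (nat_lit 6) (nat_lit 704) (nat_lit 5) (nat_lit 185) (nat_lit 188) (nat_lit 197)) (PT.lf (nat_lit 54036) (nat_lit 6) (nat_lit 711) (nat_lit 5) (nat_lit 186) (nat_lit 188) (nat_lit 196))) (PT.nd (nat_lit 78) (PT.lf (nat_lit 54492) (nat_lit 6) (nat_lit 717) (nat_lit 5) (nat_lit 187) (nat_lit 188) (nat_lit 195)) (PT.lf (nat_lit 54872) (nat_lit 3) (nat_lit 722) (nat_lit 3) (nat_lit 188) (nat_lit 188) (nat_lit 194)))) (PT.nd (nat_lit 156) (PT.nd (nat_lit 78) (PT.lf (nat_lit 55252) (nat_lit 6) (nat_lit 727) (nat_lit 3) (nat_lit 189) (nat_lit 188) (nat_lit 193)) (PT.lf (nat_lit 55556) (nat_lit 6) (nat_lit 731) (nat_lit 3) (nat_lit 190) (nat_lit 188) (nat_lit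 192))) (PT.nd (nat_lit 78) (PT.lf (nat_lit 55632) (nat_lit 3) (nat_lit 732) (nat_lit 1) (nat_lit 191) (nat_lit 188) (nat_lit 191)) (PT.lf (nat_lit 55556) (nat_lit 6) (nat_lit 731) (nat_lit 1) (nat_lit 192) (nat_lit 188) (nat_lit 190))))) (PT.nd (nat_lit 312) (PT.nd (nat_lit 156) (PT.nd (nat_lit 78) (PT.lf (nat_lit 55252) (nat_lit 6) (nat_lit 727) (nat_lit 1) (nat_lit 193) (nat_lit 188) (nat_lit 189)) (PT.lf (nat_lit 54872) (nat_lit 3) (nat_lit 722) (nat_lit 0) (nat_lit 194) (nat_lit 188) (nat_lit 188))) (PT.nd (nat_lit 78) (PT.lf (nat_lit 54492) (nat_lit 6) (nat_lit 717) (nat_lit 0) (nat_lit 195) (nat_lit 188) (nat_lit 187)) (PT.lf (nat_lit 54036) (nat_lit 6) (nat_lit 711) (nat_lit 0) (nat_lit 196) (nat_lit 188) (nat_lit 186)))) (PT.nd (nat_lit 156) (PT.nd (nat_lit 78) (PT.lf (nat_lit 53504) (nat_lit 6) (nat_lit 704) (nat_lit 0) (nat_lit 197) (nat_lit 188) (nat_lit 185)) (PT.lf (nat_lit 52896) (nat_lit 6) (nat_lit 696) (nat_lit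 0) (nat_lit 198) (nat_lit 188) (nat_lit 184))) (PT.nd (nat_lit 78) (PT.lf (nat_lit 52212) (nat_lit 6) (nat_lit 687) (nat_lit 0) (nat_lit 199) (nat_lit 188) (nat_lit 183)) (PT.lf (nat_lit 51452) (nat_lit 6) (nat_lit 677) (nat_lit 0) (nat_lit 200) (nat_lit 188) (nat_lit 182))))))) (PT.nd (nat_lit 56862) (PT.nd (nat_lit 624) (PT.nd (nat_lit 312) (PT.nd (nat_lit 156) (PT.nd (nat_lit 78) (PT.lf (nat_lit 50616) (nat_lit 6) (nat_lit 666) (nat_lit 0) (nat_lit 201) (nat_lit 188) (nat_lit 181)) (PT.lf (nat_lit 49704) (nat_lit 6) (nat_lit 654) (nat_lit 0) (nat_lit 202) (nat_lit 188) (nat_lit 180))) (PT.nd (nat_lit 78) (PT.lf (nat_lit 48716) (nat_lit 6) (nat_lit 641) (nat_lit 0) (nat_lit 203) (nat_lit 188) (nat_lit 179)) (PT.lf (nat_lit 47652) (nat_lit 6) (nat_lit 627) (nat_lit 0) (nat_lit 204) (nat_lit 188) (nat_lit 178)))) (PT.nd (nat_lit 156) (PT.nd (nat_lit 78) (PT.lf (nat_lit 46512) (nat_lit 6) (nat_lit 612) (nat_lit 0) (nat_lit 205)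 (nat_lit 188) (nat_lit 177)) (PT.lf (nat_lit 45296) (nat_lit 6) (nat_lit 596) (nat_lit 0) (nat_lit 206) (nat_lit 188) (nat_lit 176))) (PT.nd (nat_lit 78) (PT.lf (nat_lit 44004) (nat_lit 6) (nat_lit 579) (nat_lit 0) (nat_lit 207) (nat_lit 188) (nat_lit 175)) (PT.lf (nat_lit 42636) (nat_lit 6) (nat_lit 561) (nat_lit 0) (nat_lit 208) (nat_lit 188) (nat_lit 174))))) (PT.nd (nat_lit 312) (PT.nd (nat_lit 156) (PT.nd (nat_lit 78) (PT.lf (nat_lit 41192) (nat_lit 6) (nat_lit 542) (nat_lit 0) (nat_lit 209) (nat_lit 188) (nat_lit 173)) (PT.lf (nat_lit 39672) (nat_lit 6) (nat_lit 522) (nat_lit 0) (nat_lit 210) (nat_lit 188) (nat_lit 172))) (PT.nd (nat_lit 78) (PT.lf (nat_lit 38076) (nat_lit 6) (nat_lit 501) (nat_lit 0) (nat_lit 211) (nat_lit 188) (nat_lit 171)) (PT.lf (nat_lit 36404) (nat_lit 6) (nat_lit 479) (nat_lit 0) (nat_lit 212) (nat_lit 188) (nat_lit 170)))) (PT.nd (nat_lit 55770) (PT.nd (nat_lit 78) (PT.lf (nat_lit 34656) (nat_lit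 6) (nat_lit 456) (nat_lit 0) (nat_lit 213) (nat_lit 188) (nat_lit 169)) (PT.lf (nat_lit 32832) (nat_lit 6) (nat_lit 432) (nat_lit 0) (nat_lit 214) (nat_lit 188) (nat_lit 168))) (PT.nd (nat_lit 78) (PT.lf (nat_lit 32908) (nat_lit 6) (nat_lit 433) (nat_lit 5) (nat_lit 167) (nat_lit 189) (nat_lit 214)) (PT.lf (nat_lit 34732) (nat_lit 6) (nat_lit 457) (nat_lit 5) (nat_lit 168) (nat_lit 189) (nat_lit 213)))))) (PT.nd (nat_lit 624) (PT.nd (nat_lit 312) (PT.nd (nat_lit 156) (PT.nd (nat_lit 78) (PT.lf (nat_lit 36480) (nat_lit 6) (nat_lit 480) (nat_lit 5) (nat_lit 169) (nat_lit 189) (nat_lit 212)) (PT.lf (nat_lit 38152) (nat_lit 6) (nat_lit 502) (nat_lit 5) (nat_lit 170) (nat_lit 189) (nat_lit 211))) (PT.nd (nat_lit 78) (PT.lf (nat_lit 39748) (nat_lit 6) (nat_lit 523) (nat_lit 5) (nat_lit 171) (nat_lit 189) (nat_lit 210)) (PT.lf (nat_lit 41268) (nat_lit 6) (nat_lit 543) (nat_lit 5) (nat_lit 172) (nat_lit 189) (nat_lit 209)))) (PT.nd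 (nat_lit 156) (PT.nd (nat_lit 78) (PT.lf (nat_lit 42712) (nat_lit 6) (nat_lit 562) (nat_lit 5) (nat_lit 173) (nat_lit 189) (nat_lit 208)) (PT.lf (nat_lit 44080) (nat_lit 6) (nat_lit 580) (nat_lit 5) (nat_lit 174) (nat_lit 189) (nat_lit 207))) (PT.nd (nat_lit 78) (PT.lf (nat_lit 45372) (nat_lit 6) (nat_lit 597) (nat_lit 5) (nat_lit 175) (nat_lit 189) (nat_lit 206)) (PT.lf (nat_lit 46588) (nat_lit 6) (nat_lit 613) (nat_lit 5) (nat_lit 176) (nat_lit 189) (nat_lit 205))))) (PT.nd (nat_lit 312) (PT.nd (nat_lit 156) (PT.nd (nat_lit 78) (PT.lf (nat_lit 47728) (nat_lit 6) (nat_lit 628) (nat_lit 5) (nat_lit 177) (nat_lit 189) (nat_lit 204)) (PT.lf (nat_lit 48792) (nat_lit 6) (nat_lit 642) (nat_lit 5) (nat_lit 178) (nat_lit 189) (nat_lit 203))) (PT.nd (nat_lit 78) (PT.lf (nat_lit 49780) (nat_lit 6) (nat_lit 655) (nat_lit 5) (nat_lit 179) (nat_lit 189) (nat_lit 202)) (PT.lf (nat_lit 50692) (nat_lit 6) (nat_lit 667) (nat_lit 5) (nat_lit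 180) (nat_lit 189) (nat_lit 201)))) (PT.nd (nat_lit 156) (PT.nd (nat_lit 78) (PT.lf (nat_lit 51528) (nat_lit 6) (nat_lit 678) (nat_lit 5) (nat_lit 181) (nat_lit 189) (nat_lit 200)) (PT.lf (nat_lit 52288) (nat_lit 6) (nat_lit 688) (nat_lit 5) (nat_lit 182) (nat_lit 189) (nat_lit 199))) (PT.nd (nat_lit 78) (PT.lf (nat_lit 52972) (nat_lit 6) (nat_lit 697) (nat_lit 5) (nat_lit 183) (nat_lit 189) (nat_lit 198)) (PT.lf (nat_lit 53580) (nat_lit 6) (nat_lit 705) (nat_lit 5) (nat_lit 184) (nat_lit 189) (nat_lit 197))))))))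
noncomputable def pc28 : PT := (PT.nd (nat_lit 58032) (PT.nd (nat_lit 1248) (PT.nd (nat_lit 624) (PT.nd (nat_lit 312) (PT.nd (nat_lit 156) (PT.nd (nat_lit 78) (PT.lf (nat_lit 54112) (nat_lit 6) (nat_lit 712) (nat_lit 5) (nat_lit 185) (nat_lit 189) (nat_lit 196)) (PT.lf (nat_lit 54568) (nat_lit 6) (nat_lit 718) (nat_lit 5) (nat_lit 186) (nat_lit 189) (nat_lit 195))) (PT.nd (nat_lit 78) (PT.lf (nat_lit 54948) (nat_lit 6) (nat_lit 723) (nat_lit 5) (nat_lit 187) (nat_lit 189) (nat_lit 194)) (PT.lf (nat_lit 55252) (nat_lit 6) (nat_lit 727) (nat_lit 5) (nat_lit 188) (nat_lit 189) (nat_lit 193)))) (PT.nd (nat_lit 156) (PT.nd (nat_lit 78) (PT.lf (nat_lit 55480) (nat_lit 3) (nat_lit 730) (nat_lit 3) (nat_lit 189) (nat_lit 189) (nat_lit 192)) (PT.lf (nat_lit 55708) (nat_lit 6) (nat_lit 733) (nat_lit 3) (nat_lit 190) (nat_lit 189) (nat_lit 191))) (PT.nd (nat_lit 78) (PT.lf (nat_lit 55708) (nat_lit 6) (nat_lit 733) (nat_lit 1) (nat_lit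 191) (nat_lit 189) (nat_lit 190)) (PT.lf (nat_lit 55480) (nat_lit 3) (nat_lit 730) (nat_lit 0) (nat_lit 192) (nat_lit 189) (nat_lit 189))))) (PT.nd (nat_lit 312) (PT.nd (nat_lit 156) (PT.nd (nat_lit 78) (PT.lf (nat_lit 55252) (nat_lit 6) (nat_lit 727) (nat_lit 0) (nat_lit 193) (nat_lit 189) (nat_lit 188)) (PT.lf (nat_lit 54948) (nat_lit 6) (nat_lit 723) (nat_lit 0) (nat_lit 194) (nat_lit 189) (nat_lit 187))) (PT.nd (nat_lit 78) (PT.lf (nat_lit 54568) (nat_lit 6) (nat_lit 718) (nat_lit 0) (nat_lit 195) (nat_lit 189) (nat_lit 186)) (PT.lf (nat_lit 54112) (nat_lit 6) (nat_lit 712) (nat_lit 0) (nat_lit 196) (nat_lit 189) (nat_lit 185)))) (PT.nd (nat_lit 156) (PT.nd (nat_lit 78) (PT.lf (nat_lit 53580) (nat_lit 6) (nat_lit 705) (nat_lit 0) (nat_lit 197) (nat_lit 189) (nat_lit 184)) (PT.lf (nat_lit 52972) (nat_lit 6) (nat_lit 697) (nat_lit 0) (nat_lit 198) (nat_lit 189) (nat_lit 183))) (PT.nd (nat_lit 78) (PT.lf (nat_lit 52288) (nat_lit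 6) (nat_lit 688) (nat_lit 0) (nat_lit 199) (nat_lit 189) (nat_lit 182)) (PT.lf (nat_lit 51528) (nat_lit 6) (nat_lit 678) (nat_lit 0) (nat_lit 200) (nat_lit 189) (nat_lit 181)))))) (PT.nd (nat_lit 624) (PT.nd (nat_lit 312) (PT.nd (nat_lit 156) (PT.nd (nat_lit 78) (PT.lf (nat_lit 50692) (nat_lit 6) (nat_lit 667) (nat_lit 0) (nat_lit 201) (nat_lit 189) (nat_lit 180)) (PT.lf (nat_lit 49780) (nat_lit 6) (nat_lit 655) (nat_lit 0) (nat_lit 202) (nat_lit 189) (nat_lit 179))) (PT.nd (nat_lit 78) (PT.lf (nat_lit 48792) (nat_lit 6) (nat_lit 642) (nat_lit 0) (nat_lit 203) (nat_lit 189) (nat_lit 178)) (PT.lf (nat_lit 47728) (nat_lit 6) (nat_lit 628) (nat_lit 0) (nat_lit 204) (nat_lit 189) (nat_lit 177)))) (PT.nd (nat_lit 156) (PT.nd (nat_lit 78) (PT.lf (nat_lit 46588) (nat_lit 6) (nat_lit 613) (nat_lit 0) (nat_lit 205) (nat_lit 189) (nat_lit 176)) (PT.lf (nat_lit 45372) (nat_lit 6) (nat_lit 597) (nat_lit 0) (nat_lit 206) (nat_lit 189) (nat_lit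 175))) (PT.nd (nat_lit 78) (PT.lf (nat_lit 44080) (nat_lit 6) (nat_lit 580) (nat_lit 0) (nat_lit 207) (nat_lit 189) (nat_lit 174)) (PT.lf (nat_lit 42712) (nat_lit 6) (nat_lit 562) (nat_lit 0) (nat_lit 208) (nat_lit 189) (nat_lit 173))))) (PT.nd (nat_lit 312) (PT.nd (nat_lit 156) (PT.nd (nat_lit 78) (PT.lf (nat_lit 41268) (nat_lit 6) (nat_lit 543) (nat_lit 0) (nat_lit 209) (nat_lit 189) (nat_lit 172)) (PT.lf (nat_lit 39748) (nat_lit 6) (nat_lit 523) (nat_lit 0) (nat_lit 210) (nat_lit 189) (nat_lit 171))) (PT.nd (nat_lit 78) (PT.lf (nat_lit 38152) (nat_lit 6) (nat_lit 502) (nat_lit 0) (nat_lit 211) (nat_lit 189) (nat_lit 170)) (PT.lf (nat_lit 36480) (nat_lit 6) (nat_lit 480) (nat_lit 0) (nat_lit 212) (nat_lit 189) (nat_lit 169)))) (PT.nd (nat_lit 55692) (PT.nd (nat_lit 78) (PT.lf (nat_lit 34732) (nat_lit 6) (nat_lit 457) (nat_lit 0) (nat_lit 213) (nat_lit 189) (nat_lit 168)) (PT.lf (nat_lit 32908) (nat_lit 6) (nat_lit 433) (nat_lit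 0) (nat_lit 214) (nat_lit 189) (nat_lit 167))) (PT.nd (nat_lit 78) (PT.lf (nat_lit 32984) (nat_lit 6) (nat_lit 434) (nat_lit 5) (nat_lit 166) (nat_lit 190) (nat_lit 214)) (PT.lf (nat_lit 34808) (nat_lit 6) (nat_lit 458) (nat_lit 5) (nat_lit 167) (nat_lit 190) (nat_lit 213))))))) (PT.nd (nat_lit 1248) (PT.nd (nat_lit 624) (PT.nd (nat_lit 312) (PT.nd (nat_lit 156) (PT.nd (nat_lit 78) (PT.lf (nat_lit 36556) (nat_lit 6) (nat_lit 481) (nat_lit 5) (nat_lit 168) (nat_lit 190) (nat_lit 212)) (PT.lf (nat_lit 38228) (nat_lit 6) (nat_lit 503) (nat_lit 5) (nat_lit 169) (nat_lit 190) (nat_lit 211))) (PT.nd (nat_lit 78) (PT.lf (nat_lit 39824) (nat_lit 6) (nat_lit 524) (nat_lit 5) (nat_lit 170) (nat_lit 190) (nat_lit 210)) (PT.lf (nat_lit 41344) (nat_lit 6) (nat_lit 544) (nat_lit 5) (nat_lit 171) (nat_lit 190) (nat_lit 209)))) (PT.nd (nat_lit 156) (PT.nd (nat_lit 78) (PT.lf (nat_lit 42788) (nat_lit 6) (nat_lit 563) (nat_lit 5) (nat_lit 172)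 (nat_lit 190) (nat_lit 208)) (PT.lf (nat_lit 44156) (nat_lit 6) (nat_lit 581) (nat_lit 5) (nat_lit 173) (nat_lit 190) (nat_lit 207))) (PT.nd (nat_lit 78) (PT.lf (nat_lit 45448) (nat_lit 6) (nat_lit 598) (nat_lit 5) (nat_lit 174) (nat_lit 190) (nat_lit 206)) (PT.lf (nat_lit 46664) (nat_lit 6) (nat_lit 614) (nat_lit 5) (nat_lit 175) (nat_lit 190) (nat_lit 205))))) (PT.nd (nat_lit 312) (PT.nd (nat_lit 156) (PT.nd (nat_lit 78) (PT.lf (nat_lit 47804) (nat_lit 6) (nat_lit 629) (nat_lit 5) (nat_lit 176) (nat_lit 190) (nat_lit 204)) (PT.lf (nat_lit 48868) (nat_lit 6) (nat_lit 643) (nat_lit 5) (nat_lit 177) (nat_lit 190) (nat_lit 203))) (PT.nd (nat_lit 78) (PT.lf (nat_lit 49856) (nat_lit 6) (nat_lit 656) (nat_lit 5) (nat_lit 178) (nat_lit 190) (nat_lit 202)) (PT.lf (nat_lit 50768) (nat_lit 6) (nat_lit 668) (nat_lit 5) (nat_lit 179) (nat_lit 190) (nat_lit 201)))) (PT.nd (nat_lit 156) (PT.nd (nat_lit 78) (PT.lf (nat_lit 51604) (nat_lit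 6) (nat_lit 679) (nat_lit 5) (nat_lit 180) (nat_lit 190) (nat_lit 200)) (PT.lf (nat_lit 52364) (nat_lit 6) (nat_lit 689) (nat_lit 5) (nat_lit 181) (nat_lit 190) (nat_lit 199))) (PT.nd (nat_lit 78) (PT.lf (nat_lit 53048) (nat_lit 6) (nat_lit 698) (nat_lit 5) (nat_lit 182) (nat_lit 190) (nat_lit 198)) (PT.lf (nat_lit 53656) (nat_lit 6) (nat_lit 706) (nat_lit 5) (nat_lit 183) (nat_lit 190) (nat_lit 197)))))) (PT.nd (nat_lit 624) (PT.nd (nat_lit 312) (PT.nd (nat_lit 156) (PT.nd (nat_lit 78) (PT.lf (nat_lit 54188) (nat_lit 6) (nat_lit 713) (nat_lit 5) (nat_lit 184) (nat_lit 190) (nat_lit 196)) (PT.lf (nat_lit 54644) (nat_lit 6) (nat_lit 719) (nat_lit 5) (nat_lit 185) (nat_lit 190) (nat_lit 195))) (PT.nd (nat_lit 78) (PT.lf (nat_lit 55024) (nat_lit 6) (nat_lit 724) (nat_lit 5) (nat_lit 186) (nat_lit 190) (nat_lit 194)) (PT.lf (nat_lit 55328) (nat_lit 6) (nat_lit 728) (nat_lit 5) (nat_lit 187) (nat_lit 190) (nat_lit 193)))) (PT.nd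 (nat_lit 156) (PT.nd (nat_lit 78) (PT.lf (nat_lit 55556) (nat_lit 6) (nat_lit 731) (nat_lit 5) (nat_lit 188) (nat_lit 190) (nat_lit 192)) (PT.lf (nat_lit 55708) (nat_lit 6) (nat_lit 733) (nat_lit 5) (nat_lit 189) (nat_lit 190) (nat_lit 191))) (PT.nd (nat_lit 78) (PT.lf (nat_lit 55784) (nat_lit 1) (nat_lit 734) (nat_lit 0) (nat_lit 190) (nat_lit 190) (nat_lit 190)) (PT.lf (nat_lit 55708) (nat_lit 6) (nat_lit 733) (nat_lit 0) (nat_lit 191) (nat_lit 190) (nat_lit 189))))) (PT.nd (nat_lit 312) (PT.nd (nat_lit 156) (PT.nd (nat_lit 78) (PT.lf (nat_lit 55556) (nat_lit 6) (nat_lit 731) (nat_lit 0) (nat_lit 192) (nat_lit 190) (nat_lit 188)) (PT.lf (nat_lit 55328) (nat_lit 6) (nat_lit 728) (nat_lit 0) (nat_lit 193) (nat_lit 190) (nat_lit 187))) (PT.nd (nat_lit 78) (PT.lf (nat_lit 55024) (nat_lit 6) (nat_lit 724) (nat_lit 0) (nat_lit 194) (nat_lit 190) (nat_lit 186)) (PT.lf (nat_lit 54644) (nat_lit 6) (nat_lit 719) (nat_lit 0) (nat_lit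 195) (nat_lit 190) (nat_lit 185)))) (PT.nd (nat_lit 156) (PT.nd (nat_lit 78) (PT.lf (nat_lit 54188) (nat_lit 6) (nat_lit 713) (nat_lit 0) (nat_lit 196) (nat_lit 190) (nat_lit 184)) (PT.lf (nat_lit 53656) (nat_lit 6) (nat_lit 706) (nat_lit 0) (nat_lit 197) (nat_lit 190) (nat_lit 183))) (PT.nd (nat_lit 78) (PT.lf (nat_lit 53048) (nat_lit 6) (nat_lit 698) (nat_lit 0) (nat_lit 198) (nat_lit 190) (nat_lit 182)) (PT.lf (nat_lit 52364) (nat_lit 6) (nat_lit 689) (nat_lit 0) (nat_lit 199) (nat_lit 190) (nat_lit 181))))))))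
noncomputable def pc29 : PT := (PT.nd (nat_lit 57876) (PT.nd (nat_lit 56628) (PT.nd (nat_lit 624) (PT.nd (nat_lit 312) (PT.nd (nat_lit 156) (PT.nd (nat_lit 78) (PT.lf (nat_lit 51604) (nat_lit 6) (nat_lit 679) (nat_lit 0) (nat_lit 200) (nat_lit 190) (nat_lit 180)) (PT.lf (nat_lit 50768) (nat_lit 6) (nat_lit 668) (nat_lit 0) (nat_lit 201) (nat_lit 190) (nat_lit 179))) (PT.nd (nat_lit 78) (PT.lf (nat_lit 49856) (nat_lit 6) (nat_lit 656) (nat_lit 0) (nat_lit 202) (nat_lit 190) (nat_lit 178)) (PT.lf (nat_lit 48868) (nat_lit 6) (nat_lit 643) (nat_lit 0) (nat_lit 203) (nat_lit 190) (nat_lit 177)))) (PT.nd (nat_lit 156) (PT.nd (nat_lit 78) (PT.lf (nat_lit 47804) (nat_lit 6) (nat_lit 629) (nat_lit 0) (nat_lit 204) (nat_lit 190) (nat_lit 176)) (PT.lf (nat_lit 46664) (nat_lit 6) (nat_lit 614) (nat_lit 0) (nat_lit 205) (nat_lit 190) (nat_lit 175))) (PT.nd (nat_lit 78) (PT.lf (nat_lit 45448) (nat_lit 6) (nat_lit 598) (nat_lit 0) (nat_lit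 206) (nat_lit 190) (nat_lit 174)) (PT.lf (nat_lit 44156) (nat_lit 6) (nat_lit 581) (nat_lit 0) (nat_lit 207) (nat_lit 190) (nat_lit 173))))) (PT.nd (nat_lit 312) (PT.nd (nat_lit 156) (PT.nd (nat_lit 78) (PT.lf (nat_lit 42788) (nat_lit 6) (nat_lit 563) (nat_lit 0) (nat_lit 208) (nat_lit 190) (nat_lit 172)) (PT.lf (nat_lit 41344) (nat_lit 6) (nat_lit 544) (nat_lit 0) (nat_lit 209) (nat_lit 190) (nat_lit 171))) (PT.nd (nat_lit 78) (PT.lf (nat_lit 39824) (nat_lit 6) (nat_lit 524) (nat_lit 0) (nat_lit 210) (nat_lit 190) (nat_lit 170)) (PT.lf (nat_lit 38228) (nat_lit 6) (nat_lit 503) (nat_lit 0) (nat_lit 211) (nat_lit 190) (nat_lit 169)))) (PT.nd (nat_lit 156) (PT.nd (nat_lit 78) (PT.lf (nat_lit 36556) (nat_lit 6) (nat_lit 481) (nat_lit 0) (nat_lit 212) (nat_lit 190) (nat_lit 168)) (PT.lf (nat_lit 34808) (nat_lit 6) (nat_lit 458) (nat_lit 0) (nat_lit 213) (nat_lit 190) (nat_lit 167))) (PT.nd (nat_lit 55458) (PT.lf (nat_lit 32984)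 (nat_lit 6) (nat_lit 434) (nat_lit 0) (nat_lit 214) (nat_lit 190) (nat_lit 166)) (PT.lf (nat_lit 30552) (nat_lit 6) (nat_lit 402) (nat_lit 5) (nat_lit 164) (nat_lit 191) (nat_lit 215)))))) (PT.nd (nat_lit 624) (PT.nd (nat_lit 312) (PT.nd (nat_lit 156) (PT.nd (nat_lit 78) (PT.lf (nat_lit 31540) (nat_lit 6) (nat_lit 415) (nat_lit 5) (nat_lit 165) (nat_lit 191) (nat_lit 214)) (PT.lf (nat_lit 33060) (nat_lit 6) (nat_lit 435) (nat_lit 5) (nat_lit 166) (nat_lit 191) (nat_lit 213))) (PT.nd (nat_lit 78) (PT.lf (nat_lit 34884) (nat_lit 6) (nat_lit 459) (nat_lit 5) (nat_lit 167) (nat_lit 191) (nat_lit 212)) (PT.lf (nat_lit 36632) (nat_lit 6) (nat_lit 482) (nat_lit 5) (nat_lit 168) (nat_lit 191) (nat_lit 211)))) (PT.nd (nat_lit 156) (PT.nd (nat_lit 78) (PT.lf (nat_lit 38304) (nat_lit 6) (nat_lit 504) (nat_lit 5) (nat_lit 169) (nat_lit 191) (nat_lit 210)) (PT.lf (nat_lit 39900) (nat_lit 6) (nat_lit 525) (nat_lit 5) (nat_lit 170) (nat_lit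 191) (nat_lit 209))) (PT.nd (nat_lit 78) (PT.lf (nat_lit 41420) (nat_lit 6) (nat_lit 545) (nat_lit 5) (nat_lit 171) (nat_lit 191) (nat_lit 208)) (PT.lf (nat_lit 42864) (nat_lit 6) (nat_lit 564) (nat_lit 5) (nat_lit 172) (nat_lit 191) (nat_lit 207))))) (PT.nd (nat_lit 312) (PT.nd (nat_lit 156) (PT.nd (nat_lit 78) (PT.lf (nat_lit 44232) (nat_lit 6) (nat_lit 582) (nat_lit 5) (nat_lit 173) (nat_lit 191) (nat_lit 206)) (PT.lf (nat_lit 45524) (nat_lit 6) (nat_lit 599) (nat_lit 5) (nat_lit 174) (nat_lit 191) (nat_lit 205))) (PT.nd (nat_lit 78) (PT.lf (nat_lit 46740) (nat_lit 6) (nat_lit 615) (nat_lit 5) (nat_lit 175) (nat_lit 191) (nat_lit 204)) (PT.lf (nat_lit 47880) (nat_lit 6) (nat_lit 630) (nat_lit 5) (nat_lit 176) (nat_lit 191) (nat_lit 203)))) (PT.nd (nat_lit 156) (PT.nd (nat_lit 78) (PT.lf (nat_lit 48944) (nat_lit 6) (nat_lit 644) (nat_lit 5) (nat_lit 177) (nat_lit 191) (nat_lit 202)) (PT.lf (nat_lit 49932) (nat_lit 6) (nat_lit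 657) (nat_lit 5) (nat_lit 178) (nat_lit 191) (nat_lit 201))) (PT.nd (nat_lit 78) (PT.lf (nat_lit 50844) (nat_lit 6) (nat_lit 669) (nat_lit 5) (nat_lit 179) (nat_lit 191) (nat_lit 200)) (PT.lf (nat_lit 51680) (nat_lit 6) (nat_lit 680) (nat_lit 5) (nat_lit 180) (nat_lit 191) (nat_lit 199))))))) (PT.nd (nat_lit 1248) (PT.nd (nat_lit 624) (PT.nd (nat_lit 312) (PT.nd (nat_lit 156) (PT.nd (nat_lit 78) (PT.lf (nat_lit 52440) (nat_lit 6) (nat_lit 690) (nat_lit 5) (nat_lit 181) (nat_lit 191) (nat_lit 198)) (PT.lf (nat_lit 53124) (nat_lit 6) (nat_lit 699) (nat_lit 5) (nat_lit 182) (nat_lit 191) (nat_lit 197))) (PT.nd (nat_lit 78) (PT.lf (nat_lit 53732) (nat_lit 6) (nat_lit 707) (nat_lit 5) (nat_lit 183) (nat_lit 191) (nat_lit 196)) (PT.lf (nat_lit 54264) (nat_lit 6) (nat_lit 714) (nat_lit 5) (nat_lit 184) (nat_lit 191) (nat_lit 195)))) (PT.nd (nat_lit 156) (PT.nd (nat_lit 78) (PT.lf (nat_lit 54720) (nat_lit 6) (nat_lit 720) (nat_lit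 5) (nat_lit 185) (nat_lit 191) (nat_lit 194)) (PT.lf (nat_lit 55100) (nat_lit 6) (nat_lit 725) (nat_lit 5) (nat_lit 186) (nat_lit 191) (nat_lit 193))) (PT.nd (nat_lit 78) (PT.lf (nat_lit 55404) (nat_lit 6) (nat_lit 729) (nat_lit 5) (nat_lit 187) (nat_lit 191) (nat_lit 192)) (PT.lf (nat_lit 55632) (nat_lit 3) (nat_lit 732) (nat_lit 4) (nat_lit 188) (nat_lit 191) (nat_lit 191))))) (PT.nd (nat_lit 312) (PT.nd (nat_lit 156) (PT.nd (nat_lit 78) (PT.lf (nat_lit 55708) (nat_lit 6) (nat_lit 733) (nat_lit 4) (nat_lit 189) (nat_lit 191) (nat_lit 190)) (PT.lf (nat_lit 55708) (nat_lit 6) (nat_lit 733) (nat_lit 2) (nat_lit 190) (nat_lit 191) (nat_lit 189))) (PT.nd (nat_lit 78) (PT.lf (nat_lit 55632) (nat_lit 3) (nat_lit 732) (nat_lit 0) (nat_lit 191) (nat_lit 191) (nat_lit 188)) (PT.lf (nat_lit 55404) (nat_lit 6) (nat_lit 729) (nat_lit 0) (nat_lit 192) (nat_lit 191) (nat_lit 187)))) (PT.nd (nat_lit 156) (PT.nd (nat_lit 78) (PT.lf (nat_lit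 55100) (nat_lit 6) (nat_lit 725) (nat_lit 0) (nat_lit 193) (nat_lit 191) (nat_lit 186)) (PT.lf (nat_lit 54720) (nat_lit 6) (nat_lit 720) (nat_lit 0) (nat_lit 194) (nat_lit 191) (nat_lit 185))) (PT.nd (nat_lit 78) (PT.lf (nat_lit 54264) (nat_lit 6) (nat_lit 714) (nat_lit 0) (nat_lit 195) (nat_lit 191) (nat_lit 184)) (PT.lf (nat_lit 53732) (nat_lit 6) (nat_lit 707) (nat_lit 0) (nat_lit 196) (nat_lit 191) (nat_lit 183)))))) (PT.nd (nat_lit 624) (PT.nd (nat_lit 312) (PT.nd (nat_lit 156) (PT.nd (nat_lit 78) (PT.lf (nat_lit 53124) (nat_lit 6) (nat_lit 699) (nat_lit 0) (nat_lit 197) (nat_lit 191) (nat_lit 182)) (PT.lf (nat_lit 52440) (nat_lit 6) (nat_lit 690) (nat_lit 0) (nat_lit 198) (nat_lit 191) (nat_lit 181))) (PT.nd (nat_lit 78) (PT.lf (nat_lit 51680) (nat_lit 6) (nat_lit 680) (nat_lit 0) (nat_lit 199) (nat_lit 191) (nat_lit 180)) (PT.lf (nat_lit 50844) (nat_lit 6) (nat_lit 669) (nat_lit 0) (nat_lit 200) (nat_lit 191) (nat_lit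 179)))) (PT.nd (nat_lit 156) (PT.nd (nat_lit 78) (PT.lf (nat_lit 49932) (nat_lit 6) (nat_lit 657) (nat_lit 0) (nat_lit 201) (nat_lit 191) (nat_lit 178)) (PT.lf (nat_lit 48944) (nat_lit 6) (nat_lit 644) (nat_lit 0) (nat_lit 202) (nat_lit 191) (nat_lit 177))) (PT.nd (nat_lit 78) (PT.lf (nat_lit 47880) (nat_lit 6) (nat_lit 630) (nat_lit 0) (nat_lit 203) (nat_lit 191) (nat_lit 176)) (PT.lf (nat_lit 46740) (nat_lit 6) (nat_lit 615) (nat_lit 0) (nat_lit 204) (nat_lit 191) (nat_lit 175))))) (PT.nd (nat_lit 312) (PT.nd (nat_lit 156) (PT.nd (nat_lit 78) (PT.lf (nat_lit 45524) (nat_lit 6) (nat_lit 599) (nat_lit 0) (nat_lit 205) (nat_lit 191) (nat_lit 174)) (PT.lf (nat_lit 44232) (nat_lit 6) (nat_lit 582) (nat_lit 0) (nat_lit 206) (nat_lit 191) (nat_lit 173))) (PT.nd (nat_lit 78) (PT.lf (nat_lit 42864) (nat_lit 6) (nat_lit 564) (nat_lit 0) (nat_lit 207) (nat_lit 191) (nat_lit 172)) (PT.lf (nat_lit 41420) (nat_lit 6) (nat_lit 545) (nat_lit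 0) (nat_lit 208) (nat_lit 191) (nat_lit 171)))) (PT.nd (nat_lit 156) (PT.nd (nat_lit 78) (PT.lf (nat_lit 39900) (nat_lit 6) (nat_lit 525) (nat_lit 0) (nat_lit 209) (nat_lit 191) (nat_lit 170)) (PT.lf (nat_lit 38304) (nat_lit 6) (nat_lit 504) (nat_lit 0) (nat_lit 210) (nat_lit 191) (nat_lit 169))) (PT.nd (nat_lit 78) (PT.lf (nat_lit 36632) (nat_lit 6) (nat_lit 482) (nat_lit 0) (nat_lit 211) (nat_lit 191) (nat_lit 168)) (PT.lf (nat_lit 34884) (nat_lit 6) (nat_lit 459) (nat_lit 0) (nat_lit 212) (nat_lit 191) (nat_lit 167))))))))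
noncomputable def pc30 : PT := (PT.nd (nat_lit 57720) (PT.nd (nat_lit 56472) (PT.nd (nat_lit 55848) (PT.nd (nat_lit 55536) (PT.nd (nat_lit 156) (PT.nd (nat_lit 78) (PT.lf (nat_lit 33060) (nat_lit 6) (nat_lit 435) (nat_lit 0) (nat_lit 213) (nat_lit 191) (nat_lit 166)) (PT.lf (nat_lit 31540) (nat_lit 6) (nat_lit 415) (nat_lit 0) (nat_lit 214) (nat_lit 191) (nat_lit 165))) (PT.nd (nat_lit 55302) (PT.lf (nat_lit 30552) (nat_lit 6) (nat_lit 402) (nat_lit 0) (nat_lit 215) (nat_lit 191) (nat_lit 164)) (PT.lf (nat_lit 29640) (nat_lit 6) (nat_lit 390) (nat_lit 5) (nat_lit 163) (nat_lit 192) (nat_lit 215)))) (PT.nd (nat_lit 156) (PT.nd (nat_lit 78) (PT.lf (nat_lit 30628) (nat_lit 6) (nat_lit 403) (nat_lit 5) (nat_lit 164) (nat_lit 192) (nat_lit 214)) (PT.lf (nat_lit 31616) (nat_lit 6) (nat_lit 416) (nat_lit 5) (nat_lit 165) (nat_lit 192) (nat_lit 213))) (PT.nd (nat_lit 78) (PT.lf (nat_lit 33136) (nat_lit 6) (nat_lit 436) (nat_lit 5)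 (nat_lit 166) (nat_lit 192) (nat_lit 212)) (PT.lf (nat_lit 34960) (nat_lit 6) (nat_lit 460) (nat_lit 5) (nat_lit 167) (nat_lit 192) (nat_lit 211))))) (PT.nd (nat_lit 312) (PT.nd (nat_lit 156) (PT.nd (nat_lit 78) (PT.lf (nat_lit 36708) (nat_lit 6) (nat_lit 483) (nat_lit 5) (nat_lit 168) (nat_lit 192) (nat_lit 210)) (PT.lf (nat_lit 38380) (nat_lit 6) (nat_lit 505) (nat_lit 5) (nat_lit 169) (nat_lit 192) (nat_lit 209))) (PT.nd (nat_lit 78) (PT.lf (nat_lit 39976) (nat_lit 6) (nat_lit 526) (nat_lit 5) (nat_lit 170) (nat_lit 192) (nat_lit 208)) (PT.lf (nat_lit 41496) (nat_lit 6) (nat_lit 546) (nat_lit 5) (nat_lit 171) (nat_lit 192) (nat_lit 207)))) (PT.nd (nat_lit 156) (PT.nd (nat_lit 78) (PT.lf (nat_lit 42940) (nat_lit 6) (nat_lit 565) (nat_lit 5) (nat_lit 172) (nat_lit 192) (nat_lit 206)) (PT.lf (nat_lit 44308) (nat_lit 6) (nat_lit 583) (nat_lit 5) (nat_lit 173) (nat_lit 192) (nat_lit 205))) (PT.nd (nat_lit 78) (PT.lf (nat_lit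 45600) (nat_lit 6) (nat_lit 600) (nat_lit 5) (nat_lit 174) (nat_lit 192) (nat_lit 204)) (PT.lf (nat_lit 46816) (nat_lit 6) (nat_lit 616) (nat_lit 5) (nat_lit 175) (nat_lit 192) (nat_lit 203)))))) (PT.nd (nat_lit 624) (PT.nd (nat_lit 312) (PT.nd (nat_lit 156) (PT.nd (nat_lit 78) (PT.lf (nat_lit 47956) (nat_lit 6) (nat_lit 631) (nat_lit 5) (nat_lit 176) (nat_lit 192) (nat_lit 202)) (PT.lf (nat_lit 49020) (nat_lit 6) (nat_lit 645) (nat_lit 5) (nat_lit 177) (nat_lit 192) (nat_lit 201))) (PT.nd (nat_lit 78) (PT.lf (nat_lit 50008) (nat_lit 6) (nat_lit 658) (nat_lit 5) (nat_lit 178) (nat_lit 192) (nat_lit 200)) (PT.lf (nat_lit 50920) (nat_lit 6) (nat_lit 670) (nat_lit 5) (nat_lit 179) (nat_lit 192) (nat_lit 199)))) (PT.nd (nat_lit 156) (PT.nd (nat_lit 78) (PT.lf (nat_lit 51756) (nat_lit 6) (nat_lit 681) (nat_lit 5) (nat_lit 180) (nat_lit 192) (nat_lit 198)) (PT.lf (nat_lit 52516) (nat_lit 6) (nat_lit 691) (nat_lit 5) (nat_lit 181)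 (nat_lit 192) (nat_lit 197))) (PT.nd (nat_lit 78) (PT.lf (nat_lit 53200) (nat_lit 6) (nat_lit 700) (nat_lit 5) (nat_lit 182) (nat_lit 192) (nat_lit 196)) (PT.lf (nat_lit 53808) (nat_lit 6) (nat_lit 708) (nat_lit 5) (nat_lit 183) (nat_lit 192) (nat_lit 195))))) (PT.nd (nat_lit 312) (PT.nd (nat_lit 156) (PT.nd (nat_lit 78) (PT.lf (nat_lit 54340) (nat_lit 6) (nat_lit 715) (nat_lit 5) (nat_lit 184) (nat_lit 192) (nat_lit 194)) (PT.lf (nat_lit 54796) (nat_lit 6) (nat_lit 721) (nat_lit 5) (nat_lit 185) (nat_lit 192) (nat_lit 193))) (PT.nd (nat_lit 78) (PT.lf (nat_lit 55176) (nat_lit 3) (nat_lit 726) (nat_lit 4) (nat_lit 186) (nat_lit 192) (nat_lit 192)) (PT.lf (nat_lit 55404) (nat_lit 6) (nat_lit 729) (nat_lit 4) (nat_lit 187) (nat_lit 192) (nat_lit 191)))) (PT.nd (nat_lit 156) (PT.nd (nat_lit 78) (PT.lf (nat_lit 55556) (nat_lit 6) (nat_lit 731) (nat_lit 4) (nat_lit 188) (nat_lit 192) (nat_lit 190)) (PT.lf (nat_lit 55480) (nat_lit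 3) (nat_lit 730) (nat_lit 2) (nat_lit 189) (nat_lit 192) (nat_lit 189))) (PT.nd (nat_lit 78) (PT.lf (nat_lit 55556) (nat_lit 6) (nat_lit 731) (nat_lit 2) (nat_lit 190) (nat_lit 192) (nat_lit 188)) (PT.lf (nat_lit 55404) (nat_lit 6) (nat_lit 729) (nat_lit 2) (nat_lit 191) (nat_lit 192) (nat_lit 187))))))) (PT.nd (nat_lit 1248) (PT.nd (nat_lit 624) (PT.nd (nat_lit 312) (PT.nd (nat_lit 156) (PT.nd (nat_lit 78) (PT.lf (nat_lit 55176) (nat_lit 3) (nat_lit 726) (nat_lit 0) (nat_lit 192) (nat_lit 192) (nat_lit 186)) (PT.lf (nat_lit 54796) (nat_lit 6) (nat_lit 721) (nat_lit 0) (nat_lit 193) (nat_lit 192) (nat_lit 185))) (PT.nd (nat_lit 78) (PT.lf (nat_lit 54340) (nat_lit 6) (nat_lit 715) (nat_lit 0) (nat_lit 194) (nat_lit 192) (nat_lit 184)) (PT.lf (nat_lit 53808) (nat_lit 6) (nat_lit 708) (nat_lit 0) (nat_lit 195) (nat_lit 192) (nat_lit 183)))) (PT.nd (nat_lit 156) (PT.nd (nat_lit 78) (PT.lf (nat_lit 53200) (nat_lit 6) (nat_lit 700)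 (nat_lit 0) (nat_lit 196) (nat_lit 192) (nat_lit 182)) (PT.lf (nat_lit 52516) (nat_lit 6) (nat_lit 691) (nat_lit 0) (nat_lit 197) (nat_lit 192) (nat_lit 181))) (PT.nd (nat_lit 78) (PT.lf (nat_lit 51756) (nat_lit 6) (nat_lit 681) (nat_lit 0) (nat_lit 198) (nat_lit 192) (nat_lit 180)) (PT.lf (nat_lit 50920) (nat_lit 6) (nat_lit 670) (nat_lit 0) (nat_lit 199) (nat_lit 192) (nat_lit 179))))) (PT.nd (nat_lit 312) (PT.nd (nat_lit 156) (PT.nd (nat_lit 78) (PT.lf (nat_lit 50008) (nat_lit 6) (nat_lit 658) (nat_lit 0) (nat_lit 200) (nat_lit 192) (nat_lit 178)) (PT.lf (nat_lit 49020) (nat_lit 6) (nat_lit 645) (nat_lit 0) (nat_lit 201) (nat_lit 192) (nat_lit 177))) (PT.nd (nat_lit 78) (PT.lf (nat_lit 47956) (nat_lit 6) (nat_lit 631) (nat_lit 0) (nat_lit 202) (nat_lit 192) (nat_lit 176)) (PT.lf (nat_lit 46816) (nat_lit 6) (nat_lit 616) (nat_lit 0) (nat_lit 203) (nat_lit 192) (nat_lit 175)))) (PT.nd (nat_lit 156) (PT.nd (nat_lit 78) (PT.lf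 (nat_lit 45600) (nat_lit 6) (nat_lit 600) (nat_lit 0) (nat_lit 204) (nat_lit 192) (nat_lit 174)) (PT.lf (nat_lit 44308) (nat_lit 6) (nat_lit 583) (nat_lit 0) (nat_lit 205) (nat_lit 192) (nat_lit 173))) (PT.nd (nat_lit 78) (PT.lf (nat_lit 42940) (nat_lit 6) (nat_lit 565) (nat_lit 0) (nat_lit 206) (nat_lit 192) (nat_lit 172)) (PT.lf (nat_lit 41496) (nat_lit 6) (nat_lit 546) (nat_lit 0) (nat_lit 207) (nat_lit 192) (nat_lit 171)))))) (PT.nd (nat_lit 55770) (PT.nd (nat_lit 312) (PT.nd (nat_lit 156) (PT.nd (nat_lit 78) (PT.lf (nat_lit 39976) (nat_lit 6) (nat_lit 526) (nat_lit 0) (nat_lit 208) (nat_lit 192) (nat_lit 170)) (PT.lf (nat_lit 38380) (nat_lit 6) (nat_lit 505) (nat_lit 0) (nat_lit 209) (nat_lit 192) (nat_lit 169))) (PT.nd (nat_lit 78) (PT.lf (nat_lit 36708) (nat_lit 6) (nat_lit 483) (nat_lit 0) (nat_lit 210) (nat_lit 192) (nat_lit 168)) (PT.lf (nat_lit 34960) (nat_lit 6) (nat_lit 460) (nat_lit 0) (nat_lit 211) (nat_lit 192)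 (nat_lit 167)))) (PT.nd (nat_lit 156) (PT.nd (nat_lit 78) (PT.lf (nat_lit 33136) (nat_lit 6) (nat_lit 436) (nat_lit 0) (nat_lit 212) (nat_lit 192) (nat_lit 166)) (PT.lf (nat_lit 31616) (nat_lit 6) (nat_lit 416) (nat_lit 0) (nat_lit 213) (nat_lit 192) (nat_lit 165))) (PT.nd (nat_lit 78) (PT.lf (nat_lit 30628) (nat_lit 6) (nat_lit 403) (nat_lit 0) (nat_lit 214) (nat_lit 192) (nat_lit 164)) (PT.lf (nat_lit 29640) (nat_lit 6) (nat_lit 390) (nat_lit 0) (nat_lit 215) (nat_lit 192) (nat_lit 163))))) (PT.nd (nat_lit 312) (PT.nd (nat_lit 156) (PT.nd (nat_lit 78) (PT.lf (nat_lit 28728) (nat_lit 6) (nat_lit 378) (nat_lit 5) (nat_lit 162) (nat_lit 193) (nat_lit 215)) (PT.lf (nat_lit 29716) (nat_lit 6) (nat_lit 391) (nat_lit 5) (nat_lit 163) (nat_lit 193) (nat_lit 214))) (PT.nd (nat_lit 78) (PT.lf (nat_lit 30704) (nat_lit 6) (nat_lit 404) (nat_lit 5) (nat_lit 164) (nat_lit 193) (nat_lit 213)) (PT.lf (nat_lit 31692) (nat_lit 6) (nat_lit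 417) (nat_lit 5) (nat_lit 165) (nat_lit 193) (nat_lit 212)))) (PT.nd (nat_lit 156) (PT.nd (nat_lit 78) (PT.lf (nat_lit 33212) (nat_lit 6) (nat_lit 437) (nat_lit 5) (nat_lit 166) (nat_lit 193) (nat_lit 211)) (PT.lf (nat_lit 35036) (nat_lit 6) (nat_lit 461) (nat_lit 5) (nat_lit 167) (nat_lit 193) (nat_lit 210))) (PT.nd (nat_lit 78) (PT.lf (nat_lit 36784) (nat_lit 6) (nat_lit 484) (nat_lit 5) (nat_lit 168) (nat_lit 193) (nat_lit 209)) (PT.lf (nat_lit 38456) (nat_lit 6) (nat_lit 506) (nat_lit 5) (nat_lit 169) (nat_lit 193) (nat_lit 208))))))))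
noncomputable def pc31 : PT := (PT.nd (nat_lit 2496) (PT.nd (nat_lit 1248) (PT.nd (nat_lit 624) (PT.nd (nat_lit 312) (PT.nd (nat_lit 156) (PT.nd (nat_lit 78) (PT.lf (nat_lit 40052) (nat_lit 6) (nat_lit 527) (nat_lit 5) (nat_lit 170) (nat_lit 193) (nat_lit 207)) (PT.lf (nat_lit 41572) (nat_lit 6) (nat_lit 547) (nat_lit 5) (nat_lit 171) (nat_lit 193) (nat_lit 206))) (PT.nd (nat_lit 78) (PT.lf (nat_lit 43016) (nat_lit 6) (nat_lit 566) (nat_lit 5) (nat_lit 172) (nat_lit 193) (nat_lit 205)) (PT.lf (nat_lit 44384) (nat_lit 6) (nat_lit 584) (nat_lit 5) (nat_lit 173) (nat_lit 193) (nat_lit 204)))) (PT.nd (nat_lit 156) (PT.nd (nat_lit 78) (PT.lf (nat_lit 45676) (nat_lit 6) (nat_lit 601) (nat_lit 5) (nat_lit 174) (nat_lit 193) (nat_lit 203)) (PT.lf (nat_lit 46892) (nat_lit 6) (nat_lit 617) (nat_lit 5) (nat_lit 175) (nat_lit 193) (nat_lit 202))) (PT.nd (nat_lit 78) (PT.lf (nat_lit 48032) (nat_lit 6) (nat_lit 632) (nat_lit 5) (nat_lit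 176) (nat_lit 193) (nat_lit 201)) (PT.lf (nat_lit 49096) (nat_lit 6) (nat_lit 646) (nat_lit 5) (nat_lit 177) (nat_lit 193) (nat_lit 200))))) (PT.nd (nat_lit 312) (PT.nd (nat_lit 156) (PT.nd (nat_lit 78) (PT.lf (nat_lit 50084) (nat_lit 6) (nat_lit 659) (nat_lit 5) (nat_lit 178) (nat_lit 193) (nat_lit 199)) (PT.lf (nat_lit 50996) (nat_lit 6) (nat_lit 671) (nat_lit 5) (nat_lit 179) (nat_lit 193) (nat_lit 198))) (PT.nd (nat_lit 78) (PT.lf (nat_lit 51832) (nat_lit 6) (nat_lit 682) (nat_lit 5) (nat_lit 180) (nat_lit 193) (nat_lit 197)) (PT.lf (nat_lit 52592) (nat_lit 6) (nat_lit 692) (nat_lit 5) (nat_lit 181) (nat_lit 193) (nat_lit 196)))) (PT.nd (nat_lit 156) (PT.nd (nat_lit 78) (PT.lf (nat_lit 53276) (nat_lit 6) (nat_lit 701) (nat_lit 5) (nat_lit 182) (nat_lit 193) (nat_lit 195)) (PT.lf (nat_lit 53884) (nat_lit 6) (nat_lit 709) (nat_lit 5) (nat_lit 183) (nat_lit 193) (nat_lit 194))) (PT.nd (nat_lit 78) (PT.lf (nat_lit 54416) (nat_lit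 3) (nat_lit 716) (nat_lit 4) (nat_lit 184) (nat_lit 193) (nat_lit 193)) (PT.lf (nat_lit 54796) (nat_lit 6) (nat_lit 721) (nat_lit 4) (nat_lit 185) (nat_lit 193) (nat_lit 192)))))) (PT.nd (nat_lit 624) (PT.nd (nat_lit 312) (PT.nd (nat_lit 156) (PT.nd (nat_lit 78) (PT.lf (nat_lit 55100) (nat_lit 6) (nat_lit 725) (nat_lit 4) (nat_lit 186) (nat_lit 193) (nat_lit 191)) (PT.lf (nat_lit 55328) (nat_lit 6) (nat_lit 728) (nat_lit 4) (nat_lit 187) (nat_lit 193) (nat_lit 190))) (PT.nd (nat_lit 78) (PT.lf (nat_lit 55252) (nat_lit 6) (nat_lit 727) (nat_lit 4) (nat_lit 188) (nat_lit 193) (nat_lit 189)) (PT.lf (nat_lit 55252) (nat_lit 6) (nat_lit 727) (nat_lit 2) (nat_lit 189) (nat_lit 193) (nat_lit 188)))) (PT.nd (nat_lit 156) (PT.nd (nat_lit 78) (PT.lf (nat_lit 55328) (nat_lit 6) (nat_lit 728) (nat_lit 2) (nat_lit 190) (nat_lit 193) (nat_lit 187)) (PT.lf (nat_lit 55100) (nat_lit 6) (nat_lit 725) (nat_lit 2) (nat_lit 191) (nat_lit 193) (nat_lit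 186))) (PT.nd (nat_lit 78) (PT.lf (nat_lit 54796) (nat_lit 6) (nat_lit 721) (nat_lit 2) (nat_lit 192) (nat_lit 193) (nat_lit 185)) (PT.lf (nat_lit 54416) (nat_lit 3) (nat_lit 716) (nat_lit 0) (nat_lit 193) (nat_lit 193) (nat_lit 184))))) (PT.nd (nat_lit 312) (PT.nd (nat_lit 156) (PT.nd (nat_lit 78) (PT.lf (nat_lit 53884) (nat_lit 6) (nat_lit 709) (nat_lit 0) (nat_lit 194) (nat_lit 193) (nat_lit 183)) (PT.lf (nat_lit 53276) (nat_lit 6) (nat_lit 701) (nat_lit 0) (nat_lit 195) (nat_lit 193) (nat_lit 182))) (PT.nd (nat_lit 78) (PT.lf (nat_lit 52592) (nat_lit 6) (nat_lit 692) (nat_lit 0) (nat_lit 196) (nat_lit 193) (nat_lit 181)) (PT.lf (nat_lit 51832) (nat_lit 6) (nat_lit 682) (nat_lit 0) (nat_lit 197) (nat_lit 193) (nat_lit 180)))) (PT.nd (nat_lit 156) (PT.nd (nat_lit 78) (PT.lf (nat_lit 50996) (nat_lit 6) (nat_lit 671) (nat_lit 0) (nat_lit 198) (nat_lit 193) (nat_lit 179)) (PT.lf (nat_lit 50084) (nat_lit 6) (nat_lit 659) (nat_lit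 0) (nat_lit 199) (nat_lit 193) (nat_lit 178))) (PT.nd (nat_lit 78) (PT.lf (nat_lit 49096) (nat_lit 6) (nat_lit 646) (nat_lit 0) (nat_lit 200) (nat_lit 193) (nat_lit 177)) (PT.lf (nat_lit 48032) (nat_lit 6) (nat_lit 632) (nat_lit 0) (nat_lit 201) (nat_lit 193) (nat_lit 176))))))) (PT.nd (nat_lit 56316) (PT.nd (nat_lit 624) (PT.nd (nat_lit 312) (PT.nd (nat_lit 156) (PT.nd (nat_lit 78) (PT.lf (nat_lit 46892) (nat_lit 6) (nat_lit 617) (nat_lit 0) (nat_lit 202) (nat_lit 193) (nat_lit 175)) (PT.lf (nat_lit 45676) (nat_lit 6) (nat_lit 601) (nat_lit 0) (nat_lit 203) (nat_lit 193) (nat_lit 174))) (PT.nd (nat_lit 78) (PT.lf (nat_lit 44384) (nat_lit 6) (nat_lit 584) (nat_lit 0) (nat_lit 204) (nat_lit 193) (nat_lit 173)) (PT.lf (nat_lit 43016) (nat_lit 6) (nat_lit 566) (nat_lit 0) (nat_lit 205) (nat_lit 193) (nat_lit 172)))) (PT.nd (nat_lit 156) (PT.nd (nat_lit 78) (PT.lf (nat_lit 41572) (nat_lit 6) (nat_lit 547) (nat_lit 0) (nat_lit 206)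 (nat_lit 193) (nat_lit 171)) (PT.lf (nat_lit 40052) (nat_lit 6) (nat_lit 527) (nat_lit 0) (nat_lit 207) (nat_lit 193) (nat_lit 170))) (PT.nd (nat_lit 78) (PT.lf (nat_lit 38456) (nat_lit 6) (nat_lit 506) (nat_lit 0) (nat_lit 208) (nat_lit 193) (nat_lit 169)) (PT.lf (nat_lit 36784) (nat_lit 6) (nat_lit 484) (nat_lit 0) (nat_lit 209) (nat_lit 193) (nat_lit 168))))) (PT.nd (nat_lit 312) (PT.nd (nat_lit 156) (PT.nd (nat_lit 78) (PT.lf (nat_lit 35036) (nat_lit 6) (nat_lit 461) (nat_lit 0) (nat_lit 210) (nat_lit 193) (nat_lit 167)) (PT.lf (nat_lit 33212) (nat_lit 6) (nat_lit 437) (nat_lit 0) (nat_lit 211) (nat_lit 193) (nat_lit 166))) (PT.nd (nat_lit 78) (PT.lf (nat_lit 31692) (nat_lit 6) (nat_lit 417) (nat_lit 0) (nat_lit 212) (nat_lit 193) (nat_lit 165)) (PT.lf (nat_lit 30704) (nat_lit 6) (nat_lit 404) (nat_lit 0) (nat_lit 213) (nat_lit 193) (nat_lit 164)))) (PT.nd (nat_lit 55224) (PT.nd (nat_lit 78) (PT.lf (nat_lit 29716) (nat_lit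 6) (nat_lit 391) (nat_lit 0) (nat_lit 214) (nat_lit 193) (nat_lit 163)) (PT.lf (nat_lit 28728) (nat_lit 6) (nat_lit 378) (nat_lit 0) (nat_lit 215) (nat_lit 193) (nat_lit 162))) (PT.nd (nat_lit 78) (PT.lf (nat_lit 27892) (nat_lit 6) (nat_lit 367) (nat_lit 5) (nat_lit 161) (nat_lit 194) (nat_lit 215)) (PT.lf (nat_lit 28804) (nat_lit 6) (nat_lit 379) (nat_lit 5) (nat_lit 162) (nat_lit 194) (nat_lit 214)))))) (PT.nd (nat_lit 624) (PT.nd (nat_lit 312) (PT.nd (nat_lit 156) (PT.nd (nat_lit 78) (PT.lf (nat_lit 29792) (nat_lit 6) (nat_lit 392) (nat_lit 5) (nat_lit 163) (nat_lit 194) (nat_lit 213)) (PT.lf (nat_lit 30780) (nat_lit 6) (nat_lit 405) (nat_lit 5) (nat_lit 164) (nat_lit 194) (nat_lit 212))) (PT.nd (nat_lit 78) (PT.lf (nat_lit 31768) (nat_lit 6) (nat_lit 418) (nat_lit 5) (nat_lit 165) (nat_lit 194) (nat_lit 211)) (PT.lf (nat_lit 33288) (nat_lit 6) (nat_lit 438) (nat_lit 5) (nat_lit 166) (nat_lit 194) (nat_lit 210)))) (PT.nd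 (nat_lit 156) (PT.nd (nat_lit 78) (PT.lf (nat_lit 35112) (nat_lit 6) (nat_lit 462) (nat_lit 5) (nat_lit 167) (nat_lit 194) (nat_lit 209)) (PT.lf (nat_lit 36860) (nat_lit 6) (nat_lit 485) (nat_lit 5) (nat_lit 168) (nat_lit 194) (nat_lit 208))) (PT.nd (nat_lit 78) (PT.lf (nat_lit 38532) (nat_lit 6) (nat_lit 507) (nat_lit 5) (nat_lit 169) (nat_lit 194) (nat_lit 207)) (PT.lf (nat_lit 40128) (nat_lit 6) (nat_lit 528) (nat_lit 5) (nat_lit 170) (nat_lit 194) (nat_lit 206))))) (PT.nd (nat_lit 312) (PT.nd (nat_lit 156) (PT.nd (nat_lit 78) (PT.lf (nat_lit 41648) (nat_lit 6) (nat_lit 548) (nat_lit 5) (nat_lit 171) (nat_lit 194) (nat_lit 205)) (PT.lf (nat_lit 43092) (nat_lit 6) (nat_lit 567) (nat_lit 5) (nat_lit 172) (nat_lit 194) (nat_lit 204))) (PT.nd (nat_lit 78) (PT.lf (nat_lit 44460) (nat_lit 6) (nat_lit 585) (nat_lit 5) (nat_lit 173) (nat_lit 194) (nat_lit 203)) (PT.lf (nat_lit 45752) (nat_lit 6) (nat_lit 602) (nat_lit 5) (nat_lit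 174) (nat_lit 194) (nat_lit 202)))) (PT.nd (nat_lit 156) (PT.nd (nat_lit 78) (PT.lf (nat_lit 46968) (nat_lit 6) (nat_lit 618) (nat_lit 5) (nat_lit 175) (nat_lit 194) (nat_lit 201)) (PT.lf (nat_lit 48108) (nat_lit 6) (nat_lit 633) (nat_lit 5) (nat_lit 176) (nat_lit 194) (nat_lit 200))) (PT.nd (nat_lit 78) (PT.lf (nat_lit 49172) (nat_lit 6) (nat_lit 647) (nat_lit 5) (nat_lit 177) (nat_lit 194) (nat_lit 199)) (PT.lf (nat_lit 50160) (nat_lit 6) (nat_lit 660) (nat_lit 5) (nat_lit 178) (nat_lit 194) (nat_lit 198))))))))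
noncomputable def pc32 : PT := (PT.nd (nat_lit 2496) (PT.nd (nat_lit 1248) (PT.nd (nat_lit 624) (PT.nd (nat_lit 312) (PT.nd (nat_lit 156) (PT.nd (nat_lit 78) (PT.lf (nat_lit 51072) (nat_lit 6) (nat_lit 672) (nat_lit 5) (nat_lit 179) (nat_lit 194) (nat_lit 197)) (PT.lf (nat_lit 51908) (nat_lit 6) (nat_lit 683) (nat_lit 5) (nat_lit 180) (nat_lit 194) (nat_lit 196))) (PT.nd (nat_lit 78) (PT.lf (nat_lit 52668) (nat_lit 6) (nat_lit 693) (nat_lit 5) (nat_lit 181) (nat_lit 194) (nat_lit 195)) (PT.lf (nat_lit 53352) (nat_lit 3) (nat_lit 702) (nat_lit 4) (nat_lit 182) (nat_lit 194) (nat_lit 194)))) (PT.nd (nat_lit 156) (PT.nd (nat_lit 78) (PT.lf (nat_lit 53884) (nat_lit 6) (nat_lit 709) (nat_lit 4) (nat_lit 183) (nat_lit 194) (nat_lit 193)) (PT.lf (nat_lit 54340) (nat_lit 6) (nat_lit 715) (nat_lit 4) (nat_lit 184) (nat_lit 194) (nat_lit 192))) (PT.nd (nat_lit 78) (PT.lf (nat_lit 54720) (nat_lit 6) (nat_lit 720) (nat_lit 4) (nat_lit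 185) (nat_lit 194) (nat_lit 191)) (PT.lf (nat_lit 55024) (nat_lit 6) (nat_lit 724) (nat_lit 4) (nat_lit 186) (nat_lit 194) (nat_lit 190))))) (PT.nd (nat_lit 312) (PT.nd (nat_lit 156) (PT.nd (nat_lit 78) (PT.lf (nat_lit 54948) (nat_lit 6) (nat_lit 723) (nat_lit 4) (nat_lit 187) (nat_lit 194) (nat_lit 189)) (PT.lf (nat_lit 54872) (nat_lit 3) (nat_lit 722) (nat_lit 2) (nat_lit 188) (nat_lit 194) (nat_lit 188))) (PT.nd (nat_lit 78) (PT.lf (nat_lit 54948) (nat_lit 6) (nat_lit 723) (nat_lit 2) (nat_lit 189) (nat_lit 194) (nat_lit 187)) (PT.lf (nat_lit 55024) (nat_lit 6) (nat_lit 724) (nat_lit 2) (nat_lit 190) (nat_lit 194) (nat_lit 186)))) (PT.nd (nat_lit 156) (PT.nd (nat_lit 78) (PT.lf (nat_lit 54720) (nat_lit 6) (nat_lit 720) (nat_lit 2) (nat_lit 191) (nat_lit 194) (nat_lit 185)) (PT.lf (nat_lit 54340) (nat_lit 6) (nat_lit 715) (nat_lit 2) (nat_lit 192) (nat_lit 194) (nat_lit 184))) (PT.nd (nat_lit 78) (PT.lf (nat_lit 53884) (nat_lit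 6) (nat_lit 709) (nat_lit 2) (nat_lit 193) (nat_lit 194) (nat_lit 183)) (PT.lf (nat_lit 53352) (nat_lit 3) (nat_lit 702) (nat_lit 0) (nat_lit 194) (nat_lit 194) (nat_lit 182)))))) (PT.nd (nat_lit 624) (PT.nd (nat_lit 312) (PT.nd (nat_lit 156) (PT.nd (nat_lit 78) (PT.lf (nat_lit 52668) (nat_lit 6) (nat_lit 693) (nat_lit 0) (nat_lit 195) (nat_lit 194) (nat_lit 181)) (PT.lf (nat_lit 51908) (nat_lit 6) (nat_lit 683) (nat_lit 0) (nat_lit 196) (nat_lit 194) (nat_lit 180))) (PT.nd (nat_lit 78) (PT.lf (nat_lit 51072) (nat_lit 6) (nat_lit 672) (nat_lit 0) (nat_lit 197) (nat_lit 194) (nat_lit 179)) (PT.lf (nat_lit 50160) (nat_lit 6) (nat_lit 660) (nat_lit 0) (nat_lit 198) (nat_lit 194) (nat_lit 178)))) (PT.nd (nat_lit 156) (PT.nd (nat_lit 78) (PT.lf (nat_lit 49172) (nat_lit 6) (nat_lit 647) (nat_lit 0) (nat_lit 199) (nat_lit 194) (nat_lit 177)) (PT.lf (nat_lit 48108) (nat_lit 6) (nat_lit 633) (nat_lit 0) (nat_lit 200) (nat_lit 194) (nat_lit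 176))) (PT.nd (nat_lit 78) (PT.lf (nat_lit 46968) (nat_lit 6) (nat_lit 618) (nat_lit 0) (nat_lit 201) (nat_lit 194) (nat_lit 175)) (PT.lf (nat_lit 45752) (nat_lit 6) (nat_lit 602) (nat_lit 0) (nat_lit 202) (nat_lit 194) (nat_lit 174))))) (PT.nd (nat_lit 312) (PT.nd (nat_lit 156) (PT.nd (nat_lit 78) (PT.lf (nat_lit 44460) (nat_lit 6) (nat_lit 585) (nat_lit 0) (nat_lit 203) (nat_lit 194) (nat_lit 173)) (PT.lf (nat_lit 43092) (nat_lit 6) (nat_lit 567) (nat_lit 0) (nat_lit 204) (nat_lit 194) (nat_lit 172))) (PT.nd (nat_lit 78) (PT.lf (nat_lit 41648) (nat_lit 6) (nat_lit 548) (nat_lit 0) (nat_lit 205) (nat_lit 194) (nat_lit 171)) (PT.lf (nat_lit 40128) (nat_lit 6) (nat_lit 528) (nat_lit 0) (nat_lit 206) (nat_lit 194) (nat_lit 170)))) (PT.nd (nat_lit 156) (PT.nd (nat_lit 78) (PT.lf (nat_lit 38532) (nat_lit 6) (nat_lit 507) (nat_lit 0) (nat_lit 207) (nat_lit 194) (nat_lit 169)) (PT.lf (nat_lit 36860) (nat_lit 6) (nat_lit 485) (nat_lit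 0) (nat_lit 208) (nat_lit 194) (nat_lit 168))) (PT.nd (nat_lit 78) (PT.lf (nat_lit 35112) (nat_lit 6) (nat_lit 462) (nat_lit 0) (nat_lit 209) (nat_lit 194) (nat_lit 167)) (PT.lf (nat_lit 33288) (nat_lit 6) (nat_lit 438) (nat_lit 0) (nat_lit 210) (nat_lit 194) (nat_lit 166))))))) (PT.nd (nat_lit 56238) (PT.nd (nat_lit 55614) (PT.nd (nat_lit 312) (PT.nd (nat_lit 156) (PT.nd (nat_lit 78) (PT.lf (nat_lit 31768) (nat_lit 6) (nat_lit 418) (nat_lit 0) (nat_lit 211) (nat_lit 194) (nat_lit 165)) (PT.lf (nat_lit 30780) (nat_lit 6) (nat_lit 405) (nat_lit 0) (nat_lit 212) (nat_lit 194) (nat_lit 164))) (PT.nd (nat_lit 78) (PT.lf (nat_lit 29792) (nat_lit 6) (nat_lit 392) (nat_lit 0) (nat_lit 213) (nat_lit 194) (nat_lit 163)) (PT.lf (nat_lit 28804) (nat_lit 6) (nat_lit 379) (nat_lit 0) (nat_lit 214) (nat_lit 194) (nat_lit 162)))) (PT.nd (nat_lit 55146) (PT.nd (nat_lit 55068) (PT.lf (nat_lit 27892) (nat_lit 6) (nat_lit 367) (nat_lit 0) (nat_lit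 215) (nat_lit 194) (nat_lit 161)) (PT.lf (nat_lit 27056) (nat_lit 6) (nat_lit 356) (nat_lit 5) (nat_lit 160) (nat_lit 195) (nat_lit 215))) (PT.nd (nat_lit 78) (PT.lf (nat_lit 27968) (nat_lit 6) (nat_lit 368) (nat_lit 5) (nat_lit 161) (nat_lit 195) (nat_lit 214)) (PT.lf (nat_lit 28880) (nat_lit 6) (nat_lit 380) (nat_lit 5) (nat_lit 162) (nat_lit 195) (nat_lit 213))))) (PT.nd (nat_lit 312) (PT.nd (nat_lit 156) (PT.nd (nat_lit 78) (PT.lf (nat_lit 29868) (nat_lit 6) (nat_lit 393) (nat_lit 5) (nat_lit 163) (nat_lit 195) (nat_lit 212)) (PT.lf (nat_lit 30856) (nat_lit 6) (nat_lit 406) (nat_lit 5) (nat_lit 164) (nat_lit 195) (nat_lit 211))) (PT.nd (nat_lit 78) (PT.lf (nat_lit 31844) (nat_lit 6) (nat_lit 419) (nat_lit 5) (nat_lit 165) (nat_lit 195) (nat_lit 210)) (PT.lf (nat_lit 33364) (nat_lit 6) (nat_lit 439) (nat_lit 5) (nat_lit 166) (nat_lit 195) (nat_lit 209)))) (PT.nd (nat_lit 156) (PT.nd (nat_lit 78) (PT.lf (nat_lit 35188) (nat_lit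 6) (nat_lit 463) (nat_lit 5) (nat_lit 167) (nat_lit 195) (nat_lit 208)) (PT.lf (nat_lit 36936) (nat_lit 6) (nat_lit 486) (nat_lit 5) (nat_lit 168) (nat_lit 195) (nat_lit 207))) (PT.nd (nat_lit 78) (PT.lf (nat_lit 38608) (nat_lit 6) (nat_lit 508) (nat_lit 5) (nat_lit 169) (nat_lit 195) (nat_lit 206)) (PT.lf (nat_lit 40204) (nat_lit 6) (nat_lit 529) (nat_lit 5) (nat_lit 170) (nat_lit 195) (nat_lit 205)))))) (PT.nd (nat_lit 624) (PT.nd (nat_lit 312) (PT.nd (nat_lit 156) (PT.nd (nat_lit 78) (PT.lf (nat_lit 41724) (nat_lit 6) (nat_lit 549) (nat_lit 5) (nat_lit 171) (nat_lit 195) (nat_lit 204)) (PT.lf (nat_lit 43168) (nat_lit 6) (nat_lit 568) (nat_lit 5) (nat_lit 172) (nat_lit 195) (nat_lit 203))) (PT.nd (nat_lit 78) (PT.lf (nat_lit 44536) (nat_lit 6) (nat_lit 586) (nat_lit 5) (nat_lit 173) (nat_lit 195) (nat_lit 202)) (PT.lf (nat_lit 45828) (nat_lit 6) (nat_lit 603) (nat_lit 5) (nat_lit 174) (nat_lit 195) (nat_lit 201)))) (PT.nd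 (nat_lit 156) (PT.nd (nat_lit 78) (PT.lf (nat_lit 47044) (nat_lit 6) (nat_lit 619) (nat_lit 5) (nat_lit 175) (nat_lit 195) (nat_lit 200)) (PT.lf (nat_lit 48184) (nat_lit 6) (nat_lit 634) (nat_lit 5) (nat_lit 176) (nat_lit 195) (nat_lit 199))) (PT.nd (nat_lit 78) (PT.lf (nat_lit 49248) (nat_lit 6) (nat_lit 648) (nat_lit 5) (nat_lit 177) (nat_lit 195) (nat_lit 198)) (PT.lf (nat_lit 50236) (nat_lit 6) (nat_lit 661) (nat_lit 5) (nat_lit 178) (nat_lit 195) (nat_lit 197))))) (PT.nd (nat_lit 312) (PT.nd (nat_lit 156) (PT.nd (nat_lit 78) (PT.lf (nat_lit 51148) (nat_lit 6) (nat_lit 673) (nat_lit 5) (nat_lit 179) (nat_lit 195) (nat_lit 196)) (PT.lf (nat_lit 51984) (nat_lit 3) (nat_lit 684) (nat_lit 4) (nat_lit 180) (nat_lit 195) (nat_lit 195))) (PT.nd (nat_lit 78) (PT.lf (nat_lit 52668) (nat_lit 6) (nat_lit 693) (nat_lit 4) (nat_lit 181) (nat_lit 195) (nat_lit 194)) (PT.lf (nat_lit 53276) (nat_lit 6) (nat_lit 701) (nat_lit 4) (nat_lit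 182) (nat_lit 195) (nat_lit 193)))) (PT.nd (nat_lit 156) (PT.nd (nat_lit 78) (PT.lf (nat_lit 53808) (nat_lit 6) (nat_lit 708) (nat_lit 4) (nat_lit 183) (nat_lit 195) (nat_lit 192)) (PT.lf (nat_lit 54264) (nat_lit 6) (nat_lit 714) (nat_lit 4) (nat_lit 184) (nat_lit 195) (nat_lit 191))) (PT.nd (nat_lit 78) (PT.lf (nat_lit 54644) (nat_lit 6) (nat_lit 719) (nat_lit 4) (nat_lit 185) (nat_lit 195) (nat_lit 190)) (PT.lf (nat_lit 54568) (nat_lit 6) (nat_lit 718) (nat_lit 4) (nat_lit 186) (nat_lit 195) (nat_lit 189))))))))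
noncomputable def pc33 : PT := (PT.nd (nat_lit 57330) (PT.nd (nat_lit 1248) (PT.nd (nat_lit 624) (PT.nd (nat_lit 312) (PT.nd (nat_lit 156) (PT.nd (nat_lit 78) (PT.lf (nat_lit 54492) (nat_lit 6) (nat_lit 717) (nat_lit 4) (nat_lit 187) (nat_lit 195) (nat_lit 188)) (PT.lf (nat_lit 54492) (nat_lit 6) (nat_lit 717) (nat_lit 2) (nat_lit 188) (nat_lit 195) (nat_lit 187))) (PT.nd (nat_lit 78) (PT.lf (nat_lit 54568) (nat_lit 6) (nat_lit 718) (nat_lit 2) (nat_lit 189) (nat_lit 195) (nat_lit 186)) (PT.lf (nat_lit 54644) (nat_lit 6) (nat_lit 719) (nat_lit 2) (nat_lit 190) (nat_lit 195) (nat_lit 185)))) (PT.nd (nat_lit 156) (PT.nd (nat_lit 78) (PT.lf (nat_lit 54264) (nat_lit 6) (nat_lit 714) (nat_lit 2) (nat_lit 191) (nat_lit 195) (nat_lit 184)) (PT.lf (nat_lit 53808) (nat_lit 6) (nat_lit 708) (nat_lit 2) (nat_lit 192) (nat_lit 195) (nat_lit 183))) (PT.nd (nat_lit 78) (PT.lf (nat_lit 53276) (nat_lit 6) (nat_lit 701) (nat_lit 2) (nat_lit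 193) (nat_lit 195) (nat_lit 182)) (PT.lf (nat_lit 52668) (nat_lit 6) (nat_lit 693) (nat_lit 2) (nat_lit 194) (nat_lit 195) (nat_lit 181))))) (PT.nd (nat_lit 312) (PT.nd (nat_lit 156) (PT.nd (nat_lit 78) (PT.lf (nat_lit 51984) (nat_lit 3) (nat_lit 684) (nat_lit 0) (nat_lit 195) (nat_lit 195) (nat_lit 180)) (PT.lf (nat_lit 51148) (nat_lit 6) (nat_lit 673) (nat_lit 0) (nat_lit 196) (nat_lit 195) (nat_lit 179))) (PT.nd (nat_lit 78) (PT.lf (nat_lit 50236) (nat_lit 6) (nat_lit 661) (nat_lit 0) (nat_lit 197) (nat_lit 195) (nat_lit 178)) (PT.lf (nat_lit 49248) (nat_lit 6) (nat_lit 648) (nat_lit 0) (nat_lit 198) (nat_lit 195) (nat_lit 177)))) (PT.nd (nat_lit 156) (PT.nd (nat_lit 78) (PT.lf (nat_lit 48184) (nat_lit 6) (nat_lit 634) (nat_lit 0) (nat_lit 199) (nat_lit 195) (nat_lit 176)) (PT.lf (nat_lit 47044) (nat_lit 6) (nat_lit 619) (nat_lit 0) (nat_lit 200) (nat_lit 195) (nat_lit 175))) (PT.nd (nat_lit 78) (PT.lf (nat_lit 45828) (nat_lit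 6) (nat_lit 603) (nat_lit 0) (nat_lit 201) (nat_lit 195) (nat_lit 174)) (PT.lf (nat_lit 44536) (nat_lit 6) (nat_lit 586) (nat_lit 0) (nat_lit 202) (nat_lit 195) (nat_lit 173)))))) (PT.nd (nat_lit 624) (PT.nd (nat_lit 312) (PT.nd (nat_lit 156) (PT.nd (nat_lit 78) (PT.lf (nat_lit 43168) (nat_lit 6) (nat_lit 568) (nat_lit 0) (nat_lit 203) (nat_lit 195) (nat_lit 172)) (PT.lf (nat_lit 41724) (nat_lit 6) (nat_lit 549) (nat_lit 0) (nat_lit 204) (nat_lit 195) (nat_lit 171))) (PT.nd (nat_lit 78) (PT.lf (nat_lit 40204) (nat_lit 6) (nat_lit 529) (nat_lit 0) (nat_lit 205) (nat_lit 195) (nat_lit 170)) (PT.lf (nat_lit 38608) (nat_lit 6) (nat_lit 508) (nat_lit 0) (nat_lit 206) (nat_lit 195) (nat_lit 169)))) (PT.nd (nat_lit 156) (PT.nd (nat_lit 78) (PT.lf (nat_lit 36936) (nat_lit 6) (nat_lit 486) (nat_lit 0) (nat_lit 207) (nat_lit 195) (nat_lit 168)) (PT.lf (nat_lit 35188) (nat_lit 6) (nat_lit 463) (nat_lit 0) (nat_lit 208) (nat_lit 195) (nat_lit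 167))) (PT.nd (nat_lit 78) (PT.lf (nat_lit 33364) (nat_lit 6) (nat_lit 439) (nat_lit 0) (nat_lit 209) (nat_lit 195) (nat_lit 166)) (PT.lf (nat_lit 31844) (nat_lit 6) (nat_lit 419) (nat_lit 0) (nat_lit 210) (nat_lit 195) (nat_lit 165))))) (PT.nd (nat_lit 312) (PT.nd (nat_lit 156) (PT.nd (nat_lit 78) (PT.lf (nat_lit 30856) (nat_lit 6) (nat_lit 406) (nat_lit 0) (nat_lit 211) (nat_lit 195) (nat_lit 164)) (PT.lf (nat_lit 29868) (nat_lit 6) (nat_lit 393) (nat_lit 0) (nat_lit 212) (nat_lit 195) (nat_lit 163))) (PT.nd (nat_lit 78) (PT.lf (nat_lit 28880) (nat_lit 6) (nat_lit 380) (nat_lit 0) (nat_lit 213) (nat_lit 195) (nat_lit 162)) (PT.lf (nat_lit 27968) (nat_lit 6) (nat_lit 368) (nat_lit 0) (nat_lit 214) (nat_lit 195) (nat_lit 161)))) (PT.nd (nat_lit 54990) (PT.nd (nat_lit 54912) (PT.lf (nat_lit 27056) (nat_lit 6) (nat_lit 356) (nat_lit 0) (nat_lit 215) (nat_lit 195) (nat_lit 160)) (PT.lf (nat_lit 25460) (nat_lit 6) (nat_lit 335)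 (nat_lit 5) (nat_lit 158) (nat_lit 196) (nat_lit 216))) (PT.nd (nat_lit 78) (PT.lf (nat_lit 26296) (nat_lit 6) (nat_lit 346) (nat_lit 5) (nat_lit 159) (nat_lit 196) (nat_lit 215)) (PT.lf (nat_lit 27132) (nat_lit 6) (nat_lit 357) (nat_lit 5) (nat_lit 160) (nat_lit 196) (nat_lit 214))))))) (PT.nd (nat_lit 1248) (PT.nd (nat_lit 624) (PT.nd (nat_lit 312) (PT.nd (nat_lit 156) (PT.nd (nat_lit 78) (PT.lf (nat_lit 28044) (nat_lit 6) (nat_lit 369) (nat_lit 5) (nat_lit 161) (nat_lit 196) (nat_lit 213)) (PT.lf (nat_lit 28956) (nat_lit 6) (nat_lit 381) (nat_lit 5) (nat_lit 162) (nat_lit 196) (nat_lit 212))) (PT.nd (nat_lit 78) (PT.lf (nat_lit 29944) (nat_lit 6) (nat_lit 394) (nat_lit 5) (nat_lit 163) (nat_lit 196) (nat_lit 211)) (PT.lf (nat_lit 30932) (nat_lit 6) (nat_lit 407) (nat_lit 5) (nat_lit 164) (nat_lit 196) (nat_lit 210)))) (PT.nd (nat_lit 156) (PT.nd (nat_lit 78) (PT.lf (nat_lit 31920) (nat_lit 6) (nat_lit 420) (nat_lit 5) (nat_lit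 165) (nat_lit 196) (nat_lit 209)) (PT.lf (nat_lit 33440) (nat_lit 6) (nat_lit 440) (nat_lit 5) (nat_lit 166) (nat_lit 196) (nat_lit 208))) (PT.nd (nat_lit 78) (PT.lf (nat_lit 35264) (nat_lit 6) (nat_lit 464) (nat_lit 5) (nat_lit 167) (nat_lit 196) (nat_lit 207)) (PT.lf (nat_lit 37012) (nat_lit 6) (nat_lit 487) (nat_lit 5) (nat_lit 168) (nat_lit 196) (nat_lit 206))))) (PT.nd (nat_lit 312) (PT.nd (nat_lit 156) (PT.nd (nat_lit 78) (PT.lf (nat_lit 38684) (nat_lit 6) (nat_lit 509) (nat_lit 5) (nat_lit 169) (nat_lit 196) (nat_lit 205)) (PT.lf (nat_lit 40280) (nat_lit 6) (nat_lit 530) (nat_lit 5) (nat_lit 170) (nat_lit 196) (nat_lit 204))) (PT.nd (nat_lit 78) (PT.lf (nat_lit 41800) (nat_lit 6) (nat_lit 550) (nat_lit 5) (nat_lit 171) (nat_lit 196) (nat_lit 203)) (PT.lf (nat_lit 43244) (nat_lit 6) (nat_lit 569) (nat_lit 5) (nat_lit 172) (nat_lit 196) (nat_lit 202)))) (PT.nd (nat_lit 156) (PT.nd (nat_lit 78) (PT.lf (nat_lit 44612) (nat_lit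 6) (nat_lit 587) (nat_lit 5) (nat_lit 173) (nat_lit 196) (nat_lit 201)) (PT.lf (nat_lit 45904) (nat_lit 6) (nat_lit 604) (nat_lit 5) (nat_lit 174) (nat_lit 196) (nat_lit 200))) (PT.nd (nat_lit 78) (PT.lf (nat_lit 47120) (nat_lit 6) (nat_lit 620) (nat_lit 5) (nat_lit 175) (nat_lit 196) (nat_lit 199)) (PT.lf (nat_lit 48260) (nat_lit 6) (nat_lit 635) (nat_lit 5) (nat_lit 176) (nat_lit 196) (nat_lit 198)))))) (PT.nd (nat_lit 624) (PT.nd (nat_lit 312) (PT.nd (nat_lit 156) (PT.nd (nat_lit 78) (PT.lf (nat_lit 49324) (nat_lit 6) (nat_lit 649) (nat_lit 5) (nat_lit 177) (nat_lit 196) (nat_lit 197)) (PT.lf (nat_lit 50312) (nat_lit 3) (nat_lit 662) (nat_lit 4) (nat_lit 178) (nat_lit 196) (nat_lit 196))) (PT.nd (nat_lit 78) (PT.lf (nat_lit 51148) (nat_lit 6) (nat_lit 673) (nat_lit 4) (nat_lit 179) (nat_lit 196) (nat_lit 195)) (PT.lf (nat_lit 51908) (nat_lit 6) (nat_lit 683) (nat_lit 4) (nat_lit 180) (nat_lit 196) (nat_lit 194)))) (PT.nd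 (nat_lit 156) (PT.nd (nat_lit 78) (PT.lf (nat_lit 52592) (nat_lit 6) (nat_lit 692) (nat_lit 4) (nat_lit 181) (nat_lit 196) (nat_lit 193)) (PT.lf (nat_lit 53200) (nat_lit 6) (nat_lit 700) (nat_lit 4) (nat_lit 182) (nat_lit 196) (nat_lit 192))) (PT.nd (nat_lit 78) (PT.lf (nat_lit 53732) (nat_lit 6) (nat_lit 707) (nat_lit 4) (nat_lit 183) (nat_lit 196) (nat_lit 191)) (PT.lf (nat_lit 54188) (nat_lit 6) (nat_lit 713) (nat_lit 4) (nat_lit 184) (nat_lit 196) (nat_lit 190))))) (PT.nd (nat_lit 312) (PT.nd (nat_lit 156) (PT.nd (nat_lit 78) (PT.lf (nat_lit 54112) (nat_lit 6) (nat_lit 712) (nat_lit 4) (nat_lit 185) (nat_lit 196) (nat_lit 189)) (PT.lf (nat_lit 54036) (nat_lit 6) (nat_lit 711) (nat_lit 4) (nat_lit 186) (nat_lit 196) (nat_lit 188))) (PT.nd (nat_lit 78) (PT.lf (nat_lit 53960) (nat_lit 3) (nat_lit 710) (nat_lit 2) (nat_lit 187) (nat_lit 196) (nat_lit 187)) (PT.lf (nat_lit 54036) (nat_lit 6) (nat_lit 711) (nat_lit 2) (nat_lit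 188) (nat_lit 196) (nat_lit 186)))) (PT.nd (nat_lit 156) (PT.nd (nat_lit 78) (PT.lf (nat_lit 54112) (nat_lit 6) (nat_lit 712) (nat_lit 2) (nat_lit 189) (nat_lit 196) (nat_lit 185)) (PT.lf (nat_lit 54188) (nat_lit 6) (nat_lit 713) (nat_lit 2) (nat_lit 190) (nat_lit 196) (nat_lit 184))) (PT.nd (nat_lit 78) (PT.lf (nat_lit 53732) (nat_lit 6) (nat_lit 707) (nat_lit 2) (nat_lit 191) (nat_lit 196) (nat_lit 183)) (PT.lf (nat_lit 53200) (nat_lit 6) (nat_lit 700) (nat_lit 2) (nat_lit 192) (nat_lit 196) (nat_lit 182))))))))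
noncomputable def pc34 : PT := (PT.nd (nat_lit 1248) (PT.nd (nat_lit 624) (PT.nd (nat_lit 312) (PT.nd (nat_lit 156) (PT.nd (nat_lit 78) (PT.lf (nat_lit 52592) (nat_lit 6) (nat_lit 692) (nat_lit 2) (nat_lit 193) (nat_lit 196) (nat_lit 181)) (PT.lf (nat_lit 51908) (nat_lit 6) (nat_lit 683) (nat_lit 2) (nat_lit 194) (nat_lit 196) (nat_lit 180))) (PT.nd (nat_lit 78) (PT.lf (nat_lit 51148) (nat_lit 6) (nat_lit 673) (nat_lit 2) (nat_lit 195) (nat_lit 196) (nat_lit 179)) (PT.lf (nat_lit 50312) (nat_lit 3) (nat_lit 662) (nat_lit 0) (nat_lit 196) (nat_lit 196) (nat_lit 178)))) (PT.nd (nat_lit 156) (PT.nd (nat_lit 78) (PT.lf (nat_lit 49324) (nat_lit 6) (nat_lit 649) (nat_lit 0) (nat_lit 197) (nat_lit 196) (nat_lit 177)) (PT.lf (nat_lit 48260) (nat_lit 6) (nat_lit 635) (nat_lit 0) (nat_lit 198) (nat_lit 196) (nat_lit 176))) (PT.nd (nat_lit 78) (PT.lf (nat_lit 47120) (nat_lit 6) (nat_lit 620) (nat_lit 0) (nat_lit 199) (nat_lit 196) (nat_lit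 175)) (PT.lf (nat_lit 45904) (nat_lit 6) (nat_lit 604) (nat_lit 0) (nat_lit 200) (nat_lit 196) (nat_lit 174))))) (PT.nd (nat_lit 312) (PT.nd (nat_lit 156) (PT.nd (nat_lit 78) (PT.lf (nat_lit 44612) (nat_lit 6) (nat_lit 587) (nat_lit 0) (nat_lit 201) (nat_lit 196) (nat_lit 173)) (PT.lf (nat_lit 43244) (nat_lit 6) (nat_lit 569) (nat_lit 0) (nat_lit 202) (nat_lit 196) (nat_lit 172))) (PT.nd (nat_lit 78) (PT.lf (nat_lit 41800) (nat_lit 6) (nat_lit 550) (nat_lit 0) (nat_lit 203) (nat_lit 196) (nat_lit 171)) (PT.lf (nat_lit 40280) (nat_lit 6) (nat_lit 530) (nat_lit 0) (nat_lit 204) (nat_lit 196) (nat_lit 170)))) (PT.nd (nat_lit 156) (PT.nd (nat_lit 78) (PT.lf (nat_lit 38684) (nat_lit 6) (nat_lit 509) (nat_lit 0) (nat_lit 205) (nat_lit 196) (nat_lit 169)) (PT.lf (nat_lit 37012) (nat_lit 6) (nat_lit 487) (nat_lit 0) (nat_lit 206) (nat_lit 196) (nat_lit 168))) (PT.nd (nat_lit 78) (PT.lf (nat_lit 35264) (nat_lit 6) (nat_lit 464) (nat_lit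 0) (nat_lit 207) (nat_lit 196) (nat_lit 167)) (PT.lf (nat_lit 33440) (nat_lit 6) (nat_lit 440) (nat_lit 0) (nat_lit 208) (nat_lit 196) (nat_lit 166)))))) (PT.nd (nat_lit 55302) (PT.nd (nat_lit 312) (PT.nd (nat_lit 156) (PT.nd (nat_lit 78) (PT.lf (nat_lit 31920) (nat_lit 6) (nat_lit 420) (nat_lit 0) (nat_lit 209) (nat_lit 196) (nat_lit 165)) (PT.lf (nat_lit 30932) (nat_lit 6) (nat_lit 407) (nat_lit 0) (nat_lit 210) (nat_lit 196) (nat_lit 164))) (PT.nd (nat_lit 78) (PT.lf (nat_lit 29944) (nat_lit 6) (nat_lit 394) (nat_lit 0) (nat_lit 211) (nat_lit 196) (nat_lit 163)) (PT.lf (nat_lit 28956) (nat_lit 6) (nat_lit 381) (nat_lit 0) (nat_lit 212) (nat_lit 196) (nat_lit 162)))) (PT.nd (nat_lit 156) (PT.nd (nat_lit 78) (PT.lf (nat_lit 28044) (nat_lit 6) (nat_lit 369) (nat_lit 0) (nat_lit 213) (nat_lit 196) (nat_lit 161)) (PT.lf (nat_lit 27132) (nat_lit 6) (nat_lit 357) (nat_lit 0) (nat_lit 214) (nat_lit 196) (nat_lit 160))) (PT.nd (nat_lit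 78) (PT.lf (nat_lit 26296) (nat_lit 6) (nat_lit 346) (nat_lit 0) (nat_lit 215) (nat_lit 196) (nat_lit 159)) (PT.lf (nat_lit 25460) (nat_lit 6) (nat_lit 335) (nat_lit 0) (nat_lit 216) (nat_lit 196) (nat_lit 158))))) (PT.nd (nat_lit 312) (PT.nd (nat_lit 156) (PT.nd (nat_lit 78) (PT.lf (nat_lit 24700) (nat_lit 6) (nat_lit 325) (nat_lit 5) (nat_lit 157) (nat_lit 197) (nat_lit 216)) (PT.lf (nat_lit 25536) (nat_lit 6) (nat_lit 336) (nat_lit 5) (nat_lit 158) (nat_lit 197) (nat_lit 215))) (PT.nd (nat_lit 78) (PT.lf (nat_lit 26372) (nat_lit 6) (nat_lit 347) (nat_lit 5) (nat_lit 159) (nat_lit 197) (nat_lit 214)) (PT.lf (nat_lit 27208) (nat_lit 6) (nat_lit 358) (nat_lit 5) (nat_lit 160) (nat_lit 197) (nat_lit 213)))) (PT.nd (nat_lit 156) (PT.nd (nat_lit 78) (PT.lf (nat_lit 28120) (nat_lit 6) (nat_lit 370) (nat_lit 5) (nat_lit 161) (nat_lit 197) (nat_lit 212)) (PT.lf (nat_lit 29032) (nat_lit 6) (nat_lit 382) (nat_lit 5) (nat_lit 162) (nat_lit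 197) (nat_lit 211))) (PT.nd (nat_lit 78) (PT.lf (nat_lit 30020) (nat_lit 6) (nat_lit 395) (nat_lit 5) (nat_lit 163) (nat_lit 197) (nat_lit 210)) (PT.lf (nat_lit 31008) (nat_lit 6) (nat_lit 408) (nat_lit 5) (nat_lit 164) (nat_lit 197) (nat_lit 209)))))))
noncomputable def pc35 : PT := (PT.nd (nat_lit 1248) (PT.nd (nat_lit 624) (PT.nd (nat_lit 312) (PT.nd (nat_lit 156) (PT.nd (nat_lit 78) (PT.lf (nat_lit 31996) (nat_lit 6) (nat_lit 421) (nat_lit 5) (nat_lit 165) (nat_lit 197) (nat_lit 208)) (PT.lf (nat_lit 33516) (nat_lit 6) (nat_lit 441) (nat_lit 5) (nat_lit 166) (nat_lit 197) (nat_lit 207))) (PT.nd (nat_lit 78) (PT.lf (nat_lit 35340) (nat_lit 6) (nat_lit 465) (nat_lit 5) (nat_lit 167) (nat_lit 197) (nat_lit 206)) (PT.lf (nat_lit 37088) (nat_lit 6) (nat_lit 488) (nat_lit 5) (nat_lit 168) (nat_lit 197) (nat_lit 205)))) (PT.nd (nat_lit 156) (PT.nd (nat_lit 78) (PT.lf (nat_lit 38760) (nat_lit 6) (nat_lit 510) (nat_lit 5) (nat_lit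 169) (nat_lit 197) (nat_lit 204)) (PT.lf (nat_lit 40356) (nat_lit 6) (nat_lit 531) (nat_lit 5) (nat_lit 170) (nat_lit 197) (nat_lit 203))) (PT.nd (nat_lit 78) (PT.lf (nat_lit 41876) (nat_lit 6) (nat_lit 551) (nat_lit 5) (nat_lit 171) (nat_lit 197) (nat_lit 202)) (PT.lf (nat_lit 43320) (nat_lit 6) (nat_lit 570) (nat_lit 5) (nat_lit 172) (nat_lit 197) (nat_lit 201))))) (PT.nd (nat_lit 312) (PT.nd (nat_lit 156) (PT.nd (nat_lit 78) (PT.lf (nat_lit 44688) (nat_lit 6) (nat_lit 588) (nat_lit 5) (nat_lit 173) (nat_lit 197) (nat_lit 200)) (PT.lf (nat_lit 45980) (nat_lit 6) (nat_lit 605) (nat_lit 5) (nat_lit 174) (nat_lit 197) (nat_lit 199))) (PT.nd (nat_lit 78) (PT.lf (nat_lit 47196) (nat_lit 6) (nat_lit 621) (nat_lit 5) (nat_lit 175) (nat_lit 197) (nat_lit 198)) (PT.lf (nat_lit 48336) (nat_lit 3) (nat_lit 636) (nat_lit 4) (nat_lit 176) (nat_lit 197) (nat_lit 197)))) (PT.nd (nat_lit 156) (PT.nd (nat_lit 78) (PT.lf (nat_lit 49324) (nat_lit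 6) (nat_lit 649) (nat_lit 4) (nat_lit 177) (nat_lit 197) (nat_lit 196)) (PT.lf (nat_lit 50236) (nat_lit 6) (nat_lit 661) (nat_lit 4) (nat_lit 178) (nat_lit 197) (nat_lit 195))) (PT.nd (nat_lit 78) (PT.lf (nat_lit 51072) (nat_lit 6) (nat_lit 672) (nat_lit 4) (nat_lit 179) (nat_lit 197) (nat_lit 194)) (PT.lf (nat_lit 51832) (nat_lit 6) (nat_lit 682) (nat_lit 4) (nat_lit 180) (nat_lit 197) (nat_lit 193)))))) (PT.nd (nat_lit 624) (PT.nd (nat_lit 312) (PT.nd (nat_lit 156) (PT.nd (nat_lit 78) (PT.lf (nat_lit 52516) (nat_lit 6) (nat_lit 691) (nat_lit 4) (nat_lit 181) (nat_lit 197) (nat_lit 192)) (PT.lf (nat_lit 53124) (nat_lit 6) (nat_lit 699) (nat_lit 4) (nat_lit 182) (nat_lit 197) (nat_lit 191))) (PT.nd (nat_lit 78) (PT.lf (nat_lit 53656) (nat_lit 6) (nat_lit 706) (nat_lit 4) (nat_lit 183) (nat_lit 197) (nat_lit 190)) (PT.lf (nat_lit 53580) (nat_lit 6) (nat_lit 705) (nat_lit 4) (nat_lit 184) (nat_lit 197) (nat_lit 189)))) (PT.nd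 (nat_lit 156) (PT.nd (nat_lit 78) (PT.lf (nat_lit 53504) (nat_lit 6) (nat_lit 704) (nat_lit 4) (nat_lit 185) (nat_lit 197) (nat_lit 188)) (PT.lf (nat_lit 53428) (nat_lit 6) (nat_lit 703) (nat_lit 4) (nat_lit 186) (nat_lit 197) (nat_lit 187))) (PT.nd (nat_lit 78) (PT.lf (nat_lit 53428) (nat_lit 6) (nat_lit 703) (nat_lit 2) (nat_lit 187) (nat_lit 197) (nat_lit 186)) (PT.lf (nat_lit 53504) (nat_lit 6) (nat_lit 704) (nat_lit 2) (nat_lit 188) (nat_lit 197) (nat_lit 185))))) (PT.nd (nat_lit 312) (PT.nd (nat_lit 156) (PT.nd (nat_lit 78) (PT.lf (nat_lit 53580) (nat_lit 6) (nat_lit 705) (nat_lit 2) (nat_lit 189) (nat_lit 197) (nat_lit 184)) (PT.lf (nat_lit 53656) (nat_lit 6) (nat_lit 706) (nat_lit 2) (nat_lit 190) (nat_lit 197) (nat_lit 183))) (PT.nd (nat_lit 78) (PT.lf (nat_lit 53124) (nat_lit 6) (nat_lit 699) (nat_lit 2) (nat_lit 191) (nat_lit 197) (nat_lit 182)) (PT.lf (nat_lit 52516) (nat_lit 6) (nat_lit 691) (nat_lit 2) (nat_lit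 192) (nat_lit 197) (nat_lit 181)))) (PT.nd (nat_lit 156) (PT.nd (nat_lit 78) (PT.lf (nat_lit 51832) (nat_lit 6) (nat_lit 682) (nat_lit 2) (nat_lit 193) (nat_lit 197) (nat_lit 180)) (PT.lf (nat_lit 51072) (nat_lit 6) (nat_lit 672) (nat_lit 2) (nat_lit 194) (nat_lit 197) (nat_lit 179))) (PT.nd (nat_lit 78) (PT.lf (nat_lit 50236) (nat_lit 6) (nat_lit 661) (nat_lit 2) (nat_lit 195) (nat_lit 197) (nat_lit 178)) (PT.nd (nat_lit 78) (PT.lf (nat_lit 49324) (nat_lit 6) (nat_lit 649) (nat_lit 2) (nat_lit 196) (nat_lit 197) (nat_lit 177)) (PT.lf (nat_lit 48336) (nat_lit 3) (nat_lit 636) (nat_lit 0) (nat_lit 197) (nat_lit 197) (nat_lit 176))))))))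
noncomputable def pc36 : PT := (PT.nd (nat_lit 57096) (PT.nd (nat_lit 1248) (PT.nd (nat_lit 624) (PT.nd (nat_lit 312) (PT.nd (nat_lit 156) (PT.nd (nat_lit 78) (PT.lf (nat_lit 47196) (nat_lit 6) (nat_lit 621) (nat_lit 0) (nat_lit 198) (nat_lit 197) (nat_lit 175)) (PT.lf (nat_lit 45980) (nat_lit 6) (nat_lit 605) (nat_lit 0) (nat_lit 199) (nat_lit 197) (nat_lit 174))) (PT.nd (nat_lit 78) (PT.lf (nat_lit 44688) (nat_lit 6) (nat_lit 588) (nat_lit 0) (nat_lit 200) (nat_lit 197) (nat_lit 173)) (PT.lf (nat_lit 43320) (nat_lit 6) (nat_lit 570) (nat_lit 0) (nat_lit 201) (nat_lit 197) (nat_lit 172)))) (PT.nd (nat_lit 156) (PT.nd (nat_lit 78) (PT.lf (nat_lit 41876) (nat_lit 6) (nat_lit 551) (nat_lit 0) (nat_lit 202) (nat_lit 197) (nat_lit 171)) (PT.lf (nat_lit 40356) (nat_lit 6) (nat_lit 531) (nat_lit 0) (nat_lit 203) (nat_lit 197) (nat_lit 170))) (PT.nd (nat_lit 78) (PT.lf (nat_lit 38760) (nat_lit 6) (nat_lit 510) (nat_lit 0) (nat_lit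 204) (nat_lit 197) (nat_lit 169)) (PT.lf (nat_lit 37088) (nat_lit 6) (nat_lit 488) (nat_lit 0) (nat_lit 205) (nat_lit 197) (nat_lit 168))))) (PT.nd (nat_lit 312) (PT.nd (nat_lit 156) (PT.nd (nat_lit 78) (PT.lf (nat_lit 35340) (nat_lit 6) (nat_lit 465) (nat_lit 0) (nat_lit 206) (nat_lit 197) (nat_lit 167)) (PT.lf (nat_lit 33516) (nat_lit 6) (nat_lit 441) (nat_lit 0) (nat_lit 207) (nat_lit 197) (nat_lit 166))) (PT.nd (nat_lit 78) (PT.lf (nat_lit 31996) (nat_lit 6) (nat_lit 421) (nat_lit 0) (nat_lit 208) (nat_lit 197) (nat_lit 165)) (PT.lf (nat_lit 31008) (nat_lit 6) (nat_lit 408) (nat_lit 0) (nat_lit 209) (nat_lit 197) (nat_lit 164)))) (PT.nd (nat_lit 156) (PT.nd (nat_lit 78) (PT.lf (nat_lit 30020) (nat_lit 6) (nat_lit 395) (nat_lit 0) (nat_lit 210) (nat_lit 197) (nat_lit 163)) (PT.lf (nat_lit 29032) (nat_lit 6) (nat_lit 382) (nat_lit 0) (nat_lit 211) (nat_lit 197) (nat_lit 162))) (PT.nd (nat_lit 78) (PT.lf (nat_lit 28120) (nat_lit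 6) (nat_lit 370) (nat_lit 0) (nat_lit 212) (nat_lit 197) (nat_lit 161)) (PT.lf (nat_lit 27208) (nat_lit 6) (nat_lit 358) (nat_lit 0) (nat_lit 213) (nat_lit 197) (nat_lit 160)))))) (PT.nd (nat_lit 55224) (PT.nd (nat_lit 54912) (PT.nd (nat_lit 156) (PT.nd (nat_lit 78) (PT.lf (nat_lit 26372) (nat_lit 6) (nat_lit 347) (nat_lit 0) (nat_lit 214) (nat_lit 197) (nat_lit 159)) (PT.lf (nat_lit 25536) (nat_lit 6) (nat_lit 336) (nat_lit 0) (nat_lit 215) (nat_lit 197) (nat_lit 158))) (PT.nd (nat_lit 54678) (PT.lf (nat_lit 24700) (nat_lit 6) (nat_lit 325) (nat_lit 0) (nat_lit 216) (nat_lit 197) (nat_lit 157)) (PT.lf (nat_lit 23940) (nat_lit 6) (nat_lit 315) (nat_lit 5) (nat_lit 156) (nat_lit 198) (nat_lit 216)))) (PT.nd (nat_lit 156) (PT.nd (nat_lit 78) (PT.lf (nat_lit 24776) (nat_lit 6) (nat_lit 326) (nat_lit 5) (nat_lit 157) (nat_lit 198) (nat_lit 215)) (PT.lf (nat_lit 25612) (nat_lit 6) (nat_lit 337) (nat_lit 5) (nat_lit 158) (nat_lit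 198) (nat_lit 214))) (PT.nd (nat_lit 78) (PT.lf (nat_lit 26448) (nat_lit 6) (nat_lit 348) (nat_lit 5) (nat_lit 159) (nat_lit 198) (nat_lit 213)) (PT.lf (nat_lit 27284) (nat_lit 6) (nat_lit 359) (nat_lit 5) (nat_lit 160) (nat_lit 198) (nat_lit 212))))) (PT.nd (nat_lit 312) (PT.nd (nat_lit 156) (PT.nd (nat_lit 78) (PT.lf (nat_lit 28196) (nat_lit 6) (nat_lit 371) (nat_lit 5) (nat_lit 161) (nat_lit 198) (nat_lit 211)) (PT.lf (nat_lit 29108) (nat_lit 6) (nat_lit 383) (nat_lit 5) (nat_lit 162) (nat_lit 198) (nat_lit 210))) (PT.nd (nat_lit 78) (PT.lf (nat_lit 30096) (nat_lit 6) (nat_lit 396) (nat_lit 5) (nat_lit 163) (nat_lit 198) (nat_lit 209)) (PT.lf (nat_lit 31084) (nat_lit 6) (nat_lit 409) (nat_lit 5) (nat_lit 164) (nat_lit 198) (nat_lit 208)))) (PT.nd (nat_lit 156) (PT.nd (nat_lit 78) (PT.lf (nat_lit 32072) (nat_lit 6) (nat_lit 422) (nat_lit 5) (nat_lit 165) (nat_lit 198) (nat_lit 207)) (PT.lf (nat_lit 33592) (nat_lit 6) (nat_lit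 442) (nat_lit 5) (nat_lit 166) (nat_lit 198) (nat_lit 206))) (PT.nd (nat_lit 78) (PT.lf (nat_lit 35416) (nat_lit 6) (nat_lit 466) (nat_lit 5) (nat_lit 167) (nat_lit 198) (nat_lit 205)) (PT.lf (nat_lit 37164) (nat_lit 6) (nat_lit 489) (nat_lit 5) (nat_lit 168) (nat_lit 198) (nat_lit 204))))))) (PT.nd (nat_lit 1248) (PT.nd (nat_lit 624) (PT.nd (nat_lit 312) (PT.nd (nat_lit 156) (PT.nd (nat_lit 78) (PT.lf (nat_lit 38836) (nat_lit 6) (nat_lit 511) (nat_lit 5) (nat_lit 169) (nat_lit 198) (nat_lit 203)) (PT.lf (nat_lit 40432) (nat_lit 6) (nat_lit 532) (nat_lit 5) (nat_lit 170) (nat_lit 198) (nat_lit 202))) (PT.nd (nat_lit 78) (PT.lf (nat_lit 41952) (nat_lit 6) (nat_lit 552) (nat_lit 5) (nat_lit 171) (nat_lit 198) (nat_lit 201)) (PT.lf (nat_lit 43396) (nat_lit 6) (nat_lit 571) (nat_lit 5) (nat_lit 172) (nat_lit 198) (nat_lit 200)))) (PT.nd (nat_lit 156) (PT.nd (nat_lit 78) (PT.lf (nat_lit 44764) (nat_lit 6) (nat_lit 589) (nat_lit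 5) (nat_lit 173) (nat_lit 198) (nat_lit 199)) (PT.lf (nat_lit 46056) (nat_lit 3) (nat_lit 606) (nat_lit 4) (nat_lit 174) (nat_lit 198) (nat_lit 198))) (PT.nd (nat_lit 78) (PT.lf (nat_lit 47196) (nat_lit 6) (nat_lit 621) (nat_lit 4) (nat_lit 175) (nat_lit 198) (nat_lit 197)) (PT.lf (nat_lit 48260) (nat_lit 6) (nat_lit 635) (nat_lit 4) (nat_lit 176) (nat_lit 198) (nat_lit 196))))) (PT.nd (nat_lit 312) (PT.nd (nat_lit 156) (PT.nd (nat_lit 78) (PT.lf (nat_lit 49248) (nat_lit 6) (nat_lit 648) (nat_lit 4) (nat_lit 177) (nat_lit 198) (nat_lit 195)) (PT.lf (nat_lit 50160) (nat_lit 6) (nat_lit 660) (nat_lit 4) (nat_lit 178) (nat_lit 198) (nat_lit 194))) (PT.nd (nat_lit 78) (PT.lf (nat_lit 50996) (nat_lit 6) (nat_lit 671) (nat_lit 4) (nat_lit 179) (nat_lit 198) (nat_lit 193)) (PT.lf (nat_lit 51756) (nat_lit 6) (nat_lit 681) (nat_lit 4) (nat_lit 180) (nat_lit 198) (nat_lit 192)))) (PT.nd (nat_lit 156) (PT.nd (nat_lit 78) (PT.lf (nat_lit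 52440) (nat_lit 6) (nat_lit 690) (nat_lit 4) (nat_lit 181) (nat_lit 198) (nat_lit 191)) (PT.lf (nat_lit 53048) (nat_lit 6) (nat_lit 698) (nat_lit 4) (nat_lit 182) (nat_lit 198) (nat_lit 190))) (PT.nd (nat_lit 78) (PT.lf (nat_lit 52972) (nat_lit 6) (nat_lit 697) (nat_lit 4) (nat_lit 183) (nat_lit 198) (nat_lit 189)) (PT.lf (nat_lit 52896) (nat_lit 6) (nat_lit 696) (nat_lit 4) (nat_lit 184) (nat_lit 198) (nat_lit 188)))))) (PT.nd (nat_lit 624) (PT.nd (nat_lit 312) (PT.nd (nat_lit 156) (PT.nd (nat_lit 78) (PT.lf (nat_lit 52820) (nat_lit 6) (nat_lit 695) (nat_lit 4) (nat_lit 185) (nat_lit 198) (nat_lit 187)) (PT.lf (nat_lit 52744) (nat_lit 3) (nat_lit 694) (nat_lit 2) (nat_lit 186) (nat_lit 198) (nat_lit 186))) (PT.nd (nat_lit 78) (PT.lf (nat_lit 52820) (nat_lit 6) (nat_lit 695) (nat_lit 2) (nat_lit 187) (nat_lit 198) (nat_lit 185)) (PT.lf (nat_lit 52896) (nat_lit 6) (nat_lit 696) (nat_lit 2) (nat_lit 188) (nat_lit 198) (nat_lit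 184)))) (PT.nd (nat_lit 156) (PT.nd (nat_lit 78) (PT.lf (nat_lit 52972) (nat_lit 6) (nat_lit 697) (nat_lit 2) (nat_lit 189) (nat_lit 198) (nat_lit 183)) (PT.lf (nat_lit 53048) (nat_lit 6) (nat_lit 698) (nat_lit 2) (nat_lit 190) (nat_lit 198) (nat_lit 182))) (PT.nd (nat_lit 78) (PT.lf (nat_lit 52440) (nat_lit 6) (nat_lit 690) (nat_lit 2) (nat_lit 191) (nat_lit 198) (nat_lit 181)) (PT.lf (nat_lit 51756) (nat_lit 6) (nat_lit 681) (nat_lit 2) (nat_lit 192) (nat_lit 198) (nat_lit 180))))) (PT.nd (nat_lit 312) (PT.nd (nat_lit 156) (PT.nd (nat_lit 78) (PT.lf (nat_lit 50996) (nat_lit 6) (nat_lit 671) (nat_lit 2) (nat_lit 193) (nat_lit 198) (nat_lit 179)) (PT.lf (nat_lit 50160) (nat_lit 6) (nat_lit 660) (nat_lit 2) (nat_lit 194) (nat_lit 198) (nat_lit 178))) (PT.nd (nat_lit 78) (PT.lf (nat_lit 49248) (nat_lit 6) (nat_lit 648) (nat_lit 2) (nat_lit 195) (nat_lit 198) (nat_lit 177)) (PT.lf (nat_lit 48260) (nat_lit 6) (nat_lit 635) (nat_lit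 2) (nat_lit 196) (nat_lit 198) (nat_lit 176)))) (PT.nd (nat_lit 156) (PT.nd (nat_lit 78) (PT.lf (nat_lit 47196) (nat_lit 6) (nat_lit 621) (nat_lit 2) (nat_lit 197) (nat_lit 198) (nat_lit 175)) (PT.lf (nat_lit 46056) (nat_lit 3) (nat_lit 606) (nat_lit 0) (nat_lit 198) (nat_lit 198) (nat_lit 174))) (PT.nd (nat_lit 78) (PT.lf (nat_lit 44764) (nat_lit 6) (nat_lit 589) (nat_lit 0) (nat_lit 199) (nat_lit 198) (nat_lit 173)) (PT.lf (nat_lit 43396) (nat_lit 6) (nat_lit 571) (nat_lit 0) (nat_lit 200) (nat_lit 198) (nat_lit 172))))))))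
noncomputable def pc37 : PT := (PT.nd (nat_lit 56940) (PT.nd (nat_lit 55692) (PT.nd (nat_lit 624) (PT.nd (nat_lit 312) (PT.nd (nat_lit 156) (PT.nd (nat_lit 78) (PT.lf (nat_lit 41952) (nat_lit 6) (nat_lit 552) (nat_lit 0) (nat_lit 201) (nat_lit 198) (nat_lit 171)) (PT.lf (nat_lit 40432) (nat_lit 6) (nat_lit 532) (nat_lit 0) (nat_lit 202) (nat_lit 198) (nat_lit 170))) (PT.nd (nat_lit 78) (PT.lf (nat_lit 38836) (nat_lit 6) (nat_lit 511) (nat_lit 0) (nat_lit 203) (nat_lit 198) (nat_lit 169)) (PT.lf (nat_lit 37164) (nat_lit 6) (nat_lit 489) (nat_lit 0) (nat_lit 204) (nat_lit 198) (nat_lit 168)))) (PT.nd (nat_lit 156) (PT.nd (nat_lit 78) (PT.lf (nat_lit 35416) (nat_lit 6) (nat_lit 466) (nat_lit 0) (nat_lit 205) (nat_lit 198) (nat_lit 167)) (PT.lf (nat_lit 33592) (nat_lit 6) (nat_lit 442) (nat_lit 0) (nat_lit 206) (nat_lit 198) (nat_lit 166))) (PT.nd (nat_lit 78) (PT.lf (nat_lit 32072) (nat_lit 6) (nat_lit 422) (nat_lit 0) (nat_lit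 207) (nat_lit 198) (nat_lit 165)) (PT.lf (nat_lit 31084) (nat_lit 6) (nat_lit 409) (nat_lit 0) (nat_lit 208) (nat_lit 198) (nat_lit 164))))) (PT.nd (nat_lit 312) (PT.nd (nat_lit 156) (PT.nd (nat_lit 78) (PT.lf (nat_lit 30096) (nat_lit 6) (nat_lit 396) (nat_lit 0) (nat_lit 209) (nat_lit 198) (nat_lit 163)) (PT.lf (nat_lit 29108) (nat_lit 6) (nat_lit 383) (nat_lit 0) (nat_lit 210) (nat_lit 198) (nat_lit 162))) (PT.nd (nat_lit 78) (PT.lf (nat_lit 28196) (nat_lit 6) (nat_lit 371) (nat_lit 0) (nat_lit 211) (nat_lit 198) (nat_lit 161)) (PT.lf (nat_lit 27284) (nat_lit 6) (nat_lit 359) (nat_lit 0) (nat_lit 212) (nat_lit 198) (nat_lit 160)))) (PT.nd (nat_lit 156) (PT.nd (nat_lit 78) (PT.lf (nat_lit 26448) (nat_lit 6) (nat_lit 348) (nat_lit 0) (nat_lit 213) (nat_lit 198) (nat_lit 159)) (PT.lf (nat_lit 25612) (nat_lit 6) (nat_lit 337) (nat_lit 0) (nat_lit 214) (nat_lit 198) (nat_lit 158))) (PT.nd (nat_lit 78) (PT.lf (nat_lit 24776) (nat_lit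 6) (nat_lit 326) (nat_lit 0) (nat_lit 215) (nat_lit 198) (nat_lit 157)) (PT.lf (nat_lit 23940) (nat_lit 6) (nat_lit 315) (nat_lit 0) (nat_lit 216) (nat_lit 198) (nat_lit 156)))))) (PT.nd (nat_lit 624) (PT.nd (nat_lit 312) (PT.nd (nat_lit 156) (PT.nd (nat_lit 78) (PT.lf (nat_lit 22496) (nat_lit 6) (nat_lit 296) (nat_lit 5) (nat_lit 154) (nat_lit 199) (nat_lit 217)) (PT.lf (nat_lit 23256) (nat_lit 6) (nat_lit 306) (nat_lit 5) (nat_lit 155) (nat_lit 199) (nat_lit 216))) (PT.nd (nat_lit 78) (PT.lf (nat_lit 24016) (nat_lit 6) (nat_lit 316) (nat_lit 5) (nat_lit 156) (nat_lit 199) (nat_lit 215)) (PT.lf (nat_lit 24852) (nat_lit 6) (nat_lit 327) (nat_lit 5) (nat_lit 157) (nat_lit 199) (nat_lit 214)))) (PT.nd (nat_lit 156) (PT.nd (nat_lit 78) (PT.lf (nat_lit 25688) (nat_lit 6) (nat_lit 338) (nat_lit 5) (nat_lit 158) (nat_lit 199) (nat_lit 213)) (PT.lf (nat_lit 26524) (nat_lit 6) (nat_lit 349) (nat_lit 5) (nat_lit 159) (nat_lit 199) (nat_lit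 212))) (PT.nd (nat_lit 78) (PT.lf (nat_lit 27360) (nat_lit 6) (nat_lit 360) (nat_lit 5) (nat_lit 160) (nat_lit 199) (nat_lit 211)) (PT.lf (nat_lit 28272) (nat_lit 6) (nat_lit 372) (nat_lit 5) (nat_lit 161) (nat_lit 199) (nat_lit 210))))) (PT.nd (nat_lit 312) (PT.nd (nat_lit 156) (PT.nd (nat_lit 78) (PT.lf (nat_lit 29184) (nat_lit 6) (nat_lit 384) (nat_lit 5) (nat_lit 162) (nat_lit 199) (nat_lit 209)) (PT.lf (nat_lit 30172) (nat_lit 6) (nat_lit 397) (nat_lit 5) (nat_lit 163) (nat_lit 199) (nat_lit 208))) (PT.nd (nat_lit 78) (PT.lf (nat_lit 31160) (nat_lit 6) (nat_lit 410) (nat_lit 5) (nat_lit 164) (nat_lit 199) (nat_lit 207)) (PT.lf (nat_lit 32148) (nat_lit 6) (nat_lit 423) (nat_lit 5) (nat_lit 165) (nat_lit 199) (nat_lit 206)))) (PT.nd (nat_lit 156) (PT.nd (nat_lit 78) (PT.lf (nat_lit 33668) (nat_lit 6) (nat_lit 443) (nat_lit 5) (nat_lit 166) (nat_lit 199) (nat_lit 205)) (PT.lf (nat_lit 35492) (nat_lit 6) (nat_lit 467) (nat_lit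 5) (nat_lit 167) (nat_lit 199) (nat_lit 204))) (PT.nd (nat_lit 78) (PT.lf (nat_lit 37240) (nat_lit 6) (nat_lit 490) (nat_lit 5) (nat_lit 168) (nat_lit 199) (nat_lit 203)) (PT.lf (nat_lit 38912) (nat_lit 6) (nat_lit 512) (nat_lit 5) (nat_lit 169) (nat_lit 199) (nat_lit 202))))))) (PT.nd (nat_lit 1248) (PT.nd (nat_lit 624) (PT.nd (nat_lit 312) (PT.nd (nat_lit 156) (PT.nd (nat_lit 78) (PT.lf (nat_lit 40508) (nat_lit 6) (nat_lit 533) (nat_lit 5) (nat_lit 170) (nat_lit 199) (nat_lit 201)) (PT.lf (nat_lit 42028) (nat_lit 6) (nat_lit 553) (nat_lit 5) (nat_lit 171) (nat_lit 199) (nat_lit 200))) (PT.nd (nat_lit 78) (PT.lf (nat_lit 43472) (nat_lit 3) (nat_lit 572) (nat_lit 4) (nat_lit 172) (nat_lit 199) (nat_lit 199)) (PT.lf (nat_lit 44764) (nat_lit 6) (nat_lit 589) (nat_lit 4) (nat_lit 173) (nat_lit 199) (nat_lit 198)))) (PT.nd (nat_lit 156) (PT.nd (nat_lit 78) (PT.lf (nat_lit 45980) (nat_lit 6) (nat_lit 605) (nat_lit 4) (nat_lit 174)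 (nat_lit 199) (nat_lit 197)) (PT.lf (nat_lit 47120) (nat_lit 6) (nat_lit 620) (nat_lit 4) (nat_lit 175) (nat_lit 199) (nat_lit 196))) (PT.nd (nat_lit 78) (PT.lf (nat_lit 48184) (nat_lit 6) (nat_lit 634) (nat_lit 4) (nat_lit 176) (nat_lit 199) (nat_lit 195)) (PT.lf (nat_lit 49172) (nat_lit 6) (nat_lit 647) (nat_lit 4) (nat_lit 177) (nat_lit 199) (nat_lit 194))))) (PT.nd (nat_lit 312) (PT.nd (nat_lit 156) (PT.nd (nat_lit 78) (PT.lf (nat_lit 50084) (nat_lit 6) (nat_lit 659) (nat_lit 4) (nat_lit 178) (nat_lit 199) (nat_lit 193)) (PT.lf (nat_lit 50920) (nat_lit 6) (nat_lit 670) (nat_lit 4) (nat_lit 179) (nat_lit 199) (nat_lit 192))) (PT.nd (nat_lit 78) (PT.lf (nat_lit 51680) (nat_lit 6) (nat_lit 680) (nat_lit 4) (nat_lit 180) (nat_lit 199) (nat_lit 191)) (PT.lf (nat_lit 52364) (nat_lit 6) (nat_lit 689) (nat_lit 4) (nat_lit 181) (nat_lit 199) (nat_lit 190)))) (PT.nd (nat_lit 156) (PT.nd (nat_lit 78) (PT.lf (nat_lit 52288) (nat_lit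 6) (nat_lit 688) (nat_lit 4) (nat_lit 182) (nat_lit 199) (nat_lit 189)) (PT.lf (nat_lit 52212) (nat_lit 6) (nat_lit 687) (nat_lit 4) (nat_lit 183) (nat_lit 199) (nat_lit 188))) (PT.nd (nat_lit 78) (PT.lf (nat_lit 52136) (nat_lit 6) (nat_lit 686) (nat_lit 4) (nat_lit 184) (nat_lit 199) (nat_lit 187)) (PT.lf (nat_lit 52060) (nat_lit 6) (nat_lit 685) (nat_lit 4) (nat_lit 185) (nat_lit 199) (nat_lit 186)))))) (PT.nd (nat_lit 624) (PT.nd (nat_lit 312) (PT.nd (nat_lit 156) (PT.nd (nat_lit 78) (PT.lf (nat_lit 52060) (nat_lit 6) (nat_lit 685) (nat_lit 2) (nat_lit 186) (nat_lit 199) (nat_lit 185)) (PT.lf (nat_lit 52136) (nat_lit 6) (nat_lit 686) (nat_lit 2) (nat_lit 187) (nat_lit 199) (nat_lit 184))) (PT.nd (nat_lit 78) (PT.lf (nat_lit 52212) (nat_lit 6) (nat_lit 687) (nat_lit 2) (nat_lit 188) (nat_lit 199) (nat_lit 183)) (PT.lf (nat_lit 52288) (nat_lit 6) (nat_lit 688) (nat_lit 2) (nat_lit 189) (nat_lit 199) (nat_lit 182)))) (PT.nd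 (nat_lit 156) (PT.nd (nat_lit 78) (PT.lf (nat_lit 52364) (nat_lit 6) (nat_lit 689) (nat_lit 2) (nat_lit 190) (nat_lit 199) (nat_lit 181)) (PT.lf (nat_lit 51680) (nat_lit 6) (nat_lit 680) (nat_lit 2) (nat_lit 191) (nat_lit 199) (nat_lit 180))) (PT.nd (nat_lit 78) (PT.lf (nat_lit 50920) (nat_lit 6) (nat_lit 670) (nat_lit 2) (nat_lit 192) (nat_lit 199) (nat_lit 179)) (PT.lf (nat_lit 50084) (nat_lit 6) (nat_lit 659) (nat_lit 2) (nat_lit 193) (nat_lit 199) (nat_lit 178))))) (PT.nd (nat_lit 312) (PT.nd (nat_lit 156) (PT.nd (nat_lit 78) (PT.lf (nat_lit 49172) (nat_lit 6) (nat_lit 647) (nat_lit 2) (nat_lit 194) (nat_lit 199) (nat_lit 177)) (PT.lf (nat_lit 48184) (nat_lit 6) (nat_lit 634) (nat_lit 2) (nat_lit 195) (nat_lit 199) (nat_lit 176))) (PT.nd (nat_lit 78) (PT.lf (nat_lit 47120) (nat_lit 6) (nat_lit 620) (nat_lit 2) (nat_lit 196) (nat_lit 199) (nat_lit 175)) (PT.lf (nat_lit 45980) (nat_lit 6) (nat_lit 605) (nat_lit 2) (nat_lit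 197) (nat_lit 199) (nat_lit 174)))) (PT.nd (nat_lit 156) (PT.nd (nat_lit 78) (PT.lf (nat_lit 44764) (nat_lit 6) (nat_lit 589) (nat_lit 2) (nat_lit 198) (nat_lit 199) (nat_lit 173)) (PT.lf (nat_lit 43472) (nat_lit 3) (nat_lit 572) (nat_lit 0) (nat_lit 199) (nat_lit 199) (nat_lit 172))) (PT.nd (nat_lit 78) (PT.lf (nat_lit 42028) (nat_lit 6) (nat_lit 553) (nat_lit 0) (nat_lit 200) (nat_lit 199) (nat_lit 171)) (PT.lf (nat_lit 40508) (nat_lit 6) (nat_lit 533) (nat_lit 0) (nat_lit 201) (nat_lit 199) (nat_lit 170))))))))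
noncomputable def pc38 : PT := (PT.nd (nat_lit 56784) (PT.nd (nat_lit 55536) (PT.nd (nat_lit 624) (PT.nd (nat_lit 312) (PT.nd (nat_lit 156) (PT.nd (nat_lit 78) (PT.lf (nat_lit 38912) (nat_lit 6) (nat_lit 512) (nat_lit 0) (nat_lit 202) (nat_lit 199) (nat_lit 169)) (PT.lf (nat_lit 37240) (nat_lit 6) (nat_lit 490) (nat_lit 0) (nat_lit 203) (nat_lit 199) (nat_lit 168))) (PT.nd (nat_lit 78) (PT.lf (nat_lit 35492) (nat_lit 6) (nat_lit 467) (nat_lit 0) (nat_lit 204) (nat_lit 199) (nat_lit 167)) (PT.lf (nat_lit 33668) (nat_lit 6) (nat_lit 443) (nat_lit 0) (nat_lit 205) (nat_lit 199) (nat_lit 166)))) (PT.nd (nat_lit 156) (PT.nd (nat_lit 78) (PT.lf (nat_lit 32148) (nat_lit 6) (nat_lit 423) (nat_lit 0) (nat_lit 206) (nat_lit 199) (nat_lit 165)) (PT.lf (nat_lit 31160) (nat_lit 6) (nat_lit 410) (nat_lit 0) (nat_lit 207) (nat_lit 199) (nat_lit 164))) (PT.nd (nat_lit 78) (PT.lf (nat_lit 30172) (nat_lit 6) (nat_lit 397) (nat_lit 0) (nat_lit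 208) (nat_lit 199) (nat_lit 163)) (PT.lf (nat_lit 29184) (nat_lit 6) (nat_lit 384) (nat_lit 0) (nat_lit 209) (nat_lit 199) (nat_lit 162))))) (PT.nd (nat_lit 312) (PT.nd (nat_lit 156) (PT.nd (nat_lit 78) (PT.lf (nat_lit 28272) (nat_lit 6) (nat_lit 372) (nat_lit 0) (nat_lit 210) (nat_lit 199) (nat_lit 161)) (PT.lf (nat_lit 27360) (nat_lit 6) (nat_lit 360) (nat_lit 0) (nat_lit 211) (nat_lit 199) (nat_lit 160))) (PT.nd (nat_lit 78) (PT.lf (nat_lit 26524) (nat_lit 6) (nat_lit 349) (nat_lit 0) (nat_lit 212) (nat_lit 199) (nat_lit 159)) (PT.lf (nat_lit 25688) (nat_lit 6) (nat_lit 338) (nat_lit 0) (nat_lit 213) (nat_lit 199) (nat_lit 158)))) (PT.nd (nat_lit 156) (PT.nd (nat_lit 78) (PT.lf (nat_lit 24852) (nat_lit 6) (nat_lit 327) (nat_lit 0) (nat_lit 214) (nat_lit 199) (nat_lit 157)) (PT.lf (nat_lit 24016) (nat_lit 6) (nat_lit 316) (nat_lit 0) (nat_lit 215) (nat_lit 199) (nat_lit 156))) (PT.nd (nat_lit 78) (PT.lf (nat_lit 23256) (nat_lit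 6) (nat_lit 306) (nat_lit 0) (nat_lit 216) (nat_lit 199) (nat_lit 155)) (PT.lf (nat_lit 22496) (nat_lit 6) (nat_lit 296) (nat_lit 0) (nat_lit 217) (nat_lit 199) (nat_lit 154)))))) (PT.nd (nat_lit 624) (PT.nd (nat_lit 312) (PT.nd (nat_lit 156) (PT.nd (nat_lit 78) (PT.lf (nat_lit 21812) (nat_lit 6) (nat_lit 287) (nat_lit 5) (nat_lit 153) (nat_lit 200) (nat_lit 217)) (PT.lf (nat_lit 22572) (nat_lit 6) (nat_lit 297) (nat_lit 5) (nat_lit 154) (nat_lit 200) (nat_lit 216))) (PT.nd (nat_lit 78) (PT.lf (nat_lit 23332) (nat_lit 6) (nat_lit 307) (nat_lit 5) (nat_lit 155) (nat_lit 200) (nat_lit 215)) (PT.lf (nat_lit 24092) (nat_lit 6) (nat_lit 317) (nat_lit 5) (nat_lit 156) (nat_lit 200) (nat_lit 214)))) (PT.nd (nat_lit 156) (PT.nd (nat_lit 78) (PT.lf (nat_lit 24928) (nat_lit 6) (nat_lit 328) (nat_lit 5) (nat_lit 157) (nat_lit 200) (nat_lit 213)) (PT.lf (nat_lit 25764) (nat_lit 6) (nat_lit 339) (nat_lit 5) (nat_lit 158) (nat_lit 200) (nat_lit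 212))) (PT.nd (nat_lit 78) (PT.lf (nat_lit 26600) (nat_lit 6) (nat_lit 350) (nat_lit 5) (nat_lit 159) (nat_lit 200) (nat_lit 211)) (PT.lf (nat_lit 27436) (nat_lit 6) (nat_lit 361) (nat_lit 5) (nat_lit 160) (nat_lit 200) (nat_lit 210))))) (PT.nd (nat_lit 312) (PT.nd (nat_lit 156) (PT.nd (nat_lit 78) (PT.lf (nat_lit 28348) (nat_lit 6) (nat_lit 373) (nat_lit 5) (nat_lit 161) (nat_lit 200) (nat_lit 209)) (PT.lf (nat_lit 29260) (nat_lit 6) (nat_lit 385) (nat_lit 5) (nat_lit 162) (nat_lit 200) (nat_lit 208))) (PT.nd (nat_lit 78) (PT.lf (nat_lit 30248) (nat_lit 6) (nat_lit 398) (nat_lit 5) (nat_lit 163) (nat_lit 200) (nat_lit 207)) (PT.lf (nat_lit 31236) (nat_lit 6) (nat_lit 411) (nat_lit 5) (nat_lit 164) (nat_lit 200) (nat_lit 206)))) (PT.nd (nat_lit 156) (PT.nd (nat_lit 78) (PT.lf (nat_lit 32224) (nat_lit 6) (nat_lit 424) (nat_lit 5) (nat_lit 165) (nat_lit 200) (nat_lit 205)) (PT.lf (nat_lit 33744) (nat_lit 6) (nat_lit 444) (nat_lit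 5) (nat_lit 166) (nat_lit 200) (nat_lit 204))) (PT.nd (nat_lit 78) (PT.lf (nat_lit 35568) (nat_lit 6) (nat_lit 468) (nat_lit 5) (nat_lit 167) (nat_lit 200) (nat_lit 203)) (PT.lf (nat_lit 37316) (nat_lit 6) (nat_lit 491) (nat_lit 5) (nat_lit 168) (nat_lit 200) (nat_lit 202))))))) (PT.nd (nat_lit 1248) (PT.nd (nat_lit 624) (PT.nd (nat_lit 312) (PT.nd (nat_lit 156) (PT.nd (nat_lit 78) (PT.lf (nat_lit 38988) (nat_lit 6) (nat_lit 513) (nat_lit 5) (nat_lit 169) (nat_lit 200) (nat_lit 201)) (PT.lf (nat_lit 40584) (nat_lit 3) (nat_lit 534) (nat_lit 4) (nat_lit 170) (nat_lit 200) (nat_lit 200))) (PT.nd (nat_lit 78) (PT.lf (nat_lit 42028) (nat_lit 6) (nat_lit 553) (nat_lit 4) (nat_lit 171) (nat_lit 200) (nat_lit 199)) (PT.lf (nat_lit 43396) (nat_lit 6) (nat_lit 571) (nat_lit 4) (nat_lit 172) (nat_lit 200) (nat_lit 198)))) (PT.nd (nat_lit 156) (PT.nd (nat_lit 78) (PT.lf (nat_lit 44688) (nat_lit 6) (nat_lit 588) (nat_lit 4) (nat_lit 173)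 (nat_lit 200) (nat_lit 197)) (PT.lf (nat_lit 45904) (nat_lit 6) (nat_lit 604) (nat_lit 4) (nat_lit 174) (nat_lit 200) (nat_lit 196))) (PT.nd (nat_lit 78) (PT.lf (nat_lit 47044) (nat_lit 6) (nat_lit 619) (nat_lit 4) (nat_lit 175) (nat_lit 200) (nat_lit 195)) (PT.lf (nat_lit 48108) (nat_lit 6) (nat_lit 633) (nat_lit 4) (nat_lit 176) (nat_lit 200) (nat_lit 194))))) (PT.nd (nat_lit 312) (PT.nd (nat_lit 156) (PT.nd (nat_lit 78) (PT.lf (nat_lit 49096) (nat_lit 6) (nat_lit 646) (nat_lit 4) (nat_lit 177) (nat_lit 200) (nat_lit 193)) (PT.lf (nat_lit 50008) (nat_lit 6) (nat_lit 658) (nat_lit 4) (nat_lit 178) (nat_lit 200) (nat_lit 192))) (PT.nd (nat_lit 78) (PT.lf (nat_lit 50844) (nat_lit 6) (nat_lit 669) (nat_lit 4) (nat_lit 179) (nat_lit 200) (nat_lit 191)) (PT.lf (nat_lit 51604) (nat_lit 6) (nat_lit 679) (nat_lit 4) (nat_lit 180) (nat_lit 200) (nat_lit 190)))) (PT.nd (nat_lit 156) (PT.nd (nat_lit 78) (PT.lf (nat_lit 51528) (nat_lit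 6) (nat_lit 678) (nat_lit 4) (nat_lit 181) (nat_lit 200) (nat_lit 189)) (PT.lf (nat_lit 51452) (nat_lit 6) (nat_lit 677) (nat_lit 4) (nat_lit 182) (nat_lit 200) (nat_lit 188))) (PT.nd (nat_lit 78) (PT.lf (nat_lit 51376) (nat_lit 6) (nat_lit 676) (nat_lit 4) (nat_lit 183) (nat_lit 200) (nat_lit 187)) (PT.lf (nat_lit 51300) (nat_lit 6) (nat_lit 675) (nat_lit 4) (nat_lit 184) (nat_lit 200) (nat_lit 186)))))) (PT.nd (nat_lit 624) (PT.nd (nat_lit 312) (PT.nd (nat_lit 156) (PT.nd (nat_lit 78) (PT.lf (nat_lit 51224) (nat_lit 3) (nat_lit 674) (nat_lit 2) (nat_lit 185) (nat_lit 200) (nat_lit 185)) (PT.lf (nat_lit 51300) (nat_lit 6) (nat_lit 675) (nat_lit 2) (nat_lit 186) (nat_lit 200) (nat_lit 184))) (PT.nd (nat_lit 78) (PT.lf (nat_lit 51376) (nat_lit 6) (nat_lit 676) (nat_lit 2) (nat_lit 187) (nat_lit 200) (nat_lit 183)) (PT.lf (nat_lit 51452) (nat_lit 6) (nat_lit 677) (nat_lit 2) (nat_lit 188) (nat_lit 200) (nat_lit 182)))) (PT.nd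 (nat_lit 156) (PT.nd (nat_lit 78) (PT.lf (nat_lit 51528) (nat_lit 6) (nat_lit 678) (nat_lit 2) (nat_lit 189) (nat_lit 200) (nat_lit 181)) (PT.lf (nat_lit 51604) (nat_lit 6) (nat_lit 679) (nat_lit 2) (nat_lit 190) (nat_lit 200) (nat_lit 180))) (PT.nd (nat_lit 78) (PT.lf (nat_lit 50844) (nat_lit 6) (nat_lit 669) (nat_lit 2) (nat_lit 191) (nat_lit 200) (nat_lit 179)) (PT.lf (nat_lit 50008) (nat_lit 6) (nat_lit 658) (nat_lit 2) (nat_lit 192) (nat_lit 200) (nat_lit 178))))) (PT.nd (nat_lit 312) (PT.nd (nat_lit 156) (PT.nd (nat_lit 78) (PT.lf (nat_lit 49096) (nat_lit 6) (nat_lit 646) (nat_lit 2) (nat_lit 193) (nat_lit 200) (nat_lit 177)) (PT.lf (nat_lit 48108) (nat_lit 6) (nat_lit 633) (nat_lit 2) (nat_lit 194) (nat_lit 200) (nat_lit 176))) (PT.nd (nat_lit 78) (PT.lf (nat_lit 47044) (nat_lit 6) (nat_lit 619) (nat_lit 2) (nat_lit 195) (nat_lit 200) (nat_lit 175)) (PT.lf (nat_lit 45904) (nat_lit 6) (nat_lit 604) (nat_lit 2) (nat_lit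 196) (nat_lit 200) (nat_lit 174)))) (PT.nd (nat_lit 156) (PT.nd (nat_lit 78) (PT.lf (nat_lit 44688) (nat_lit 6) (nat_lit 588) (nat_lit 2) (nat_lit 197) (nat_lit 200) (nat_lit 173)) (PT.lf (nat_lit 43396) (nat_lit 6) (nat_lit 571) (nat_lit 2) (nat_lit 198) (nat_lit 200) (nat_lit 172))) (PT.nd (nat_lit 78) (PT.lf (nat_lit 42028) (nat_lit 6) (nat_lit 553) (nat_lit 2) (nat_lit 199) (nat_lit 200) (nat_lit 171)) (PT.lf (nat_lit 40584) (nat_lit 3) (nat_lit 534) (nat_lit 0) (nat_lit 200) (nat_lit 200) (nat_lit 170))))))))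
noncomputable def pc39 : PT := (PT.nd (nat_lit 56706) (PT.nd (nat_lit 1248) (PT.nd (nat_lit 624) (PT.nd (nat_lit 312) (PT.nd (nat_lit 156) (PT.nd (nat_lit 78) (PT.lf (nat_lit 38988) (nat_lit 6) (nat_lit 513) (nat_lit 0) (nat_lit 201) (nat_lit 200) (nat_lit 169)) (PT.lf (nat_lit 37316) (nat_lit 6) (nat_lit 491) (nat_lit 0) (nat_lit 202) (nat_lit 200) (nat_lit 168))) (PT.nd (nat_lit 78) (PT.lf (nat_lit 35568) (nat_lit 6) (nat_lit 468) (nat_lit 0) (nat_lit 203) (nat_lit 200) (nat_lit 167)) (PT.lf (nat_lit 33744) (nat_lit 6) (nat_lit 444) (nat_lit 0) (nat_lit 204) (nat_lit 200) (nat_lit 166)))) (PT.nd (nat_lit 156) (PT.nd (nat_lit 78) (PT.lf (nat_lit 32224) (nat_lit 6) (nat_lit 424) (nat_lit 0) (nat_lit 205) (nat_lit 200) (nat_lit 165)) (PT.lf (nat_lit 31236) (nat_lit 6) (nat_lit 411) (nat_lit 0) (nat_lit 206) (nat_lit 200) (nat_lit 164))) (PT.nd (nat_lit 78) (PT.lf (nat_lit 30248) (nat_lit 6) (nat_lit 398) (nat_lit 0) (nat_lit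 207) (nat_lit 200) (nat_lit 163)) (PT.lf (nat_lit 29260) (nat_lit 6) (nat_lit 385) (nat_lit 0) (nat_lit 208) (nat_lit 200) (nat_lit 162))))) (PT.nd (nat_lit 312) (PT.nd (nat_lit 156) (PT.nd (nat_lit 78) (PT.lf (nat_lit 28348) (nat_lit 6) (nat_lit 373) (nat_lit 0) (nat_lit 209) (nat_lit 200) (nat_lit 161)) (PT.lf (nat_lit 27436) (nat_lit 6) (nat_lit 361) (nat_lit 0) (nat_lit 210) (nat_lit 200) (nat_lit 160))) (PT.nd (nat_lit 78) (PT.lf (nat_lit 26600) (nat_lit 6) (nat_lit 350) (nat_lit 0) (nat_lit 211) (nat_lit 200) (nat_lit 159)) (PT.lf (nat_lit 25764) (nat_lit 6) (nat_lit 339) (nat_lit 0) (nat_lit 212) (nat_lit 200) (nat_lit 158)))) (PT.nd (nat_lit 156) (PT.nd (nat_lit 78) (PT.lf (nat_lit 24928) (nat_lit 6) (nat_lit 328) (nat_lit 0) (nat_lit 213) (nat_lit 200) (nat_lit 157)) (PT.lf (nat_lit 24092) (nat_lit 6) (nat_lit 317) (nat_lit 0) (nat_lit 214) (nat_lit 200) (nat_lit 156))) (PT.nd (nat_lit 78) (PT.lf (nat_lit 23332) (nat_lit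 6) (nat_lit 307) (nat_lit 0) (nat_lit 215) (nat_lit 200) (nat_lit 155)) (PT.lf (nat_lit 22572) (nat_lit 6) (nat_lit 297) (nat_lit 0) (nat_lit 216) (nat_lit 200) (nat_lit 154)))))) (PT.nd (nat_lit 54834) (PT.nd (nat_lit 54522) (PT.nd (nat_lit 54366) (PT.nd (nat_lit 54288) (PT.lf (nat_lit 21812) (nat_lit 6) (nat_lit 287) (nat_lit 0) (nat_lit 217) (nat_lit 200) (nat_lit 153)) (PT.lf (nat_lit 21128) (nat_lit 6) (nat_lit 278) (nat_lit 5) (nat_lit 152) (nat_lit 201) (nat_lit 217))) (PT.nd (nat_lit 78) (PT.lf (nat_lit 21888) (nat_lit 6) (nat_lit 288) (nat_lit 5) (nat_lit 153) (nat_lit 201) (nat_lit 216)) (PT.lf (nat_lit 22648) (nat_lit 6) (nat_lit 298) (nat_lit 5) (nat_lit 154) (nat_lit 201) (nat_lit 215)))) (PT.nd (nat_lit 156) (PT.nd (nat_lit 78) (PT.lf (nat_lit 23408) (nat_lit 6) (nat_lit 308) (nat_lit 5) (nat_lit 155) (nat_lit 201) (nat_lit 214)) (PT.lf (nat_lit 24168) (nat_lit 6) (nat_lit 318) (nat_lit 5) (nat_lit 156) (nat_lit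 201) (nat_lit 213))) (PT.nd (nat_lit 78) (PT.lf (nat_lit 25004) (nat_lit 6) (nat_lit 329) (nat_lit 5) (nat_lit 157) (nat_lit 201) (nat_lit 212)) (PT.lf (nat_lit 25840) (nat_lit 6) (nat_lit 340) (nat_lit 5) (nat_lit 158) (nat_lit 201) (nat_lit 211))))) (PT.nd (nat_lit 312) (PT.nd (nat_lit 156) (PT.nd (nat_lit 78) (PT.lf (nat_lit 26676) (nat_lit 6) (nat_lit 351) (nat_lit 5) (nat_lit 159) (nat_lit 201) (nat_lit 210)) (PT.lf (nat_lit 27512) (nat_lit 6) (nat_lit 362) (nat_lit 5) (nat_lit 160) (nat_lit 201) (nat_lit 209))) (PT.nd (nat_lit 78) (PT.lf (nat_lit 28424) (nat_lit 6) (nat_lit 374) (nat_lit 5) (nat_lit 161) (nat_lit 201) (nat_lit 208)) (PT.lf (nat_lit 29336) (nat_lit 6) (nat_lit 386) (nat_lit 5) (nat_lit 162) (nat_lit 201) (nat_lit 207)))) (PT.nd (nat_lit 156) (PT.nd (nat_lit 78) (PT.lf (nat_lit 30324) (nat_lit 6) (nat_lit 399) (nat_lit 5) (nat_lit 163) (nat_lit 201) (nat_lit 206)) (PT.lf (nat_lit 31312) (nat_lit 6) (nat_lit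 412) (nat_lit 5) (nat_lit 164) (nat_lit 201) (nat_lit 205))) (PT.nd (nat_lit 78) (PT.lf (nat_lit 32300) (nat_lit 6) (nat_lit 425) (nat_lit 5) (nat_lit 165) (nat_lit 201) (nat_lit 204)) (PT.lf (nat_lit 33820) (nat_lit 6) (nat_lit 445) (nat_lit 5) (nat_lit 166) (nat_lit 201) (nat_lit 203))))))) (PT.nd (nat_lit 1248) (PT.nd (nat_lit 624) (PT.nd (nat_lit 312) (PT.nd (nat_lit 156) (PT.nd (nat_lit 78) (PT.lf (nat_lit 35644) (nat_lit 6) (nat_lit 469) (nat_lit 5) (nat_lit 167) (nat_lit 201) (nat_lit 202)) (PT.lf (nat_lit 37392) (nat_lit 3) (nat_lit 492) (nat_lit 4) (nat_lit 168) (nat_lit 201) (nat_lit 201))) (PT.nd (nat_lit 78) (PT.lf (nat_lit 38988) (nat_lit 6) (nat_lit 513) (nat_lit 4) (nat_lit 169) (nat_lit 201) (nat_lit 200)) (PT.lf (nat_lit 40508) (nat_lit 6) (nat_lit 533) (nat_lit 4) (nat_lit 170) (nat_lit 201) (nat_lit 199)))) (PT.nd (nat_lit 156) (PT.nd (nat_lit 78) (PT.lf (nat_lit 41952) (nat_lit 6) (nat_lit 552) (nat_lit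 4) (nat_lit 171) (nat_lit 201) (nat_lit 198)) (PT.lf (nat_lit 43320) (nat_lit 6) (nat_lit 570) (nat_lit 4) (nat_lit 172) (nat_lit 201) (nat_lit 197))) (PT.nd (nat_lit 78) (PT.lf (nat_lit 44612) (nat_lit 6) (nat_lit 587) (nat_lit 4) (nat_lit 173) (nat_lit 201) (nat_lit 196)) (PT.lf (nat_lit 45828) (nat_lit 6) (nat_lit 603) (nat_lit 4) (nat_lit 174) (nat_lit 201) (nat_lit 195))))) (PT.nd (nat_lit 312) (PT.nd (nat_lit 156) (PT.nd (nat_lit 78) (PT.lf (nat_lit 46968) (nat_lit 6) (nat_lit 618) (nat_lit 4) (nat_lit 175) (nat_lit 201) (nat_lit 194)) (PT.lf (nat_lit 48032) (nat_lit 6) (nat_lit 632) (nat_lit 4) (nat_lit 176) (nat_lit 201) (nat_lit 193))) (PT.nd (nat_lit 78) (PT.lf (nat_lit 49020) (nat_lit 6) (nat_lit 645) (nat_lit 4) (nat_lit 177) (nat_lit 201) (nat_lit 192)) (PT.lf (nat_lit 49932) (nat_lit 6) (nat_lit 657) (nat_lit 4) (nat_lit 178) (nat_lit 201) (nat_lit 191)))) (PT.nd (nat_lit 156) (PT.nd (nat_lit 78) (PT.lf (nat_lit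 50768) (nat_lit 6) (nat_lit 668) (nat_lit 4) (nat_lit 179) (nat_lit 201) (nat_lit 190)) (PT.lf (nat_lit 50692) (nat_lit 6) (nat_lit 667) (nat_lit 4) (nat_lit 180) (nat_lit 201) (nat_lit 189))) (PT.nd (nat_lit 78) (PT.lf (nat_lit 50616) (nat_lit 6) (nat_lit 666) (nat_lit 4) (nat_lit 181) (nat_lit 201) (nat_lit 188)) (PT.lf (nat_lit 50540) (nat_lit 6) (nat_lit 665) (nat_lit 4) (nat_lit 182) (nat_lit 201) (nat_lit 187)))))) (PT.nd (nat_lit 624) (PT.nd (nat_lit 312) (PT.nd (nat_lit 156) (PT.nd (nat_lit 78) (PT.lf (nat_lit 50464) (nat_lit 6) (nat_lit 664) (nat_lit 4) (nat_lit 183) (nat_lit 201) (nat_lit 186)) (PT.lf (nat_lit 50388) (nat_lit 6) (nat_lit 663) (nat_lit 4) (nat_lit 184) (nat_lit 201) (nat_lit 185))) (PT.nd (nat_lit 78) (PT.lf (nat_lit 50388) (nat_lit 6) (nat_lit 663) (nat_lit 2) (nat_lit 185) (nat_lit 201) (nat_lit 184)) (PT.lf (nat_lit 50464) (nat_lit 6) (nat_lit 664) (nat_lit 2) (nat_lit 186) (nat_lit 201) (nat_lit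 183)))) (PT.nd (nat_lit 156) (PT.nd (nat_lit 78) (PT.lf (nat_lit 50540) (nat_lit 6) (nat_lit 665) (nat_lit 2) (nat_lit 187) (nat_lit 201) (nat_lit 182)) (PT.lf (nat_lit 50616) (nat_lit 6) (nat_lit 666) (nat_lit 2) (nat_lit 188) (nat_lit 201) (nat_lit 181))) (PT.nd (nat_lit 78) (PT.lf (nat_lit 50692) (nat_lit 6) (nat_lit 667) (nat_lit 2) (nat_lit 189) (nat_lit 201) (nat_lit 180)) (PT.lf (nat_lit 50768) (nat_lit 6) (nat_lit 668) (nat_lit 2) (nat_lit 190) (nat_lit 201) (nat_lit 179))))) (PT.nd (nat_lit 312) (PT.nd (nat_lit 156) (PT.nd (nat_lit 78) (PT.lf (nat_lit 49932) (nat_lit 6) (nat_lit 657) (nat_lit 2) (nat_lit 191) (nat_lit 201) (nat_lit 178)) (PT.lf (nat_lit 49020) (nat_lit 6) (nat_lit 645) (nat_lit 2) (nat_lit 192) (nat_lit 201) (nat_lit 177))) (PT.nd (nat_lit 78) (PT.lf (nat_lit 48032) (nat_lit 6) (nat_lit 632) (nat_lit 2) (nat_lit 193) (nat_lit 201) (nat_lit 176)) (PT.lf (nat_lit 46968) (nat_lit 6) (nat_lit 618) (nat_lit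 2) (nat_lit 194) (nat_lit 201) (nat_lit 175)))) (PT.nd (nat_lit 156) (PT.nd (nat_lit 78) (PT.lf (nat_lit 45828) (nat_lit 6) (nat_lit 603) (nat_lit 2) (nat_lit 195) (nat_lit 201) (nat_lit 174)) (PT.lf (nat_lit 44612) (nat_lit 6) (nat_lit 587) (nat_lit 2) (nat_lit 196) (nat_lit 201) (nat_lit 173))) (PT.nd (nat_lit 78) (PT.lf (nat_lit 43320) (nat_lit 6) (nat_lit 570) (nat_lit 2) (nat_lit 197) (nat_lit 201) (nat_lit 172)) (PT.lf (nat_lit 41952) (nat_lit 6) (nat_lit 552) (nat_lit 2) (nat_lit 198) (nat_lit 201) (nat_lit 171))))))))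
noncomputable def pc40 : PT := (PT.nd (nat_lit 56550) (PT.nd (nat_lit 1248) (PT.nd (nat_lit 624) (PT.nd (nat_lit 312) (PT.nd (nat_lit 156) (PT.nd (nat_lit 78) (PT.lf (nat_lit 40508) (nat_lit 6) (nat_lit 533) (nat_lit 2) (nat_lit 199) (nat_lit 201) (nat_lit 170)) (PT.lf (nat_lit 38988) (nat_lit 6) (nat_lit 513) (nat_lit 2) (nat_lit 200) (nat_lit 201) (nat_lit 169))) (PT.nd (nat_lit 78) (PT.lf (nat_lit 37392) (nat_lit 3) (nat_lit 492) (nat_lit 0) (nat_lit 201) (nat_lit 201) (nat_lit 168)) (PT.lf (nat_lit 35644) (nat_lit 6) (nat_lit 469) (nat_lit 0) (nat_lit 202) (nat_lit 201) (nat_lit 167)))) (PT.nd (nat_lit 156) (PT.nd (nat_lit 78) (PT.lf (nat_lit 33820) (nat_lit 6) (nat_lit 445) (nat_lit 0) (nat_lit 203) (nat_lit 201) (nat_lit 166)) (PT.lf (nat_lit 32300) (nat_lit 6) (nat_lit 425) (nat_lit 0) (nat_lit 204) (nat_lit 201) (nat_lit 165))) (PT.nd (nat_lit 78) (PT.lf (nat_lit 31312) (nat_lit 6) (nat_lit 412) (nat_lit 0) (nat_lit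 205) (nat_lit 201) (nat_lit 164)) (PT.lf (nat_lit 30324) (nat_lit 6) (nat_lit 399) (nat_lit 0) (nat_lit 206) (nat_lit 201) (nat_lit 163))))) (PT.nd (nat_lit 312) (PT.nd (nat_lit 156) (PT.nd (nat_lit 78) (PT.lf (nat_lit 29336) (nat_lit 6) (nat_lit 386) (nat_lit 0) (nat_lit 207) (nat_lit 201) (nat_lit 162)) (PT.lf (nat_lit 28424) (nat_lit 6) (nat_lit 374) (nat_lit 0) (nat_lit 208) (nat_lit 201) (nat_lit 161))) (PT.nd (nat_lit 78) (PT.lf (nat_lit 27512) (nat_lit 6) (nat_lit 362) (nat_lit 0) (nat_lit 209) (nat_lit 201) (nat_lit 160)) (PT.lf (nat_lit 26676) (nat_lit 6) (nat_lit 351) (nat_lit 0) (nat_lit 210) (nat_lit 201) (nat_lit 159)))) (PT.nd (nat_lit 156) (PT.nd (nat_lit 78) (PT.lf (nat_lit 25840) (nat_lit 6) (nat_lit 340) (nat_lit 0) (nat_lit 211) (nat_lit 201) (nat_lit 158)) (PT.lf (nat_lit 25004) (nat_lit 6) (nat_lit 329) (nat_lit 0) (nat_lit 212) (nat_lit 201) (nat_lit 157))) (PT.nd (nat_lit 78) (PT.lf (nat_lit 24168) (nat_lit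 6) (nat_lit 318) (nat_lit 0) (nat_lit 213) (nat_lit 201) (nat_lit 156)) (PT.lf (nat_lit 23408) (nat_lit 6) (nat_lit 308) (nat_lit 0) (nat_lit 214) (nat_lit 201) (nat_lit 155)))))) (PT.nd (nat_lit 54678) (PT.nd (nat_lit 54366) (PT.nd (nat_lit 156) (PT.nd (nat_lit 78) (PT.lf (nat_lit 22648) (nat_lit 6) (nat_lit 298) (nat_lit 0) (nat_lit 215) (nat_lit 201) (nat_lit 154)) (PT.lf (nat_lit 21888) (nat_lit 6) (nat_lit 288) (nat_lit 0) (nat_lit 216) (nat_lit 201) (nat_lit 153))) (PT.nd (nat_lit 54132) (PT.lf (nat_lit 21128) (nat_lit 6) (nat_lit 278) (nat_lit 0) (nat_lit 217) (nat_lit 201) (nat_lit 152)) (PT.lf (nat_lit 19836) (nat_lit 6) (nat_lit 261) (nat_lit 5) (nat_lit 150) (nat_lit 202) (nat_lit 218)))) (PT.nd (nat_lit 156) (PT.nd (nat_lit 78) (PT.lf (nat_lit 20520) (nat_lit 6) (nat_lit 270) (nat_lit 5) (nat_lit 151) (nat_lit 202) (nat_lit 217)) (PT.lf (nat_lit 21204) (nat_lit 6) (nat_lit 279) (nat_lit 5) (nat_lit 152) (nat_lit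 202) (nat_lit 216))) (PT.nd (nat_lit 78) (PT.lf (nat_lit 21964) (nat_lit 6) (nat_lit 289) (nat_lit 5) (nat_lit 153) (nat_lit 202) (nat_lit 215)) (PT.lf (nat_lit 22724) (nat_lit 6) (nat_lit 299) (nat_lit 5) (nat_lit 154) (nat_lit 202) (nat_lit 214))))) (PT.nd (nat_lit 312) (PT.nd (nat_lit 156) (PT.nd (nat_lit 78) (PT.lf (nat_lit 23484) (nat_lit 6) (nat_lit 309) (nat_lit 5) (nat_lit 155) (nat_lit 202) (nat_lit 213)) (PT.lf (nat_lit 24244) (nat_lit 6) (nat_lit 319) (nat_lit 5) (nat_lit 156) (nat_lit 202) (nat_lit 212))) (PT.nd (nat_lit 78) (PT.lf (nat_lit 25080) (nat_lit 6) (nat_lit 330) (nat_lit 5) (nat_lit 157) (nat_lit 202) (nat_lit 211)) (PT.lf (nat_lit 25916) (nat_lit 6) (nat_lit 341) (nat_lit 5) (nat_lit 158) (nat_lit 202) (nat_lit 210)))) (PT.nd (nat_lit 156) (PT.nd (nat_lit 78) (PT.lf (nat_lit 26752) (nat_lit 6) (nat_lit 352) (nat_lit 5) (nat_lit 159) (nat_lit 202) (nat_lit 209)) (PT.lf (nat_lit 27588) (nat_lit 6) (nat_lit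 363) (nat_lit 5) (nat_lit 160) (nat_lit 202) (nat_lit 208))) (PT.nd (nat_lit 78) (PT.lf (nat_lit 28500) (nat_lit 6) (nat_lit 375) (nat_lit 5) (nat_lit 161) (nat_lit 202) (nat_lit 207)) (PT.lf (nat_lit 29412) (nat_lit 6) (nat_lit 387) (nat_lit 5) (nat_lit 162) (nat_lit 202) (nat_lit 206))))))) (PT.nd (nat_lit 1248) (PT.nd (nat_lit 624) (PT.nd (nat_lit 312) (PT.nd (nat_lit 156) (PT.nd (nat_lit 78) (PT.lf (nat_lit 30400) (nat_lit 6) (nat_lit 400) (nat_lit 5) (nat_lit 163) (nat_lit 202) (nat_lit 205)) (PT.lf (nat_lit 31388) (nat_lit 6) (nat_lit 413) (nat_lit 5) (nat_lit 164) (nat_lit 202) (nat_lit 204))) (PT.nd (nat_lit 78) (PT.lf (nat_lit 32376) (nat_lit 6) (nat_lit 426) (nat_lit 5) (nat_lit 165) (nat_lit 202) (nat_lit 203)) (PT.lf (nat_lit 33896) (nat_lit 3) (nat_lit 446) (nat_lit 4) (nat_lit 166) (nat_lit 202) (nat_lit 202)))) (PT.nd (nat_lit 156) (PT.nd (nat_lit 78) (PT.lf (nat_lit 35644) (nat_lit 6) (nat_lit 469) (nat_lit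 4) (nat_lit 167) (nat_lit 202) (nat_lit 201)) (PT.lf (nat_lit 37316) (nat_lit 6) (nat_lit 491) (nat_lit 4) (nat_lit 168) (nat_lit 202) (nat_lit 200))) (PT.nd (nat_lit 78) (PT.lf (nat_lit 38912) (nat_lit 6) (nat_lit 512) (nat_lit 4) (nat_lit 169) (nat_lit 202) (nat_lit 199)) (PT.lf (nat_lit 40432) (nat_lit 6) (nat_lit 532) (nat_lit 4) (nat_lit 170) (nat_lit 202) (nat_lit 198))))) (PT.nd (nat_lit 312) (PT.nd (nat_lit 156) (PT.nd (nat_lit 78) (PT.lf (nat_lit 41876) (nat_lit 6) (nat_lit 551) (nat_lit 4) (nat_lit 171) (nat_lit 202) (nat_lit 197)) (PT.lf (nat_lit 43244) (nat_lit 6) (nat_lit 569) (nat_lit 4) (nat_lit 172) (nat_lit 202) (nat_lit 196))) (PT.nd (nat_lit 78) (PT.lf (nat_lit 44536) (nat_lit 6) (nat_lit 586) (nat_lit 4) (nat_lit 173) (nat_lit 202) (nat_lit 195)) (PT.lf (nat_lit 45752) (nat_lit 6) (nat_lit 602) (nat_lit 4) (nat_lit 174) (nat_lit 202) (nat_lit 194)))) (PT.nd (nat_lit 156) (PT.nd (nat_lit 78) (PT.lf (nat_lit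 46892) (nat_lit 6) (nat_lit 617) (nat_lit 4) (nat_lit 175) (nat_lit 202) (nat_lit 193)) (PT.lf (nat_lit 47956) (nat_lit 6) (nat_lit 631) (nat_lit 4) (nat_lit 176) (nat_lit 202) (nat_lit 192))) (PT.nd (nat_lit 78) (PT.lf (nat_lit 48944) (nat_lit 6) (nat_lit 644) (nat_lit 4) (nat_lit 177) (nat_lit 202) (nat_lit 191)) (PT.lf (nat_lit 49856) (nat_lit 6) (nat_lit 656) (nat_lit 4) (nat_lit 178) (nat_lit 202) (nat_lit 190)))))) (PT.nd (nat_lit 624) (PT.nd (nat_lit 312) (PT.nd (nat_lit 156) (PT.nd (nat_lit 78) (PT.lf (nat_lit 49780) (nat_lit 6) (nat_lit 655) (nat_lit 4) (nat_lit 179) (nat_lit 202) (nat_lit 189)) (PT.lf (nat_lit 49704) (nat_lit 6) (nat_lit 654) (nat_lit 4) (nat_lit 180) (nat_lit 202) (nat_lit 188))) (PT.nd (nat_lit 78) (PT.lf (nat_lit 49628) (nat_lit 6) (nat_lit 653) (nat_lit 4) (nat_lit 181) (nat_lit 202) (nat_lit 187)) (PT.lf (nat_lit 49552) (nat_lit 6) (nat_lit 652) (nat_lit 4) (nat_lit 182) (nat_lit 202) (nat_lit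 186)))) (PT.nd (nat_lit 156) (PT.nd (nat_lit 78) (PT.lf (nat_lit 49476) (nat_lit 6) (nat_lit 651) (nat_lit 4) (nat_lit 183) (nat_lit 202) (nat_lit 185)) (PT.lf (nat_lit 49400) (nat_lit 3) (nat_lit 650) (nat_lit 2) (nat_lit 184) (nat_lit 202) (nat_lit 184))) (PT.nd (nat_lit 78) (PT.lf (nat_lit 49476) (nat_lit 6) (nat_lit 651) (nat_lit 2) (nat_lit 185) (nat_lit 202) (nat_lit 183)) (PT.lf (nat_lit 49552) (nat_lit 6) (nat_lit 652) (nat_lit 2) (nat_lit 186) (nat_lit 202) (nat_lit 182))))) (PT.nd (nat_lit 312) (PT.nd (nat_lit 156) (PT.nd (nat_lit 78) (PT.lf (nat_lit 49628) (nat_lit 6) (nat_lit 653) (nat_lit 2) (nat_lit 187) (nat_lit 202) (nat_lit 181)) (PT.lf (nat_lit 49704) (nat_lit 6) (nat_lit 654) (nat_lit 2) (nat_lit 188) (nat_lit 202) (nat_lit 180))) (PT.nd (nat_lit 78) (PT.lf (nat_lit 49780) (nat_lit 6) (nat_lit 655) (nat_lit 2) (nat_lit 189) (nat_lit 202) (nat_lit 179)) (PT.lf (nat_lit 49856) (nat_lit 6) (nat_lit 656) (nat_lit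 2) (nat_lit 190) (nat_lit 202) (nat_lit 178)))) (PT.nd (nat_lit 156) (PT.nd (nat_lit 78) (PT.lf (nat_lit 48944) (nat_lit 6) (nat_lit 644) (nat_lit 2) (nat_lit 191) (nat_lit 202) (nat_lit 177)) (PT.lf (nat_lit 47956) (nat_lit 6) (nat_lit 631) (nat_lit 2) (nat_lit 192) (nat_lit 202) (nat_lit 176))) (PT.nd (nat_lit 78) (PT.lf (nat_lit 46892) (nat_lit 6) (nat_lit 617) (nat_lit 2) (nat_lit 193) (nat_lit 202) (nat_lit 175)) (PT.lf (nat_lit 45752) (nat_lit 6) (nat_lit 602) (nat_lit 2) (nat_lit 194) (nat_lit 202) (nat_lit 174))))))))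
noncomputable def pc41 : PT := (PT.nd (nat_lit 56394) (PT.nd (nat_lit 1248) (PT.nd (nat_lit 624) (PT.nd (nat_lit 312) (PT.nd (nat_lit 156) (PT.nd (nat_lit 78) (PT.lf (nat_lit 44536) (nat_lit 6) (nat_lit 586) (nat_lit 2) (nat_lit 195) (nat_lit 202) (nat_lit 173)) (PT.lf (nat_lit 43244) (nat_lit 6) (nat_lit 569) (nat_lit 2) (nat_lit 196) (nat_lit 202) (nat_lit 172))) (PT.nd (nat_lit 78) (PT.lf (nat_lit 41876) (nat_lit 6) (nat_lit 551) (nat_lit 2) (nat_lit 197) (nat_lit 202) (nat_lit 171)) (PT.lf (nat_lit 40432) (nat_lit 6) (nat_lit 532) (nat_lit 2) (nat_lit 198) (nat_lit 202) (nat_lit 170)))) (PT.nd (nat_lit 156) (PT.nd (nat_lit 78) (PT.lf (nat_lit 38912) (nat_lit 6) (nat_lit 512) (nat_lit 2) (nat_lit 199) (nat_lit 202) (nat_lit 169)) (PT.lf (nat_lit 37316) (nat_lit 6) (nat_lit 491) (nat_lit 2) (nat_lit 200) (nat_lit 202) (nat_lit 168))) (PT.nd (nat_lit 78) (PT.lf (nat_lit 35644) (nat_lit 6) (nat_lit 469) (nat_lit 2) (nat_lit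 201) (nat_lit 202) (nat_lit 167)) (PT.lf (nat_lit 33896) (nat_lit 3) (nat_lit 446) (nat_lit 0) (nat_lit 202) (nat_lit 202) (nat_lit 166))))) (PT.nd (nat_lit 312) (PT.nd (nat_lit 156) (PT.nd (nat_lit 78) (PT.lf (nat_lit 32376) (nat_lit 6) (nat_lit 426) (nat_lit 0) (nat_lit 203) (nat_lit 202) (nat_lit 165)) (PT.lf (nat_lit 31388) (nat_lit 6) (nat_lit 413) (nat_lit 0) (nat_lit 204) (nat_lit 202) (nat_lit 164))) (PT.nd (nat_lit 78) (PT.lf (nat_lit 30400) (nat_lit 6) (nat_lit 400) (nat_lit 0) (nat_lit 205) (nat_lit 202) (nat_lit 163)) (PT.lf (nat_lit 29412) (nat_lit 6) (nat_lit 387) (nat_lit 0) (nat_lit 206) (nat_lit 202) (nat_lit 162)))) (PT.nd (nat_lit 156) (PT.nd (nat_lit 78) (PT.lf (nat_lit 28500) (nat_lit 6) (nat_lit 375) (nat_lit 0) (nat_lit 207) (nat_lit 202) (nat_lit 161)) (PT.lf (nat_lit 27588) (nat_lit 6) (nat_lit 363) (nat_lit 0) (nat_lit 208) (nat_lit 202) (nat_lit 160))) (PT.nd (nat_lit 78) (PT.lf (nat_lit 26752) (nat_lit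 6) (nat_lit 352) (nat_lit 0) (nat_lit 209) (nat_lit 202) (nat_lit 159)) (PT.lf (nat_lit 25916) (nat_lit 6) (nat_lit 341) (nat_lit 0) (nat_lit 210) (nat_lit 202) (nat_lit 158)))))) (PT.nd (nat_lit 54522) (PT.nd (nat_lit 312) (PT.nd (nat_lit 156) (PT.nd (nat_lit 78) (PT.lf (nat_lit 25080) (nat_lit 6) (nat_lit 330) (nat_lit 0) (nat_lit 211) (nat_lit 202) (nat_lit 157)) (PT.lf (nat_lit 24244) (nat_lit 6) (nat_lit 319) (nat_lit 0) (nat_lit 212) (nat_lit 202) (nat_lit 156))) (PT.nd (nat_lit 78) (PT.lf (nat_lit 23484) (nat_lit 6) (nat_lit 309) (nat_lit 0) (nat_lit 213) (nat_lit 202) (nat_lit 155)) (PT.lf (nat_lit 22724) (nat_lit 6) (nat_lit 299) (nat_lit 0) (nat_lit 214) (nat_lit 202) (nat_lit 154)))) (PT.nd (nat_lit 156) (PT.nd (nat_lit 78) (PT.lf (nat_lit 21964) (nat_lit 6) (nat_lit 289) (nat_lit 0) (nat_lit 215) (nat_lit 202) (nat_lit 153)) (PT.lf (nat_lit 21204) (nat_lit 6) (nat_lit 279) (nat_lit 0) (nat_lit 216) (nat_lit 202)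 (nat_lit 152))) (PT.nd (nat_lit 78) (PT.lf (nat_lit 20520) (nat_lit 6) (nat_lit 270) (nat_lit 0) (nat_lit 217) (nat_lit 202) (nat_lit 151)) (PT.lf (nat_lit 19836) (nat_lit 6) (nat_lit 261) (nat_lit 0) (nat_lit 218) (nat_lit 202) (nat_lit 150))))) (PT.nd (nat_lit 312) (PT.nd (nat_lit 156) (PT.nd (nat_lit 78) (PT.lf (nat_lit 19228) (nat_lit 6) (nat_lit 253) (nat_lit 5) (nat_lit 149) (nat_lit 203) (nat_lit 218)) (PT.lf (nat_lit 19912) (nat_lit 6) (nat_lit 262) (nat_lit 5) (nat_lit 150) (nat_lit 203) (nat_lit 217))) (PT.nd (nat_lit 78) (PT.lf (nat_lit 20596) (nat_lit 6) (nat_lit 271) (nat_lit 5) (nat_lit 151) (nat_lit 203) (nat_lit 216)) (PT.lf (nat_lit 21280) (nat_lit 6) (nat_lit 280) (nat_lit 5) (nat_lit 152) (nat_lit 203) (nat_lit 215)))) (PT.nd (nat_lit 156) (PT.nd (nat_lit 78) (PT.lf (nat_lit 22040) (nat_lit 6) (nat_lit 290) (nat_lit 5) (nat_lit 153) (nat_lit 203) (nat_lit 214)) (PT.lf (nat_lit 22800) (nat_lit 6) (nat_lit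 300) (nat_lit 5) (nat_lit 154) (nat_lit 203) (nat_lit 213))) (PT.nd (nat_lit 78) (PT.lf (nat_lit 23560) (nat_lit 6) (nat_lit 310) (nat_lit 5) (nat_lit 155) (nat_lit 203) (nat_lit 212)) (PT.lf (nat_lit 24320) (nat_lit 6) (nat_lit 320) (nat_lit 5) (nat_lit 156) (nat_lit 203) (nat_lit 211))))))) (PT.nd (nat_lit 1248) (PT.nd (nat_lit 624) (PT.nd (nat_lit 312) (PT.nd (nat_lit 156) (PT.nd (nat_lit 78) (PT.lf (nat_lit 25156) (nat_lit 6) (nat_lit 331) (nat_lit 5) (nat_lit 157) (nat_lit 203) (nat_lit 210)) (PT.lf (nat_lit 25992) (nat_lit 6) (nat_lit 342) (nat_lit 5) (nat_lit 158) (nat_lit 203) (nat_lit 209))) (PT.nd (nat_lit 78) (PT.lf (nat_lit 26828) (nat_lit 6) (nat_lit 353) (nat_lit 5) (nat_lit 159) (nat_lit 203) (nat_lit 208)) (PT.lf (nat_lit 27664) (nat_lit 6) (nat_lit 364) (nat_lit 5) (nat_lit 160) (nat_lit 203) (nat_lit 207)))) (PT.nd (nat_lit 156) (PT.nd (nat_lit 78) (PT.lf (nat_lit 28576) (nat_lit 6) (nat_lit 376) (nat_lit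 5) (nat_lit 161) (nat_lit 203) (nat_lit 206)) (PT.lf (nat_lit 29488) (nat_lit 6) (nat_lit 388) (nat_lit 5) (nat_lit 162) (nat_lit 203) (nat_lit 205))) (PT.nd (nat_lit 78) (PT.lf (nat_lit 30476) (nat_lit 6) (nat_lit 401) (nat_lit 5) (nat_lit 163) (nat_lit 203) (nat_lit 204)) (PT.lf (nat_lit 31464) (nat_lit 3) (nat_lit 414) (nat_lit 4) (nat_lit 164) (nat_lit 203) (nat_lit 203))))) (PT.nd (nat_lit 312) (PT.nd (nat_lit 156) (PT.nd (nat_lit 78) (PT.lf (nat_lit 32376) (nat_lit 6) (nat_lit 426) (nat_lit 4) (nat_lit 165) (nat_lit 203) (nat_lit 202)) (PT.lf (nat_lit 33820) (nat_lit 6) (nat_lit 445) (nat_lit 4) (nat_lit 166) (nat_lit 203) (nat_lit 201))) (PT.nd (nat_lit 78) (PT.lf (nat_lit 35568) (nat_lit 6) (nat_lit 468) (nat_lit 4) (nat_lit 167) (nat_lit 203) (nat_lit 200)) (PT.lf (nat_lit 37240) (nat_lit 6) (nat_lit 490) (nat_lit 4) (nat_lit 168) (nat_lit 203) (nat_lit 199)))) (PT.nd (nat_lit 156) (PT.nd (nat_lit 78) (PT.lf (nat_lit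 38836) (nat_lit 6) (nat_lit 511) (nat_lit 4) (nat_lit 169) (nat_lit 203) (nat_lit 198)) (PT.lf (nat_lit 40356) (nat_lit 6) (nat_lit 531) (nat_lit 4) (nat_lit 170) (nat_lit 203) (nat_lit 197))) (PT.nd (nat_lit 78) (PT.lf (nat_lit 41800) (nat_lit 6) (nat_lit 550) (nat_lit 4) (nat_lit 171) (nat_lit 203) (nat_lit 196)) (PT.lf (nat_lit 43168) (nat_lit 6) (nat_lit 568) (nat_lit 4) (nat_lit 172) (nat_lit 203) (nat_lit 195)))))) (PT.nd (nat_lit 624) (PT.nd (nat_lit 312) (PT.nd (nat_lit 156) (PT.nd (nat_lit 78) (PT.lf (nat_lit 44460) (nat_lit 6) (nat_lit 585) (nat_lit 4) (nat_lit 173) (nat_lit 203) (nat_lit 194)) (PT.lf (nat_lit 45676) (nat_lit 6) (nat_lit 601) (nat_lit 4) (nat_lit 174) (nat_lit 203) (nat_lit 193))) (PT.nd (nat_lit 78) (PT.lf (nat_lit 46816) (nat_lit 6) (nat_lit 616) (nat_lit 4) (nat_lit 175) (nat_lit 203) (nat_lit 192)) (PT.lf (nat_lit 47880) (nat_lit 6) (nat_lit 630) (nat_lit 4) (nat_lit 176) (nat_lit 203) (nat_lit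 191)))) (PT.nd (nat_lit 156) (PT.nd (nat_lit 78) (PT.lf (nat_lit 48868) (nat_lit 6) (nat_lit 643) (nat_lit 4) (nat_lit 177) (nat_lit 203) (nat_lit 190)) (PT.lf (nat_lit 48792) (nat_lit 6) (nat_lit 642) (nat_lit 4) (nat_lit 178) (nat_lit 203) (nat_lit 189))) (PT.nd (nat_lit 78) (PT.lf (nat_lit 48716) (nat_lit 6) (nat_lit 641) (nat_lit 4) (nat_lit 179) (nat_lit 203) (nat_lit 188)) (PT.lf (nat_lit 48640) (nat_lit 6) (nat_lit 640) (nat_lit 4) (nat_lit 180) (nat_lit 203) (nat_lit 187))))) (PT.nd (nat_lit 312) (PT.nd (nat_lit 156) (PT.nd (nat_lit 78) (PT.lf (nat_lit 48564) (nat_lit 6) (nat_lit 639) (nat_lit 4) (nat_lit 181) (nat_lit 203) (nat_lit 186)) (PT.lf (nat_lit 48488) (nat_lit 6) (nat_lit 638) (nat_lit 4) (nat_lit 182) (nat_lit 203) (nat_lit 185))) (PT.nd (nat_lit 78) (PT.lf (nat_lit 48412) (nat_lit 6) (nat_lit 637) (nat_lit 4) (nat_lit 183) (nat_lit 203) (nat_lit 184)) (PT.lf (nat_lit 48412) (nat_lit 6) (nat_lit 637) (nat_lit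 2) (nat_lit 184) (nat_lit 203) (nat_lit 183)))) (PT.nd (nat_lit 156) (PT.nd (nat_lit 78) (PT.lf (nat_lit 48488) (nat_lit 6) (nat_lit 638) (nat_lit 2) (nat_lit 185) (nat_lit 203) (nat_lit 182)) (PT.lf (nat_lit 48564) (nat_lit 6) (nat_lit 639) (nat_lit 2) (nat_lit 186) (nat_lit 203) (nat_lit 181))) (PT.nd (nat_lit 78) (PT.lf (nat_lit 48640) (nat_lit 6) (nat_lit 640) (nat_lit 2) (nat_lit 187) (nat_lit 203) (nat_lit 180)) (PT.lf (nat_lit 48716) (nat_lit 6) (nat_lit 641) (nat_lit 2) (nat_lit 188) (nat_lit 203) (nat_lit 179))))))))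
noncomputable def pc42 : PT := (PT.nd (nat_lit 56316) (PT.nd (nat_lit 1248) (PT.nd (nat_lit 624) (PT.nd (nat_lit 312) (PT.nd (nat_lit 156) (PT.nd (nat_lit 78) (PT.lf (nat_lit 48792) (nat_lit 6) (nat_lit 642) (nat_lit 2) (nat_lit 189) (nat_lit 203) (nat_lit 178)) (PT.lf (nat_lit 48868) (nat_lit 6) (nat_lit 643) (nat_lit 2) (nat_lit 190) (nat_lit 203) (nat_lit 177))) (PT.nd (nat_lit 78) (PT.lf (nat_lit 47880) (nat_lit 6) (nat_lit 630) (nat_lit 2) (nat_lit 191) (nat_lit 203) (nat_lit 176)) (PT.lf (nat_lit 46816) (nat_lit 6) (nat_lit 616) (nat_lit 2) (nat_lit 192) (nat_lit 203) (nat_lit 175)))) (PT.nd (nat_lit 156) (PT.nd (nat_lit 78) (PT.lf (nat_lit 45676) (nat_lit 6) (nat_lit 601) (nat_lit 2) (nat_lit 193) (nat_lit 203) (nat_lit 174)) (PT.lf (nat_lit 44460) (nat_lit 6) (nat_lit 585) (nat_lit 2) (nat_lit 194) (nat_lit 203) (nat_lit 173))) (PT.nd (nat_lit 78) (PT.lf (nat_lit 43168) (nat_lit 6) (nat_lit 568) (nat_lit 2) (nat_lit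 195) (nat_lit 203) (nat_lit 172)) (PT.lf (nat_lit 41800) (nat_lit 6) (nat_lit 550) (nat_lit 2) (nat_lit 196) (nat_lit 203) (nat_lit 171))))) (PT.nd (nat_lit 312) (PT.nd (nat_lit 156) (PT.nd (nat_lit 78) (PT.lf (nat_lit 40356) (nat_lit 6) (nat_lit 531) (nat_lit 2) (nat_lit 197) (nat_lit 203) (nat_lit 170)) (PT.lf (nat_lit 38836) (nat_lit 6) (nat_lit 511) (nat_lit 2) (nat_lit 198) (nat_lit 203) (nat_lit 169))) (PT.nd (nat_lit 78) (PT.lf (nat_lit 37240) (nat_lit 6) (nat_lit 490) (nat_lit 2) (nat_lit 199) (nat_lit 203) (nat_lit 168)) (PT.lf (nat_lit 35568) (nat_lit 6) (nat_lit 468) (nat_lit 2) (nat_lit 200) (nat_lit 203) (nat_lit 167)))) (PT.nd (nat_lit 156) (PT.nd (nat_lit 78) (PT.lf (nat_lit 33820) (nat_lit 6) (nat_lit 445) (nat_lit 2) (nat_lit 201) (nat_lit 203) (nat_lit 166)) (PT.lf (nat_lit 32376) (nat_lit 6) (nat_lit 426) (nat_lit 2) (nat_lit 202) (nat_lit 203) (nat_lit 165))) (PT.nd (nat_lit 78) (PT.lf (nat_lit 31464) (nat_lit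 3) (nat_lit 414) (nat_lit 0) (nat_lit 203) (nat_lit 203) (nat_lit 164)) (PT.lf (nat_lit 30476) (nat_lit 6) (nat_lit 401) (nat_lit 0) (nat_lit 204) (nat_lit 203) (nat_lit 163)))))) (PT.nd (nat_lit 624) (PT.nd (nat_lit 312) (PT.nd (nat_lit 156) (PT.nd (nat_lit 78) (PT.lf (nat_lit 29488) (nat_lit 6) (nat_lit 388) (nat_lit 0) (nat_lit 205) (nat_lit 203) (nat_lit 162)) (PT.lf (nat_lit 28576) (nat_lit 6) (nat_lit 376) (nat_lit 0) (nat_lit 206) (nat_lit 203) (nat_lit 161))) (PT.nd (nat_lit 78) (PT.lf (nat_lit 27664) (nat_lit 6) (nat_lit 364) (nat_lit 0) (nat_lit 207) (nat_lit 203) (nat_lit 160)) (PT.lf (nat_lit 26828) (nat_lit 6) (nat_lit 353) (nat_lit 0) (nat_lit 208) (nat_lit 203) (nat_lit 159)))) (PT.nd (nat_lit 156) (PT.nd (nat_lit 78) (PT.lf (nat_lit 25992) (nat_lit 6) (nat_lit 342) (nat_lit 0) (nat_lit 209) (nat_lit 203) (nat_lit 158)) (PT.lf (nat_lit 25156) (nat_lit 6) (nat_lit 331) (nat_lit 0) (nat_lit 210) (nat_lit 203) (nat_lit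 157))) (PT.nd (nat_lit 78) (PT.lf (nat_lit 24320) (nat_lit 6) (nat_lit 320) (nat_lit 0) (nat_lit 211) (nat_lit 203) (nat_lit 156)) (PT.lf (nat_lit 23560) (nat_lit 6) (nat_lit 310) (nat_lit 0) (nat_lit 212) (nat_lit 203) (nat_lit 155))))) (PT.nd (nat_lit 312) (PT.nd (nat_lit 156) (PT.nd (nat_lit 78) (PT.lf (nat_lit 22800) (nat_lit 6) (nat_lit 300) (nat_lit 0) (nat_lit 213) (nat_lit 203) (nat_lit 154)) (PT.lf (nat_lit 22040) (nat_lit 6) (nat_lit 290) (nat_lit 0) (nat_lit 214) (nat_lit 203) (nat_lit 153))) (PT.nd (nat_lit 78) (PT.lf (nat_lit 21280) (nat_lit 6) (nat_lit 280) (nat_lit 0) (nat_lit 215) (nat_lit 203) (nat_lit 152)) (PT.lf (nat_lit 20596) (nat_lit 6) (nat_lit 271) (nat_lit 0) (nat_lit 216) (nat_lit 203) (nat_lit 151)))) (PT.nd (nat_lit 53976) (PT.nd (nat_lit 78) (PT.lf (nat_lit 19912) (nat_lit 6) (nat_lit 262) (nat_lit 0) (nat_lit 217) (nat_lit 203) (nat_lit 150)) (PT.lf (nat_lit 19228) (nat_lit 6) (nat_lit 253) (nat_lit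 0) (nat_lit 218) (nat_lit 203) (nat_lit 149))) (PT.nd (nat_lit 78) (PT.lf (nat_lit 18620) (nat_lit 6) (nat_lit 245) (nat_lit 5) (nat_lit 148) (nat_lit 204) (nat_lit 218)) (PT.lf (nat_lit 19304) (nat_lit 6) (nat_lit 254) (nat_lit 5) (nat_lit 149) (nat_lit 204) (nat_lit 217))))))) (PT.nd (nat_lit 1248) (PT.nd (nat_lit 624) (PT.nd (nat_lit 312) (PT.nd (nat_lit 156) (PT.nd (nat_lit 78) (PT.lf (nat_lit 19988) (nat_lit 6) (nat_lit 263) (nat_lit 5) (nat_lit 150) (nat_lit 204) (nat_lit 216)) (PT.lf (nat_lit 20672) (nat_lit 6) (nat_lit 272) (nat_lit 5) (nat_lit 151) (nat_lit 204) (nat_lit 215))) (PT.nd (nat_lit 78) (PT.lf (nat_lit 21356) (nat_lit 6) (nat_lit 281) (nat_lit 5) (nat_lit 152) (nat_lit 204) (nat_lit 214)) (PT.lf (nat_lit 22116) (nat_lit 6) (nat_lit 291) (nat_lit 5) (nat_lit 153) (nat_lit 204) (nat_lit 213)))) (PT.nd (nat_lit 156) (PT.nd (nat_lit 78) (PT.lf (nat_lit 22876) (nat_lit 6) (nat_lit 301) (nat_lit 5) (nat_lit 154)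 (nat_lit 204) (nat_lit 212)) (PT.lf (nat_lit 23636) (nat_lit 6) (nat_lit 311) (nat_lit 5) (nat_lit 155) (nat_lit 204) (nat_lit 211))) (PT.nd (nat_lit 78) (PT.lf (nat_lit 24396) (nat_lit 6) (nat_lit 321) (nat_lit 5) (nat_lit 156) (nat_lit 204) (nat_lit 210)) (PT.lf (nat_lit 25232) (nat_lit 6) (nat_lit 332) (nat_lit 5) (nat_lit 157) (nat_lit 204) (nat_lit 209))))) (PT.nd (nat_lit 312) (PT.nd (nat_lit 156) (PT.nd (nat_lit 78) (PT.lf (nat_lit 26068) (nat_lit 6) (nat_lit 343) (nat_lit 5) (nat_lit 158) (nat_lit 204) (nat_lit 208)) (PT.lf (nat_lit 26904) (nat_lit 6) (nat_lit 354) (nat_lit 5) (nat_lit 159) (nat_lit 204) (nat_lit 207))) (PT.nd (nat_lit 78) (PT.lf (nat_lit 27740) (nat_lit 6) (nat_lit 365) (nat_lit 5) (nat_lit 160) (nat_lit 204) (nat_lit 206)) (PT.lf (nat_lit 28652) (nat_lit 6) (nat_lit 377) (nat_lit 5) (nat_lit 161) (nat_lit 204) (nat_lit 205)))) (PT.nd (nat_lit 156) (PT.nd (nat_lit 78) (PT.lf (nat_lit 29564) (nat_lit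 3) (nat_lit 389) (nat_lit 4) (nat_lit 162) (nat_lit 204) (nat_lit 204)) (PT.lf (nat_lit 30476) (nat_lit 6) (nat_lit 401) (nat_lit 4) (nat_lit 163) (nat_lit 204) (nat_lit 203))) (PT.nd (nat_lit 78) (PT.lf (nat_lit 31388) (nat_lit 6) (nat_lit 413) (nat_lit 4) (nat_lit 164) (nat_lit 204) (nat_lit 202)) (PT.lf (nat_lit 32300) (nat_lit 6) (nat_lit 425) (nat_lit 4) (nat_lit 165) (nat_lit 204) (nat_lit 201)))))) (PT.nd (nat_lit 624) (PT.nd (nat_lit 312) (PT.nd (nat_lit 156) (PT.nd (nat_lit 78) (PT.lf (nat_lit 33744) (nat_lit 6) (nat_lit 444) (nat_lit 4) (nat_lit 166) (nat_lit 204) (nat_lit 200)) (PT.lf (nat_lit 35492) (nat_lit 6) (nat_lit 467) (nat_lit 4) (nat_lit 167) (nat_lit 204) (nat_lit 199))) (PT.nd (nat_lit 78) (PT.lf (nat_lit 37164) (nat_lit 6) (nat_lit 489) (nat_lit 4) (nat_lit 168) (nat_lit 204) (nat_lit 198)) (PT.lf (nat_lit 38760) (nat_lit 6) (nat_lit 510) (nat_lit 4) (nat_lit 169) (nat_lit 204) (nat_lit 197)))) (PT.nd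 (nat_lit 156) (PT.nd (nat_lit 78) (PT.lf (nat_lit 40280) (nat_lit 6) (nat_lit 530) (nat_lit 4) (nat_lit 170) (nat_lit 204) (nat_lit 196)) (PT.lf (nat_lit 41724) (nat_lit 6) (nat_lit 549) (nat_lit 4) (nat_lit 171) (nat_lit 204) (nat_lit 195))) (PT.nd (nat_lit 78) (PT.lf (nat_lit 43092) (nat_lit 6) (nat_lit 567) (nat_lit 4) (nat_lit 172) (nat_lit 204) (nat_lit 194)) (PT.lf (nat_lit 44384) (nat_lit 6) (nat_lit 584) (nat_lit 4) (nat_lit 173) (nat_lit 204) (nat_lit 193))))) (PT.nd (nat_lit 312) (PT.nd (nat_lit 156) (PT.nd (nat_lit 78) (PT.lf (nat_lit 45600) (nat_lit 6) (nat_lit 600) (nat_lit 4) (nat_lit 174) (nat_lit 204) (nat_lit 192)) (PT.lf (nat_lit 46740) (nat_lit 6) (nat_lit 615) (nat_lit 4) (nat_lit 175) (nat_lit 204) (nat_lit 191))) (PT.nd (nat_lit 78) (PT.lf (nat_lit 47804) (nat_lit 6) (nat_lit 629) (nat_lit 4) (nat_lit 176) (nat_lit 204) (nat_lit 190)) (PT.lf (nat_lit 47728) (nat_lit 6) (nat_lit 628) (nat_lit 4) (nat_lit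 177) (nat_lit 204) (nat_lit 189)))) (PT.nd (nat_lit 156) (PT.nd (nat_lit 78) (PT.lf (nat_lit 47652) (nat_lit 6) (nat_lit 627) (nat_lit 4) (nat_lit 178) (nat_lit 204) (nat_lit 188)) (PT.lf (nat_lit 47576) (nat_lit 6) (nat_lit 626) (nat_lit 4) (nat_lit 179) (nat_lit 204) (nat_lit 187))) (PT.nd (nat_lit 78) (PT.lf (nat_lit 47500) (nat_lit 6) (nat_lit 625) (nat_lit 4) (nat_lit 180) (nat_lit 204) (nat_lit 186)) (PT.lf (nat_lit 47424) (nat_lit 6) (nat_lit 624) (nat_lit 4) (nat_lit 181) (nat_lit 204) (nat_lit 185))))))))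
noncomputable def pc43 : PT := (PT.nd (nat_lit 1248) (PT.nd (nat_lit 624) (PT.nd (nat_lit 312) (PT.nd (nat_lit 156) (PT.nd (nat_lit 78) (PT.lf (nat_lit 47348) (nat_lit 6) (nat_lit 623) (nat_lit 4) (nat_lit 182) (nat_lit 204) (nat_lit 184)) (PT.lf (nat_lit 47272) (nat_lit 3) (nat_lit 622) (nat_lit 2) (nat_lit 183) (nat_lit 204) (nat_lit 183))) (PT.nd (nat_lit 78) (PT.lf (nat_lit 47348) (nat_lit 6) (nat_lit 623) (nat_lit 2) (nat_lit 184) (nat_lit 204) (nat_lit 182)) (PT.lf (nat_lit 47424) (nat_lit 6) (nat_lit 624) (nat_lit 2) (nat_lit 185) (nat_lit 204) (nat_lit 181)))) (PT.nd (nat_lit 156) (PT.nd (nat_lit 78) (PT.lf (nat_lit 47500) (nat_lit 6) (nat_lit 625) (nat_lit 2) (nat_lit 186) (nat_lit 204) (nat_lit 180)) (PT.lf (nat_lit 47576) (nat_lit 6) (nat_lit 626) (nat_lit 2) (nat_lit 187) (nat_lit 204) (nat_lit 179))) (PT.nd (nat_lit 78) (PT.lf (nat_lit 47652) (nat_lit 6) (nat_lit 627) (nat_lit 2) (nat_lit 188) (nat_lit 204) (nat_lit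 178)) (PT.lf (nat_lit 47728) (nat_lit 6) (nat_lit 628) (nat_lit 2) (nat_lit 189) (nat_lit 204) (nat_lit 177))))) (PT.nd (nat_lit 312) (PT.nd (nat_lit 156) (PT.nd (nat_lit 78) (PT.lf (nat_lit 47804) (nat_lit 6) (nat_lit 629) (nat_lit 2) (nat_lit 190) (nat_lit 204) (nat_lit 176)) (PT.lf (nat_lit 46740) (nat_lit 6) (nat_lit 615) (nat_lit 2) (nat_lit 191) (nat_lit 204) (nat_lit 175))) (PT.nd (nat_lit 78) (PT.lf (nat_lit 45600) (nat_lit 6) (nat_lit 600) (nat_lit 2) (nat_lit 192) (nat_lit 204) (nat_lit 174)) (PT.lf (nat_lit 44384) (nat_lit 6) (nat_lit 584) (nat_lit 2) (nat_lit 193) (nat_lit 204) (nat_lit 173)))) (PT.nd (nat_lit 156) (PT.nd (nat_lit 78) (PT.lf (nat_lit 43092) (nat_lit 6) (nat_lit 567) (nat_lit 2) (nat_lit 194) (nat_lit 204) (nat_lit 172)) (PT.lf (nat_lit 41724) (nat_lit 6) (nat_lit 549) (nat_lit 2) (nat_lit 195) (nat_lit 204) (nat_lit 171))) (PT.nd (nat_lit 78) (PT.lf (nat_lit 40280) (nat_lit 6) (nat_lit 530) (nat_lit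 2) (nat_lit 196) (nat_lit 204) (nat_lit 170)) (PT.lf (nat_lit 38760) (nat_lit 6) (nat_lit 510) (nat_lit 2) (nat_lit 197) (nat_lit 204) (nat_lit 169)))))) (PT.nd (nat_lit 624) (PT.nd (nat_lit 312) (PT.nd (nat_lit 156) (PT.nd (nat_lit 78) (PT.lf (nat_lit 37164) (nat_lit 6) (nat_lit 489) (nat_lit 2) (nat_lit 198) (nat_lit 204) (nat_lit 168)) (PT.lf (nat_lit 35492) (nat_lit 6) (nat_lit 467) (nat_lit 2) (nat_lit 199) (nat_lit 204) (nat_lit 167))) (PT.nd (nat_lit 78) (PT.lf (nat_lit 33744) (nat_lit 6) (nat_lit 444) (nat_lit 2) (nat_lit 200) (nat_lit 204) (nat_lit 166)) (PT.lf (nat_lit 32300) (nat_lit 6) (nat_lit 425) (nat_lit 2) (nat_lit 201) (nat_lit 204) (nat_lit 165)))) (PT.nd (nat_lit 156) (PT.nd (nat_lit 78) (PT.lf (nat_lit 31388) (nat_lit 6) (nat_lit 413) (nat_lit 2) (nat_lit 202) (nat_lit 204) (nat_lit 164)) (PT.lf (nat_lit 30476) (nat_lit 6) (nat_lit 401) (nat_lit 2) (nat_lit 203) (nat_lit 204) (nat_lit 163))) (PT.nd (nat_lit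 78) (PT.lf (nat_lit 29564) (nat_lit 3) (nat_lit 389) (nat_lit 0) (nat_lit 204) (nat_lit 204) (nat_lit 162)) (PT.lf (nat_lit 28652) (nat_lit 6) (nat_lit 377) (nat_lit 0) (nat_lit 205) (nat_lit 204) (nat_lit 161))))) (PT.nd (nat_lit 312) (PT.nd (nat_lit 156) (PT.nd (nat_lit 78) (PT.lf (nat_lit 27740) (nat_lit 6) (nat_lit 365) (nat_lit 0) (nat_lit 206) (nat_lit 204) (nat_lit 160)) (PT.lf (nat_lit 26904) (nat_lit 6) (nat_lit 354) (nat_lit 0) (nat_lit 207) (nat_lit 204) (nat_lit 159))) (PT.nd (nat_lit 78) (PT.lf (nat_lit 26068) (nat_lit 6) (nat_lit 343) (nat_lit 0) (nat_lit 208) (nat_lit 204) (nat_lit 158)) (PT.lf (nat_lit 25232) (nat_lit 6) (nat_lit 332) (nat_lit 0) (nat_lit 209) (nat_lit 204) (nat_lit 157)))) (PT.nd (nat_lit 156) (PT.nd (nat_lit 78) (PT.lf (nat_lit 24396) (nat_lit 6) (nat_lit 321) (nat_lit 0) (nat_lit 210) (nat_lit 204) (nat_lit 156)) (PT.lf (nat_lit 23636) (nat_lit 6) (nat_lit 311) (nat_lit 0) (nat_lit 211) (nat_lit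 204) (nat_lit 155))) (PT.nd (nat_lit 78) (PT.lf (nat_lit 22876) (nat_lit 6) (nat_lit 301) (nat_lit 0) (nat_lit 212) (nat_lit 204) (nat_lit 154)) (PT.lf (nat_lit 22116) (nat_lit 6) (nat_lit 291) (nat_lit 0) (nat_lit 213) (nat_lit 204) (nat_lit 153)))))))
noncomputable def pc44 : PT := (PT.nd (nat_lit 54912) (PT.nd (nat_lit 54288) (PT.nd (nat_lit 312) (PT.nd (nat_lit 156) (PT.nd (nat_lit 78) (PT.lf (nat_lit 21356) (nat_lit 6) (nat_lit 281) (nat_lit 0) (nat_lit 214) (nat_lit 204) (nat_lit 152)) (PT.lf (nat_lit 20672) (nat_lit 6) (nat_lit 272) (nat_lit 0) (nat_lit 215) (nat_lit 204) (nat_lit 151))) (PT.nd (nat_lit 78) (PT.lf (nat_lit 19988) (nat_lit 6) (nat_lit 263) (nat_lit 0) (nat_lit 216) (nat_lit 204) (nat_lit 150)) (PT.lf (nat_lit 19304) (nat_lit 6) (nat_lit 254) (nat_lit 0) (nat_lit 217) (nat_lit 204) (nat_lit 149)))) (PT.nd (nat_lit 53820) (PT.nd (nat_lit 53742) (PT.lf (nat_lit 18620) (nat_lit 6) (nat_lit 245) (nat_lit 0)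 (nat_lit 218) (nat_lit 204) (nat_lit 148)) (PT.lf (nat_lit 17404) (nat_lit 6) (nat_lit 229) (nat_lit 5) (nat_lit 146) (nat_lit 205) (nat_lit 219))) (PT.nd (nat_lit 78) (PT.lf (nat_lit 18088) (nat_lit 6) (nat_lit 238) (nat_lit 5) (nat_lit 147) (nat_lit 205) (nat_lit 218)) (PT.lf (nat_lit 18696) (nat_lit 6) (nat_lit 246) (nat_lit 5) (nat_lit 148) (nat_lit 205) (nat_lit 217))))) (PT.nd (nat_lit 312) (PT.nd (nat_lit 156) (PT.nd (nat_lit 78) (PT.lf (nat_lit 19380) (nat_lit 6) (nat_lit 255) (nat_lit 5) (nat_lit 149) (nat_lit 205) (nat_lit 216)) (PT.lf (nat_lit 20064) (nat_lit 6) (nat_lit 264) (nat_lit 5) (nat_lit 150) (nat_lit 205) (nat_lit 215))) (PT.nd (nat_lit 78) (PT.lf (nat_lit 20748) (nat_lit 6) (nat_lit 273) (nat_lit 5) (nat_lit 151) (nat_lit 205) (nat_lit 214)) (PT.lf (nat_lit 21432) (nat_lit 6) (nat_lit 282) (nat_lit 5) (nat_lit 152) (nat_lit 205) (nat_lit 213)))) (PT.nd (nat_lit 156) (PT.nd (nat_lit 78) (PT.lf (nat_lit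 22192) (nat_lit 6) (nat_lit 292) (nat_lit 5) (nat_lit 153) (nat_lit 205) (nat_lit 212)) (PT.lf (nat_lit 22952) (nat_lit 6) (nat_lit 302) (nat_lit 5) (nat_lit 154) (nat_lit 205) (nat_lit 211))) (PT.nd (nat_lit 78) (PT.lf (nat_lit 23712) (nat_lit 6) (nat_lit 312) (nat_lit 5) (nat_lit 155) (nat_lit 205) (nat_lit 210)) (PT.lf (nat_lit 24472) (nat_lit 6) (nat_lit 322) (nat_lit 5) (nat_lit 156) (nat_lit 205) (nat_lit 209)))))) (PT.nd (nat_lit 624) (PT.nd (nat_lit 312) (PT.nd (nat_lit 156) (PT.nd (nat_lit 78) (PT.lf (nat_lit 25308) (nat_lit 6) (nat_lit 333) (nat_lit 5) (nat_lit 157) (nat_lit 205) (nat_lit 208)) (PT.lf (nat_lit 26144) (nat_lit 6) (nat_lit 344) (nat_lit 5) (nat_lit 158) (nat_lit 205) (nat_lit 207))) (PT.nd (nat_lit 78) (PT.lf (nat_lit 26980) (nat_lit 6) (nat_lit 355) (nat_lit 5) (nat_lit 159) (nat_lit 205) (nat_lit 206)) (PT.lf (nat_lit 27816) (nat_lit 3) (nat_lit 366) (nat_lit 4) (nat_lit 160) (nat_lit 205) (nat_lit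 205)))) (PT.nd (nat_lit 156) (PT.nd (nat_lit 78) (PT.lf (nat_lit 28652) (nat_lit 6) (nat_lit 377) (nat_lit 4) (nat_lit 161) (nat_lit 205) (nat_lit 204)) (PT.lf (nat_lit 29488) (nat_lit 6) (nat_lit 388) (nat_lit 4) (nat_lit 162) (nat_lit 205) (nat_lit 203))) (PT.nd (nat_lit 78) (PT.lf (nat_lit 30400) (nat_lit 6) (nat_lit 400) (nat_lit 4) (nat_lit 163) (nat_lit 205) (nat_lit 202)) (PT.lf (nat_lit 31312) (nat_lit 6) (nat_lit 412) (nat_lit 4) (nat_lit 164) (nat_lit 205) (nat_lit 201))))) (PT.nd (nat_lit 312) (PT.nd (nat_lit 156) (PT.nd (nat_lit 78) (PT.lf (nat_lit 32224) (nat_lit 6) (nat_lit 424) (nat_lit 4) (nat_lit 165) (nat_lit 205) (nat_lit 200)) (PT.lf (nat_lit 33668) (nat_lit 6) (nat_lit 443) (nat_lit 4) (nat_lit 166) (nat_lit 205) (nat_lit 199))) (PT.nd (nat_lit 78) (PT.lf (nat_lit 35416) (nat_lit 6) (nat_lit 466) (nat_lit 4) (nat_lit 167) (nat_lit 205) (nat_lit 198)) (PT.lf (nat_lit 37088) (nat_lit 6) (nat_lit 488) (nat_lit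 4) (nat_lit 168) (nat_lit 205) (nat_lit 197)))) (PT.nd (nat_lit 156) (PT.nd (nat_lit 78) (PT.lf (nat_lit 38684) (nat_lit 6) (nat_lit 509) (nat_lit 4) (nat_lit 169) (nat_lit 205) (nat_lit 196)) (PT.lf (nat_lit 40204) (nat_lit 6) (nat_lit 529) (nat_lit 4) (nat_lit 170) (nat_lit 205) (nat_lit 195))) (PT.nd (nat_lit 78) (PT.lf (nat_lit 41648) (nat_lit 6) (nat_lit 548) (nat_lit 4) (nat_lit 171) (nat_lit 205) (nat_lit 194)) (PT.nd (nat_lit 78) (PT.lf (nat_lit 43016) (nat_lit 6) (nat_lit 566) (nat_lit 4) (nat_lit 172) (nat_lit 205) (nat_lit 193)) (PT.lf (nat_lit 44308) (nat_lit 6) (nat_lit 583) (nat_lit 4) (nat_lit 173) (nat_lit 205) (nat_lit 192))))))))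
noncomputable def pc45 : PT := (PT.nd (nat_lit 2496) (PT.nd (nat_lit 1248) (PT.nd (nat_lit 624) (PT.nd (nat_lit 312) (PT.nd (nat_lit 156) (PT.nd (nat_lit 78) (PT.lf (nat_lit 45524) (nat_lit 6) (nat_lit 599) (nat_lit 4) (nat_lit 174) (nat_lit 205) (nat_lit 191)) (PT.lf (nat_lit 46664) (nat_lit 6) (nat_lit 614) (nat_lit 4) (nat_lit 175) (nat_lit 205) (nat_lit 190))) (PT.nd (nat_lit 78) (PT.lf (nat_lit 46588) (nat_lit 6) (nat_lit 613) (nat_lit 4) (nat_lit 176) (nat_lit 205) (nat_lit 189)) (PT.lf (nat_lit 46512) (nat_lit 6) (nat_lit 612) (nat_lit 4) (nat_lit 177) (nat_lit 205) (nat_lit 188)))) (PT.nd (nat_lit 156) (PT.nd (nat_lit 78) (PT.lf (nat_lit 46436) (nat_lit 6) (nat_lit 611) (nat_lit 4) (nat_lit 178) (nat_lit 205) (nat_lit 187)) (PT.lf (nat_lit 46360) (nat_lit 6) (nat_lit 610) (nat_lit 4) (nat_lit 179) (nat_lit 205) (nat_lit 186))) (PT.nd (nat_lit 78) (PT.lf (nat_lit 46284) (nat_lit 6) (nat_lit 609) (nat_lit 4) (nat_lit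 180) (nat_lit 205) (nat_lit 185)) (PT.lf (nat_lit 46208) (nat_lit 6) (nat_lit 608) (nat_lit 4) (nat_lit 181) (nat_lit 205) (nat_lit 184))))) (PT.nd (nat_lit 312) (PT.nd (nat_lit 156) (PT.nd (nat_lit 78) (PT.lf (nat_lit 46132) (nat_lit 6) (nat_lit 607) (nat_lit 4) (nat_lit 182) (nat_lit 205) (nat_lit 183)) (PT.lf (nat_lit 46132) (nat_lit 6) (nat_lit 607) (nat_lit 2) (nat_lit 183) (nat_lit 205) (nat_lit 182))) (PT.nd (nat_lit 78) (PT.lf (nat_lit 46208) (nat_lit 6) (nat_lit 608) (nat_lit 2) (nat_lit 184) (nat_lit 205) (nat_lit 181)) (PT.lf (nat_lit 46284) (nat_lit 6) (nat_lit 609) (nat_lit 2) (nat_lit 185) (nat_lit 205) (nat_lit 180)))) (PT.nd (nat_lit 156) (PT.nd (nat_lit 78) (PT.lf (nat_lit 46360) (nat_lit 6) (nat_lit 610) (nat_lit 2) (nat_lit 186) (nat_lit 205) (nat_lit 179)) (PT.lf (nat_lit 46436) (nat_lit 6) (nat_lit 611) (nat_lit 2) (nat_lit 187) (nat_lit 205) (nat_lit 178))) (PT.nd (nat_lit 78) (PT.lf (nat_lit 46512) (nat_lit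 6) (nat_lit 612) (nat_lit 2) (nat_lit 188) (nat_lit 205) (nat_lit 177)) (PT.lf (nat_lit 46588) (nat_lit 6) (nat_lit 613) (nat_lit 2) (nat_lit 189) (nat_lit 205) (nat_lit 176)))))) (PT.nd (nat_lit 624) (PT.nd (nat_lit 312) (PT.nd (nat_lit 156) (PT.nd (nat_lit 78) (PT.lf (nat_lit 46664) (nat_lit 6) (nat_lit 614) (nat_lit 2) (nat_lit 190) (nat_lit 205) (nat_lit 175)) (PT.lf (nat_lit 45524) (nat_lit 6) (nat_lit 599) (nat_lit 2) (nat_lit 191) (nat_lit 205) (nat_lit 174))) (PT.nd (nat_lit 78) (PT.lf (nat_lit 44308) (nat_lit 6) (nat_lit 583) (nat_lit 2) (nat_lit 192) (nat_lit 205) (nat_lit 173)) (PT.lf (nat_lit 43016) (nat_lit 6) (nat_lit 566) (nat_lit 2) (nat_lit 193) (nat_lit 205) (nat_lit 172)))) (PT.nd (nat_lit 156) (PT.nd (nat_lit 78) (PT.lf (nat_lit 41648) (nat_lit 6) (nat_lit 548) (nat_lit 2) (nat_lit 194) (nat_lit 205) (nat_lit 171)) (PT.lf (nat_lit 40204) (nat_lit 6) (nat_lit 529) (nat_lit 2) (nat_lit 195) (nat_lit 205) (nat_lit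 170))) (PT.nd (nat_lit 78) (PT.lf (nat_lit 38684) (nat_lit 6) (nat_lit 509) (nat_lit 2) (nat_lit 196) (nat_lit 205) (nat_lit 169)) (PT.lf (nat_lit 37088) (nat_lit 6) (nat_lit 488) (nat_lit 2) (nat_lit 197) (nat_lit 205) (nat_lit 168))))) (PT.nd (nat_lit 312) (PT.nd (nat_lit 156) (PT.nd (nat_lit 78) (PT.lf (nat_lit 35416) (nat_lit 6) (nat_lit 466) (nat_lit 2) (nat_lit 198) (nat_lit 205) (nat_lit 167)) (PT.lf (nat_lit 33668) (nat_lit 6) (nat_lit 443) (nat_lit 2) (nat_lit 199) (nat_lit 205) (nat_lit 166))) (PT.nd (nat_lit 78) (PT.lf (nat_lit 32224) (nat_lit 6) (nat_lit 424) (nat_lit 2) (nat_lit 200) (nat_lit 205) (nat_lit 165)) (PT.lf (nat_lit 31312) (nat_lit 6) (nat_lit 412) (nat_lit 2) (nat_lit 201) (nat_lit 205) (nat_lit 164)))) (PT.nd (nat_lit 156) (PT.nd (nat_lit 78) (PT.lf (nat_lit 30400) (nat_lit 6) (nat_lit 400) (nat_lit 2) (nat_lit 202) (nat_lit 205) (nat_lit 163)) (PT.lf (nat_lit 29488) (nat_lit 6) (nat_lit 388) (nat_lit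 2) (nat_lit 203) (nat_lit 205) (nat_lit 162))) (PT.nd (nat_lit 78) (PT.lf (nat_lit 28652) (nat_lit 6) (nat_lit 377) (nat_lit 2) (nat_lit 204) (nat_lit 205) (nat_lit 161)) (PT.lf (nat_lit 27816) (nat_lit 3) (nat_lit 366) (nat_lit 0) (nat_lit 205) (nat_lit 205) (nat_lit 160))))))) (PT.nd (nat_lit 54756) (PT.nd (nat_lit 624) (PT.nd (nat_lit 312) (PT.nd (nat_lit 156) (PT.nd (nat_lit 78) (PT.lf (nat_lit 26980) (nat_lit 6) (nat_lit 355) (nat_lit 0) (nat_lit 206) (nat_lit 205) (nat_lit 159)) (PT.lf (nat_lit 26144) (nat_lit 6) (nat_lit 344) (nat_lit 0) (nat_lit 207) (nat_lit 205) (nat_lit 158))) (PT.nd (nat_lit 78) (PT.lf (nat_lit 25308) (nat_lit 6) (nat_lit 333) (nat_lit 0) (nat_lit 208) (nat_lit 205) (nat_lit 157)) (PT.lf (nat_lit 24472) (nat_lit 6) (nat_lit 322) (nat_lit 0) (nat_lit 209) (nat_lit 205) (nat_lit 156)))) (PT.nd (nat_lit 156) (PT.nd (nat_lit 78) (PT.lf (nat_lit 23712) (nat_lit 6) (nat_lit 312) (nat_lit 0) (nat_lit 210)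 (nat_lit 205) (nat_lit 155)) (PT.lf (nat_lit 22952) (nat_lit 6) (nat_lit 302) (nat_lit 0) (nat_lit 211) (nat_lit 205) (nat_lit 154))) (PT.nd (nat_lit 78) (PT.lf (nat_lit 22192) (nat_lit 6) (nat_lit 292) (nat_lit 0) (nat_lit 212) (nat_lit 205) (nat_lit 153)) (PT.lf (nat_lit 21432) (nat_lit 6) (nat_lit 282) (nat_lit 0) (nat_lit 213) (nat_lit 205) (nat_lit 152))))) (PT.nd (nat_lit 312) (PT.nd (nat_lit 156) (PT.nd (nat_lit 78) (PT.lf (nat_lit 20748) (nat_lit 6) (nat_lit 273) (nat_lit 0) (nat_lit 214) (nat_lit 205) (nat_lit 151)) (PT.lf (nat_lit 20064) (nat_lit 6) (nat_lit 264) (nat_lit 0) (nat_lit 215) (nat_lit 205) (nat_lit 150))) (PT.nd (nat_lit 78) (PT.lf (nat_lit 19380) (nat_lit 6) (nat_lit 255) (nat_lit 0) (nat_lit 216) (nat_lit 205) (nat_lit 149)) (PT.lf (nat_lit 18696) (nat_lit 6) (nat_lit 246) (nat_lit 0) (nat_lit 217) (nat_lit 205) (nat_lit 148)))) (PT.nd (nat_lit 53664) (PT.nd (nat_lit 78) (PT.lf (nat_lit 18088) (nat_lit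 6) (nat_lit 238) (nat_lit 0) (nat_lit 218) (nat_lit 205) (nat_lit 147)) (PT.lf (nat_lit 17404) (nat_lit 6) (nat_lit 229) (nat_lit 0) (nat_lit 219) (nat_lit 205) (nat_lit 146))) (PT.nd (nat_lit 78) (PT.lf (nat_lit 16872) (nat_lit 6) (nat_lit 222) (nat_lit 5) (nat_lit 145) (nat_lit 206) (nat_lit 219)) (PT.lf (nat_lit 17480) (nat_lit 6) (nat_lit 230) (nat_lit 5) (nat_lit 146) (nat_lit 206) (nat_lit 218)))))) (PT.nd (nat_lit 624) (PT.nd (nat_lit 312) (PT.nd (nat_lit 156) (PT.nd (nat_lit 78) (PT.lf (nat_lit 18164) (nat_lit 6) (nat_lit 239) (nat_lit 5) (nat_lit 147) (nat_lit 206) (nat_lit 217)) (PT.lf (nat_lit 18772) (nat_lit 6) (nat_lit 247) (nat_lit 5) (nat_lit 148) (nat_lit 206) (nat_lit 216))) (PT.nd (nat_lit 78) (PT.lf (nat_lit 19456) (nat_lit 6) (nat_lit 256) (nat_lit 5) (nat_lit 149) (nat_lit 206) (nat_lit 215)) (PT.lf (nat_lit 20140) (nat_lit 6) (nat_lit 265) (nat_lit 5) (nat_lit 150) (nat_lit 206) (nat_lit 214)))) (PT.nd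 (nat_lit 156) (PT.nd (nat_lit 78) (PT.lf (nat_lit 20824) (nat_lit 6) (nat_lit 274) (nat_lit 5) (nat_lit 151) (nat_lit 206) (nat_lit 213)) (PT.lf (nat_lit 21508) (nat_lit 6) (nat_lit 283) (nat_lit 5) (nat_lit 152) (nat_lit 206) (nat_lit 212))) (PT.nd (nat_lit 78) (PT.lf (nat_lit 22268) (nat_lit 6) (nat_lit 293) (nat_lit 5) (nat_lit 153) (nat_lit 206) (nat_lit 211)) (PT.lf (nat_lit 23028) (nat_lit 6) (nat_lit 303) (nat_lit 5) (nat_lit 154) (nat_lit 206) (nat_lit 210))))) (PT.nd (nat_lit 312) (PT.nd (nat_lit 156) (PT.nd (nat_lit 78) (PT.lf (nat_lit 23788) (nat_lit 6) (nat_lit 313) (nat_lit 5) (nat_lit 155) (nat_lit 206) (nat_lit 209)) (PT.lf (nat_lit 24548) (nat_lit 6) (nat_lit 323) (nat_lit 5) (nat_lit 156) (nat_lit 206) (nat_lit 208))) (PT.nd (nat_lit 78) (PT.lf (nat_lit 25384) (nat_lit 6) (nat_lit 334) (nat_lit 5) (nat_lit 157) (nat_lit 206) (nat_lit 207)) (PT.lf (nat_lit 26220) (nat_lit 3) (nat_lit 345) (nat_lit 4) (nat_lit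 158) (nat_lit 206) (nat_lit 206)))) (PT.nd (nat_lit 156) (PT.nd (nat_lit 78) (PT.lf (nat_lit 26980) (nat_lit 6) (nat_lit 355) (nat_lit 4) (nat_lit 159) (nat_lit 206) (nat_lit 205)) (PT.lf (nat_lit 27740) (nat_lit 6) (nat_lit 365) (nat_lit 4) (nat_lit 160) (nat_lit 206) (nat_lit 204))) (PT.nd (nat_lit 78) (PT.lf (nat_lit 28576) (nat_lit 6) (nat_lit 376) (nat_lit 4) (nat_lit 161) (nat_lit 206) (nat_lit 203)) (PT.lf (nat_lit 29412) (nat_lit 6) (nat_lit 387) (nat_lit 4) (nat_lit 162) (nat_lit 206) (nat_lit 202))))))))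
noncomputable def pc46 : PT := (PT.nd (nat_lit 2496) (PT.nd (nat_lit 1248) (PT.nd (nat_lit 624) (PT.nd (nat_lit 312) (PT.nd (nat_lit 156) (PT.nd (nat_lit 78) (PT.lf (nat_lit 30324) (nat_lit 6) (nat_lit 399) (nat_lit 4) (nat_lit 163) (nat_lit 206) (nat_lit 201)) (PT.lf (nat_lit 31236) (nat_lit 6) (nat_lit 411) (nat_lit 4) (nat_lit 164) (nat_lit 206) (nat_lit 200))) (PT.nd (nat_lit 78) (PT.lf (nat_lit 32148) (nat_lit 6) (nat_lit 423) (nat_lit 4) (nat_lit 165) (nat_lit 206) (nat_lit 199)) (PT.lf (nat_lit 33592) (nat_lit 6) (nat_lit 442) (nat_lit 4) (nat_lit 166) (nat_lit 206) (nat_lit 198)))) (PT.nd (nat_lit 156) (PT.nd (nat_lit 78) (PT.lf (nat_lit 35340) (nat_lit 6) (nat_lit 465) (nat_lit 4) (nat_lit 167) (nat_lit 206) (nat_lit 197)) (PT.lf (nat_lit 37012) (nat_lit 6) (nat_lit 487) (nat_lit 4) (nat_lit 168) (nat_lit 206) (nat_lit 196))) (PT.nd (nat_lit 78) (PT.lf (nat_lit 38608) (nat_lit 6) (nat_lit 508) (nat_lit 4) (nat_lit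 169) (nat_lit 206) (nat_lit 195)) (PT.lf (nat_lit 40128) (nat_lit 6) (nat_lit 528) (nat_lit 4) (nat_lit 170) (nat_lit 206) (nat_lit 194))))) (PT.nd (nat_lit 312) (PT.nd (nat_lit 156) (PT.nd (nat_lit 78) (PT.lf (nat_lit 41572) (nat_lit 6) (nat_lit 547) (nat_lit 4) (nat_lit 171) (nat_lit 206) (nat_lit 193)) (PT.lf (nat_lit 42940) (nat_lit 6) (nat_lit 565) (nat_lit 4) (nat_lit 172) (nat_lit 206) (nat_lit 192))) (PT.nd (nat_lit 78) (PT.lf (nat_lit 44232) (nat_lit 6) (nat_lit 582) (nat_lit 4) (nat_lit 173) (nat_lit 206) (nat_lit 191)) (PT.lf (nat_lit 45448) (nat_lit 6) (nat_lit 598) (nat_lit 4) (nat_lit 174) (nat_lit 206) (nat_lit 190)))) (PT.nd (nat_lit 156) (PT.nd (nat_lit 78) (PT.lf (nat_lit 45372) (nat_lit 6) (nat_lit 597) (nat_lit 4) (nat_lit 175) (nat_lit 206) (nat_lit 189)) (PT.lf (nat_lit 45296) (nat_lit 6) (nat_lit 596) (nat_lit 4) (nat_lit 176) (nat_lit 206) (nat_lit 188))) (PT.nd (nat_lit 78) (PT.lf (nat_lit 45220) (nat_lit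 6) (nat_lit 595) (nat_lit 4) (nat_lit 177) (nat_lit 206) (nat_lit 187)) (PT.lf (nat_lit 45144) (nat_lit 6) (nat_lit 594) (nat_lit 4) (nat_lit 178) (nat_lit 206) (nat_lit 186)))))) (PT.nd (nat_lit 624) (PT.nd (nat_lit 312) (PT.nd (nat_lit 156) (PT.nd (nat_lit 78) (PT.lf (nat_lit 45068) (nat_lit 6) (nat_lit 593) (nat_lit 4) (nat_lit 179) (nat_lit 206) (nat_lit 185)) (PT.lf (nat_lit 44992) (nat_lit 6) (nat_lit 592) (nat_lit 4) (nat_lit 180) (nat_lit 206) (nat_lit 184))) (PT.nd (nat_lit 78) (PT.lf (nat_lit 44916) (nat_lit 6) (nat_lit 591) (nat_lit 4) (nat_lit 181) (nat_lit 206) (nat_lit 183)) (PT.lf (nat_lit 44840) (nat_lit 3) (nat_lit 590) (nat_lit 2) (nat_lit 182) (nat_lit 206) (nat_lit 182)))) (PT.nd (nat_lit 156) (PT.nd (nat_lit 78) (PT.lf (nat_lit 44916) (nat_lit 6) (nat_lit 591) (nat_lit 2) (nat_lit 183) (nat_lit 206) (nat_lit 181)) (PT.lf (nat_lit 44992) (nat_lit 6) (nat_lit 592) (nat_lit 2) (nat_lit 184) (nat_lit 206) (nat_lit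 180))) (PT.nd (nat_lit 78) (PT.lf (nat_lit 45068) (nat_lit 6) (nat_lit 593) (nat_lit 2) (nat_lit 185) (nat_lit 206) (nat_lit 179)) (PT.lf (nat_lit 45144) (nat_lit 6) (nat_lit 594) (nat_lit 2) (nat_lit 186) (nat_lit 206) (nat_lit 178))))) (PT.nd (nat_lit 312) (PT.nd (nat_lit 156) (PT.nd (nat_lit 78) (PT.lf (nat_lit 45220) (nat_lit 6) (nat_lit 595) (nat_lit 2) (nat_lit 187) (nat_lit 206) (nat_lit 177)) (PT.lf (nat_lit 45296) (nat_lit 6) (nat_lit 596) (nat_lit 2) (nat_lit 188) (nat_lit 206) (nat_lit 176))) (PT.nd (nat_lit 78) (PT.lf (nat_lit 45372) (nat_lit 6) (nat_lit 597) (nat_lit 2) (nat_lit 189) (nat_lit 206) (nat_lit 175)) (PT.lf (nat_lit 45448) (nat_lit 6) (nat_lit 598) (nat_lit 2) (nat_lit 190) (nat_lit 206) (nat_lit 174)))) (PT.nd (nat_lit 156) (PT.nd (nat_lit 78) (PT.lf (nat_lit 44232) (nat_lit 6) (nat_lit 582) (nat_lit 2) (nat_lit 191) (nat_lit 206) (nat_lit 173)) (PT.lf (nat_lit 42940) (nat_lit 6) (nat_lit 565) (nat_lit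 2) (nat_lit 192) (nat_lit 206) (nat_lit 172))) (PT.nd (nat_lit 78) (PT.lf (nat_lit 41572) (nat_lit 6) (nat_lit 547) (nat_lit 2) (nat_lit 193) (nat_lit 206) (nat_lit 171)) (PT.lf (nat_lit 40128) (nat_lit 6) (nat_lit 528) (nat_lit 2) (nat_lit 194) (nat_lit 206) (nat_lit 170))))))) (PT.nd (nat_lit 1248) (PT.nd (nat_lit 624) (PT.nd (nat_lit 312) (PT.nd (nat_lit 156) (PT.nd (nat_lit 78) (PT.lf (nat_lit 38608) (nat_lit 6) (nat_lit 508) (nat_lit 2) (nat_lit 195) (nat_lit 206) (nat_lit 169)) (PT.lf (nat_lit 37012) (nat_lit 6) (nat_lit 487) (nat_lit 2) (nat_lit 196) (nat_lit 206) (nat_lit 168))) (PT.nd (nat_lit 78) (PT.lf (nat_lit 35340) (nat_lit 6) (nat_lit 465) (nat_lit 2) (nat_lit 197) (nat_lit 206) (nat_lit 167)) (PT.lf (nat_lit 33592) (nat_lit 6) (nat_lit 442) (nat_lit 2) (nat_lit 198) (nat_lit 206) (nat_lit 166)))) (PT.nd (nat_lit 156) (PT.nd (nat_lit 78) (PT.lf (nat_lit 32148) (nat_lit 6) (nat_lit 423) (nat_lit 2) (nat_lit 199)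 (nat_lit 206) (nat_lit 165)) (PT.lf (nat_lit 31236) (nat_lit 6) (nat_lit 411) (nat_lit 2) (nat_lit 200) (nat_lit 206) (nat_lit 164))) (PT.nd (nat_lit 78) (PT.lf (nat_lit 30324) (nat_lit 6) (nat_lit 399) (nat_lit 2) (nat_lit 201) (nat_lit 206) (nat_lit 163)) (PT.lf (nat_lit 29412) (nat_lit 6) (nat_lit 387) (nat_lit 2) (nat_lit 202) (nat_lit 206) (nat_lit 162))))) (PT.nd (nat_lit 312) (PT.nd (nat_lit 156) (PT.nd (nat_lit 78) (PT.lf (nat_lit 28576) (nat_lit 6) (nat_lit 376) (nat_lit 2) (nat_lit 203) (nat_lit 206) (nat_lit 161)) (PT.lf (nat_lit 27740) (nat_lit 6) (nat_lit 365) (nat_lit 2) (nat_lit 204) (nat_lit 206) (nat_lit 160))) (PT.nd (nat_lit 78) (PT.lf (nat_lit 26980) (nat_lit 6) (nat_lit 355) (nat_lit 2) (nat_lit 205) (nat_lit 206) (nat_lit 159)) (PT.lf (nat_lit 26220) (nat_lit 3) (nat_lit 345) (nat_lit 0) (nat_lit 206) (nat_lit 206) (nat_lit 158)))) (PT.nd (nat_lit 156) (PT.nd (nat_lit 78) (PT.lf (nat_lit 25384) (nat_lit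 6) (nat_lit 334) (nat_lit 0) (nat_lit 207) (nat_lit 206) (nat_lit 157)) (PT.lf (nat_lit 24548) (nat_lit 6) (nat_lit 323) (nat_lit 0) (nat_lit 208) (nat_lit 206) (nat_lit 156))) (PT.nd (nat_lit 78) (PT.lf (nat_lit 23788) (nat_lit 6) (nat_lit 313) (nat_lit 0) (nat_lit 209) (nat_lit 206) (nat_lit 155)) (PT.lf (nat_lit 23028) (nat_lit 6) (nat_lit 303) (nat_lit 0) (nat_lit 210) (nat_lit 206) (nat_lit 154)))))) (PT.nd (nat_lit 624) (PT.nd (nat_lit 312) (PT.nd (nat_lit 156) (PT.nd (nat_lit 78) (PT.lf (nat_lit 22268) (nat_lit 6) (nat_lit 293) (nat_lit 0) (nat_lit 211) (nat_lit 206) (nat_lit 153)) (PT.lf (nat_lit 21508) (nat_lit 6) (nat_lit 283) (nat_lit 0) (nat_lit 212) (nat_lit 206) (nat_lit 152))) (PT.nd (nat_lit 78) (PT.lf (nat_lit 20824) (nat_lit 6) (nat_lit 274) (nat_lit 0) (nat_lit 213) (nat_lit 206) (nat_lit 151)) (PT.lf (nat_lit 20140) (nat_lit 6) (nat_lit 265) (nat_lit 0) (nat_lit 214) (nat_lit 206) (nat_lit 150)))) (PT.nd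 (nat_lit 156) (PT.nd (nat_lit 78) (PT.lf (nat_lit 19456) (nat_lit 6) (nat_lit 256) (nat_lit 0) (nat_lit 215) (nat_lit 206) (nat_lit 149)) (PT.lf (nat_lit 18772) (nat_lit 6) (nat_lit 247) (nat_lit 0) (nat_lit 216) (nat_lit 206) (nat_lit 148))) (PT.nd (nat_lit 78) (PT.lf (nat_lit 18164) (nat_lit 6) (nat_lit 239) (nat_lit 0) (nat_lit 217) (nat_lit 206) (nat_lit 147)) (PT.lf (nat_lit 17480) (nat_lit 6) (nat_lit 230) (nat_lit 0) (nat_lit 218) (nat_lit 206) (nat_lit 146))))) (PT.nd (nat_lit 53664) (PT.nd (nat_lit 53508) (PT.nd (nat_lit 53430) (PT.lf (nat_lit 16872) (nat_lit 6) (nat_lit 222) (nat_lit 0) (nat_lit 219) (nat_lit 206) (nat_lit 145)) (PT.lf (nat_lit 15808) (nat_lit 6) (nat_lit 208) (nat_lit 5) (nat_lit 143) (nat_lit 207) (nat_lit 220))) (PT.nd (nat_lit 78) (PT.lf (nat_lit 16340) (nat_lit 6) (nat_lit 215) (nat_lit 5) (nat_lit 144) (nat_lit 207) (nat_lit 219)) (PT.lf (nat_lit 16948) (nat_lit 6) (nat_lit 223) (nat_lit 5)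 (nat_lit 145) (nat_lit 207) (nat_lit 218)))) (PT.nd (nat_lit 156) (PT.nd (nat_lit 78) (PT.lf (nat_lit 17556) (nat_lit 6) (nat_lit 231) (nat_lit 5) (nat_lit 146) (nat_lit 207) (nat_lit 217)) (PT.lf (nat_lit 18240) (nat_lit 6) (nat_lit 240) (nat_lit 5) (nat_lit 147) (nat_lit 207) (nat_lit 216))) (PT.nd (nat_lit 78) (PT.lf (nat_lit 18848) (nat_lit 6) (nat_lit 248) (nat_lit 5) (nat_lit 148) (nat_lit 207) (nat_lit 215)) (PT.lf (nat_lit 19532) (nat_lit 6) (nat_lit 257) (nat_lit 5) (nat_lit 149) (nat_lit 207) (nat_lit 214))))))))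
noncomputable def pc47 : PT := (PT.nd (nat_lit 2496) (PT.nd (nat_lit 1248) (PT.nd (nat_lit 624) (PT.nd (nat_lit 312) (PT.nd (nat_lit 156) (PT.nd (nat_lit 78) (PT.lf (nat_lit 20216) (nat_lit 6) (nat_lit 266) (nat_lit 5) (nat_lit 150) (nat_lit 207) (nat_lit 213)) (PT.lf (nat_lit 20900) (nat_lit 6) (nat_lit 275) (nat_lit 5) (nat_lit 151) (nat_lit 207) (nat_lit 212))) (PT.nd (nat_lit 78) (PT.lf (nat_lit 21584) (nat_lit 6) (nat_lit 284) (nat_lit 5) (nat_lit 152) (nat_lit 207) (nat_lit 211)) (PT.lf (nat_lit 22344) (nat_lit 6) (nat_lit 294) (nat_lit 5) (nat_lit 153) (nat_lit 207) (nat_lit 210)))) (PT.nd (nat_lit 156) (PT.nd (nat_lit 78) (PT.lf (nat_lit 23104) (nat_lit 6) (nat_lit 304) (nat_lit 5) (nat_lit 154) (nat_lit 207) (nat_lit 209)) (PT.lf (nat_lit 23864) (nat_lit 6) (nat_lit 314) (nat_lit 5) (nat_lit 155) (nat_lit 207) (nat_lit 208))) (PT.nd (nat_lit 78) (PT.lf (nat_lit 24624) (nat_lit 3) (nat_lit 324) (nat_lit 4) (nat_lit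 156) (nat_lit 207) (nat_lit 207)) (PT.lf (nat_lit 25384) (nat_lit 6) (nat_lit 334) (nat_lit 4) (nat_lit 157) (nat_lit 207) (nat_lit 206))))) (PT.nd (nat_lit 312) (PT.nd (nat_lit 156) (PT.nd (nat_lit 78) (PT.lf (nat_lit 26144) (nat_lit 6) (nat_lit 344) (nat_lit 4) (nat_lit 158) (nat_lit 207) (nat_lit 205)) (PT.lf (nat_lit 26904) (nat_lit 6) (nat_lit 354) (nat_lit 4) (nat_lit 159) (nat_lit 207) (nat_lit 204))) (PT.nd (nat_lit 78) (PT.lf (nat_lit 27664) (nat_lit 6) (nat_lit 364) (nat_lit 4) (nat_lit 160) (nat_lit 207) (nat_lit 203)) (PT.lf (nat_lit 28500) (nat_lit 6) (nat_lit 375) (nat_lit 4) (nat_lit 161) (nat_lit 207) (nat_lit 202)))) (PT.nd (nat_lit 156) (PT.nd (nat_lit 78) (PT.lf (nat_lit 29336) (nat_lit 6) (nat_lit 386) (nat_lit 4) (nat_lit 162) (nat_lit 207) (nat_lit 201)) (PT.lf (nat_lit 30248) (nat_lit 6) (nat_lit 398) (nat_lit 4) (nat_lit 163) (nat_lit 207) (nat_lit 200))) (PT.nd (nat_lit 78) (PT.lf (nat_lit 31160) (nat_lit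 6) (nat_lit 410) (nat_lit 4) (nat_lit 164) (nat_lit 207) (nat_lit 199)) (PT.lf (nat_lit 32072) (nat_lit 6) (nat_lit 422) (nat_lit 4) (nat_lit 165) (nat_lit 207) (nat_lit 198)))))) (PT.nd (nat_lit 624) (PT.nd (nat_lit 312) (PT.nd (nat_lit 156) (PT.nd (nat_lit 78) (PT.lf (nat_lit 33516) (nat_lit 6) (nat_lit 441) (nat_lit 4) (nat_lit 166) (nat_lit 207) (nat_lit 197)) (PT.lf (nat_lit 35264) (nat_lit 6) (nat_lit 464) (nat_lit 4) (nat_lit 167) (nat_lit 207) (nat_lit 196))) (PT.nd (nat_lit 78) (PT.lf (nat_lit 36936) (nat_lit 6) (nat_lit 486) (nat_lit 4) (nat_lit 168) (nat_lit 207) (nat_lit 195)) (PT.lf (nat_lit 38532) (nat_lit 6) (nat_lit 507) (nat_lit 4) (nat_lit 169) (nat_lit 207) (nat_lit 194)))) (PT.nd (nat_lit 156) (PT.nd (nat_lit 78) (PT.lf (nat_lit 40052) (nat_lit 6) (nat_lit 527) (nat_lit 4) (nat_lit 170) (nat_lit 207) (nat_lit 193)) (PT.lf (nat_lit 41496) (nat_lit 6) (nat_lit 546) (nat_lit 4) (nat_lit 171) (nat_lit 207) (nat_lit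 192))) (PT.nd (nat_lit 78) (PT.lf (nat_lit 42864) (nat_lit 6) (nat_lit 564) (nat_lit 4) (nat_lit 172) (nat_lit 207) (nat_lit 191)) (PT.lf (nat_lit 44156) (nat_lit 6) (nat_lit 581) (nat_lit 4) (nat_lit 173) (nat_lit 207) (nat_lit 190))))) (PT.nd (nat_lit 312) (PT.nd (nat_lit 156) (PT.nd (nat_lit 78) (PT.lf (nat_lit 44080) (nat_lit 6) (nat_lit 580) (nat_lit 4) (nat_lit 174) (nat_lit 207) (nat_lit 189)) (PT.lf (nat_lit 44004) (nat_lit 6) (nat_lit 579) (nat_lit 4) (nat_lit 175) (nat_lit 207) (nat_lit 188))) (PT.nd (nat_lit 78) (PT.lf (nat_lit 43928) (nat_lit 6) (nat_lit 578) (nat_lit 4) (nat_lit 176) (nat_lit 207) (nat_lit 187)) (PT.lf (nat_lit 43852) (nat_lit 6) (nat_lit 577) (nat_lit 4) (nat_lit 177) (nat_lit 207) (nat_lit 186)))) (PT.nd (nat_lit 156) (PT.nd (nat_lit 78) (PT.lf (nat_lit 43776) (nat_lit 6) (nat_lit 576) (nat_lit 4) (nat_lit 178) (nat_lit 207) (nat_lit 185)) (PT.lf (nat_lit 43700) (nat_lit 6) (nat_lit 575) (nat_lit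 4) (nat_lit 179) (nat_lit 207) (nat_lit 184))) (PT.nd (nat_lit 78) (PT.lf (nat_lit 43624) (nat_lit 6) (nat_lit 574) (nat_lit 4) (nat_lit 180) (nat_lit 207) (nat_lit 183)) (PT.lf (nat_lit 43548) (nat_lit 6) (nat_lit 573) (nat_lit 4) (nat_lit 181) (nat_lit 207) (nat_lit 182))))))) (PT.nd (nat_lit 1248) (PT.nd (nat_lit 624) (PT.nd (nat_lit 312) (PT.nd (nat_lit 156) (PT.nd (nat_lit 78) (PT.lf (nat_lit 43548) (nat_lit 6) (nat_lit 573) (nat_lit 2) (nat_lit 182) (nat_lit 207) (nat_lit 181)) (PT.lf (nat_lit 43624) (nat_lit 6) (nat_lit 574) (nat_lit 2) (nat_lit 183) (nat_lit 207) (nat_lit 180))) (PT.nd (nat_lit 78) (PT.lf (nat_lit 43700) (nat_lit 6) (nat_lit 575) (nat_lit 2) (nat_lit 184) (nat_lit 207) (nat_lit 179)) (PT.lf (nat_lit 43776) (nat_lit 6) (nat_lit 576) (nat_lit 2) (nat_lit 185) (nat_lit 207) (nat_lit 178)))) (PT.nd (nat_lit 156) (PT.nd (nat_lit 78) (PT.lf (nat_lit 43852) (nat_lit 6) (nat_lit 577) (nat_lit 2) (nat_lit 186)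 (nat_lit 207) (nat_lit 177)) (PT.lf (nat_lit 43928) (nat_lit 6) (nat_lit 578) (nat_lit 2) (nat_lit 187) (nat_lit 207) (nat_lit 176))) (PT.nd (nat_lit 78) (PT.lf (nat_lit 44004) (nat_lit 6) (nat_lit 579) (nat_lit 2) (nat_lit 188) (nat_lit 207) (nat_lit 175)) (PT.lf (nat_lit 44080) (nat_lit 6) (nat_lit 580) (nat_lit 2) (nat_lit 189) (nat_lit 207) (nat_lit 174))))) (PT.nd (nat_lit 312) (PT.nd (nat_lit 156) (PT.nd (nat_lit 78) (PT.lf (nat_lit 44156) (nat_lit 6) (nat_lit 581) (nat_lit 2) (nat_lit 190) (nat_lit 207) (nat_lit 173)) (PT.lf (nat_lit 42864) (nat_lit 6) (nat_lit 564) (nat_lit 2) (nat_lit 191) (nat_lit 207) (nat_lit 172))) (PT.nd (nat_lit 78) (PT.lf (nat_lit 41496) (nat_lit 6) (nat_lit 546) (nat_lit 2) (nat_lit 192) (nat_lit 207) (nat_lit 171)) (PT.lf (nat_lit 40052) (nat_lit 6) (nat_lit 527) (nat_lit 2) (nat_lit 193) (nat_lit 207) (nat_lit 170)))) (PT.nd (nat_lit 156) (PT.nd (nat_lit 78) (PT.lf (nat_lit 38532) (nat_lit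 6) (nat_lit 507) (nat_lit 2) (nat_lit 194) (nat_lit 207) (nat_lit 169)) (PT.lf (nat_lit 36936) (nat_lit 6) (nat_lit 486) (nat_lit 2) (nat_lit 195) (nat_lit 207) (nat_lit 168))) (PT.nd (nat_lit 78) (PT.lf (nat_lit 35264) (nat_lit 6) (nat_lit 464) (nat_lit 2) (nat_lit 196) (nat_lit 207) (nat_lit 167)) (PT.lf (nat_lit 33516) (nat_lit 6) (nat_lit 441) (nat_lit 2) (nat_lit 197) (nat_lit 207) (nat_lit 166)))))) (PT.nd (nat_lit 624) (PT.nd (nat_lit 312) (PT.nd (nat_lit 156) (PT.nd (nat_lit 78) (PT.lf (nat_lit 32072) (nat_lit 6) (nat_lit 422) (nat_lit 2) (nat_lit 198) (nat_lit 207) (nat_lit 165)) (PT.lf (nat_lit 31160) (nat_lit 6) (nat_lit 410) (nat_lit 2) (nat_lit 199) (nat_lit 207) (nat_lit 164))) (PT.nd (nat_lit 78) (PT.lf (nat_lit 30248) (nat_lit 6) (nat_lit 398) (nat_lit 2) (nat_lit 200) (nat_lit 207) (nat_lit 163)) (PT.lf (nat_lit 29336) (nat_lit 6) (nat_lit 386) (nat_lit 2) (nat_lit 201) (nat_lit 207) (nat_lit 162)))) (PT.nd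 (nat_lit 156) (PT.nd (nat_lit 78) (PT.lf (nat_lit 28500) (nat_lit 6) (nat_lit 375) (nat_lit 2) (nat_lit 202) (nat_lit 207) (nat_lit 161)) (PT.lf (nat_lit 27664) (nat_lit 6) (nat_lit 364) (nat_lit 2) (nat_lit 203) (nat_lit 207) (nat_lit 160))) (PT.nd (nat_lit 78) (PT.lf (nat_lit 26904) (nat_lit 6) (nat_lit 354) (nat_lit 2) (nat_lit 204) (nat_lit 207) (nat_lit 159)) (PT.lf (nat_lit 26144) (nat_lit 6) (nat_lit 344) (nat_lit 2) (nat_lit 205) (nat_lit 207) (nat_lit 158))))) (PT.nd (nat_lit 312) (PT.nd (nat_lit 156) (PT.nd (nat_lit 78) (PT.lf (nat_lit 25384) (nat_lit 6) (nat_lit 334) (nat_lit 2) (nat_lit 206) (nat_lit 207) (nat_lit 157)) (PT.lf (nat_lit 24624) (nat_lit 3) (nat_lit 324) (nat_lit 0) (nat_lit 207) (nat_lit 207) (nat_lit 156))) (PT.nd (nat_lit 78) (PT.lf (nat_lit 23864) (nat_lit 6) (nat_lit 314) (nat_lit 0) (nat_lit 208) (nat_lit 207) (nat_lit 155)) (PT.lf (nat_lit 23104) (nat_lit 6) (nat_lit 304) (nat_lit 0) (nat_lit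 209) (nat_lit 207) (nat_lit 154)))) (PT.nd (nat_lit 156) (PT.nd (nat_lit 78) (PT.lf (nat_lit 22344) (nat_lit 6) (nat_lit 294) (nat_lit 0) (nat_lit 210) (nat_lit 207) (nat_lit 153)) (PT.lf (nat_lit 21584) (nat_lit 6) (nat_lit 284) (nat_lit 0) (nat_lit 211) (nat_lit 207) (nat_lit 152))) (PT.nd (nat_lit 78) (PT.lf (nat_lit 20900) (nat_lit 6) (nat_lit 275) (nat_lit 0) (nat_lit 212) (nat_lit 207) (nat_lit 151)) (PT.lf (nat_lit 20216) (nat_lit 6) (nat_lit 266) (nat_lit 0) (nat_lit 213) (nat_lit 207) (nat_lit 150))))))))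
noncomputable def pc48 : PT := (PT.nd (nat_lit 55692) (PT.nd (nat_lit 54444) (PT.nd (nat_lit 53820) (PT.nd (nat_lit 312) (PT.nd (nat_lit 156) (PT.nd (nat_lit 78) (PT.lf (nat_lit 19532) (nat_lit 6) (nat_lit 257) (nat_lit 0) (nat_lit 214) (nat_lit 207) (nat_lit 149)) (PT.lf (nat_lit 18848) (nat_lit 6) (nat_lit 248) (nat_lit 0) (nat_lit 215) (nat_lit 207) (nat_lit 148))) (PT.nd (nat_lit 78) (PT.lf (nat_lit 18240) (nat_lit 6) (nat_lit 240) (nat_lit 0) (nat_lit 216) (nat_lit 207) (nat_lit 147)) (PT.lf (nat_lit 17556) (nat_lit 6) (nat_lit 231) (nat_lit 0) (nat_lit 217) (nat_lit 207) (nat_lit 146)))) (PT.nd (nat_lit 156) (PT.nd (nat_lit 78) (PT.lf (nat_lit 16948) (nat_lit 6) (nat_lit 223) (nat_lit 0) (nat_lit 218) (nat_lit 207) (nat_lit 145)) (PT.lf (nat_lit 16340) (nat_lit 6) (nat_lit 215) (nat_lit 0) (nat_lit 219) (nat_lit 207) (nat_lit 144))) (PT.nd (nat_lit 53274) (PT.lf (nat_lit 15808) (nat_lit 6) (nat_lit 208) (nat_lit 0) (nat_lit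 220) (nat_lit 207) (nat_lit 143)) (PT.lf (nat_lit 15276) (nat_lit 6) (nat_lit 201) (nat_lit 5) (nat_lit 142) (nat_lit 208) (nat_lit 220))))) (PT.nd (nat_lit 312) (PT.nd (nat_lit 156) (PT.nd (nat_lit 78) (PT.lf (nat_lit 15884) (nat_lit 6) (nat_lit 209) (nat_lit 5) (nat_lit 143) (nat_lit 208) (nat_lit 219)) (PT.lf (nat_lit 16416) (nat_lit 6) (nat_lit 216) (nat_lit 5) (nat_lit 144) (nat_lit 208) (nat_lit 218))) (PT.nd (nat_lit 78) (PT.lf (nat_lit 17024) (nat_lit 6) (nat_lit 224) (nat_lit 5) (nat_lit 145) (nat_lit 208) (nat_lit 217)) (PT.lf (nat_lit 17632) (nat_lit 6) (nat_lit 232) (nat_lit 5) (nat_lit 146) (nat_lit 208) (nat_lit 216)))) (PT.nd (nat_lit 156) (PT.nd (nat_lit 78) (PT.lf (nat_lit 18316) (nat_lit 6) (nat_lit 241) (nat_lit 5) (nat_lit 147) (nat_lit 208) (nat_lit 215)) (PT.lf (nat_lit 18924) (nat_lit 6) (nat_lit 249) (nat_lit 5) (nat_lit 148) (nat_lit 208) (nat_lit 214))) (PT.nd (nat_lit 78) (PT.lf (nat_lit 19608) (nat_lit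 6) (nat_lit 258) (nat_lit 5) (nat_lit 149) (nat_lit 208) (nat_lit 213)) (PT.lf (nat_lit 20292) (nat_lit 6) (nat_lit 267) (nat_lit 5) (nat_lit 150) (nat_lit 208) (nat_lit 212)))))) (PT.nd (nat_lit 624) (PT.nd (nat_lit 312) (PT.nd (nat_lit 156) (PT.nd (nat_lit 78) (PT.lf (nat_lit 20976) (nat_lit 6) (nat_lit 276) (nat_lit 5) (nat_lit 151) (nat_lit 208) (nat_lit 211)) (PT.lf (nat_lit 21660) (nat_lit 6) (nat_lit 285) (nat_lit 5) (nat_lit 152) (nat_lit 208) (nat_lit 210))) (PT.nd (nat_lit 78) (PT.lf (nat_lit 22420) (nat_lit 6) (nat_lit 295) (nat_lit 5) (nat_lit 153) (nat_lit 208) (nat_lit 209)) (PT.lf (nat_lit 23180) (nat_lit 3) (nat_lit 305) (nat_lit 4) (nat_lit 154) (nat_lit 208) (nat_lit 208)))) (PT.nd (nat_lit 156) (PT.nd (nat_lit 78) (PT.lf (nat_lit 23864) (nat_lit 6) (nat_lit 314) (nat_lit 4) (nat_lit 155) (nat_lit 208) (nat_lit 207)) (PT.lf (nat_lit 24548) (nat_lit 6) (nat_lit 323) (nat_lit 4) (nat_lit 156) (nat_lit 208) (nat_lit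 206))) (PT.nd (nat_lit 78) (PT.lf (nat_lit 25308) (nat_lit 6) (nat_lit 333) (nat_lit 4) (nat_lit 157) (nat_lit 208) (nat_lit 205)) (PT.lf (nat_lit 26068) (nat_lit 6) (nat_lit 343) (nat_lit 4) (nat_lit 158) (nat_lit 208) (nat_lit 204))))) (PT.nd (nat_lit 312) (PT.nd (nat_lit 156) (PT.nd (nat_lit 78) (PT.lf (nat_lit 26828) (nat_lit 6) (nat_lit 353) (nat_lit 4) (nat_lit 159) (nat_lit 208) (nat_lit 203)) (PT.lf (nat_lit 27588) (nat_lit 6) (nat_lit 363) (nat_lit 4) (nat_lit 160) (nat_lit 208) (nat_lit 202))) (PT.nd (nat_lit 78) (PT.lf (nat_lit 28424) (nat_lit 6) (nat_lit 374) (nat_lit 4) (nat_lit 161) (nat_lit 208) (nat_lit 201)) (PT.lf (nat_lit 29260) (nat_lit 6) (nat_lit 385) (nat_lit 4) (nat_lit 162) (nat_lit 208) (nat_lit 200)))) (PT.nd (nat_lit 156) (PT.nd (nat_lit 78) (PT.lf (nat_lit 30172) (nat_lit 6) (nat_lit 397) (nat_lit 4) (nat_lit 163) (nat_lit 208) (nat_lit 199)) (PT.lf (nat_lit 31084) (nat_lit 6) (nat_lit 409) (nat_lit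 4) (nat_lit 164) (nat_lit 208) (nat_lit 198))) (PT.nd (nat_lit 78) (PT.lf (nat_lit 31996) (nat_lit 6) (nat_lit 421) (nat_lit 4) (nat_lit 165) (nat_lit 208) (nat_lit 197)) (PT.lf (nat_lit 33440) (nat_lit 6) (nat_lit 440) (nat_lit 4) (nat_lit 166) (nat_lit 208) (nat_lit 196))))))) (PT.nd (nat_lit 1248) (PT.nd (nat_lit 624) (PT.nd (nat_lit 312) (PT.nd (nat_lit 156) (PT.nd (nat_lit 78) (PT.lf (nat_lit 35188) (nat_lit 6) (nat_lit 463) (nat_lit 4) (nat_lit 167) (nat_lit 208) (nat_lit 195)) (PT.lf (nat_lit 36860) (nat_lit 6) (nat_lit 485) (nat_lit 4) (nat_lit 168) (nat_lit 208) (nat_lit 194))) (PT.nd (nat_lit 78) (PT.lf (nat_lit 38456) (nat_lit 6) (nat_lit 506) (nat_lit 4) (nat_lit 169) (nat_lit 208) (nat_lit 193)) (PT.lf (nat_lit 39976) (nat_lit 6) (nat_lit 526) (nat_lit 4) (nat_lit 170) (nat_lit 208) (nat_lit 192)))) (PT.nd (nat_lit 156) (PT.nd (nat_lit 78) (PT.lf (nat_lit 41420) (nat_lit 6) (nat_lit 545) (nat_lit 4) (nat_lit 171)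 (nat_lit 208) (nat_lit 191)) (PT.lf (nat_lit 42788) (nat_lit 6) (nat_lit 563) (nat_lit 4) (nat_lit 172) (nat_lit 208) (nat_lit 190))) (PT.nd (nat_lit 78) (PT.lf (nat_lit 42712) (nat_lit 6) (nat_lit 562) (nat_lit 4) (nat_lit 173) (nat_lit 208) (nat_lit 189)) (PT.lf (nat_lit 42636) (nat_lit 6) (nat_lit 561) (nat_lit 4) (nat_lit 174) (nat_lit 208) (nat_lit 188))))) (PT.nd (nat_lit 312) (PT.nd (nat_lit 156) (PT.nd (nat_lit 78) (PT.lf (nat_lit 42560) (nat_lit 6) (nat_lit 560) (nat_lit 4) (nat_lit 175) (nat_lit 208) (nat_lit 187)) (PT.lf (nat_lit 42484) (nat_lit 6) (nat_lit 559) (nat_lit 4) (nat_lit 176) (nat_lit 208) (nat_lit 186))) (PT.nd (nat_lit 78) (PT.lf (nat_lit 42408) (nat_lit 6) (nat_lit 558) (nat_lit 4) (nat_lit 177) (nat_lit 208) (nat_lit 185)) (PT.lf (nat_lit 42332) (nat_lit 6) (nat_lit 557) (nat_lit 4) (nat_lit 178) (nat_lit 208) (nat_lit 184)))) (PT.nd (nat_lit 156) (PT.nd (nat_lit 78) (PT.lf (nat_lit 42256) (nat_lit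 6) (nat_lit 556) (nat_lit 4) (nat_lit 179) (nat_lit 208) (nat_lit 183)) (PT.lf (nat_lit 42180) (nat_lit 6) (nat_lit 555) (nat_lit 4) (nat_lit 180) (nat_lit 208) (nat_lit 182))) (PT.nd (nat_lit 78) (PT.lf (nat_lit 42104) (nat_lit 3) (nat_lit 554) (nat_lit 2) (nat_lit 181) (nat_lit 208) (nat_lit 181)) (PT.lf (nat_lit 42180) (nat_lit 6) (nat_lit 555) (nat_lit 2) (nat_lit 182) (nat_lit 208) (nat_lit 180)))))) (PT.nd (nat_lit 624) (PT.nd (nat_lit 312) (PT.nd (nat_lit 156) (PT.nd (nat_lit 78) (PT.lf (nat_lit 42256) (nat_lit 6) (nat_lit 556) (nat_lit 2) (nat_lit 183) (nat_lit 208) (nat_lit 179)) (PT.lf (nat_lit 42332) (nat_lit 6) (nat_lit 557) (nat_lit 2) (nat_lit 184) (nat_lit 208) (nat_lit 178))) (PT.nd (nat_lit 78) (PT.lf (nat_lit 42408) (nat_lit 6) (nat_lit 558) (nat_lit 2) (nat_lit 185) (nat_lit 208) (nat_lit 177)) (PT.lf (nat_lit 42484) (nat_lit 6) (nat_lit 559) (nat_lit 2) (nat_lit 186) (nat_lit 208) (nat_lit 176)))) (PT.nd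 (nat_lit 156) (PT.nd (nat_lit 78) (PT.lf (nat_lit 42560) (nat_lit 6) (nat_lit 560) (nat_lit 2) (nat_lit 187) (nat_lit 208) (nat_lit 175)) (PT.lf (nat_lit 42636) (nat_lit 6) (nat_lit 561) (nat_lit 2) (nat_lit 188) (nat_lit 208) (nat_lit 174))) (PT.nd (nat_lit 78) (PT.lf (nat_lit 42712) (nat_lit 6) (nat_lit 562) (nat_lit 2) (nat_lit 189) (nat_lit 208) (nat_lit 173)) (PT.lf (nat_lit 42788) (nat_lit 6) (nat_lit 563) (nat_lit 2) (nat_lit 190) (nat_lit 208) (nat_lit 172))))) (PT.nd (nat_lit 312) (PT.nd (nat_lit 156) (PT.nd (nat_lit 78) (PT.lf (nat_lit 41420) (nat_lit 6) (nat_lit 545) (nat_lit 2) (nat_lit 191) (nat_lit 208) (nat_lit 171)) (PT.lf (nat_lit 39976) (nat_lit 6) (nat_lit 526) (nat_lit 2) (nat_lit 192) (nat_lit 208) (nat_lit 170))) (PT.nd (nat_lit 78) (PT.lf (nat_lit 38456) (nat_lit 6) (nat_lit 506) (nat_lit 2) (nat_lit 193) (nat_lit 208) (nat_lit 169)) (PT.lf (nat_lit 36860) (nat_lit 6) (nat_lit 485) (nat_lit 2) (nat_lit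 194) (nat_lit 208) (nat_lit 168)))) (PT.nd (nat_lit 156) (PT.nd (nat_lit 78) (PT.lf (nat_lit 35188) (nat_lit 6) (nat_lit 463) (nat_lit 2) (nat_lit 195) (nat_lit 208) (nat_lit 167)) (PT.lf (nat_lit 33440) (nat_lit 6) (nat_lit 440) (nat_lit 2) (nat_lit 196) (nat_lit 208) (nat_lit 166))) (PT.nd (nat_lit 78) (PT.lf (nat_lit 31996) (nat_lit 6) (nat_lit 421) (nat_lit 2) (nat_lit 197) (nat_lit 208) (nat_lit 165)) (PT.lf (nat_lit 31084) (nat_lit 6) (nat_lit 409) (nat_lit 2) (nat_lit 198) (nat_lit 208) (nat_lit 164))))))))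
noncomputable def pc49 : PT := (PT.nd (nat_lit 55536) (PT.nd (nat_lit 1248) (PT.nd (nat_lit 624) (PT.nd (nat_lit 312) (PT.nd (nat_lit 156) (PT.nd (nat_lit 78) (PT.lf (nat_lit 30172) (nat_lit 6) (nat_lit 397) (nat_lit 2) (nat_lit 199) (nat_lit 208) (nat_lit 163)) (PT.lf (nat_lit 29260) (nat_lit 6) (nat_lit 385) (nat_lit 2) (nat_lit 200) (nat_lit 208) (nat_lit 162))) (PT.nd (nat_lit 78) (PT.lf (nat_lit 28424) (nat_lit 6) (nat_lit 374) (nat_lit 2) (nat_lit 201) (nat_lit 208) (nat_lit 161)) (PT.lf (nat_lit 27588) (nat_lit 6) (nat_lit 363) (nat_lit 2) (nat_lit 202) (nat_lit 208) (nat_lit 160)))) (PT.nd (nat_lit 156) (PT.nd (nat_lit 78) (PT.lf (nat_lit 26828) (nat_lit 6) (nat_lit 353) (nat_lit 2) (nat_lit 203) (nat_lit 208) (nat_lit 159)) (PT.lf (nat_lit 26068) (nat_lit 6) (nat_lit 343) (nat_lit 2) (nat_lit 204) (nat_lit 208) (nat_lit 158))) (PT.nd (nat_lit 78) (PT.lf (nat_lit 25308) (nat_lit 6) (nat_lit 333) (nat_lit 2) (nat_lit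 205) (nat_lit 208) (nat_lit 157)) (PT.lf (nat_lit 24548) (nat_lit 6) (nat_lit 323) (nat_lit 2) (nat_lit 206) (nat_lit 208) (nat_lit 156))))) (PT.nd (nat_lit 312) (PT.nd (nat_lit 156) (PT.nd (nat_lit 78) (PT.lf (nat_lit 23864) (nat_lit 6) (nat_lit 314) (nat_lit 2) (nat_lit 207) (nat_lit 208) (nat_lit 155)) (PT.lf (nat_lit 23180) (nat_lit 3) (nat_lit 305) (nat_lit 0) (nat_lit 208) (nat_lit 208) (nat_lit 154))) (PT.nd (nat_lit 78) (PT.lf (nat_lit 22420) (nat_lit 6) (nat_lit 295) (nat_lit 0) (nat_lit 209) (nat_lit 208) (nat_lit 153)) (PT.lf (nat_lit 21660) (nat_lit 6) (nat_lit 285) (nat_lit 0) (nat_lit 210) (nat_lit 208) (nat_lit 152)))) (PT.nd (nat_lit 156) (PT.nd (nat_lit 78) (PT.lf (nat_lit 20976) (nat_lit 6) (nat_lit 276) (nat_lit 0) (nat_lit 211) (nat_lit 208) (nat_lit 151)) (PT.lf (nat_lit 20292) (nat_lit 6) (nat_lit 267) (nat_lit 0) (nat_lit 212) (nat_lit 208) (nat_lit 150))) (PT.nd (nat_lit 78) (PT.lf (nat_lit 19608) (nat_lit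 6) (nat_lit 258) (nat_lit 0) (nat_lit 213) (nat_lit 208) (nat_lit 149)) (PT.lf (nat_lit 18924) (nat_lit 6) (nat_lit 249) (nat_lit 0) (nat_lit 214) (nat_lit 208) (nat_lit 148)))))) (PT.nd (nat_lit 53664) (PT.nd (nat_lit 312) (PT.nd (nat_lit 156) (PT.nd (nat_lit 78) (PT.lf (nat_lit 18316) (nat_lit 6) (nat_lit 241) (nat_lit 0) (nat_lit 215) (nat_lit 208) (nat_lit 147)) (PT.lf (nat_lit 17632) (nat_lit 6) (nat_lit 232) (nat_lit 0) (nat_lit 216) (nat_lit 208) (nat_lit 146))) (PT.nd (nat_lit 78) (PT.lf (nat_lit 17024) (nat_lit 6) (nat_lit 224) (nat_lit 0) (nat_lit 217) (nat_lit 208) (nat_lit 145)) (PT.lf (nat_lit 16416) (nat_lit 6) (nat_lit 216) (nat_lit 0) (nat_lit 218) (nat_lit 208) (nat_lit 144)))) (PT.nd (nat_lit 53196) (PT.nd (nat_lit 78) (PT.lf (nat_lit 15884) (nat_lit 6) (nat_lit 209) (nat_lit 0) (nat_lit 219) (nat_lit 208) (nat_lit 143)) (PT.lf (nat_lit 15276) (nat_lit 6) (nat_lit 201) (nat_lit 0) (nat_lit 220) (nat_lit 208)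 (nat_lit 142))) (PT.nd (nat_lit 78) (PT.lf (nat_lit 14288) (nat_lit 6) (nat_lit 188) (nat_lit 5) (nat_lit 140) (nat_lit 209) (nat_lit 221)) (PT.lf (nat_lit 14820) (nat_lit 6) (nat_lit 195) (nat_lit 5) (nat_lit 141) (nat_lit 209) (nat_lit 220))))) (PT.nd (nat_lit 312) (PT.nd (nat_lit 156) (PT.nd (nat_lit 78) (PT.lf (nat_lit 15352) (nat_lit 6) (nat_lit 202) (nat_lit 5) (nat_lit 142) (nat_lit 209) (nat_lit 219)) (PT.lf (nat_lit 15960) (nat_lit 6) (nat_lit 210) (nat_lit 5) (nat_lit 143) (nat_lit 209) (nat_lit 218))) (PT.nd (nat_lit 78) (PT.lf (nat_lit 16492) (nat_lit 6) (nat_lit 217) (nat_lit 5) (nat_lit 144) (nat_lit 209) (nat_lit 217)) (PT.lf (nat_lit 17100) (nat_lit 6) (nat_lit 225) (nat_lit 5) (nat_lit 145) (nat_lit 209) (nat_lit 216)))) (PT.nd (nat_lit 156) (PT.nd (nat_lit 78) (PT.lf (nat_lit 17708) (nat_lit 6) (nat_lit 233) (nat_lit 5) (nat_lit 146) (nat_lit 209) (nat_lit 215)) (PT.lf (nat_lit 18392) (nat_lit 6) (nat_lit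 242) (nat_lit 5) (nat_lit 147) (nat_lit 209) (nat_lit 214))) (PT.nd (nat_lit 78) (PT.lf (nat_lit 19000) (nat_lit 6) (nat_lit 250) (nat_lit 5) (nat_lit 148) (nat_lit 209) (nat_lit 213)) (PT.lf (nat_lit 19684) (nat_lit 6) (nat_lit 259) (nat_lit 5) (nat_lit 149) (nat_lit 209) (nat_lit 212))))))) (PT.nd (nat_lit 1248) (PT.nd (nat_lit 624) (PT.nd (nat_lit 312) (PT.nd (nat_lit 156) (PT.nd (nat_lit 78) (PT.lf (nat_lit 20368) (nat_lit 6) (nat_lit 268) (nat_lit 5) (nat_lit 150) (nat_lit 209) (nat_lit 211)) (PT.lf (nat_lit 21052) (nat_lit 6) (nat_lit 277) (nat_lit 5) (nat_lit 151) (nat_lit 209) (nat_lit 210))) (PT.nd (nat_lit 78) (PT.lf (nat_lit 21736) (nat_lit 3) (nat_lit 286) (nat_lit 4) (nat_lit 152) (nat_lit 209) (nat_lit 209)) (PT.lf (nat_lit 22420) (nat_lit 6) (nat_lit 295) (nat_lit 4) (nat_lit 153) (nat_lit 209) (nat_lit 208)))) (PT.nd (nat_lit 156) (PT.nd (nat_lit 78) (PT.lf (nat_lit 23104) (nat_lit 6) (nat_lit 304) (nat_lit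 4) (nat_lit 154) (nat_lit 209) (nat_lit 207)) (PT.lf (nat_lit 23788) (nat_lit 6) (nat_lit 313) (nat_lit 4) (nat_lit 155) (nat_lit 209) (nat_lit 206))) (PT.nd (nat_lit 78) (PT.lf (nat_lit 24472) (nat_lit 6) (nat_lit 322) (nat_lit 4) (nat_lit 156) (nat_lit 209) (nat_lit 205)) (PT.lf (nat_lit 25232) (nat_lit 6) (nat_lit 332) (nat_lit 4) (nat_lit 157) (nat_lit 209) (nat_lit 204))))) (PT.nd (nat_lit 312) (PT.nd (nat_lit 156) (PT.nd (nat_lit 78) (PT.lf (nat_lit 25992) (nat_lit 6) (nat_lit 342) (nat_lit 4) (nat_lit 158) (nat_lit 209) (nat_lit 203)) (PT.lf (nat_lit 26752) (nat_lit 6) (nat_lit 352) (nat_lit 4) (nat_lit 159) (nat_lit 209) (nat_lit 202))) (PT.nd (nat_lit 78) (PT.lf (nat_lit 27512) (nat_lit 6) (nat_lit 362) (nat_lit 4) (nat_lit 160) (nat_lit 209) (nat_lit 201)) (PT.lf (nat_lit 28348) (nat_lit 6) (nat_lit 373) (nat_lit 4) (nat_lit 161) (nat_lit 209) (nat_lit 200)))) (PT.nd (nat_lit 156) (PT.nd (nat_lit 78) (PT.lf (nat_lit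 29184) (nat_lit 6) (nat_lit 384) (nat_lit 4) (nat_lit 162) (nat_lit 209) (nat_lit 199)) (PT.lf (nat_lit 30096) (nat_lit 6) (nat_lit 396) (nat_lit 4) (nat_lit 163) (nat_lit 209) (nat_lit 198))) (PT.nd (nat_lit 78) (PT.lf (nat_lit 31008) (nat_lit 6) (nat_lit 408) (nat_lit 4) (nat_lit 164) (nat_lit 209) (nat_lit 197)) (PT.lf (nat_lit 31920) (nat_lit 6) (nat_lit 420) (nat_lit 4) (nat_lit 165) (nat_lit 209) (nat_lit 196)))))) (PT.nd (nat_lit 624) (PT.nd (nat_lit 312) (PT.nd (nat_lit 156) (PT.nd (nat_lit 78) (PT.lf (nat_lit 33364) (nat_lit 6) (nat_lit 439) (nat_lit 4) (nat_lit 166) (nat_lit 209) (nat_lit 195)) (PT.lf (nat_lit 35112) (nat_lit 6) (nat_lit 462) (nat_lit 4) (nat_lit 167) (nat_lit 209) (nat_lit 194))) (PT.nd (nat_lit 78) (PT.lf (nat_lit 36784) (nat_lit 6) (nat_lit 484) (nat_lit 4) (nat_lit 168) (nat_lit 209) (nat_lit 193)) (PT.lf (nat_lit 38380) (nat_lit 6) (nat_lit 505) (nat_lit 4) (nat_lit 169) (nat_lit 209) (nat_lit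 192)))) (PT.nd (nat_lit 156) (PT.nd (nat_lit 78) (PT.lf (nat_lit 39900) (nat_lit 6) (nat_lit 525) (nat_lit 4) (nat_lit 170) (nat_lit 209) (nat_lit 191)) (PT.lf (nat_lit 41344) (nat_lit 6) (nat_lit 544) (nat_lit 4) (nat_lit 171) (nat_lit 209) (nat_lit 190))) (PT.nd (nat_lit 78) (PT.lf (nat_lit 41268) (nat_lit 6) (nat_lit 543) (nat_lit 4) (nat_lit 172) (nat_lit 209) (nat_lit 189)) (PT.lf (nat_lit 41192) (nat_lit 6) (nat_lit 542) (nat_lit 4) (nat_lit 173) (nat_lit 209) (nat_lit 188))))) (PT.nd (nat_lit 312) (PT.nd (nat_lit 156) (PT.nd (nat_lit 78) (PT.lf (nat_lit 41116) (nat_lit 6) (nat_lit 541) (nat_lit 4) (nat_lit 174) (nat_lit 209) (nat_lit 187)) (PT.lf (nat_lit 41040) (nat_lit 6) (nat_lit 540) (nat_lit 4) (nat_lit 175) (nat_lit 209) (nat_lit 186))) (PT.nd (nat_lit 78) (PT.lf (nat_lit 40964) (nat_lit 6) (nat_lit 539) (nat_lit 4) (nat_lit 176) (nat_lit 209) (nat_lit 185)) (PT.lf (nat_lit 40888) (nat_lit 6) (nat_lit 538) (nat_lit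 4) (nat_lit 177) (nat_lit 209) (nat_lit 184)))) (PT.nd (nat_lit 156) (PT.nd (nat_lit 78) (PT.lf (nat_lit 40812) (nat_lit 6) (nat_lit 537) (nat_lit 4) (nat_lit 178) (nat_lit 209) (nat_lit 183)) (PT.lf (nat_lit 40736) (nat_lit 6) (nat_lit 536) (nat_lit 4) (nat_lit 179) (nat_lit 209) (nat_lit 182))) (PT.nd (nat_lit 78) (PT.lf (nat_lit 40660) (nat_lit 6) (nat_lit 535) (nat_lit 4) (nat_lit 180) (nat_lit 209) (nat_lit 181)) (PT.lf (nat_lit 40660) (nat_lit 6) (nat_lit 535) (nat_lit 2) (nat_lit 181) (nat_lit 209) (nat_lit 180))))))))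
noncomputable def pc50 : PT := (PT.nd (nat_lit 2496) (PT.nd (nat_lit 1248) (PT.nd (nat_lit 624) (PT.nd (nat_lit 312) (PT.nd (nat_lit 156) (PT.nd (nat_lit 78) (PT.lf (nat_lit 40736) (nat_lit 6) (nat_lit 536) (nat_lit 2) (nat_lit 182) (nat_lit 209) (nat_lit 179)) (PT.lf (nat_lit 40812) (nat_lit 6) (nat_lit 537) (nat_lit 2) (nat_lit 183) (nat_lit 209) (nat_lit 178))) (PT.nd (nat_lit 78) (PT.lf (nat_lit 40888) (nat_lit 6) (nat_lit 538) (nat_lit 2) (nat_lit 184) (nat_lit 209) (nat_lit 177)) (PT.lf (nat_lit 40964) (nat_lit 6) (nat_lit 539) (nat_lit 2) (nat_lit 185) (nat_lit 209) (nat_lit 176)))) (PT.nd (nat_lit 156) (PT.nd (nat_lit 78) (PT.lf (nat_lit 41040) (nat_lit 6) (nat_lit 540) (nat_lit 2) (nat_lit 186) (nat_lit 209) (nat_lit 175)) (PT.lf (nat_lit 41116) (nat_lit 6) (nat_lit 541) (nat_lit 2) (nat_lit 187) (nat_lit 209) (nat_lit 174))) (PT.nd (nat_lit 78) (PT.lf (nat_lit 41192) (nat_lit 6) (nat_lit 542) (nat_lit 2) (nat_lit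 188) (nat_lit 209) (nat_lit 173)) (PT.lf (nat_lit 41268) (nat_lit 6) (nat_lit 543) (nat_lit 2) (nat_lit 189) (nat_lit 209) (nat_lit 172))))) (PT.nd (nat_lit 312) (PT.nd (nat_lit 156) (PT.nd (nat_lit 78) (PT.lf (nat_lit 41344) (nat_lit 6) (nat_lit 544) (nat_lit 2) (nat_lit 190) (nat_lit 209) (nat_lit 171)) (PT.lf (nat_lit 39900) (nat_lit 6) (nat_lit 525) (nat_lit 2) (nat_lit 191) (nat_lit 209) (nat_lit 170))) (PT.nd (nat_lit 78) (PT.lf (nat_lit 38380) (nat_lit 6) (nat_lit 505) (nat_lit 2) (nat_lit 192) (nat_lit 209) (nat_lit 169)) (PT.lf (nat_lit 36784) (nat_lit 6) (nat_lit 484) (nat_lit 2) (nat_lit 193) (nat_lit 209) (nat_lit 168)))) (PT.nd (nat_lit 156) (PT.nd (nat_lit 78) (PT.lf (nat_lit 35112) (nat_lit 6) (nat_lit 462) (nat_lit 2) (nat_lit 194) (nat_lit 209) (nat_lit 167)) (PT.lf (nat_lit 33364) (nat_lit 6) (nat_lit 439) (nat_lit 2) (nat_lit 195) (nat_lit 209) (nat_lit 166))) (PT.nd (nat_lit 78) (PT.lf (nat_lit 31920) (nat_lit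 6) (nat_lit 420) (nat_lit 2) (nat_lit 196) (nat_lit 209) (nat_lit 165)) (PT.lf (nat_lit 31008) (nat_lit 6) (nat_lit 408) (nat_lit 2) (nat_lit 197) (nat_lit 209) (nat_lit 164)))))) (PT.nd (nat_lit 624) (PT.nd (nat_lit 312) (PT.nd (nat_lit 156) (PT.nd (nat_lit 78) (PT.lf (nat_lit 30096) (nat_lit 6) (nat_lit 396) (nat_lit 2) (nat_lit 198) (nat_lit 209) (nat_lit 163)) (PT.lf (nat_lit 29184) (nat_lit 6) (nat_lit 384) (nat_lit 2) (nat_lit 199) (nat_lit 209) (nat_lit 162))) (PT.nd (nat_lit 78) (PT.lf (nat_lit 28348) (nat_lit 6) (nat_lit 373) (nat_lit 2) (nat_lit 200) (nat_lit 209) (nat_lit 161)) (PT.lf (nat_lit 27512) (nat_lit 6) (nat_lit 362) (nat_lit 2) (nat_lit 201) (nat_lit 209) (nat_lit 160)))) (PT.nd (nat_lit 156) (PT.nd (nat_lit 78) (PT.lf (nat_lit 26752) (nat_lit 6) (nat_lit 352) (nat_lit 2) (nat_lit 202) (nat_lit 209) (nat_lit 159)) (PT.lf (nat_lit 25992) (nat_lit 6) (nat_lit 342) (nat_lit 2) (nat_lit 203) (nat_lit 209) (nat_lit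 158))) (PT.nd (nat_lit 78) (PT.lf (nat_lit 25232) (nat_lit 6) (nat_lit 332) (nat_lit 2) (nat_lit 204) (nat_lit 209) (nat_lit 157)) (PT.lf (nat_lit 24472) (nat_lit 6) (nat_lit 322) (nat_lit 2) (nat_lit 205) (nat_lit 209) (nat_lit 156))))) (PT.nd (nat_lit 312) (PT.nd (nat_lit 156) (PT.nd (nat_lit 78) (PT.lf (nat_lit 23788) (nat_lit 6) (nat_lit 313) (nat_lit 2) (nat_lit 206) (nat_lit 209) (nat_lit 155)) (PT.lf (nat_lit 23104) (nat_lit 6) (nat_lit 304) (nat_lit 2) (nat_lit 207) (nat_lit 209) (nat_lit 154))) (PT.nd (nat_lit 78) (PT.lf (nat_lit 22420) (nat_lit 6) (nat_lit 295) (nat_lit 2) (nat_lit 208) (nat_lit 209) (nat_lit 153)) (PT.lf (nat_lit 21736) (nat_lit 3) (nat_lit 286) (nat_lit 0) (nat_lit 209) (nat_lit 209) (nat_lit 152)))) (PT.nd (nat_lit 156) (PT.nd (nat_lit 78) (PT.lf (nat_lit 21052) (nat_lit 6) (nat_lit 277) (nat_lit 0) (nat_lit 210) (nat_lit 209) (nat_lit 151)) (PT.lf (nat_lit 20368) (nat_lit 6) (nat_lit 268) (nat_lit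 0) (nat_lit 211) (nat_lit 209) (nat_lit 150))) (PT.nd (nat_lit 78) (PT.lf (nat_lit 19684) (nat_lit 6) (nat_lit 259) (nat_lit 0) (nat_lit 212) (nat_lit 209) (nat_lit 149)) (PT.lf (nat_lit 19000) (nat_lit 6) (nat_lit 250) (nat_lit 0) (nat_lit 213) (nat_lit 209) (nat_lit 148))))))) (PT.nd (nat_lit 54132) (PT.nd (nat_lit 53508) (PT.nd (nat_lit 312) (PT.nd (nat_lit 156) (PT.nd (nat_lit 78) (PT.lf (nat_lit 18392) (nat_lit 6) (nat_lit 242) (nat_lit 0) (nat_lit 214) (nat_lit 209) (nat_lit 147)) (PT.lf (nat_lit 17708) (nat_lit 6) (nat_lit 233) (nat_lit 0) (nat_lit 215) (nat_lit 209) (nat_lit 146))) (PT.nd (nat_lit 78) (PT.lf (nat_lit 17100) (nat_lit 6) (nat_lit 225) (nat_lit 0) (nat_lit 216) (nat_lit 209) (nat_lit 145)) (PT.lf (nat_lit 16492) (nat_lit 6) (nat_lit 217) (nat_lit 0) (nat_lit 217) (nat_lit 209) (nat_lit 144)))) (PT.nd (nat_lit 156) (PT.nd (nat_lit 78) (PT.lf (nat_lit 15960) (nat_lit 6) (nat_lit 210) (nat_lit 0) (nat_lit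 218) (nat_lit 209) (nat_lit 143)) (PT.lf (nat_lit 15352) (nat_lit 6) (nat_lit 202) (nat_lit 0) (nat_lit 219) (nat_lit 209) (nat_lit 142))) (PT.nd (nat_lit 78) (PT.lf (nat_lit 14820) (nat_lit 6) (nat_lit 195) (nat_lit 0) (nat_lit 220) (nat_lit 209) (nat_lit 141)) (PT.lf (nat_lit 14288) (nat_lit 6) (nat_lit 188) (nat_lit 0) (nat_lit 221) (nat_lit 209) (nat_lit 140))))) (PT.nd (nat_lit 312) (PT.nd (nat_lit 156) (PT.nd (nat_lit 78) (PT.lf (nat_lit 13832) (nat_lit 6) (nat_lit 182) (nat_lit 5) (nat_lit 139) (nat_lit 210) (nat_lit 221)) (PT.lf (nat_lit 14364) (nat_lit 6) (nat_lit 189) (nat_lit 5) (nat_lit 140) (nat_lit 210) (nat_lit 220))) (PT.nd (nat_lit 78) (PT.lf (nat_lit 14896) (nat_lit 6) (nat_lit 196) (nat_lit 5) (nat_lit 141) (nat_lit 210) (nat_lit 219)) (PT.lf (nat_lit 15428) (nat_lit 6) (nat_lit 203) (nat_lit 5) (nat_lit 142) (nat_lit 210) (nat_lit 218)))) (PT.nd (nat_lit 156) (PT.nd (nat_lit 78) (PT.lf (nat_lit 16036) (nat_lit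 6) (nat_lit 211) (nat_lit 5) (nat_lit 143) (nat_lit 210) (nat_lit 217)) (PT.lf (nat_lit 16568) (nat_lit 6) (nat_lit 218) (nat_lit 5) (nat_lit 144) (nat_lit 210) (nat_lit 216))) (PT.nd (nat_lit 78) (PT.lf (nat_lit 17176) (nat_lit 6) (nat_lit 226) (nat_lit 5) (nat_lit 145) (nat_lit 210) (nat_lit 215)) (PT.lf (nat_lit 17784) (nat_lit 6) (nat_lit 234) (nat_lit 5) (nat_lit 146) (nat_lit 210) (nat_lit 214)))))) (PT.nd (nat_lit 624) (PT.nd (nat_lit 312) (PT.nd (nat_lit 156) (PT.nd (nat_lit 78) (PT.lf (nat_lit 18468) (nat_lit 6) (nat_lit 243) (nat_lit 5) (nat_lit 147) (nat_lit 210) (nat_lit 213)) (PT.lf (nat_lit 19076) (nat_lit 6) (nat_lit 251) (nat_lit 5) (nat_lit 148) (nat_lit 210) (nat_lit 212))) (PT.nd (nat_lit 78) (PT.lf (nat_lit 19760) (nat_lit 6) (nat_lit 260) (nat_lit 5) (nat_lit 149) (nat_lit 210) (nat_lit 211)) (PT.lf (nat_lit 20444) (nat_lit 3) (nat_lit 269) (nat_lit 4) (nat_lit 150) (nat_lit 210) (nat_lit 210)))) (PT.nd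 (nat_lit 156) (PT.nd (nat_lit 78) (PT.lf (nat_lit 21052) (nat_lit 6) (nat_lit 277) (nat_lit 4) (nat_lit 151) (nat_lit 210) (nat_lit 209)) (PT.lf (nat_lit 21660) (nat_lit 6) (nat_lit 285) (nat_lit 4) (nat_lit 152) (nat_lit 210) (nat_lit 208))) (PT.nd (nat_lit 78) (PT.lf (nat_lit 22344) (nat_lit 6) (nat_lit 294) (nat_lit 4) (nat_lit 153) (nat_lit 210) (nat_lit 207)) (PT.lf (nat_lit 23028) (nat_lit 6) (nat_lit 303) (nat_lit 4) (nat_lit 154) (nat_lit 210) (nat_lit 206))))) (PT.nd (nat_lit 312) (PT.nd (nat_lit 156) (PT.nd (nat_lit 78) (PT.lf (nat_lit 23712) (nat_lit 6) (nat_lit 312) (nat_lit 4) (nat_lit 155) (nat_lit 210) (nat_lit 205)) (PT.lf (nat_lit 24396) (nat_lit 6) (nat_lit 321) (nat_lit 4) (nat_lit 156) (nat_lit 210) (nat_lit 204))) (PT.nd (nat_lit 78) (PT.lf (nat_lit 25156) (nat_lit 6) (nat_lit 331) (nat_lit 4) (nat_lit 157) (nat_lit 210) (nat_lit 203)) (PT.lf (nat_lit 25916) (nat_lit 6) (nat_lit 341) (nat_lit 4) (nat_lit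 158) (nat_lit 210) (nat_lit 202)))) (PT.nd (nat_lit 156) (PT.nd (nat_lit 78) (PT.lf (nat_lit 26676) (nat_lit 6) (nat_lit 351) (nat_lit 4) (nat_lit 159) (nat_lit 210) (nat_lit 201)) (PT.lf (nat_lit 27436) (nat_lit 6) (nat_lit 361) (nat_lit 4) (nat_lit 160) (nat_lit 210) (nat_lit 200))) (PT.nd (nat_lit 78) (PT.lf (nat_lit 28272) (nat_lit 6) (nat_lit 372) (nat_lit 4) (nat_lit 161) (nat_lit 210) (nat_lit 199)) (PT.lf (nat_lit 29108) (nat_lit 6) (nat_lit 383) (nat_lit 4) (nat_lit 162) (nat_lit 210) (nat_lit 198))))))))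
noncomputable def pc51 : PT := (PT.nd (nat_lit 2496) (PT.nd (nat_lit 1248) (PT.nd (nat_lit 624) (PT.nd (nat_lit 312) (PT.nd (nat_lit 156) (PT.nd (nat_lit 78) (PT.lf (nat_lit 30020) (nat_lit 6) (nat_lit 395) (nat_lit 4) (nat_lit 163) (nat_lit 210) (nat_lit 197)) (PT.lf (nat_lit 30932) (nat_lit 6) (nat_lit 407) (nat_lit 4) (nat_lit 164) (nat_lit 210) (nat_lit 196))) (PT.nd (nat_lit 78) (PT.lf (nat_lit 31844) (nat_lit 6) (nat_lit 419) (nat_lit 4) (nat_lit 165) (nat_lit 210) (nat_lit 195)) (PT.lf (nat_lit 33288) (nat_lit 6) (nat_lit 438) (nat_lit 4) (nat_lit 166) (nat_lit 210) (nat_lit 194)))) (PT.nd (nat_lit 156) (PT.nd (nat_lit 78) (PT.lf (nat_lit 35036) (nat_lit 6) (nat_lit 461) (nat_lit 4) (nat_lit 167) (nat_lit 210) (nat_lit 193)) (PT.lf (nat_lit 36708) (nat_lit 6) (nat_lit 483) (nat_lit 4) (nat_lit 168) (nat_lit 210) (nat_lit 192))) (PT.nd (nat_lit 78) (PT.lf (nat_lit 38304) (nat_lit 6) (nat_lit 504) (nat_lit 4) (nat_lit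 169) (nat_lit 210) (nat_lit 191)) (PT.lf (nat_lit 39824) (nat_lit 6) (nat_lit 524) (nat_lit 4) (nat_lit 170) (nat_lit 210) (nat_lit 190))))) (PT.nd (nat_lit 312) (PT.nd (nat_lit 156) (PT.nd (nat_lit 78) (PT.lf (nat_lit 39748) (nat_lit 6) (nat_lit 523) (nat_lit 4) (nat_lit 171) (nat_lit 210) (nat_lit 189)) (PT.lf (nat_lit 39672) (nat_lit 6) (nat_lit 522) (nat_lit 4) (nat_lit 172) (nat_lit 210) (nat_lit 188))) (PT.nd (nat_lit 78) (PT.lf (nat_lit 39596) (nat_lit 6) (nat_lit 521) (nat_lit 4) (nat_lit 173) (nat_lit 210) (nat_lit 187)) (PT.lf (nat_lit 39520) (nat_lit 6) (nat_lit 520) (nat_lit 4) (nat_lit 174) (nat_lit 210) (nat_lit 186)))) (PT.nd (nat_lit 156) (PT.nd (nat_lit 78) (PT.lf (nat_lit 39444) (nat_lit 6) (nat_lit 519) (nat_lit 4) (nat_lit 175) (nat_lit 210) (nat_lit 185)) (PT.lf (nat_lit 39368) (nat_lit 6) (nat_lit 518) (nat_lit 4) (nat_lit 176) (nat_lit 210) (nat_lit 184))) (PT.nd (nat_lit 78) (PT.lf (nat_lit 39292) (nat_lit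 6) (nat_lit 517) (nat_lit 4) (nat_lit 177) (nat_lit 210) (nat_lit 183)) (PT.lf (nat_lit 39216) (nat_lit 6) (nat_lit 516) (nat_lit 4) (nat_lit 178) (nat_lit 210) (nat_lit 182)))))) (PT.nd (nat_lit 624) (PT.nd (nat_lit 312) (PT.nd (nat_lit 156) (PT.nd (nat_lit 78) (PT.lf (nat_lit 39140) (nat_lit 6) (nat_lit 515) (nat_lit 4) (nat_lit 179) (nat_lit 210) (nat_lit 181)) (PT.lf (nat_lit 39064) (nat_lit 3) (nat_lit 514) (nat_lit 2) (nat_lit 180) (nat_lit 210) (nat_lit 180))) (PT.nd (nat_lit 78) (PT.lf (nat_lit 39140) (nat_lit 6) (nat_lit 515) (nat_lit 2) (nat_lit 181) (nat_lit 210) (nat_lit 179)) (PT.lf (nat_lit 39216) (nat_lit 6) (nat_lit 516) (nat_lit 2) (nat_lit 182) (nat_lit 210) (nat_lit 178)))) (PT.nd (nat_lit 156) (PT.nd (nat_lit 78) (PT.lf (nat_lit 39292) (nat_lit 6) (nat_lit 517) (nat_lit 2) (nat_lit 183) (nat_lit 210) (nat_lit 177)) (PT.lf (nat_lit 39368) (nat_lit 6) (nat_lit 518) (nat_lit 2) (nat_lit 184) (nat_lit 210) (nat_lit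 176))) (PT.nd (nat_lit 78) (PT.lf (nat_lit 39444) (nat_lit 6) (nat_lit 519) (nat_lit 2) (nat_lit 185) (nat_lit 210) (nat_lit 175)) (PT.lf (nat_lit 39520) (nat_lit 6) (nat_lit 520) (nat_lit 2) (nat_lit 186) (nat_lit 210) (nat_lit 174))))) (PT.nd (nat_lit 312) (PT.nd (nat_lit 156) (PT.nd (nat_lit 78) (PT.lf (nat_lit 39596) (nat_lit 6) (nat_lit 521) (nat_lit 2) (nat_lit 187) (nat_lit 210) (nat_lit 173)) (PT.lf (nat_lit 39672) (nat_lit 6) (nat_lit 522) (nat_lit 2) (nat_lit 188) (nat_lit 210) (nat_lit 172))) (PT.nd (nat_lit 78) (PT.lf (nat_lit 39748) (nat_lit 6) (nat_lit 523) (nat_lit 2) (nat_lit 189) (nat_lit 210) (nat_lit 171)) (PT.lf (nat_lit 39824) (nat_lit 6) (nat_lit 524) (nat_lit 2) (nat_lit 190) (nat_lit 210) (nat_lit 170)))) (PT.nd (nat_lit 156) (PT.nd (nat_lit 78) (PT.lf (nat_lit 38304) (nat_lit 6) (nat_lit 504) (nat_lit 2) (nat_lit 191) (nat_lit 210) (nat_lit 169)) (PT.lf (nat_lit 36708) (nat_lit 6) (nat_lit 483) (nat_lit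 2) (nat_lit 192) (nat_lit 210) (nat_lit 168))) (PT.nd (nat_lit 78) (PT.lf (nat_lit 35036) (nat_lit 6) (nat_lit 461) (nat_lit 2) (nat_lit 193) (nat_lit 210) (nat_lit 167)) (PT.lf (nat_lit 33288) (nat_lit 6) (nat_lit 438) (nat_lit 2) (nat_lit 194) (nat_lit 210) (nat_lit 166))))))) (PT.nd (nat_lit 1248) (PT.nd (nat_lit 624) (PT.nd (nat_lit 312) (PT.nd (nat_lit 156) (PT.nd (nat_lit 78) (PT.lf (nat_lit 31844) (nat_lit 6) (nat_lit 419) (nat_lit 2) (nat_lit 195) (nat_lit 210) (nat_lit 165)) (PT.lf (nat_lit 30932) (nat_lit 6) (nat_lit 407) (nat_lit 2) (nat_lit 196) (nat_lit 210) (nat_lit 164))) (PT.nd (nat_lit 78) (PT.lf (nat_lit 30020) (nat_lit 6) (nat_lit 395) (nat_lit 2) (nat_lit 197) (nat_lit 210) (nat_lit 163)) (PT.lf (nat_lit 29108) (nat_lit 6) (nat_lit 383) (nat_lit 2) (nat_lit 198) (nat_lit 210) (nat_lit 162)))) (PT.nd (nat_lit 156) (PT.nd (nat_lit 78) (PT.lf (nat_lit 28272) (nat_lit 6) (nat_lit 372) (nat_lit 2) (nat_lit 199)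 (nat_lit 210) (nat_lit 161)) (PT.lf (nat_lit 27436) (nat_lit 6) (nat_lit 361) (nat_lit 2) (nat_lit 200) (nat_lit 210) (nat_lit 160))) (PT.nd (nat_lit 78) (PT.lf (nat_lit 26676) (nat_lit 6) (nat_lit 351) (nat_lit 2) (nat_lit 201) (nat_lit 210) (nat_lit 159)) (PT.lf (nat_lit 25916) (nat_lit 6) (nat_lit 341) (nat_lit 2) (nat_lit 202) (nat_lit 210) (nat_lit 158))))) (PT.nd (nat_lit 312) (PT.nd (nat_lit 156) (PT.nd (nat_lit 78) (PT.lf (nat_lit 25156) (nat_lit 6) (nat_lit 331) (nat_lit 2) (nat_lit 203) (nat_lit 210) (nat_lit 157)) (PT.lf (nat_lit 24396) (nat_lit 6) (nat_lit 321) (nat_lit 2) (nat_lit 204) (nat_lit 210) (nat_lit 156))) (PT.nd (nat_lit 78) (PT.lf (nat_lit 23712) (nat_lit 6) (nat_lit 312) (nat_lit 2) (nat_lit 205) (nat_lit 210) (nat_lit 155)) (PT.lf (nat_lit 23028) (nat_lit 6) (nat_lit 303) (nat_lit 2) (nat_lit 206) (nat_lit 210) (nat_lit 154)))) (PT.nd (nat_lit 156) (PT.nd (nat_lit 78) (PT.lf (nat_lit 22344) (nat_lit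 6) (nat_lit 294) (nat_lit 2) (nat_lit 207) (nat_lit 210) (nat_lit 153)) (PT.lf (nat_lit 21660) (nat_lit 6) (nat_lit 285) (nat_lit 2) (nat_lit 208) (nat_lit 210) (nat_lit 152))) (PT.nd (nat_lit 78) (PT.lf (nat_lit 21052) (nat_lit 6) (nat_lit 277) (nat_lit 2) (nat_lit 209) (nat_lit 210) (nat_lit 151)) (PT.lf (nat_lit 20444) (nat_lit 3) (nat_lit 269) (nat_lit 0) (nat_lit 210) (nat_lit 210) (nat_lit 150)))))) (PT.nd (nat_lit 624) (PT.nd (nat_lit 312) (PT.nd (nat_lit 156) (PT.nd (nat_lit 78) (PT.lf (nat_lit 19760) (nat_lit 6) (nat_lit 260) (nat_lit 0) (nat_lit 211) (nat_lit 210) (nat_lit 149)) (PT.lf (nat_lit 19076) (nat_lit 6) (nat_lit 251) (nat_lit 0) (nat_lit 212) (nat_lit 210) (nat_lit 148))) (PT.nd (nat_lit 78) (PT.lf (nat_lit 18468) (nat_lit 6) (nat_lit 243) (nat_lit 0) (nat_lit 213) (nat_lit 210) (nat_lit 147)) (PT.lf (nat_lit 17784) (nat_lit 6) (nat_lit 234) (nat_lit 0) (nat_lit 214) (nat_lit 210) (nat_lit 146)))) (PT.nd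 (nat_lit 156) (PT.nd (nat_lit 78) (PT.lf (nat_lit 17176) (nat_lit 6) (nat_lit 226) (nat_lit 0) (nat_lit 215) (nat_lit 210) (nat_lit 145)) (PT.lf (nat_lit 16568) (nat_lit 6) (nat_lit 218) (nat_lit 0) (nat_lit 216) (nat_lit 210) (nat_lit 144))) (PT.nd (nat_lit 78) (PT.lf (nat_lit 16036) (nat_lit 6) (nat_lit 211) (nat_lit 0) (nat_lit 217) (nat_lit 210) (nat_lit 143)) (PT.lf (nat_lit 15428) (nat_lit 6) (nat_lit 203) (nat_lit 0) (nat_lit 218) (nat_lit 210) (nat_lit 142))))) (PT.nd (nat_lit 53040) (PT.nd (nat_lit 156) (PT.nd (nat_lit 78) (PT.lf (nat_lit 14896) (nat_lit 6) (nat_lit 196) (nat_lit 0) (nat_lit 219) (nat_lit 210) (nat_lit 141)) (PT.lf (nat_lit 14364) (nat_lit 6) (nat_lit 189) (nat_lit 0) (nat_lit 220) (nat_lit 210) (nat_lit 140))) (PT.nd (nat_lit 52806) (PT.lf (nat_lit 13832) (nat_lit 6) (nat_lit 182) (nat_lit 0) (nat_lit 221) (nat_lit 210) (nat_lit 139)) (PT.lf (nat_lit 12920) (nat_lit 6) (nat_lit 170) (nat_lit 5) (nat_lit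 137) (nat_lit 211) (nat_lit 222)))) (PT.nd (nat_lit 156) (PT.nd (nat_lit 78) (PT.lf (nat_lit 13376) (nat_lit 6) (nat_lit 176) (nat_lit 5) (nat_lit 138) (nat_lit 211) (nat_lit 221)) (PT.lf (nat_lit 13908) (nat_lit 6) (nat_lit 183) (nat_lit 5) (nat_lit 139) (nat_lit 211) (nat_lit 220))) (PT.nd (nat_lit 78) (PT.lf (nat_lit 14440) (nat_lit 6) (nat_lit 190) (nat_lit 5) (nat_lit 140) (nat_lit 211) (nat_lit 219)) (PT.lf (nat_lit 14972) (nat_lit 6) (nat_lit 197) (nat_lit 5) (nat_lit 141) (nat_lit 211) (nat_lit 218))))))))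
noncomputable def pc52 : PT := (PT.nd (nat_lit 1248) (PT.nd (nat_lit 624) (PT.nd (nat_lit 312) (PT.nd (nat_lit 156) (PT.nd (nat_lit 78) (PT.lf (nat_lit 15504) (nat_lit 6) (nat_lit 204) (nat_lit 5) (nat_lit 142) (nat_lit 211) (nat_lit 217)) (PT.lf (nat_lit 16112) (nat_lit 6) (nat_lit 212) (nat_lit 5) (nat_lit 143) (nat_lit 211) (nat_lit 216))) (PT.nd (nat_lit 78) (PT.lf (nat_lit 16644) (nat_lit 6) (nat_lit 219) (nat_lit 5) (nat_lit 144) (nat_lit 211) (nat_lit 215)) (PT.lf (nat_lit 17252) (nat_lit 6) (nat_lit 227) (nat_lit 5) (nat_lit 145) (nat_lit 211) (nat_lit 214)))) (PT.nd (nat_lit 156) (PT.nd (nat_lit 78) (PT.lf (nat_lit 17860) (nat_lit 6) (nat_lit 235) (nat_lit 5) (nat_lit 146) (nat_lit 211) (nat_lit 213)) (PT.lf (nat_lit 18544) (nat_lit 6) (nat_lit 244) (nat_lit 5) (nat_lit 147) (nat_lit 211) (nat_lit 212))) (PT.nd (nat_lit 78) (PT.lf (nat_lit 19152) (nat_lit 3) (nat_lit 252) (nat_lit 4) (nat_lit 148) (nat_lit 211) (nat_lit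 211)) (PT.lf (nat_lit 19760) (nat_lit 6) (nat_lit 260) (nat_lit 4) (nat_lit 149) (nat_lit 211) (nat_lit 210))))) (PT.nd (nat_lit 312) (PT.nd (nat_lit 156) (PT.nd (nat_lit 78) (PT.lf (nat_lit 20368) (nat_lit 6) (nat_lit 268) (nat_lit 4) (nat_lit 150) (nat_lit 211) (nat_lit 209)) (PT.lf (nat_lit 20976) (nat_lit 6) (nat_lit 276) (nat_lit 4) (nat_lit 151) (nat_lit 211) (nat_lit 208))) (PT.nd (nat_lit 78) (PT.lf (nat_lit 21584) (nat_lit 6) (nat_lit 284) (nat_lit 4) (nat_lit 152) (nat_lit 211) (nat_lit 207)) (PT.lf (nat_lit 22268) (nat_lit 6) (nat_lit 293) (nat_lit 4) (nat_lit 153) (nat_lit 211) (nat_lit 206)))) (PT.nd (nat_lit 156) (PT.nd (nat_lit 78) (PT.lf (nat_lit 22952) (nat_lit 6) (nat_lit 302) (nat_lit 4) (nat_lit 154) (nat_lit 211) (nat_lit 205)) (PT.lf (nat_lit 23636) (nat_lit 6) (nat_lit 311) (nat_lit 4) (nat_lit 155) (nat_lit 211) (nat_lit 204))) (PT.nd (nat_lit 78) (PT.lf (nat_lit 24320) (nat_lit 6) (nat_lit 320) (nat_lit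 4) (nat_lit 156) (nat_lit 211) (nat_lit 203)) (PT.lf (nat_lit 25080) (nat_lit 6) (nat_lit 330) (nat_lit 4) (nat_lit 157) (nat_lit 211) (nat_lit 202)))))) (PT.nd (nat_lit 624) (PT.nd (nat_lit 312) (PT.nd (nat_lit 156) (PT.nd (nat_lit 78) (PT.lf (nat_lit 25840) (nat_lit 6) (nat_lit 340) (nat_lit 4) (nat_lit 158) (nat_lit 211) (nat_lit 201)) (PT.lf (nat_lit 26600) (nat_lit 6) (nat_lit 350) (nat_lit 4) (nat_lit 159) (nat_lit 211) (nat_lit 200))) (PT.nd (nat_lit 78) (PT.lf (nat_lit 27360) (nat_lit 6) (nat_lit 360) (nat_lit 4) (nat_lit 160) (nat_lit 211) (nat_lit 199)) (PT.lf (nat_lit 28196) (nat_lit 6) (nat_lit 371) (nat_lit 4) (nat_lit 161) (nat_lit 211) (nat_lit 198)))) (PT.nd (nat_lit 156) (PT.nd (nat_lit 78) (PT.lf (nat_lit 29032) (nat_lit 6) (nat_lit 382) (nat_lit 4) (nat_lit 162) (nat_lit 211) (nat_lit 197)) (PT.lf (nat_lit 29944) (nat_lit 6) (nat_lit 394) (nat_lit 4) (nat_lit 163) (nat_lit 211) (nat_lit 196))) (PT.nd (nat_lit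 78) (PT.lf (nat_lit 30856) (nat_lit 6) (nat_lit 406) (nat_lit 4) (nat_lit 164) (nat_lit 211) (nat_lit 195)) (PT.lf (nat_lit 31768) (nat_lit 6) (nat_lit 418) (nat_lit 4) (nat_lit 165) (nat_lit 211) (nat_lit 194))))) (PT.nd (nat_lit 312) (PT.nd (nat_lit 156) (PT.nd (nat_lit 78) (PT.lf (nat_lit 33212) (nat_lit 6) (nat_lit 437) (nat_lit 4) (nat_lit 166) (nat_lit 211) (nat_lit 193)) (PT.lf (nat_lit 34960) (nat_lit 6) (nat_lit 460) (nat_lit 4) (nat_lit 167) (nat_lit 211) (nat_lit 192))) (PT.nd (nat_lit 78) (PT.lf (nat_lit 36632) (nat_lit 6) (nat_lit 482) (nat_lit 4) (nat_lit 168) (nat_lit 211) (nat_lit 191)) (PT.lf (nat_lit 38228) (nat_lit 6) (nat_lit 503) (nat_lit 4) (nat_lit 169) (nat_lit 211) (nat_lit 190)))) (PT.nd (nat_lit 156) (PT.nd (nat_lit 78) (PT.lf (nat_lit 38152) (nat_lit 6) (nat_lit 502) (nat_lit 4) (nat_lit 170) (nat_lit 211) (nat_lit 189)) (PT.lf (nat_lit 38076) (nat_lit 6) (nat_lit 501) (nat_lit 4) (nat_lit 171) (nat_lit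 211) (nat_lit 188))) (PT.nd (nat_lit 78) (PT.lf (nat_lit 38000) (nat_lit 6) (nat_lit 500) (nat_lit 4) (nat_lit 172) (nat_lit 211) (nat_lit 187)) (PT.lf (nat_lit 37924) (nat_lit 6) (nat_lit 499) (nat_lit 4) (nat_lit 173) (nat_lit 211) (nat_lit 186)))))))
noncomputable def pc53 : PT := (PT.nd (nat_lit 1248) (PT.nd (nat_lit 624) (PT.nd (nat_lit 312) (PT.nd (nat_lit 156) (PT.nd (nat_lit 78) (PT.lf (nat_lit 37848) (nat_lit 6) (nat_lit 498) (nat_lit 4) (nat_lit 174) (nat_lit 211) (nat_lit 185)) (PT.lf (nat_lit 37772) (nat_lit 6) (nat_lit 497) (nat_lit 4) (nat_lit 175) (nat_lit 211) (nat_lit 184))) (PT.nd (nat_lit 78) (PT.lf (nat_lit 37696) (nat_lit 6) (nat_lit 496) (nat_lit 4) (nat_lit 176) (nat_lit 211) (nat_lit 183)) (PT.lf (nat_lit 37620) (nat_lit 6) (nat_lit 495) (nat_lit 4) (nat_lit 177) (nat_lit 211) (nat_lit 182)))) (PT.nd (nat_lit 156) (PT.nd (nat_lit 78) (PT.lf (nat_lit 37544) (nat_lit 6) (nat_lit 494) (nat_lit 4) (nat_lit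 178) (nat_lit 211) (nat_lit 181)) (PT.lf (nat_lit 37468) (nat_lit 6) (nat_lit 493) (nat_lit 4) (nat_lit 179) (nat_lit 211) (nat_lit 180))) (PT.nd (nat_lit 78) (PT.lf (nat_lit 37468) (nat_lit 6) (nat_lit 493) (nat_lit 2) (nat_lit 180) (nat_lit 211) (nat_lit 179)) (PT.lf (nat_lit 37544) (nat_lit 6) (nat_lit 494) (nat_lit 2) (nat_lit 181) (nat_lit 211) (nat_lit 178))))) (PT.nd (nat_lit 312) (PT.nd (nat_lit 156) (PT.nd (nat_lit 78) (PT.lf (nat_lit 37620) (nat_lit 6) (nat_lit 495) (nat_lit 2) (nat_lit 182) (nat_lit 211) (nat_lit 177)) (PT.lf (nat_lit 37696) (nat_lit 6) (nat_lit 496) (nat_lit 2) (nat_lit 183) (nat_lit 211) (nat_lit 176))) (PT.nd (nat_lit 78) (PT.lf (nat_lit 37772) (nat_lit 6) (nat_lit 497) (nat_lit 2) (nat_lit 184) (nat_lit 211) (nat_lit 175)) (PT.lf (nat_lit 37848) (nat_lit 6) (nat_lit 498) (nat_lit 2) (nat_lit 185) (nat_lit 211) (nat_lit 174)))) (PT.nd (nat_lit 156) (PT.nd (nat_lit 78) (PT.lf (nat_lit 37924) (nat_lit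 6) (nat_lit 499) (nat_lit 2) (nat_lit 186) (nat_lit 211) (nat_lit 173)) (PT.lf (nat_lit 38000) (nat_lit 6) (nat_lit 500) (nat_lit 2) (nat_lit 187) (nat_lit 211) (nat_lit 172))) (PT.nd (nat_lit 78) (PT.lf (nat_lit 38076) (nat_lit 6) (nat_lit 501) (nat_lit 2) (nat_lit 188) (nat_lit 211) (nat_lit 171)) (PT.lf (nat_lit 38152) (nat_lit 6) (nat_lit 502) (nat_lit 2) (nat_lit 189) (nat_lit 211) (nat_lit 170)))))) (PT.nd (nat_lit 624) (PT.nd (nat_lit 312) (PT.nd (nat_lit 156) (PT.nd (nat_lit 78) (PT.lf (nat_lit 38228) (nat_lit 6) (nat_lit 503) (nat_lit 2) (nat_lit 190) (nat_lit 211) (nat_lit 169)) (PT.lf (nat_lit 36632) (nat_lit 6) (nat_lit 482) (nat_lit 2) (nat_lit 191) (nat_lit 211) (nat_lit 168))) (PT.nd (nat_lit 78) (PT.lf (nat_lit 34960) (nat_lit 6) (nat_lit 460) (nat_lit 2) (nat_lit 192) (nat_lit 211) (nat_lit 167)) (PT.lf (nat_lit 33212) (nat_lit 6) (nat_lit 437) (nat_lit 2) (nat_lit 193) (nat_lit 211) (nat_lit 166)))) (PT.nd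 (nat_lit 156) (PT.nd (nat_lit 78) (PT.lf (nat_lit 31768) (nat_lit 6) (nat_lit 418) (nat_lit 2) (nat_lit 194) (nat_lit 211) (nat_lit 165)) (PT.lf (nat_lit 30856) (nat_lit 6) (nat_lit 406) (nat_lit 2) (nat_lit 195) (nat_lit 211) (nat_lit 164))) (PT.nd (nat_lit 78) (PT.lf (nat_lit 29944) (nat_lit 6) (nat_lit 394) (nat_lit 2) (nat_lit 196) (nat_lit 211) (nat_lit 163)) (PT.lf (nat_lit 29032) (nat_lit 6) (nat_lit 382) (nat_lit 2) (nat_lit 197) (nat_lit 211) (nat_lit 162))))) (PT.nd (nat_lit 312) (PT.nd (nat_lit 156) (PT.nd (nat_lit 78) (PT.lf (nat_lit 28196) (nat_lit 6) (nat_lit 371) (nat_lit 2) (nat_lit 198) (nat_lit 211) (nat_lit 161)) (PT.lf (nat_lit 27360) (nat_lit 6) (nat_lit 360) (nat_lit 2) (nat_lit 199) (nat_lit 211) (nat_lit 160))) (PT.nd (nat_lit 78) (PT.lf (nat_lit 26600) (nat_lit 6) (nat_lit 350) (nat_lit 2) (nat_lit 200) (nat_lit 211) (nat_lit 159)) (PT.lf (nat_lit 25840) (nat_lit 6) (nat_lit 340) (nat_lit 2) (nat_lit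 201) (nat_lit 211) (nat_lit 158)))) (PT.nd (nat_lit 156) (PT.nd (nat_lit 78) (PT.lf (nat_lit 25080) (nat_lit 6) (nat_lit 330) (nat_lit 2) (nat_lit 202) (nat_lit 211) (nat_lit 157)) (PT.lf (nat_lit 24320) (nat_lit 6) (nat_lit 320) (nat_lit 2) (nat_lit 203) (nat_lit 211) (nat_lit 156))) (PT.nd (nat_lit 78) (PT.lf (nat_lit 23636) (nat_lit 6) (nat_lit 311) (nat_lit 2) (nat_lit 204) (nat_lit 211) (nat_lit 155)) (PT.nd (nat_lit 78) (PT.lf (nat_lit 22952) (nat_lit 6) (nat_lit 302) (nat_lit 2) (nat_lit 205) (nat_lit 211) (nat_lit 154)) (PT.lf (nat_lit 22268) (nat_lit 6) (nat_lit 293) (nat_lit 2) (nat_lit 206) (nat_lit 211) (nat_lit 153))))))))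
noncomputable def pc54 : PT := (PT.nd (nat_lit 55068) (PT.nd (nat_lit 53820) (PT.nd (nat_lit 624) (PT.nd (nat_lit 312) (PT.nd (nat_lit 156) (PT.nd (nat_lit 78) (PT.lf (nat_lit 21584) (nat_lit 6) (nat_lit 284) (nat_lit 2) (nat_lit 207) (nat_lit 211) (nat_lit 152)) (PT.lf (nat_lit 20976) (nat_lit 6) (nat_lit 276) (nat_lit 2) (nat_lit 208) (nat_lit 211) (nat_lit 151))) (PT.nd (nat_lit 78) (PT.lf (nat_lit 20368) (nat_lit 6) (nat_lit 268) (nat_lit 2) (nat_lit 209) (nat_lit 211) (nat_lit 150)) (PT.lf (nat_lit 19760) (nat_lit 6) (nat_lit 260) (nat_lit 2) (nat_lit 210) (nat_lit 211) (nat_lit 149)))) (PT.nd (nat_lit 156) (PT.nd (nat_lit 78) (PT.lf (nat_lit 19152) (nat_lit 3) (nat_lit 252) (nat_lit 0) (nat_lit 211) (nat_lit 211) (nat_lit 148)) (PT.lf (nat_lit 18544) (nat_lit 6) (nat_lit 244) (nat_lit 0) (nat_lit 212) (nat_lit 211) (nat_lit 147))) (PT.nd (nat_lit 78) (PT.lf (nat_lit 17860) (nat_lit 6) (nat_lit 235) (nat_lit 0) (nat_lit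 213) (nat_lit 211) (nat_lit 146)) (PT.lf (nat_lit 17252) (nat_lit 6) (nat_lit 227) (nat_lit 0) (nat_lit 214) (nat_lit 211) (nat_lit 145))))) (PT.nd (nat_lit 312) (PT.nd (nat_lit 156) (PT.nd (nat_lit 78) (PT.lf (nat_lit 16644) (nat_lit 6) (nat_lit 219) (nat_lit 0) (nat_lit 215) (nat_lit 211) (nat_lit 144)) (PT.lf (nat_lit 16112) (nat_lit 6) (nat_lit 212) (nat_lit 0) (nat_lit 216) (nat_lit 211) (nat_lit 143))) (PT.nd (nat_lit 78) (PT.lf (nat_lit 15504) (nat_lit 6) (nat_lit 204) (nat_lit 0) (nat_lit 217) (nat_lit 211) (nat_lit 142)) (PT.lf (nat_lit 14972) (nat_lit 6) (nat_lit 197) (nat_lit 0) (nat_lit 218) (nat_lit 211) (nat_lit 141)))) (PT.nd (nat_lit 156) (PT.nd (nat_lit 78) (PT.lf (nat_lit 14440) (nat_lit 6) (nat_lit 190) (nat_lit 0) (nat_lit 219) (nat_lit 211) (nat_lit 140)) (PT.lf (nat_lit 13908) (nat_lit 6) (nat_lit 183) (nat_lit 0) (nat_lit 220) (nat_lit 211) (nat_lit 139))) (PT.nd (nat_lit 78) (PT.lf (nat_lit 13376) (nat_lit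 6) (nat_lit 176) (nat_lit 0) (nat_lit 221) (nat_lit 211) (nat_lit 138)) (PT.lf (nat_lit 12920) (nat_lit 6) (nat_lit 170) (nat_lit 0) (nat_lit 222) (nat_lit 211) (nat_lit 137)))))) (PT.nd (nat_lit 624) (PT.nd (nat_lit 312) (PT.nd (nat_lit 156) (PT.nd (nat_lit 78) (PT.lf (nat_lit 12464) (nat_lit 6) (nat_lit 164) (nat_lit 5) (nat_lit 136) (nat_lit 212) (nat_lit 222)) (PT.lf (nat_lit 12996) (nat_lit 6) (nat_lit 171) (nat_lit 5) (nat_lit 137) (nat_lit 212) (nat_lit 221))) (PT.nd (nat_lit 78) (PT.lf (nat_lit 13452) (nat_lit 6) (nat_lit 177) (nat_lit 5) (nat_lit 138) (nat_lit 212) (nat_lit 220)) (PT.lf (nat_lit 13984) (nat_lit 6) (nat_lit 184) (nat_lit 5) (nat_lit 139) (nat_lit 212) (nat_lit 219)))) (PT.nd (nat_lit 156) (PT.nd (nat_lit 78) (PT.lf (nat_lit 14516) (nat_lit 6) (nat_lit 191) (nat_lit 5) (nat_lit 140) (nat_lit 212) (nat_lit 218)) (PT.lf (nat_lit 15048) (nat_lit 6) (nat_lit 198) (nat_lit 5) (nat_lit 141) (nat_lit 212) (nat_lit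 217))) (PT.nd (nat_lit 78) (PT.lf (nat_lit 15580) (nat_lit 6) (nat_lit 205) (nat_lit 5) (nat_lit 142) (nat_lit 212) (nat_lit 216)) (PT.lf (nat_lit 16188) (nat_lit 6) (nat_lit 213) (nat_lit 5) (nat_lit 143) (nat_lit 212) (nat_lit 215))))) (PT.nd (nat_lit 312) (PT.nd (nat_lit 156) (PT.nd (nat_lit 78) (PT.lf (nat_lit 16720) (nat_lit 6) (nat_lit 220) (nat_lit 5) (nat_lit 144) (nat_lit 212) (nat_lit 214)) (PT.lf (nat_lit 17328) (nat_lit 6) (nat_lit 228) (nat_lit 5) (nat_lit 145) (nat_lit 212) (nat_lit 213))) (PT.nd (nat_lit 78) (PT.lf (nat_lit 17936) (nat_lit 3) (nat_lit 236) (nat_lit 4) (nat_lit 146) (nat_lit 212) (nat_lit 212)) (PT.lf (nat_lit 18544) (nat_lit 6) (nat_lit 244) (nat_lit 4) (nat_lit 147) (nat_lit 212) (nat_lit 211)))) (PT.nd (nat_lit 156) (PT.nd (nat_lit 78) (PT.lf (nat_lit 19076) (nat_lit 6) (nat_lit 251) (nat_lit 4) (nat_lit 148) (nat_lit 212) (nat_lit 210)) (PT.lf (nat_lit 19684) (nat_lit 6) (nat_lit 259) (nat_lit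 4) (nat_lit 149) (nat_lit 212) (nat_lit 209))) (PT.nd (nat_lit 78) (PT.lf (nat_lit 20292) (nat_lit 6) (nat_lit 267) (nat_lit 4) (nat_lit 150) (nat_lit 212) (nat_lit 208)) (PT.lf (nat_lit 20900) (nat_lit 6) (nat_lit 275) (nat_lit 4) (nat_lit 151) (nat_lit 212) (nat_lit 207))))))) (PT.nd (nat_lit 1248) (PT.nd (nat_lit 624) (PT.nd (nat_lit 312) (PT.nd (nat_lit 156) (PT.nd (nat_lit 78) (PT.lf (nat_lit 21508) (nat_lit 6) (nat_lit 283) (nat_lit 4) (nat_lit 152) (nat_lit 212) (nat_lit 206)) (PT.lf (nat_lit 22192) (nat_lit 6) (nat_lit 292) (nat_lit 4) (nat_lit 153) (nat_lit 212) (nat_lit 205))) (PT.nd (nat_lit 78) (PT.lf (nat_lit 22876) (nat_lit 6) (nat_lit 301) (nat_lit 4) (nat_lit 154) (nat_lit 212) (nat_lit 204)) (PT.lf (nat_lit 23560) (nat_lit 6) (nat_lit 310) (nat_lit 4) (nat_lit 155) (nat_lit 212) (nat_lit 203)))) (PT.nd (nat_lit 156) (PT.nd (nat_lit 78) (PT.lf (nat_lit 24244) (nat_lit 6) (nat_lit 319) (nat_lit 4) (nat_lit 156)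 (nat_lit 212) (nat_lit 202)) (PT.lf (nat_lit 25004) (nat_lit 6) (nat_lit 329) (nat_lit 4) (nat_lit 157) (nat_lit 212) (nat_lit 201))) (PT.nd (nat_lit 78) (PT.lf (nat_lit 25764) (nat_lit 6) (nat_lit 339) (nat_lit 4) (nat_lit 158) (nat_lit 212) (nat_lit 200)) (PT.lf (nat_lit 26524) (nat_lit 6) (nat_lit 349) (nat_lit 4) (nat_lit 159) (nat_lit 212) (nat_lit 199))))) (PT.nd (nat_lit 312) (PT.nd (nat_lit 156) (PT.nd (nat_lit 78) (PT.lf (nat_lit 27284) (nat_lit 6) (nat_lit 359) (nat_lit 4) (nat_lit 160) (nat_lit 212) (nat_lit 198)) (PT.lf (nat_lit 28120) (nat_lit 6) (nat_lit 370) (nat_lit 4) (nat_lit 161) (nat_lit 212) (nat_lit 197))) (PT.nd (nat_lit 78) (PT.lf (nat_lit 28956) (nat_lit 6) (nat_lit 381) (nat_lit 4) (nat_lit 162) (nat_lit 212) (nat_lit 196)) (PT.lf (nat_lit 29868) (nat_lit 6) (nat_lit 393) (nat_lit 4) (nat_lit 163) (nat_lit 212) (nat_lit 195)))) (PT.nd (nat_lit 156) (PT.nd (nat_lit 78) (PT.lf (nat_lit 30780) (nat_lit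 6) (nat_lit 405) (nat_lit 4) (nat_lit 164) (nat_lit 212) (nat_lit 194)) (PT.lf (nat_lit 31692) (nat_lit 6) (nat_lit 417) (nat_lit 4) (nat_lit 165) (nat_lit 212) (nat_lit 193))) (PT.nd (nat_lit 78) (PT.lf (nat_lit 33136) (nat_lit 6) (nat_lit 436) (nat_lit 4) (nat_lit 166) (nat_lit 212) (nat_lit 192)) (PT.lf (nat_lit 34884) (nat_lit 6) (nat_lit 459) (nat_lit 4) (nat_lit 167) (nat_lit 212) (nat_lit 191)))))) (PT.nd (nat_lit 624) (PT.nd (nat_lit 312) (PT.nd (nat_lit 156) (PT.nd (nat_lit 78) (PT.lf (nat_lit 36556) (nat_lit 6) (nat_lit 481) (nat_lit 4) (nat_lit 168) (nat_lit 212) (nat_lit 190)) (PT.lf (nat_lit 36480) (nat_lit 6) (nat_lit 480) (nat_lit 4) (nat_lit 169) (nat_lit 212) (nat_lit 189))) (PT.nd (nat_lit 78) (PT.lf (nat_lit 36404) (nat_lit 6) (nat_lit 479) (nat_lit 4) (nat_lit 170) (nat_lit 212) (nat_lit 188)) (PT.lf (nat_lit 36328) (nat_lit 6) (nat_lit 478) (nat_lit 4) (nat_lit 171) (nat_lit 212) (nat_lit 187)))) (PT.nd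 (nat_lit 156) (PT.nd (nat_lit 78) (PT.lf (nat_lit 36252) (nat_lit 6) (nat_lit 477) (nat_lit 4) (nat_lit 172) (nat_lit 212) (nat_lit 186)) (PT.lf (nat_lit 36176) (nat_lit 6) (nat_lit 476) (nat_lit 4) (nat_lit 173) (nat_lit 212) (nat_lit 185))) (PT.nd (nat_lit 78) (PT.lf (nat_lit 36100) (nat_lit 6) (nat_lit 475) (nat_lit 4) (nat_lit 174) (nat_lit 212) (nat_lit 184)) (PT.lf (nat_lit 36024) (nat_lit 6) (nat_lit 474) (nat_lit 4) (nat_lit 175) (nat_lit 212) (nat_lit 183))))) (PT.nd (nat_lit 312) (PT.nd (nat_lit 156) (PT.nd (nat_lit 78) (PT.lf (nat_lit 35948) (nat_lit 6) (nat_lit 473) (nat_lit 4) (nat_lit 176) (nat_lit 212) (nat_lit 182)) (PT.lf (nat_lit 35872) (nat_lit 6) (nat_lit 472) (nat_lit 4) (nat_lit 177) (nat_lit 212) (nat_lit 181))) (PT.nd (nat_lit 78) (PT.lf (nat_lit 35796) (nat_lit 6) (nat_lit 471) (nat_lit 4) (nat_lit 178) (nat_lit 212) (nat_lit 180)) (PT.lf (nat_lit 35720) (nat_lit 3) (nat_lit 470) (nat_lit 2) (nat_lit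 179) (nat_lit 212) (nat_lit 179)))) (PT.nd (nat_lit 156) (PT.nd (nat_lit 78) (PT.lf (nat_lit 35796) (nat_lit 6) (nat_lit 471) (nat_lit 2) (nat_lit 180) (nat_lit 212) (nat_lit 178)) (PT.lf (nat_lit 35872) (nat_lit 6) (nat_lit 472) (nat_lit 2) (nat_lit 181) (nat_lit 212) (nat_lit 177))) (PT.nd (nat_lit 78) (PT.lf (nat_lit 35948) (nat_lit 6) (nat_lit 473) (nat_lit 2) (nat_lit 182) (nat_lit 212) (nat_lit 176)) (PT.lf (nat_lit 36024) (nat_lit 6) (nat_lit 474) (nat_lit 2) (nat_lit 183) (nat_lit 212) (nat_lit 175))))))))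
noncomputable def pc55 : PT := (PT.nd (nat_lit 2496) (PT.nd (nat_lit 1248) (PT.nd (nat_lit 624) (PT.nd (nat_lit 312) (PT.nd (nat_lit 156) (PT.nd (nat_lit 78) (PT.lf (nat_lit 36100) (nat_lit 6) (nat_lit 475) (nat_lit 2) (nat_lit 184) (nat_lit 212) (nat_lit 174)) (PT.lf (nat_lit 36176) (nat_lit 6) (nat_lit 476) (nat_lit 2) (nat_lit 185) (nat_lit 212) (nat_lit 173))) (PT.nd (nat_lit 78) (PT.lf (nat_lit 36252) (nat_lit 6) (nat_lit 477) (nat_lit 2) (nat_lit 186) (nat_lit 212) (nat_lit 172)) (PT.lf (nat_lit 36328) (nat_lit 6) (nat_lit 478) (nat_lit 2) (nat_lit 187) (nat_lit 212) (nat_lit 171)))) (PT.nd (nat_lit 156) (PT.nd (nat_lit 78) (PT.lf (nat_lit 36404) (nat_lit 6) (nat_lit 479) (nat_lit 2) (nat_lit 188) (nat_lit 212) (nat_lit 170)) (PT.lf (nat_lit 36480) (nat_lit 6) (nat_lit 480) (nat_lit 2) (nat_lit 189) (nat_lit 212) (nat_lit 169))) (PT.nd (nat_lit 78) (PT.lf (nat_lit 36556) (nat_lit 6) (nat_lit 481) (nat_lit 2) (nat_lit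 190) (nat_lit 212) (nat_lit 168)) (PT.lf (nat_lit 34884) (nat_lit 6) (nat_lit 459) (nat_lit 2) (nat_lit 191) (nat_lit 212) (nat_lit 167))))) (PT.nd (nat_lit 312) (PT.nd (nat_lit 156) (PT.nd (nat_lit 78) (PT.lf (nat_lit 33136) (nat_lit 6) (nat_lit 436) (nat_lit 2) (nat_lit 192) (nat_lit 212) (nat_lit 166)) (PT.lf (nat_lit 31692) (nat_lit 6) (nat_lit 417) (nat_lit 2) (nat_lit 193) (nat_lit 212) (nat_lit 165))) (PT.nd (nat_lit 78) (PT.lf (nat_lit 30780) (nat_lit 6) (nat_lit 405) (nat_lit 2) (nat_lit 194) (nat_lit 212) (nat_lit 164)) (PT.lf (nat_lit 29868) (nat_lit 6) (nat_lit 393) (nat_lit 2) (nat_lit 195) (nat_lit 212) (nat_lit 163)))) (PT.nd (nat_lit 156) (PT.nd (nat_lit 78) (PT.lf (nat_lit 28956) (nat_lit 6) (nat_lit 381) (nat_lit 2) (nat_lit 196) (nat_lit 212) (nat_lit 162)) (PT.lf (nat_lit 28120) (nat_lit 6) (nat_lit 370) (nat_lit 2) (nat_lit 197) (nat_lit 212) (nat_lit 161))) (PT.nd (nat_lit 78) (PT.lf (nat_lit 27284) (nat_lit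 6) (nat_lit 359) (nat_lit 2) (nat_lit 198) (nat_lit 212) (nat_lit 160)) (PT.lf (nat_lit 26524) (nat_lit 6) (nat_lit 349) (nat_lit 2) (nat_lit 199) (nat_lit 212) (nat_lit 159)))))) (PT.nd (nat_lit 624) (PT.nd (nat_lit 312) (PT.nd (nat_lit 156) (PT.nd (nat_lit 78) (PT.lf (nat_lit 25764) (nat_lit 6) (nat_lit 339) (nat_lit 2) (nat_lit 200) (nat_lit 212) (nat_lit 158)) (PT.lf (nat_lit 25004) (nat_lit 6) (nat_lit 329) (nat_lit 2) (nat_lit 201) (nat_lit 212) (nat_lit 157))) (PT.nd (nat_lit 78) (PT.lf (nat_lit 24244) (nat_lit 6) (nat_lit 319) (nat_lit 2) (nat_lit 202) (nat_lit 212) (nat_lit 156)) (PT.lf (nat_lit 23560) (nat_lit 6) (nat_lit 310) (nat_lit 2) (nat_lit 203) (nat_lit 212) (nat_lit 155)))) (PT.nd (nat_lit 156) (PT.nd (nat_lit 78) (PT.lf (nat_lit 22876) (nat_lit 6) (nat_lit 301) (nat_lit 2) (nat_lit 204) (nat_lit 212) (nat_lit 154)) (PT.lf (nat_lit 22192) (nat_lit 6) (nat_lit 292) (nat_lit 2) (nat_lit 205) (nat_lit 212) (nat_lit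 153))) (PT.nd (nat_lit 78) (PT.lf (nat_lit 21508) (nat_lit 6) (nat_lit 283) (nat_lit 2) (nat_lit 206) (nat_lit 212) (nat_lit 152)) (PT.lf (nat_lit 20900) (nat_lit 6) (nat_lit 275) (nat_lit 2) (nat_lit 207) (nat_lit 212) (nat_lit 151))))) (PT.nd (nat_lit 312) (PT.nd (nat_lit 156) (PT.nd (nat_lit 78) (PT.lf (nat_lit 20292) (nat_lit 6) (nat_lit 267) (nat_lit 2) (nat_lit 208) (nat_lit 212) (nat_lit 150)) (PT.lf (nat_lit 19684) (nat_lit 6) (nat_lit 259) (nat_lit 2) (nat_lit 209) (nat_lit 212) (nat_lit 149))) (PT.nd (nat_lit 78) (PT.lf (nat_lit 19076) (nat_lit 6) (nat_lit 251) (nat_lit 2) (nat_lit 210) (nat_lit 212) (nat_lit 148)) (PT.lf (nat_lit 18544) (nat_lit 6) (nat_lit 244) (nat_lit 2) (nat_lit 211) (nat_lit 212) (nat_lit 147)))) (PT.nd (nat_lit 156) (PT.nd (nat_lit 78) (PT.lf (nat_lit 17936) (nat_lit 3) (nat_lit 236) (nat_lit 0) (nat_lit 212) (nat_lit 212) (nat_lit 146)) (PT.lf (nat_lit 17328) (nat_lit 6) (nat_lit 228) (nat_lit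 0) (nat_lit 213) (nat_lit 212) (nat_lit 145))) (PT.nd (nat_lit 78) (PT.lf (nat_lit 16720) (nat_lit 6) (nat_lit 220) (nat_lit 0) (nat_lit 214) (nat_lit 212) (nat_lit 144)) (PT.lf (nat_lit 16188) (nat_lit 6) (nat_lit 213) (nat_lit 0) (nat_lit 215) (nat_lit 212) (nat_lit 143))))))) (PT.nd (nat_lit 53664) (PT.nd (nat_lit 53040) (PT.nd (nat_lit 312) (PT.nd (nat_lit 156) (PT.nd (nat_lit 78) (PT.lf (nat_lit 15580) (nat_lit 6) (nat_lit 205) (nat_lit 0) (nat_lit 216) (nat_lit 212) (nat_lit 142)) (PT.lf (nat_lit 15048) (nat_lit 6) (nat_lit 198) (nat_lit 0) (nat_lit 217) (nat_lit 212) (nat_lit 141))) (PT.nd (nat_lit 78) (PT.lf (nat_lit 14516) (nat_lit 6) (nat_lit 191) (nat_lit 0) (nat_lit 218) (nat_lit 212) (nat_lit 140)) (PT.lf (nat_lit 13984) (nat_lit 6) (nat_lit 184) (nat_lit 0) (nat_lit 219) (nat_lit 212) (nat_lit 139)))) (PT.nd (nat_lit 156) (PT.nd (nat_lit 78) (PT.lf (nat_lit 13452) (nat_lit 6) (nat_lit 177) (nat_lit 0) (nat_lit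 220) (nat_lit 212) (nat_lit 138)) (PT.lf (nat_lit 12996) (nat_lit 6) (nat_lit 171) (nat_lit 0) (nat_lit 221) (nat_lit 212) (nat_lit 137))) (PT.nd (nat_lit 52494) (PT.lf (nat_lit 12464) (nat_lit 6) (nat_lit 164) (nat_lit 0) (nat_lit 222) (nat_lit 212) (nat_lit 136)) (PT.lf (nat_lit 11628) (nat_lit 6) (nat_lit 153) (nat_lit 5) (nat_lit 134) (nat_lit 213) (nat_lit 223))))) (PT.nd (nat_lit 312) (PT.nd (nat_lit 156) (PT.nd (nat_lit 78) (PT.lf (nat_lit 12084) (nat_lit 6) (nat_lit 159) (nat_lit 5) (nat_lit 135) (nat_lit 213) (nat_lit 222)) (PT.lf (nat_lit 12540) (nat_lit 6) (nat_lit 165) (nat_lit 5) (nat_lit 136) (nat_lit 213) (nat_lit 221))) (PT.nd (nat_lit 78) (PT.lf (nat_lit 13072) (nat_lit 6) (nat_lit 172) (nat_lit 5) (nat_lit 137) (nat_lit 213) (nat_lit 220)) (PT.lf (nat_lit 13528) (nat_lit 6) (nat_lit 178) (nat_lit 5) (nat_lit 138) (nat_lit 213) (nat_lit 219)))) (PT.nd (nat_lit 156) (PT.nd (nat_lit 78) (PT.lf (nat_lit 14060)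 (nat_lit 6) (nat_lit 185) (nat_lit 5) (nat_lit 139) (nat_lit 213) (nat_lit 218)) (PT.lf (nat_lit 14592) (nat_lit 6) (nat_lit 192) (nat_lit 5) (nat_lit 140) (nat_lit 213) (nat_lit 217))) (PT.nd (nat_lit 78) (PT.lf (nat_lit 15124) (nat_lit 6) (nat_lit 199) (nat_lit 5) (nat_lit 141) (nat_lit 213) (nat_lit 216)) (PT.lf (nat_lit 15656) (nat_lit 6) (nat_lit 206) (nat_lit 5) (nat_lit 142) (nat_lit 213) (nat_lit 215)))))) (PT.nd (nat_lit 624) (PT.nd (nat_lit 312) (PT.nd (nat_lit 156) (PT.nd (nat_lit 78) (PT.lf (nat_lit 16264) (nat_lit 6) (nat_lit 214) (nat_lit 5) (nat_lit 143) (nat_lit 213) (nat_lit 214)) (PT.lf (nat_lit 16796) (nat_lit 3) (nat_lit 221) (nat_lit 4) (nat_lit 144) (nat_lit 213) (nat_lit 213))) (PT.nd (nat_lit 78) (PT.lf (nat_lit 17328) (nat_lit 6) (nat_lit 228) (nat_lit 4) (nat_lit 145) (nat_lit 213) (nat_lit 212)) (PT.lf (nat_lit 17860) (nat_lit 6) (nat_lit 235) (nat_lit 4) (nat_lit 146) (nat_lit 213) (nat_lit 211))))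 (PT.nd (nat_lit 156) (PT.nd (nat_lit 78) (PT.lf (nat_lit 18468) (nat_lit 6) (nat_lit 243) (nat_lit 4) (nat_lit 147) (nat_lit 213) (nat_lit 210)) (PT.lf (nat_lit 19000) (nat_lit 6) (nat_lit 250) (nat_lit 4) (nat_lit 148) (nat_lit 213) (nat_lit 209))) (PT.nd (nat_lit 78) (PT.lf (nat_lit 19608) (nat_lit 6) (nat_lit 258) (nat_lit 4) (nat_lit 149) (nat_lit 213) (nat_lit 208)) (PT.lf (nat_lit 20216) (nat_lit 6) (nat_lit 266) (nat_lit 4) (nat_lit 150) (nat_lit 213) (nat_lit 207))))) (PT.nd (nat_lit 312) (PT.nd (nat_lit 156) (PT.nd (nat_lit 78) (PT.lf (nat_lit 20824) (nat_lit 6) (nat_lit 274) (nat_lit 4) (nat_lit 151) (nat_lit 213) (nat_lit 206)) (PT.lf (nat_lit 21432) (nat_lit 6) (nat_lit 282) (nat_lit 4) (nat_lit 152) (nat_lit 213) (nat_lit 205))) (PT.nd (nat_lit 78) (PT.lf (nat_lit 22116) (nat_lit 6) (nat_lit 291) (nat_lit 4) (nat_lit 153) (nat_lit 213) (nat_lit 204)) (PT.lf (nat_lit 22800) (nat_lit 6) (nat_lit 300) (nat_lit 4)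 (nat_lit 154) (nat_lit 213) (nat_lit 203)))) (PT.nd (nat_lit 156) (PT.nd (nat_lit 78) (PT.lf (nat_lit 23484) (nat_lit 6) (nat_lit 309) (nat_lit 4) (nat_lit 155) (nat_lit 213) (nat_lit 202)) (PT.lf (nat_lit 24168) (nat_lit 6) (nat_lit 318) (nat_lit 4) (nat_lit 156) (nat_lit 213) (nat_lit 201))) (PT.nd (nat_lit 78) (PT.lf (nat_lit 24928) (nat_lit 6) (nat_lit 328) (nat_lit 4) (nat_lit 157) (nat_lit 213) (nat_lit 200)) (PT.lf (nat_lit 25688) (nat_lit 6) (nat_lit 338) (nat_lit 4) (nat_lit 158) (nat_lit 213) (nat_lit 199))))))))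
noncomputable def pc56 : PT := (PT.nd (nat_lit 2496) (PT.nd (nat_lit 1248) (PT.nd (nat_lit 624) (PT.nd (nat_lit 312) (PT.nd (nat_lit 156) (PT.nd (nat_lit 78) (PT.lf (nat_lit 26448) (nat_lit 6) (nat_lit 348) (nat_lit 4) (nat_lit 159) (nat_lit 213) (nat_lit 198)) (PT.lf (nat_lit 27208) (nat_lit 6) (nat_lit 358) (nat_lit 4) (nat_lit 160) (nat_lit 213) (nat_lit 197))) (PT.nd (nat_lit 78) (PT.lf (nat_lit 28044) (nat_lit 6) (nat_lit 369) (nat_lit 4) (nat_lit 161) (nat_lit 213) (nat_lit 196)) (PT.lf (nat_lit 28880) (nat_lit 6) (nat_lit 380) (nat_lit 4) (nat_lit 162) (nat_lit 213) (nat_lit 195)))) (PT.nd (nat_lit 156) (PT.nd (nat_lit 78) (PT.lf (nat_lit 29792) (nat_lit 6) (nat_lit 392) (nat_lit 4) (nat_lit 163) (nat_lit 213) (nat_lit 194)) (PT.lf (nat_lit 30704) (nat_lit 6) (nat_lit 404) (nat_lit 4) (nat_lit 164) (nat_lit 213) (nat_lit 193))) (PT.nd (nat_lit 78) (PT.lf (nat_lit 31616) (nat_lit 6) (nat_lit 416) (nat_lit 4) (nat_lit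 165) (nat_lit 213) (nat_lit 192)) (PT.lf (nat_lit 33060) (nat_lit 6) (nat_lit 435) (nat_lit 4) (nat_lit 166) (nat_lit 213) (nat_lit 191))))) (PT.nd (nat_lit 312) (PT.nd (nat_lit 156) (PT.nd (nat_lit 78) (PT.lf (nat_lit 34808) (nat_lit 6) (nat_lit 458) (nat_lit 4) (nat_lit 167) (nat_lit 213) (nat_lit 190)) (PT.lf (nat_lit 34732) (nat_lit 6) (nat_lit 457) (nat_lit 4) (nat_lit 168) (nat_lit 213) (nat_lit 189))) (PT.nd (nat_lit 78) (PT.lf (nat_lit 34656) (nat_lit 6) (nat_lit 456) (nat_lit 4) (nat_lit 169) (nat_lit 213) (nat_lit 188)) (PT.lf (nat_lit 34580) (nat_lit 6) (nat_lit 455) (nat_lit 4) (nat_lit 170) (nat_lit 213) (nat_lit 187)))) (PT.nd (nat_lit 156) (PT.nd (nat_lit 78) (PT.lf (nat_lit 34504) (nat_lit 6) (nat_lit 454) (nat_lit 4) (nat_lit 171) (nat_lit 213) (nat_lit 186)) (PT.lf (nat_lit 34428) (nat_lit 6) (nat_lit 453) (nat_lit 4) (nat_lit 172) (nat_lit 213) (nat_lit 185))) (PT.nd (nat_lit 78) (PT.lf (nat_lit 34352) (nat_lit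 6) (nat_lit 452) (nat_lit 4) (nat_lit 173) (nat_lit 213) (nat_lit 184)) (PT.lf (nat_lit 34276) (nat_lit 6) (nat_lit 451) (nat_lit 4) (nat_lit 174) (nat_lit 213) (nat_lit 183)))))) (PT.nd (nat_lit 624) (PT.nd (nat_lit 312) (PT.nd (nat_lit 156) (PT.nd (nat_lit 78) (PT.lf (nat_lit 34200) (nat_lit 6) (nat_lit 450) (nat_lit 4) (nat_lit 175) (nat_lit 213) (nat_lit 182)) (PT.lf (nat_lit 34124) (nat_lit 6) (nat_lit 449) (nat_lit 4) (nat_lit 176) (nat_lit 213) (nat_lit 181))) (PT.nd (nat_lit 78) (PT.lf (nat_lit 34048) (nat_lit 6) (nat_lit 448) (nat_lit 4) (nat_lit 177) (nat_lit 213) (nat_lit 180)) (PT.lf (nat_lit 33972) (nat_lit 6) (nat_lit 447) (nat_lit 4) (nat_lit 178) (nat_lit 213) (nat_lit 179)))) (PT.nd (nat_lit 156) (PT.nd (nat_lit 78) (PT.lf (nat_lit 33972) (nat_lit 6) (nat_lit 447) (nat_lit 2) (nat_lit 179) (nat_lit 213) (nat_lit 178)) (PT.lf (nat_lit 34048) (nat_lit 6) (nat_lit 448) (nat_lit 2) (nat_lit 180) (nat_lit 213) (nat_lit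 177))) (PT.nd (nat_lit 78) (PT.lf (nat_lit 34124) (nat_lit 6) (nat_lit 449) (nat_lit 2) (nat_lit 181) (nat_lit 213) (nat_lit 176)) (PT.lf (nat_lit 34200) (nat_lit 6) (nat_lit 450) (nat_lit 2) (nat_lit 182) (nat_lit 213) (nat_lit 175))))) (PT.nd (nat_lit 312) (PT.nd (nat_lit 156) (PT.nd (nat_lit 78) (PT.lf (nat_lit 34276) (nat_lit 6) (nat_lit 451) (nat_lit 2) (nat_lit 183) (nat_lit 213) (nat_lit 174)) (PT.lf (nat_lit 34352) (nat_lit 6) (nat_lit 452) (nat_lit 2) (nat_lit 184) (nat_lit 213) (nat_lit 173))) (PT.nd (nat_lit 78) (PT.lf (nat_lit 34428) (nat_lit 6) (nat_lit 453) (nat_lit 2) (nat_lit 185) (nat_lit 213) (nat_lit 172)) (PT.lf (nat_lit 34504) (nat_lit 6) (nat_lit 454) (nat_lit 2) (nat_lit 186) (nat_lit 213) (nat_lit 171)))) (PT.nd (nat_lit 156) (PT.nd (nat_lit 78) (PT.lf (nat_lit 34580) (nat_lit 6) (nat_lit 455) (nat_lit 2) (nat_lit 187) (nat_lit 213) (nat_lit 170)) (PT.lf (nat_lit 34656) (nat_lit 6) (nat_lit 456) (nat_lit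 2) (nat_lit 188) (nat_lit 213) (nat_lit 169))) (PT.nd (nat_lit 78) (PT.lf (nat_lit 34732) (nat_lit 6) (nat_lit 457) (nat_lit 2) (nat_lit 189) (nat_lit 213) (nat_lit 168)) (PT.lf (nat_lit 34808) (nat_lit 6) (nat_lit 458) (nat_lit 2) (nat_lit 190) (nat_lit 213) (nat_lit 167))))))) (PT.nd (nat_lit 1248) (PT.nd (nat_lit 624) (PT.nd (nat_lit 312) (PT.nd (nat_lit 156) (PT.nd (nat_lit 78) (PT.lf (nat_lit 33060) (nat_lit 6) (nat_lit 435) (nat_lit 2) (nat_lit 191) (nat_lit 213) (nat_lit 166)) (PT.lf (nat_lit 31616) (nat_lit 6) (nat_lit 416) (nat_lit 2) (nat_lit 192) (nat_lit 213) (nat_lit 165))) (PT.nd (nat_lit 78) (PT.lf (nat_lit 30704) (nat_lit 6) (nat_lit 404) (nat_lit 2) (nat_lit 193) (nat_lit 213) (nat_lit 164)) (PT.lf (nat_lit 29792) (nat_lit 6) (nat_lit 392) (nat_lit 2) (nat_lit 194) (nat_lit 213) (nat_lit 163)))) (PT.nd (nat_lit 156) (PT.nd (nat_lit 78) (PT.lf (nat_lit 28880) (nat_lit 6) (nat_lit 380) (nat_lit 2) (nat_lit 195)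 (nat_lit 213) (nat_lit 162)) (PT.lf (nat_lit 28044) (nat_lit 6) (nat_lit 369) (nat_lit 2) (nat_lit 196) (nat_lit 213) (nat_lit 161))) (PT.nd (nat_lit 78) (PT.lf (nat_lit 27208) (nat_lit 6) (nat_lit 358) (nat_lit 2) (nat_lit 197) (nat_lit 213) (nat_lit 160)) (PT.lf (nat_lit 26448) (nat_lit 6) (nat_lit 348) (nat_lit 2) (nat_lit 198) (nat_lit 213) (nat_lit 159))))) (PT.nd (nat_lit 312) (PT.nd (nat_lit 156) (PT.nd (nat_lit 78) (PT.lf (nat_lit 25688) (nat_lit 6) (nat_lit 338) (nat_lit 2) (nat_lit 199) (nat_lit 213) (nat_lit 158)) (PT.lf (nat_lit 24928) (nat_lit 6) (nat_lit 328) (nat_lit 2) (nat_lit 200) (nat_lit 213) (nat_lit 157))) (PT.nd (nat_lit 78) (PT.lf (nat_lit 24168) (nat_lit 6) (nat_lit 318) (nat_lit 2) (nat_lit 201) (nat_lit 213) (nat_lit 156)) (PT.lf (nat_lit 23484) (nat_lit 6) (nat_lit 309) (nat_lit 2) (nat_lit 202) (nat_lit 213) (nat_lit 155)))) (PT.nd (nat_lit 156) (PT.nd (nat_lit 78) (PT.lf (nat_lit 22800) (nat_lit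 6) (nat_lit 300) (nat_lit 2) (nat_lit 203) (nat_lit 213) (nat_lit 154)) (PT.lf (nat_lit 22116) (nat_lit 6) (nat_lit 291) (nat_lit 2) (nat_lit 204) (nat_lit 213) (nat_lit 153))) (PT.nd (nat_lit 78) (PT.lf (nat_lit 21432) (nat_lit 6) (nat_lit 282) (nat_lit 2) (nat_lit 205) (nat_lit 213) (nat_lit 152)) (PT.lf (nat_lit 20824) (nat_lit 6) (nat_lit 274) (nat_lit 2) (nat_lit 206) (nat_lit 213) (nat_lit 151)))))) (PT.nd (nat_lit 624) (PT.nd (nat_lit 312) (PT.nd (nat_lit 156) (PT.nd (nat_lit 78) (PT.lf (nat_lit 20216) (nat_lit 6) (nat_lit 266) (nat_lit 2) (nat_lit 207) (nat_lit 213) (nat_lit 150)) (PT.lf (nat_lit 19608) (nat_lit 6) (nat_lit 258) (nat_lit 2) (nat_lit 208) (nat_lit 213) (nat_lit 149))) (PT.nd (nat_lit 78) (PT.lf (nat_lit 19000) (nat_lit 6) (nat_lit 250) (nat_lit 2) (nat_lit 209) (nat_lit 213) (nat_lit 148)) (PT.lf (nat_lit 18468) (nat_lit 6) (nat_lit 243) (nat_lit 2) (nat_lit 210) (nat_lit 213) (nat_lit 147)))) (PT.nd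 (nat_lit 156) (PT.nd (nat_lit 78) (PT.lf (nat_lit 17860) (nat_lit 6) (nat_lit 235) (nat_lit 2) (nat_lit 211) (nat_lit 213) (nat_lit 146)) (PT.lf (nat_lit 17328) (nat_lit 6) (nat_lit 228) (nat_lit 2) (nat_lit 212) (nat_lit 213) (nat_lit 145))) (PT.nd (nat_lit 78) (PT.lf (nat_lit 16796) (nat_lit 3) (nat_lit 221) (nat_lit 0) (nat_lit 213) (nat_lit 213) (nat_lit 144)) (PT.lf (nat_lit 16264) (nat_lit 6) (nat_lit 214) (nat_lit 0) (nat_lit 214) (nat_lit 213) (nat_lit 143))))) (PT.nd (nat_lit 312) (PT.nd (nat_lit 156) (PT.nd (nat_lit 78) (PT.lf (nat_lit 15656) (nat_lit 6) (nat_lit 206) (nat_lit 0) (nat_lit 215) (nat_lit 213) (nat_lit 142)) (PT.lf (nat_lit 15124) (nat_lit 6) (nat_lit 199) (nat_lit 0) (nat_lit 216) (nat_lit 213) (nat_lit 141))) (PT.nd (nat_lit 78) (PT.lf (nat_lit 14592) (nat_lit 6) (nat_lit 192) (nat_lit 0) (nat_lit 217) (nat_lit 213) (nat_lit 140)) (PT.lf (nat_lit 14060) (nat_lit 6) (nat_lit 185) (nat_lit 0) (nat_lit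 218) (nat_lit 213) (nat_lit 139)))) (PT.nd (nat_lit 156) (PT.nd (nat_lit 78) (PT.lf (nat_lit 13528) (nat_lit 6) (nat_lit 178) (nat_lit 0) (nat_lit 219) (nat_lit 213) (nat_lit 138)) (PT.lf (nat_lit 13072) (nat_lit 6) (nat_lit 172) (nat_lit 0) (nat_lit 220) (nat_lit 213) (nat_lit 137))) (PT.nd (nat_lit 78) (PT.lf (nat_lit 12540) (nat_lit 6) (nat_lit 165) (nat_lit 0) (nat_lit 221) (nat_lit 213) (nat_lit 136)) (PT.lf (nat_lit 12084) (nat_lit 6) (nat_lit 159) (nat_lit 0) (nat_lit 222) (nat_lit 213) (nat_lit 135))))))))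
noncomputable def pc57 : PT := (PT.nd (nat_lit 54756) (PT.nd (nat_lit 53508) (PT.nd (nat_lit 52884) (PT.nd (nat_lit 52572) (PT.nd (nat_lit 52416) (PT.nd (nat_lit 52338) (PT.lf (nat_lit 11628) (nat_lit 6) (nat_lit 153) (nat_lit 0) (nat_lit 223) (nat_lit 213) (nat_lit 134)) (PT.lf (nat_lit 11248) (nat_lit 6) (nat_lit 148) (nat_lit 5) (nat_lit 133) (nat_lit 214) (nat_lit 223))) (PT.nd (nat_lit 78) (PT.lf (nat_lit 11704) (nat_lit 6) (nat_lit 154) (nat_lit 5) (nat_lit 134) (nat_lit 214) (nat_lit 222)) (PT.lf (nat_lit 12160) (nat_lit 6) (nat_lit 160) (nat_lit 5) (nat_lit 135) (nat_lit 214) (nat_lit 221)))) (PT.nd (nat_lit 156) (PT.nd (nat_lit 78) (PT.lf (nat_lit 12616) (nat_lit 6) (nat_lit 166) (nat_lit 5) (nat_lit 136) (nat_lit 214) (nat_lit 220)) (PT.lf (nat_lit 13148) (nat_lit 6) (nat_lit 173) (nat_lit 5) (nat_lit 137) (nat_lit 214) (nat_lit 219))) (PT.nd (nat_lit 78) (PT.lf (nat_lit 13604) (nat_lit 6) (nat_lit 179) (nat_lit 5)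 (nat_lit 138) (nat_lit 214) (nat_lit 218)) (PT.lf (nat_lit 14136) (nat_lit 6) (nat_lit 186) (nat_lit 5) (nat_lit 139) (nat_lit 214) (nat_lit 217))))) (PT.nd (nat_lit 312) (PT.nd (nat_lit 156) (PT.nd (nat_lit 78) (PT.lf (nat_lit 14668) (nat_lit 6) (nat_lit 193) (nat_lit 5) (nat_lit 140) (nat_lit 214) (nat_lit 216)) (PT.lf (nat_lit 15200) (nat_lit 6) (nat_lit 200) (nat_lit 5) (nat_lit 141) (nat_lit 214) (nat_lit 215))) (PT.nd (nat_lit 78) (PT.lf (nat_lit 15732) (nat_lit 3) (nat_lit 207) (nat_lit 4) (nat_lit 142) (nat_lit 214) (nat_lit 214)) (PT.lf (nat_lit 16264) (nat_lit 6) (nat_lit 214) (nat_lit 4) (nat_lit 143) (nat_lit 214) (nat_lit 213)))) (PT.nd (nat_lit 156) (PT.nd (nat_lit 78) (PT.lf (nat_lit 16720) (nat_lit 6) (nat_lit 220) (nat_lit 4) (nat_lit 144) (nat_lit 214) (nat_lit 212)) (PT.lf (nat_lit 17252) (nat_lit 6) (nat_lit 227) (nat_lit 4) (nat_lit 145) (nat_lit 214) (nat_lit 211))) (PT.nd (nat_lit 78) (PT.lf (nat_lit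 17784) (nat_lit 6) (nat_lit 234) (nat_lit 4) (nat_lit 146) (nat_lit 214) (nat_lit 210)) (PT.lf (nat_lit 18392) (nat_lit 6) (nat_lit 242) (nat_lit 4) (nat_lit 147) (nat_lit 214) (nat_lit 209)))))) (PT.nd (nat_lit 624) (PT.nd (nat_lit 312) (PT.nd (nat_lit 156) (PT.nd (nat_lit 78) (PT.lf (nat_lit 18924) (nat_lit 6) (nat_lit 249) (nat_lit 4) (nat_lit 148) (nat_lit 214) (nat_lit 208)) (PT.lf (nat_lit 19532) (nat_lit 6) (nat_lit 257) (nat_lit 4) (nat_lit 149) (nat_lit 214) (nat_lit 207))) (PT.nd (nat_lit 78) (PT.lf (nat_lit 20140) (nat_lit 6) (nat_lit 265) (nat_lit 4) (nat_lit 150) (nat_lit 214) (nat_lit 206)) (PT.lf (nat_lit 20748) (nat_lit 6) (nat_lit 273) (nat_lit 4) (nat_lit 151) (nat_lit 214) (nat_lit 205)))) (PT.nd (nat_lit 156) (PT.nd (nat_lit 78) (PT.lf (nat_lit 21356) (nat_lit 6) (nat_lit 281) (nat_lit 4) (nat_lit 152) (nat_lit 214) (nat_lit 204)) (PT.lf (nat_lit 22040) (nat_lit 6) (nat_lit 290) (nat_lit 4) (nat_lit 153)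 (nat_lit 214) (nat_lit 203))) (PT.nd (nat_lit 78) (PT.lf (nat_lit 22724) (nat_lit 6) (nat_lit 299) (nat_lit 4) (nat_lit 154) (nat_lit 214) (nat_lit 202)) (PT.lf (nat_lit 23408) (nat_lit 6) (nat_lit 308) (nat_lit 4) (nat_lit 155) (nat_lit 214) (nat_lit 201))))) (PT.nd (nat_lit 312) (PT.nd (nat_lit 156) (PT.nd (nat_lit 78) (PT.lf (nat_lit 24092) (nat_lit 6) (nat_lit 317) (nat_lit 4) (nat_lit 156) (nat_lit 214) (nat_lit 200)) (PT.lf (nat_lit 24852) (nat_lit 6) (nat_lit 327) (nat_lit 4) (nat_lit 157) (nat_lit 214) (nat_lit 199))) (PT.nd (nat_lit 78) (PT.lf (nat_lit 25612) (nat_lit 6) (nat_lit 337) (nat_lit 4) (nat_lit 158) (nat_lit 214) (nat_lit 198)) (PT.lf (nat_lit 26372) (nat_lit 6) (nat_lit 347) (nat_lit 4) (nat_lit 159) (nat_lit 214) (nat_lit 197)))) (PT.nd (nat_lit 156) (PT.nd (nat_lit 78) (PT.lf (nat_lit 27132) (nat_lit 6) (nat_lit 357) (nat_lit 4) (nat_lit 160) (nat_lit 214) (nat_lit 196)) (PT.lf (nat_lit 27968) (nat_lit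 6) (nat_lit 368) (nat_lit 4) (nat_lit 161) (nat_lit 214) (nat_lit 195))) (PT.nd (nat_lit 78) (PT.lf (nat_lit 28804) (nat_lit 6) (nat_lit 379) (nat_lit 4) (nat_lit 162) (nat_lit 214) (nat_lit 194)) (PT.lf (nat_lit 29716) (nat_lit 6) (nat_lit 391) (nat_lit 4) (nat_lit 163) (nat_lit 214) (nat_lit 193))))))) (PT.nd (nat_lit 2106) (PT.nd (nat_lit 624) (PT.nd (nat_lit 312) (PT.nd (nat_lit 156) (PT.nd (nat_lit 78) (PT.lf (nat_lit 30628) (nat_lit 6) (nat_lit 403) (nat_lit 4) (nat_lit 164) (nat_lit 214) (nat_lit 192)) (PT.lf (nat_lit 31540) (nat_lit 6) (nat_lit 415) (nat_lit 4) (nat_lit 165) (nat_lit 214) (nat_lit 191))) (PT.nd (nat_lit 78) (PT.lf (nat_lit 32984) (nat_lit 6) (nat_lit 434) (nat_lit 4) (nat_lit 166) (nat_lit 214) (nat_lit 190)) (PT.lf (nat_lit 32908) (nat_lit 6) (nat_lit 433) (nat_lit 4) (nat_lit 167) (nat_lit 214) (nat_lit 189)))) (PT.nd (nat_lit 156) (PT.nd (nat_lit 78) (PT.lf (nat_lit 32832) (nat_lit 6) (nat_lit 432)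 (nat_lit 4) (nat_lit 168) (nat_lit 214) (nat_lit 188)) (PT.lf (nat_lit 32756) (nat_lit 6) (nat_lit 431) (nat_lit 4) (nat_lit 169) (nat_lit 214) (nat_lit 187))) (PT.nd (nat_lit 78) (PT.lf (nat_lit 32680) (nat_lit 6) (nat_lit 430) (nat_lit 4) (nat_lit 170) (nat_lit 214) (nat_lit 186)) (PT.lf (nat_lit 32604) (nat_lit 6) (nat_lit 429) (nat_lit 4) (nat_lit 171) (nat_lit 214) (nat_lit 185))))) (PT.nd (nat_lit 1170) (PT.nd (nat_lit 1014) (PT.nd (nat_lit 936) (PT.lf (nat_lit 32528) (nat_lit 6) (nat_lit 428) (nat_lit 4) (nat_lit 172) (nat_lit 214) (nat_lit 184)) (PT.lf (nat_lit 32528) (nat_lit 6) (nat_lit 428) (nat_lit 2) (nat_lit 184) (nat_lit 214) (nat_lit 172))) (PT.nd (nat_lit 78) (PT.lf (nat_lit 32604) (nat_lit 6) (nat_lit 429) (nat_lit 2) (nat_lit 185) (nat_lit 214) (nat_lit 171)) (PT.lf (nat_lit 32680) (nat_lit 6) (nat_lit 430) (nat_lit 2) (nat_lit 186) (nat_lit 214) (nat_lit 170)))) (PT.nd (nat_lit 156) (PT.nd (nat_lit 78) (PT.lf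 (nat_lit 32756) (nat_lit 6) (nat_lit 431) (nat_lit 2) (nat_lit 187) (nat_lit 214) (nat_lit 169)) (PT.lf (nat_lit 32832) (nat_lit 6) (nat_lit 432) (nat_lit 2) (nat_lit 188) (nat_lit 214) (nat_lit 168))) (PT.nd (nat_lit 78) (PT.lf (nat_lit 32908) (nat_lit 6) (nat_lit 433) (nat_lit 2) (nat_lit 189) (nat_lit 214) (nat_lit 167)) (PT.lf (nat_lit 32984) (nat_lit 6) (nat_lit 434) (nat_lit 2) (nat_lit 190) (nat_lit 214) (nat_lit 166)))))) (PT.nd (nat_lit 624) (PT.nd (nat_lit 312) (PT.nd (nat_lit 156) (PT.nd (nat_lit 78) (PT.lf (nat_lit 31540) (nat_lit 6) (nat_lit 415) (nat_lit 2) (nat_lit 191) (nat_lit 214) (nat_lit 165)) (PT.lf (nat_lit 30628) (nat_lit 6) (nat_lit 403) (nat_lit 2) (nat_lit 192) (nat_lit 214) (nat_lit 164))) (PT.nd (nat_lit 78) (PT.lf (nat_lit 29716) (nat_lit 6) (nat_lit 391) (nat_lit 2) (nat_lit 193) (nat_lit 214) (nat_lit 163)) (PT.lf (nat_lit 28804) (nat_lit 6) (nat_lit 379) (nat_lit 2) (nat_lit 194) (nat_lit 214)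 (nat_lit 162)))) (PT.nd (nat_lit 156) (PT.nd (nat_lit 78) (PT.lf (nat_lit 27968) (nat_lit 6) (nat_lit 368) (nat_lit 2) (nat_lit 195) (nat_lit 214) (nat_lit 161)) (PT.lf (nat_lit 27132) (nat_lit 6) (nat_lit 357) (nat_lit 2) (nat_lit 196) (nat_lit 214) (nat_lit 160))) (PT.nd (nat_lit 78) (PT.lf (nat_lit 26372) (nat_lit 6) (nat_lit 347) (nat_lit 2) (nat_lit 197) (nat_lit 214) (nat_lit 159)) (PT.lf (nat_lit 25612) (nat_lit 6) (nat_lit 337) (nat_lit 2) (nat_lit 198) (nat_lit 214) (nat_lit 158))))) (PT.nd (nat_lit 312) (PT.nd (nat_lit 156) (PT.nd (nat_lit 78) (PT.lf (nat_lit 24852) (nat_lit 6) (nat_lit 327) (nat_lit 2) (nat_lit 199) (nat_lit 214) (nat_lit 157)) (PT.lf (nat_lit 24092) (nat_lit 6) (nat_lit 317) (nat_lit 2) (nat_lit 200) (nat_lit 214) (nat_lit 156))) (PT.nd (nat_lit 78) (PT.lf (nat_lit 23408) (nat_lit 6) (nat_lit 308) (nat_lit 2) (nat_lit 201) (nat_lit 214) (nat_lit 155)) (PT.lf (nat_lit 22724) (nat_lit 6) (nat_lit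 299) (nat_lit 2) (nat_lit 202) (nat_lit 214) (nat_lit 154)))) (PT.nd (nat_lit 156) (PT.nd (nat_lit 78) (PT.lf (nat_lit 22040) (nat_lit 6) (nat_lit 290) (nat_lit 2) (nat_lit 203) (nat_lit 214) (nat_lit 153)) (PT.lf (nat_lit 21356) (nat_lit 6) (nat_lit 281) (nat_lit 2) (nat_lit 204) (nat_lit 214) (nat_lit 152))) (PT.nd (nat_lit 78) (PT.lf (nat_lit 20748) (nat_lit 6) (nat_lit 273) (nat_lit 2) (nat_lit 205) (nat_lit 214) (nat_lit 151)) (PT.lf (nat_lit 20140) (nat_lit 6) (nat_lit 265) (nat_lit 2) (nat_lit 206) (nat_lit 214) (nat_lit 150))))))))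
noncomputable def pc58 : PT := (PT.nd (nat_lit 54600) (PT.nd (nat_lit 1248) (PT.nd (nat_lit 624) (PT.nd (nat_lit 312) (PT.nd (nat_lit 156) (PT.nd (nat_lit 78) (PT.lf (nat_lit 19532) (nat_lit 6) (nat_lit 257) (nat_lit 2) (nat_lit 207) (nat_lit 214) (nat_lit 149)) (PT.lf (nat_lit 18924) (nat_lit 6) (nat_lit 249) (nat_lit 2) (nat_lit 208) (nat_lit 214) (nat_lit 148))) (PT.nd (nat_lit 78) (PT.lf (nat_lit 18392) (nat_lit 6) (nat_lit 242) (nat_lit 2) (nat_lit 209) (nat_lit 214) (nat_lit 147)) (PT.lf (nat_lit 17784) (nat_lit 6) (nat_lit 234) (nat_lit 2) (nat_lit 210) (nat_lit 214) (nat_lit 146)))) (PT.nd (nat_lit 156) (PT.nd (nat_lit 78) (PT.lf (nat_lit 17252) (nat_lit 6) (nat_lit 227) (nat_lit 2) (nat_lit 211) (nat_lit 214) (nat_lit 145)) (PT.lf (nat_lit 16720) (nat_lit 6) (nat_lit 220) (nat_lit 2) (nat_lit 212) (nat_lit 214) (nat_lit 144))) (PT.nd (nat_lit 78) (PT.lf (nat_lit 16264) (nat_lit 6) (nat_lit 214) (nat_lit 2) (nat_lit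 213) (nat_lit 214) (nat_lit 143)) (PT.lf (nat_lit 15732) (nat_lit 3) (nat_lit 207) (nat_lit 0) (nat_lit 214) (nat_lit 214) (nat_lit 142))))) (PT.nd (nat_lit 312) (PT.nd (nat_lit 156) (PT.nd (nat_lit 78) (PT.lf (nat_lit 15200) (nat_lit 6) (nat_lit 200) (nat_lit 0) (nat_lit 215) (nat_lit 214) (nat_lit 141)) (PT.lf (nat_lit 14668) (nat_lit 6) (nat_lit 193) (nat_lit 0) (nat_lit 216) (nat_lit 214) (nat_lit 140))) (PT.nd (nat_lit 78) (PT.lf (nat_lit 14136) (nat_lit 6) (nat_lit 186) (nat_lit 0) (nat_lit 217) (nat_lit 214) (nat_lit 139)) (PT.lf (nat_lit 13604) (nat_lit 6) (nat_lit 179) (nat_lit 0) (nat_lit 218) (nat_lit 214) (nat_lit 138)))) (PT.nd (nat_lit 156) (PT.nd (nat_lit 78) (PT.lf (nat_lit 13148) (nat_lit 6) (nat_lit 173) (nat_lit 0) (nat_lit 219) (nat_lit 214) (nat_lit 137)) (PT.lf (nat_lit 12616) (nat_lit 6) (nat_lit 166) (nat_lit 0) (nat_lit 220) (nat_lit 214) (nat_lit 136))) (PT.nd (nat_lit 78) (PT.lf (nat_lit 12160) (nat_lit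 6) (nat_lit 160) (nat_lit 0) (nat_lit 221) (nat_lit 214) (nat_lit 135)) (PT.lf (nat_lit 11704) (nat_lit 6) (nat_lit 154) (nat_lit 0) (nat_lit 222) (nat_lit 214) (nat_lit 134)))))) (PT.nd (nat_lit 52728) (PT.nd (nat_lit 52416) (PT.nd (nat_lit 52260) (PT.nd (nat_lit 52182) (PT.lf (nat_lit 11248) (nat_lit 6) (nat_lit 148) (nat_lit 0) (nat_lit 223) (nat_lit 214) (nat_lit 133)) (PT.lf (nat_lit 10412) (nat_lit 6) (nat_lit 137) (nat_lit 5) (nat_lit 131) (nat_lit 215) (nat_lit 224))) (PT.nd (nat_lit 78) (PT.lf (nat_lit 10868) (nat_lit 6) (nat_lit 143) (nat_lit 5) (nat_lit 132) (nat_lit 215) (nat_lit 223)) (PT.lf (nat_lit 11324) (nat_lit 6) (nat_lit 149) (nat_lit 5) (nat_lit 133) (nat_lit 215) (nat_lit 222)))) (PT.nd (nat_lit 156) (PT.nd (nat_lit 78) (PT.lf (nat_lit 11780) (nat_lit 6) (nat_lit 155) (nat_lit 5) (nat_lit 134) (nat_lit 215) (nat_lit 221)) (PT.lf (nat_lit 12236) (nat_lit 6) (nat_lit 161) (nat_lit 5) (nat_lit 135) (nat_lit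 215) (nat_lit 220))) (PT.nd (nat_lit 78) (PT.lf (nat_lit 12692) (nat_lit 6) (nat_lit 167) (nat_lit 5) (nat_lit 136) (nat_lit 215) (nat_lit 219)) (PT.lf (nat_lit 13224) (nat_lit 6) (nat_lit 174) (nat_lit 5) (nat_lit 137) (nat_lit 215) (nat_lit 218))))) (PT.nd (nat_lit 312) (PT.nd (nat_lit 156) (PT.nd (nat_lit 78) (PT.lf (nat_lit 13680) (nat_lit 6) (nat_lit 180) (nat_lit 5) (nat_lit 138) (nat_lit 215) (nat_lit 217)) (PT.lf (nat_lit 14212) (nat_lit 6) (nat_lit 187) (nat_lit 5) (nat_lit 139) (nat_lit 215) (nat_lit 216))) (PT.nd (nat_lit 78) (PT.lf (nat_lit 14744) (nat_lit 3) (nat_lit 194) (nat_lit 4) (nat_lit 140) (nat_lit 215) (nat_lit 215)) (PT.lf (nat_lit 15200) (nat_lit 6) (nat_lit 200) (nat_lit 4) (nat_lit 141) (nat_lit 215) (nat_lit 214)))) (PT.nd (nat_lit 156) (PT.nd (nat_lit 78) (PT.lf (nat_lit 15656) (nat_lit 6) (nat_lit 206) (nat_lit 4) (nat_lit 142) (nat_lit 215) (nat_lit 213)) (PT.lf (nat_lit 16188) (nat_lit 6) (nat_lit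 213) (nat_lit 4) (nat_lit 143) (nat_lit 215) (nat_lit 212))) (PT.nd (nat_lit 78) (PT.lf (nat_lit 16644) (nat_lit 6) (nat_lit 219) (nat_lit 4) (nat_lit 144) (nat_lit 215) (nat_lit 211)) (PT.lf (nat_lit 17176) (nat_lit 6) (nat_lit 226) (nat_lit 4) (nat_lit 145) (nat_lit 215) (nat_lit 210))))))) (PT.nd (nat_lit 1248) (PT.nd (nat_lit 624) (PT.nd (nat_lit 312) (PT.nd (nat_lit 156) (PT.nd (nat_lit 78) (PT.lf (nat_lit 17708) (nat_lit 6) (nat_lit 233) (nat_lit 4) (nat_lit 146) (nat_lit 215) (nat_lit 209)) (PT.lf (nat_lit 18316) (nat_lit 6) (nat_lit 241) (nat_lit 4) (nat_lit 147) (nat_lit 215) (nat_lit 208))) (PT.nd (nat_lit 78) (PT.lf (nat_lit 18848) (nat_lit 6) (nat_lit 248) (nat_lit 4) (nat_lit 148) (nat_lit 215) (nat_lit 207)) (PT.lf (nat_lit 19456) (nat_lit 6) (nat_lit 256) (nat_lit 4) (nat_lit 149) (nat_lit 215) (nat_lit 206)))) (PT.nd (nat_lit 156) (PT.nd (nat_lit 78) (PT.lf (nat_lit 20064) (nat_lit 6) (nat_lit 264) (nat_lit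 4) (nat_lit 150) (nat_lit 215) (nat_lit 205)) (PT.lf (nat_lit 20672) (nat_lit 6) (nat_lit 272) (nat_lit 4) (nat_lit 151) (nat_lit 215) (nat_lit 204))) (PT.nd (nat_lit 78) (PT.lf (nat_lit 21280) (nat_lit 6) (nat_lit 280) (nat_lit 4) (nat_lit 152) (nat_lit 215) (nat_lit 203)) (PT.lf (nat_lit 21964) (nat_lit 6) (nat_lit 289) (nat_lit 4) (nat_lit 153) (nat_lit 215) (nat_lit 202))))) (PT.nd (nat_lit 312) (PT.nd (nat_lit 156) (PT.nd (nat_lit 78) (PT.lf (nat_lit 22648) (nat_lit 6) (nat_lit 298) (nat_lit 4) (nat_lit 154) (nat_lit 215) (nat_lit 201)) (PT.lf (nat_lit 23332) (nat_lit 6) (nat_lit 307) (nat_lit 4) (nat_lit 155) (nat_lit 215) (nat_lit 200))) (PT.nd (nat_lit 78) (PT.lf (nat_lit 24016) (nat_lit 6) (nat_lit 316) (nat_lit 4) (nat_lit 156) (nat_lit 215) (nat_lit 199)) (PT.lf (nat_lit 24776) (nat_lit 6) (nat_lit 326) (nat_lit 4) (nat_lit 157) (nat_lit 215) (nat_lit 198)))) (PT.nd (nat_lit 156) (PT.nd (nat_lit 78) (PT.lf (nat_lit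 25536) (nat_lit 6) (nat_lit 336) (nat_lit 4) (nat_lit 158) (nat_lit 215) (nat_lit 197)) (PT.lf (nat_lit 26296) (nat_lit 6) (nat_lit 346) (nat_lit 4) (nat_lit 159) (nat_lit 215) (nat_lit 196))) (PT.nd (nat_lit 78) (PT.lf (nat_lit 27056) (nat_lit 6) (nat_lit 356) (nat_lit 4) (nat_lit 160) (nat_lit 215) (nat_lit 195)) (PT.lf (nat_lit 27892) (nat_lit 6) (nat_lit 367) (nat_lit 4) (nat_lit 161) (nat_lit 215) (nat_lit 194)))))) (PT.nd (nat_lit 2652) (PT.nd (nat_lit 2340) (PT.nd (nat_lit 156) (PT.nd (nat_lit 78) (PT.lf (nat_lit 28728) (nat_lit 6) (nat_lit 378) (nat_lit 4) (nat_lit 162) (nat_lit 215) (nat_lit 193)) (PT.lf (nat_lit 29640) (nat_lit 6) (nat_lit 390) (nat_lit 4) (nat_lit 163) (nat_lit 215) (nat_lit 192))) (PT.nd (nat_lit 2106) (PT.lf (nat_lit 30552) (nat_lit 6) (nat_lit 402) (nat_lit 4) (nat_lit 164) (nat_lit 215) (nat_lit 191)) (PT.lf (nat_lit 30552) (nat_lit 6) (nat_lit 402) (nat_lit 2) (nat_lit 191) (nat_lit 215) (nat_lit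 164)))) (PT.nd (nat_lit 156) (PT.nd (nat_lit 78) (PT.lf (nat_lit 29640) (nat_lit 6) (nat_lit 390) (nat_lit 2) (nat_lit 192) (nat_lit 215) (nat_lit 163)) (PT.lf (nat_lit 28728) (nat_lit 6) (nat_lit 378) (nat_lit 2) (nat_lit 193) (nat_lit 215) (nat_lit 162))) (PT.nd (nat_lit 78) (PT.lf (nat_lit 27892) (nat_lit 6) (nat_lit 367) (nat_lit 2) (nat_lit 194) (nat_lit 215) (nat_lit 161)) (PT.lf (nat_lit 27056) (nat_lit 6) (nat_lit 356) (nat_lit 2) (nat_lit 195) (nat_lit 215) (nat_lit 160))))) (PT.nd (nat_lit 312) (PT.nd (nat_lit 156) (PT.nd (nat_lit 78) (PT.lf (nat_lit 26296) (nat_lit 6) (nat_lit 346) (nat_lit 2) (nat_lit 196) (nat_lit 215) (nat_lit 159)) (PT.lf (nat_lit 25536) (nat_lit 6) (nat_lit 336) (nat_lit 2) (nat_lit 197) (nat_lit 215) (nat_lit 158))) (PT.nd (nat_lit 78) (PT.lf (nat_lit 24776) (nat_lit 6) (nat_lit 326) (nat_lit 2) (nat_lit 198) (nat_lit 215) (nat_lit 157)) (PT.lf (nat_lit 24016) (nat_lit 6) (nat_lit 316) (nat_lit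 2) (nat_lit 199) (nat_lit 215) (nat_lit 156)))) (PT.nd (nat_lit 156) (PT.nd (nat_lit 78) (PT.lf (nat_lit 23332) (nat_lit 6) (nat_lit 307) (nat_lit 2) (nat_lit 200) (nat_lit 215) (nat_lit 155)) (PT.lf (nat_lit 22648) (nat_lit 6) (nat_lit 298) (nat_lit 2) (nat_lit 201) (nat_lit 215) (nat_lit 154))) (PT.nd (nat_lit 78) (PT.lf (nat_lit 21964) (nat_lit 6) (nat_lit 289) (nat_lit 2) (nat_lit 202) (nat_lit 215) (nat_lit 153)) (PT.lf (nat_lit 21280) (nat_lit 6) (nat_lit 280) (nat_lit 2) (nat_lit 203) (nat_lit 215) (nat_lit 152))))))))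
noncomputable def pc59 : PT := (PT.nd (nat_lit 54366) (PT.nd (nat_lit 1248) (PT.nd (nat_lit 624) (PT.nd (nat_lit 312) (PT.nd (nat_lit 156) (PT.nd (nat_lit 78) (PT.lf (nat_lit 20672) (nat_lit 6) (nat_lit 272) (nat_lit 2) (nat_lit 204) (nat_lit 215) (nat_lit 151)) (PT.lf (nat_lit 20064) (nat_lit 6) (nat_lit 264) (nat_lit 2) (nat_lit 205) (nat_lit 215) (nat_lit 150))) (PT.nd (nat_lit 78) (PT.lf (nat_lit 19456) (nat_lit 6) (nat_lit 256) (nat_lit 2) (nat_lit 206) (nat_lit 215) (nat_lit 149)) (PT.lf (nat_lit 18848) (nat_lit 6) (nat_lit 248) (nat_lit 2) (nat_lit 207) (nat_lit 215) (nat_lit 148)))) (PT.nd (nat_lit 156) (PT.nd (nat_lit 78) (PT.lf (nat_lit 18316) (nat_lit 6) (nat_lit 241) (nat_lit 2) (nat_lit 208) (nat_lit 215) (nat_lit 147)) (PT.lf (nat_lit 17708) (nat_lit 6) (nat_lit 233) (nat_lit 2) (nat_lit 209) (nat_lit 215) (nat_lit 146))) (PT.nd (nat_lit 78) (PT.lf (nat_lit 17176) (nat_lit 6) (nat_lit 226) (nat_lit 2) (nat_lit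 210) (nat_lit 215) (nat_lit 145)) (PT.lf (nat_lit 16644) (nat_lit 6) (nat_lit 219) (nat_lit 2) (nat_lit 211) (nat_lit 215) (nat_lit 144))))) (PT.nd (nat_lit 312) (PT.nd (nat_lit 156) (PT.nd (nat_lit 78) (PT.lf (nat_lit 16188) (nat_lit 6) (nat_lit 213) (nat_lit 2) (nat_lit 212) (nat_lit 215) (nat_lit 143)) (PT.lf (nat_lit 15656) (nat_lit 6) (nat_lit 206) (nat_lit 2) (nat_lit 213) (nat_lit 215) (nat_lit 142))) (PT.nd (nat_lit 78) (PT.lf (nat_lit 15200) (nat_lit 6) (nat_lit 200) (nat_lit 2) (nat_lit 214) (nat_lit 215) (nat_lit 141)) (PT.lf (nat_lit 14744) (nat_lit 3) (nat_lit 194) (nat_lit 0) (nat_lit 215) (nat_lit 215) (nat_lit 140)))) (PT.nd (nat_lit 156) (PT.nd (nat_lit 78) (PT.lf (nat_lit 14212) (nat_lit 6) (nat_lit 187) (nat_lit 0) (nat_lit 216) (nat_lit 215) (nat_lit 139)) (PT.lf (nat_lit 13680) (nat_lit 6) (nat_lit 180) (nat_lit 0) (nat_lit 217) (nat_lit 215) (nat_lit 138))) (PT.nd (nat_lit 78) (PT.lf (nat_lit 13224) (nat_lit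 6) (nat_lit 174) (nat_lit 0) (nat_lit 218) (nat_lit 215) (nat_lit 137)) (PT.lf (nat_lit 12692) (nat_lit 6) (nat_lit 167) (nat_lit 0) (nat_lit 219) (nat_lit 215) (nat_lit 136)))))) (PT.nd (nat_lit 52494) (PT.nd (nat_lit 312) (PT.nd (nat_lit 156) (PT.nd (nat_lit 78) (PT.lf (nat_lit 12236) (nat_lit 6) (nat_lit 161) (nat_lit 0) (nat_lit 220) (nat_lit 215) (nat_lit 135)) (PT.lf (nat_lit 11780) (nat_lit 6) (nat_lit 155) (nat_lit 0) (nat_lit 221) (nat_lit 215) (nat_lit 134))) (PT.nd (nat_lit 78) (PT.lf (nat_lit 11324) (nat_lit 6) (nat_lit 149) (nat_lit 0) (nat_lit 222) (nat_lit 215) (nat_lit 133)) (PT.lf (nat_lit 10868) (nat_lit 6) (nat_lit 143) (nat_lit 0) (nat_lit 223) (nat_lit 215) (nat_lit 132)))) (PT.nd (nat_lit 52026) (PT.nd (nat_lit 51948) (PT.lf (nat_lit 10412) (nat_lit 6) (nat_lit 137) (nat_lit 0) (nat_lit 224) (nat_lit 215) (nat_lit 131)) (PT.lf (nat_lit 9652) (nat_lit 6) (nat_lit 127) (nat_lit 5) (nat_lit 129) (nat_lit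 216) (nat_lit 225))) (PT.nd (nat_lit 78) (PT.lf (nat_lit 10032) (nat_lit 6) (nat_lit 132) (nat_lit 5) (nat_lit 130) (nat_lit 216) (nat_lit 224)) (PT.lf (nat_lit 10488) (nat_lit 6) (nat_lit 138) (nat_lit 5) (nat_lit 131) (nat_lit 216) (nat_lit 223))))) (PT.nd (nat_lit 312) (PT.nd (nat_lit 156) (PT.nd (nat_lit 78) (PT.lf (nat_lit 10944) (nat_lit 6) (nat_lit 144) (nat_lit 5) (nat_lit 132) (nat_lit 216) (nat_lit 222)) (PT.lf (nat_lit 11400) (nat_lit 6) (nat_lit 150) (nat_lit 5) (nat_lit 133) (nat_lit 216) (nat_lit 221))) (PT.nd (nat_lit 78) (PT.lf (nat_lit 11856) (nat_lit 6) (nat_lit 156) (nat_lit 5) (nat_lit 134) (nat_lit 216) (nat_lit 220)) (PT.lf (nat_lit 12312) (nat_lit 6) (nat_lit 162) (nat_lit 5) (nat_lit 135) (nat_lit 216) (nat_lit 219)))) (PT.nd (nat_lit 156) (PT.nd (nat_lit 78) (PT.lf (nat_lit 12768) (nat_lit 6) (nat_lit 168) (nat_lit 5) (nat_lit 136) (nat_lit 216) (nat_lit 218)) (PT.lf (nat_lit 13300) (nat_lit 6) (nat_lit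 175) (nat_lit 5) (nat_lit 137) (nat_lit 216) (nat_lit 217))) (PT.nd (nat_lit 78) (PT.lf (nat_lit 13756) (nat_lit 3) (nat_lit 181) (nat_lit 4) (nat_lit 138) (nat_lit 216) (nat_lit 216)) (PT.lf (nat_lit 14212) (nat_lit 6) (nat_lit 187) (nat_lit 4) (nat_lit 139) (nat_lit 216) (nat_lit 215))))))) (PT.nd (nat_lit 1248) (PT.nd (nat_lit 624) (PT.nd (nat_lit 312) (PT.nd (nat_lit 156) (PT.nd (nat_lit 78) (PT.lf (nat_lit 14668) (nat_lit 6) (nat_lit 193) (nat_lit 4) (nat_lit 140) (nat_lit 216) (nat_lit 214)) (PT.lf (nat_lit 15124) (nat_lit 6) (nat_lit 199) (nat_lit 4) (nat_lit 141) (nat_lit 216) (nat_lit 213))) (PT.nd (nat_lit 78) (PT.lf (nat_lit 15580) (nat_lit 6) (nat_lit 205) (nat_lit 4) (nat_lit 142) (nat_lit 216) (nat_lit 212)) (PT.lf (nat_lit 16112) (nat_lit 6) (nat_lit 212) (nat_lit 4) (nat_lit 143) (nat_lit 216) (nat_lit 211)))) (PT.nd (nat_lit 156) (PT.nd (nat_lit 78) (PT.lf (nat_lit 16568) (nat_lit 6) (nat_lit 218) (nat_lit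 4) (nat_lit 144) (nat_lit 216) (nat_lit 210)) (PT.lf (nat_lit 17100) (nat_lit 6) (nat_lit 225) (nat_lit 4) (nat_lit 145) (nat_lit 216) (nat_lit 209))) (PT.nd (nat_lit 78) (PT.lf (nat_lit 17632) (nat_lit 6) (nat_lit 232) (nat_lit 4) (nat_lit 146) (nat_lit 216) (nat_lit 208)) (PT.lf (nat_lit 18240) (nat_lit 6) (nat_lit 240) (nat_lit 4) (nat_lit 147) (nat_lit 216) (nat_lit 207))))) (PT.nd (nat_lit 312) (PT.nd (nat_lit 156) (PT.nd (nat_lit 78) (PT.lf (nat_lit 18772) (nat_lit 6) (nat_lit 247) (nat_lit 4) (nat_lit 148) (nat_lit 216) (nat_lit 206)) (PT.lf (nat_lit 19380) (nat_lit 6) (nat_lit 255) (nat_lit 4) (nat_lit 149) (nat_lit 216) (nat_lit 205))) (PT.nd (nat_lit 78) (PT.lf (nat_lit 19988) (nat_lit 6) (nat_lit 263) (nat_lit 4) (nat_lit 150) (nat_lit 216) (nat_lit 204)) (PT.lf (nat_lit 20596) (nat_lit 6) (nat_lit 271) (nat_lit 4) (nat_lit 151) (nat_lit 216) (nat_lit 203)))) (PT.nd (nat_lit 156) (PT.nd (nat_lit 78) (PT.lf (nat_lit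 21204) (nat_lit 6) (nat_lit 279) (nat_lit 4) (nat_lit 152) (nat_lit 216) (nat_lit 202)) (PT.lf (nat_lit 21888) (nat_lit 6) (nat_lit 288) (nat_lit 4) (nat_lit 153) (nat_lit 216) (nat_lit 201))) (PT.nd (nat_lit 78) (PT.lf (nat_lit 22572) (nat_lit 6) (nat_lit 297) (nat_lit 4) (nat_lit 154) (nat_lit 216) (nat_lit 200)) (PT.lf (nat_lit 23256) (nat_lit 6) (nat_lit 306) (nat_lit 4) (nat_lit 155) (nat_lit 216) (nat_lit 199)))))) (PT.nd (nat_lit 3510) (PT.nd (nat_lit 3198) (PT.nd (nat_lit 156) (PT.nd (nat_lit 78) (PT.lf (nat_lit 23940) (nat_lit 6) (nat_lit 315) (nat_lit 4) (nat_lit 156) (nat_lit 216) (nat_lit 198)) (PT.lf (nat_lit 24700) (nat_lit 6) (nat_lit 325) (nat_lit 4) (nat_lit 157) (nat_lit 216) (nat_lit 197))) (PT.nd (nat_lit 2964) (PT.lf (nat_lit 25460) (nat_lit 6) (nat_lit 335) (nat_lit 4) (nat_lit 158) (nat_lit 216) (nat_lit 196)) (PT.lf (nat_lit 25460) (nat_lit 6) (nat_lit 335) (nat_lit 2) (nat_lit 196) (nat_lit 216) (nat_lit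 158)))) (PT.nd (nat_lit 156) (PT.nd (nat_lit 78) (PT.lf (nat_lit 24700) (nat_lit 6) (nat_lit 325) (nat_lit 2) (nat_lit 197) (nat_lit 216) (nat_lit 157)) (PT.lf (nat_lit 23940) (nat_lit 6) (nat_lit 315) (nat_lit 2) (nat_lit 198) (nat_lit 216) (nat_lit 156))) (PT.nd (nat_lit 78) (PT.lf (nat_lit 23256) (nat_lit 6) (nat_lit 306) (nat_lit 2) (nat_lit 199) (nat_lit 216) (nat_lit 155)) (PT.lf (nat_lit 22572) (nat_lit 6) (nat_lit 297) (nat_lit 2) (nat_lit 200) (nat_lit 216) (nat_lit 154))))) (PT.nd (nat_lit 312) (PT.nd (nat_lit 156) (PT.nd (nat_lit 78) (PT.lf (nat_lit 21888) (nat_lit 6) (nat_lit 288) (nat_lit 2) (nat_lit 201) (nat_lit 216) (nat_lit 153)) (PT.lf (nat_lit 21204) (nat_lit 6) (nat_lit 279) (nat_lit 2) (nat_lit 202) (nat_lit 216) (nat_lit 152))) (PT.nd (nat_lit 78) (PT.lf (nat_lit 20596) (nat_lit 6) (nat_lit 271) (nat_lit 2) (nat_lit 203) (nat_lit 216) (nat_lit 151)) (PT.lf (nat_lit 19988) (nat_lit 6) (nat_lit 263) (nat_lit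 2) (nat_lit 204) (nat_lit 216) (nat_lit 150)))) (PT.nd (nat_lit 156) (PT.nd (nat_lit 78) (PT.lf (nat_lit 19380) (nat_lit 6) (nat_lit 255) (nat_lit 2) (nat_lit 205) (nat_lit 216) (nat_lit 149)) (PT.lf (nat_lit 18772) (nat_lit 6) (nat_lit 247) (nat_lit 2) (nat_lit 206) (nat_lit 216) (nat_lit 148))) (PT.nd (nat_lit 78) (PT.lf (nat_lit 18240) (nat_lit 6) (nat_lit 240) (nat_lit 2) (nat_lit 207) (nat_lit 216) (nat_lit 147)) (PT.lf (nat_lit 17632) (nat_lit 6) (nat_lit 232) (nat_lit 2) (nat_lit 208) (nat_lit 216) (nat_lit 146))))))))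
noncomputable def pc60 : PT := (PT.nd (nat_lit 54210) (PT.nd (nat_lit 1248) (PT.nd (nat_lit 624) (PT.nd (nat_lit 312) (PT.nd (nat_lit 156) (PT.nd (nat_lit 78) (PT.lf (nat_lit 17100) (nat_lit 6) (nat_lit 225) (nat_lit 2) (nat_lit 209) (nat_lit 216) (nat_lit 145)) (PT.lf (nat_lit 16568) (nat_lit 6) (nat_lit 218) (nat_lit 2) (nat_lit 210) (nat_lit 216) (nat_lit 144))) (PT.nd (nat_lit 78) (PT.lf (nat_lit 16112) (nat_lit 6) (nat_lit 212) (nat_lit 2) (nat_lit 211) (nat_lit 216) (nat_lit 143)) (PT.lf (nat_lit 15580) (nat_lit 6) (nat_lit 205) (nat_lit 2) (nat_lit 212) (nat_lit 216) (nat_lit 142)))) (PT.nd (nat_lit 156) (PT.nd (nat_lit 78) (PT.lf (nat_lit 15124) (nat_lit 6) (nat_lit 199) (nat_lit 2) (nat_lit 213) (nat_lit 216) (nat_lit 141)) (PT.lf (nat_lit 14668) (nat_lit 6) (nat_lit 193) (nat_lit 2) (nat_lit 214) (nat_lit 216) (nat_lit 140))) (PT.nd (nat_lit 78) (PT.lf (nat_lit 14212) (nat_lit 6) (nat_lit 187) (nat_lit 2) (nat_lit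 215) (nat_lit 216) (nat_lit 139)) (PT.lf (nat_lit 13756) (nat_lit 3) (nat_lit 181) (nat_lit 0) (nat_lit 216) (nat_lit 216) (nat_lit 138))))) (PT.nd (nat_lit 312) (PT.nd (nat_lit 156) (PT.nd (nat_lit 78) (PT.lf (nat_lit 13300) (nat_lit 6) (nat_lit 175) (nat_lit 0) (nat_lit 217) (nat_lit 216) (nat_lit 137)) (PT.lf (nat_lit 12768) (nat_lit 6) (nat_lit 168) (nat_lit 0) (nat_lit 218) (nat_lit 216) (nat_lit 136))) (PT.nd (nat_lit 78) (PT.lf (nat_lit 12312) (nat_lit 6) (nat_lit 162) (nat_lit 0) (nat_lit 219) (nat_lit 216) (nat_lit 135)) (PT.lf (nat_lit 11856) (nat_lit 6) (nat_lit 156) (nat_lit 0) (nat_lit 220) (nat_lit 216) (nat_lit 134)))) (PT.nd (nat_lit 156) (PT.nd (nat_lit 78) (PT.lf (nat_lit 11400) (nat_lit 6) (nat_lit 150) (nat_lit 0) (nat_lit 221) (nat_lit 216) (nat_lit 133)) (PT.lf (nat_lit 10944) (nat_lit 6) (nat_lit 144) (nat_lit 0) (nat_lit 222) (nat_lit 216) (nat_lit 132))) (PT.nd (nat_lit 78) (PT.lf (nat_lit 10488) (nat_lit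 6) (nat_lit 138) (nat_lit 0) (nat_lit 223) (nat_lit 216) (nat_lit 131)) (PT.lf (nat_lit 10032) (nat_lit 6) (nat_lit 132) (nat_lit 0) (nat_lit 224) (nat_lit 216) (nat_lit 130)))))) (PT.nd (nat_lit 52338) (PT.nd (nat_lit 52026) (PT.nd (nat_lit 51870) (PT.nd (nat_lit 51792) (PT.lf (nat_lit 9652) (nat_lit 6) (nat_lit 127) (nat_lit 0) (nat_lit 225) (nat_lit 216) (nat_lit 129)) (PT.lf (nat_lit 9272) (nat_lit 6) (nat_lit 122) (nat_lit 5) (nat_lit 128) (nat_lit 217) (nat_lit 225))) (PT.nd (nat_lit 78) (PT.lf (nat_lit 9728) (nat_lit 6) (nat_lit 128) (nat_lit 5) (nat_lit 129) (nat_lit 217) (nat_lit 224)) (PT.lf (nat_lit 10108) (nat_lit 6) (nat_lit 133) (nat_lit 5) (nat_lit 130) (nat_lit 217) (nat_lit 223)))) (PT.nd (nat_lit 156) (PT.nd (nat_lit 78) (PT.lf (nat_lit 10564) (nat_lit 6) (nat_lit 139) (nat_lit 5) (nat_lit 131) (nat_lit 217) (nat_lit 222)) (PT.lf (nat_lit 11020) (nat_lit 6) (nat_lit 145) (nat_lit 5) (nat_lit 132) (nat_lit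 217) (nat_lit 221))) (PT.nd (nat_lit 78) (PT.lf (nat_lit 11476) (nat_lit 6) (nat_lit 151) (nat_lit 5) (nat_lit 133) (nat_lit 217) (nat_lit 220)) (PT.lf (nat_lit 11932) (nat_lit 6) (nat_lit 157) (nat_lit 5) (nat_lit 134) (nat_lit 217) (nat_lit 219))))) (PT.nd (nat_lit 312) (PT.nd (nat_lit 156) (PT.nd (nat_lit 78) (PT.lf (nat_lit 12388) (nat_lit 6) (nat_lit 163) (nat_lit 5) (nat_lit 135) (nat_lit 217) (nat_lit 218)) (PT.lf (nat_lit 12844) (nat_lit 3) (nat_lit 169) (nat_lit 4) (nat_lit 136) (nat_lit 217) (nat_lit 217))) (PT.nd (nat_lit 78) (PT.lf (nat_lit 13300) (nat_lit 6) (nat_lit 175) (nat_lit 4) (nat_lit 137) (nat_lit 217) (nat_lit 216)) (PT.lf (nat_lit 13680) (nat_lit 6) (nat_lit 180) (nat_lit 4) (nat_lit 138) (nat_lit 217) (nat_lit 215)))) (PT.nd (nat_lit 156) (PT.nd (nat_lit 78) (PT.lf (nat_lit 14136) (nat_lit 6) (nat_lit 186) (nat_lit 4) (nat_lit 139) (nat_lit 217) (nat_lit 214)) (PT.lf (nat_lit 14592) (nat_lit 6) (nat_lit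 192) (nat_lit 4) (nat_lit 140) (nat_lit 217) (nat_lit 213))) (PT.nd (nat_lit 78) (PT.lf (nat_lit 15048) (nat_lit 6) (nat_lit 198) (nat_lit 4) (nat_lit 141) (nat_lit 217) (nat_lit 212)) (PT.lf (nat_lit 15504) (nat_lit 6) (nat_lit 204) (nat_lit 4) (nat_lit 142) (nat_lit 217) (nat_lit 211))))))) (PT.nd (nat_lit 4680) (PT.nd (nat_lit 624) (PT.nd (nat_lit 312) (PT.nd (nat_lit 156) (PT.nd (nat_lit 78) (PT.lf (nat_lit 16036) (nat_lit 6) (nat_lit 211) (nat_lit 4) (nat_lit 143) (nat_lit 217) (nat_lit 210)) (PT.lf (nat_lit 16492) (nat_lit 6) (nat_lit 217) (nat_lit 4) (nat_lit 144) (nat_lit 217) (nat_lit 209))) (PT.nd (nat_lit 78) (PT.lf (nat_lit 17024) (nat_lit 6) (nat_lit 224) (nat_lit 4) (nat_lit 145) (nat_lit 217) (nat_lit 208)) (PT.lf (nat_lit 17556) (nat_lit 6) (nat_lit 231) (nat_lit 4) (nat_lit 146) (nat_lit 217) (nat_lit 207)))) (PT.nd (nat_lit 156) (PT.nd (nat_lit 78) (PT.lf (nat_lit 18164) (nat_lit 6) (nat_lit 239) (nat_lit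 4) (nat_lit 147) (nat_lit 217) (nat_lit 206)) (PT.lf (nat_lit 18696) (nat_lit 6) (nat_lit 246) (nat_lit 4) (nat_lit 148) (nat_lit 217) (nat_lit 205))) (PT.nd (nat_lit 78) (PT.lf (nat_lit 19304) (nat_lit 6) (nat_lit 254) (nat_lit 4) (nat_lit 149) (nat_lit 217) (nat_lit 204)) (PT.lf (nat_lit 19912) (nat_lit 6) (nat_lit 262) (nat_lit 4) (nat_lit 150) (nat_lit 217) (nat_lit 203))))) (PT.nd (nat_lit 3744) (PT.nd (nat_lit 156) (PT.nd (nat_lit 78) (PT.lf (nat_lit 20520) (nat_lit 6) (nat_lit 270) (nat_lit 4) (nat_lit 151) (nat_lit 217) (nat_lit 202)) (PT.lf (nat_lit 21128) (nat_lit 6) (nat_lit 278) (nat_lit 4) (nat_lit 152) (nat_lit 217) (nat_lit 201))) (PT.nd (nat_lit 78) (PT.lf (nat_lit 21812) (nat_lit 6) (nat_lit 287) (nat_lit 4) (nat_lit 153) (nat_lit 217) (nat_lit 200)) (PT.lf (nat_lit 22496) (nat_lit 6) (nat_lit 296) (nat_lit 4) (nat_lit 154) (nat_lit 217) (nat_lit 199)))) (PT.nd (nat_lit 156) (PT.nd (nat_lit 78) (PT.lf (nat_lit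 22496) (nat_lit 6) (nat_lit 296) (nat_lit 2) (nat_lit 199) (nat_lit 217) (nat_lit 154)) (PT.lf (nat_lit 21812) (nat_lit 6) (nat_lit 287) (nat_lit 2) (nat_lit 200) (nat_lit 217) (nat_lit 153))) (PT.nd (nat_lit 78) (PT.lf (nat_lit 21128) (nat_lit 6) (nat_lit 278) (nat_lit 2) (nat_lit 201) (nat_lit 217) (nat_lit 152)) (PT.lf (nat_lit 20520) (nat_lit 6) (nat_lit 270) (nat_lit 2) (nat_lit 202) (nat_lit 217) (nat_lit 151)))))) (PT.nd (nat_lit 624) (PT.nd (nat_lit 312) (PT.nd (nat_lit 156) (PT.nd (nat_lit 78) (PT.lf (nat_lit 19912) (nat_lit 6) (nat_lit 262) (nat_lit 2) (nat_lit 203) (nat_lit 217) (nat_lit 150)) (PT.lf (nat_lit 19304) (nat_lit 6) (nat_lit 254) (nat_lit 2) (nat_lit 204) (nat_lit 217) (nat_lit 149))) (PT.nd (nat_lit 78) (PT.lf (nat_lit 18696) (nat_lit 6) (nat_lit 246) (nat_lit 2) (nat_lit 205) (nat_lit 217) (nat_lit 148)) (PT.lf (nat_lit 18164) (nat_lit 6) (nat_lit 239) (nat_lit 2) (nat_lit 206) (nat_lit 217) (nat_lit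 147)))) (PT.nd (nat_lit 156) (PT.nd (nat_lit 78) (PT.lf (nat_lit 17556) (nat_lit 6) (nat_lit 231) (nat_lit 2) (nat_lit 207) (nat_lit 217) (nat_lit 146)) (PT.lf (nat_lit 17024) (nat_lit 6) (nat_lit 224) (nat_lit 2) (nat_lit 208) (nat_lit 217) (nat_lit 145))) (PT.nd (nat_lit 78) (PT.lf (nat_lit 16492) (nat_lit 6) (nat_lit 217) (nat_lit 2) (nat_lit 209) (nat_lit 217) (nat_lit 144)) (PT.lf (nat_lit 16036) (nat_lit 6) (nat_lit 211) (nat_lit 2) (nat_lit 210) (nat_lit 217) (nat_lit 143))))) (PT.nd (nat_lit 312) (PT.nd (nat_lit 156) (PT.nd (nat_lit 78) (PT.lf (nat_lit 15504) (nat_lit 6) (nat_lit 204) (nat_lit 2) (nat_lit 211) (nat_lit 217) (nat_lit 142)) (PT.lf (nat_lit 15048) (nat_lit 6) (nat_lit 198) (nat_lit 2) (nat_lit 212) (nat_lit 217) (nat_lit 141))) (PT.nd (nat_lit 78) (PT.lf (nat_lit 14592) (nat_lit 6) (nat_lit 192) (nat_lit 2) (nat_lit 213) (nat_lit 217) (nat_lit 140)) (PT.lf (nat_lit 14136) (nat_lit 6) (nat_lit 186) (nat_lit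 2) (nat_lit 214) (nat_lit 217) (nat_lit 139)))) (PT.nd (nat_lit 156) (PT.nd (nat_lit 78) (PT.lf (nat_lit 13680) (nat_lit 6) (nat_lit 180) (nat_lit 2) (nat_lit 215) (nat_lit 217) (nat_lit 138)) (PT.lf (nat_lit 13300) (nat_lit 6) (nat_lit 175) (nat_lit 2) (nat_lit 216) (nat_lit 217) (nat_lit 137))) (PT.nd (nat_lit 78) (PT.lf (nat_lit 12844) (nat_lit 3) (nat_lit 169) (nat_lit 0) (nat_lit 217) (nat_lit 217) (nat_lit 136)) (PT.lf (nat_lit 12388) (nat_lit 6) (nat_lit 163) (nat_lit 0) (nat_lit 218) (nat_lit 217) (nat_lit 135))))))))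
noncomputable def pc61 : PT := (PT.nd (nat_lit 52806) (PT.nd (nat_lit 52182) (PT.nd (nat_lit 312) (PT.nd (nat_lit 156) (PT.nd (nat_lit 78) (PT.lf (nat_lit 11932) (nat_lit 6) (nat_lit 157) (nat_lit 0) (nat_lit 219) (nat_lit 217) (nat_lit 134)) (PT.lf (nat_lit 11476) (nat_lit 6) (nat_lit 151) (nat_lit 0) (nat_lit 220) (nat_lit 217) (nat_lit 133))) (PT.nd (nat_lit 78) (PT.lf (nat_lit 11020) (nat_lit 6) (nat_lit 145) (nat_lit 0) (nat_lit 221) (nat_lit 217) (nat_lit 132)) (PT.lf (nat_lit 10564) (nat_lit 6) (nat_lit 139) (nat_lit 0) (nat_lit 222) (nat_lit 217) (nat_lit 131)))) (PT.nd (nat_lit 156) (PT.nd (nat_lit 78) (PT.lf (nat_lit 10108) (nat_lit 6) (nat_lit 133) (nat_lit 0) (nat_lit 223) (nat_lit 217) (nat_lit 130)) (PT.lf (nat_lit 9728) (nat_lit 6) (nat_lit 128) (nat_lit 0) (nat_lit 224) (nat_lit 217) (nat_lit 129))) (PT.nd (nat_lit 51636) (PT.lf (nat_lit 9272) (nat_lit 6) (nat_lit 122) (nat_lit 0) (nat_lit 225) (nat_lit 217)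 (nat_lit 128)) (PT.lf (nat_lit 8588) (nat_lit 6) (nat_lit 113) (nat_lit 5) (nat_lit 126) (nat_lit 218) (nat_lit 226))))) (PT.nd (nat_lit 312) (PT.nd (nat_lit 156) (PT.nd (nat_lit 78) (PT.lf (nat_lit 8968) (nat_lit 6) (nat_lit 118) (nat_lit 5) (nat_lit 127) (nat_lit 218) (nat_lit 225)) (PT.lf (nat_lit 9348) (nat_lit 6) (nat_lit 123) (nat_lit 5) (nat_lit 128) (nat_lit 218) (nat_lit 224))) (PT.nd (nat_lit 78) (PT.lf (nat_lit 9804) (nat_lit 6) (nat_lit 129) (nat_lit 5) (nat_lit 129) (nat_lit 218) (nat_lit 223)) (PT.lf (nat_lit 10184) (nat_lit 6) (nat_lit 134) (nat_lit 5) (nat_lit 130) (nat_lit 218) (nat_lit 222)))) (PT.nd (nat_lit 156) (PT.nd (nat_lit 78) (PT.lf (nat_lit 10640) (nat_lit 6) (nat_lit 140) (nat_lit 5) (nat_lit 131) (nat_lit 218) (nat_lit 221)) (PT.lf (nat_lit 11096) (nat_lit 6) (nat_lit 146) (nat_lit 5) (nat_lit 132) (nat_lit 218) (nat_lit 220))) (PT.nd (nat_lit 78) (PT.lf (nat_lit 11552) (nat_lit 6) (nat_lit 152)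 (nat_lit 5) (nat_lit 133) (nat_lit 218) (nat_lit 219)) (PT.lf (nat_lit 12008) (nat_lit 3) (nat_lit 158) (nat_lit 4) (nat_lit 134) (nat_lit 218) (nat_lit 218)))))) (PT.nd (nat_lit 624) (PT.nd (nat_lit 312) (PT.nd (nat_lit 156) (PT.nd (nat_lit 78) (PT.lf (nat_lit 12388) (nat_lit 6) (nat_lit 163) (nat_lit 4) (nat_lit 135) (nat_lit 218) (nat_lit 217)) (PT.lf (nat_lit 12768) (nat_lit 6) (nat_lit 168) (nat_lit 4) (nat_lit 136) (nat_lit 218) (nat_lit 216))) (PT.nd (nat_lit 78) (PT.lf (nat_lit 13224) (nat_lit 6) (nat_lit 174) (nat_lit 4) (nat_lit 137) (nat_lit 218) (nat_lit 215)) (PT.lf (nat_lit 13604) (nat_lit 6) (nat_lit 179) (nat_lit 4) (nat_lit 138) (nat_lit 218) (nat_lit 214)))) (PT.nd (nat_lit 156) (PT.nd (nat_lit 78) (PT.lf (nat_lit 14060) (nat_lit 6) (nat_lit 185) (nat_lit 4) (nat_lit 139) (nat_lit 218) (nat_lit 213)) (PT.lf (nat_lit 14516) (nat_lit 6) (nat_lit 191) (nat_lit 4) (nat_lit 140) (nat_lit 218) (nat_lit 212))) (PT.nd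 (nat_lit 78) (PT.lf (nat_lit 14972) (nat_lit 6) (nat_lit 197) (nat_lit 4) (nat_lit 141) (nat_lit 218) (nat_lit 211)) (PT.lf (nat_lit 15428) (nat_lit 6) (nat_lit 203) (nat_lit 4) (nat_lit 142) (nat_lit 218) (nat_lit 210))))) (PT.nd (nat_lit 312) (PT.nd (nat_lit 156) (PT.nd (nat_lit 78) (PT.lf (nat_lit 15960) (nat_lit 6) (nat_lit 210) (nat_lit 4) (nat_lit 143) (nat_lit 218) (nat_lit 209)) (PT.lf (nat_lit 16416) (nat_lit 6) (nat_lit 216) (nat_lit 4) (nat_lit 144) (nat_lit 218) (nat_lit 208))) (PT.nd (nat_lit 78) (PT.lf (nat_lit 16948) (nat_lit 6) (nat_lit 223) (nat_lit 4) (nat_lit 145) (nat_lit 218) (nat_lit 207)) (PT.lf (nat_lit 17480) (nat_lit 6) (nat_lit 230) (nat_lit 4) (nat_lit 146) (nat_lit 218) (nat_lit 206)))) (PT.nd (nat_lit 156) (PT.nd (nat_lit 78) (PT.lf (nat_lit 18088) (nat_lit 6) (nat_lit 238) (nat_lit 4) (nat_lit 147) (nat_lit 218) (nat_lit 205)) (PT.lf (nat_lit 18620) (nat_lit 6) (nat_lit 245) (nat_lit 4) (nat_lit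 148) (nat_lit 218) (nat_lit 204))) (PT.nd (nat_lit 78) (PT.lf (nat_lit 19228) (nat_lit 6) (nat_lit 253) (nat_lit 4) (nat_lit 149) (nat_lit 218) (nat_lit 203)) (PT.lf (nat_lit 19836) (nat_lit 6) (nat_lit 261) (nat_lit 4) (nat_lit 150) (nat_lit 218) (nat_lit 202)))))))
noncomputable def pc62 : PT := (PT.nd (nat_lit 1248) (PT.nd (nat_lit 624) (PT.nd (nat_lit 312) (PT.nd (nat_lit 156) (PT.nd (nat_lit 78) (PT.lf (nat_lit 19836) (nat_lit 6) (nat_lit 261) (nat_lit 2) (nat_lit 202) (nat_lit 218) (nat_lit 150)) (PT.lf (nat_lit 19228) (nat_lit 6) (nat_lit 253) (nat_lit 2) (nat_lit 203) (nat_lit 218) (nat_lit 149))) (PT.nd (nat_lit 78) (PT.lf (nat_lit 18620) (nat_lit 6) (nat_lit 245) (nat_lit 2) (nat_lit 204) (nat_lit 218) (nat_lit 148)) (PT.lf (nat_lit 18088) (nat_lit 6) (nat_lit 238) (nat_lit 2) (nat_lit 205) (nat_lit 218) (nat_lit 147)))) (PT.nd (nat_lit 156) (PT.nd (nat_lit 78) (PT.lf (nat_lit 17480) (nat_lit 6) (nat_lit 230) (nat_lit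 2) (nat_lit 206) (nat_lit 218) (nat_lit 146)) (PT.lf (nat_lit 16948) (nat_lit 6) (nat_lit 223) (nat_lit 2) (nat_lit 207) (nat_lit 218) (nat_lit 145))) (PT.nd (nat_lit 78) (PT.lf (nat_lit 16416) (nat_lit 6) (nat_lit 216) (nat_lit 2) (nat_lit 208) (nat_lit 218) (nat_lit 144)) (PT.lf (nat_lit 15960) (nat_lit 6) (nat_lit 210) (nat_lit 2) (nat_lit 209) (nat_lit 218) (nat_lit 143))))) (PT.nd (nat_lit 312) (PT.nd (nat_lit 156) (PT.nd (nat_lit 78) (PT.lf (nat_lit 15428) (nat_lit 6) (nat_lit 203) (nat_lit 2) (nat_lit 210) (nat_lit 218) (nat_lit 142)) (PT.lf (nat_lit 14972) (nat_lit 6) (nat_lit 197) (nat_lit 2) (nat_lit 211) (nat_lit 218) (nat_lit 141))) (PT.nd (nat_lit 78) (PT.lf (nat_lit 14516) (nat_lit 6) (nat_lit 191) (nat_lit 2) (nat_lit 212) (nat_lit 218) (nat_lit 140)) (PT.lf (nat_lit 14060) (nat_lit 6) (nat_lit 185) (nat_lit 2) (nat_lit 213) (nat_lit 218) (nat_lit 139)))) (PT.nd (nat_lit 156) (PT.nd (nat_lit 78) (PT.lf (nat_lit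 13604) (nat_lit 6) (nat_lit 179) (nat_lit 2) (nat_lit 214) (nat_lit 218) (nat_lit 138)) (PT.lf (nat_lit 13224) (nat_lit 6) (nat_lit 174) (nat_lit 2) (nat_lit 215) (nat_lit 218) (nat_lit 137))) (PT.nd (nat_lit 78) (PT.lf (nat_lit 12768) (nat_lit 6) (nat_lit 168) (nat_lit 2) (nat_lit 216) (nat_lit 218) (nat_lit 136)) (PT.lf (nat_lit 12388) (nat_lit 6) (nat_lit 163) (nat_lit 2) (nat_lit 217) (nat_lit 218) (nat_lit 135)))))) (PT.nd (nat_lit 624) (PT.nd (nat_lit 312) (PT.nd (nat_lit 156) (PT.nd (nat_lit 78) (PT.lf (nat_lit 12008) (nat_lit 3) (nat_lit 158) (nat_lit 0) (nat_lit 218) (nat_lit 218) (nat_lit 134)) (PT.lf (nat_lit 11552) (nat_lit 6) (nat_lit 152) (nat_lit 0) (nat_lit 219) (nat_lit 218) (nat_lit 133))) (PT.nd (nat_lit 78) (PT.lf (nat_lit 11096) (nat_lit 6) (nat_lit 146) (nat_lit 0) (nat_lit 220) (nat_lit 218) (nat_lit 132)) (PT.lf (nat_lit 10640) (nat_lit 6) (nat_lit 140) (nat_lit 0) (nat_lit 221) (nat_lit 218) (nat_lit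 131)))) (PT.nd (nat_lit 156) (PT.nd (nat_lit 78) (PT.lf (nat_lit 10184) (nat_lit 6) (nat_lit 134) (nat_lit 0) (nat_lit 222) (nat_lit 218) (nat_lit 130)) (PT.lf (nat_lit 9804) (nat_lit 6) (nat_lit 129) (nat_lit 0) (nat_lit 223) (nat_lit 218) (nat_lit 129))) (PT.nd (nat_lit 78) (PT.lf (nat_lit 9348) (nat_lit 6) (nat_lit 123) (nat_lit 0) (nat_lit 224) (nat_lit 218) (nat_lit 128)) (PT.lf (nat_lit 8968) (nat_lit 6) (nat_lit 118) (nat_lit 0) (nat_lit 225) (nat_lit 218) (nat_lit 127))))) (PT.nd (nat_lit 51714) (PT.nd (nat_lit 51558) (PT.nd (nat_lit 51480) (PT.lf (nat_lit 8588) (nat_lit 6) (nat_lit 113) (nat_lit 0) (nat_lit 226) (nat_lit 218) (nat_lit 126)) (PT.lf (nat_lit 8284) (nat_lit 6) (nat_lit 109) (nat_lit 5) (nat_lit 125) (nat_lit 219) (nat_lit 226))) (PT.nd (nat_lit 78) (PT.lf (nat_lit 8664) (nat_lit 6) (nat_lit 114) (nat_lit 5) (nat_lit 126) (nat_lit 219) (nat_lit 225)) (PT.lf (nat_lit 9044) (nat_lit 6) (nat_lit 119) (nat_lit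 5) (nat_lit 127) (nat_lit 219) (nat_lit 224)))) (PT.nd (nat_lit 156) (PT.nd (nat_lit 78) (PT.lf (nat_lit 9424) (nat_lit 6) (nat_lit 124) (nat_lit 5) (nat_lit 128) (nat_lit 219) (nat_lit 223)) (PT.lf (nat_lit 9880) (nat_lit 6) (nat_lit 130) (nat_lit 5) (nat_lit 129) (nat_lit 219) (nat_lit 222))) (PT.nd (nat_lit 78) (PT.lf (nat_lit 10260) (nat_lit 6) (nat_lit 135) (nat_lit 5) (nat_lit 130) (nat_lit 219) (nat_lit 221)) (PT.nd (nat_lit 78) (PT.lf (nat_lit 10716) (nat_lit 6) (nat_lit 141) (nat_lit 5) (nat_lit 131) (nat_lit 219) (nat_lit 220)) (PT.lf (nat_lit 11172) (nat_lit 3) (nat_lit 147) (nat_lit 4) (nat_lit 132) (nat_lit 219) (nat_lit 219))))))))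
noncomputable def pc63 : PT := (PT.nd (nat_lit 7020) (PT.nd (nat_lit 5772) (PT.nd (nat_lit 624) (PT.nd (nat_lit 312) (PT.nd (nat_lit 156) (PT.nd (nat_lit 78) (PT.lf (nat_lit 11552) (nat_lit 6) (nat_lit 152) (nat_lit 4) (nat_lit 133) (nat_lit 219) (nat_lit 218)) (PT.lf (nat_lit 11932) (nat_lit 6) (nat_lit 157) (nat_lit 4) (nat_lit 134) (nat_lit 219) (nat_lit 217))) (PT.nd (nat_lit 78) (PT.lf (nat_lit 12312) (nat_lit 6) (nat_lit 162) (nat_lit 4) (nat_lit 135) (nat_lit 219) (nat_lit 216)) (PT.lf (nat_lit 12692) (nat_lit 6) (nat_lit 167) (nat_lit 4) (nat_lit 136) (nat_lit 219) (nat_lit 215)))) (PT.nd (nat_lit 156) (PT.nd (nat_lit 78) (PT.lf (nat_lit 13148) (nat_lit 6) (nat_lit 173) (nat_lit 4) (nat_lit 137) (nat_lit 219) (nat_lit 214)) (PT.lf (nat_lit 13528) (nat_lit 6) (nat_lit 178) (nat_lit 4) (nat_lit 138) (nat_lit 219) (nat_lit 213))) (PT.nd (nat_lit 78) (PT.lf (nat_lit 13984) (nat_lit 6) (nat_lit 184) (nat_lit 4) (nat_lit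 139) (nat_lit 219) (nat_lit 212)) (PT.lf (nat_lit 14440) (nat_lit 6) (nat_lit 190) (nat_lit 4) (nat_lit 140) (nat_lit 219) (nat_lit 211))))) (PT.nd (nat_lit 312) (PT.nd (nat_lit 156) (PT.nd (nat_lit 78) (PT.lf (nat_lit 14896) (nat_lit 6) (nat_lit 196) (nat_lit 4) (nat_lit 141) (nat_lit 219) (nat_lit 210)) (PT.lf (nat_lit 15352) (nat_lit 6) (nat_lit 202) (nat_lit 4) (nat_lit 142) (nat_lit 219) (nat_lit 209))) (PT.nd (nat_lit 78) (PT.lf (nat_lit 15884) (nat_lit 6) (nat_lit 209) (nat_lit 4) (nat_lit 143) (nat_lit 219) (nat_lit 208)) (PT.lf (nat_lit 16340) (nat_lit 6) (nat_lit 215) (nat_lit 4) (nat_lit 144) (nat_lit 219) (nat_lit 207)))) (PT.nd (nat_lit 4680) (PT.nd (nat_lit 78) (PT.lf (nat_lit 16872) (nat_lit 6) (nat_lit 222) (nat_lit 4) (nat_lit 145) (nat_lit 219) (nat_lit 206)) (PT.lf (nat_lit 17404) (nat_lit 6) (nat_lit 229) (nat_lit 4) (nat_lit 146) (nat_lit 219) (nat_lit 205))) (PT.nd (nat_lit 78) (PT.lf (nat_lit 17404) (nat_lit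 6) (nat_lit 229) (nat_lit 2) (nat_lit 205) (nat_lit 219) (nat_lit 146)) (PT.lf (nat_lit 16872) (nat_lit 6) (nat_lit 222) (nat_lit 2) (nat_lit 206) (nat_lit 219) (nat_lit 145)))))) (PT.nd (nat_lit 624) (PT.nd (nat_lit 312) (PT.nd (nat_lit 156) (PT.nd (nat_lit 78) (PT.lf (nat_lit 16340) (nat_lit 6) (nat_lit 215) (nat_lit 2) (nat_lit 207) (nat_lit 219) (nat_lit 144)) (PT.lf (nat_lit 15884) (nat_lit 6) (nat_lit 209) (nat_lit 2) (nat_lit 208) (nat_lit 219) (nat_lit 143))) (PT.nd (nat_lit 78) (PT.lf (nat_lit 15352) (nat_lit 6) (nat_lit 202) (nat_lit 2) (nat_lit 209) (nat_lit 219) (nat_lit 142)) (PT.lf (nat_lit 14896) (nat_lit 6) (nat_lit 196) (nat_lit 2) (nat_lit 210) (nat_lit 219) (nat_lit 141)))) (PT.nd (nat_lit 156) (PT.nd (nat_lit 78) (PT.lf (nat_lit 14440) (nat_lit 6) (nat_lit 190) (nat_lit 2) (nat_lit 211) (nat_lit 219) (nat_lit 140)) (PT.lf (nat_lit 13984) (nat_lit 6) (nat_lit 184) (nat_lit 2) (nat_lit 212) (nat_lit 219) (nat_lit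 139))) (PT.nd (nat_lit 78) (PT.lf (nat_lit 13528) (nat_lit 6) (nat_lit 178) (nat_lit 2) (nat_lit 213) (nat_lit 219) (nat_lit 138)) (PT.lf (nat_lit 13148) (nat_lit 6) (nat_lit 173) (nat_lit 2) (nat_lit 214) (nat_lit 219) (nat_lit 137))))) (PT.nd (nat_lit 312) (PT.nd (nat_lit 156) (PT.nd (nat_lit 78) (PT.lf (nat_lit 12692) (nat_lit 6) (nat_lit 167) (nat_lit 2) (nat_lit 215) (nat_lit 219) (nat_lit 136)) (PT.lf (nat_lit 12312) (nat_lit 6) (nat_lit 162) (nat_lit 2) (nat_lit 216) (nat_lit 219) (nat_lit 135))) (PT.nd (nat_lit 78) (PT.lf (nat_lit 11932) (nat_lit 6) (nat_lit 157) (nat_lit 2) (nat_lit 217) (nat_lit 219) (nat_lit 134)) (PT.lf (nat_lit 11552) (nat_lit 6) (nat_lit 152) (nat_lit 2) (nat_lit 218) (nat_lit 219) (nat_lit 133)))) (PT.nd (nat_lit 156) (PT.nd (nat_lit 78) (PT.lf (nat_lit 11172) (nat_lit 3) (nat_lit 147) (nat_lit 0) (nat_lit 219) (nat_lit 219) (nat_lit 132)) (PT.lf (nat_lit 10716) (nat_lit 6) (nat_lit 141) (nat_lit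 0) (nat_lit 220) (nat_lit 219) (nat_lit 131))) (PT.nd (nat_lit 78) (PT.lf (nat_lit 10260) (nat_lit 6) (nat_lit 135) (nat_lit 0) (nat_lit 221) (nat_lit 219) (nat_lit 130)) (PT.lf (nat_lit 9880) (nat_lit 6) (nat_lit 130) (nat_lit 0) (nat_lit 222) (nat_lit 219) (nat_lit 129))))))) (PT.nd (nat_lit 52494) (PT.nd (nat_lit 51870) (PT.nd (nat_lit 51558) (PT.nd (nat_lit 156) (PT.nd (nat_lit 78) (PT.lf (nat_lit 9424) (nat_lit 6) (nat_lit 124) (nat_lit 0) (nat_lit 223) (nat_lit 219) (nat_lit 128)) (PT.lf (nat_lit 9044) (nat_lit 6) (nat_lit 119) (nat_lit 0) (nat_lit 224) (nat_lit 219) (nat_lit 127))) (PT.nd (nat_lit 78) (PT.lf (nat_lit 8664) (nat_lit 6) (nat_lit 114) (nat_lit 0) (nat_lit 225) (nat_lit 219) (nat_lit 126)) (PT.lf (nat_lit 8284) (nat_lit 6) (nat_lit 109) (nat_lit 0) (nat_lit 226) (nat_lit 219) (nat_lit 125)))) (PT.nd (nat_lit 156) (PT.nd (nat_lit 78) (PT.lf (nat_lit 7600) (nat_lit 6) (nat_lit 100) (nat_lit 5) (nat_lit 123)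 (nat_lit 220) (nat_lit 227)) (PT.lf (nat_lit 7980) (nat_lit 6) (nat_lit 105) (nat_lit 5) (nat_lit 124) (nat_lit 220) (nat_lit 226))) (PT.nd (nat_lit 78) (PT.lf (nat_lit 8360) (nat_lit 6) (nat_lit 110) (nat_lit 5) (nat_lit 125) (nat_lit 220) (nat_lit 225)) (PT.lf (nat_lit 8740) (nat_lit 6) (nat_lit 115) (nat_lit 5) (nat_lit 126) (nat_lit 220) (nat_lit 224))))) (PT.nd (nat_lit 312) (PT.nd (nat_lit 156) (PT.nd (nat_lit 78) (PT.lf (nat_lit 9120) (nat_lit 6) (nat_lit 120) (nat_lit 5) (nat_lit 127) (nat_lit 220) (nat_lit 223)) (PT.lf (nat_lit 9500) (nat_lit 6) (nat_lit 125) (nat_lit 5) (nat_lit 128) (nat_lit 220) (nat_lit 222))) (PT.nd (nat_lit 78) (PT.lf (nat_lit 9956) (nat_lit 6) (nat_lit 131) (nat_lit 5) (nat_lit 129) (nat_lit 220) (nat_lit 221)) (PT.lf (nat_lit 10336) (nat_lit 3) (nat_lit 136) (nat_lit 4) (nat_lit 130) (nat_lit 220) (nat_lit 220)))) (PT.nd (nat_lit 156) (PT.nd (nat_lit 78) (PT.lf (nat_lit 10716) (nat_lit 6) (nat_lit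 141) (nat_lit 4) (nat_lit 131) (nat_lit 220) (nat_lit 219)) (PT.lf (nat_lit 11096) (nat_lit 6) (nat_lit 146) (nat_lit 4) (nat_lit 132) (nat_lit 220) (nat_lit 218))) (PT.nd (nat_lit 78) (PT.lf (nat_lit 11476) (nat_lit 6) (nat_lit 151) (nat_lit 4) (nat_lit 133) (nat_lit 220) (nat_lit 217)) (PT.lf (nat_lit 11856) (nat_lit 6) (nat_lit 156) (nat_lit 4) (nat_lit 134) (nat_lit 220) (nat_lit 216)))))) (PT.nd (nat_lit 624) (PT.nd (nat_lit 312) (PT.nd (nat_lit 156) (PT.nd (nat_lit 78) (PT.lf (nat_lit 12236) (nat_lit 6) (nat_lit 161) (nat_lit 4) (nat_lit 135) (nat_lit 220) (nat_lit 215)) (PT.lf (nat_lit 12616) (nat_lit 6) (nat_lit 166) (nat_lit 4) (nat_lit 136) (nat_lit 220) (nat_lit 214))) (PT.nd (nat_lit 78) (PT.lf (nat_lit 13072) (nat_lit 6) (nat_lit 172) (nat_lit 4) (nat_lit 137) (nat_lit 220) (nat_lit 213)) (PT.lf (nat_lit 13452) (nat_lit 6) (nat_lit 177) (nat_lit 4) (nat_lit 138) (nat_lit 220) (nat_lit 212)))) (PT.nd (nat_lit 156)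 (PT.nd (nat_lit 78) (PT.lf (nat_lit 13908) (nat_lit 6) (nat_lit 183) (nat_lit 4) (nat_lit 139) (nat_lit 220) (nat_lit 211)) (PT.lf (nat_lit 14364) (nat_lit 6) (nat_lit 189) (nat_lit 4) (nat_lit 140) (nat_lit 220) (nat_lit 210))) (PT.nd (nat_lit 78) (PT.lf (nat_lit 14820) (nat_lit 6) (nat_lit 195) (nat_lit 4) (nat_lit 141) (nat_lit 220) (nat_lit 209)) (PT.lf (nat_lit 15276) (nat_lit 6) (nat_lit 201) (nat_lit 4) (nat_lit 142) (nat_lit 220) (nat_lit 208))))) (PT.nd (nat_lit 5226) (PT.nd (nat_lit 5070) (PT.nd (nat_lit 4992) (PT.lf (nat_lit 15808) (nat_lit 6) (nat_lit 208) (nat_lit 4) (nat_lit 143) (nat_lit 220) (nat_lit 207)) (PT.lf (nat_lit 15808) (nat_lit 6) (nat_lit 208) (nat_lit 2) (nat_lit 207) (nat_lit 220) (nat_lit 143))) (PT.nd (nat_lit 78) (PT.lf (nat_lit 15276) (nat_lit 6) (nat_lit 201) (nat_lit 2) (nat_lit 208) (nat_lit 220) (nat_lit 142)) (PT.lf (nat_lit 14820) (nat_lit 6) (nat_lit 195) (nat_lit 2) (nat_lit 209) (nat_lit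 220) (nat_lit 141)))) (PT.nd (nat_lit 156) (PT.nd (nat_lit 78) (PT.lf (nat_lit 14364) (nat_lit 6) (nat_lit 189) (nat_lit 2) (nat_lit 210) (nat_lit 220) (nat_lit 140)) (PT.lf (nat_lit 13908) (nat_lit 6) (nat_lit 183) (nat_lit 2) (nat_lit 211) (nat_lit 220) (nat_lit 139))) (PT.nd (nat_lit 78) (PT.lf (nat_lit 13452) (nat_lit 6) (nat_lit 177) (nat_lit 2) (nat_lit 212) (nat_lit 220) (nat_lit 138)) (PT.lf (nat_lit 13072) (nat_lit 6) (nat_lit 172) (nat_lit 2) (nat_lit 213) (nat_lit 220) (nat_lit 137))))))))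
noncomputable def pc64 : PT := (PT.nd (nat_lit 53508) (PT.nd (nat_lit 52260) (PT.nd (nat_lit 624) (PT.nd (nat_lit 312) (PT.nd (nat_lit 156) (PT.nd (nat_lit 78) (PT.lf (nat_lit 12616) (nat_lit 6) (nat_lit 166) (nat_lit 2) (nat_lit 214) (nat_lit 220) (nat_lit 136)) (PT.lf (nat_lit 12236) (nat_lit 6) (nat_lit 161) (nat_lit 2) (nat_lit 215) (nat_lit 220) (nat_lit 135))) (PT.nd (nat_lit 78) (PT.lf (nat_lit 11856) (nat_lit 6) (nat_lit 156) (nat_lit 2) (nat_lit 216) (nat_lit 220) (nat_lit 134)) (PT.lf (nat_lit 11476) (nat_lit 6) (nat_lit 151) (nat_lit 2) (nat_lit 217) (nat_lit 220) (nat_lit 133)))) (PT.nd (nat_lit 156) (PT.nd (nat_lit 78) (PT.lf (nat_lit 11096) (nat_lit 6) (nat_lit 146) (nat_lit 2) (nat_lit 218) (nat_lit 220) (nat_lit 132)) (PT.lf (nat_lit 10716) (nat_lit 6) (nat_lit 141) (nat_lit 2) (nat_lit 219) (nat_lit 220) (nat_lit 131))) (PT.nd (nat_lit 78) (PT.lf (nat_lit 10336) (nat_lit 3) (nat_lit 136) (nat_lit 0) (nat_lit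 220) (nat_lit 220) (nat_lit 130)) (PT.lf (nat_lit 9956) (nat_lit 6) (nat_lit 131) (nat_lit 0) (nat_lit 221) (nat_lit 220) (nat_lit 129))))) (PT.nd (nat_lit 312) (PT.nd (nat_lit 156) (PT.nd (nat_lit 78) (PT.lf (nat_lit 9500) (nat_lit 6) (nat_lit 125) (nat_lit 0) (nat_lit 222) (nat_lit 220) (nat_lit 128)) (PT.lf (nat_lit 9120) (nat_lit 6) (nat_lit 120) (nat_lit 0) (nat_lit 223) (nat_lit 220) (nat_lit 127))) (PT.nd (nat_lit 78) (PT.lf (nat_lit 8740) (nat_lit 6) (nat_lit 115) (nat_lit 0) (nat_lit 224) (nat_lit 220) (nat_lit 126)) (PT.lf (nat_lit 8360) (nat_lit 6) (nat_lit 110) (nat_lit 0) (nat_lit 225) (nat_lit 220) (nat_lit 125)))) (PT.nd (nat_lit 51168) (PT.nd (nat_lit 78) (PT.lf (nat_lit 7980) (nat_lit 6) (nat_lit 105) (nat_lit 0) (nat_lit 226) (nat_lit 220) (nat_lit 124)) (PT.lf (nat_lit 7600) (nat_lit 6) (nat_lit 100) (nat_lit 0) (nat_lit 227) (nat_lit 220) (nat_lit 123))) (PT.nd (nat_lit 78) (PT.lf (nat_lit 6992) (nat_lit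 6) (nat_lit 92) (nat_lit 5) (nat_lit 121) (nat_lit 221) (nat_lit 228)) (PT.lf (nat_lit 7296) (nat_lit 6) (nat_lit 96) (nat_lit 5) (nat_lit 122) (nat_lit 221) (nat_lit 227)))))) (PT.nd (nat_lit 624) (PT.nd (nat_lit 312) (PT.nd (nat_lit 156) (PT.nd (nat_lit 78) (PT.lf (nat_lit 7676) (nat_lit 6) (nat_lit 101) (nat_lit 5) (nat_lit 123) (nat_lit 221) (nat_lit 226)) (PT.lf (nat_lit 8056) (nat_lit 6) (nat_lit 106) (nat_lit 5) (nat_lit 124) (nat_lit 221) (nat_lit 225))) (PT.nd (nat_lit 78) (PT.lf (nat_lit 8436) (nat_lit 6) (nat_lit 111) (nat_lit 5) (nat_lit 125) (nat_lit 221) (nat_lit 224)) (PT.lf (nat_lit 8816) (nat_lit 6) (nat_lit 116) (nat_lit 5) (nat_lit 126) (nat_lit 221) (nat_lit 223)))) (PT.nd (nat_lit 156) (PT.nd (nat_lit 78) (PT.lf (nat_lit 9196) (nat_lit 6) (nat_lit 121) (nat_lit 5) (nat_lit 127) (nat_lit 221) (nat_lit 222)) (PT.lf (nat_lit 9576) (nat_lit 3) (nat_lit 126) (nat_lit 4) (nat_lit 128) (nat_lit 221) (nat_lit 221)))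 (PT.nd (nat_lit 78) (PT.lf (nat_lit 9956) (nat_lit 6) (nat_lit 131) (nat_lit 4) (nat_lit 129) (nat_lit 221) (nat_lit 220)) (PT.lf (nat_lit 10260) (nat_lit 6) (nat_lit 135) (nat_lit 4) (nat_lit 130) (nat_lit 221) (nat_lit 219))))) (PT.nd (nat_lit 312) (PT.nd (nat_lit 156) (PT.nd (nat_lit 78) (PT.lf (nat_lit 10640) (nat_lit 6) (nat_lit 140) (nat_lit 4) (nat_lit 131) (nat_lit 221) (nat_lit 218)) (PT.lf (nat_lit 11020) (nat_lit 6) (nat_lit 145) (nat_lit 4) (nat_lit 132) (nat_lit 221) (nat_lit 217))) (PT.nd (nat_lit 78) (PT.lf (nat_lit 11400) (nat_lit 6) (nat_lit 150) (nat_lit 4) (nat_lit 133) (nat_lit 221) (nat_lit 216)) (PT.lf (nat_lit 11780) (nat_lit 6) (nat_lit 155) (nat_lit 4) (nat_lit 134) (nat_lit 221) (nat_lit 215)))) (PT.nd (nat_lit 156) (PT.nd (nat_lit 78) (PT.lf (nat_lit 12160) (nat_lit 6) (nat_lit 160) (nat_lit 4) (nat_lit 135) (nat_lit 221) (nat_lit 214)) (PT.lf (nat_lit 12540) (nat_lit 6) (nat_lit 165) (nat_lit 4)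 (nat_lit 136) (nat_lit 221) (nat_lit 213))) (PT.nd (nat_lit 78) (PT.lf (nat_lit 12996) (nat_lit 6) (nat_lit 171) (nat_lit 4) (nat_lit 137) (nat_lit 221) (nat_lit 212)) (PT.lf (nat_lit 13376) (nat_lit 6) (nat_lit 176) (nat_lit 4) (nat_lit 138) (nat_lit 221) (nat_lit 211))))))) (PT.nd (nat_lit 6552) (PT.nd (nat_lit 5928) (PT.nd (nat_lit 5616) (PT.nd (nat_lit 5460) (PT.nd (nat_lit 78) (PT.lf (nat_lit 13832) (nat_lit 6) (nat_lit 182) (nat_lit 4) (nat_lit 139) (nat_lit 221) (nat_lit 210)) (PT.lf (nat_lit 14288) (nat_lit 6) (nat_lit 188) (nat_lit 4) (nat_lit 140) (nat_lit 221) (nat_lit 209))) (PT.nd (nat_lit 78) (PT.lf (nat_lit 14288) (nat_lit 6) (nat_lit 188) (nat_lit 2) (nat_lit 209) (nat_lit 221) (nat_lit 140)) (PT.lf (nat_lit 13832) (nat_lit 6) (nat_lit 182) (nat_lit 2) (nat_lit 210) (nat_lit 221) (nat_lit 139)))) (PT.nd (nat_lit 156) (PT.nd (nat_lit 78) (PT.lf (nat_lit 13376) (nat_lit 6) (nat_lit 176) (nat_lit 2) (nat_lit 211)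 (nat_lit 221) (nat_lit 138)) (PT.lf (nat_lit 12996) (nat_lit 6) (nat_lit 171) (nat_lit 2) (nat_lit 212) (nat_lit 221) (nat_lit 137))) (PT.nd (nat_lit 78) (PT.lf (nat_lit 12540) (nat_lit 6) (nat_lit 165) (nat_lit 2) (nat_lit 213) (nat_lit 221) (nat_lit 136)) (PT.lf (nat_lit 12160) (nat_lit 6) (nat_lit 160) (nat_lit 2) (nat_lit 214) (nat_lit 221) (nat_lit 135))))) (PT.nd (nat_lit 312) (PT.nd (nat_lit 156) (PT.nd (nat_lit 78) (PT.lf (nat_lit 11780) (nat_lit 6) (nat_lit 155) (nat_lit 2) (nat_lit 215) (nat_lit 221) (nat_lit 134)) (PT.lf (nat_lit 11400) (nat_lit 6) (nat_lit 150) (nat_lit 2) (nat_lit 216) (nat_lit 221) (nat_lit 133))) (PT.nd (nat_lit 78) (PT.lf (nat_lit 11020) (nat_lit 6) (nat_lit 145) (nat_lit 2) (nat_lit 217) (nat_lit 221) (nat_lit 132)) (PT.lf (nat_lit 10640) (nat_lit 6) (nat_lit 140) (nat_lit 2) (nat_lit 218) (nat_lit 221) (nat_lit 131)))) (PT.nd (nat_lit 156) (PT.nd (nat_lit 78) (PT.lf (nat_lit 10260) (nat_lit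 6) (nat_lit 135) (nat_lit 2) (nat_lit 219) (nat_lit 221) (nat_lit 130)) (PT.lf (nat_lit 9956) (nat_lit 6) (nat_lit 131) (nat_lit 2) (nat_lit 220) (nat_lit 221) (nat_lit 129))) (PT.nd (nat_lit 78) (PT.lf (nat_lit 9576) (nat_lit 3) (nat_lit 126) (nat_lit 0) (nat_lit 221) (nat_lit 221) (nat_lit 128)) (PT.lf (nat_lit 9196) (nat_lit 6) (nat_lit 121) (nat_lit 0) (nat_lit 222) (nat_lit 221) (nat_lit 127)))))) (PT.nd (nat_lit 51480) (PT.nd (nat_lit 312) (PT.nd (nat_lit 156) (PT.nd (nat_lit 78) (PT.lf (nat_lit 8816) (nat_lit 6) (nat_lit 116) (nat_lit 0) (nat_lit 223) (nat_lit 221) (nat_lit 126)) (PT.lf (nat_lit 8436) (nat_lit 6) (nat_lit 111) (nat_lit 0) (nat_lit 224) (nat_lit 221) (nat_lit 125))) (PT.nd (nat_lit 78) (PT.lf (nat_lit 8056) (nat_lit 6) (nat_lit 106) (nat_lit 0) (nat_lit 225) (nat_lit 221) (nat_lit 124)) (PT.lf (nat_lit 7676) (nat_lit 6) (nat_lit 101) (nat_lit 0) (nat_lit 226) (nat_lit 221) (nat_lit 123)))) (PT.nd (nat_lit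 51012) (PT.nd (nat_lit 78) (PT.lf (nat_lit 7296) (nat_lit 6) (nat_lit 96) (nat_lit 0) (nat_lit 227) (nat_lit 221) (nat_lit 122)) (PT.lf (nat_lit 6992) (nat_lit 6) (nat_lit 92) (nat_lit 0) (nat_lit 228) (nat_lit 221) (nat_lit 121))) (PT.nd (nat_lit 78) (PT.lf (nat_lit 6688) (nat_lit 6) (nat_lit 88) (nat_lit 5) (nat_lit 120) (nat_lit 222) (nat_lit 228)) (PT.lf (nat_lit 7068) (nat_lit 6) (nat_lit 93) (nat_lit 5) (nat_lit 121) (nat_lit 222) (nat_lit 227))))) (PT.nd (nat_lit 312) (PT.nd (nat_lit 156) (PT.nd (nat_lit 78) (PT.lf (nat_lit 7372) (nat_lit 6) (nat_lit 97) (nat_lit 5) (nat_lit 122) (nat_lit 222) (nat_lit 226)) (PT.lf (nat_lit 7752) (nat_lit 6) (nat_lit 102) (nat_lit 5) (nat_lit 123) (nat_lit 222) (nat_lit 225))) (PT.nd (nat_lit 78) (PT.lf (nat_lit 8132) (nat_lit 6) (nat_lit 107) (nat_lit 5) (nat_lit 124) (nat_lit 222) (nat_lit 224)) (PT.lf (nat_lit 8512) (nat_lit 6) (nat_lit 112) (nat_lit 5) (nat_lit 125) (nat_lit 222)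 (nat_lit 223)))) (PT.nd (nat_lit 156) (PT.nd (nat_lit 78) (PT.lf (nat_lit 8892) (nat_lit 3) (nat_lit 117) (nat_lit 4) (nat_lit 126) (nat_lit 222) (nat_lit 222)) (PT.lf (nat_lit 9196) (nat_lit 6) (nat_lit 121) (nat_lit 4) (nat_lit 127) (nat_lit 222) (nat_lit 221))) (PT.nd (nat_lit 78) (PT.lf (nat_lit 9500) (nat_lit 6) (nat_lit 125) (nat_lit 4) (nat_lit 128) (nat_lit 222) (nat_lit 220)) (PT.lf (nat_lit 9880) (nat_lit 6) (nat_lit 130) (nat_lit 4) (nat_lit 129) (nat_lit 222) (nat_lit 219))))))))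
noncomputable def pc65 : PT := (PT.nd (nat_lit 58890) (PT.nd (nat_lit 6942) (PT.nd (nat_lit 6318) (PT.nd (nat_lit 312) (PT.nd (nat_lit 156) (PT.nd (nat_lit 78) (PT.lf (nat_lit 10184) (nat_lit 6) (nat_lit 134) (nat_lit 4) (nat_lit 130) (nat_lit 222) (nat_lit 218)) (PT.lf (nat_lit 10564) (nat_lit 6) (nat_lit 139) (nat_lit 4) (nat_lit 131) (nat_lit 222) (nat_lit 217))) (PT.nd (nat_lit 78) (PT.lf (nat_lit 10944) (nat_lit 6) (nat_lit 144) (nat_lit 4) (nat_lit 132) (nat_lit 222) (nat_lit 216)) (PT.lf (nat_lit 11324) (nat_lit 6) (nat_lit 149) (nat_lit 4) (nat_lit 133) (nat_lit 222) (nat_lit 215)))) (PT.nd (nat_lit 156) (PT.nd (nat_lit 78) (PT.lf (nat_lit 11704) (nat_lit 6) (nat_lit 154) (nat_lit 4) (nat_lit 134) (nat_lit 222) (nat_lit 214)) (PT.lf (nat_lit 12084) (nat_lit 6) (nat_lit 159) (nat_lit 4) (nat_lit 135) (nat_lit 222) (nat_lit 213))) (PT.nd (nat_lit 78) (PT.lf (nat_lit 12464) (nat_lit 6) (nat_lit 164) (nat_lit 4) (nat_lit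 136) (nat_lit 222) (nat_lit 212)) (PT.lf (nat_lit 12920) (nat_lit 6) (nat_lit 170) (nat_lit 4) (nat_lit 137) (nat_lit 222) (nat_lit 211))))) (PT.nd (nat_lit 312) (PT.nd (nat_lit 156) (PT.nd (nat_lit 78) (PT.lf (nat_lit 12920) (nat_lit 6) (nat_lit 170) (nat_lit 2) (nat_lit 211) (nat_lit 222) (nat_lit 137)) (PT.lf (nat_lit 12464) (nat_lit 6) (nat_lit 164) (nat_lit 2) (nat_lit 212) (nat_lit 222) (nat_lit 136))) (PT.nd (nat_lit 78) (PT.lf (nat_lit 12084) (nat_lit 6) (nat_lit 159) (nat_lit 2) (nat_lit 213) (nat_lit 222) (nat_lit 135)) (PT.lf (nat_lit 11704) (nat_lit 6) (nat_lit 154) (nat_lit 2) (nat_lit 214) (nat_lit 222) (nat_lit 134)))) (PT.nd (nat_lit 156) (PT.nd (nat_lit 78) (PT.lf (nat_lit 11324) (nat_lit 6) (nat_lit 149) (nat_lit 2) (nat_lit 215) (nat_lit 222) (nat_lit 133)) (PT.lf (nat_lit 10944) (nat_lit 6) (nat_lit 144) (nat_lit 2) (nat_lit 216) (nat_lit 222) (nat_lit 132))) (PT.nd (nat_lit 78) (PT.lf (nat_lit 10564) (nat_lit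 6) (nat_lit 139) (nat_lit 2) (nat_lit 217) (nat_lit 222) (nat_lit 131)) (PT.lf (nat_lit 10184) (nat_lit 6) (nat_lit 134) (nat_lit 2) (nat_lit 218) (nat_lit 222) (nat_lit 130)))))) (PT.nd (nat_lit 624) (PT.nd (nat_lit 312) (PT.nd (nat_lit 156) (PT.nd (nat_lit 78) (PT.lf (nat_lit 9880) (nat_lit 6) (nat_lit 130) (nat_lit 2) (nat_lit 219) (nat_lit 222) (nat_lit 129)) (PT.lf (nat_lit 9500) (nat_lit 6) (nat_lit 125) (nat_lit 2) (nat_lit 220) (nat_lit 222) (nat_lit 128))) (PT.nd (nat_lit 78) (PT.lf (nat_lit 9196) (nat_lit 6) (nat_lit 121) (nat_lit 2) (nat_lit 221) (nat_lit 222) (nat_lit 127)) (PT.lf (nat_lit 8892) (nat_lit 3) (nat_lit 117) (nat_lit 0) (nat_lit 222) (nat_lit 222) (nat_lit 126)))) (PT.nd (nat_lit 156) (PT.nd (nat_lit 78) (PT.lf (nat_lit 8512) (nat_lit 6) (nat_lit 112) (nat_lit 0) (nat_lit 223) (nat_lit 222) (nat_lit 125)) (PT.lf (nat_lit 8132) (nat_lit 6) (nat_lit 107) (nat_lit 0) (nat_lit 224) (nat_lit 222) (nat_lit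 124))) (PT.nd (nat_lit 78) (PT.lf (nat_lit 7752) (nat_lit 6) (nat_lit 102) (nat_lit 0) (nat_lit 225) (nat_lit 222) (nat_lit 123)) (PT.lf (nat_lit 7372) (nat_lit 6) (nat_lit 97) (nat_lit 0) (nat_lit 226) (nat_lit 222) (nat_lit 122))))) (PT.nd (nat_lit 51012) (PT.nd (nat_lit 50856) (PT.nd (nat_lit 78) (PT.lf (nat_lit 7068) (nat_lit 6) (nat_lit 93) (nat_lit 0) (nat_lit 227) (nat_lit 222) (nat_lit 121)) (PT.lf (nat_lit 6688) (nat_lit 6) (nat_lit 88) (nat_lit 0) (nat_lit 228) (nat_lit 222) (nat_lit 120))) (PT.nd (nat_lit 78) (PT.lf (nat_lit 6080) (nat_lit 6) (nat_lit 80) (nat_lit 5) (nat_lit 118) (nat_lit 223) (nat_lit 229)) (PT.lf (nat_lit 6460) (nat_lit 6) (nat_lit 85) (nat_lit 5) (nat_lit 119) (nat_lit 223) (nat_lit 228)))) (PT.nd (nat_lit 156) (PT.nd (nat_lit 78) (PT.lf (nat_lit 6764) (nat_lit 6) (nat_lit 89) (nat_lit 5) (nat_lit 120) (nat_lit 223) (nat_lit 227)) (PT.lf (nat_lit 7144) (nat_lit 6) (nat_lit 94) (nat_lit 5) (nat_lit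 121) (nat_lit 223) (nat_lit 226))) (PT.nd (nat_lit 78) (PT.lf (nat_lit 7448) (nat_lit 6) (nat_lit 98) (nat_lit 5) (nat_lit 122) (nat_lit 223) (nat_lit 225)) (PT.lf (nat_lit 7828) (nat_lit 6) (nat_lit 103) (nat_lit 5) (nat_lit 123) (nat_lit 223) (nat_lit 224))))))) (PT.nd (nat_lit 7332) (PT.nd (nat_lit 624) (PT.nd (nat_lit 312) (PT.nd (nat_lit 156) (PT.nd (nat_lit 78) (PT.lf (nat_lit 8208) (nat_lit 3) (nat_lit 108) (nat_lit 4) (nat_lit 124) (nat_lit 223) (nat_lit 223)) (PT.lf (nat_lit 8512) (nat_lit 6) (nat_lit 112) (nat_lit 4) (nat_lit 125) (nat_lit 223) (nat_lit 222))) (PT.nd (nat_lit 78) (PT.lf (nat_lit 8816) (nat_lit 6) (nat_lit 116) (nat_lit 4) (nat_lit 126) (nat_lit 223) (nat_lit 221)) (PT.lf (nat_lit 9120) (nat_lit 6) (nat_lit 120) (nat_lit 4) (nat_lit 127) (nat_lit 223) (nat_lit 220)))) (PT.nd (nat_lit 156) (PT.nd (nat_lit 78) (PT.lf (nat_lit 9424) (nat_lit 6) (nat_lit 124) (nat_lit 4) (nat_lit 128) (nat_lit 223) (nat_lit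 219)) (PT.lf (nat_lit 9804) (nat_lit 6) (nat_lit 129) (nat_lit 4) (nat_lit 129) (nat_lit 223) (nat_lit 218))) (PT.nd (nat_lit 78) (PT.lf (nat_lit 10108) (nat_lit 6) (nat_lit 133) (nat_lit 4) (nat_lit 130) (nat_lit 223) (nat_lit 217)) (PT.lf (nat_lit 10488) (nat_lit 6) (nat_lit 138) (nat_lit 4) (nat_lit 131) (nat_lit 223) (nat_lit 216))))) (PT.nd (nat_lit 6396) (PT.nd (nat_lit 156) (PT.nd (nat_lit 78) (PT.lf (nat_lit 10868) (nat_lit 6) (nat_lit 143) (nat_lit 4) (nat_lit 132) (nat_lit 223) (nat_lit 215)) (PT.lf (nat_lit 11248) (nat_lit 6) (nat_lit 148) (nat_lit 4) (nat_lit 133) (nat_lit 223) (nat_lit 214))) (PT.nd (nat_lit 6162) (PT.lf (nat_lit 11628) (nat_lit 6) (nat_lit 153) (nat_lit 4) (nat_lit 134) (nat_lit 223) (nat_lit 213)) (PT.lf (nat_lit 11628) (nat_lit 6) (nat_lit 153) (nat_lit 2) (nat_lit 213) (nat_lit 223) (nat_lit 134)))) (PT.nd (nat_lit 156) (PT.nd (nat_lit 78) (PT.lf (nat_lit 11248) (nat_lit 6) (nat_lit 148) (nat_lit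 2) (nat_lit 214) (nat_lit 223) (nat_lit 133)) (PT.lf (nat_lit 10868) (nat_lit 6) (nat_lit 143) (nat_lit 2) (nat_lit 215) (nat_lit 223) (nat_lit 132))) (PT.nd (nat_lit 78) (PT.lf (nat_lit 10488) (nat_lit 6) (nat_lit 138) (nat_lit 2) (nat_lit 216) (nat_lit 223) (nat_lit 131)) (PT.lf (nat_lit 10108) (nat_lit 6) (nat_lit 133) (nat_lit 2) (nat_lit 217) (nat_lit 223) (nat_lit 130)))))) (PT.nd (nat_lit 624) (PT.nd (nat_lit 312) (PT.nd (nat_lit 156) (PT.nd (nat_lit 78) (PT.lf (nat_lit 9804) (nat_lit 6) (nat_lit 129) (nat_lit 2) (nat_lit 218) (nat_lit 223) (nat_lit 129)) (PT.lf (nat_lit 9424) (nat_lit 6) (nat_lit 124) (nat_lit 2) (nat_lit 219) (nat_lit 223) (nat_lit 128))) (PT.nd (nat_lit 78) (PT.lf (nat_lit 9120) (nat_lit 6) (nat_lit 120) (nat_lit 2) (nat_lit 220) (nat_lit 223) (nat_lit 127)) (PT.lf (nat_lit 8816) (nat_lit 6) (nat_lit 116) (nat_lit 2) (nat_lit 221) (nat_lit 223) (nat_lit 126)))) (PT.nd (nat_lit 156) (PT.nd (nat_lit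 78) (PT.lf (nat_lit 8512) (nat_lit 6) (nat_lit 112) (nat_lit 2) (nat_lit 222) (nat_lit 223) (nat_lit 125)) (PT.lf (nat_lit 8208) (nat_lit 3) (nat_lit 108) (nat_lit 0) (nat_lit 223) (nat_lit 223) (nat_lit 124))) (PT.nd (nat_lit 78) (PT.lf (nat_lit 7828) (nat_lit 6) (nat_lit 103) (nat_lit 0) (nat_lit 224) (nat_lit 223) (nat_lit 123)) (PT.lf (nat_lit 7448) (nat_lit 6) (nat_lit 98) (nat_lit 0) (nat_lit 225) (nat_lit 223) (nat_lit 122))))) (PT.nd (nat_lit 50778) (PT.nd (nat_lit 156) (PT.nd (nat_lit 78) (PT.lf (nat_lit 7144) (nat_lit 6) (nat_lit 94) (nat_lit 0) (nat_lit 226) (nat_lit 223) (nat_lit 121)) (PT.lf (nat_lit 6764) (nat_lit 6) (nat_lit 89) (nat_lit 0) (nat_lit 227) (nat_lit 223) (nat_lit 120))) (PT.nd (nat_lit 78) (PT.lf (nat_lit 6460) (nat_lit 6) (nat_lit 85) (nat_lit 0) (nat_lit 228) (nat_lit 223) (nat_lit 119)) (PT.lf (nat_lit 6080) (nat_lit 6) (nat_lit 80) (nat_lit 0) (nat_lit 229) (nat_lit 223) (nat_lit 118)))) (PT.nd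 (nat_lit 156) (PT.nd (nat_lit 78) (PT.lf (nat_lit 5548) (nat_lit 6) (nat_lit 73) (nat_lit 5) (nat_lit 116) (nat_lit 224) (nat_lit 230)) (PT.lf (nat_lit 5852) (nat_lit 6) (nat_lit 77) (nat_lit 5) (nat_lit 117) (nat_lit 224) (nat_lit 229))) (PT.nd (nat_lit 78) (PT.lf (nat_lit 6156) (nat_lit 6) (nat_lit 81) (nat_lit 5) (nat_lit 118) (nat_lit 224) (nat_lit 228)) (PT.lf (nat_lit 6536) (nat_lit 6) (nat_lit 86) (nat_lit 5) (nat_lit 119) (nat_lit 224) (nat_lit 227))))))))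
noncomputable def pc66 : PT := (PT.nd (nat_lit 7722) (PT.nd (nat_lit 624) (PT.nd (nat_lit 312) (PT.nd (nat_lit 156) (PT.nd (nat_lit 78) (PT.lf (nat_lit 6840) (nat_lit 6) (nat_lit 90) (nat_lit 5) (nat_lit 120) (nat_lit 224) (nat_lit 226)) (PT.lf (nat_lit 7220) (nat_lit 6) (nat_lit 95) (nat_lit 5) (nat_lit 121) (nat_lit 224) (nat_lit 225))) (PT.nd (nat_lit 78) (PT.lf (nat_lit 7524) (nat_lit 3) (nat_lit 99) (nat_lit 4) (nat_lit 122) (nat_lit 224) (nat_lit 224)) (PT.lf (nat_lit 7828) (nat_lit 6) (nat_lit 103) (nat_lit 4) (nat_lit 123) (nat_lit 224) (nat_lit 223)))) (PT.nd (nat_lit 156) (PT.nd (nat_lit 78) (PT.lf (nat_lit 8132) (nat_lit 6) (nat_lit 107) (nat_lit 4) (nat_lit 124) (nat_lit 224) (nat_lit 222)) (PT.lf (nat_lit 8436) (nat_lit 6) (nat_lit 111) (nat_lit 4) (nat_lit 125) (nat_lit 224) (nat_lit 221))) (PT.nd (nat_lit 78) (PT.lf (nat_lit 8740) (nat_lit 6) (nat_lit 115) (nat_lit 4) (nat_lit 126) (nat_lit 224) (nat_lit 220))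 (PT.lf (nat_lit 9044) (nat_lit 6) (nat_lit 119) (nat_lit 4) (nat_lit 127) (nat_lit 224) (nat_lit 219))))) (PT.nd (nat_lit 6786) (PT.nd (nat_lit 156) (PT.nd (nat_lit 78) (PT.lf (nat_lit 9348) (nat_lit 6) (nat_lit 123) (nat_lit 4) (nat_lit 128) (nat_lit 224) (nat_lit 218)) (PT.lf (nat_lit 9728) (nat_lit 6) (nat_lit 128) (nat_lit 4) (nat_lit 129) (nat_lit 224) (nat_lit 217))) (PT.nd (nat_lit 78) (PT.lf (nat_lit 10032) (nat_lit 6) (nat_lit 132) (nat_lit 4) (nat_lit 130) (nat_lit 224) (nat_lit 216)) (PT.lf (nat_lit 10412) (nat_lit 6) (nat_lit 137) (nat_lit 4) (nat_lit 131) (nat_lit 224) (nat_lit 215)))) (PT.nd (nat_lit 156) (PT.nd (nat_lit 78) (PT.lf (nat_lit 10412) (nat_lit 6) (nat_lit 137) (nat_lit 2) (nat_lit 215) (nat_lit 224) (nat_lit 131)) (PT.lf (nat_lit 10032) (nat_lit 6) (nat_lit 132) (nat_lit 2) (nat_lit 216) (nat_lit 224) (nat_lit 130))) (PT.nd (nat_lit 78) (PT.lf (nat_lit 9728) (nat_lit 6) (nat_lit 128) (nat_lit 2) (nat_lit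 217) (nat_lit 224) (nat_lit 129)) (PT.lf (nat_lit 9348) (nat_lit 6) (nat_lit 123) (nat_lit 2) (nat_lit 218) (nat_lit 224) (nat_lit 128)))))) (PT.nd (nat_lit 624) (PT.nd (nat_lit 312) (PT.nd (nat_lit 156) (PT.nd (nat_lit 78) (PT.lf (nat_lit 9044) (nat_lit 6) (nat_lit 119) (nat_lit 2) (nat_lit 219) (nat_lit 224) (nat_lit 127)) (PT.lf (nat_lit 8740) (nat_lit 6) (nat_lit 115) (nat_lit 2) (nat_lit 220) (nat_lit 224) (nat_lit 126))) (PT.nd (nat_lit 78) (PT.lf (nat_lit 8436) (nat_lit 6) (nat_lit 111) (nat_lit 2) (nat_lit 221) (nat_lit 224) (nat_lit 125)) (PT.lf (nat_lit 8132) (nat_lit 6) (nat_lit 107) (nat_lit 2) (nat_lit 222) (nat_lit 224) (nat_lit 124)))) (PT.nd (nat_lit 156) (PT.nd (nat_lit 78) (PT.lf (nat_lit 7828) (nat_lit 6) (nat_lit 103) (nat_lit 2) (nat_lit 223) (nat_lit 224) (nat_lit 123)) (PT.lf (nat_lit 7524) (nat_lit 3) (nat_lit 99) (nat_lit 0) (nat_lit 224) (nat_lit 224) (nat_lit 122))) (PT.nd (nat_lit 78) (PT.lf (nat_lit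 7220) (nat_lit 6) (nat_lit 95) (nat_lit 0) (nat_lit 225) (nat_lit 224) (nat_lit 121)) (PT.lf (nat_lit 6840) (nat_lit 6) (nat_lit 90) (nat_lit 0) (nat_lit 226) (nat_lit 224) (nat_lit 120))))) (PT.nd (nat_lit 50622) (PT.nd (nat_lit 156) (PT.nd (nat_lit 78) (PT.lf (nat_lit 6536) (nat_lit 6) (nat_lit 86) (nat_lit 0) (nat_lit 227) (nat_lit 224) (nat_lit 119)) (PT.lf (nat_lit 6156) (nat_lit 6) (nat_lit 81) (nat_lit 0) (nat_lit 228) (nat_lit 224) (nat_lit 118))) (PT.nd (nat_lit 78) (PT.lf (nat_lit 5852) (nat_lit 6) (nat_lit 77) (nat_lit 0) (nat_lit 229) (nat_lit 224) (nat_lit 117)) (PT.lf (nat_lit 5548) (nat_lit 6) (nat_lit 73) (nat_lit 0) (nat_lit 230) (nat_lit 224) (nat_lit 116)))) (PT.nd (nat_lit 156) (PT.nd (nat_lit 78) (PT.lf (nat_lit 5320) (nat_lit 6) (nat_lit 70) (nat_lit 5) (nat_lit 115) (nat_lit 225) (nat_lit 230)) (PT.lf (nat_lit 5624) (nat_lit 6) (nat_lit 74) (nat_lit 5) (nat_lit 116) (nat_lit 225) (nat_lit 229))) (PT.nd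 (nat_lit 78) (PT.lf (nat_lit 5928) (nat_lit 6) (nat_lit 78) (nat_lit 5) (nat_lit 117) (nat_lit 225) (nat_lit 228)) (PT.lf (nat_lit 6232) (nat_lit 6) (nat_lit 82) (nat_lit 5) (nat_lit 118) (nat_lit 225) (nat_lit 227)))))))
noncomputable def pc67 : PT := (PT.nd (nat_lit 7956) (PT.nd (nat_lit 624) (PT.nd (nat_lit 312) (PT.nd (nat_lit 156) (PT.nd (nat_lit 78) (PT.lf (nat_lit 6612) (nat_lit 6) (nat_lit 87) (nat_lit 5) (nat_lit 119) (nat_lit 225) (nat_lit 226)) (PT.lf (nat_lit 6916) (nat_lit 3) (nat_lit 91) (nat_lit 4) (nat_lit 120) (nat_lit 225) (nat_lit 225))) (PT.nd (nat_lit 78) (PT.lf (nat_lit 7220) (nat_lit 6) (nat_lit 95) (nat_lit 4) (nat_lit 121) (nat_lit 225) (nat_lit 224)) (PT.lf (nat_lit 7448) (nat_lit 6) (nat_lit 98) (nat_lit 4) (nat_lit 122) (nat_lit 225) (nat_lit 223)))) (PT.nd (nat_lit 156) (PT.nd (nat_lit 78) (PT.lf (nat_lit 7752) (nat_lit 6) (nat_lit 102) (nat_lit 4) (nat_lit 123) (nat_lit 225) (nat_lit 222)) (PT.lf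 (nat_lit 8056) (nat_lit 6) (nat_lit 106) (nat_lit 4) (nat_lit 124) (nat_lit 225) (nat_lit 221))) (PT.nd (nat_lit 78) (PT.lf (nat_lit 8360) (nat_lit 6) (nat_lit 110) (nat_lit 4) (nat_lit 125) (nat_lit 225) (nat_lit 220)) (PT.lf (nat_lit 8664) (nat_lit 6) (nat_lit 114) (nat_lit 4) (nat_lit 126) (nat_lit 225) (nat_lit 219))))) (PT.nd (nat_lit 7020) (PT.nd (nat_lit 156) (PT.nd (nat_lit 78) (PT.lf (nat_lit 8968) (nat_lit 6) (nat_lit 118) (nat_lit 4) (nat_lit 127) (nat_lit 225) (nat_lit 218)) (PT.lf (nat_lit 9272) (nat_lit 6) (nat_lit 122) (nat_lit 4) (nat_lit 128) (nat_lit 225) (nat_lit 217))) (PT.nd (nat_lit 6786) (PT.lf (nat_lit 9652) (nat_lit 6) (nat_lit 127) (nat_lit 4) (nat_lit 129) (nat_lit 225) (nat_lit 216)) (PT.lf (nat_lit 9652) (nat_lit 6) (nat_lit 127) (nat_lit 2) (nat_lit 216) (nat_lit 225) (nat_lit 129)))) (PT.nd (nat_lit 156) (PT.nd (nat_lit 78) (PT.lf (nat_lit 9272) (nat_lit 6) (nat_lit 122) (nat_lit 2) (nat_lit 217)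 (nat_lit 225) (nat_lit 128)) (PT.lf (nat_lit 8968) (nat_lit 6) (nat_lit 118) (nat_lit 2) (nat_lit 218) (nat_lit 225) (nat_lit 127))) (PT.nd (nat_lit 78) (PT.lf (nat_lit 8664) (nat_lit 6) (nat_lit 114) (nat_lit 2) (nat_lit 219) (nat_lit 225) (nat_lit 126)) (PT.lf (nat_lit 8360) (nat_lit 6) (nat_lit 110) (nat_lit 2) (nat_lit 220) (nat_lit 225) (nat_lit 125)))))) (PT.nd (nat_lit 624) (PT.nd (nat_lit 312) (PT.nd (nat_lit 156) (PT.nd (nat_lit 78) (PT.lf (nat_lit 8056) (nat_lit 6) (nat_lit 106) (nat_lit 2) (nat_lit 221) (nat_lit 225) (nat_lit 124)) (PT.lf (nat_lit 7752) (nat_lit 6) (nat_lit 102) (nat_lit 2) (nat_lit 222) (nat_lit 225) (nat_lit 123))) (PT.nd (nat_lit 78) (PT.lf (nat_lit 7448) (nat_lit 6) (nat_lit 98) (nat_lit 2) (nat_lit 223) (nat_lit 225) (nat_lit 122)) (PT.lf (nat_lit 7220) (nat_lit 6) (nat_lit 95) (nat_lit 2) (nat_lit 224) (nat_lit 225) (nat_lit 121)))) (PT.nd (nat_lit 156) (PT.nd (nat_lit 78) (PT.lf (nat_lit 6916)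 (nat_lit 3) (nat_lit 91) (nat_lit 0) (nat_lit 225) (nat_lit 225) (nat_lit 120)) (PT.lf (nat_lit 6612) (nat_lit 6) (nat_lit 87) (nat_lit 0) (nat_lit 226) (nat_lit 225) (nat_lit 119))) (PT.nd (nat_lit 78) (PT.lf (nat_lit 6232) (nat_lit 6) (nat_lit 82) (nat_lit 0) (nat_lit 227) (nat_lit 225) (nat_lit 118)) (PT.lf (nat_lit 5928) (nat_lit 6) (nat_lit 78) (nat_lit 0) (nat_lit 228) (nat_lit 225) (nat_lit 117))))) (PT.nd (nat_lit 50466) (PT.nd (nat_lit 50310) (PT.nd (nat_lit 78) (PT.lf (nat_lit 5624) (nat_lit 6) (nat_lit 74) (nat_lit 0) (nat_lit 229) (nat_lit 225) (nat_lit 116)) (PT.lf (nat_lit 5320) (nat_lit 6) (nat_lit 70) (nat_lit 0) (nat_lit 230) (nat_lit 225) (nat_lit 115))) (PT.nd (nat_lit 78) (PT.lf (nat_lit 4788) (nat_lit 6) (nat_lit 63) (nat_lit 5) (nat_lit 113) (nat_lit 226) (nat_lit 231)) (PT.lf (nat_lit 5092) (nat_lit 6) (nat_lit 67) (nat_lit 5) (nat_lit 114) (nat_lit 226) (nat_lit 230)))) (PT.nd (nat_lit 156) (PT.nd (nat_lit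 78) (PT.lf (nat_lit 5396) (nat_lit 6) (nat_lit 71) (nat_lit 5) (nat_lit 115) (nat_lit 226) (nat_lit 229)) (PT.lf (nat_lit 5700) (nat_lit 6) (nat_lit 75) (nat_lit 5) (nat_lit 116) (nat_lit 226) (nat_lit 228))) (PT.nd (nat_lit 78) (PT.lf (nat_lit 6004) (nat_lit 6) (nat_lit 79) (nat_lit 5) (nat_lit 117) (nat_lit 226) (nat_lit 227)) (PT.nd (nat_lit 78) (PT.lf (nat_lit 6308) (nat_lit 3) (nat_lit 83) (nat_lit 4) (nat_lit 118) (nat_lit 226) (nat_lit 226)) (PT.lf (nat_lit 6612) (nat_lit 6) (nat_lit 87) (nat_lit 4) (nat_lit 119) (nat_lit 226) (nat_lit 225))))))))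
noncomputable def pc68 : PT := (PT.nd (nat_lit 59514) (PT.nd (nat_lit 8346) (PT.nd (nat_lit 7722) (PT.nd (nat_lit 312) (PT.nd (nat_lit 156) (PT.nd (nat_lit 78) (PT.lf (nat_lit 6840) (nat_lit 6) (nat_lit 90) (nat_lit 4) (nat_lit 120) (nat_lit 226) (nat_lit 224)) (PT.lf (nat_lit 7144) (nat_lit 6) (nat_lit 94) (nat_lit 4) (nat_lit 121) (nat_lit 226) (nat_lit 223))) (PT.nd (nat_lit 78) (PT.lf (nat_lit 7372) (nat_lit 6) (nat_lit 97) (nat_lit 4) (nat_lit 122) (nat_lit 226) (nat_lit 222)) (PT.lf (nat_lit 7676) (nat_lit 6) (nat_lit 101) (nat_lit 4) (nat_lit 123) (nat_lit 226) (nat_lit 221)))) (PT.nd (nat_lit 156) (PT.nd (nat_lit 78) (PT.lf (nat_lit 7980) (nat_lit 6) (nat_lit 105) (nat_lit 4) (nat_lit 124) (nat_lit 226) (nat_lit 220)) (PT.lf (nat_lit 8284) (nat_lit 6) (nat_lit 109) (nat_lit 4) (nat_lit 125) (nat_lit 226) (nat_lit 219))) (PT.nd (nat_lit 7176) (PT.lf (nat_lit 8588) (nat_lit 6) (nat_lit 113) (nat_lit 4) (nat_lit 126) (nat_lit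 226) (nat_lit 218)) (PT.lf (nat_lit 8588) (nat_lit 6) (nat_lit 113) (nat_lit 2) (nat_lit 218) (nat_lit 226) (nat_lit 126))))) (PT.nd (nat_lit 312) (PT.nd (nat_lit 156) (PT.nd (nat_lit 78) (PT.lf (nat_lit 8284) (nat_lit 6) (nat_lit 109) (nat_lit 2) (nat_lit 219) (nat_lit 226) (nat_lit 125)) (PT.lf (nat_lit 7980) (nat_lit 6) (nat_lit 105) (nat_lit 2) (nat_lit 220) (nat_lit 226) (nat_lit 124))) (PT.nd (nat_lit 78) (PT.lf (nat_lit 7676) (nat_lit 6) (nat_lit 101) (nat_lit 2) (nat_lit 221) (nat_lit 226) (nat_lit 123)) (PT.lf (nat_lit 7372) (nat_lit 6) (nat_lit 97) (nat_lit 2) (nat_lit 222) (nat_lit 226) (nat_lit 122)))) (PT.nd (nat_lit 156) (PT.nd (nat_lit 78) (PT.lf (nat_lit 7144) (nat_lit 6) (nat_lit 94) (nat_lit 2) (nat_lit 223) (nat_lit 226) (nat_lit 121)) (PT.lf (nat_lit 6840) (nat_lit 6) (nat_lit 90) (nat_lit 2) (nat_lit 224) (nat_lit 226) (nat_lit 120))) (PT.nd (nat_lit 78) (PT.lf (nat_lit 6612) (nat_lit 6) (nat_lit 87) (nat_lit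 2) (nat_lit 225) (nat_lit 226) (nat_lit 119)) (PT.lf (nat_lit 6308) (nat_lit 3) (nat_lit 83) (nat_lit 0) (nat_lit 226) (nat_lit 226) (nat_lit 118)))))) (PT.nd (nat_lit 50544) (PT.nd (nat_lit 312) (PT.nd (nat_lit 156) (PT.nd (nat_lit 78) (PT.lf (nat_lit 6004) (nat_lit 6) (nat_lit 79) (nat_lit 0) (nat_lit 227) (nat_lit 226) (nat_lit 117)) (PT.lf (nat_lit 5700) (nat_lit 6) (nat_lit 75) (nat_lit 0) (nat_lit 228) (nat_lit 226) (nat_lit 116))) (PT.nd (nat_lit 78) (PT.lf (nat_lit 5396) (nat_lit 6) (nat_lit 71) (nat_lit 0) (nat_lit 229) (nat_lit 226) (nat_lit 115)) (PT.lf (nat_lit 5092) (nat_lit 6) (nat_lit 67) (nat_lit 0) (nat_lit 230) (nat_lit 226) (nat_lit 114)))) (PT.nd (nat_lit 50076) (PT.nd (nat_lit 49998) (PT.lf (nat_lit 4788) (nat_lit 6) (nat_lit 63) (nat_lit 0) (nat_lit 231) (nat_lit 226) (nat_lit 113)) (PT.lf (nat_lit 4332) (nat_lit 6) (nat_lit 57) (nat_lit 5) (nat_lit 111) (nat_lit 227) (nat_lit 232))) (PT.nd (nat_lit 78)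 (PT.lf (nat_lit 4560) (nat_lit 6) (nat_lit 60) (nat_lit 5) (nat_lit 112) (nat_lit 227) (nat_lit 231)) (PT.lf (nat_lit 4864) (nat_lit 6) (nat_lit 64) (nat_lit 5) (nat_lit 113) (nat_lit 227) (nat_lit 230))))) (PT.nd (nat_lit 312) (PT.nd (nat_lit 156) (PT.nd (nat_lit 78) (PT.lf (nat_lit 5168) (nat_lit 6) (nat_lit 68) (nat_lit 5) (nat_lit 114) (nat_lit 227) (nat_lit 229)) (PT.lf (nat_lit 5472) (nat_lit 6) (nat_lit 72) (nat_lit 5) (nat_lit 115) (nat_lit 227) (nat_lit 228))) (PT.nd (nat_lit 78) (PT.lf (nat_lit 5776) (nat_lit 3) (nat_lit 76) (nat_lit 4) (nat_lit 116) (nat_lit 227) (nat_lit 227)) (PT.lf (nat_lit 6004) (nat_lit 6) (nat_lit 79) (nat_lit 4) (nat_lit 117) (nat_lit 227) (nat_lit 226)))) (PT.nd (nat_lit 156) (PT.nd (nat_lit 78) (PT.lf (nat_lit 6232) (nat_lit 6) (nat_lit 82) (nat_lit 4) (nat_lit 118) (nat_lit 227) (nat_lit 225)) (PT.lf (nat_lit 6536) (nat_lit 6) (nat_lit 86) (nat_lit 4) (nat_lit 119) (nat_lit 227) (nat_lit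 224))) (PT.nd (nat_lit 78) (PT.lf (nat_lit 6764) (nat_lit 6) (nat_lit 89) (nat_lit 4) (nat_lit 120) (nat_lit 227) (nat_lit 223)) (PT.lf (nat_lit 7068) (nat_lit 6) (nat_lit 93) (nat_lit 4) (nat_lit 121) (nat_lit 227) (nat_lit 222))))))) (PT.nd (nat_lit 58500) (PT.nd (nat_lit 8112) (PT.nd (nat_lit 7800) (PT.nd (nat_lit 7644) (PT.nd (nat_lit 78) (PT.lf (nat_lit 7296) (nat_lit 6) (nat_lit 96) (nat_lit 4) (nat_lit 122) (nat_lit 227) (nat_lit 221)) (PT.lf (nat_lit 7600) (nat_lit 6) (nat_lit 100) (nat_lit 4) (nat_lit 123) (nat_lit 227) (nat_lit 220))) (PT.nd (nat_lit 78) (PT.lf (nat_lit 7600) (nat_lit 6) (nat_lit 100) (nat_lit 2) (nat_lit 220) (nat_lit 227) (nat_lit 123)) (PT.lf (nat_lit 7296) (nat_lit 6) (nat_lit 96) (nat_lit 2) (nat_lit 221) (nat_lit 227) (nat_lit 122)))) (PT.nd (nat_lit 156) (PT.nd (nat_lit 78) (PT.lf (nat_lit 7068) (nat_lit 6) (nat_lit 93) (nat_lit 2) (nat_lit 222) (nat_lit 227) (nat_lit 121)) (PT.lf (nat_lit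 6764) (nat_lit 6) (nat_lit 89) (nat_lit 2) (nat_lit 223) (nat_lit 227) (nat_lit 120))) (PT.nd (nat_lit 78) (PT.lf (nat_lit 6536) (nat_lit 6) (nat_lit 86) (nat_lit 2) (nat_lit 224) (nat_lit 227) (nat_lit 119)) (PT.lf (nat_lit 6232) (nat_lit 6) (nat_lit 82) (nat_lit 2) (nat_lit 225) (nat_lit 227) (nat_lit 118))))) (PT.nd (nat_lit 312) (PT.nd (nat_lit 156) (PT.nd (nat_lit 78) (PT.lf (nat_lit 6004) (nat_lit 6) (nat_lit 79) (nat_lit 2) (nat_lit 226) (nat_lit 227) (nat_lit 117)) (PT.lf (nat_lit 5776) (nat_lit 3) (nat_lit 76) (nat_lit 0) (nat_lit 227) (nat_lit 227) (nat_lit 116))) (PT.nd (nat_lit 78) (PT.lf (nat_lit 5472) (nat_lit 6) (nat_lit 72) (nat_lit 0) (nat_lit 228) (nat_lit 227) (nat_lit 115)) (PT.lf (nat_lit 5168) (nat_lit 6) (nat_lit 68) (nat_lit 0) (nat_lit 229) (nat_lit 227) (nat_lit 114)))) (PT.nd (nat_lit 156) (PT.nd (nat_lit 78) (PT.lf (nat_lit 4864) (nat_lit 6) (nat_lit 64) (nat_lit 0) (nat_lit 230) (nat_lit 227) (nat_lit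 113)) (PT.lf (nat_lit 4560) (nat_lit 6) (nat_lit 60) (nat_lit 0) (nat_lit 231) (nat_lit 227) (nat_lit 112))) (PT.nd (nat_lit 49842) (PT.lf (nat_lit 4332) (nat_lit 6) (nat_lit 57) (nat_lit 0) (nat_lit 232) (nat_lit 227) (nat_lit 111)) (PT.lf (nat_lit 4104) (nat_lit 6) (nat_lit 54) (nat_lit 5) (nat_lit 110) (nat_lit 228) (nat_lit 232)))))) (PT.nd (nat_lit 624) (PT.nd (nat_lit 312) (PT.nd (nat_lit 156) (PT.nd (nat_lit 78) (PT.lf (nat_lit 4408) (nat_lit 6) (nat_lit 58) (nat_lit 5) (nat_lit 111) (nat_lit 228) (nat_lit 231)) (PT.lf (nat_lit 4636) (nat_lit 6) (nat_lit 61) (nat_lit 5) (nat_lit 112) (nat_lit 228) (nat_lit 230))) (PT.nd (nat_lit 78) (PT.lf (nat_lit 4940) (nat_lit 6) (nat_lit 65) (nat_lit 5) (nat_lit 113) (nat_lit 228) (nat_lit 229)) (PT.lf (nat_lit 5244) (nat_lit 3) (nat_lit 69) (nat_lit 4) (nat_lit 114) (nat_lit 228) (nat_lit 228)))) (PT.nd (nat_lit 156) (PT.nd (nat_lit 78) (PT.lf (nat_lit 5472) (nat_lit 6) (nat_lit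 72) (nat_lit 4) (nat_lit 115) (nat_lit 228) (nat_lit 227)) (PT.lf (nat_lit 5700) (nat_lit 6) (nat_lit 75) (nat_lit 4) (nat_lit 116) (nat_lit 228) (nat_lit 226))) (PT.nd (nat_lit 78) (PT.lf (nat_lit 5928) (nat_lit 6) (nat_lit 78) (nat_lit 4) (nat_lit 117) (nat_lit 228) (nat_lit 225)) (PT.lf (nat_lit 6156) (nat_lit 6) (nat_lit 81) (nat_lit 4) (nat_lit 118) (nat_lit 228) (nat_lit 224))))) (PT.nd (nat_lit 8034) (PT.nd (nat_lit 156) (PT.nd (nat_lit 78) (PT.lf (nat_lit 6460) (nat_lit 6) (nat_lit 85) (nat_lit 4) (nat_lit 119) (nat_lit 228) (nat_lit 223)) (PT.lf (nat_lit 6688) (nat_lit 6) (nat_lit 88) (nat_lit 4) (nat_lit 120) (nat_lit 228) (nat_lit 222))) (PT.nd (nat_lit 7800) (PT.lf (nat_lit 6992) (nat_lit 6) (nat_lit 92) (nat_lit 4) (nat_lit 121) (nat_lit 228) (nat_lit 221)) (PT.lf (nat_lit 6992) (nat_lit 6) (nat_lit 92) (nat_lit 2) (nat_lit 221) (nat_lit 228) (nat_lit 121)))) (PT.nd (nat_lit 156) (PT.nd (nat_lit 78) (PT.lf (nat_lit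 6688) (nat_lit 6) (nat_lit 88) (nat_lit 2) (nat_lit 222) (nat_lit 228) (nat_lit 120)) (PT.lf (nat_lit 6460) (nat_lit 6) (nat_lit 85) (nat_lit 2) (nat_lit 223) (nat_lit 228) (nat_lit 119))) (PT.nd (nat_lit 78) (PT.lf (nat_lit 6156) (nat_lit 6) (nat_lit 81) (nat_lit 2) (nat_lit 224) (nat_lit 228) (nat_lit 118)) (PT.lf (nat_lit 5928) (nat_lit 6) (nat_lit 78) (nat_lit 2) (nat_lit 225) (nat_lit 228) (nat_lit 117))))))))
noncomputable def pc69 : PT := (PT.nd (nat_lit 109590) (PT.nd (nat_lit 50856) (PT.nd (nat_lit 50232) (PT.nd (nat_lit 312) (PT.nd (nat_lit 156) (PT.nd (nat_lit 78) (PT.lf (nat_lit 5700) (nat_lit 6) (nat_lit 75) (nat_lit 2) (nat_lit 226) (nat_lit 228) (nat_lit 116)) (PT.lf (nat_lit 5472) (nat_lit 6) (nat_lit 72) (nat_lit 2) (nat_lit 227) (nat_lit 228) (nat_lit 115))) (PT.nd (nat_lit 78) (PT.lf (nat_lit 5244) (nat_lit 3) (nat_lit 69) (nat_lit 0) (nat_lit 228) (nat_lit 228) (nat_lit 114)) (PT.lf (nat_lit 4940) (nat_lit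 6) (nat_lit 65) (nat_lit 0) (nat_lit 229) (nat_lit 228) (nat_lit 113)))) (PT.nd (nat_lit 156) (PT.nd (nat_lit 78) (PT.lf (nat_lit 4636) (nat_lit 6) (nat_lit 61) (nat_lit 0) (nat_lit 230) (nat_lit 228) (nat_lit 112)) (PT.lf (nat_lit 4408) (nat_lit 6) (nat_lit 58) (nat_lit 0) (nat_lit 231) (nat_lit 228) (nat_lit 111))) (PT.nd (nat_lit 49686) (PT.lf (nat_lit 4104) (nat_lit 6) (nat_lit 54) (nat_lit 0) (nat_lit 232) (nat_lit 228) (nat_lit 110)) (PT.lf (nat_lit 3648) (nat_lit 6) (nat_lit 48) (nat_lit 5) (nat_lit 108) (nat_lit 229) (nat_lit 233))))) (PT.nd (nat_lit 312) (PT.nd (nat_lit 156) (PT.nd (nat_lit 78) (PT.lf (nat_lit 3952) (nat_lit 6) (nat_lit 52) (nat_lit 5) (nat_lit 109) (nat_lit 229) (nat_lit 232)) (PT.lf (nat_lit 4180) (nat_lit 6) (nat_lit 55) (nat_lit 5) (nat_lit 110) (nat_lit 229) (nat_lit 231))) (PT.nd (nat_lit 78) (PT.lf (nat_lit 4484) (nat_lit 6) (nat_lit 59) (nat_lit 5) (nat_lit 111) (nat_lit 229) (nat_lit 230))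 (PT.lf (nat_lit 4712) (nat_lit 3) (nat_lit 62) (nat_lit 4) (nat_lit 112) (nat_lit 229) (nat_lit 229)))) (PT.nd (nat_lit 156) (PT.nd (nat_lit 78) (PT.lf (nat_lit 4940) (nat_lit 6) (nat_lit 65) (nat_lit 4) (nat_lit 113) (nat_lit 229) (nat_lit 228)) (PT.lf (nat_lit 5168) (nat_lit 6) (nat_lit 68) (nat_lit 4) (nat_lit 114) (nat_lit 229) (nat_lit 227))) (PT.nd (nat_lit 78) (PT.lf (nat_lit 5396) (nat_lit 6) (nat_lit 71) (nat_lit 4) (nat_lit 115) (nat_lit 229) (nat_lit 226)) (PT.lf (nat_lit 5624) (nat_lit 6) (nat_lit 74) (nat_lit 4) (nat_lit 116) (nat_lit 229) (nat_lit 225)))))) (PT.nd (nat_lit 8736) (PT.nd (nat_lit 8424) (PT.nd (nat_lit 8268) (PT.nd (nat_lit 78) (PT.lf (nat_lit 5852) (nat_lit 6) (nat_lit 77) (nat_lit 4) (nat_lit 117) (nat_lit 229) (nat_lit 224)) (PT.lf (nat_lit 6080) (nat_lit 6) (nat_lit 80) (nat_lit 4) (nat_lit 118) (nat_lit 229) (nat_lit 223))) (PT.nd (nat_lit 78) (PT.lf (nat_lit 6080) (nat_lit 6) (nat_lit 80) (nat_lit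 2) (nat_lit 223) (nat_lit 229) (nat_lit 118)) (PT.lf (nat_lit 5852) (nat_lit 6) (nat_lit 77) (nat_lit 2) (nat_lit 224) (nat_lit 229) (nat_lit 117)))) (PT.nd (nat_lit 156) (PT.nd (nat_lit 78) (PT.lf (nat_lit 5624) (nat_lit 6) (nat_lit 74) (nat_lit 2) (nat_lit 225) (nat_lit 229) (nat_lit 116)) (PT.lf (nat_lit 5396) (nat_lit 6) (nat_lit 71) (nat_lit 2) (nat_lit 226) (nat_lit 229) (nat_lit 115))) (PT.nd (nat_lit 78) (PT.lf (nat_lit 5168) (nat_lit 6) (nat_lit 68) (nat_lit 2) (nat_lit 227) (nat_lit 229) (nat_lit 114)) (PT.lf (nat_lit 4940) (nat_lit 6) (nat_lit 65) (nat_lit 2) (nat_lit 228) (nat_lit 229) (nat_lit 113))))) (PT.nd (nat_lit 312) (PT.nd (nat_lit 156) (PT.nd (nat_lit 78) (PT.lf (nat_lit 4712) (nat_lit 3) (nat_lit 62) (nat_lit 0) (nat_lit 229) (nat_lit 229) (nat_lit 112)) (PT.lf (nat_lit 4484) (nat_lit 6) (nat_lit 59) (nat_lit 0) (nat_lit 230) (nat_lit 229) (nat_lit 111))) (PT.nd (nat_lit 78) (PT.lf (nat_lit 4180) (nat_lit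 6) (nat_lit 55) (nat_lit 0) (nat_lit 231) (nat_lit 229) (nat_lit 110)) (PT.lf (nat_lit 3952) (nat_lit 6) (nat_lit 52) (nat_lit 0) (nat_lit 232) (nat_lit 229) (nat_lit 109)))) (PT.nd (nat_lit 49530) (PT.nd (nat_lit 49452) (PT.lf (nat_lit 3648) (nat_lit 6) (nat_lit 48) (nat_lit 0) (nat_lit 233) (nat_lit 229) (nat_lit 108)) (PT.lf (nat_lit 3192) (nat_lit 6) (nat_lit 42) (nat_lit 5) (nat_lit 106) (nat_lit 230) (nat_lit 234))) (PT.nd (nat_lit 78) (PT.lf (nat_lit 3496) (nat_lit 6) (nat_lit 46) (nat_lit 5) (nat_lit 107) (nat_lit 230) (nat_lit 233)) (PT.lf (nat_lit 3724) (nat_lit 6) (nat_lit 49) (nat_lit 5) (nat_lit 108) (nat_lit 230) (nat_lit 232))))))) (PT.nd (nat_lit 9594) (PT.nd (nat_lit 8970) (PT.nd (nat_lit 312) (PT.nd (nat_lit 156) (PT.nd (nat_lit 78) (PT.lf (nat_lit 4028) (nat_lit 6) (nat_lit 53) (nat_lit 5) (nat_lit 109) (nat_lit 230) (nat_lit 231)) (PT.lf (nat_lit 4256) (nat_lit 3) (nat_lit 56) (nat_lit 4) (nat_lit 110) (nat_lit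 230) (nat_lit 230))) (PT.nd (nat_lit 78) (PT.lf (nat_lit 4484) (nat_lit 6) (nat_lit 59) (nat_lit 4) (nat_lit 111) (nat_lit 230) (nat_lit 229)) (PT.lf (nat_lit 4636) (nat_lit 6) (nat_lit 61) (nat_lit 4) (nat_lit 112) (nat_lit 230) (nat_lit 228)))) (PT.nd (nat_lit 156) (PT.nd (nat_lit 78) (PT.lf (nat_lit 4864) (nat_lit 6) (nat_lit 64) (nat_lit 4) (nat_lit 113) (nat_lit 230) (nat_lit 227)) (PT.lf (nat_lit 5092) (nat_lit 6) (nat_lit 67) (nat_lit 4) (nat_lit 114) (nat_lit 230) (nat_lit 226))) (PT.nd (nat_lit 78) (PT.lf (nat_lit 5320) (nat_lit 6) (nat_lit 70) (nat_lit 4) (nat_lit 115) (nat_lit 230) (nat_lit 225)) (PT.lf (nat_lit 5548) (nat_lit 6) (nat_lit 73) (nat_lit 4) (nat_lit 116) (nat_lit 230) (nat_lit 224))))) (PT.nd (nat_lit 312) (PT.nd (nat_lit 156) (PT.nd (nat_lit 78) (PT.lf (nat_lit 5548) (nat_lit 6) (nat_lit 73) (nat_lit 2) (nat_lit 224) (nat_lit 230) (nat_lit 116)) (PT.lf (nat_lit 5320) (nat_lit 6) (nat_lit 70) (nat_lit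 2) (nat_lit 225) (nat_lit 230) (nat_lit 115))) (PT.nd (nat_lit 78) (PT.lf (nat_lit 5092) (nat_lit 6) (nat_lit 67) (nat_lit 2) (nat_lit 226) (nat_lit 230) (nat_lit 114)) (PT.lf (nat_lit 4864) (nat_lit 6) (nat_lit 64) (nat_lit 2) (nat_lit 227) (nat_lit 230) (nat_lit 113)))) (PT.nd (nat_lit 156) (PT.nd (nat_lit 78) (PT.lf (nat_lit 4636) (nat_lit 6) (nat_lit 61) (nat_lit 2) (nat_lit 228) (nat_lit 230) (nat_lit 112)) (PT.lf (nat_lit 4484) (nat_lit 6) (nat_lit 59) (nat_lit 2) (nat_lit 229) (nat_lit 230) (nat_lit 111))) (PT.nd (nat_lit 78) (PT.lf (nat_lit 4256) (nat_lit 3) (nat_lit 56) (nat_lit 0) (nat_lit 230) (nat_lit 230) (nat_lit 110)) (PT.lf (nat_lit 4028) (nat_lit 6) (nat_lit 53) (nat_lit 0) (nat_lit 231) (nat_lit 230) (nat_lit 109)))))) (PT.nd (nat_lit 49764) (PT.nd (nat_lit 49452) (PT.nd (nat_lit 156) (PT.nd (nat_lit 78) (PT.lf (nat_lit 3724) (nat_lit 6) (nat_lit 49) (nat_lit 0) (nat_lit 232) (nat_lit 230) (nat_lit 108)) (PT.lf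 (nat_lit 3496) (nat_lit 6) (nat_lit 46) (nat_lit 0) (nat_lit 233) (nat_lit 230) (nat_lit 107))) (PT.nd (nat_lit 49218) (PT.lf (nat_lit 3192) (nat_lit 6) (nat_lit 42) (nat_lit 0) (nat_lit 234) (nat_lit 230) (nat_lit 106)) (PT.lf (nat_lit 2812) (nat_lit 6) (nat_lit 37) (nat_lit 5) (nat_lit 104) (nat_lit 231) (nat_lit 235)))) (PT.nd (nat_lit 156) (PT.nd (nat_lit 78) (PT.lf (nat_lit 3040) (nat_lit 6) (nat_lit 40) (nat_lit 5) (nat_lit 105) (nat_lit 231) (nat_lit 234)) (PT.lf (nat_lit 3268) (nat_lit 6) (nat_lit 43) (nat_lit 5) (nat_lit 106) (nat_lit 231) (nat_lit 233))) (PT.nd (nat_lit 78) (PT.lf (nat_lit 3572) (nat_lit 6) (nat_lit 47) (nat_lit 5) (nat_lit 107) (nat_lit 231) (nat_lit 232)) (PT.lf (nat_lit 3800) (nat_lit 3) (nat_lit 50) (nat_lit 4) (nat_lit 108) (nat_lit 231) (nat_lit 231))))) (PT.nd (nat_lit 312) (PT.nd (nat_lit 156) (PT.nd (nat_lit 78) (PT.lf (nat_lit 4028) (nat_lit 6) (nat_lit 53) (nat_lit 4) (nat_lit 109) (nat_lit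 231) (nat_lit 230)) (PT.lf (nat_lit 4180) (nat_lit 6) (nat_lit 55) (nat_lit 4) (nat_lit 110) (nat_lit 231) (nat_lit 229))) (PT.nd (nat_lit 78) (PT.lf (nat_lit 4408) (nat_lit 6) (nat_lit 58) (nat_lit 4) (nat_lit 111) (nat_lit 231) (nat_lit 228)) (PT.lf (nat_lit 4560) (nat_lit 6) (nat_lit 60) (nat_lit 4) (nat_lit 112) (nat_lit 231) (nat_lit 227)))) (PT.nd (nat_lit 8892) (PT.nd (nat_lit 8814) (PT.lf (nat_lit 4788) (nat_lit 6) (nat_lit 63) (nat_lit 4) (nat_lit 113) (nat_lit 231) (nat_lit 226)) (PT.lf (nat_lit 4788) (nat_lit 6) (nat_lit 63) (nat_lit 2) (nat_lit 226) (nat_lit 231) (nat_lit 113))) (PT.nd (nat_lit 78) (PT.lf (nat_lit 4560) (nat_lit 6) (nat_lit 60) (nat_lit 2) (nat_lit 227) (nat_lit 231) (nat_lit 112)) (PT.lf (nat_lit 4408) (nat_lit 6) (nat_lit 58) (nat_lit 2) (nat_lit 228) (nat_lit 231) (nat_lit 111))))))))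
noncomputable def pc70 : PT := (PT.nd (nat_lit 109278) (PT.nd (nat_lit 59202) (PT.nd (nat_lit 49608) (PT.nd (nat_lit 312) (PT.nd (nat_lit 156) (PT.nd (nat_lit 78) (PT.lf (nat_lit 4180) (nat_lit 6) (nat_lit 55) (nat_lit 2) (nat_lit 229) (nat_lit 231) (nat_lit 110)) (PT.lf (nat_lit 4028) (nat_lit 6) (nat_lit 53) (nat_lit 2) (nat_lit 230) (nat_lit 231) (nat_lit 109))) (PT.nd (nat_lit 78) (PT.lf (nat_lit 3800) (nat_lit 3) (nat_lit 50) (nat_lit 0) (nat_lit 231) (nat_lit 231) (nat_lit 108)) (PT.lf (nat_lit 3572) (nat_lit 6) (nat_lit 47) (nat_lit 0) (nat_lit 232) (nat_lit 231) (nat_lit 107)))) (PT.nd (nat_lit 156) (PT.nd (nat_lit 78) (PT.lf (nat_lit 3268) (nat_lit 6) (nat_lit 43) (nat_lit 0) (nat_lit 233) (nat_lit 231) (nat_lit 106)) (PT.lf (nat_lit 3040) (nat_lit 6) (nat_lit 40) (nat_lit 0) (nat_lit 234) (nat_lit 231) (nat_lit 105))) (PT.nd (nat_lit 49062) (PT.lf (nat_lit 2812) (nat_lit 6) (nat_lit 37) (nat_lit 0) (nat_lit 235) (nat_lit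 231) (nat_lit 104)) (PT.lf (nat_lit 2660) (nat_lit 6) (nat_lit 35) (nat_lit 5) (nat_lit 103) (nat_lit 232) (nat_lit 235))))) (PT.nd (nat_lit 312) (PT.nd (nat_lit 156) (PT.nd (nat_lit 78) (PT.lf (nat_lit 2888) (nat_lit 6) (nat_lit 38) (nat_lit 5) (nat_lit 104) (nat_lit 232) (nat_lit 234)) (PT.lf (nat_lit 3116) (nat_lit 6) (nat_lit 41) (nat_lit 5) (nat_lit 105) (nat_lit 232) (nat_lit 233))) (PT.nd (nat_lit 78) (PT.lf (nat_lit 3344) (nat_lit 3) (nat_lit 44) (nat_lit 4) (nat_lit 106) (nat_lit 232) (nat_lit 232)) (PT.lf (nat_lit 3572) (nat_lit 6) (nat_lit 47) (nat_lit 4) (nat_lit 107) (nat_lit 232) (nat_lit 231)))) (PT.nd (nat_lit 156) (PT.nd (nat_lit 78) (PT.lf (nat_lit 3724) (nat_lit 6) (nat_lit 49) (nat_lit 4) (nat_lit 108) (nat_lit 232) (nat_lit 230)) (PT.lf (nat_lit 3952) (nat_lit 6) (nat_lit 52) (nat_lit 4) (nat_lit 109) (nat_lit 232) (nat_lit 229))) (PT.nd (nat_lit 78) (PT.lf (nat_lit 4104) (nat_lit 6) (nat_lit 54) (nat_lit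 4) (nat_lit 110) (nat_lit 232) (nat_lit 228)) (PT.lf (nat_lit 4332) (nat_lit 6) (nat_lit 57) (nat_lit 4) (nat_lit 111) (nat_lit 232) (nat_lit 227)))))) (PT.nd (nat_lit 624) (PT.nd (nat_lit 312) (PT.nd (nat_lit 156) (PT.nd (nat_lit 78) (PT.lf (nat_lit 4332) (nat_lit 6) (nat_lit 57) (nat_lit 2) (nat_lit 227) (nat_lit 232) (nat_lit 111)) (PT.lf (nat_lit 4104) (nat_lit 6) (nat_lit 54) (nat_lit 2) (nat_lit 228) (nat_lit 232) (nat_lit 110))) (PT.nd (nat_lit 78) (PT.lf (nat_lit 3952) (nat_lit 6) (nat_lit 52) (nat_lit 2) (nat_lit 229) (nat_lit 232) (nat_lit 109)) (PT.lf (nat_lit 3724) (nat_lit 6) (nat_lit 49) (nat_lit 2) (nat_lit 230) (nat_lit 232) (nat_lit 108)))) (PT.nd (nat_lit 156) (PT.nd (nat_lit 78) (PT.lf (nat_lit 3572) (nat_lit 6) (nat_lit 47) (nat_lit 2) (nat_lit 231) (nat_lit 232) (nat_lit 107)) (PT.lf (nat_lit 3344) (nat_lit 3) (nat_lit 44) (nat_lit 0) (nat_lit 232) (nat_lit 232) (nat_lit 106))) (PT.nd (nat_lit 78) (PT.lf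 (nat_lit 3116) (nat_lit 6) (nat_lit 41) (nat_lit 0) (nat_lit 233) (nat_lit 232) (nat_lit 105)) (PT.lf (nat_lit 2888) (nat_lit 6) (nat_lit 38) (nat_lit 0) (nat_lit 234) (nat_lit 232) (nat_lit 104))))) (PT.nd (nat_lit 49140) (PT.nd (nat_lit 48984) (PT.nd (nat_lit 48906) (PT.lf (nat_lit 2660) (nat_lit 6) (nat_lit 35) (nat_lit 0) (nat_lit 235) (nat_lit 232) (nat_lit 103)) (PT.lf (nat_lit 2280) (nat_lit 6) (nat_lit 30) (nat_lit 5) (nat_lit 101) (nat_lit 233) (nat_lit 236))) (PT.nd (nat_lit 78) (PT.lf (nat_lit 2508) (nat_lit 6) (nat_lit 33) (nat_lit 5) (nat_lit 102) (nat_lit 233) (nat_lit 235)) (PT.lf (nat_lit 2736) (nat_lit 6) (nat_lit 36) (nat_lit 5) (nat_lit 103) (nat_lit 233) (nat_lit 234)))) (PT.nd (nat_lit 156) (PT.nd (nat_lit 78) (PT.lf (nat_lit 2964) (nat_lit 3) (nat_lit 39) (nat_lit 4) (nat_lit 104) (nat_lit 233) (nat_lit 233)) (PT.lf (nat_lit 3116) (nat_lit 6) (nat_lit 41) (nat_lit 4) (nat_lit 105) (nat_lit 233) (nat_lit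 232))) (PT.nd (nat_lit 78) (PT.lf (nat_lit 3268) (nat_lit 6) (nat_lit 43) (nat_lit 4) (nat_lit 106) (nat_lit 233) (nat_lit 231)) (PT.lf (nat_lit 3496) (nat_lit 6) (nat_lit 46) (nat_lit 4) (nat_lit 107) (nat_lit 233) (nat_lit 230))))))) (PT.nd (nat_lit 59202) (PT.nd (nat_lit 9984) (PT.nd (nat_lit 9672) (PT.nd (nat_lit 9516) (PT.nd (nat_lit 9438) (PT.lf (nat_lit 3648) (nat_lit 6) (nat_lit 48) (nat_lit 4) (nat_lit 108) (nat_lit 233) (nat_lit 229)) (PT.lf (nat_lit 3648) (nat_lit 6) (nat_lit 48) (nat_lit 2) (nat_lit 229) (nat_lit 233) (nat_lit 108))) (PT.nd (nat_lit 78) (PT.lf (nat_lit 3496) (nat_lit 6) (nat_lit 46) (nat_lit 2) (nat_lit 230) (nat_lit 233) (nat_lit 107)) (PT.lf (nat_lit 3268) (nat_lit 6) (nat_lit 43) (nat_lit 2) (nat_lit 231) (nat_lit 233) (nat_lit 106)))) (PT.nd (nat_lit 156) (PT.nd (nat_lit 78) (PT.lf (nat_lit 3116) (nat_lit 6) (nat_lit 41) (nat_lit 2) (nat_lit 232) (nat_lit 233) (nat_lit 105)) (PT.lf (nat_lit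 2964) (nat_lit 3) (nat_lit 39) (nat_lit 0) (nat_lit 233) (nat_lit 233) (nat_lit 104))) (PT.nd (nat_lit 78) (PT.lf (nat_lit 2736) (nat_lit 6) (nat_lit 36) (nat_lit 0) (nat_lit 234) (nat_lit 233) (nat_lit 103)) (PT.lf (nat_lit 2508) (nat_lit 6) (nat_lit 33) (nat_lit 0) (nat_lit 235) (nat_lit 233) (nat_lit 102))))) (PT.nd (nat_lit 48906) (PT.nd (nat_lit 48750) (PT.nd (nat_lit 48672) (PT.lf (nat_lit 2280) (nat_lit 6) (nat_lit 30) (nat_lit 0) (nat_lit 236) (nat_lit 233) (nat_lit 101)) (PT.lf (nat_lit 1900) (nat_lit 6) (nat_lit 25) (nat_lit 5) (nat_lit 99) (nat_lit 234) (nat_lit 237))) (PT.nd (nat_lit 78) (PT.lf (nat_lit 2128) (nat_lit 6) (nat_lit 28) (nat_lit 5) (nat_lit 100) (nat_lit 234) (nat_lit 236)) (PT.lf (nat_lit 2356) (nat_lit 6) (nat_lit 31) (nat_lit 5) (nat_lit 101) (nat_lit 234) (nat_lit 235)))) (PT.nd (nat_lit 156) (PT.nd (nat_lit 78) (PT.lf (nat_lit 2584) (nat_lit 3) (nat_lit 34) (nat_lit 4) (nat_lit 102) (nat_lit 234)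 (nat_lit 234)) (PT.lf (nat_lit 2736) (nat_lit 6) (nat_lit 36) (nat_lit 4) (nat_lit 103) (nat_lit 234) (nat_lit 233))) (PT.nd (nat_lit 78) (PT.lf (nat_lit 2888) (nat_lit 6) (nat_lit 38) (nat_lit 4) (nat_lit 104) (nat_lit 234) (nat_lit 232)) (PT.lf (nat_lit 3040) (nat_lit 6) (nat_lit 40) (nat_lit 4) (nat_lit 105) (nat_lit 234) (nat_lit 231)))))) (PT.nd (nat_lit 10218) (PT.nd (nat_lit 9906) (PT.nd (nat_lit 9750) (PT.nd (nat_lit 9672) (PT.lf (nat_lit 3192) (nat_lit 6) (nat_lit 42) (nat_lit 4) (nat_lit 106) (nat_lit 234) (nat_lit 230)) (PT.lf (nat_lit 3192) (nat_lit 6) (nat_lit 42) (nat_lit 2) (nat_lit 230) (nat_lit 234) (nat_lit 106))) (PT.nd (nat_lit 78) (PT.lf (nat_lit 3040) (nat_lit 6) (nat_lit 40) (nat_lit 2) (nat_lit 231) (nat_lit 234) (nat_lit 105)) (PT.lf (nat_lit 2888) (nat_lit 6) (nat_lit 38) (nat_lit 2) (nat_lit 232) (nat_lit 234) (nat_lit 104)))) (PT.nd (nat_lit 156) (PT.nd (nat_lit 78) (PT.lf (nat_lit 2736) (nat_lit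 6) (nat_lit 36) (nat_lit 2) (nat_lit 233) (nat_lit 234) (nat_lit 103)) (PT.lf (nat_lit 2584) (nat_lit 3) (nat_lit 34) (nat_lit 0) (nat_lit 234) (nat_lit 234) (nat_lit 102))) (PT.nd (nat_lit 78) (PT.lf (nat_lit 2356) (nat_lit 6) (nat_lit 31) (nat_lit 0) (nat_lit 235) (nat_lit 234) (nat_lit 101)) (PT.lf (nat_lit 2128) (nat_lit 6) (nat_lit 28) (nat_lit 0) (nat_lit 236) (nat_lit 234) (nat_lit 100))))) (PT.nd (nat_lit 48672) (PT.nd (nat_lit 48516) (PT.nd (nat_lit 48438) (PT.lf (nat_lit 1900) (nat_lit 6) (nat_lit 25) (nat_lit 0) (nat_lit 237) (nat_lit 234) (nat_lit 99)) (PT.lf (nat_lit 1596) (nat_lit 6) (nat_lit 21) (nat_lit 5) (nat_lit 97) (nat_lit 235) (nat_lit 238))) (PT.nd (nat_lit 78) (PT.lf (nat_lit 1748) (nat_lit 6) (nat_lit 23) (nat_lit 5) (nat_lit 98) (nat_lit 235) (nat_lit 237)) (PT.lf (nat_lit 1976) (nat_lit 6) (nat_lit 26) (nat_lit 5) (nat_lit 99) (nat_lit 235) (nat_lit 236)))) (PT.nd (nat_lit 156) (PT.nd (nat_lit 78)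 (PT.lf (nat_lit 2204) (nat_lit 3) (nat_lit 29) (nat_lit 4) (nat_lit 100) (nat_lit 235) (nat_lit 235)) (PT.lf (nat_lit 2356) (nat_lit 6) (nat_lit 31) (nat_lit 4) (nat_lit 101) (nat_lit 235) (nat_lit 234))) (PT.nd (nat_lit 78) (PT.lf (nat_lit 2508) (nat_lit 6) (nat_lit 33) (nat_lit 4) (nat_lit 102) (nat_lit 235) (nat_lit 233)) (PT.lf (nat_lit 2660) (nat_lit 6) (nat_lit 35) (nat_lit 4) (nat_lit 103) (nat_lit 235) (nat_lit 232))))))))
noncomputable def pc71 : PT := (PT.nd (nat_lit 69498) (PT.nd (nat_lit 10452) (PT.nd (nat_lit 10140) (PT.nd (nat_lit 9984) (PT.nd (nat_lit 9906) (PT.lf (nat_lit 2812) (nat_lit 6) (nat_lit 37) (nat_lit 4) (nat_lit 104) (nat_lit 235) (nat_lit 231)) (PT.lf (nat_lit 2812) (nat_lit 6) (nat_lit 37) (nat_lit 2) (nat_lit 231) (nat_lit 235) (nat_lit 104))) (PT.nd (nat_lit 78) (PT.lf (nat_lit 2660) (nat_lit 6) (nat_lit 35) (nat_lit 2) (nat_lit 232) (nat_lit 235) (nat_lit 103)) (PT.lf (nat_lit 2508) (nat_lit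 6) (nat_lit 33) (nat_lit 2) (nat_lit 233) (nat_lit 235) (nat_lit 102)))) (PT.nd (nat_lit 156) (PT.nd (nat_lit 78) (PT.lf (nat_lit 2356) (nat_lit 6) (nat_lit 31) (nat_lit 2) (nat_lit 234) (nat_lit 235) (nat_lit 101)) (PT.lf (nat_lit 2204) (nat_lit 3) (nat_lit 29) (nat_lit 0) (nat_lit 235) (nat_lit 235) (nat_lit 100))) (PT.nd (nat_lit 78) (PT.lf (nat_lit 1976) (nat_lit 6) (nat_lit 26) (nat_lit 0) (nat_lit 236) (nat_lit 235) (nat_lit 99)) (PT.lf (nat_lit 1748) (nat_lit 6) (nat_lit 23) (nat_lit 0) (nat_lit 237) (nat_lit 235) (nat_lit 98))))) (PT.nd (nat_lit 48516) (PT.nd (nat_lit 48360) (PT.nd (nat_lit 48282) (PT.lf (nat_lit 1596) (nat_lit 6) (nat_lit 21) (nat_lit 0) (nat_lit 238) (nat_lit 235) (nat_lit 97)) (PT.lf (nat_lit 1444) (nat_lit 6) (nat_lit 19) (nat_lit 5) (nat_lit 96) (nat_lit 236) (nat_lit 238))) (PT.nd (nat_lit 78) (PT.lf (nat_lit 1672) (nat_lit 6) (nat_lit 22) (nat_lit 5) (nat_lit 97) (nat_lit 236) (nat_lit 237))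 (PT.lf (nat_lit 1824) (nat_lit 3) (nat_lit 24) (nat_lit 4) (nat_lit 98) (nat_lit 236) (nat_lit 236)))) (PT.nd (nat_lit 156) (PT.nd (nat_lit 78) (PT.lf (nat_lit 1976) (nat_lit 6) (nat_lit 26) (nat_lit 4) (nat_lit 99) (nat_lit 236) (nat_lit 235)) (PT.lf (nat_lit 2128) (nat_lit 6) (nat_lit 28) (nat_lit 4) (nat_lit 100) (nat_lit 236) (nat_lit 234))) (PT.nd (nat_lit 10296) (PT.lf (nat_lit 2280) (nat_lit 6) (nat_lit 30) (nat_lit 4) (nat_lit 101) (nat_lit 236) (nat_lit 233)) (PT.lf (nat_lit 2280) (nat_lit 6) (nat_lit 30) (nat_lit 2) (nat_lit 233) (nat_lit 236) (nat_lit 101)))))) (PT.nd (nat_lit 48672) (PT.nd (nat_lit 312) (PT.nd (nat_lit 156) (PT.nd (nat_lit 78) (PT.lf (nat_lit 2128) (nat_lit 6) (nat_lit 28) (nat_lit 2) (nat_lit 234) (nat_lit 236) (nat_lit 100)) (PT.lf (nat_lit 1976) (nat_lit 6) (nat_lit 26) (nat_lit 2) (nat_lit 235) (nat_lit 236) (nat_lit 99))) (PT.nd (nat_lit 78) (PT.lf (nat_lit 1824) (nat_lit 3) (nat_lit 24) (nat_lit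 0) (nat_lit 236) (nat_lit 236) (nat_lit 98)) (PT.lf (nat_lit 1672) (nat_lit 6) (nat_lit 22) (nat_lit 0) (nat_lit 237) (nat_lit 236) (nat_lit 97)))) (PT.nd (nat_lit 48204) (PT.nd (nat_lit 48126) (PT.lf (nat_lit 1444) (nat_lit 6) (nat_lit 19) (nat_lit 0) (nat_lit 238) (nat_lit 236) (nat_lit 96)) (PT.lf (nat_lit 1140) (nat_lit 6) (nat_lit 15) (nat_lit 5) (nat_lit 94) (nat_lit 237) (nat_lit 239))) (PT.nd (nat_lit 78) (PT.lf (nat_lit 1368) (nat_lit 6) (nat_lit 18) (nat_lit 5) (nat_lit 95) (nat_lit 237) (nat_lit 238)) (PT.lf (nat_lit 1520) (nat_lit 3) (nat_lit 20) (nat_lit 4) (nat_lit 96) (nat_lit 237) (nat_lit 237))))) (PT.nd (nat_lit 10764) (PT.nd (nat_lit 156) (PT.nd (nat_lit 78) (PT.lf (nat_lit 1672) (nat_lit 6) (nat_lit 22) (nat_lit 4) (nat_lit 97) (nat_lit 237) (nat_lit 236)) (PT.lf (nat_lit 1748) (nat_lit 6) (nat_lit 23) (nat_lit 4) (nat_lit 98) (nat_lit 237) (nat_lit 235))) (PT.nd (nat_lit 10530) (PT.lf (nat_lit 1900) (nat_lit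 6) (nat_lit 25) (nat_lit 4) (nat_lit 99) (nat_lit 237) (nat_lit 234)) (PT.lf (nat_lit 1900) (nat_lit 6) (nat_lit 25) (nat_lit 2) (nat_lit 234) (nat_lit 237) (nat_lit 99)))) (PT.nd (nat_lit 156) (PT.nd (nat_lit 78) (PT.lf (nat_lit 1748) (nat_lit 6) (nat_lit 23) (nat_lit 2) (nat_lit 235) (nat_lit 237) (nat_lit 98)) (PT.lf (nat_lit 1672) (nat_lit 6) (nat_lit 22) (nat_lit 2) (nat_lit 236) (nat_lit 237) (nat_lit 97))) (PT.nd (nat_lit 78) (PT.lf (nat_lit 1520) (nat_lit 3) (nat_lit 20) (nat_lit 0) (nat_lit 237) (nat_lit 237) (nat_lit 96)) (PT.lf (nat_lit 1368) (nat_lit 6) (nat_lit 18) (nat_lit 0) (nat_lit 238) (nat_lit 237) (nat_lit 95)))))))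
noncomputable def pc72 : PT := (PT.nd (nat_lit 107406) (PT.nd (nat_lit 59124) (PT.nd (nat_lit 48126) (PT.nd (nat_lit 47970) (PT.nd (nat_lit 47892) (PT.lf (nat_lit 1140) (nat_lit 6) (nat_lit 15) (nat_lit 0) (nat_lit 239) (nat_lit 237) (nat_lit 94)) (PT.lf (nat_lit 836) (nat_lit 6) (nat_lit 11) (nat_lit 5) (nat_lit 92) (nat_lit 238) (nat_lit 240))) (PT.nd (nat_lit 78) (PT.lf (nat_lit 1064) (nat_lit 6) (nat_lit 14) (nat_lit 5) (nat_lit 93) (nat_lit 238) (nat_lit 239)) (PT.lf (nat_lit 1216) (nat_lit 3) (nat_lit 16) (nat_lit 4) (nat_lit 94) (nat_lit 238) (nat_lit 238)))) (PT.nd (nat_lit 156) (PT.nd (nat_lit 78) (PT.lf (nat_lit 1368) (nat_lit 6) (nat_lit 18) (nat_lit 4) (nat_lit 95) (nat_lit 238) (nat_lit 237)) (PT.lf (nat_lit 1444) (nat_lit 6) (nat_lit 19) (nat_lit 4) (nat_lit 96) (nat_lit 238) (nat_lit 236))) (PT.nd (nat_lit 10764) (PT.lf (nat_lit 1596) (nat_lit 6) (nat_lit 21) (nat_lit 4) (nat_lit 97) (nat_lit 238) (nat_lit 235))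 (PT.lf (nat_lit 1596) (nat_lit 6) (nat_lit 21) (nat_lit 2) (nat_lit 235) (nat_lit 238) (nat_lit 97))))) (PT.nd (nat_lit 312) (PT.nd (nat_lit 156) (PT.nd (nat_lit 78) (PT.lf (nat_lit 1444) (nat_lit 6) (nat_lit 19) (nat_lit 2) (nat_lit 236) (nat_lit 238) (nat_lit 96)) (PT.lf (nat_lit 1368) (nat_lit 6) (nat_lit 18) (nat_lit 2) (nat_lit 237) (nat_lit 238) (nat_lit 95))) (PT.nd (nat_lit 78) (PT.lf (nat_lit 1216) (nat_lit 3) (nat_lit 16) (nat_lit 0) (nat_lit 238) (nat_lit 238) (nat_lit 94)) (PT.lf (nat_lit 1064) (nat_lit 6) (nat_lit 14) (nat_lit 0) (nat_lit 239) (nat_lit 238) (nat_lit 93)))) (PT.nd (nat_lit 47814) (PT.nd (nat_lit 47736) (PT.lf (nat_lit 836) (nat_lit 6) (nat_lit 11) (nat_lit 0) (nat_lit 240) (nat_lit 238) (nat_lit 92)) (PT.lf (nat_lit 760) (nat_lit 6) (nat_lit 10) (nat_lit 5) (nat_lit 91) (nat_lit 239) (nat_lit 240))) (PT.nd (nat_lit 78) (PT.lf (nat_lit 912) (nat_lit 3) (nat_lit 12) (nat_lit 4) (nat_lit 92) (nat_lit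 239) (nat_lit 239)) (PT.lf (nat_lit 1064) (nat_lit 6) (nat_lit 14) (nat_lit 4) (nat_lit 93) (nat_lit 239) (nat_lit 238)))))) (PT.nd (nat_lit 70590) (PT.nd (nat_lit 11388) (PT.nd (nat_lit 11232) (PT.nd (nat_lit 11154) (PT.lf (nat_lit 1140) (nat_lit 6) (nat_lit 15) (nat_lit 4) (nat_lit 94) (nat_lit 239) (nat_lit 237)) (PT.lf (nat_lit 1140) (nat_lit 6) (nat_lit 15) (nat_lit 2) (nat_lit 237) (nat_lit 239) (nat_lit 94))) (PT.nd (nat_lit 78) (PT.lf (nat_lit 1064) (nat_lit 6) (nat_lit 14) (nat_lit 2) (nat_lit 238) (nat_lit 239) (nat_lit 93)) (PT.lf (nat_lit 912) (nat_lit 3) (nat_lit 12) (nat_lit 0) (nat_lit 239) (nat_lit 239) (nat_lit 92)))) (PT.nd (nat_lit 47736) (PT.nd (nat_lit 47658) (PT.lf (nat_lit 760) (nat_lit 6) (nat_lit 10) (nat_lit 0) (nat_lit 240) (nat_lit 239) (nat_lit 91)) (PT.lf (nat_lit 684) (nat_lit 3) (nat_lit 9) (nat_lit 4) (nat_lit 90) (nat_lit 240) (nat_lit 240))) (PT.nd (nat_lit 78) (PT.lf (nat_lit 760) (nat_lit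 6) (nat_lit 10) (nat_lit 4) (nat_lit 91) (nat_lit 240) (nat_lit 239)) (PT.lf (nat_lit 836) (nat_lit 6) (nat_lit 11) (nat_lit 4) (nat_lit 92) (nat_lit 240) (nat_lit 238))))) (PT.nd (nat_lit 1248390) (PT.nd (nat_lit 156) (PT.nd (nat_lit 78) (PT.lf (nat_lit 836) (nat_lit 6) (nat_lit 11) (nat_lit 2) (nat_lit 238) (nat_lit 240) (nat_lit 92)) (PT.lf (nat_lit 760) (nat_lit 6) (nat_lit 10) (nat_lit 2) (nat_lit 239) (nat_lit 240) (nat_lit 91))) (PT.nd (nat_lit 1231464) (PT.lf (nat_lit 684) (nat_lit 3) (nat_lit 9) (nat_lit 0) (nat_lit 240) (nat_lit 240) (nat_lit 90)) (PT.lf (nat_lit 152) (nat_lit 6) (nat_lit 2) (nat_lit 5) (nat_lit 47) (nat_lit 261) (nat_lit 262)))) (PT.nd (nat_lit 42588) (PT.nd (nat_lit 42510) (PT.lf (nat_lit 152) (nat_lit 6) (nat_lit 2) (nat_lit 0) (nat_lit 262) (nat_lit 261) (nat_lit 47)) (PT.lf (nat_lit 76) (nat_lit 3) (nat_lit 1) (nat_lit 4) (nat_lit 46) (nat_lit 262) (nat_lit 262))) (PT.nd (nat_lit 16692) (PT.lf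 (nat_lit 152) (nat_lit 6) (nat_lit 2) (nat_lit 4) (nat_lit 47) (nat_lit 262) (nat_lit 261)) (PT.nd (nat_lit 78) (PT.lf (nat_lit 152) (nat_lit 6) (nat_lit 2) (nat_lit 2) (nat_lit 261) (nat_lit 262) (nat_lit 47)) (PT.lf (nat_lit 76) (nat_lit 3) (nat_lit 1) (nat_lit 0) (nat_lit 262) (nat_lit 262) (nat_lit 46))))))))
noncomputable def xc0 : XT := (XT.nd (nat_lit 237042) (nat_lit 0) (nat_lit 0) (XT.nd (nat_lit 177528) (nat_lit 0) (nat_lit 0) (XT.nd (nat_lit 118326) (nat_lit 0) (nat_lit 0) (XT.nd (nat_lit 59202) (nat_lit 0) (nat_lit 0) (XT.nd (nat_lit 59124) (nat_lit 0) (nat_lit 304) (XT.lf (nat_lit 0) (nat_lit 7520690686) (nat_lit 152) (nat_lit 1404507778) (nat_lit 0) (nat_lit 7184191198) (nat_lit 14) (nat_lit 5) (nat_lit 16) (nat_lit 4) (nat_lit 14) (nat_lit 4) (nat_lit 509) (nat_lit 316) (nat_lit 315)) (XT.lf (nat_lit 0) (nat_lit 2699309125) (nat_lit 152) (nat_lit 2375635697) (nat_lit 0) (nat_lit 2699309125) (nat_lit 18) (nat_lit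 5) (nat_lit 20) (nat_lit 4) (nat_lit 18) (nat_lit 4) (nat_lit 506) (nat_lit 317) (nat_lit 317))) (XT.nd (nat_lit 78) (nat_lit 152) (nat_lit 0) (XT.lf (nat_lit 0) (nat_lit 6898622955) (nat_lit 152) (nat_lit 4591911985) (nat_lit 152) (nat_lit 4241817918) (nat_lit 16) (nat_lit 4) (nat_lit 18) (nat_lit 5) (nat_lit 18) (nat_lit 4) (nat_lit 507) (nat_lit 317) (nat_lit 316)) (XT.nd (nat_lit 78) (nat_lit 0) (nat_lit 0) (XT.lf (nat_lit 0) (nat_lit 1734618400) (nat_lit 152) (nat_lit 13130666935) (nat_lit 0) (nat_lit 1054889435) (nat_lit 14) (nat_lit 5) (nat_lit 16) (nat_lit 4) (nat_lit 14) (nat_lit 4) (nat_lit 508) (nat_lit 317) (nat_lit 315)) (XT.lf (nat_lit 0) (nat_lit 7780512503) (nat_lit 152) (nat_lit 1559667044) (nat_lit 0) (nat_lit 6770882079) (nat_lit 14) (nat_lit 5) (nat_lit 16) (nat_lit 4) (nat_lit 14) (nat_lit 4) (nat_lit 509) (nat_lit 317) (nat_lit 314))))) (XT.nd (nat_lit 234) (nat_lit 304) (nat_lit 0) (XT.nd (nat_lit 78)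 (nat_lit 152) (nat_lit 0) (XT.lf (nat_lit 0) (nat_lit 1447029046) (nat_lit 152) (nat_lit 3074156591) (nat_lit 152) (nat_lit 3074156591) (nat_lit 20) (nat_lit 4) (nat_lit 22) (nat_lit 5) (nat_lit 22) (nat_lit 4) (nat_lit 504) (nat_lit 318) (nat_lit 318)) (XT.nd (nat_lit 78) (nat_lit 152) (nat_lit 0) (XT.lf (nat_lit 0) (nat_lit 14507666955) (nat_lit 152) (nat_lit 612689578) (nat_lit 152) (nat_lit 248451711) (nat_lit 20) (nat_lit 4) (nat_lit 22) (nat_lit 5) (nat_lit 22) (nat_lit 4) (nat_lit 505) (nat_lit 318) (nat_lit 317)) (XT.lf (nat_lit 0) (nat_lit 5714291503) (nat_lit 152) (nat_lit 4827945362) (nat_lit 0) (nat_lit 5007101488) (nat_lit 18) (nat_lit 5) (nat_lit 20) (nat_lit 4) (nat_lit 18) (nat_lit 4) (nat_lit 506) (nat_lit 318) (nat_lit 316)))) (XT.nd (nat_lit 78) (nat_lit 152) (nat_lit 0) (XT.lf (nat_lit 0) (nat_lit 6744760496) (nat_lit 152) (nat_lit 5019838231) (nat_lit 152) (nat_lit 3969418739) (nat_lit 16) (nat_lit 4) (nat_lit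 18) (nat_lit 5) (nat_lit 18) (nat_lit 4) (nat_lit 507) (nat_lit 318) (nat_lit 315)) (XT.nd (nat_lit 78) (nat_lit 0) (nat_lit 0) (XT.lf (nat_lit 0) (nat_lit 1958345733) (nat_lit 152) (nat_lit 13365740906) (nat_lit 0) (nat_lit 598621242) (nat_lit 14) (nat_lit 5) (nat_lit 16) (nat_lit 4) (nat_lit 14) (nat_lit 4) (nat_lit 508) (nat_lit 318) (nat_lit 314)) (XT.lf (nat_lit 0) (nat_lit 7963758540) (nat_lit 152) (nat_lit 1870046425) (nat_lit 0) (nat_lit 6280601247) (nat_lit 14) (nat_lit 5) (nat_lit 16) (nat_lit 4) (nat_lit 14) (nat_lit 4) (nat_lit 509) (nat_lit 318) (nat_lit 313)))))) (XT.nd (nat_lit 468) (nat_lit 152) (nat_lit 0) (XT.nd (nat_lit 234) (nat_lit 304) (nat_lit 0) (XT.nd (nat_lit 78) (nat_lit 304) (nat_lit 0) (XT.lf (nat_lit 0) (nat_lit 4978867162) (nat_lit 152) (nat_lit 1221824798) (nat_lit 152) (nat_lit 1221824798) (nat_lit 24) (nat_lit 4) (nat_lit 26) (nat_lit 5) (nat_lit 26) (nat_lit 4) (nat_lit 502) (nat_lit 319)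 (nat_lit 319)) (XT.nd (nat_lit 78) (nat_lit 152) (nat_lit 0) (XT.lf (nat_lit 0) (nat_lit 3429523233) (nat_lit 152) (nat_lit 8529044805) (nat_lit 0) (nat_lit 3058000608) (nat_lit 22) (nat_lit 5) (nat_lit 24) (nat_lit 4) (nat_lit 22) (nat_lit 4) (nat_lit 503) (nat_lit 319) (nat_lit 318)) (XT.lf (nat_lit 0) (nat_lit 2818033567) (nat_lit 152) (nat_lit 6554619143) (nat_lit 152) (nat_lit 5818858651) (nat_lit 20) (nat_lit 4) (nat_lit 22) (nat_lit 5) (nat_lit 22) (nat_lit 4) (nat_lit 504) (nat_lit 319) (nat_lit 317)))) (XT.nd (nat_lit 78) (nat_lit 228) (nat_lit 0) (XT.lf (nat_lit 0) (nat_lit 39238134) (nat_lit 228) (nat_lit 1013595408) (nat_lit 76) (nat_lit 14317607141) (nat_lit 19) (nat_lit 5) (nat_lit 22) (nat_lit 5) (nat_lit 20) (nat_lit 4) (nat_lit 505) (nat_lit 319) (nat_lit 316)) (XT.nd (nat_lit 78) (nat_lit 152) (nat_lit 0) (XT.lf (nat_lit 0) (nat_lit 5954245037) (nat_lit 152) (nat_lit 5057997334) (nat_lit 0) (nat_lit 4539587677)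 (nat_lit 18) (nat_lit 5) (nat_lit 20) (nat_lit 4) (nat_lit 18) (nat_lit 4) (nat_lit 506) (nat_lit 319) (nat_lit 315)) (XT.lf (nat_lit 0) (nat_lit 6436975242) (nat_lit 152) (nat_lit 5525764471) (nat_lit 152) (nat_lit 3774607624) (nat_lit 16) (nat_lit 4) (nat_lit 18) (nat_lit 5) (nat_lit 18) (nat_lit 4) (nat_lit 507) (nat_lit 319) (nat_lit 314))))) (XT.nd (nat_lit 58812) (nat_lit 0) (nat_lit 608) (XT.nd (nat_lit 78) (nat_lit 0) (nat_lit 0) (XT.lf (nat_lit 0) (nat_lit 2104775396) (nat_lit 152) (nat_lit 13757633284) (nat_lit 0) (nat_lit 64522155) (nat_lit 14) (nat_lit 5) (nat_lit 16) (nat_lit 4) (nat_lit 14) (nat_lit 4) (nat_lit 508) (nat_lit 319) (nat_lit 313)) (XT.nd (nat_lit 58656) (nat_lit 0) (nat_lit 912) (XT.lf (nat_lit 0) (nat_lit 8070500659) (nat_lit 152) (nat_lit 2335767637) (nat_lit 0) (nat_lit 5713156435) (nat_lit 14) (nat_lit 5) (nat_lit 16) (nat_lit 4) (nat_lit 14) (nat_lit 4) (nat_lit 509) (nat_lit 319) (nat_lit 312))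 (XT.lf (nat_lit 0) (nat_lit 482870830) (nat_lit 228) (nat_lit 6289785809) (nat_lit 0) (nat_lit 482870830) (nat_lit 26) (nat_lit 5) (nat_lit 29) (nat_lit 4) (nat_lit 26) (nat_lit 4) (nat_lit 500) (nat_lit 320) (nat_lit 320)))) (XT.nd (nat_lit 78) (nat_lit 304) (nat_lit 0) (XT.lf (nat_lit 0) (nat_lit 6806541294) (nat_lit 228) (nat_lit 1450074564) (nat_lit 0) (nat_lit 6420009156) (nat_lit 26) (nat_lit 5) (nat_lit 29) (nat_lit 4) (nat_lit 26) (nat_lit 4) (nat_lit 501) (nat_lit 320) (nat_lit 319)) (XT.nd (nat_lit 78) (nat_lit 152) (nat_lit 0) (XT.lf (nat_lit 0) (nat_lit 9883351345) (nat_lit 152) (nat_lit 2863990520) (nat_lit 152) (nat_lit 2098505304) (nat_lit 24) (nat_lit 4) (nat_lit 26) (nat_lit 5) (nat_lit 26) (nat_lit 4) (nat_lit 502) (nat_lit 320) (nat_lit 318)) (XT.lf (nat_lit 0) (nat_lit 3726166187) (nat_lit 152) (nat_lit 8680600252) (nat_lit 0) (nat_lit 2611452618) (nat_lit 22) (nat_lit 5) (nat_lit 24) (nat_lit 4) (nat_lit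 22) (nat_lit 4) (nat_lit 503) (nat_lit 320) (nat_lit 317))))))) (XT.nd (nat_lit 59280) (nat_lit 0) (nat_lit 0) (XT.nd (nat_lit 390) (nat_lit 0) (nat_lit 0) (XT.nd (nat_lit 156) (nat_lit 380) (nat_lit 0) (XT.nd (nat_lit 78) (nat_lit 76) (nat_lit 0) (XT.lf (nat_lit 0) (nat_lit 2589930181) (nat_lit 152) (nat_lit 7037935872) (nat_lit 152) (nat_lit 5566126355) (nat_lit 20) (nat_lit 4) (nat_lit 22) (nat_lit 5) (nat_lit 22) (nat_lit 4) (nat_lit 504) (nat_lit 320) (nat_lit 316)) (XT.lf (nat_lit 0) (nat_lit 248751568) (nat_lit 228) (nat_lit 1319425415) (nat_lit 76) (nat_lit 13805511975) (nat_lit 19) (nat_lit 5) (nat_lit 22) (nat_lit 5) (nat_lit 20) (nat_lit 4) (nat_lit 505) (nat_lit 320) (nat_lit 315))) (XT.nd (nat_lit 78) (nat_lit 304) (nat_lit 0) (XT.lf (nat_lit 0) (nat_lit 6118572953) (nat_lit 152) (nat_lit 5441517525) (nat_lit 0) (nat_lit 3995893481) (nat_lit 18) (nat_lit 5) (nat_lit 20) (nat_lit 4) (nat_lit 18) (nat_lit 4) (nat_lit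 506) (nat_lit 320) (nat_lit 314)) (XT.nd (nat_lit 78) (nat_lit 152) (nat_lit 0) (XT.lf (nat_lit 0) (nat_lit 5975146491) (nat_lit 152) (nat_lit 6109889108) (nat_lit 152) (nat_lit 3657308177) (nat_lit 16) (nat_lit 4) (nat_lit 18) (nat_lit 5) (nat_lit 18) (nat_lit 4) (nat_lit 507) (nat_lit 320) (nat_lit 313)) (XT.lf (nat_lit 0) (nat_lit 1622672735) (nat_lit 76) (nat_lit 554894823) (nat_lit 152) (nat_lit 13755205675) (nat_lit 14) (nat_lit 5) (nat_lit 15) (nat_lit 5) (nat_lit 16) (nat_lit 4) (nat_lit 508) (nat_lit 320) (nat_lit 312))))) (XT.nd (nat_lit 58656) (nat_lit 0) (nat_lit 760) (XT.nd (nat_lit 58500) (nat_lit 0) (nat_lit 1140) (XT.lf (nat_lit 0) (nat_lit 8100780719) (nat_lit 152) (nat_lit 2957013315) (nat_lit 0) (nat_lit 5068325115) (nat_lit 14) (nat_lit 5) (nat_lit 16) (nat_lit 4) (nat_lit 14) (nat_lit 4) (nat_lit 509) (nat_lit 320) (nat_lit 311)) (XT.nd (nat_lit 78) (nat_lit 152) (nat_lit 0) (XT.lf (nat_lit 0) (nat_lit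 2056493784) (nat_lit 228) (nat_lit 2980780595) (nat_lit 0) (nat_lit 2056493784) (nat_lit 31) (nat_lit 5) (nat_lit 34) (nat_lit 4) (nat_lit 31) (nat_lit 4) (nat_lit 498) (nat_lit 321) (nat_lit 321)) (XT.lf (nat_lit 0) (nat_lit 5120274441) (nat_lit 152) (nat_lit 4814904276) (nat_lit 152) (nat_lit 4412756239) (nat_lit 29) (nat_lit 4) (nat_lit 31) (nat_lit 5) (nat_lit 31) (nat_lit 4) (nat_lit 499) (nat_lit 321) (nat_lit 320)))) (XT.nd (nat_lit 78) (nat_lit 152) (nat_lit 0) (XT.lf (nat_lit 0) (nat_lit 1319111366) (nat_lit 228) (nat_lit 12654447200) (nat_lit 0) (nat_lit 538316446) (nat_lit 26) (nat_lit 5) (nat_lit 29) (nat_lit 4) (nat_lit 26) (nat_lit 4) (nat_lit 500) (nat_lit 321) (nat_lit 319)) (XT.nd (nat_lit 78) (nat_lit 152) (nat_lit 0) (XT.lf (nat_lit 0) (nat_lit 7119819748) (nat_lit 228) (nat_lit 1598357580) (nat_lit 0) (nat_lit 5960071751) (nat_lit 26) (nat_lit 5) (nat_lit 29) (nat_lit 4) (nat_lit 26) (nat_lit 4) (nat_lit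 501) (nat_lit 321) (nat_lit 318)) (XT.lf (nat_lit 0) (nat_lit 9660173237) (nat_lit 152) (nat_lit 3359692914) (nat_lit 152) (nat_lit 1828422292) (nat_lit 24) (nat_lit 4) (nat_lit 26) (nat_lit 5) (nat_lit 26) (nat_lit 4) (nat_lit 502) (nat_lit 321) (nat_lit 317)))))) (XT.nd (nat_lit 468) (nat_lit 0) (nat_lit 0) (XT.nd (nat_lit 234) (nat_lit 380) (nat_lit 0) (XT.nd (nat_lit 78) (nat_lit 228) (nat_lit 0) (XT.lf (nat_lit 0) (nat_lit 3948045801) (nat_lit 152) (nat_lit 8983770580) (nat_lit 0) (nat_lit 2089704145) (nat_lit 22) (nat_lit 5) (nat_lit 24) (nat_lit 4) (nat_lit 22) (nat_lit 4) (nat_lit 503) (nat_lit 321) (nat_lit 316)) (XT.nd (nat_lit 78) (nat_lit 76) (nat_lit 0) (XT.lf (nat_lit 0) (nat_lit 2209658480) (nat_lit 152) (nat_lit 7598452905) (nat_lit 152) (nat_lit 5390017182) (nat_lit 20) (nat_lit 4) (nat_lit 22) (nat_lit 5) (nat_lit 22) (nat_lit 4) (nat_lit 504) (nat_lit 321) (nat_lit 315)) (XT.lf (nat_lit 0) (nat_lit 383429241)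 (nat_lit 228) (nat_lit 1777138132) (nat_lit 76) (nat_lit 13218019236) (nat_lit 19) (nat_lit 5) (nat_lit 22) (nat_lit 5) (nat_lit 20) (nat_lit 4) (nat_lit 505) (nat_lit 321) (nat_lit 314)))) (XT.nd (nat_lit 78) (nat_lit 304) (nat_lit 0) (XT.lf (nat_lit 0) (nat_lit 6207339693) (nat_lit 152) (nat_lit 5978656337) (nat_lit 0) (nat_lit 3375805685) (nat_lit 18) (nat_lit 5) (nat_lit 20) (nat_lit 4) (nat_lit 18) (nat_lit 4) (nat_lit 506) (nat_lit 321) (nat_lit 313)) (XT.nd (nat_lit 78) (nat_lit 152) (nat_lit 0) (XT.lf (nat_lit 0) (nat_lit 5359093134) (nat_lit 152) (nat_lit 6772441209) (nat_lit 152) (nat_lit 3617474399) (nat_lit 16) (nat_lit 4) (nat_lit 18) (nat_lit 5) (nat_lit 18) (nat_lit 4) (nat_lit 507) (nat_lit 321) (nat_lit 312)) (XT.lf (nat_lit 0) (nat_lit 919596125) (nat_lit 76) (nat_lit 1254489972) (nat_lit 152) (nat_lit 13766204563) (nat_lit 14) (nat_lit 5) (nat_lit 15) (nat_lit 5) (nat_lit 16) (nat_lit 4) (nat_lit 508) (nat_lit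 321) (nat_lit 311))))) (XT.nd (nat_lit 58500) (nat_lit 0) (nat_lit 912) (XT.nd (nat_lit 58344) (nat_lit 0) (nat_lit 1520) (XT.lf (nat_lit 0) (nat_lit 8054610595) (nat_lit 152) (nat_lit 3734027086) (nat_lit 0) (nat_lit 4345854413) (nat_lit 14) (nat_lit 5) (nat_lit 16) (nat_lit 4) (nat_lit 14) (nat_lit 4) (nat_lit 509) (nat_lit 321) (nat_lit 310)) (XT.nd (nat_lit 78) (nat_lit 0) (nat_lit 0) (XT.lf (nat_lit 0) (nat_lit 68598567) (nat_lit 152) (nat_lit 3434498453) (nat_lit 152) (nat_lit 3434498453) (nat_lit 34) (nat_lit 4) (nat_lit 36) (nat_lit 5) (nat_lit 36) (nat_lit 4) (nat_lit 496) (nat_lit 322) (nat_lit 322)) (XT.lf (nat_lit 0) (nat_lit 11175286510) (nat_lit 152) (nat_lit 1636794392) (nat_lit 152) (nat_lit 1218399574) (nat_lit 34) (nat_lit 4) (nat_lit 36) (nat_lit 5) (nat_lit 36) (nat_lit 4) (nat_lit 497) (nat_lit 322) (nat_lit 321)))) (XT.nd (nat_lit 78) (nat_lit 380) (nat_lit 0) (XT.lf (nat_lit 0) (nat_lit 4482935947) (nat_lit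 228) (nat_lit 6034810622) (nat_lit 0) (nat_lit 3670596912) (nat_lit 31) (nat_lit 5) (nat_lit 34) (nat_lit 4) (nat_lit 31) (nat_lit 4) (nat_lit 498) (nat_lit 322) (nat_lit 320)) (XT.nd (nat_lit 78) (nat_lit 228) (nat_lit 0) (XT.lf (nat_lit 0) (nat_lit 4973284036) (nat_lit 152) (nat_lit 5291435151) (nat_lit 152) (nat_lit 4084833335) (nat_lit 29) (nat_lit 4) (nat_lit 31) (nat_lit 5) (nat_lit 31) (nat_lit 4) (nat_lit 499) (nat_lit 322) (nat_lit 319)) (XT.lf (nat_lit 0) (nat_lit 1598564138) (nat_lit 228) (nat_lit 12879103310) (nat_lit 0) (nat_lit 36668104) (nat_lit 26) (nat_lit 5) (nat_lit 29) (nat_lit 4) (nat_lit 26) (nat_lit 4) (nat_lit 500) (nat_lit 322) (nat_lit 318))))))))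
noncomputable def xc1 : XT := (XT.nd (nat_lit 59904) (nat_lit 0) (nat_lit 0) (XT.nd (nat_lit 58968) (nat_lit 0) (nat_lit 152) (XT.nd (nat_lit 390) (nat_lit 380) (nat_lit 0) (XT.nd (nat_lit 156) (nat_lit 380) (nat_lit 0) (XT.nd (nat_lit 78) (nat_lit 152) (nat_lit 0) (XT.lf (nat_lit 0) (nat_lit 7359967372) (nat_lit 228) (nat_lit 1894981761) (nat_lit 0) (nat_lit 5426548713) (nat_lit 26) (nat_lit 5) (nat_lit 29) (nat_lit 4) (nat_lit 26) (nat_lit 4) (nat_lit 501) (nat_lit 322) (nat_lit 317)) (XT.lf (nat_lit 0) (nat_lit 9288112478) (nat_lit 152) (nat_lit 3930951172) (nat_lit 152) (nat_lit 1633294646) (nat_lit 24) (nat_lit 4) (nat_lit 26) (nat_lit 5) (nat_lit 26) (nat_lit 4) (nat_lit 502) (nat_lit 322) (nat_lit 316))) (XT.nd (nat_lit 78) (nat_lit 228) (nat_lit 0) (XT.lf (nat_lit 0) (nat_lit 4095249087) (nat_lit 152) (nat_lit 9438674679) (nat_lit 0) (nat_lit 1492550583) (nat_lit 22) (nat_lit 5) (nat_lit 24) (nat_lit 4) (nat_lit 22)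 (nat_lit 4) (nat_lit 503) (nat_lit 322) (nat_lit 315)) (XT.nd (nat_lit 78) (nat_lit 76) (nat_lit 0) (XT.lf (nat_lit 0) (nat_lit 1677069338) (nat_lit 152) (nat_lit 8236390051) (nat_lit 152) (nat_lit 5290462069) (nat_lit 20) (nat_lit 4) (nat_lit 22) (nat_lit 5) (nat_lit 22) (nat_lit 4) (nat_lit 504) (nat_lit 322) (nat_lit 314)) (XT.lf (nat_lit 0) (nat_lit 443323968) (nat_lit 228) (nat_lit 2386913053) (nat_lit 76) (nat_lit 12554898533) (nat_lit 19) (nat_lit 5) (nat_lit 22) (nat_lit 5) (nat_lit 20) (nat_lit 4) (nat_lit 505) (nat_lit 322) (nat_lit 313))))) (XT.nd (nat_lit 234) (nat_lit 0) (nat_lit 0) (XT.nd (nat_lit 78) (nat_lit 304) (nat_lit 0) (XT.lf (nat_lit 0) (nat_lit 6220580067) (nat_lit 152) (nat_lit 6669624412) (nat_lit 0) (nat_lit 2679081118) (nat_lit 18) (nat_lit 5) (nat_lit 20) (nat_lit 4) (nat_lit 18) (nat_lit 4) (nat_lit 506) (nat_lit 322) (nat_lit 312)) (XT.nd (nat_lit 78) (nat_lit 152) (nat_lit 0) (XT.lf (nat_lit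 0) (nat_lit 4588573582) (nat_lit 152) (nat_lit 7513680599) (nat_lit 152) (nat_lit 3655090667) (nat_lit 16) (nat_lit 4) (nat_lit 18) (nat_lit 5) (nat_lit 18) (nat_lit 4) (nat_lit 507) (nat_lit 322) (nat_lit 311)) (XT.lf (nat_lit 0) (nat_lit 60224984) (nat_lit 76) (nat_lit 2033680178) (nat_lit 152) (nat_lit 13855589393) (nat_lit 14) (nat_lit 5) (nat_lit 15) (nat_lit 5) (nat_lit 16) (nat_lit 4) (nat_lit 508) (nat_lit 322) (nat_lit 310)))) (XT.nd (nat_lit 58188) (nat_lit 0) (nat_lit 1672) (XT.lf (nat_lit 0) (nat_lit 7931972180) (nat_lit 152) (nat_lit 4667113661) (nat_lit 0) (nat_lit 3545461006) (nat_lit 14) (nat_lit 5) (nat_lit 16) (nat_lit 4) (nat_lit 14) (nat_lit 4) (nat_lit 509) (nat_lit 322) (nat_lit 309)) (XT.nd (nat_lit 78) (nat_lit 228) (nat_lit 0) (XT.lf (nat_lit 0) (nat_lit 2915798537) (nat_lit 152) (nat_lit 1935301303) (nat_lit 152) (nat_lit 1935301303) (nat_lit 39) (nat_lit 4) (nat_lit 41) (nat_lit 5) (nat_lit 41) (nat_lit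 4) (nat_lit 494) (nat_lit 323) (nat_lit 323)) (XT.lf (nat_lit 0) (nat_lit 1731836031) (nat_lit 228) (nat_lit 10686223200) (nat_lit 0) (nat_lit 1305073317) (nat_lit 36) (nat_lit 5) (nat_lit 39) (nat_lit 4) (nat_lit 36) (nat_lit 4) (nat_lit 495) (nat_lit 323) (nat_lit 322)))))) (XT.nd (nat_lit 468) (nat_lit 760) (nat_lit 0) (XT.nd (nat_lit 234) (nat_lit 380) (nat_lit 0) (XT.nd (nat_lit 78) (nat_lit 228) (nat_lit 0) (XT.lf (nat_lit 0) (nat_lit 64596177) (nat_lit 152) (nat_lit 7328278172) (nat_lit 152) (nat_lit 6483120640) (nat_lit 34) (nat_lit 4) (nat_lit 36) (nat_lit 5) (nat_lit 36) (nat_lit 4) (nat_lit 496) (nat_lit 323) (nat_lit 321)) (XT.nd (nat_lit 78) (nat_lit 228) (nat_lit 0) (XT.lf (nat_lit 0) (nat_lit 11031508145) (nat_lit 152) (nat_lit 2127956589) (nat_lit 152) (nat_lit 872608059) (nat_lit 34) (nat_lit 4) (nat_lit 36) (nat_lit 5) (nat_lit 36) (nat_lit 4) (nat_lit 497) (nat_lit 323) (nat_lit 320)) (XT.lf (nat_lit 0) (nat_lit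 4780587124) (nat_lit 228) (nat_lit 6254587641) (nat_lit 0) (nat_lit 3155590490) (nat_lit 31) (nat_lit 5) (nat_lit 34) (nat_lit 4) (nat_lit 31) (nat_lit 4) (nat_lit 498) (nat_lit 323) (nat_lit 319)))) (XT.nd (nat_lit 78) (nat_lit 228) (nat_lit 0) (XT.lf (nat_lit 0) (nat_lit 4679245584) (nat_lit 152) (nat_lit 5842535739) (nat_lit 152) (nat_lit 3831006966) (nat_lit 29) (nat_lit 4) (nat_lit 31) (nat_lit 5) (nat_lit 31) (nat_lit 4) (nat_lit 499) (nat_lit 323) (nat_lit 318)) (XT.nd (nat_lit 78) (nat_lit 0) (nat_lit 0) (XT.lf (nat_lit 0) (nat_lit 1261189818) (nat_lit 152) (nat_lit 546568433) (nat_lit 228) (nat_lit 12710608299) (nat_lit 26) (nat_lit 5) (nat_lit 28) (nat_lit 5) (nat_lit 29) (nat_lit 4) (nat_lit 500) (nat_lit 323) (nat_lit 317)) (XT.lf (nat_lit 0) (nat_lit 7527078341) (nat_lit 228) (nat_lit 2340063431) (nat_lit 0) (nat_lit 4819230817) (nat_lit 26) (nat_lit 5) (nat_lit 29) (nat_lit 4) (nat_lit 26) (nat_lit 4) (nat_lit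 501) (nat_lit 323) (nat_lit 316))))) (XT.nd (nat_lit 234) (nat_lit 304) (nat_lit 0) (XT.nd (nat_lit 78) (nat_lit 304) (nat_lit 0) (XT.lf (nat_lit 0) (nat_lit 8767023163) (nat_lit 152) (nat_lit 4577989317) (nat_lit 152) (nat_lit 1513045844) (nat_lit 24) (nat_lit 4) (nat_lit 26) (nat_lit 5) (nat_lit 26) (nat_lit 4) (nat_lit 502) (nat_lit 323) (nat_lit 315)) (XT.nd (nat_lit 78) (nat_lit 152) (nat_lit 0) (XT.lf (nat_lit 0) (nat_lit 4167833772) (nat_lit 152) (nat_lit 10045490942) (nat_lit 0) (nat_lit 819757753) (nat_lit 22) (nat_lit 5) (nat_lit 24) (nat_lit 4) (nat_lit 22) (nat_lit 4) (nat_lit 503) (nat_lit 323) (nat_lit 314)) (XT.lf (nat_lit 0) (nat_lit 991953897) (nat_lit 152) (nat_lit 8951997482) (nat_lit 152) (nat_lit 5267421975) (nat_lit 20) (nat_lit 4) (nat_lit 22) (nat_lit 5) (nat_lit 22) (nat_lit 4) (nat_lit 504) (nat_lit 323) (nat_lit 313)))) (XT.nd (nat_lit 78) (nat_lit 228) (nat_lit 0) (XT.lf (nat_lit 0) (nat_lit 428459236)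 (nat_lit 228) (nat_lit 3148989306) (nat_lit 76) (nat_lit 11815889819) (nat_lit 19) (nat_lit 5) (nat_lit 22) (nat_lit 5) (nat_lit 20) (nat_lit 4) (nat_lit 505) (nat_lit 323) (nat_lit 312)) (XT.nd (nat_lit 78) (nat_lit 152) (nat_lit 0) (XT.lf (nat_lit 0) (nat_lit 6158299268) (nat_lit 152) (nat_lit 7514692717) (nat_lit 0) (nat_lit 1905446555) (nat_lit 18) (nat_lit 5) (nat_lit 20) (nat_lit 4) (nat_lit 18) (nat_lit 4) (nat_lit 506) (nat_lit 323) (nat_lit 311)) (XT.lf (nat_lit 0) (nat_lit 3663285670) (nat_lit 152) (nat_lit 8333897960) (nat_lit 152) (nat_lit 3770171735) (nat_lit 16) (nat_lit 4) (nat_lit 18) (nat_lit 5) (nat_lit 18) (nat_lit 4) (nat_lit 507) (nat_lit 323) (nat_lit 310))))))) (XT.nd (nat_lit 58890) (nat_lit 0) (nat_lit 0) (XT.nd (nat_lit 58422) (nat_lit 0) (nat_lit 912) (XT.nd (nat_lit 58188) (nat_lit 0) (nat_lit 1672) (XT.nd (nat_lit 78) (nat_lit 76) (nat_lit 0) (XT.lf (nat_lit 0) (nat_lit 1943198851) (nat_lit 228)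 (nat_lit 943242500) (nat_lit 76) (nat_lit 13073823065) (nat_lit 15) (nat_lit 5) (nat_lit 18) (nat_lit 5) (nat_lit 16) (nat_lit 4) (nat_lit 508) (nat_lit 323) (nat_lit 309)) (XT.nd (nat_lit 58032) (nat_lit 0) (nat_lit 2280) (XT.lf (nat_lit 0) (nat_lit 7732817382) (nat_lit 152) (nat_lit 5756638957) (nat_lit 0) (nat_lit 2666831015) (nat_lit 14) (nat_lit 5) (nat_lit 16) (nat_lit 4) (nat_lit 14) (nat_lit 4) (nat_lit 509) (nat_lit 323) (nat_lit 308)) (XT.lf (nat_lit 0) (nat_lit 5541748433) (nat_lit 228) (nat_lit 549293826) (nat_lit 228) (nat_lit 549293826) (nat_lit 44) (nat_lit 4) (nat_lit 47) (nat_lit 5) (nat_lit 47) (nat_lit 4) (nat_lit 492) (nat_lit 324) (nat_lit 324)))) (XT.nd (nat_lit 78) (nat_lit 380) (nat_lit 0) (XT.lf (nat_lit 0) (nat_lit 4465415266) (nat_lit 228) (nat_lit 4938735229) (nat_lit 0) (nat_lit 4021411338) (nat_lit 41) (nat_lit 5) (nat_lit 44) (nat_lit 4) (nat_lit 41) (nat_lit 4) (nat_lit 493) (nat_lit 324) (nat_lit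 323)) (XT.nd (nat_lit 78) (nat_lit 228) (nat_lit 0) (XT.lf (nat_lit 0) (nat_lit 5760592966) (nat_lit 152) (nat_lit 4346151445) (nat_lit 152) (nat_lit 3466849549) (nat_lit 39) (nat_lit 4) (nat_lit 41) (nat_lit 5) (nat_lit 41) (nat_lit 4) (nat_lit 494) (nat_lit 324) (nat_lit 322)) (XT.lf (nat_lit 0) (nat_lit 2087119714) (nat_lit 228) (nat_lit 10830953740) (nat_lit 0) (nat_lit 806664214) (nat_lit 36) (nat_lit 5) (nat_lit 39) (nat_lit 4) (nat_lit 36) (nat_lit 4) (nat_lit 495) (nat_lit 324) (nat_lit 321))))) (XT.nd (nat_lit 234) (nat_lit 380) (nat_lit 0) (XT.nd (nat_lit 78) (nat_lit 380) (nat_lit 0) (XT.lf (nat_lit 0) (nat_lit 7708904286) (nat_lit 228) (nat_lit 151225456) (nat_lit 0) (nat_lit 6018257788) (nat_lit 36) (nat_lit 5) (nat_lit 39) (nat_lit 4) (nat_lit 36) (nat_lit 4) (nat_lit 496) (nat_lit 324) (nat_lit 320)) (XT.nd (nat_lit 78) (nat_lit 228) (nat_lit 0) (XT.lf (nat_lit 0) (nat_lit 10743895030) (nat_lit 152) (nat_lit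 2692078778) (nat_lit 152) (nat_lit 599284243) (nat_lit 34) (nat_lit 4) (nat_lit 36) (nat_lit 5) (nat_lit 36) (nat_lit 4) (nat_lit 497) (nat_lit 324) (nat_lit 319)) (XT.lf (nat_lit 0) (nat_lit 5006057827) (nat_lit 228) (nat_lit 6620978434) (nat_lit 0) (nat_lit 2567766340) (nat_lit 31) (nat_lit 5) (nat_lit 34) (nat_lit 4) (nat_lit 31) (nat_lit 4) (nat_lit 498) (nat_lit 324) (nat_lit 318)))) (XT.nd (nat_lit 78) (nat_lit 228) (nat_lit 0) (XT.lf (nat_lit 0) (nat_lit 4238043774) (nat_lit 152) (nat_lit 6468422157) (nat_lit 152) (nat_lit 3651177593) (nat_lit 29) (nat_lit 4) (nat_lit 31) (nat_lit 5) (nat_lit 31) (nat_lit 4) (nat_lit 499) (nat_lit 324) (nat_lit 317)) (XT.nd (nat_lit 78) (nat_lit 0) (nat_lit 0) (XT.lf (nat_lit 0) (nat_lit 738027959) (nat_lit 152) (nat_lit 1205930034) (nat_lit 228) (nat_lit 12580067947) (nat_lit 26) (nat_lit 5) (nat_lit 28) (nat_lit 5) (nat_lit 29) (nat_lit 4) (nat_lit 500) (nat_lit 324) (nat_lit 316))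 (XT.lf (nat_lit 0) (nat_lit 7621218189) (nat_lit 228) (nat_lit 2933777133) (nat_lit 0) (nat_lit 4137879899) (nat_lit 26) (nat_lit 5) (nat_lit 29) (nat_lit 4) (nat_lit 26) (nat_lit 4) (nat_lit 501) (nat_lit 324) (nat_lit 315)))))) (XT.nd (nat_lit 468) (nat_lit 152) (nat_lit 0) (XT.nd (nat_lit 234) (nat_lit 304) (nat_lit 0) (XT.nd (nat_lit 78) (nat_lit 304) (nat_lit 0) (XT.lf (nat_lit 0) (nat_lit 8096700944) (nat_lit 152) (nat_lit 5301061089) (nat_lit 152) (nat_lit 1467628732) (nat_lit 24) (nat_lit 4) (nat_lit 26) (nat_lit 5) (nat_lit 26) (nat_lit 4) (nat_lit 502) (nat_lit 324) (nat_lit 314)) (XT.nd (nat_lit 78) (nat_lit 152) (nat_lit 0) (XT.lf (nat_lit 0) (nat_lit 4165828320) (nat_lit 152) (nat_lit 10804457337) (nat_lit 0) (nat_lit 71061815) (nat_lit 22) (nat_lit 5) (nat_lit 24) (nat_lit 4) (nat_lit 22) (nat_lit 4) (nat_lit 503) (nat_lit 324) (nat_lit 313)) (XT.lf (nat_lit 0) (nat_lit 154043484) (nat_lit 152) (nat_lit 9745555829)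 (nat_lit 152) (nat_lit 5320887866) (nat_lit 20) (nat_lit 4) (nat_lit 22) (nat_lit 5) (nat_lit 22) (nat_lit 4) (nat_lit 504) (nat_lit 324) (nat_lit 312)))) (XT.nd (nat_lit 78) (nat_lit 228) (nat_lit 0) (XT.lf (nat_lit 0) (nat_lit 338829218) (nat_lit 228) (nat_lit 4063665744) (nat_lit 76) (nat_lit 11000703288) (nat_lit 19) (nat_lit 5) (nat_lit 22) (nat_lit 5) (nat_lit 20) (nat_lit 4) (nat_lit 505) (nat_lit 324) (nat_lit 311)) (XT.nd (nat_lit 78) (nat_lit 152) (nat_lit 0) (XT.lf (nat_lit 0) (nat_lit 6020472872) (nat_lit 152) (nat_lit 8514192653) (nat_lit 0) (nat_lit 1054598609) (nat_lit 18) (nat_lit 5) (nat_lit 20) (nat_lit 4) (nat_lit 18) (nat_lit 4) (nat_lit 506) (nat_lit 324) (nat_lit 310)) (XT.lf (nat_lit 0) (nat_lit 2582866540) (nat_lit 152) (nat_lit 9233414947) (nat_lit 152) (nat_lit 3962762730) (nat_lit 16) (nat_lit 4) (nat_lit 18) (nat_lit 5) (nat_lit 18) (nat_lit 4) (nat_lit 507) (nat_lit 324) (nat_lit 309))))) (XT.nd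 (nat_lit 58032) (nat_lit 0) (nat_lit 2052) (XT.nd (nat_lit 78) (nat_lit 76) (nat_lit 0) (XT.lf (nat_lit 0) (nat_lit 1717110649) (nat_lit 228) (nat_lit 2100890620) (nat_lit 76) (nat_lit 12154699145) (nat_lit 15) (nat_lit 5) (nat_lit 18) (nat_lit 5) (nat_lit 16) (nat_lit 4) (nat_lit 508) (nat_lit 324) (nat_lit 308)) (XT.nd (nat_lit 57876) (nat_lit 0) (nat_lit 2508) (XT.lf (nat_lit 0) (nat_lit 7457068100) (nat_lit 152) (nat_lit 7003030237) (nat_lit 0) (nat_lit 1709619879) (nat_lit 14) (nat_lit 5) (nat_lit 16) (nat_lit 4) (nat_lit 14) (nat_lit 4) (nat_lit 509) (nat_lit 324) (nat_lit 307)) (XT.lf (nat_lit 0) (nat_lit 737999956) (nat_lit 228) (nat_lit 5022791154) (nat_lit 0) (nat_lit 737999956) (nat_lit 47) (nat_lit 5) (nat_lit 50) (nat_lit 4) (nat_lit 47) (nat_lit 4) (nat_lit 490) (nat_lit 325) (nat_lit 325)))) (XT.nd (nat_lit 78) (nat_lit 228) (nat_lit 0) (XT.lf (nat_lit 0) (nat_lit 382006238) (nat_lit 228) (nat_lit 6608967450)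 (nat_lit 228) (nat_lit 6147025763) (nat_lit 44) (nat_lit 4) (nat_lit 47) (nat_lit 5) (nat_lit 47) (nat_lit 4) (nat_lit 491) (nat_lit 325) (nat_lit 324)) (XT.nd (nat_lit 78) (nat_lit 228) (nat_lit 0) (XT.lf (nat_lit 0) (nat_lit 11014065296) (nat_lit 228) (nat_lit 1591106128) (nat_lit 228) (nat_lit 676280435) (nat_lit 44) (nat_lit 4) (nat_lit 47) (nat_lit 5) (nat_lit 47) (nat_lit 4) (nat_lit 492) (nat_lit 325) (nat_lit 323)) (XT.lf (nat_lit 0) (nat_lit 4839522926) (nat_lit 228) (nat_lit 5080282441) (nat_lit 0) (nat_lit 3507337023) (nat_lit 41) (nat_lit 5) (nat_lit 44) (nat_lit 4) (nat_lit 41) (nat_lit 4) (nat_lit 493) (nat_lit 325) (nat_lit 322))))))))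
noncomputable def xc2 : XT := (XT.nd (nat_lit 59436) (nat_lit 0) (nat_lit 0) (XT.nd (nat_lit 858) (nat_lit 608) (nat_lit 0) (XT.nd (nat_lit 390) (nat_lit 684) (nat_lit 0) (XT.nd (nat_lit 156) (nat_lit 380) (nat_lit 0) (XT.nd (nat_lit 78) (nat_lit 228) (nat_lit 0) (XT.lf (nat_lit 0) (nat_lit 5547552794) (nat_lit 152) (nat_lit 4893682557) (nat_lit 152) (nat_lit 3134733941) (nat_lit 39) (nat_lit 4) (nat_lit 41) (nat_lit 5) (nat_lit 41) (nat_lit 4) (nat_lit 494) (nat_lit 325) (nat_lit 321)) (XT.lf (nat_lit 0) (nat_lit 2371063693) (nat_lit 228) (nat_lit 11120471577) (nat_lit 0) (nat_lit 236413267) (nat_lit 36) (nat_lit 5) (nat_lit 39) (nat_lit 4) (nat_lit 36) (nat_lit 4) (nat_lit 495) (nat_lit 325) (nat_lit 320))) (XT.nd (nat_lit 78) (nat_lit 380) (nat_lit 0) (XT.lf (nat_lit 0) (nat_lit 7954775377) (nat_lit 228) (nat_lit 509609866) (nat_lit 0) (nat_lit 5417976914) (nat_lit 36) (nat_lit 5) (nat_lit 39) (nat_lit 4) (nat_lit 36) (nat_lit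 4) (nat_lit 496) (nat_lit 325) (nat_lit 319)) (XT.nd (nat_lit 78) (nat_lit 228) (nat_lit 0) (XT.lf (nat_lit 0) (nat_lit 10312334377) (nat_lit 152) (nat_lit 3329382184) (nat_lit 152) (nat_lit 398320940) (nat_lit 34) (nat_lit 4) (nat_lit 36) (nat_lit 5) (nat_lit 36) (nat_lit 4) (nat_lit 497) (nat_lit 325) (nat_lit 318)) (XT.lf (nat_lit 0) (nat_lit 5159436475) (nat_lit 228) (nat_lit 7134126685) (nat_lit 0) (nat_lit 1906893943) (nat_lit 31) (nat_lit 5) (nat_lit 34) (nat_lit 4) (nat_lit 31) (nat_lit 4) (nat_lit 498) (nat_lit 325) (nat_lit 317))))) (XT.nd (nat_lit 234) (nat_lit 304) (nat_lit 0) (XT.nd (nat_lit 78) (nat_lit 228) (nat_lit 0) (XT.lf (nat_lit 0) (nat_lit 3649505588) (nat_lit 152) (nat_lit 7169339852) (nat_lit 152) (nat_lit 3545274695) (nat_lit 29) (nat_lit 4) (nat_lit 31) (nat_lit 5) (nat_lit 31) (nat_lit 4) (nat_lit 499) (nat_lit 325) (nat_lit 316)) (XT.nd (nat_lit 78) (nat_lit 0) (nat_lit 0) (XT.lf (nat_lit 0) (nat_lit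 65787565) (nat_lit 152) (nat_lit 1941187973) (nat_lit 228) (nat_lit 12524345230) (nat_lit 26) (nat_lit 5) (nat_lit 28) (nat_lit 5) (nat_lit 29) (nat_lit 4) (nat_lit 500) (nat_lit 325) (nat_lit 315)) (XT.lf (nat_lit 0) (nat_lit 7642423834) (nat_lit 228) (nat_lit 3676355694) (nat_lit 0) (nat_lit 3382228763) (nat_lit 26) (nat_lit 5) (nat_lit 29) (nat_lit 4) (nat_lit 26) (nat_lit 4) (nat_lit 501) (nat_lit 325) (nat_lit 314)))) (XT.nd (nat_lit 78) (nat_lit 152) (nat_lit 0) (XT.lf (nat_lit 0) (nat_lit 7276882948) (nat_lit 152) (nat_lit 6100450046) (nat_lit 152) (nat_lit 1497025497) (nat_lit 24) (nat_lit 4) (nat_lit 26) (nat_lit 5) (nat_lit 26) (nat_lit 4) (nat_lit 502) (nat_lit 325) (nat_lit 313)) (XT.nd (nat_lit 78) (nat_lit 0) (nat_lit 0) (XT.lf (nat_lit 0) (nat_lit 3330342507) (nat_lit 76) (nat_lit 763848850) (nat_lit 152) (nat_lit 10956982060) (nat_lit 22) (nat_lit 5) (nat_lit 23) (nat_lit 5) (nat_lit 24) (nat_lit 4) (nat_lit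 503) (nat_lit 325) (nat_lit 312)) (XT.lf (nat_lit 0) (nat_lit 9785820095) (nat_lit 152) (nat_lit 826013212) (nat_lit 0) (nat_lit 4619324512) (nat_lit 22) (nat_lit 5) (nat_lit 24) (nat_lit 4) (nat_lit 22) (nat_lit 4) (nat_lit 504) (nat_lit 325) (nat_lit 311)))))) (XT.nd (nat_lit 58110) (nat_lit 0) (nat_lit 1900) (XT.nd (nat_lit 234) (nat_lit 152) (nat_lit 0) (XT.nd (nat_lit 78) (nat_lit 228) (nat_lit 0) (XT.lf (nat_lit 0) (nat_lit 174398762) (nat_lit 228) (nat_lit 5131301065) (nat_lit 76) (nat_lit 10109019257) (nat_lit 19) (nat_lit 5) (nat_lit 22) (nat_lit 5) (nat_lit 20) (nat_lit 4) (nat_lit 505) (nat_lit 325) (nat_lit 310)) (XT.nd (nat_lit 78) (nat_lit 152) (nat_lit 0) (XT.lf (nat_lit 0) (nat_lit 5807046829) (nat_lit 152) (nat_lit 9668516180) (nat_lit 0) (nat_lit 126203615) (nat_lit 18) (nat_lit 5) (nat_lit 20) (nat_lit 4) (nat_lit 18) (nat_lit 4) (nat_lit 506) (nat_lit 325) (nat_lit 309)) (XT.lf (nat_lit 0) (nat_lit 1346892498)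 (nat_lit 152) (nat_lit 10212584310) (nat_lit 152) (nat_lit 4232939180) (nat_lit 16) (nat_lit 4) (nat_lit 18) (nat_lit 5) (nat_lit 18) (nat_lit 4) (nat_lit 507) (nat_lit 325) (nat_lit 308)))) (XT.nd (nat_lit 78) (nat_lit 76) (nat_lit 0) (XT.lf (nat_lit 0) (nat_lit 1415160875) (nat_lit 228) (nat_lit 3413963215) (nat_lit 76) (nat_lit 11157691156) (nat_lit 15) (nat_lit 5) (nat_lit 18) (nat_lit 5) (nat_lit 16) (nat_lit 4) (nat_lit 508) (nat_lit 325) (nat_lit 307)) (XT.nd (nat_lit 57720) (nat_lit 0) (nat_lit 2964) (XT.lf (nat_lit 0) (nat_lit 7104616197) (nat_lit 152) (nat_lit 8406776283) (nat_lit 0) (nat_lit 673452221) (nat_lit 14) (nat_lit 5) (nat_lit 16) (nat_lit 4) (nat_lit 14) (nat_lit 4) (nat_lit 509) (nat_lit 325) (nat_lit 306)) (XT.lf (nat_lit 0) (nat_lit 1933645250) (nat_lit 228) (nat_lit 2494412571) (nat_lit 0) (nat_lit 1933645250) (nat_lit 53) (nat_lit 5) (nat_lit 56) (nat_lit 4) (nat_lit 53) (nat_lit 4) (nat_lit 488) (nat_lit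 326) (nat_lit 326))))) (XT.nd (nat_lit 234) (nat_lit 380) (nat_lit 0) (XT.nd (nat_lit 78) (nat_lit 456) (nat_lit 0) (XT.lf (nat_lit 0) (nat_lit 5368289052) (nat_lit 228) (nat_lit 3985888168) (nat_lit 228) (nat_lit 3505284037) (nat_lit 50) (nat_lit 4) (nat_lit 53) (nat_lit 5) (nat_lit 53) (nat_lit 4) (nat_lit 489) (nat_lit 326) (nat_lit 325)) (XT.nd (nat_lit 78) (nat_lit 228) (nat_lit 0) (XT.lf (nat_lit 0) (nat_lit 1908008366) (nat_lit 228) (nat_lit 10115473691) (nat_lit 0) (nat_lit 974886160) (nat_lit 47) (nat_lit 5) (nat_lit 50) (nat_lit 4) (nat_lit 47) (nat_lit 4) (nat_lit 490) (nat_lit 326) (nat_lit 324)) (XT.lf (nat_lit 0) (nat_lit 241754465) (nat_lit 228) (nat_lit 7141913082) (nat_lit 228) (nat_lit 5755906869) (nat_lit 44) (nat_lit 4) (nat_lit 47) (nat_lit 5) (nat_lit 47) (nat_lit 4) (nat_lit 491) (nat_lit 326) (nat_lit 323)))) (XT.nd (nat_lit 78) (nat_lit 380) (nat_lit 0) (XT.lf (nat_lit 0) (nat_lit 10805743356) (nat_lit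 228) (nat_lit 2154029004) (nat_lit 228) (nat_lit 324018863) (nat_lit 44) (nat_lit 4) (nat_lit 47) (nat_lit 5) (nat_lit 47) (nat_lit 4) (nat_lit 492) (nat_lit 326) (nat_lit 322)) (XT.nd (nat_lit 78) (nat_lit 152) (nat_lit 0) (XT.lf (nat_lit 0) (nat_lit 5143881026) (nat_lit 228) (nat_lit 5363432374) (nat_lit 0) (nat_lit 2922990723) (nat_lit 41) (nat_lit 5) (nat_lit 44) (nat_lit 4) (nat_lit 41) (nat_lit 4) (nat_lit 493) (nat_lit 326) (nat_lit 321)) (XT.lf (nat_lit 0) (nat_lit 5192393015) (nat_lit 152) (nat_lit 5513410660) (nat_lit 152) (nat_lit 2874125539) (nat_lit 39) (nat_lit 4) (nat_lit 41) (nat_lit 5) (nat_lit 41) (nat_lit 4) (nat_lit 494) (nat_lit 326) (nat_lit 320))))))) (XT.nd (nat_lit 858) (nat_lit 456) (nat_lit 0) (XT.nd (nat_lit 390) (nat_lit 684) (nat_lit 0) (XT.nd (nat_lit 156) (nat_lit 532) (nat_lit 0) (XT.nd (nat_lit 78) (nat_lit 0) (nat_lit 0) (XT.lf (nat_lit 0) (nat_lit 2175152345) (nat_lit 152) (nat_lit 411297389)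 (nat_lit 228) (nat_lit 11146263273) (nat_lit 36) (nat_lit 5) (nat_lit 38) (nat_lit 5) (nat_lit 39) (nat_lit 4) (nat_lit 495) (nat_lit 326) (nat_lit 319)) (XT.lf (nat_lit 0) (nat_lit 8130164642) (nat_lit 228) (nat_lit 1011544785) (nat_lit 0) (nat_lit 4746219392) (nat_lit 36) (nat_lit 5) (nat_lit 39) (nat_lit 4) (nat_lit 36) (nat_lit 4) (nat_lit 496) (nat_lit 326) (nat_lit 318))) (XT.nd (nat_lit 78) (nat_lit 380) (nat_lit 0) (XT.lf (nat_lit 0) (nat_lit 9736656946) (nat_lit 152) (nat_lit 4040116730) (nat_lit 152) (nat_lit 269639340) (nat_lit 34) (nat_lit 4) (nat_lit 36) (nat_lit 5) (nat_lit 36) (nat_lit 4) (nat_lit 497) (nat_lit 326) (nat_lit 317)) (XT.nd (nat_lit 78) (nat_lit 152) (nat_lit 0) (XT.lf (nat_lit 0) (nat_lit 5240783217) (nat_lit 228) (nat_lit 7794233628) (nat_lit 0) (nat_lit 1172714132) (nat_lit 31) (nat_lit 5) (nat_lit 34) (nat_lit 4) (nat_lit 31) (nat_lit 4) (nat_lit 498) (nat_lit 326) (nat_lit 316)) (XT.lf (nat_lit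 0) (nat_lit 2913400224) (nat_lit 152) (nat_lit 7945563692) (nat_lit 152) (nat_lit 3513256740) (nat_lit 29) (nat_lit 4) (nat_lit 31) (nat_lit 5) (nat_lit 31) (nat_lit 4) (nat_lit 499) (nat_lit 326) (nat_lit 315))))) (XT.nd (nat_lit 234) (nat_lit 304) (nat_lit 0) (XT.nd (nat_lit 78) (nat_lit 304) (nat_lit 0) (XT.lf (nat_lit 0) (nat_lit 2001742724) (nat_lit 228) (nat_lit 745882597) (nat_lit 76) (nat_lit 11792530432) (nat_lit 28) (nat_lit 5) (nat_lit 31) (nat_lit 5) (nat_lit 29) (nat_lit 4) (nat_lit 500) (nat_lit 326) (nat_lit 314)) (XT.nd (nat_lit 78) (nat_lit 152) (nat_lit 0) (XT.lf (nat_lit 0) (nat_lit 7590703591) (nat_lit 228) (nat_lit 4568090322) (nat_lit 0) (nat_lit 2551981074) (nat_lit 26) (nat_lit 5) (nat_lit 29) (nat_lit 4) (nat_lit 26) (nat_lit 4) (nat_lit 501) (nat_lit 326) (nat_lit 313)) (XT.lf (nat_lit 0) (nat_lit 6307247679) (nat_lit 152) (nat_lit 6976469673) (nat_lit 152) (nat_lit 1601247668) (nat_lit 24) (nat_lit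 4) (nat_lit 26) (nat_lit 5) (nat_lit 26) (nat_lit 4) (nat_lit 502) (nat_lit 326) (nat_lit 312)))) (XT.nd (nat_lit 78) (nat_lit 152) (nat_lit 0) (XT.lf (nat_lit 0) (nat_lit 2271663362) (nat_lit 76) (nat_lit 1677241006) (nat_lit 152) (nat_lit 11113739596) (nat_lit 22) (nat_lit 5) (nat_lit 23) (nat_lit 5) (nat_lit 24) (nat_lit 4) (nat_lit 503) (nat_lit 326) (nat_lit 311)) (XT.nd (nat_lit 78) (nat_lit 152) (nat_lit 0) (XT.lf (nat_lit 0) (nat_lit 9599129533) (nat_lit 152) (nat_lit 1955548465) (nat_lit 0) (nat_lit 3688780253) (nat_lit 22) (nat_lit 5) (nat_lit 24) (nat_lit 4) (nat_lit 22) (nat_lit 4) (nat_lit 504) (nat_lit 326) (nat_lit 310)) (XT.lf (nat_lit 0) (nat_lit 9075155946) (nat_lit 152) (nat_lit 6286981845) (nat_lit 152) (nat_lit 65759053) (nat_lit 20) (nat_lit 4) (nat_lit 22) (nat_lit 5) (nat_lit 22) (nat_lit 4) (nat_lit 505) (nat_lit 326) (nat_lit 309)))))) (XT.nd (nat_lit 57954) (nat_lit 0) (nat_lit 2052) (XT.nd (nat_lit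 234) (nat_lit 76) (nat_lit 0) (XT.nd (nat_lit 78) (nat_lit 228) (nat_lit 0) (XT.lf (nat_lit 0) (nat_lit 4631928989) (nat_lit 76) (nat_lit 891798602) (nat_lit 152) (nat_lit 10092107519) (nat_lit 18) (nat_lit 5) (nat_lit 19) (nat_lit 5) (nat_lit 20) (nat_lit 4) (nat_lit 506) (nat_lit 326) (nat_lit 308)) (XT.nd (nat_lit 78) (nat_lit 228) (nat_lit 0) (XT.lf (nat_lit 0) (nat_lit 11226961844) (nat_lit 152) (nat_lit 44529378) (nat_lit 0) (nat_lit 4535978842) (nat_lit 18) (nat_lit 5) (nat_lit 20) (nat_lit 4) (nat_lit 18) (nat_lit 4) (nat_lit 507) (nat_lit 326) (nat_lit 307)) (XT.lf (nat_lit 0) (nat_lit 1037231116) (nat_lit 228) (nat_lit 4882975217) (nat_lit 76) (nat_lit 10082408114) (nat_lit 15) (nat_lit 5) (nat_lit 18) (nat_lit 5) (nat_lit 16) (nat_lit 4) (nat_lit 508) (nat_lit 326) (nat_lit 306)))) (XT.nd (nat_lit 57564) (nat_lit 0) (nat_lit 3192) (XT.lf (nat_lit 0) (nat_lit 6230278580) (nat_lit 76) (nat_lit 447953287) (nat_lit 152)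 (nat_lit 9523382706) (nat_lit 14) (nat_lit 5) (nat_lit 15) (nat_lit 5) (nat_lit 16) (nat_lit 4) (nat_lit 509) (nat_lit 326) (nat_lit 305)) (XT.nd (nat_lit 78) (nat_lit 228) (nat_lit 0) (XT.lf (nat_lit 0) (nat_lit 3042312969) (nat_lit 228) (nat_lit 144535288) (nat_lit 0) (nat_lit 3042312969) (nat_lit 59) (nat_lit 5) (nat_lit 62) (nat_lit 4) (nat_lit 59) (nat_lit 4) (nat_lit 486) (nat_lit 327) (nat_lit 327)) (XT.lf (nat_lit 0) (nat_lit 9989123912) (nat_lit 228) (nat_lit 1550541709) (nat_lit 228) (nat_lit 1050521172) (nat_lit 56) (nat_lit 4) (nat_lit 59) (nat_lit 5) (nat_lit 59) (nat_lit 4) (nat_lit 487) (nat_lit 327) (nat_lit 326))))) (XT.nd (nat_lit 234) (nat_lit 456) (nat_lit 0) (XT.nd (nat_lit 78) (nat_lit 456) (nat_lit 0) (XT.lf (nat_lit 0) (nat_lit 4318921827) (nat_lit 228) (nat_lit 5057157277) (nat_lit 0) (nat_lit 3348101484) (nat_lit 53) (nat_lit 5) (nat_lit 56) (nat_lit 4) (nat_lit 53) (nat_lit 4) (nat_lit 488) (nat_lit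 327) (nat_lit 325)) (XT.nd (nat_lit 78) (nat_lit 228) (nat_lit 0) (XT.lf (nat_lit 0) (nat_lit 5231166236) (nat_lit 228) (nat_lit 4535923699) (nat_lit 228) (nat_lit 3093922836) (nat_lit 50) (nat_lit 4) (nat_lit 53) (nat_lit 5) (nat_lit 53) (nat_lit 4) (nat_lit 489) (nat_lit 327) (nat_lit 324)) (XT.lf (nat_lit 0) (nat_lit 2271080937) (nat_lit 228) (nat_lit 10325175246) (nat_lit 0) (nat_lit 404470593) (nat_lit 47) (nat_lit 5) (nat_lit 50) (nat_lit 4) (nat_lit 47) (nat_lit 4) (nat_lit 490) (nat_lit 327) (nat_lit 323)))) (XT.nd (nat_lit 78) (nat_lit 456) (nat_lit 0) (XT.lf (nat_lit 0) (nat_lit 7707519521) (nat_lit 228) (nat_lit 38295157) (nat_lit 0) (nat_lit 5396905250) (nat_lit 47) (nat_lit 5) (nat_lit 50) (nat_lit 4) (nat_lit 47) (nat_lit 4) (nat_lit 491) (nat_lit 327) (nat_lit 322)) (XT.nd (nat_lit 78) (nat_lit 228) (nat_lit 0) (XT.lf (nat_lit 0) (nat_lit 10458449352) (nat_lit 228) (nat_lit 2787577035) (nat_lit 228) (nat_lit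 41664795) (nat_lit 44) (nat_lit 4) (nat_lit 47) (nat_lit 5) (nat_lit 47) (nat_lit 4) (nat_lit 492) (nat_lit 327) (nat_lit 321)) (XT.lf (nat_lit 0) (nat_lit 5378608923) (nat_lit 228) (nat_lit 5788296067) (nat_lit 0) (nat_lit 2268143282) (nat_lit 41) (nat_lit 5) (nat_lit 44) (nat_lit 4) (nat_lit 41) (nat_lit 4) (nat_lit 493) (nat_lit 327) (nat_lit 320))))))))
noncomputable def xc3 : XT := (XT.nd (nat_lit 59124) (nat_lit 0) (nat_lit 0) (XT.nd (nat_lit 858) (nat_lit 608) (nat_lit 0) (XT.nd (nat_lit 390) (nat_lit 684) (nat_lit 0) (XT.nd (nat_lit 156) (nat_lit 380) (nat_lit 0) (XT.nd (nat_lit 78) (nat_lit 228) (nat_lit 0) (XT.lf (nat_lit 0) (nat_lit 4694974349) (nat_lit 152) (nat_lit 6205578784) (nat_lit 152) (nat_lit 2684922145) (nat_lit 39) (nat_lit 4) (nat_lit 41) (nat_lit 5) (nat_lit 41) (nat_lit 4) (nat_lit 494) (nat_lit 327) (nat_lit 319)) (XT.lf (nat_lit 0) (nat_lit 1597293688) (nat_lit 152) (nat_lit 1135428274) (nat_lit 228)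 (nat_lit 11006323791) (nat_lit 36) (nat_lit 5) (nat_lit 38) (nat_lit 5) (nat_lit 39) (nat_lit 4) (nat_lit 495) (nat_lit 327) (nat_lit 318))) (XT.nd (nat_lit 78) (nat_lit 380) (nat_lit 0) (XT.lf (nat_lit 0) (nat_lit 8235140861) (nat_lit 228) (nat_lit 1657227049) (nat_lit 0) (nat_lit 4002721786) (nat_lit 36) (nat_lit 5) (nat_lit 39) (nat_lit 4) (nat_lit 36) (nat_lit 4) (nat_lit 496) (nat_lit 327) (nat_lit 317)) (XT.nd (nat_lit 78) (nat_lit 228) (nat_lit 0) (XT.lf (nat_lit 0) (nat_lit 9016636981) (nat_lit 152) (nat_lit 4824561134) (nat_lit 152) (nat_lit 213188981) (nat_lit 34) (nat_lit 4) (nat_lit 36) (nat_lit 5) (nat_lit 36) (nat_lit 4) (nat_lit 497) (nat_lit 327) (nat_lit 316)) (XT.lf (nat_lit 0) (nat_lit 5250129953) (nat_lit 228) (nat_lit 8601558128) (nat_lit 0) (nat_lit 364938995) (nat_lit 31) (nat_lit 5) (nat_lit 34) (nat_lit 4) (nat_lit 31) (nat_lit 4) (nat_lit 498) (nat_lit 327) (nat_lit 315))))) (XT.nd (nat_lit 234) (nat_lit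 304) (nat_lit 0) (XT.nd (nat_lit 78) (nat_lit 228) (nat_lit 0) (XT.lf (nat_lit 0) (nat_lit 2029439015) (nat_lit 152) (nat_lit 8797398080) (nat_lit 152) (nat_lit 3555111173) (nat_lit 29) (nat_lit 4) (nat_lit 31) (nat_lit 5) (nat_lit 31) (nat_lit 4) (nat_lit 499) (nat_lit 327) (nat_lit 314)) (XT.nd (nat_lit 78) (nat_lit 152) (nat_lit 0) (XT.lf (nat_lit 0) (nat_lit 1924747305) (nat_lit 228) (nat_lit 1704391417) (nat_lit 76) (nat_lit 10921465841) (nat_lit 28) (nat_lit 5) (nat_lit 31) (nat_lit 5) (nat_lit 29) (nat_lit 4) (nat_lit 500) (nat_lit 327) (nat_lit 313)) (XT.lf (nat_lit 0) (nat_lit 7466037178) (nat_lit 228) (nat_lit 5609330717) (nat_lit 0) (nat_lit 1646811245) (nat_lit 26) (nat_lit 5) (nat_lit 29) (nat_lit 4) (nat_lit 26) (nat_lit 4) (nat_lit 501) (nat_lit 327) (nat_lit 312)))) (XT.nd (nat_lit 78) (nat_lit 152) (nat_lit 0) (XT.lf (nat_lit 0) (nat_lit 5187414887) (nat_lit 152) (nat_lit 7929463508) (nat_lit 152) (nat_lit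 1780336117) (nat_lit 24) (nat_lit 4) (nat_lit 26) (nat_lit 5) (nat_lit 26) (nat_lit 4) (nat_lit 502) (nat_lit 327) (nat_lit 311)) (XT.nd (nat_lit 78) (nat_lit 0) (nat_lit 0) (XT.lf (nat_lit 0) (nat_lit 1060914396) (nat_lit 76) (nat_lit 2668528469) (nat_lit 152) (nat_lit 11346330096) (nat_lit 22) (nat_lit 5) (nat_lit 23) (nat_lit 5) (nat_lit 24) (nat_lit 4) (nat_lit 503) (nat_lit 327) (nat_lit 310)) (XT.lf (nat_lit 0) (nat_lit 9338454263) (nat_lit 152) (nat_lit 3237025538) (nat_lit 0) (nat_lit 2681933502) (nat_lit 22) (nat_lit 5) (nat_lit 24) (nat_lit 4) (nat_lit 22) (nat_lit 4) (nat_lit 504) (nat_lit 327) (nat_lit 309)))))) (XT.nd (nat_lit 57798) (nat_lit 0) (nat_lit 2508) (XT.nd (nat_lit 234) (nat_lit 304) (nat_lit 0) (XT.nd (nat_lit 78) (nat_lit 152) (nat_lit 0) (XT.lf (nat_lit 0) (nat_lit 7713034796) (nat_lit 152) (nat_lit 7345488174) (nat_lit 152) (nat_lit 384189460) (nat_lit 20) (nat_lit 4) (nat_lit 22) (nat_lit 5) (nat_lit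 22) (nat_lit 4) (nat_lit 505) (nat_lit 327) (nat_lit 308)) (XT.nd (nat_lit 78) (nat_lit 0) (nat_lit 0) (XT.lf (nat_lit 0) (nat_lit 3175132693) (nat_lit 76) (nat_lit 1990824397) (nat_lit 152) (nat_lit 10465606957) (nat_lit 18) (nat_lit 5) (nat_lit 19) (nat_lit 5) (nat_lit 20) (nat_lit 4) (nat_lit 506) (nat_lit 327) (nat_lit 307)) (XT.lf (nat_lit 0) (nat_lit 10828074700) (nat_lit 152) (nat_lit 1572818366) (nat_lit 0) (nat_lit 3423129912) (nat_lit 18) (nat_lit 5) (nat_lit 20) (nat_lit 4) (nat_lit 18) (nat_lit 4) (nat_lit 507) (nat_lit 327) (nat_lit 306)))) (XT.nd (nat_lit 78) (nat_lit 76) (nat_lit 0) (XT.lf (nat_lit 0) (nat_lit 583173166) (nat_lit 228) (nat_lit 6508502709) (nat_lit 76) (nat_lit 8928428340) (nat_lit 15) (nat_lit 5) (nat_lit 18) (nat_lit 5) (nat_lit 16) (nat_lit 4) (nat_lit 508) (nat_lit 327) (nat_lit 305)) (XT.nd (nat_lit 57408) (nat_lit 0) (nat_lit 3648) (XT.lf (nat_lit 0) (nat_lit 4520624509) (nat_lit 76) (nat_lit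 1659169450) (nat_lit 152) (nat_lit 10040199530) (nat_lit 14) (nat_lit 5) (nat_lit 15) (nat_lit 5) (nat_lit 16) (nat_lit 4) (nat_lit 509) (nat_lit 327) (nat_lit 304)) (XT.lf (nat_lit 0) (nat_lit 2069569072) (nat_lit 228) (nat_lit 2015571210) (nat_lit 228) (nat_lit 2015571210) (nat_lit 62) (nat_lit 4) (nat_lit 65) (nat_lit 5) (nat_lit 65) (nat_lit 4) (nat_lit 484) (nat_lit 328) (nat_lit 328))))) (XT.nd (nat_lit 234) (nat_lit 684) (nat_lit 0) (XT.nd (nat_lit 78) (nat_lit 228) (nat_lit 0) (XT.lf (nat_lit 0) (nat_lit 1234865465) (nat_lit 228) (nat_lit 10369573437) (nat_lit 0) (nat_lit 724844517) (nat_lit 59) (nat_lit 5) (nat_lit 62) (nat_lit 4) (nat_lit 59) (nat_lit 4) (nat_lit 485) (nat_lit 328) (nat_lit 327)) (XT.nd (nat_lit 78) (nat_lit 228) (nat_lit 0) (XT.lf (nat_lit 0) (nat_lit 6556630359) (nat_lit 228) (nat_lit 355866411) (nat_lit 0) (nat_lit 5546588874) (nat_lit 59) (nat_lit 5) (nat_lit 62) (nat_lit 4) (nat_lit 59) (nat_lit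 4) (nat_lit 486) (nat_lit 328) (nat_lit 326)) (XT.lf (nat_lit 0) (nat_lit 9855084009) (nat_lit 228) (nat_lit 2118444653) (nat_lit 228) (nat_lit 618186954) (nat_lit 56) (nat_lit 4) (nat_lit 59) (nat_lit 5) (nat_lit 59) (nat_lit 4) (nat_lit 487) (nat_lit 328) (nat_lit 325)))) (XT.nd (nat_lit 78) (nat_lit 456) (nat_lit 0) (XT.lf (nat_lit 0) (nat_lit 4703172576) (nat_lit 228) (nat_lit 5262180481) (nat_lit 0) (nat_lit 2761151175) (nat_lit 53) (nat_lit 5) (nat_lit 56) (nat_lit 4) (nat_lit 53) (nat_lit 4) (nat_lit 488) (nat_lit 328) (nat_lit 324)) (XT.nd (nat_lit 78) (nat_lit 228) (nat_lit 0) (XT.lf (nat_lit 0) (nat_lit 4956866830) (nat_lit 228) (nat_lit 5155606333) (nat_lit 228) (nat_lit 2751643245) (nat_lit 50) (nat_lit 4) (nat_lit 53) (nat_lit 5) (nat_lit 53) (nat_lit 4) (nat_lit 489) (nat_lit 328) (nat_lit 323)) (XT.lf (nat_lit 0) (nat_lit 2328309395) (nat_lit 152) (nat_lit 238599757) (nat_lit 228) (nat_lit 10437718601) (nat_lit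 47) (nat_lit 5) (nat_lit 49) (nat_lit 5) (nat_lit 50) (nat_lit 4) (nat_lit 490) (nat_lit 328) (nat_lit 322))))))) (XT.nd (nat_lit 936) (nat_lit 760) (nat_lit 0) (XT.nd (nat_lit 468) (nat_lit 912) (nat_lit 0) (XT.nd (nat_lit 234) (nat_lit 380) (nat_lit 0) (XT.nd (nat_lit 78) (nat_lit 456) (nat_lit 0) (XT.lf (nat_lit 0) (nat_lit 7964885877) (nat_lit 228) (nat_lit 453749332) (nat_lit 0) (nat_lit 4728757424) (nat_lit 47) (nat_lit 5) (nat_lit 50) (nat_lit 4) (nat_lit 47) (nat_lit 4) (nat_lit 491) (nat_lit 328) (nat_lit 321)) (XT.nd (nat_lit 78) (nat_lit 152) (nat_lit 0) (XT.lf (nat_lit 0) (nat_lit 168651208) (nat_lit 304) (nat_lit 3322215725) (nat_lit 76) (nat_lit 9802264143) (nat_lit 43) (nat_lit 5) (nat_lit 47) (nat_lit 5) (nat_lit 44) (nat_lit 4) (nat_lit 492) (nat_lit 328) (nat_lit 320)) (XT.lf (nat_lit 0) (nat_lit 5543798667) (nat_lit 228) (nat_lit 6355040134) (nat_lit 0) (nat_lit 1542537898) (nat_lit 41) (nat_lit 5) (nat_lit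 44) (nat_lit 4) (nat_lit 41) (nat_lit 4) (nat_lit 493) (nat_lit 328) (nat_lit 319)))) (XT.nd (nat_lit 78) (nat_lit 228) (nat_lit 0) (XT.lf (nat_lit 0) (nat_lit 4055101731) (nat_lit 152) (nat_lit 6970458368) (nat_lit 152) (nat_lit 2567049562) (nat_lit 39) (nat_lit 4) (nat_lit 41) (nat_lit 5) (nat_lit 41) (nat_lit 4) (nat_lit 494) (nat_lit 328) (nat_lit 318)) (XT.nd (nat_lit 78) (nat_lit 0) (nat_lit 0) (XT.lf (nat_lit 0) (nat_lit 875260837) (nat_lit 152) (nat_lit 1933121551) (nat_lit 228) (nat_lit 10938597977) (nat_lit 36) (nat_lit 5) (nat_lit 38) (nat_lit 5) (nat_lit 39) (nat_lit 4) (nat_lit 495) (nat_lit 328) (nat_lit 317)) (XT.lf (nat_lit 0) (nat_lit 8269745201) (nat_lit 228) (nat_lit 2446909867) (nat_lit 0) (nat_lit 3187192528) (nat_lit 36) (nat_lit 5) (nat_lit 39) (nat_lit 4) (nat_lit 36) (nat_lit 4) (nat_lit 496) (nat_lit 328) (nat_lit 316))))) (XT.nd (nat_lit 234) (nat_lit 380) (nat_lit 0) (XT.nd (nat_lit 78) (nat_lit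 380) (nat_lit 0) (XT.lf (nat_lit 0) (nat_lit 8151992121) (nat_lit 152) (nat_lit 5683023023) (nat_lit 152) (nat_lit 228947725) (nat_lit 34) (nat_lit 4) (nat_lit 36) (nat_lit 5) (nat_lit 36) (nat_lit 4) (nat_lit 497) (nat_lit 328) (nat_lit 315)) (XT.nd (nat_lit 78) (nat_lit 152) (nat_lit 0) (XT.lf (nat_lit 0) (nat_lit 4667264453) (nat_lit 152) (nat_lit 523615555) (nat_lit 228) (nat_lit 9036200887) (nat_lit 31) (nat_lit 5) (nat_lit 33) (nat_lit 5) (nat_lit 34) (nat_lit 4) (nat_lit 498) (nat_lit 328) (nat_lit 314)) (XT.lf (nat_lit 0) (nat_lit 997275309) (nat_lit 152) (nat_lit 9725177068) (nat_lit 152) (nat_lit 3670854408) (nat_lit 29) (nat_lit 4) (nat_lit 31) (nat_lit 5) (nat_lit 31) (nat_lit 4) (nat_lit 499) (nat_lit 328) (nat_lit 313)))) (XT.nd (nat_lit 78) (nat_lit 304) (nat_lit 0) (XT.lf (nat_lit 0) (nat_lit 1775531951) (nat_lit 228) (nat_lit 2810977594) (nat_lit 76) (nat_lit 9976170290) (nat_lit 28) (nat_lit 5) (nat_lit 31)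 (nat_lit 5) (nat_lit 29) (nat_lit 4) (nat_lit 500) (nat_lit 328) (nat_lit 312)) (XT.nd (nat_lit 78) (nat_lit 152) (nat_lit 0) (XT.lf (nat_lit 0) (nat_lit 7268375706) (nat_lit 228) (nat_lit 6800485209) (nat_lit 0) (nat_lit 666364309) (nat_lit 26) (nat_lit 5) (nat_lit 29) (nat_lit 4) (nat_lit 26) (nat_lit 4) (nat_lit 501) (nat_lit 328) (nat_lit 311)) (XT.lf (nat_lit 0) (nat_lit 3916945422) (nat_lit 152) (nat_lit 8959805273) (nat_lit 152) (nat_lit 2034361074) (nat_lit 24) (nat_lit 4) (nat_lit 26) (nat_lit 5) (nat_lit 26) (nat_lit 4) (nat_lit 502) (nat_lit 328) (nat_lit 310)))))) (XT.nd (nat_lit 468) (nat_lit 76) (nat_lit 0) (XT.nd (nat_lit 234) (nat_lit 380) (nat_lit 0) (XT.nd (nat_lit 78) (nat_lit 228) (nat_lit 0) (XT.lf (nat_lit 0) (nat_lit 3437684032) (nat_lit 228) (nat_lit 298413436) (nat_lit 76) (nat_lit 11354428825) (nat_lit 23) (nat_lit 5) (nat_lit 26) (nat_lit 5) (nat_lit 24) (nat_lit 4) (nat_lit 503) (nat_lit 328) (nat_lit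 309)) (XT.nd (nat_lit 78) (nat_lit 152) (nat_lit 0) (XT.lf (nat_lit 0) (nat_lit 9003692058) (nat_lit 152) (nat_lit 4670946971) (nat_lit 0) (nat_lit 1598389416) (nat_lit 22) (nat_lit 5) (nat_lit 24) (nat_lit 4) (nat_lit 22) (nat_lit 4) (nat_lit 504) (nat_lit 328) (nat_lit 308)) (XT.lf (nat_lit 0) (nat_lit 6197690712) (nat_lit 152) (nat_lit 8482804221) (nat_lit 152) (nat_lit 778699664) (nat_lit 20) (nat_lit 4) (nat_lit 22) (nat_lit 5) (nat_lit 22) (nat_lit 4) (nat_lit 505) (nat_lit 328) (nat_lit 307)))) (XT.nd (nat_lit 78) (nat_lit 228) (nat_lit 0) (XT.lf (nat_lit 0) (nat_lit 1563137158) (nat_lit 76) (nat_lit 3169627579) (nat_lit 152) (nat_lit 10916211474) (nat_lit 18) (nat_lit 5) (nat_lit 19) (nat_lit 5) (nat_lit 20) (nat_lit 4) (nat_lit 506) (nat_lit 328) (nat_lit 306)) (XT.nd (nat_lit 78) (nat_lit 228) (nat_lit 0) (XT.lf (nat_lit 0) (nat_lit 10353914031) (nat_lit 152) (nat_lit 3256238531) (nat_lit 0) (nat_lit 2232103556) (nat_lit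 18) (nat_lit 5) (nat_lit 20) (nat_lit 4) (nat_lit 18) (nat_lit 4) (nat_lit 507) (nat_lit 328) (nat_lit 305)) (XT.lf (nat_lit 0) (nat_lit 52808963) (nat_lit 228) (nat_lit 8291183151) (nat_lit 76) (nat_lit 7695299294) (nat_lit 15) (nat_lit 5) (nat_lit 18) (nat_lit 5) (nat_lit 16) (nat_lit 4) (nat_lit 508) (nat_lit 328) (nat_lit 304))))) (XT.nd (nat_lit 57408) (nat_lit 0) (nat_lit 3420) (XT.nd (nat_lit 57252) (nat_lit 0) (nat_lit 3876) (XT.lf (nat_lit 0) (nat_lit 2652954971) (nat_lit 76) (nat_lit 2951721429) (nat_lit 152) (nat_lit 10635400866) (nat_lit 14) (nat_lit 5) (nat_lit 15) (nat_lit 5) (nat_lit 16) (nat_lit 4) (nat_lit 509) (nat_lit 328) (nat_lit 303)) (XT.nd (nat_lit 78) (nat_lit 304) (nat_lit 0) (XT.lf (nat_lit 0) (nat_lit 4135156761) (nat_lit 228) (nat_lit 920646927) (nat_lit 228) (nat_lit 920646927) (nat_lit 69) (nat_lit 4) (nat_lit 72) (nat_lit 5) (nat_lit 72) (nat_lit 4) (nat_lit 482) (nat_lit 329) (nat_lit 329))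 (XT.lf (nat_lit 0) (nat_lit 3377074739) (nat_lit 304) (nat_lit 5852782079) (nat_lit 0) (nat_lit 2846448944) (nat_lit 65) (nat_lit 5) (nat_lit 69) (nat_lit 4) (nat_lit 65) (nat_lit 4) (nat_lit 483) (nat_lit 329) (nat_lit 328)))) (XT.nd (nat_lit 78) (nat_lit 228) (nat_lit 0) (XT.lf (nat_lit 0) (nat_lit 4072988866) (nat_lit 228) (nat_lit 4590021093) (nat_lit 228) (nat_lit 3539173931) (nat_lit 62) (nat_lit 4) (nat_lit 65) (nat_lit 5) (nat_lit 65) (nat_lit 4) (nat_lit 484) (nat_lit 329) (nat_lit 327)) (XT.nd (nat_lit 78) (nat_lit 0) (nat_lit 0) (XT.lf (nat_lit 0) (nat_lit 1678293448) (nat_lit 228) (nat_lit 10504501021) (nat_lit 0) (nat_lit 148030595) (nat_lit 59) (nat_lit 5) (nat_lit 62) (nat_lit 4) (nat_lit 59) (nat_lit 4) (nat_lit 485) (nat_lit 329) (nat_lit 326)) (XT.lf (nat_lit 0) (nat_lit 6962787237) (nat_lit 228) (nat_lit 556280107) (nat_lit 0) (nat_lit 4942308171) (nat_lit 59) (nat_lit 5) (nat_lit 62) (nat_lit 4) (nat_lit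 59) (nat_lit 4) (nat_lit 486) (nat_lit 329) (nat_lit 325))))))))
noncomputable def xc4 : XT := (XT.nd (nat_lit 58812) (nat_lit 0) (nat_lit 760) (XT.nd (nat_lit 858) (nat_lit 1520) (nat_lit 0) (XT.nd (nat_lit 390) (nat_lit 988) (nat_lit 0) (XT.nd (nat_lit 156) (nat_lit 456) (nat_lit 0) (XT.nd (nat_lit 78) (nat_lit 228) (nat_lit 0) (XT.lf (nat_lit 0) (nat_lit 9586951638) (nat_lit 228) (nat_lit 2754452709) (nat_lit 228) (nat_lit 253369512) (nat_lit 56) (nat_lit 4) (nat_lit 59) (nat_lit 5) (nat_lit 59) (nat_lit 4) (nat_lit 487) (nat_lit 329) (nat_lit 324)) (XT.lf (nat_lit 0) (nat_lit 5020193433) (nat_lit 228) (nat_lit 5603975155) (nat_lit 0) (nat_lit 2106209397) (nat_lit 53) (nat_lit 5) (nat_lit 56) (nat_lit 4) (nat_lit 53) (nat_lit 4) (nat_lit 488) (nat_lit 329) (nat_lit 323))) (XT.nd (nat_lit 78) (nat_lit 228) (nat_lit 0) (XT.lf (nat_lit 0) (nat_lit 4545283267) (nat_lit 228) (nat_lit 5845179080) (nat_lit 228) (nat_lit 2478311038)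 (nat_lit 50) (nat_lit 4) (nat_lit 53) (nat_lit 5) (nat_lit 53) (nat_lit 4) (nat_lit 489) (nat_lit 329) (nat_lit 322)) (XT.nd (nat_lit 78) (nat_lit 0) (nat_lit 0) (XT.lf (nat_lit 0) (nat_lit 1839430251) (nat_lit 152) (nat_lit 957749066) (nat_lit 228) (nat_lit 10212861955) (nat_lit 47) (nat_lit 5) (nat_lit 49) (nat_lit 5) (nat_lit 50) (nat_lit 4) (nat_lit 490) (nat_lit 329) (nat_lit 321)) (XT.lf (nat_lit 0) (nat_lit 8154297912) (nat_lit 228) (nat_lit 1007941635) (nat_lit 0) (nat_lit 3991386208) (nat_lit 47) (nat_lit 5) (nat_lit 50) (nat_lit 4) (nat_lit 47) (nat_lit 4) (nat_lit 491) (nat_lit 329) (nat_lit 320))))) (XT.nd (nat_lit 234) (nat_lit 380) (nat_lit 0) (XT.nd (nat_lit 78) (nat_lit 304) (nat_lit 0) (XT.lf (nat_lit 0) (nat_lit 309621654) (nat_lit 304) (nat_lit 3955870780) (nat_lit 76) (nat_lit 9034646445) (nat_lit 43) (nat_lit 5) (nat_lit 47) (nat_lit 5) (nat_lit 44) (nat_lit 4) (nat_lit 492) (nat_lit 329) (nat_lit 319))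 (XT.nd (nat_lit 78) (nat_lit 152) (nat_lit 0) (XT.lf (nat_lit 0) (nat_lit 5639515039) (nat_lit 228) (nat_lit 7063886826) (nat_lit 0) (nat_lit 745890019) (nat_lit 41) (nat_lit 5) (nat_lit 44) (nat_lit 4) (nat_lit 41) (nat_lit 4) (nat_lit 493) (nat_lit 329) (nat_lit 318)) (XT.lf (nat_lit 0) (nat_lit 3272524230) (nat_lit 152) (nat_lit 7808349365) (nat_lit 152) (nat_lit 2520461564) (nat_lit 39) (nat_lit 4) (nat_lit 41) (nat_lit 5) (nat_lit 41) (nat_lit 4) (nat_lit 494) (nat_lit 329) (nat_lit 317)))) (XT.nd (nat_lit 78) (nat_lit 152) (nat_lit 0) (XT.lf (nat_lit 0) (nat_lit 8770641) (nat_lit 152) (nat_lit 2804690042) (nat_lit 228) (nat_lit 10943059271) (nat_lit 36) (nat_lit 5) (nat_lit 38) (nat_lit 5) (nat_lit 39) (nat_lit 4) (nat_lit 495) (nat_lit 329) (nat_lit 316)) (XT.nd (nat_lit 78) (nat_lit 152) (nat_lit 0) (XT.lf (nat_lit 0) (nat_lit 8233991233) (nat_lit 228) (nat_lit 3380902920) (nat_lit 0) (nat_lit 2299311804) (nat_lit 36)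 (nat_lit 5) (nat_lit 39) (nat_lit 4) (nat_lit 36) (nat_lit 4) (nat_lit 496) (nat_lit 329) (nat_lit 315)) (XT.lf (nat_lit 0) (nat_lit 7142383291) (nat_lit 152) (nat_lit 6615839047) (nat_lit 152) (nat_lit 316921752) (nat_lit 34) (nat_lit 4) (nat_lit 36) (nat_lit 5) (nat_lit 36) (nat_lit 4) (nat_lit 497) (nat_lit 329) (nat_lit 314)))))) (XT.nd (nat_lit 468) (nat_lit 684) (nat_lit 0) (XT.nd (nat_lit 234) (nat_lit 380) (nat_lit 0) (XT.nd (nat_lit 78) (nat_lit 228) (nat_lit 0) (XT.lf (nat_lit 0) (nat_lit 3570233945) (nat_lit 152) (nat_lit 1492264662) (nat_lit 228) (nat_lit 9176608157) (nat_lit 31) (nat_lit 5) (nat_lit 33) (nat_lit 5) (nat_lit 34) (nat_lit 4) (nat_lit 498) (nat_lit 329) (nat_lit 313)) (XT.nd (nat_lit 78) (nat_lit 228) (nat_lit 0) (XT.lf (nat_lit 0) (nat_lit 10546960204) (nat_lit 228) (nat_lit 181089084) (nat_lit 0) (nat_lit 3678227547) (nat_lit 31) (nat_lit 5) (nat_lit 34) (nat_lit 4) (nat_lit 31) (nat_lit 4) (nat_lit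 499) (nat_lit 329) (nat_lit 312)) (XT.lf (nat_lit 0) (nat_lit 1554038148) (nat_lit 228) (nat_lit 4066075085) (nat_lit 76) (nat_lit 8956273077) (nat_lit 28) (nat_lit 5) (nat_lit 31) (nat_lit 5) (nat_lit 29) (nat_lit 4) (nat_lit 500) (nat_lit 329) (nat_lit 311)))) (XT.nd (nat_lit 78) (nat_lit 228) (nat_lit 0) (XT.lf (nat_lit 0) (nat_lit 6605282048) (nat_lit 152) (nat_lit 394923719) (nat_lit 228) (nat_lit 7749661303) (nat_lit 26) (nat_lit 5) (nat_lit 28) (nat_lit 5) (nat_lit 29) (nat_lit 4) (nat_lit 501) (nat_lit 329) (nat_lit 310)) (XT.nd (nat_lit 78) (nat_lit 76) (nat_lit 0) (XT.lf (nat_lit 0) (nat_lit 2495341061) (nat_lit 152) (nat_lit 10067899026) (nat_lit 152) (nat_lit 2363422157) (nat_lit 24) (nat_lit 4) (nat_lit 26) (nat_lit 5) (nat_lit 26) (nat_lit 4) (nat_lit 502) (nat_lit 329) (nat_lit 309)) (XT.lf (nat_lit 0) (nat_lit 3079431487) (nat_lit 228) (nat_lit 1794898775) (nat_lit 76) (nat_lit 10232461121) (nat_lit 23) (nat_lit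 5) (nat_lit 26) (nat_lit 5) (nat_lit 24) (nat_lit 4) (nat_lit 503) (nat_lit 329) (nat_lit 308))))) (XT.nd (nat_lit 234) (nat_lit 380) (nat_lit 0) (XT.nd (nat_lit 78) (nat_lit 228) (nat_lit 0) (XT.lf (nat_lit 0) (nat_lit 8594711640) (nat_lit 152) (nat_lit 6257875086) (nat_lit 0) (nat_lit 437723076) (nat_lit 22) (nat_lit 5) (nat_lit 24) (nat_lit 4) (nat_lit 22) (nat_lit 4) (nat_lit 504) (nat_lit 329) (nat_lit 307)) (XT.nd (nat_lit 78) (nat_lit 76) (nat_lit 0) (XT.lf (nat_lit 0) (nat_lit 4528529443) (nat_lit 152) (nat_lit 9699375993) (nat_lit 152) (nat_lit 1249444375) (nat_lit 20) (nat_lit 4) (nat_lit 22) (nat_lit 5) (nat_lit 22) (nat_lit 4) (nat_lit 505) (nat_lit 329) (nat_lit 306)) (XT.lf (nat_lit 0) (nat_lit 4225309634) (nat_lit 228) (nat_lit 202005228) (nat_lit 76) (nat_lit 11240736987) (nat_lit 19) (nat_lit 5) (nat_lit 22) (nat_lit 5) (nat_lit 20) (nat_lit 4) (nat_lit 506) (nat_lit 329) (nat_lit 305)))) (XT.nd (nat_lit 78)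 (nat_lit 304) (nat_lit 0) (XT.lf (nat_lit 0) (nat_lit 9804293892) (nat_lit 152) (nat_lit 5095450037) (nat_lit 0) (nat_lit 962432707) (nat_lit 18) (nat_lit 5) (nat_lit 20) (nat_lit 4) (nat_lit 18) (nat_lit 4) (nat_lit 507) (nat_lit 329) (nat_lit 304)) (XT.nd (nat_lit 78) (nat_lit 152) (nat_lit 0) (XT.lf (nat_lit 0) (nat_lit 5824749815) (nat_lit 152) (nat_lit 9673928057) (nat_lit 152) (nat_lit 561432772) (nat_lit 16) (nat_lit 4) (nat_lit 18) (nat_lit 5) (nat_lit 18) (nat_lit 4) (nat_lit 508) (nat_lit 329) (nat_lit 303)) (XT.lf (nat_lit 0) (nat_lit 626537546) (nat_lit 76) (nat_lit 4326116107) (nat_lit 152) (nat_lit 11309220127) (nat_lit 14) (nat_lit 5) (nat_lit 15) (nat_lit 5) (nat_lit 16) (nat_lit 4) (nat_lit 509) (nat_lit 329) (nat_lit 302))))))) (XT.nd (nat_lit 858) (nat_lit 1748) (nat_lit 0) (XT.nd (nat_lit 390) (nat_lit 1140) (nat_lit 0) (XT.nd (nat_lit 156) (nat_lit 760) (nat_lit 0) (XT.nd (nat_lit 78) (nat_lit 0) (nat_lit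 0) (XT.lf (nat_lit 0) (nat_lit 104515506) (nat_lit 304) (nat_lit 5647149771) (nat_lit 0) (nat_lit 104515506) (nat_lit 72) (nat_lit 5) (nat_lit 76) (nat_lit 4) (nat_lit 72) (nat_lit 4) (nat_lit 480) (nat_lit 330) (nat_lit 330)) (XT.lf (nat_lit 0) (nat_lit 5376663584) (nat_lit 304) (nat_lit 1630333586) (nat_lit 0) (nat_lit 4824600507) (nat_lit 72) (nat_lit 5) (nat_lit 76) (nat_lit 4) (nat_lit 72) (nat_lit 4) (nat_lit 481) (nat_lit 330) (nat_lit 329))) (XT.nd (nat_lit 78) (nat_lit 532) (nat_lit 0) (XT.lf (nat_lit 0) (nat_lit 8205676766) (nat_lit 228) (nat_lit 2420638032) (nat_lit 228) (nat_lit 1327336645) (nat_lit 69) (nat_lit 4) (nat_lit 72) (nat_lit 5) (nat_lit 72) (nat_lit 4) (nat_lit 482) (nat_lit 330) (nat_lit 328)) (XT.nd (nat_lit 78) (nat_lit 228) (nat_lit 0) (XT.lf (nat_lit 0) (nat_lit 3842629879) (nat_lit 304) (nat_lit 5984651151) (nat_lit 0) (nat_lit 2250544407) (nat_lit 65) (nat_lit 5) (nat_lit 69) (nat_lit 4) (nat_lit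 65) (nat_lit 4) (nat_lit 483) (nat_lit 330) (nat_lit 327)) (XT.lf (nat_lit 0) (nat_lit 3874515090) (nat_lit 228) (nat_lit 5216029115) (nat_lit 228) (nat_lit 3113922695) (nat_lit 62) (nat_lit 4) (nat_lit 65) (nat_lit 5) (nat_lit 65) (nat_lit 4) (nat_lit 484) (nat_lit 330) (nat_lit 326))))) (XT.nd (nat_lit 234) (nat_lit 608) (nat_lit 0) (XT.nd (nat_lit 78) (nat_lit 304) (nat_lit 0) (XT.lf (nat_lit 0) (nat_lit 1556172761) (nat_lit 152) (nat_lit 502391455) (nat_lit 228) (nat_lit 10275279506) (nat_lit 59) (nat_lit 5) (nat_lit 61) (nat_lit 5) (nat_lit 62) (nat_lit 4) (nat_lit 485) (nat_lit 330) (nat_lit 325)) (XT.nd (nat_lit 78) (nat_lit 304) (nat_lit 0) (XT.lf (nat_lit 0) (nat_lit 7303255849) (nat_lit 228) (nat_lit 890390258) (nat_lit 0) (nat_lit 4271546858) (nat_lit 59) (nat_lit 5) (nat_lit 62) (nat_lit 4) (nat_lit 59) (nat_lit 4) (nat_lit 486) (nat_lit 330) (nat_lit 324)) (XT.lf (nat_lit 0) (nat_lit 43496176) (nat_lit 304) (nat_lit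 3415027235) (nat_lit 76) (nat_lit 9140833592) (nat_lit 55) (nat_lit 5) (nat_lit 59) (nat_lit 5) (nat_lit 56) (nat_lit 4) (nat_lit 487) (nat_lit 330) (nat_lit 323)))) (XT.nd (nat_lit 78) (nat_lit 456) (nat_lit 0) (XT.lf (nat_lit 0) (nat_lit 5270108720) (nat_lit 228) (nat_lit 6082675335) (nat_lit 0) (nat_lit 1383019311) (nat_lit 53) (nat_lit 5) (nat_lit 56) (nat_lit 4) (nat_lit 53) (nat_lit 4) (nat_lit 488) (nat_lit 330) (nat_lit 322)) (XT.nd (nat_lit 78) (nat_lit 228) (nat_lit 0) (XT.lf (nat_lit 0) (nat_lit 3996254140) (nat_lit 228) (nat_lit 6604912362) (nat_lit 228) (nat_lit 2273819025) (nat_lit 50) (nat_lit 4) (nat_lit 53) (nat_lit 5) (nat_lit 53) (nat_lit 4) (nat_lit 489) (nat_lit 330) (nat_lit 321)) (XT.lf (nat_lit 0) (nat_lit 1211436590) (nat_lit 152) (nat_lit 1747884150) (nat_lit 228) (nat_lit 10057701935) (nat_lit 47) (nat_lit 5) (nat_lit 49) (nat_lit 5) (nat_lit 50) (nat_lit 4) (nat_lit 490) (nat_lit 330) (nat_lit 320))))))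 (XT.nd (nat_lit 468) (nat_lit 912) (nat_lit 0) (XT.nd (nat_lit 234) (nat_lit 380) (nat_lit 0) (XT.nd (nat_lit 78) (nat_lit 456) (nat_lit 0) (XT.lf (nat_lit 0) (nat_lit 8275829907) (nat_lit 228) (nat_lit 1701089396) (nat_lit 0) (nat_lit 3184502436) (nat_lit 47) (nat_lit 5) (nat_lit 50) (nat_lit 4) (nat_lit 47) (nat_lit 4) (nat_lit 491) (nat_lit 330) (nat_lit 319)) (XT.nd (nat_lit 78) (nat_lit 152) (nat_lit 0) (XT.lf (nat_lit 0) (nat_lit 381848265) (nat_lit 304) (nat_lit 4730184971) (nat_lit 76) (nat_lit 8196689513) (nat_lit 43) (nat_lit 5) (nat_lit 47) (nat_lit 5) (nat_lit 44) (nat_lit 4) (nat_lit 492) (nat_lit 330) (nat_lit 318)) (XT.lf (nat_lit 0) (nat_lit 5542863368) (nat_lit 152) (nat_lit 123735579) (nat_lit 228) (nat_lit 7792181918) (nat_lit 41) (nat_lit 5) (nat_lit 43) (nat_lit 5) (nat_lit 44) (nat_lit 4) (nat_lit 493) (nat_lit 330) (nat_lit 317)))) (XT.nd (nat_lit 78) (nat_lit 228) (nat_lit 0) (XT.lf (nat_lit 0) (nat_lit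 2346934953) (nat_lit 152) (nat_lit 8719580359) (nat_lit 152) (nat_lit 2545139882) (nat_lit 39) (nat_lit 4) (nat_lit 41) (nat_lit 5) (nat_lit 41) (nat_lit 4) (nat_lit 494) (nat_lit 330) (nat_lit 316)) (XT.nd (nat_lit 78) (nat_lit 152) (nat_lit 0) (XT.lf (nat_lit 0) (nat_lit 2754467842) (nat_lit 228) (nat_lit 989368511) (nat_lit 76) (nat_lit 10023701729) (nat_lit 38) (nat_lit 5) (nat_lit 41) (nat_lit 5) (nat_lit 39) (nat_lit 4) (nat_lit 495) (nat_lit 330) (nat_lit 315)) (XT.lf (nat_lit 0) (nat_lit 8127864934) (nat_lit 228) (nat_lit 4459572479) (nat_lit 0) (nat_lit 1338731425) (nat_lit 36) (nat_lit 5) (nat_lit 39) (nat_lit 4) (nat_lit 36) (nat_lit 4) (nat_lit 496) (nat_lit 330) (nat_lit 314))))) (XT.nd (nat_lit 234) (nat_lit 532) (nat_lit 0) (XT.nd (nat_lit 78) (nat_lit 228) (nat_lit 0) (XT.lf (nat_lit 0) (nat_lit 5987414564) (nat_lit 152) (nat_lit 7623375018) (nat_lit 152) (nat_lit 477145560) (nat_lit 34) (nat_lit 4) (nat_lit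 36) (nat_lit 5) (nat_lit 36) (nat_lit 4) (nat_lit 497) (nat_lit 330) (nat_lit 313)) (XT.nd (nat_lit 78) (nat_lit 0) (nat_lit 0) (XT.lf (nat_lit 0) (nat_lit 2325996151) (nat_lit 152) (nat_lit 2536538341) (nat_lit 228) (nat_lit 9390222928) (nat_lit 31) (nat_lit 5) (nat_lit 33) (nat_lit 5) (nat_lit 34) (nat_lit 4) (nat_lit 498) (nat_lit 330) (nat_lit 312)) (XT.lf (nat_lit 0) (nat_lit 10306542747) (nat_lit 228) (nat_lit 1493489263) (nat_lit 0) (nat_lit 2620706471) (nat_lit 31) (nat_lit 5) (nat_lit 34) (nat_lit 4) (nat_lit 31) (nat_lit 4) (nat_lit 499) (nat_lit 330) (nat_lit 311)))) (XT.nd (nat_lit 78) (nat_lit 304) (nat_lit 0) (XT.lf (nat_lit 0) (nat_lit 1260179034) (nat_lit 228) (nat_lit 5470176083) (nat_lit 76) (nat_lit 7861374242) (nat_lit 28) (nat_lit 5) (nat_lit 31) (nat_lit 5) (nat_lit 29) (nat_lit 4) (nat_lit 500) (nat_lit 330) (nat_lit 310)) (XT.nd (nat_lit 78) (nat_lit 152) (nat_lit 0) (XT.lf (nat_lit 0) (nat_lit 5121587417)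 (nat_lit 152) (nat_lit 1542154144) (nat_lit 228) (nat_lit 8102322475) (nat_lit 26) (nat_lit 5) (nat_lit 28) (nat_lit 5) (nat_lit 29) (nat_lit 4) (nat_lit 501) (nat_lit 330) (nat_lit 309)) (XT.lf (nat_lit 0) (nat_lit 922044312) (nat_lit 152) (nat_lit 11254179311) (nat_lit 152) (nat_lit 2767648409) (nat_lit 24) (nat_lit 4) (nat_lit 26) (nat_lit 5) (nat_lit 26) (nat_lit 4) (nat_lit 502) (nat_lit 330) (nat_lit 308))))))))
noncomputable def xc5 : XT := (XT.nd (nat_lit 58734) (nat_lit 0) (nat_lit 0) (XT.nd (nat_lit 57798) (nat_lit 0) (nat_lit 1748) (XT.nd (nat_lit 390) (nat_lit 152) (nat_lit 0) (XT.nd (nat_lit 156) (nat_lit 304) (nat_lit 0) (XT.nd (nat_lit 78) (nat_lit 76) (nat_lit 0) (XT.lf (nat_lit 0) (nat_lit 2647656581) (nat_lit 228) (nat_lit 3443042559) (nat_lit 76) (nat_lit 9034013233) (nat_lit 23) (nat_lit 5) (nat_lit 26) (nat_lit 5) (nat_lit 24) (nat_lit 4) (nat_lit 503) (nat_lit 330) (nat_lit 307)) (XT.lf (nat_lit 0) (nat_lit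 7305460028) (nat_lit 76) (nat_lit 811159178) (nat_lit 152) (nat_lit 7192539612) (nat_lit 22) (nat_lit 5) (nat_lit 23) (nat_lit 5) (nat_lit 24) (nat_lit 4) (nat_lit 504) (nat_lit 330) (nat_lit 306))) (XT.nd (nat_lit 78) (nat_lit 152) (nat_lit 0) (XT.lf (nat_lit 0) (nat_lit 2704896415) (nat_lit 152) (nat_lit 10995680577) (nat_lit 152) (nat_lit 1796608200) (nat_lit 20) (nat_lit 4) (nat_lit 22) (nat_lit 5) (nat_lit 22) (nat_lit 4) (nat_lit 505) (nat_lit 330) (nat_lit 305)) (XT.nd (nat_lit 78) (nat_lit 76) (nat_lit 0) (XT.lf (nat_lit 0) (nat_lit 3653228462) (nat_lit 228) (nat_lit 2101118600) (nat_lit 76) (nat_lit 9934254667) (nat_lit 19) (nat_lit 5) (nat_lit 22) (nat_lit 5) (nat_lit 20) (nat_lit 4) (nat_lit 506) (nat_lit 330) (nat_lit 304)) (XT.lf (nat_lit 0) (nat_lit 8790025381) (nat_lit 76) (nat_lit 391515340) (nat_lit 152) (nat_lit 6702200782) (nat_lit 18) (nat_lit 5) (nat_lit 19) (nat_lit 5) (nat_lit 20) (nat_lit 4) (nat_lit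 507) (nat_lit 330) (nat_lit 303))))) (XT.nd (nat_lit 57174) (nat_lit 0) (nat_lit 4028) (XT.nd (nat_lit 57018) (nat_lit 0) (nat_lit 4560) (XT.lf (nat_lit 0) (nat_lit 3743622057) (nat_lit 152) (nat_lit 11084855380) (nat_lit 152) (nat_lit 1254148539) (nat_lit 16) (nat_lit 4) (nat_lit 18) (nat_lit 5) (nat_lit 18) (nat_lit 4) (nat_lit 508) (nat_lit 330) (nat_lit 302)) (XT.nd (nat_lit 78) (nat_lit 228) (nat_lit 0) (XT.lf (nat_lit 0) (nat_lit 1071280920) (nat_lit 304) (nat_lit 3596794130) (nat_lit 0) (nat_lit 1071280920) (nat_lit 79) (nat_lit 5) (nat_lit 83) (nat_lit 4) (nat_lit 79) (nat_lit 4) (nat_lit 478) (nat_lit 331) (nat_lit 331)) (XT.lf (nat_lit 0) (nat_lit 2355059013) (nat_lit 228) (nat_lit 4906922875) (nat_lit 228) (nat_lit 4332556450) (nat_lit 76) (nat_lit 4) (nat_lit 79) (nat_lit 5) (nat_lit 79) (nat_lit 4) (nat_lit 479) (nat_lit 331) (nat_lit 330)))) (XT.nd (nat_lit 78) (nat_lit 228) (nat_lit 0) (XT.lf (nat_lit 0) (nat_lit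 351199119) (nat_lit 228) (nat_lit 385766169) (nat_lit 304) (nat_lit 10976102838) (nat_lit 72) (nat_lit 5) (nat_lit 75) (nat_lit 5) (nat_lit 76) (nat_lit 4) (nat_lit 480) (nat_lit 331) (nat_lit 329)) (XT.nd (nat_lit 78) (nat_lit 228) (nat_lit 0) (XT.lf (nat_lit 0) (nat_lit 5865157217) (nat_lit 304) (nat_lit 1759187436) (nat_lit 0) (nat_lit 4208751492) (nat_lit 72) (nat_lit 5) (nat_lit 76) (nat_lit 4) (nat_lit 72) (nat_lit 4) (nat_lit 481) (nat_lit 331) (nat_lit 328)) (XT.lf (nat_lit 0) (nat_lit 8011741145) (nat_lit 228) (nat_lit 3065596369) (nat_lit 228) (nat_lit 878564849) (nat_lit 69) (nat_lit 4) (nat_lit 72) (nat_lit 5) (nat_lit 72) (nat_lit 4) (nat_lit 482) (nat_lit 331) (nat_lit 327)))))) (XT.nd (nat_lit 468) (nat_lit 1064) (nat_lit 0) (XT.nd (nat_lit 234) (nat_lit 456) (nat_lit 0) (XT.nd (nat_lit 78) (nat_lit 456) (nat_lit 0) (XT.lf (nat_lit 0) (nat_lit 4243296935) (nat_lit 304) (nat_lit 6248441008) (nat_lit 0) (nat_lit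 1589127438) (nat_lit 65) (nat_lit 5) (nat_lit 69) (nat_lit 4) (nat_lit 65) (nat_lit 4) (nat_lit 483) (nat_lit 331) (nat_lit 326)) (XT.nd (nat_lit 78) (nat_lit 228) (nat_lit 0) (XT.lf (nat_lit 0) (nat_lit 3543638983) (nat_lit 228) (nat_lit 5909411981) (nat_lit 228) (nat_lit 2755221947) (nat_lit 62) (nat_lit 4) (nat_lit 65) (nat_lit 5) (nat_lit 65) (nat_lit 4) (nat_lit 484) (nat_lit 331) (nat_lit 325)) (XT.lf (nat_lit 0) (nat_lit 1151033803) (nat_lit 152) (nat_lit 1222946419) (nat_lit 228) (nat_lit 9964397288) (nat_lit 59) (nat_lit 5) (nat_lit 61) (nat_lit 5) (nat_lit 62) (nat_lit 4) (nat_lit 485) (nat_lit 331) (nat_lit 324)))) (XT.nd (nat_lit 78) (nat_lit 456) (nat_lit 0) (XT.lf (nat_lit 0) (nat_lit 7578169712) (nat_lit 228) (nat_lit 1358327890) (nat_lit 0) (nat_lit 3534041890) (nat_lit 59) (nat_lit 5) (nat_lit 62) (nat_lit 4) (nat_lit 59) (nat_lit 4) (nat_lit 486) (nat_lit 331) (nat_lit 323)) (XT.nd (nat_lit 78) (nat_lit 152)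 (nat_lit 0) (XT.lf (nat_lit 0) (nat_lit 270663901) (nat_lit 304) (nat_lit 3959328428) (nat_lit 76) (nat_lit 8375456070) (nat_lit 55) (nat_lit 5) (nat_lit 59) (nat_lit 5) (nat_lit 56) (nat_lit 4) (nat_lit 487) (nat_lit 331) (nat_lit 322)) (XT.lf (nat_lit 0) (nat_lit 5453016443) (nat_lit 228) (nat_lit 6698468747) (nat_lit 0) (nat_lit 591297311) (nat_lit 53) (nat_lit 5) (nat_lit 56) (nat_lit 4) (nat_lit 53) (nat_lit 4) (nat_lit 488) (nat_lit 331) (nat_lit 321))))) (XT.nd (nat_lit 234) (nat_lit 608) (nat_lit 0) (XT.nd (nat_lit 78) (nat_lit 228) (nat_lit 0) (XT.lf (nat_lit 0) (nat_lit 3309564145) (nat_lit 228) (nat_lit 7435104114) (nat_lit 228) (nat_lit 2138087014) (nat_lit 50) (nat_lit 4) (nat_lit 53) (nat_lit 5) (nat_lit 53) (nat_lit 4) (nat_lit 489) (nat_lit 331) (nat_lit 320)) (XT.nd (nat_lit 78) (nat_lit 0) (nat_lit 0) (XT.lf (nat_lit 0) (nat_lit 444082141) (nat_lit 152) (nat_lit 2609314866) (nat_lit 228) (nat_lit 9972177693)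 (nat_lit 47) (nat_lit 5) (nat_lit 49) (nat_lit 5) (nat_lit 50) (nat_lit 4) (nat_lit 490) (nat_lit 331) (nat_lit 319)) (XT.lf (nat_lit 0) (nat_lit 8329529521) (nat_lit 228) (nat_lit 2533464438) (nat_lit 0) (nat_lit 2307789685) (nat_lit 47) (nat_lit 5) (nat_lit 50) (nat_lit 4) (nat_lit 47) (nat_lit 4) (nat_lit 491) (nat_lit 331) (nat_lit 318)))) (XT.nd (nat_lit 78) (nat_lit 304) (nat_lit 0) (XT.lf (nat_lit 0) (nat_lit 385359365) (nat_lit 304) (nat_lit 5645461953) (nat_lit 76) (nat_lit 7288064736) (nat_lit 43) (nat_lit 5) (nat_lit 47) (nat_lit 5) (nat_lit 44) (nat_lit 4) (nat_lit 492) (nat_lit 331) (nat_lit 317)) (XT.nd (nat_lit 78) (nat_lit 152) (nat_lit 0) (XT.lf (nat_lit 0) (nat_lit 4553714419) (nat_lit 152) (nat_lit 1075921755) (nat_lit 228) (nat_lit 7840119683) (nat_lit 41) (nat_lit 5) (nat_lit 43) (nat_lit 5) (nat_lit 44) (nat_lit 4) (nat_lit 493) (nat_lit 331) (nat_lit 316)) (XT.lf (nat_lit 0) (nat_lit 1277970924) (nat_lit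 152) (nat_lit 9704508695) (nat_lit 152) (nat_lit 2641094193) (nat_lit 39) (nat_lit 4) (nat_lit 41) (nat_lit 5) (nat_lit 41) (nat_lit 4) (nat_lit 494) (nat_lit 331) (nat_lit 315))))))) (XT.nd (nat_lit 936) (nat_lit 228) (nat_lit 0) (XT.nd (nat_lit 468) (nat_lit 684) (nat_lit 0) (XT.nd (nat_lit 234) (nat_lit 456) (nat_lit 0) (XT.nd (nat_lit 78) (nat_lit 304) (nat_lit 0) (XT.lf (nat_lit 0) (nat_lit 2625868813) (nat_lit 228) (nat_lit 2130682123) (nat_lit 76) (nat_lit 9023598372) (nat_lit 38) (nat_lit 5) (nat_lit 41) (nat_lit 5) (nat_lit 39) (nat_lit 4) (nat_lit 495) (nat_lit 331) (nat_lit 314)) (XT.nd (nat_lit 78) (nat_lit 152) (nat_lit 0) (XT.lf (nat_lit 0) (nat_lit 7951324687) (nat_lit 228) (nat_lit 5683341551) (nat_lit 0) (nat_lit 305074693) (nat_lit 36) (nat_lit 5) (nat_lit 39) (nat_lit 4) (nat_lit 36) (nat_lit 4) (nat_lit 496) (nat_lit 331) (nat_lit 313)) (XT.lf (nat_lit 0) (nat_lit 4686633012) (nat_lit 152) (nat_lit 8706026046)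 (nat_lit 152) (nat_lit 709681985) (nat_lit 34) (nat_lit 4) (nat_lit 36) (nat_lit 5) (nat_lit 36) (nat_lit 4) (nat_lit 497) (nat_lit 331) (nat_lit 312)))) (XT.nd (nat_lit 78) (nat_lit 228) (nat_lit 0) (XT.lf (nat_lit 0) (nat_lit 934063132) (nat_lit 152) (nat_lit 3656846110) (nat_lit 228) (nat_lit 9677128970) (nat_lit 31) (nat_lit 5) (nat_lit 33) (nat_lit 5) (nat_lit 34) (nat_lit 4) (nat_lit 498) (nat_lit 331) (nat_lit 311)) (XT.nd (nat_lit 78) (nat_lit 228) (nat_lit 0) (XT.lf (nat_lit 0) (nat_lit 9994630752) (nat_lit 228) (nat_lit 2953519340) (nat_lit 0) (nat_lit 1488676804) (nat_lit 31) (nat_lit 5) (nat_lit 34) (nat_lit 4) (nat_lit 31) (nat_lit 4) (nat_lit 499) (nat_lit 331) (nat_lit 310)) (XT.lf (nat_lit 0) (nat_lit 893839372) (nat_lit 228) (nat_lit 7023831218) (nat_lit 76) (nat_lit 6691044411) (nat_lit 28) (nat_lit 5) (nat_lit 31) (nat_lit 5) (nat_lit 29) (nat_lit 4) (nat_lit 500) (nat_lit 331) (nat_lit 309))))) (XT.nd (nat_lit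 234) (nat_lit 304) (nat_lit 0) (XT.nd (nat_lit 78) (nat_lit 228) (nat_lit 0) (XT.lf (nat_lit 0) (nat_lit 3487545935) (nat_lit 152) (nat_lit 2766921227) (nat_lit 228) (nat_lit 8529442989) (nat_lit 26) (nat_lit 5) (nat_lit 28) (nat_lit 5) (nat_lit 29) (nat_lit 4) (nat_lit 501) (nat_lit 331) (nat_lit 308)) (XT.nd (nat_lit 78) (nat_lit 228) (nat_lit 0) (XT.lf (nat_lit 0) (nat_lit 11720766790) (nat_lit 228) (nat_lit 793022945) (nat_lit 0) (nat_lit 2448853804) (nat_lit 26) (nat_lit 5) (nat_lit 29) (nat_lit 4) (nat_lit 26) (nat_lit 4) (nat_lit 502) (nat_lit 331) (nat_lit 307)) (XT.lf (nat_lit 0) (nat_lit 2142189990) (nat_lit 228) (nat_lit 5243491120) (nat_lit 76) (nat_lit 7758615184) (nat_lit 23) (nat_lit 5) (nat_lit 26) (nat_lit 5) (nat_lit 24) (nat_lit 4) (nat_lit 503) (nat_lit 331) (nat_lit 306)))) (XT.nd (nat_lit 78) (nat_lit 228) (nat_lit 0) (XT.lf (nat_lit 0) (nat_lit 5422392990) (nat_lit 76) (nat_lit 2144958962) (nat_lit 152)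 (nat_lit 7762268441) (nat_lit 22) (nat_lit 5) (nat_lit 23) (nat_lit 5) (nat_lit 24) (nat_lit 4) (nat_lit 504) (nat_lit 331) (nat_lit 305)) (XT.nd (nat_lit 78) (nat_lit 76) (nat_lit 0) (XT.lf (nat_lit 0) (nat_lit 726076477) (nat_lit 152) (nat_lit 12372226327) (nat_lit 152) (nat_lit 2420405712) (nat_lit 20) (nat_lit 4) (nat_lit 22) (nat_lit 5) (nat_lit 22) (nat_lit 4) (nat_lit 505) (nat_lit 331) (nat_lit 304)) (XT.lf (nat_lit 0) (nat_lit 3006147951) (nat_lit 228) (nat_lit 4155448534) (nat_lit 76) (nat_lit 8549240402) (nat_lit 19) (nat_lit 5) (nat_lit 22) (nat_lit 5) (nat_lit 20) (nat_lit 4) (nat_lit 506) (nat_lit 331) (nat_lit 303)))))) (XT.nd (nat_lit 57252) (nat_lit 0) (nat_lit 3268) (XT.nd (nat_lit 57018) (nat_lit 0) (nat_lit 4560) (XT.nd (nat_lit 78) (nat_lit 152) (nat_lit 0) (XT.lf (nat_lit 0) (nat_lit 6650739525) (nat_lit 76) (nat_lit 1838983753) (nat_lit 152) (nat_lit 7417149641) (nat_lit 18) (nat_lit 5) (nat_lit 19) (nat_lit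 5) (nat_lit 20) (nat_lit 4) (nat_lit 507) (nat_lit 331) (nat_lit 302)) (XT.nd (nat_lit 56862) (nat_lit 0) (nat_lit 5396) (XT.lf (nat_lit 0) (nat_lit 1504263229) (nat_lit 152) (nat_lit 12577681763) (nat_lit 152) (nat_lit 2024908186) (nat_lit 16) (nat_lit 4) (nat_lit 18) (nat_lit 5) (nat_lit 18) (nat_lit 4) (nat_lit 508) (nat_lit 331) (nat_lit 301)) (XT.lf (nat_lit 0) (nat_lit 1979516785) (nat_lit 304) (nat_lit 1667281828) (nat_lit 0) (nat_lit 1979516785) (nat_lit 87) (nat_lit 5) (nat_lit 91) (nat_lit 4) (nat_lit 87) (nat_lit 4) (nat_lit 476) (nat_lit 332) (nat_lit 332)))) (XT.nd (nat_lit 78) (nat_lit 532) (nat_lit 0) (XT.lf (nat_lit 0) (nat_lit 6115451531) (nat_lit 304) (nat_lit 2923538594) (nat_lit 304) (nat_lit 2325967765) (nat_lit 83) (nat_lit 4) (nat_lit 87) (nat_lit 5) (nat_lit 87) (nat_lit 4) (nat_lit 477) (nat_lit 332) (nat_lit 331)) (XT.nd (nat_lit 78) (nat_lit 228) (nat_lit 0) (XT.lf (nat_lit 0) (nat_lit 2691263409)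 (nat_lit 304) (nat_lit 7257151628) (nat_lit 0) (nat_lit 1531043231) (nat_lit 79) (nat_lit 5) (nat_lit 83) (nat_lit 4) (nat_lit 79) (nat_lit 4) (nat_lit 478) (nat_lit 332) (nat_lit 330)) (XT.lf (nat_lit 0) (nat_lit 2227505733) (nat_lit 228) (nat_lit 5545925855) (nat_lit 228) (nat_lit 3822601339) (nat_lit 76) (nat_lit 4) (nat_lit 79) (nat_lit 5) (nat_lit 79) (nat_lit 4) (nat_lit 479) (nat_lit 332) (nat_lit 329))))) (XT.nd (nat_lit 234) (nat_lit 760) (nat_lit 0) (XT.nd (nat_lit 78) (nat_lit 228) (nat_lit 0) (XT.lf (nat_lit 0) (nat_lit 153858865) (nat_lit 228) (nat_lit 1048738391) (nat_lit 304) (nat_lit 10512655034) (nat_lit 72) (nat_lit 5) (nat_lit 75) (nat_lit 5) (nat_lit 76) (nat_lit 4) (nat_lit 480) (nat_lit 332) (nat_lit 328)) (XT.nd (nat_lit 78) (nat_lit 228) (nat_lit 0) (XT.lf (nat_lit 0) (nat_lit 6290272972) (nat_lit 304) (nat_lit 2016945667) (nat_lit 0) (nat_lit 3528875028) (nat_lit 72) (nat_lit 5) (nat_lit 76) (nat_lit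 4) (nat_lit 72) (nat_lit 4) (nat_lit 481) (nat_lit 332) (nat_lit 327)) (XT.lf (nat_lit 0) (nat_lit 7688430610) (nat_lit 228) (nat_lit 3776421791) (nat_lit 228) (nat_lit 494802479) (nat_lit 69) (nat_lit 4) (nat_lit 72) (nat_lit 5) (nat_lit 72) (nat_lit 4) (nat_lit 482) (nat_lit 332) (nat_lit 326)))) (XT.nd (nat_lit 78) (nat_lit 456) (nat_lit 0) (XT.lf (nat_lit 0) (nat_lit 4579233032) (nat_lit 304) (nat_lit 6644255097) (nat_lit 0) (nat_lit 861938659) (nat_lit 65) (nat_lit 5) (nat_lit 69) (nat_lit 4) (nat_lit 65) (nat_lit 4) (nat_lit 483) (nat_lit 332) (nat_lit 325)) (XT.nd (nat_lit 78) (nat_lit 228) (nat_lit 0) (XT.lf (nat_lit 0) (nat_lit 3080230790) (nat_lit 228) (nat_lit 6670441606) (nat_lit 228) (nat_lit 2462931020) (nat_lit 62) (nat_lit 4) (nat_lit 65) (nat_lit 5) (nat_lit 65) (nat_lit 4) (nat_lit 484) (nat_lit 332) (nat_lit 324)) (XT.lf (nat_lit 0) (nat_lit 611741655) (nat_lit 152) (nat_lit 2011949617) (nat_lit 228) (nat_lit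 9720756411) (nat_lit 59) (nat_lit 5) (nat_lit 61) (nat_lit 5) (nat_lit 62) (nat_lit 4) (nat_lit 485) (nat_lit 332) (nat_lit 323))))))))
noncomputable def xc6 : XT := (XT.nd (nat_lit 58422) (nat_lit 0) (nat_lit 1216) (XT.nd (nat_lit 858) (nat_lit 1368) (nat_lit 0) (XT.nd (nat_lit 390) (nat_lit 988) (nat_lit 0) (XT.nd (nat_lit 156) (nat_lit 456) (nat_lit 0) (XT.nd (nat_lit 78) (nat_lit 304) (nat_lit 0) (XT.lf (nat_lit 0) (nat_lit 7787636635) (nat_lit 228) (nat_lit 1960276505) (nat_lit 0) (nat_lit 2729504050) (nat_lit 59) (nat_lit 5) (nat_lit 62) (nat_lit 4) (nat_lit 59) (nat_lit 4) (nat_lit 486) (nat_lit 332) (nat_lit 322)) (XT.lf (nat_lit 0) (nat_lit 431545733) (nat_lit 304) (nat_lit 4639294209) (nat_lit 76) (nat_lit 7542243395) (nat_lit 55) (nat_lit 5) (nat_lit 59) (nat_lit 5) (nat_lit 56) (nat_lit 4) (nat_lit 487) (nat_lit 332) (nat_lit 321))) (XT.nd (nat_lit 78) (nat_lit 304) (nat_lit 0) (XT.lf (nat_lit 0) (nat_lit 5297914328)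 (nat_lit 152) (nat_lit 272845497) (nat_lit 228) (nat_lit 7180522876) (nat_lit 53) (nat_lit 5) (nat_lit 55) (nat_lit 5) (nat_lit 56) (nat_lit 4) (nat_lit 488) (nat_lit 332) (nat_lit 320)) (XT.nd (nat_lit 78) (nat_lit 76) (nat_lit 0) (XT.lf (nat_lit 0) (nat_lit 2484943990) (nat_lit 228) (nat_lit 8336079901) (nat_lit 228) (nat_lit 2071061776) (nat_lit 50) (nat_lit 4) (nat_lit 53) (nat_lit 5) (nat_lit 53) (nat_lit 4) (nat_lit 489) (nat_lit 332) (nat_lit 319)) (XT.lf (nat_lit 0) (nat_lit 3082450686) (nat_lit 304) (nat_lit 456862556) (nat_lit 76) (nat_lit 9496327345) (nat_lit 49) (nat_lit 5) (nat_lit 53) (nat_lit 5) (nat_lit 50) (nat_lit 4) (nat_lit 490) (nat_lit 332) (nat_lit 318))))) (XT.nd (nat_lit 234) (nat_lit 380) (nat_lit 0) (XT.nd (nat_lit 78) (nat_lit 456) (nat_lit 0) (XT.lf (nat_lit 0) (nat_lit 8315417812) (nat_lit 228) (nat_lit 3505393182) (nat_lit 0) (nat_lit 1360904145) (nat_lit 47) (nat_lit 5) (nat_lit 50) (nat_lit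 4) (nat_lit 47) (nat_lit 4) (nat_lit 491) (nat_lit 332) (nat_lit 317)) (XT.nd (nat_lit 78) (nat_lit 152) (nat_lit 0) (XT.lf (nat_lit 0) (nat_lit 320156332) (nat_lit 304) (nat_lit 6702060657) (nat_lit 76) (nat_lit 6308415790) (nat_lit 43) (nat_lit 5) (nat_lit 47) (nat_lit 5) (nat_lit 44) (nat_lit 4) (nat_lit 492) (nat_lit 332) (nat_lit 316)) (XT.lf (nat_lit 0) (nat_lit 3422575627) (nat_lit 152) (nat_lit 2101129429) (nat_lit 228) (nat_lit 7958614255) (nat_lit 41) (nat_lit 5) (nat_lit 43) (nat_lit 5) (nat_lit 44) (nat_lit 4) (nat_lit 493) (nat_lit 332) (nat_lit 315)))) (XT.nd (nat_lit 78) (nat_lit 228) (nat_lit 0) (XT.lf (nat_lit 0) (nat_lit 65212941) (nat_lit 152) (nat_lit 10763520621) (nat_lit 152) (nat_lit 2808362127) (nat_lit 39) (nat_lit 4) (nat_lit 41) (nat_lit 5) (nat_lit 41) (nat_lit 4) (nat_lit 494) (nat_lit 332) (nat_lit 314)) (XT.nd (nat_lit 78) (nat_lit 152) (nat_lit 0) (XT.lf (nat_lit 0) (nat_lit 2427556221) (nat_lit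 228) (nat_lit 3415732794) (nat_lit 76) (nat_lit 7951070702) (nat_lit 38) (nat_lit 5) (nat_lit 41) (nat_lit 5) (nat_lit 39) (nat_lit 4) (nat_lit 495) (nat_lit 332) (nat_lit 313)) (XT.lf (nat_lit 0) (nat_lit 6896855243) (nat_lit 152) (nat_lit 812722753) (nat_lit 228) (nat_lit 6245244028) (nat_lit 36) (nat_lit 5) (nat_lit 38) (nat_lit 5) (nat_lit 39) (nat_lit 4) (nat_lit 496) (nat_lit 332) (nat_lit 312)))))) (XT.nd (nat_lit 468) (nat_lit 608) (nat_lit 0) (XT.nd (nat_lit 234) (nat_lit 380) (nat_lit 0) (XT.nd (nat_lit 78) (nat_lit 228) (nat_lit 0) (XT.lf (nat_lit 0) (nat_lit 3239528525) (nat_lit 152) (nat_lit 9864216702) (nat_lit 152) (nat_lit 1014622215) (nat_lit 34) (nat_lit 4) (nat_lit 36) (nat_lit 5) (nat_lit 36) (nat_lit 4) (nat_lit 497) (nat_lit 332) (nat_lit 311)) (XT.nd (nat_lit 78) (nat_lit 152) (nat_lit 0) (XT.lf (nat_lit 0) (nat_lit 4251451615) (nat_lit 228) (nat_lit 598161710) (nat_lit 76) (nat_lit 9435263106) (nat_lit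 33) (nat_lit 5) (nat_lit 36) (nat_lit 5) (nat_lit 34) (nat_lit 4) (nat_lit 498) (nat_lit 332) (nat_lit 310)) (XT.lf (nat_lit 0) (nat_lit 9611101901) (nat_lit 228) (nat_lit 4561751875) (nat_lit 0) (nat_lit 281694613) (nat_lit 31) (nat_lit 5) (nat_lit 34) (nat_lit 4) (nat_lit 31) (nat_lit 4) (nat_lit 499) (nat_lit 332) (nat_lit 309)))) (XT.nd (nat_lit 78) (nat_lit 152) (nat_lit 0) (XT.lf (nat_lit 0) (nat_lit 454875497) (nat_lit 228) (nat_lit 8727649765) (nat_lit 76) (nat_lit 5444824634) (nat_lit 28) (nat_lit 5) (nat_lit 31) (nat_lit 5) (nat_lit 29) (nat_lit 4) (nat_lit 500) (nat_lit 332) (nat_lit 308)) (XT.nd (nat_lit 78) (nat_lit 0) (nat_lit 0) (XT.lf (nat_lit 0) (nat_lit 1702516803) (nat_lit 152) (nat_lit 4069705269) (nat_lit 228) (nat_lit 9031190341) (nat_lit 26) (nat_lit 5) (nat_lit 28) (nat_lit 5) (nat_lit 29) (nat_lit 4) (nat_lit 501) (nat_lit 332) (nat_lit 307)) (XT.lf (nat_lit 0) (nat_lit 11198451483) (nat_lit 228) (nat_lit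 2646977062) (nat_lit 0) (nat_lit 1137520369) (nat_lit 26) (nat_lit 5) (nat_lit 29) (nat_lit 4) (nat_lit 26) (nat_lit 4) (nat_lit 502) (nat_lit 332) (nat_lit 306))))) (XT.nd (nat_lit 234) (nat_lit 304) (nat_lit 0) (XT.nd (nat_lit 78) (nat_lit 76) (nat_lit 0) (XT.lf (nat_lit 0) (nat_lit 1562833491) (nat_lit 228) (nat_lit 7196950514) (nat_lit 76) (nat_lit 6405766816) (nat_lit 23) (nat_lit 5) (nat_lit 26) (nat_lit 5) (nat_lit 24) (nat_lit 4) (nat_lit 503) (nat_lit 332) (nat_lit 305)) (XT.nd (nat_lit 78) (nat_lit 0) (nat_lit 0) (XT.lf (nat_lit 0) (nat_lit 3385432498) (nat_lit 76) (nat_lit 3558382223) (nat_lit 152) (nat_lit 8407945425) (nat_lit 22) (nat_lit 5) (nat_lit 23) (nat_lit 5) (nat_lit 24) (nat_lit 4) (nat_lit 504) (nat_lit 332) (nat_lit 304)) (XT.lf (nat_lit 0) (nat_lit 12429992945) (nat_lit 152) (nat_lit 1390230939) (nat_lit 0) (nat_lit 1721521416) (nat_lit 22) (nat_lit 5) (nat_lit 24) (nat_lit 4) (nat_lit 22) (nat_lit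 4) (nat_lit 505) (nat_lit 332) (nat_lit 303)))) (XT.nd (nat_lit 78) (nat_lit 76) (nat_lit 0) (XT.lf (nat_lit 0) (nat_lit 2283814346) (nat_lit 228) (nat_lit 6365800650) (nat_lit 76) (nat_lit 7085151051) (nat_lit 19) (nat_lit 5) (nat_lit 22) (nat_lit 5) (nat_lit 20) (nat_lit 4) (nat_lit 506) (nat_lit 332) (nat_lit 302)) (XT.nd (nat_lit 78) (nat_lit 0) (nat_lit 0) (XT.lf (nat_lit 0) (nat_lit 4354488525) (nat_lit 76) (nat_lit 3367749941) (nat_lit 152) (nat_lit 8209468122) (nat_lit 18) (nat_lit 5) (nat_lit 19) (nat_lit 5) (nat_lit 20) (nat_lit 4) (nat_lit 507) (nat_lit 332) (nat_lit 301)) (XT.lf (nat_lit 0) (nat_lit 13264593553) (nat_lit 152) (nat_lit 882477189) (nat_lit 0) (nat_lit 1985614898) (nat_lit 18) (nat_lit 5) (nat_lit 20) (nat_lit 4) (nat_lit 18) (nat_lit 4) (nat_lit 508) (nat_lit 332) (nat_lit 300))))))) (XT.nd (nat_lit 936) (nat_lit 2052) (nat_lit 0) (XT.nd (nat_lit 468) (nat_lit 1140) (nat_lit 0) (XT.nd (nat_lit 234)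 (nat_lit 836) (nat_lit 0) (XT.nd (nat_lit 78) (nat_lit 304) (nat_lit 0) (XT.lf (nat_lit 0) (nat_lit 154635485) (nat_lit 304) (nat_lit 2681134879) (nat_lit 304) (nat_lit 2681134879) (nat_lit 91) (nat_lit 4) (nat_lit 95) (nat_lit 5) (nat_lit 95) (nat_lit 4) (nat_lit 474) (nat_lit 333) (nat_lit 333)) (XT.nd (nat_lit 78) (nat_lit 304) (nat_lit 0) (XT.lf (nat_lit 0) (nat_lit 9652253146) (nat_lit 304) (nat_lit 1056127286) (nat_lit 304) (nat_lit 434414596) (nat_lit 91) (nat_lit 4) (nat_lit 95) (nat_lit 5) (nat_lit 95) (nat_lit 4) (nat_lit 475) (nat_lit 333) (nat_lit 332)) (XT.lf (nat_lit 0) (nat_lit 4531907181) (nat_lit 304) (nat_lit 3396645902) (nat_lit 0) (nat_lit 3324814108) (nat_lit 87) (nat_lit 5) (nat_lit 91) (nat_lit 4) (nat_lit 87) (nat_lit 4) (nat_lit 476) (nat_lit 333) (nat_lit 331)))) (XT.nd (nat_lit 78) (nat_lit 532) (nat_lit 0) (XT.lf (nat_lit 0) (nat_lit 5990870437) (nat_lit 304) (nat_lit 3584254400) (nat_lit 304) (nat_lit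 1791307573) (nat_lit 83) (nat_lit 4) (nat_lit 87) (nat_lit 5) (nat_lit 87) (nat_lit 4) (nat_lit 477) (nat_lit 333) (nat_lit 330)) (XT.nd (nat_lit 78) (nat_lit 228) (nat_lit 0) (XT.lf (nat_lit 0) (nat_lit 3177363116) (nat_lit 304) (nat_lit 7447866661) (nat_lit 0) (nat_lit 856467772) (nat_lit 79) (nat_lit 5) (nat_lit 83) (nat_lit 4) (nat_lit 79) (nat_lit 4) (nat_lit 478) (nat_lit 333) (nat_lit 329)) (XT.lf (nat_lit 0) (nat_lit 1972349150) (nat_lit 228) (nat_lit 6249815980) (nat_lit 228) (nat_lit 3376857558) (nat_lit 76) (nat_lit 4) (nat_lit 79) (nat_lit 5) (nat_lit 79) (nat_lit 4) (nat_lit 479) (nat_lit 333) (nat_lit 328))))) (XT.nd (nat_lit 234) (nat_lit 608) (nat_lit 0) (XT.nd (nat_lit 78) (nat_lit 456) (nat_lit 0) (XT.lf (nat_lit 0) (nat_lit 1605855165) (nat_lit 304) (nat_lit 170369296) (nat_lit 76) (nat_lit 9942695540) (nat_lit 75) (nat_lit 5) (nat_lit 79) (nat_lit 5) (nat_lit 76) (nat_lit 4) (nat_lit 480) (nat_lit 333) (nat_lit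 327)) (XT.nd (nat_lit 78) (nat_lit 228) (nat_lit 0) (XT.lf (nat_lit 0) (nat_lit 6652177563) (nat_lit 304) (nat_lit 2403709361) (nat_lit 0) (nat_lit 2784704498) (nat_lit 72) (nat_lit 5) (nat_lit 76) (nat_lit 4) (nat_lit 72) (nat_lit 4) (nat_lit 481) (nat_lit 333) (nat_lit 326)) (XT.lf (nat_lit 0) (nat_lit 7235618369) (nat_lit 228) (nat_lit 4553393054) (nat_lit 228) (nat_lit 175899040) (nat_lit 69) (nat_lit 4) (nat_lit 72) (nat_lit 5) (nat_lit 72) (nat_lit 4) (nat_lit 482) (nat_lit 333) (nat_lit 325)))) (XT.nd (nat_lit 78) (nat_lit 304) (nat_lit 0) (XT.lf (nat_lit 0) (nat_lit 4850569909) (nat_lit 304) (nat_lit 7172248640) (nat_lit 0) (nat_lit 68692898) (nat_lit 65) (nat_lit 5) (nat_lit 69) (nat_lit 4) (nat_lit 65) (nat_lit 4) (nat_lit 483) (nat_lit 333) (nat_lit 324)) (XT.nd (nat_lit 78) (nat_lit 76) (nat_lit 0) (XT.lf (nat_lit 0) (nat_lit 2484108782) (nat_lit 228) (nat_lit 7499416432) (nat_lit 228) (nat_lit 2236935290) (nat_lit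 62) (nat_lit 4) (nat_lit 65) (nat_lit 5) (nat_lit 65) (nat_lit 4) (nat_lit 484) (nat_lit 333) (nat_lit 323)) (XT.lf (nat_lit 0) (nat_lit 2808197286) (nat_lit 304) (nat_lit 61103141) (nat_lit 76) (nat_lit 9482748155) (nat_lit 61) (nat_lit 5) (nat_lit 65) (nat_lit 5) (nat_lit 62) (nat_lit 4) (nat_lit 485) (nat_lit 333) (nat_lit 322)))))) (XT.nd (nat_lit 468) (nat_lit 988) (nat_lit 0) (XT.nd (nat_lit 234) (nat_lit 456) (nat_lit 0) (XT.nd (nat_lit 78) (nat_lit 456) (nat_lit 0) (XT.lf (nat_lit 0) (nat_lit 7931738762) (nat_lit 228) (nat_lit 2696472163) (nat_lit 0) (nat_lit 1857617833) (nat_lit 59) (nat_lit 5) (nat_lit 62) (nat_lit 4) (nat_lit 59) (nat_lit 4) (nat_lit 486) (nat_lit 333) (nat_lit 321)) (XT.nd (nat_lit 78) (nat_lit 152) (nat_lit 0) (XT.lf (nat_lit 0) (nat_lit 526204764) (nat_lit 304) (nat_lit 5455191233) (nat_lit 76) (nat_lit 6640868817) (nat_lit 55) (nat_lit 5) (nat_lit 59) (nat_lit 5) (nat_lit 56) (nat_lit 4) (nat_lit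 487) (nat_lit 333) (nat_lit 320)) (XT.lf (nat_lit 0) (nat_lit 4411012526) (nat_lit 152) (nat_lit 1214945568) (nat_lit 228) (nat_lit 7135297739) (nat_lit 53) (nat_lit 5) (nat_lit 55) (nat_lit 5) (nat_lit 56) (nat_lit 4) (nat_lit 488) (nat_lit 333) (nat_lit 319)))) (XT.nd (nat_lit 78) (nat_lit 228) (nat_lit 0) (XT.lf (nat_lit 0) (nat_lit 1522070296) (nat_lit 228) (nat_lit 9308193046) (nat_lit 228) (nat_lit 2072717027) (nat_lit 50) (nat_lit 4) (nat_lit 53) (nat_lit 5) (nat_lit 53) (nat_lit 4) (nat_lit 489) (nat_lit 333) (nat_lit 318)) (XT.nd (nat_lit 78) (nat_lit 152) (nat_lit 0) (XT.lf (nat_lit 0) (nat_lit 3047278677) (nat_lit 304) (nat_lit 1490164087) (nat_lit 76) (nat_lit 8509765809) (nat_lit 49) (nat_lit 5) (nat_lit 53) (nat_lit 5) (nat_lit 50) (nat_lit 4) (nat_lit 490) (nat_lit 333) (nat_lit 317)) (XT.lf (nat_lit 0) (nat_lit 8233489247) (nat_lit 228) (nat_lit 4617256777) (nat_lit 0) (nat_lit 343474488) (nat_lit 47) (nat_lit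 5) (nat_lit 50) (nat_lit 4) (nat_lit 47) (nat_lit 4) (nat_lit 491) (nat_lit 333) (nat_lit 316))))) (XT.nd (nat_lit 234) (nat_lit 532) (nat_lit 0) (XT.nd (nat_lit 78) (nat_lit 152) (nat_lit 0) (XT.lf (nat_lit 0) (nat_lit 186213595) (nat_lit 304) (nat_lit 7900395435) (nat_lit 76) (nat_lit 5257358499) (nat_lit 43) (nat_lit 5) (nat_lit 47) (nat_lit 5) (nat_lit 44) (nat_lit 4) (nat_lit 492) (nat_lit 333) (nat_lit 315)) (XT.nd (nat_lit 78) (nat_lit 0) (nat_lit 0) (XT.lf (nat_lit 0) (nat_lit 2149003406) (nat_lit 152) (nat_lit 3199760643) (nat_lit 228) (nat_lit 8147712102) (nat_lit 41) (nat_lit 5) (nat_lit 43) (nat_lit 5) (nat_lit 44) (nat_lit 4) (nat_lit 493) (nat_lit 333) (nat_lit 314)) (XT.lf (nat_lit 0) (nat_lit 10613604166) (nat_lit 228) (nat_lit 1274872205) (nat_lit 0) (nat_lit 1763582010) (nat_lit 41) (nat_lit 5) (nat_lit 44) (nat_lit 4) (nat_lit 41) (nat_lit 4) (nat_lit 494) (nat_lit 333) (nat_lit 313)))) (XT.nd (nat_lit 78)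 (nat_lit 304) (nat_lit 0) (XT.lf (nat_lit 0) (nat_lit 2159452295) (nat_lit 228) (nat_lit 4845024467) (nat_lit 76) (nat_lit 6805698118) (nat_lit 38) (nat_lit 5) (nat_lit 41) (nat_lit 5) (nat_lit 39) (nat_lit 4) (nat_lit 495) (nat_lit 333) (nat_lit 312)) (XT.nd (nat_lit 78) (nat_lit 152) (nat_lit 0) (XT.lf (nat_lit 0) (nat_lit 5390271947) (nat_lit 152) (nat_lit 2009472665) (nat_lit 228) (nat_lit 6571729127) (nat_lit 36) (nat_lit 5) (nat_lit 38) (nat_lit 5) (nat_lit 39) (nat_lit 4) (nat_lit 496) (nat_lit 333) (nat_lit 311)) (XT.lf (nat_lit 0) (nat_lit 1645533610) (nat_lit 152) (nat_lit 11098401178) (nat_lit 152) (nat_lit 1392085836) (nat_lit 34) (nat_lit 4) (nat_lit 36) (nat_lit 5) (nat_lit 36) (nat_lit 4) (nat_lit 497) (nat_lit 333) (nat_lit 310))))))))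
noncomputable def xc7 : XT := (XT.nd (nat_lit 58266) (nat_lit 0) (nat_lit 76) (XT.nd (nat_lit 57330) (nat_lit 0) (nat_lit 3572) (XT.nd (nat_lit 390) (nat_lit 608) (nat_lit 0) (XT.nd (nat_lit 156) (nat_lit 380) (nat_lit 0) (XT.nd (nat_lit 78) (nat_lit 152) (nat_lit 0) (XT.lf (nat_lit 0) (nat_lit 3847122629) (nat_lit 228) (nat_lit 2265029088) (nat_lit 76) (nat_lit 8191065078) (nat_lit 33) (nat_lit 5) (nat_lit 36) (nat_lit 5) (nat_lit 34) (nat_lit 4) (nat_lit 498) (nat_lit 333) (nat_lit 309)) (XT.lf (nat_lit 0) (nat_lit 8148377050) (nat_lit 152) (nat_lit 1014012382) (nat_lit 228) (nat_lit 5311388806) (nat_lit 31) (nat_lit 5) (nat_lit 33) (nat_lit 5) (nat_lit 34) (nat_lit 4) (nat_lit 499) (nat_lit 333) (nat_lit 308))) (XT.nd (nat_lit 78) (nat_lit 228) (nat_lit 0) (XT.lf (nat_lit 0) (nat_lit 4064959737) (nat_lit 152) (nat_lit 10525033431) (nat_lit 152) (nat_lit 57640700) (nat_lit 29) (nat_lit 4) (nat_lit 31) (nat_lit 5) (nat_lit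 31) (nat_lit 4) (nat_lit 500) (nat_lit 333) (nat_lit 307)) (XT.nd (nat_lit 78) (nat_lit 152) (nat_lit 0) (XT.lf (nat_lit 0) (nat_lit 5218337756) (nat_lit 228) (nat_lit 231128415) (nat_lit 76) (nat_lit 9375081888) (nat_lit 28) (nat_lit 5) (nat_lit 31) (nat_lit 5) (nat_lit 29) (nat_lit 4) (nat_lit 501) (nat_lit 333) (nat_lit 306)) (XT.lf (nat_lit 0) (nat_lit 10350594943) (nat_lit 152) (nat_lit 254141464) (nat_lit 228) (nat_lit 4400146446) (nat_lit 26) (nat_lit 5) (nat_lit 28) (nat_lit 5) (nat_lit 29) (nat_lit 4) (nat_lit 502) (nat_lit 333) (nat_lit 305))))) (XT.nd (nat_lit 234) (nat_lit 304) (nat_lit 0) (XT.nd (nat_lit 78) (nat_lit 76) (nat_lit 0) (XT.lf (nat_lit 0) (nat_lit 909359887) (nat_lit 228) (nat_lit 9304186805) (nat_lit 76) (nat_lit 4974937600) (nat_lit 23) (nat_lit 5) (nat_lit 26) (nat_lit 5) (nat_lit 24) (nat_lit 4) (nat_lit 503) (nat_lit 333) (nat_lit 304)) (XT.nd (nat_lit 78) (nat_lit 0) (nat_lit 0) (XT.lf (nat_lit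 0) (nat_lit 1193779743) (nat_lit 76) (nat_lit 5051983246) (nat_lit 152) (nat_lit 9129823770) (nat_lit 22) (nat_lit 5) (nat_lit 23) (nat_lit 5) (nat_lit 24) (nat_lit 4) (nat_lit 504) (nat_lit 333) (nat_lit 303)) (XT.lf (nat_lit 0) (nat_lit 11691967708) (nat_lit 152) (nat_lit 3651759358) (nat_lit 0) (nat_lit 222645865) (nat_lit 22) (nat_lit 5) (nat_lit 24) (nat_lit 4) (nat_lit 22) (nat_lit 4) (nat_lit 505) (nat_lit 333) (nat_lit 302)))) (XT.nd (nat_lit 78) (nat_lit 76) (nat_lit 0) (XT.lf (nat_lit 0) (nat_lit 1485944376) (nat_lit 228) (nat_lit 8733041751) (nat_lit 76) (nat_lit 5541412459) (nat_lit 19) (nat_lit 5) (nat_lit 22) (nat_lit 5) (nat_lit 20) (nat_lit 4) (nat_lit 506) (nat_lit 333) (nat_lit 301)) (XT.nd (nat_lit 78) (nat_lit 0) (nat_lit 0) (XT.lf (nat_lit 0) (nat_lit 1900371890) (nat_lit 76) (nat_lit 4978413421) (nat_lit 152) (nat_lit 9079466940) (nat_lit 18) (nat_lit 5) (nat_lit 19) (nat_lit 5) (nat_lit 20) (nat_lit 4)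 (nat_lit 507) (nat_lit 333) (nat_lit 300)) (XT.lf (nat_lit 0) (nat_lit 12381100363) (nat_lit 152) (nat_lit 3407439669) (nat_lit 0) (nat_lit 371493502) (nat_lit 18) (nat_lit 5) (nat_lit 20) (nat_lit 4) (nat_lit 18) (nat_lit 4) (nat_lit 508) (nat_lit 333) (nat_lit 299)))))) (XT.nd (nat_lit 468) (nat_lit 1368) (nat_lit 0) (XT.nd (nat_lit 234) (nat_lit 608) (nat_lit 0) (XT.nd (nat_lit 78) (nat_lit 608) (nat_lit 0) (XT.lf (nat_lit 0) (nat_lit 1898204607) (nat_lit 304) (nat_lit 1756305123) (nat_lit 304) (nat_lit 1756305123) (nat_lit 99) (nat_lit 4) (nat_lit 103) (nat_lit 5) (nat_lit 103) (nat_lit 4) (nat_lit 472) (nat_lit 334) (nat_lit 334)) (XT.nd (nat_lit 78) (nat_lit 304) (nat_lit 0) (XT.lf (nat_lit 0) (nat_lit 1353453956) (nat_lit 304) (nat_lit 8854492087) (nat_lit 0) (nat_lit 719307012) (nat_lit 95) (nat_lit 5) (nat_lit 99) (nat_lit 4) (nat_lit 95) (nat_lit 4) (nat_lit 473) (nat_lit 334) (nat_lit 333)) (XT.lf (nat_lit 0) (nat_lit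 247844676) (nat_lit 304) (nat_lit 6021280130) (nat_lit 304) (nat_lit 4765420496) (nat_lit 91) (nat_lit 4) (nat_lit 95) (nat_lit 5) (nat_lit 95) (nat_lit 4) (nat_lit 474) (nat_lit 334) (nat_lit 332)))) (XT.nd (nat_lit 78) (nat_lit 532) (nat_lit 0) (XT.lf (nat_lit 0) (nat_lit 124217526) (nat_lit 380) (nat_lit 1614462475) (nat_lit 76) (nat_lit 9405553903) (nat_lit 90) (nat_lit 5) (nat_lit 95) (nat_lit 5) (nat_lit 91) (nat_lit 4) (nat_lit 475) (nat_lit 334) (nat_lit 331)) (XT.nd (nat_lit 78) (nat_lit 304) (nat_lit 0) (XT.lf (nat_lit 0) (nat_lit 5043659593) (nat_lit 304) (nat_lit 3582916982) (nat_lit 0) (nat_lit 2629000076) (nat_lit 87) (nat_lit 5) (nat_lit 91) (nat_lit 4) (nat_lit 87) (nat_lit 4) (nat_lit 476) (nat_lit 334) (nat_lit 330)) (XT.lf (nat_lit 0) (nat_lit 5741659393) (nat_lit 304) (nat_lit 4308374288) (nat_lit 304) (nat_lit 1319348347) (nat_lit 83) (nat_lit 4) (nat_lit 87) (nat_lit 5) (nat_lit 87) (nat_lit 4) (nat_lit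 477) (nat_lit 334) (nat_lit 329))))) (XT.nd (nat_lit 234) (nat_lit 760) (nat_lit 0) (XT.nd (nat_lit 78) (nat_lit 304) (nat_lit 0) (XT.lf (nat_lit 0) (nat_lit 3601051589) (nat_lit 304) (nat_lit 7765808147) (nat_lit 0) (nat_lit 118570922) (nat_lit 79) (nat_lit 5) (nat_lit 83) (nat_lit 4) (nat_lit 79) (nat_lit 4) (nat_lit 478) (nat_lit 334) (nat_lit 328)) (XT.nd (nat_lit 78) (nat_lit 76) (nat_lit 0) (XT.lf (nat_lit 0) (nat_lit 1589489205) (nat_lit 228) (nat_lit 7018869284) (nat_lit 228) (nat_lit 2995150307) (nat_lit 76) (nat_lit 4) (nat_lit 79) (nat_lit 5) (nat_lit 79) (nat_lit 4) (nat_lit 479) (nat_lit 334) (nat_lit 327)) (XT.lf (nat_lit 0) (nat_lit 1947614191) (nat_lit 304) (nat_lit 620164104) (nat_lit 76) (nat_lit 9156280065) (nat_lit 75) (nat_lit 5) (nat_lit 79) (nat_lit 5) (nat_lit 76) (nat_lit 4) (nat_lit 480) (nat_lit 334) (nat_lit 326)))) (XT.nd (nat_lit 78) (nat_lit 532) (nat_lit 0) (XT.lf (nat_lit 0) (nat_lit 6951012912)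 (nat_lit 304) (nat_lit 2919630190) (nat_lit 0) (nat_lit 1975948070) (nat_lit 72) (nat_lit 5) (nat_lit 76) (nat_lit 4) (nat_lit 72) (nat_lit 4) (nat_lit 481) (nat_lit 334) (nat_lit 325)) (XT.nd (nat_lit 78) (nat_lit 228) (nat_lit 0) (XT.lf (nat_lit 0) (nat_lit 77243995) (nat_lit 304) (nat_lit 5319052507) (nat_lit 76) (nat_lit 6575364508) (nat_lit 68) (nat_lit 5) (nat_lit 72) (nat_lit 5) (nat_lit 69) (nat_lit 4) (nat_lit 482) (nat_lit 334) (nat_lit 324)) (XT.lf (nat_lit 0) (nat_lit 4261185554) (nat_lit 228) (nat_lit 801431844) (nat_lit 304) (nat_lit 7036400275) (nat_lit 65) (nat_lit 5) (nat_lit 68) (nat_lit 5) (nat_lit 69) (nat_lit 4) (nat_lit 483) (nat_lit 334) (nat_lit 323))))))) (XT.nd (nat_lit 936) (nat_lit 1444) (nat_lit 0) (XT.nd (nat_lit 468) (nat_lit 912) (nat_lit 0) (XT.nd (nat_lit 234) (nat_lit 684) (nat_lit 0) (XT.nd (nat_lit 78) (nat_lit 228) (nat_lit 0) (XT.lf (nat_lit 0) (nat_lit 1755039187) (nat_lit 228) (nat_lit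 8396661547) (nat_lit 228) (nat_lit 2077146132) (nat_lit 62) (nat_lit 4) (nat_lit 65) (nat_lit 5) (nat_lit 65) (nat_lit 4) (nat_lit 484) (nat_lit 334) (nat_lit 322)) (XT.nd (nat_lit 78) (nat_lit 152) (nat_lit 0) (XT.lf (nat_lit 0) (nat_lit 2932014400) (nat_lit 304) (nat_lit 858788012) (nat_lit 76) (nat_lit 8570291902) (nat_lit 61) (nat_lit 5) (nat_lit 65) (nat_lit 5) (nat_lit 62) (nat_lit 4) (nat_lit 485) (nat_lit 334) (nat_lit 321)) (XT.lf (nat_lit 0) (nat_lit 8010532604) (nat_lit 228) (nat_lit 3567203567) (nat_lit 0) (nat_lit 918041322) (nat_lit 59) (nat_lit 5) (nat_lit 62) (nat_lit 4) (nat_lit 59) (nat_lit 4) (nat_lit 486) (nat_lit 334) (nat_lit 320)))) (XT.nd (nat_lit 78) (nat_lit 380) (nat_lit 0) (XT.lf (nat_lit 0) (nat_lit 554678114) (nat_lit 304) (nat_lit 6407339458) (nat_lit 76) (nat_lit 5670978856) (nat_lit 55) (nat_lit 5) (nat_lit 59) (nat_lit 5) (nat_lit 56) (nat_lit 4) (nat_lit 487) (nat_lit 334) (nat_lit 319)) (XT.nd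 (nat_lit 78) (nat_lit 228) (nat_lit 0) (XT.lf (nat_lit 0) (nat_lit 3387228461) (nat_lit 152) (nat_lit 2227514323) (nat_lit 228) (nat_lit 7158040830) (nat_lit 53) (nat_lit 5) (nat_lit 55) (nat_lit 5) (nat_lit 56) (nat_lit 4) (nat_lit 488) (nat_lit 334) (nat_lit 318)) (XT.lf (nat_lit 0) (nat_lit 420565465) (nat_lit 228) (nat_lit 10351824771) (nat_lit 228) (nat_lit 2143053416) (nat_lit 50) (nat_lit 4) (nat_lit 53) (nat_lit 5) (nat_lit 53) (nat_lit 4) (nat_lit 489) (nat_lit 334) (nat_lit 317))))) (XT.nd (nat_lit 234) (nat_lit 456) (nat_lit 0) (XT.nd (nat_lit 78) (nat_lit 380) (nat_lit 0) (XT.lf (nat_lit 0) (nat_lit 2944983913) (nat_lit 304) (nat_lit 2662051886) (nat_lit 76) (nat_lit 7453305064) (nat_lit 49) (nat_lit 5) (nat_lit 53) (nat_lit 5) (nat_lit 50) (nat_lit 4) (nat_lit 490) (nat_lit 334) (nat_lit 316)) (XT.nd (nat_lit 78) (nat_lit 228) (nat_lit 0) (XT.lf (nat_lit 0) (nat_lit 7333814760) (nat_lit 152) (nat_lit 754797583)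 (nat_lit 228) (nat_lit 5119594312) (nat_lit 47) (nat_lit 5) (nat_lit 49) (nat_lit 5) (nat_lit 50) (nat_lit 4) (nat_lit 491) (nat_lit 334) (nat_lit 315)) (XT.lf (nat_lit 0) (nat_lit 4117848444) (nat_lit 228) (nat_lit 9224303983) (nat_lit 228) (nat_lit 16740932) (nat_lit 44) (nat_lit 4) (nat_lit 47) (nat_lit 5) (nat_lit 47) (nat_lit 4) (nat_lit 492) (nat_lit 334) (nat_lit 314)))) (XT.nd (nat_lit 78) (nat_lit 228) (nat_lit 0) (XT.lf (nat_lit 0) (nat_lit 732498317) (nat_lit 152) (nat_lit 4372246233) (nat_lit 228) (nat_lit 8407487380) (nat_lit 41) (nat_lit 5) (nat_lit 43) (nat_lit 5) (nat_lit 44) (nat_lit 4) (nat_lit 493) (nat_lit 334) (nat_lit 313)) (XT.nd (nat_lit 78) (nat_lit 228) (nat_lit 0) (XT.lf (nat_lit 0) (nat_lit 10329980013) (nat_lit 228) (nat_lit 2757004685) (nat_lit 0) (nat_lit 581623598) (nat_lit 41) (nat_lit 5) (nat_lit 44) (nat_lit 4) (nat_lit 41) (nat_lit 4) (nat_lit 494) (nat_lit 334) (nat_lit 312)) (XT.lf (nat_lit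 0) (nat_lit 1821451897) (nat_lit 228) (nat_lit 6419117647) (nat_lit 76) (nat_lit 5587031455) (nat_lit 38) (nat_lit 5) (nat_lit 41) (nat_lit 5) (nat_lit 39) (nat_lit 4) (nat_lit 495) (nat_lit 334) (nat_lit 311)))))) (XT.nd (nat_lit 468) (nat_lit 684) (nat_lit 0) (XT.nd (nat_lit 234) (nat_lit 380) (nat_lit 0) (XT.nd (nat_lit 78) (nat_lit 228) (nat_lit 0) (XT.lf (nat_lit 0) (nat_lit 3738105888) (nat_lit 152) (nat_lit 3281590075) (nat_lit 228) (nat_lit 6970046786) (nat_lit 36) (nat_lit 5) (nat_lit 38) (nat_lit 5) (nat_lit 39) (nat_lit 4) (nat_lit 496) (nat_lit 334) (nat_lit 310)) (XT.nd (nat_lit 78) (nat_lit 228) (nat_lit 0) (XT.lf (nat_lit 0) (nat_lit 12313709785) (nat_lit 228) (nat_lit 94718074) (nat_lit 0) (nat_lit 1746867190) (nat_lit 36) (nat_lit 5) (nat_lit 39) (nat_lit 4) (nat_lit 36) (nat_lit 4) (nat_lit 497) (nat_lit 334) (nat_lit 309)) (XT.lf (nat_lit 0) (nat_lit 3371699167) (nat_lit 228) (nat_lit 4079443078) (nat_lit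 76) (nat_lit 6872045543) (nat_lit 33) (nat_lit 5) (nat_lit 36) (nat_lit 5) (nat_lit 34) (nat_lit 4) (nat_lit 498) (nat_lit 334) (nat_lit 308)))) (XT.nd (nat_lit 78) (nat_lit 228) (nat_lit 0) (XT.lf (nat_lit 0) (nat_lit 6253683180) (nat_lit 152) (nat_lit 2390400760) (nat_lit 228) (nat_lit 5850524708) (nat_lit 31) (nat_lit 5) (nat_lit 33) (nat_lit 5) (nat_lit 34) (nat_lit 4) (nat_lit 499) (nat_lit 334) (nat_lit 307)) (XT.nd (nat_lit 78) (nat_lit 76) (nat_lit 0) (XT.lf (nat_lit 0) (nat_lit 2076782668) (nat_lit 152) (nat_lit 11942561142) (nat_lit 152) (nat_lit 650169090) (nat_lit 29) (nat_lit 4) (nat_lit 31) (nat_lit 5) (nat_lit 31) (nat_lit 4) (nat_lit 500) (nat_lit 334) (nat_lit 306)) (XT.lf (nat_lit 0) (nat_lit 4603119484) (nat_lit 228) (nat_lit 2292892607) (nat_lit 76) (nat_lit 7951102838) (nat_lit 28) (nat_lit 5) (nat_lit 31) (nat_lit 5) (nat_lit 29) (nat_lit 4) (nat_lit 501) (nat_lit 334) (nat_lit 305))))) (XT.nd (nat_lit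 234) (nat_lit 304) (nat_lit 0) (XT.nd (nat_lit 78) (nat_lit 228) (nat_lit 0) (XT.lf (nat_lit 0) (nat_lit 8206241307) (nat_lit 152) (nat_lit 1739490538) (nat_lit 228) (nat_lit 5082595246) (nat_lit 26) (nat_lit 5) (nat_lit 28) (nat_lit 5) (nat_lit 29) (nat_lit 4) (nat_lit 502) (nat_lit 334) (nat_lit 304)) (XT.nd (nat_lit 78) (nat_lit 0) (nat_lit 0) (XT.lf (nat_lit 0) (nat_lit 181512912) (nat_lit 228) (nat_lit 11566026361) (nat_lit 76) (nat_lit 3465566427) (nat_lit 23) (nat_lit 5) (nat_lit 26) (nat_lit 5) (nat_lit 24) (nat_lit 4) (nat_lit 503) (nat_lit 334) (nat_lit 303)) (XT.lf (nat_lit 0) (nat_lit 5480411809) (nat_lit 228) (nat_lit 1138297373) (nat_lit 76) (nat_lit 8782250618) (nat_lit 23) (nat_lit 5) (nat_lit 26) (nat_lit 5) (nat_lit 24) (nat_lit 4) (nat_lit 504) (nat_lit 334) (nat_lit 302)))) (XT.nd (nat_lit 78) (nat_lit 228) (nat_lit 0) (XT.lf (nat_lit 0) (nat_lit 9514681315) (nat_lit 76) (nat_lit 1373459597) (nat_lit 152)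 (nat_lit 4704376090) (nat_lit 22) (nat_lit 5) (nat_lit 23) (nat_lit 5) (nat_lit 24) (nat_lit 4) (nat_lit 505) (nat_lit 334) (nat_lit 301)) (XT.nd (nat_lit 78) (nat_lit 0) (nat_lit 0) (XT.lf (nat_lit 0) (nat_lit 612225153) (nat_lit 228) (nat_lit 11258100167) (nat_lit 76) (nat_lit 3917419241) (nat_lit 19) (nat_lit 5) (nat_lit 22) (nat_lit 5) (nat_lit 20) (nat_lit 4) (nat_lit 506) (nat_lit 334) (nat_lit 300)) (XT.lf (nat_lit 0) (nat_lit 5963659543) (nat_lit 228) (nat_lit 703227258) (nat_lit 76) (nat_lit 9319540988) (nat_lit 19) (nat_lit 5) (nat_lit 22) (nat_lit 5) (nat_lit 20) (nat_lit 4) (nat_lit 507) (nat_lit 334) (nat_lit 299))))))))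
noncomputable def xc8 : XT := (XT.nd (nat_lit 58110) (nat_lit 0) (nat_lit 0) (XT.nd (nat_lit 57174) (nat_lit 0) (nat_lit 2204) (XT.nd (nat_lit 56706) (nat_lit 0) (nat_lit 4408) (XT.nd (nat_lit 56472) (nat_lit 0) (nat_lit 5852) (XT.nd (nat_lit 56394) (nat_lit 0) (nat_lit 6840) (XT.lf (nat_lit 0) (nat_lit 10088877844) (nat_lit 76) (nat_lit 1341182282) (nat_lit 152) (nat_lit 4758868636) (nat_lit 18) (nat_lit 5) (nat_lit 19) (nat_lit 5) (nat_lit 20) (nat_lit 4) (nat_lit 508) (nat_lit 334) (nat_lit 298)) (XT.lf (nat_lit 0) (nat_lit 3551111284) (nat_lit 304) (nat_lit 878517691) (nat_lit 304) (nat_lit 878517691) (nat_lit 108) (nat_lit 4) (nat_lit 112) (nat_lit 5) (nat_lit 112) (nat_lit 4) (nat_lit 470) (nat_lit 335) (nat_lit 335))) (XT.nd (nat_lit 78) (nat_lit 608) (nat_lit 0) (XT.lf (nat_lit 0) (nat_lit 3057675600) (nat_lit 380) (nat_lit 5262707385) (nat_lit 0) (nat_lit 2397909120) (nat_lit 103) (nat_lit 5) (nat_lit 108) (nat_lit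 4) (nat_lit 103) (nat_lit 4) (nat_lit 471) (nat_lit 335) (nat_lit 334)) (XT.nd (nat_lit 78) (nat_lit 304) (nat_lit 0) (XT.lf (nat_lit 0) (nat_lit 3736444871) (nat_lit 304) (nat_lit 4196253327) (nat_lit 304) (nat_lit 2889656964) (nat_lit 99) (nat_lit 4) (nat_lit 103) (nat_lit 5) (nat_lit 103) (nat_lit 4) (nat_lit 472) (nat_lit 335) (nat_lit 333)) (XT.lf (nat_lit 0) (nat_lit 1927232464) (nat_lit 304) (nat_lit 8976945856) (nat_lit 0) (nat_lit 24542947) (nat_lit 95) (nat_lit 5) (nat_lit 99) (nat_lit 4) (nat_lit 95) (nat_lit 4) (nat_lit 473) (nat_lit 335) (nat_lit 332))))) (XT.nd (nat_lit 234) (nat_lit 836) (nat_lit 0) (XT.nd (nat_lit 78) (nat_lit 304) (nat_lit 0) (XT.lf (nat_lit 0) (nat_lit 63541704) (nat_lit 304) (nat_lit 6742710044) (nat_lit 304) (nat_lit 4230498283) (nat_lit 91) (nat_lit 4) (nat_lit 95) (nat_lit 5) (nat_lit 95) (nat_lit 4) (nat_lit 474) (nat_lit 335) (nat_lit 331)) (XT.nd (nat_lit 78) (nat_lit 228) (nat_lit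 0) (XT.lf (nat_lit 0) (nat_lit 616744943) (nat_lit 380) (nat_lit 1863957804) (nat_lit 76) (nat_lit 8666377359) (nat_lit 90) (nat_lit 5) (nat_lit 95) (nat_lit 5) (nat_lit 91) (nat_lit 4) (nat_lit 475) (nat_lit 335) (nat_lit 330)) (XT.lf (nat_lit 0) (nat_lit 5494491495) (nat_lit 304) (nat_lit 3893449946) (nat_lit 0) (nat_lit 1871318609) (nat_lit 87) (nat_lit 5) (nat_lit 91) (nat_lit 4) (nat_lit 87) (nat_lit 4) (nat_lit 476) (nat_lit 335) (nat_lit 329)))) (XT.nd (nat_lit 78) (nat_lit 532) (nat_lit 0) (XT.lf (nat_lit 0) (nat_lit 5367720670) (nat_lit 304) (nat_lit 5096182227) (nat_lit 304) (nat_lit 909905004) (nat_lit 83) (nat_lit 4) (nat_lit 87) (nat_lit 5) (nat_lit 87) (nat_lit 4) (nat_lit 477) (nat_lit 335) (nat_lit 328)) (XT.nd (nat_lit 78) (nat_lit 228) (nat_lit 0) (XT.lf (nat_lit 0) (nat_lit 3274975425) (nat_lit 228) (nat_lit 692012557) (nat_lit 304) (nat_lit 7523581218) (nat_lit 79) (nat_lit 5) (nat_lit 82) (nat_lit 5) (nat_lit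 83) (nat_lit 4) (nat_lit 478) (nat_lit 335) (nat_lit 327)) (XT.lf (nat_lit 0) (nat_lit 1078775755) (nat_lit 228) (nat_lit 7853387357) (nat_lit 228) (nat_lit 2677329896) (nat_lit 76) (nat_lit 4) (nat_lit 79) (nat_lit 5) (nat_lit 79) (nat_lit 4) (nat_lit 479) (nat_lit 335) (nat_lit 326)))))) (XT.nd (nat_lit 468) (nat_lit 1064) (nat_lit 0) (XT.nd (nat_lit 234) (nat_lit 532) (nat_lit 0) (XT.nd (nat_lit 78) (nat_lit 532) (nat_lit 0) (XT.lf (nat_lit 0) (nat_lit 2227009402) (nat_lit 304) (nat_lit 1197719835) (nat_lit 76) (nat_lit 8305960122) (nat_lit 75) (nat_lit 5) (nat_lit 79) (nat_lit 5) (nat_lit 76) (nat_lit 4) (nat_lit 480) (nat_lit 335) (nat_lit 325)) (XT.nd (nat_lit 78) (nat_lit 304) (nat_lit 0) (XT.lf (nat_lit 0) (nat_lit 7186896209) (nat_lit 304) (nat_lit 3564910476) (nat_lit 0) (nat_lit 1102288584) (nat_lit 72) (nat_lit 5) (nat_lit 76) (nat_lit 4) (nat_lit 72) (nat_lit 4) (nat_lit 481) (nat_lit 335) (nat_lit 324)) (XT.lf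 (nat_lit 0) (nat_lit 264293577) (nat_lit 304) (nat_lit 6040950810) (nat_lit 76) (nat_lit 5674660501) (nat_lit 68) (nat_lit 5) (nat_lit 72) (nat_lit 5) (nat_lit 69) (nat_lit 4) (nat_lit 482) (nat_lit 335) (nat_lit 323)))) (XT.nd (nat_lit 78) (nat_lit 304) (nat_lit 0) (XT.lf (nat_lit 0) (nat_lit 3471082849) (nat_lit 228) (nat_lit 1740061119) (nat_lit 304) (nat_lit 6896890739) (nat_lit 65) (nat_lit 5) (nat_lit 68) (nat_lit 5) (nat_lit 69) (nat_lit 4) (nat_lit 483) (nat_lit 335) (nat_lit 322)) (XT.nd (nat_lit 78) (nat_lit 76) (nat_lit 0) (XT.lf (nat_lit 0) (nat_lit 892736093) (nat_lit 228) (nat_lit 9362528813) (nat_lit 228) (nat_lit 1983500883) (nat_lit 62) (nat_lit 4) (nat_lit 65) (nat_lit 5) (nat_lit 65) (nat_lit 4) (nat_lit 484) (nat_lit 335) (nat_lit 321)) (XT.lf (nat_lit 0) (nat_lit 2991219336) (nat_lit 304) (nat_lit 1789648876) (nat_lit 76) (nat_lit 7590799649) (nat_lit 61) (nat_lit 5) (nat_lit 65) (nat_lit 5) (nat_lit 62)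 (nat_lit 4) (nat_lit 485) (nat_lit 335) (nat_lit 320))))) (XT.nd (nat_lit 234) (nat_lit 456) (nat_lit 0) (XT.nd (nat_lit 78) (nat_lit 456) (nat_lit 0) (XT.lf (nat_lit 0) (nat_lit 7933853896) (nat_lit 152) (nat_lit 90784598) (nat_lit 228) (nat_lit 4482617017) (nat_lit 59) (nat_lit 5) (nat_lit 61) (nat_lit 5) (nat_lit 62) (nat_lit 4) (nat_lit 486) (nat_lit 335) (nat_lit 319)) (XT.nd (nat_lit 78) (nat_lit 152) (nat_lit 0) (XT.lf (nat_lit 0) (nat_lit 516976950) (nat_lit 304) (nat_lit 7496112277) (nat_lit 76) (nat_lit 4632193162) (nat_lit 55) (nat_lit 5) (nat_lit 59) (nat_lit 5) (nat_lit 56) (nat_lit 4) (nat_lit 487) (nat_lit 335) (nat_lit 318)) (XT.lf (nat_lit 0) (nat_lit 2226160650) (nat_lit 152) (nat_lit 3310948847) (nat_lit 228) (nat_lit 7248761066) (nat_lit 53) (nat_lit 5) (nat_lit 55) (nat_lit 5) (nat_lit 56) (nat_lit 4) (nat_lit 488) (nat_lit 335) (nat_lit 317)))) (XT.nd (nat_lit 78) (nat_lit 456) (nat_lit 0) (XT.lf (nat_lit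 0) (nat_lit 10652705878) (nat_lit 228) (nat_lit 809247985) (nat_lit 0) (nat_lit 1467420061) (nat_lit 53) (nat_lit 5) (nat_lit 56) (nat_lit 4) (nat_lit 53) (nat_lit 4) (nat_lit 489) (nat_lit 335) (nat_lit 316)) (XT.nd (nat_lit 78) (nat_lit 152) (nat_lit 0) (XT.lf (nat_lit 0) (nat_lit 2775526278) (nat_lit 304) (nat_lit 3972985515) (nat_lit 76) (nat_lit 6326530810) (nat_lit 49) (nat_lit 5) (nat_lit 53) (nat_lit 5) (nat_lit 50) (nat_lit 4) (nat_lit 490) (nat_lit 335) (nat_lit 315)) (XT.lf (nat_lit 0) (nat_lit 5948604317) (nat_lit 152) (nat_lit 1929952640) (nat_lit 228) (nat_lit 5345165561) (nat_lit 47) (nat_lit 5) (nat_lit 49) (nat_lit 5) (nat_lit 50) (nat_lit 4) (nat_lit 491) (nat_lit 335) (nat_lit 314))))))) (XT.nd (nat_lit 858) (nat_lit 608) (nat_lit 0) (XT.nd (nat_lit 390) (nat_lit 760) (nat_lit 0) (XT.nd (nat_lit 156) (nat_lit 532) (nat_lit 0) (XT.nd (nat_lit 78) (nat_lit 76) (nat_lit 0) (XT.lf (nat_lit 0) (nat_lit 2649280436)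 (nat_lit 228) (nat_lit 10434147158) (nat_lit 228) (nat_lit 291957143) (nat_lit 44) (nat_lit 4) (nat_lit 47) (nat_lit 5) (nat_lit 47) (nat_lit 4) (nat_lit 492) (nat_lit 335) (nat_lit 313)) (XT.lf (nat_lit 0) (nat_lit 4796923513) (nat_lit 304) (nat_lit 816642384) (nat_lit 76) (nat_lit 7915919478) (nat_lit 43) (nat_lit 5) (nat_lit 47) (nat_lit 5) (nat_lit 44) (nat_lit 4) (nat_lit 493) (nat_lit 335) (nat_lit 312))) (XT.nd (nat_lit 78) (nat_lit 380) (nat_lit 0) (XT.lf (nat_lit 0) (nat_lit 9299621949) (nat_lit 152) (nat_lit 682133386) (nat_lit 228) (nat_lit 3704916481) (nat_lit 41) (nat_lit 5) (nat_lit 43) (nat_lit 5) (nat_lit 44) (nat_lit 4) (nat_lit 494) (nat_lit 335) (nat_lit 311)) (XT.nd (nat_lit 78) (nat_lit 152) (nat_lit 0) (XT.lf (nat_lit 0) (nat_lit 1413422479) (nat_lit 228) (nat_lit 8138629628) (nat_lit 76) (nat_lit 4294592805) (nat_lit 38) (nat_lit 5) (nat_lit 41) (nat_lit 5) (nat_lit 39) (nat_lit 4) (nat_lit 495) (nat_lit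 335) (nat_lit 310)) (XT.lf (nat_lit 0) (nat_lit 1939709157) (nat_lit 152) (nat_lit 4629573853) (nat_lit 228) (nat_lit 7440353209) (nat_lit 36) (nat_lit 5) (nat_lit 38) (nat_lit 5) (nat_lit 39) (nat_lit 4) (nat_lit 496) (nat_lit 335) (nat_lit 309))))) (XT.nd (nat_lit 234) (nat_lit 380) (nat_lit 0) (XT.nd (nat_lit 78) (nat_lit 380) (nat_lit 0) (XT.lf (nat_lit 0) (nat_lit 11823924210) (nat_lit 228) (nat_lit 1959643108) (nat_lit 0) (nat_lit 392410502) (nat_lit 36) (nat_lit 5) (nat_lit 39) (nat_lit 4) (nat_lit 36) (nat_lit 4) (nat_lit 497) (nat_lit 335) (nat_lit 308)) (XT.nd (nat_lit 78) (nat_lit 152) (nat_lit 0) (XT.lf (nat_lit 0) (nat_lit 2824994788) (nat_lit 228) (nat_lit 6042115217) (nat_lit 76) (nat_lit 5477687237) (nat_lit 33) (nat_lit 5) (nat_lit 36) (nat_lit 5) (nat_lit 34) (nat_lit 4) (nat_lit 498) (nat_lit 335) (nat_lit 307)) (XT.lf (nat_lit 0) (nat_lit 4209862210) (nat_lit 152) (nat_lit 3844266707) (nat_lit 228) (nat_lit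 6462955942) (nat_lit 31) (nat_lit 5) (nat_lit 33) (nat_lit 5) (nat_lit 34) (nat_lit 4) (nat_lit 499) (nat_lit 335) (nat_lit 306)))) (XT.nd (nat_lit 78) (nat_lit 380) (nat_lit 0) (XT.lf (nat_lit 0) (nat_lit 13376564614) (nat_lit 228) (nat_lit 61737835) (nat_lit 0) (nat_lit 1254744853) (nat_lit 31) (nat_lit 5) (nat_lit 34) (nat_lit 4) (nat_lit 31) (nat_lit 4) (nat_lit 500) (nat_lit 335) (nat_lit 305)) (XT.nd (nat_lit 78) (nat_lit 152) (nat_lit 0) (XT.lf (nat_lit 0) (nat_lit 3915272125) (nat_lit 228) (nat_lit 4505913121) (nat_lit 76) (nat_lit 6450157704) (nat_lit 28) (nat_lit 5) (nat_lit 31) (nat_lit 5) (nat_lit 29) (nat_lit 4) (nat_lit 501) (nat_lit 335) (nat_lit 304)) (XT.lf (nat_lit 0) (nat_lit 5909703382) (nat_lit 152) (nat_lit 3303992295) (nat_lit 228) (nat_lit 5839744820) (nat_lit 26) (nat_lit 5) (nat_lit 28) (nat_lit 5) (nat_lit 29) (nat_lit 4) (nat_lit 502) (nat_lit 335) (nat_lit 303)))))) (XT.nd (nat_lit 56628) (nat_lit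 0) (nat_lit 5852) (XT.nd (nat_lit 234) (nat_lit 304) (nat_lit 0) (XT.nd (nat_lit 78) (nat_lit 152) (nat_lit 0) (XT.lf (nat_lit 0) (nat_lit 1251901336) (nat_lit 152) (nat_lit 13358196125) (nat_lit 152) (nat_lit 629245530) (nat_lit 24) (nat_lit 4) (nat_lit 26) (nat_lit 5) (nat_lit 26) (nat_lit 4) (nat_lit 503) (nat_lit 335) (nat_lit 302)) (XT.nd (nat_lit 78) (nat_lit 76) (nat_lit 0) (XT.lf (nat_lit 0) (nat_lit 4648736037) (nat_lit 228) (nat_lit 3609137899) (nat_lit 76) (nat_lit 7169989782) (nat_lit 23) (nat_lit 5) (nat_lit 26) (nat_lit 5) (nat_lit 24) (nat_lit 4) (nat_lit 504) (nat_lit 335) (nat_lit 301)) (XT.lf (nat_lit 0) (nat_lit 6957845952) (nat_lit 76) (nat_lit 3053420482) (nat_lit 152) (nat_lit 5609059949) (nat_lit 22) (nat_lit 5) (nat_lit 23) (nat_lit 5) (nat_lit 24) (nat_lit 4) (nat_lit 505) (nat_lit 335) (nat_lit 300)))) (XT.nd (nat_lit 78) (nat_lit 152) (nat_lit 0) (XT.lf (nat_lit 0) (nat_lit 1872582527) (nat_lit 152)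 (nat_lit 13602014110) (nat_lit 152) (nat_lit 342173626) (nat_lit 20) (nat_lit 4) (nat_lit 22) (nat_lit 5) (nat_lit 22) (nat_lit 4) (nat_lit 506) (nat_lit 335) (nat_lit 299)) (XT.nd (nat_lit 78) (nat_lit 76) (nat_lit 0) (XT.lf (nat_lit 0) (nat_lit 4985250322) (nat_lit 228) (nat_lit 3439658908) (nat_lit 76) (nat_lit 7591160056) (nat_lit 19) (nat_lit 5) (nat_lit 22) (nat_lit 5) (nat_lit 20) (nat_lit 4) (nat_lit 507) (nat_lit 335) (nat_lit 298)) (XT.lf (nat_lit 0) (nat_lit 7263860586) (nat_lit 76) (nat_lit 3141509111) (nat_lit 152) (nat_lit 5814127561) (nat_lit 18) (nat_lit 5) (nat_lit 19) (nat_lit 5) (nat_lit 20) (nat_lit 4) (nat_lit 508) (nat_lit 335) (nat_lit 297))))) (XT.nd (nat_lit 234) (nat_lit 988) (nat_lit 0) (XT.nd (nat_lit 78) (nat_lit 684) (nat_lit 0) (XT.lf (nat_lit 0) (nat_lit 5122526117) (nat_lit 304) (nat_lit 43132946) (nat_lit 304) (nat_lit 43132946) (nat_lit 117) (nat_lit 4) (nat_lit 121) (nat_lit 5) (nat_lit 121)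 (nat_lit 4) (nat_lit 468) (nat_lit 336) (nat_lit 336)) (XT.nd (nat_lit 78) (nat_lit 304) (nat_lit 0) (XT.lf (nat_lit 0) (nat_lit 4676707676) (nat_lit 380) (nat_lit 1849082118) (nat_lit 0) (nat_lit 3990286630) (nat_lit 112) (nat_lit 5) (nat_lit 117) (nat_lit 4) (nat_lit 112) (nat_lit 4) (nat_lit 469) (nat_lit 336) (nat_lit 335)) (XT.lf (nat_lit 0) (nat_lit 7043701915) (nat_lit 304) (nat_lit 2466345378) (nat_lit 304) (nat_lit 1106962522) (nat_lit 108) (nat_lit 4) (nat_lit 112) (nat_lit 5) (nat_lit 112) (nat_lit 4) (nat_lit 470) (nat_lit 336) (nat_lit 334)))) (XT.nd (nat_lit 78) (nat_lit 608) (nat_lit 0) (XT.lf (nat_lit 0) (nat_lit 3658526612) (nat_lit 380) (nat_lit 5382246743) (nat_lit 0) (nat_lit 1678968439) (nat_lit 103) (nat_lit 5) (nat_lit 108) (nat_lit 4) (nat_lit 103) (nat_lit 4) (nat_lit 471) (nat_lit 336) (nat_lit 333)) (XT.nd (nat_lit 78) (nat_lit 304) (nat_lit 0) (XT.lf (nat_lit 0) (nat_lit 3556528326) (nat_lit 304)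 (nat_lit 4940854301) (nat_lit 304) (nat_lit 2327149184) (nat_lit 99) (nat_lit 4) (nat_lit 103) (nat_lit 5) (nat_lit 103) (nat_lit 4) (nat_lit 472) (nat_lit 336) (nat_lit 332)) (XT.lf (nat_lit 0) (nat_lit 1704850714) (nat_lit 228) (nat_lit 740826771) (nat_lit 304) (nat_lit 8485884582) (nat_lit 95) (nat_lit 5) (nat_lit 98) (nat_lit 5) (nat_lit 99) (nat_lit 4) (nat_lit 473) (nat_lit 336) (nat_lit 331))))))))
noncomputable def xc9 : XT := (XT.nd (nat_lit 1794) (nat_lit 1520) (nat_lit 0) (XT.nd (nat_lit 858) (nat_lit 2052) (nat_lit 0) (XT.nd (nat_lit 390) (nat_lit 1064) (nat_lit 0) (XT.nd (nat_lit 156) (nat_lit 836) (nat_lit 0) (XT.nd (nat_lit 78) (nat_lit 380) (nat_lit 0) (XT.lf (nat_lit 0) (nat_lit 7284714524) (nat_lit 304) (nat_lit 240513917) (nat_lit 0) (nat_lit 3515165454) (nat_lit 95) (nat_lit 5) (nat_lit 99) (nat_lit 4) (nat_lit 95) (nat_lit 4) (nat_lit 474) (nat_lit 336) (nat_lit 330)) (XT.lf (nat_lit 0) (nat_lit 1049058226)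 (nat_lit 380) (nat_lit 2236305205) (nat_lit 76) (nat_lit 7866027732) (nat_lit 90) (nat_lit 5) (nat_lit 95) (nat_lit 5) (nat_lit 91) (nat_lit 4) (nat_lit 475) (nat_lit 336) (nat_lit 329))) (XT.nd (nat_lit 78) (nat_lit 608) (nat_lit 0) (XT.lf (nat_lit 0) (nat_lit 5884579683) (nat_lit 304) (nat_lit 4328366570) (nat_lit 0) (nat_lit 1051472577) (nat_lit 87) (nat_lit 5) (nat_lit 91) (nat_lit 4) (nat_lit 87) (nat_lit 4) (nat_lit 476) (nat_lit 336) (nat_lit 328)) (XT.nd (nat_lit 78) (nat_lit 304) (nat_lit 0) (XT.lf (nat_lit 0) (nat_lit 4868907625) (nat_lit 304) (nat_lit 5947987161) (nat_lit 304) (nat_lit 562816979) (nat_lit 83) (nat_lit 4) (nat_lit 87) (nat_lit 5) (nat_lit 87) (nat_lit 4) (nat_lit 477) (nat_lit 336) (nat_lit 327)) (XT.lf (nat_lit 0) (nat_lit 2703075277) (nat_lit 228) (nat_lit 1568946391) (nat_lit 304) (nat_lit 7225159405) (nat_lit 79) (nat_lit 5) (nat_lit 82) (nat_lit 5) (nat_lit 83) (nat_lit 4) (nat_lit 478) (nat_lit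 336) (nat_lit 326))))) (XT.nd (nat_lit 234) (nat_lit 532) (nat_lit 0) (XT.nd (nat_lit 78) (nat_lit 304) (nat_lit 0) (XT.lf (nat_lit 0) (nat_lit 440008522) (nat_lit 228) (nat_lit 8753697462) (nat_lit 228) (nat_lit 2423271689) (nat_lit 76) (nat_lit 4) (nat_lit 79) (nat_lit 5) (nat_lit 79) (nat_lit 4) (nat_lit 479) (nat_lit 336) (nat_lit 325)) (XT.nd (nat_lit 78) (nat_lit 228) (nat_lit 0) (XT.lf (nat_lit 0) (nat_lit 2444150366) (nat_lit 304) (nat_lit 1903262981) (nat_lit 76) (nat_lit 7391402252) (nat_lit 75) (nat_lit 5) (nat_lit 79) (nat_lit 5) (nat_lit 76) (nat_lit 4) (nat_lit 480) (nat_lit 336) (nat_lit 324)) (XT.lf (nat_lit 0) (nat_lit 7359919957) (nat_lit 304) (nat_lit 4339803269) (nat_lit 0) (nat_lit 163383430) (nat_lit 72) (nat_lit 5) (nat_lit 76) (nat_lit 4) (nat_lit 72) (nat_lit 4) (nat_lit 481) (nat_lit 336) (nat_lit 323)))) (XT.nd (nat_lit 78) (nat_lit 228) (nat_lit 0) (XT.lf (nat_lit 0) (nat_lit 387630005) (nat_lit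 304) (nat_lit 6894128047) (nat_lit 76) (nat_lit 4707910120) (nat_lit 68) (nat_lit 5) (nat_lit 72) (nat_lit 5) (nat_lit 69) (nat_lit 4) (nat_lit 482) (nat_lit 336) (nat_lit 322)) (XT.nd (nat_lit 78) (nat_lit 0) (nat_lit 0) (XT.lf (nat_lit 0) (nat_lit 2549105812) (nat_lit 228) (nat_lit 2746650123) (nat_lit 304) (nat_lit 6822819187) (nat_lit 65) (nat_lit 5) (nat_lit 68) (nat_lit 5) (nat_lit 69) (nat_lit 4) (nat_lit 483) (nat_lit 336) (nat_lit 321)) (XT.lf (nat_lit 0) (nat_lit 10294927991) (nat_lit 304) (nat_lit 101785973) (nat_lit 0) (nat_lit 1853493810) (nat_lit 65) (nat_lit 5) (nat_lit 69) (nat_lit 4) (nat_lit 65) (nat_lit 4) (nat_lit 484) (nat_lit 336) (nat_lit 320)))))) (XT.nd (nat_lit 468) (nat_lit 836) (nat_lit 0) (XT.nd (nat_lit 234) (nat_lit 456) (nat_lit 0) (XT.nd (nat_lit 78) (nat_lit 456) (nat_lit 0) (XT.lf (nat_lit 0) (nat_lit 2985835313) (nat_lit 304) (nat_lit 2854050775) (nat_lit 76) (nat_lit 6543887280) (nat_lit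 61) (nat_lit 5) (nat_lit 65) (nat_lit 5) (nat_lit 62) (nat_lit 4) (nat_lit 485) (nat_lit 336) (nat_lit 319)) (XT.nd (nat_lit 78) (nat_lit 304) (nat_lit 0) (XT.lf (nat_lit 0) (nat_lit 6798787971) (nat_lit 152) (nat_lit 1181174428) (nat_lit 228) (nat_lit 4540186902) (nat_lit 59) (nat_lit 5) (nat_lit 61) (nat_lit 5) (nat_lit 62) (nat_lit 4) (nat_lit 486) (nat_lit 336) (nat_lit 318)) (XT.lf (nat_lit 0) (nat_lit 413086487) (nat_lit 304) (nat_lit 8721936658) (nat_lit 76) (nat_lit 3524104368) (nat_lit 55) (nat_lit 5) (nat_lit 59) (nat_lit 5) (nat_lit 56) (nat_lit 4) (nat_lit 487) (nat_lit 336) (nat_lit 317)))) (XT.nd (nat_lit 78) (nat_lit 304) (nat_lit 0) (XT.lf (nat_lit 0) (nat_lit 927353772) (nat_lit 152) (nat_lit 4465674016) (nat_lit 228) (nat_lit 7407494025) (nat_lit 53) (nat_lit 5) (nat_lit 55) (nat_lit 5) (nat_lit 56) (nat_lit 4) (nat_lit 488) (nat_lit 336) (nat_lit 316)) (XT.nd (nat_lit 78) (nat_lit 304) (nat_lit 0) (XT.lf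 (nat_lit 0) (nat_lit 10469473882) (nat_lit 228) (nat_lit 2171265023) (nat_lit 0) (nat_lit 304071530) (nat_lit 53) (nat_lit 5) (nat_lit 56) (nat_lit 4) (nat_lit 53) (nat_lit 4) (nat_lit 489) (nat_lit 336) (nat_lit 315)) (XT.lf (nat_lit 0) (nat_lit 2538839318) (nat_lit 304) (nat_lit 5423479066) (nat_lit 76) (nat_lit 5129001175) (nat_lit 49) (nat_lit 5) (nat_lit 53) (nat_lit 5) (nat_lit 50) (nat_lit 4) (nat_lit 490) (nat_lit 336) (nat_lit 314))))) (XT.nd (nat_lit 234) (nat_lit 380) (nat_lit 0) (XT.nd (nat_lit 78) (nat_lit 304) (nat_lit 0) (XT.lf (nat_lit 0) (nat_lit 4423094082) (nat_lit 152) (nat_lit 3177886932) (nat_lit 228) (nat_lit 5639838366) (nat_lit 47) (nat_lit 5) (nat_lit 49) (nat_lit 5) (nat_lit 50) (nat_lit 4) (nat_lit 491) (nat_lit 336) (nat_lit 313)) (XT.nd (nat_lit 78) (nat_lit 76) (nat_lit 0) (XT.lf (nat_lit 0) (nat_lit 1038541750) (nat_lit 228) (nat_lit 11717862592) (nat_lit 228) (nat_lit 637068286) (nat_lit 44)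 (nat_lit 4) (nat_lit 47) (nat_lit 5) (nat_lit 47) (nat_lit 4) (nat_lit 492) (nat_lit 336) (nat_lit 312)) (XT.lf (nat_lit 0) (nat_lit 4425496926) (nat_lit 304) (nat_lit 2498386462) (nat_lit 76) (nat_lit 6624353527) (nat_lit 43) (nat_lit 5) (nat_lit 47) (nat_lit 5) (nat_lit 44) (nat_lit 4) (nat_lit 493) (nat_lit 336) (nat_lit 311)))) (XT.nd (nat_lit 78) (nat_lit 228) (nat_lit 0) (XT.lf (nat_lit 0) (nat_lit 7540733068) (nat_lit 152) (nat_lit 2027938906) (nat_lit 228) (nat_lit 4137586481) (nat_lit 41) (nat_lit 5) (nat_lit 43) (nat_lit 5) (nat_lit 44) (nat_lit 4) (nat_lit 494) (nat_lit 336) (nat_lit 310)) (XT.nd (nat_lit 78) (nat_lit 0) (nat_lit 0) (XT.lf (nat_lit 0) (nat_lit 935204027) (nat_lit 228) (nat_lit 10004234726) (nat_lit 76) (nat_lit 2927875329) (nat_lit 38) (nat_lit 5) (nat_lit 41) (nat_lit 5) (nat_lit 39) (nat_lit 4) (nat_lit 495) (nat_lit 336) (nat_lit 309)) (XT.lf (nat_lit 0) (nat_lit 6048365630) (nat_lit 228) (nat_lit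 5549746) (nat_lit 76) (nat_lit 7977245841) (nat_lit 38) (nat_lit 5) (nat_lit 41) (nat_lit 5) (nat_lit 39) (nat_lit 4) (nat_lit 496) (nat_lit 336) (nat_lit 308))))))) (XT.nd (nat_lit 56940) (nat_lit 0) (nat_lit 4940) (XT.nd (nat_lit 468) (nat_lit 608) (nat_lit 0) (XT.nd (nat_lit 234) (nat_lit 380) (nat_lit 0) (XT.nd (nat_lit 78) (nat_lit 380) (nat_lit 0) (XT.lf (nat_lit 0) (nat_lit 10219777837) (nat_lit 152) (nat_lit 1050746400) (nat_lit 228) (nat_lit 2927630047) (nat_lit 36) (nat_lit 5) (nat_lit 38) (nat_lit 5) (nat_lit 39) (nat_lit 4) (nat_lit 497) (nat_lit 336) (nat_lit 307)) (XT.nd (nat_lit 78) (nat_lit 152) (nat_lit 0) (XT.lf (nat_lit 0) (nat_lit 2206795099) (nat_lit 228) (nat_lit 8153815179) (nat_lit 76) (nat_lit 4007443354) (nat_lit 33) (nat_lit 5) (nat_lit 36) (nat_lit 5) (nat_lit 34) (nat_lit 4) (nat_lit 498) (nat_lit 336) (nat_lit 306)) (XT.lf (nat_lit 0) (nat_lit 2016112638) (nat_lit 152) (nat_lit 5376180367) (nat_lit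 228) (nat_lit 7148922677) (nat_lit 31) (nat_lit 5) (nat_lit 33) (nat_lit 5) (nat_lit 34) (nat_lit 4) (nat_lit 499) (nat_lit 336) (nat_lit 305)))) (XT.nd (nat_lit 78) (nat_lit 380) (nat_lit 0) (XT.lf (nat_lit 0) (nat_lit 12393052221) (nat_lit 152) (nat_lit 284261328) (nat_lit 228) (nat_lit 2040614556) (nat_lit 31) (nat_lit 5) (nat_lit 33) (nat_lit 5) (nat_lit 34) (nat_lit 4) (nat_lit 500) (nat_lit 336) (nat_lit 304)) (XT.nd (nat_lit 78) (nat_lit 152) (nat_lit 0) (XT.lf (nat_lit 0) (nat_lit 3154525935) (nat_lit 228) (nat_lit 6871057808) (nat_lit 76) (nat_lit 4871657879) (nat_lit 28) (nat_lit 5) (nat_lit 31) (nat_lit 5) (nat_lit 29) (nat_lit 4) (nat_lit 501) (nat_lit 336) (nat_lit 303)) (XT.lf (nat_lit 0) (nat_lit 3460080567) (nat_lit 152) (nat_lit 4948260266) (nat_lit 228) (nat_lit 6671892089) (nat_lit 26) (nat_lit 5) (nat_lit 28) (nat_lit 5) (nat_lit 29) (nat_lit 4) (nat_lit 502) (nat_lit 336) (nat_lit 302))))) (XT.nd (nat_lit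 234) (nat_lit 304) (nat_lit 0) (XT.nd (nat_lit 78) (nat_lit 304) (nat_lit 0) (XT.lf (nat_lit 0) (nat_lit 13757307094) (nat_lit 228) (nat_lit 1282681976) (nat_lit 0) (nat_lit 227096604) (nat_lit 26) (nat_lit 5) (nat_lit 29) (nat_lit 4) (nat_lit 26) (nat_lit 4) (nat_lit 503) (nat_lit 336) (nat_lit 301)) (XT.nd (nat_lit 78) (nat_lit 76) (nat_lit 0) (XT.lf (nat_lit 0) (nat_lit 3742658718) (nat_lit 228) (nat_lit 6235367428) (nat_lit 76) (nat_lit 5478437935) (nat_lit 23) (nat_lit 5) (nat_lit 26) (nat_lit 5) (nat_lit 24) (nat_lit 4) (nat_lit 504) (nat_lit 336) (nat_lit 300)) (XT.lf (nat_lit 0) (nat_lit 4244598874) (nat_lit 76) (nat_lit 4814936750) (nat_lit 152) (nat_lit 6590305649) (nat_lit 22) (nat_lit 5) (nat_lit 23) (nat_lit 5) (nat_lit 24) (nat_lit 4) (nat_lit 505) (nat_lit 336) (nat_lit 299)))) (XT.nd (nat_lit 78) (nat_lit 304) (nat_lit 0) (XT.lf (nat_lit 0) (nat_lit 14471300452) (nat_lit 152) (nat_lit 934802915) (nat_lit 0)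 (nat_lit 441214525) (nat_lit 22) (nat_lit 5) (nat_lit 24) (nat_lit 4) (nat_lit 22) (nat_lit 4) (nat_lit 506) (nat_lit 336) (nat_lit 298)) (XT.nd (nat_lit 78) (nat_lit 76) (nat_lit 0) (XT.lf (nat_lit 0) (nat_lit 3930835485) (nat_lit 228) (nat_lit 6334919889) (nat_lit 76) (nat_lit 5781679765) (nat_lit 19) (nat_lit 5) (nat_lit 22) (nat_lit 5) (nat_lit 20) (nat_lit 4) (nat_lit 507) (nat_lit 336) (nat_lit 297)) (XT.lf (nat_lit 0) (nat_lit 4278927157) (nat_lit 76) (nat_lit 5025256042) (nat_lit 152) (nat_lit 6947616693) (nat_lit 18) (nat_lit 5) (nat_lit 19) (nat_lit 5) (nat_lit 20) (nat_lit 4) (nat_lit 508) (nat_lit 336) (nat_lit 296)))))) (XT.nd (nat_lit 468) (nat_lit 1520) (nat_lit 0) (XT.nd (nat_lit 234) (nat_lit 988) (nat_lit 0) (XT.nd (nat_lit 78) (nat_lit 380) (nat_lit 0) (XT.lf (nat_lit 0) (nat_lit 759170465) (nat_lit 380) (nat_lit 3593913381) (nat_lit 0) (nat_lit 759170465) (nat_lit 121) (nat_lit 5) (nat_lit 126) (nat_lit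 4) (nat_lit 121) (nat_lit 4) (nat_lit 466) (nat_lit 337) (nat_lit 337)) (XT.nd (nat_lit 78) (nat_lit 76) (nat_lit 0) (XT.lf (nat_lit 0) (nat_lit 1422907124) (nat_lit 304) (nat_lit 4805727974) (nat_lit 304) (nat_lit 4091575517) (nat_lit 117) (nat_lit 4) (nat_lit 121) (nat_lit 5) (nat_lit 121) (nat_lit 4) (nat_lit 467) (nat_lit 337) (nat_lit 336)) (XT.lf (nat_lit 0) (nat_lit 584219918) (nat_lit 380) (nat_lit 234177687) (nat_lit 76) (nat_lit 9599817444) (nat_lit 116) (nat_lit 5) (nat_lit 121) (nat_lit 5) (nat_lit 117) (nat_lit 4) (nat_lit 468) (nat_lit 337) (nat_lit 335)))) (XT.nd (nat_lit 78) (nat_lit 684) (nat_lit 0) (XT.lf (nat_lit 0) (nat_lit 5305648612) (nat_lit 380) (nat_lit 1965743471) (nat_lit 0) (nat_lit 3246116289) (nat_lit 112) (nat_lit 5) (nat_lit 117) (nat_lit 4) (nat_lit 112) (nat_lit 4) (nat_lit 469) (nat_lit 337) (nat_lit 334)) (XT.nd (nat_lit 78) (nat_lit 380) (nat_lit 0) (XT.lf (nat_lit 0) (nat_lit 6868117004)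 (nat_lit 304) (nat_lit 3235170673) (nat_lit 304) (nat_lit 515871870) (nat_lit 108) (nat_lit 4) (nat_lit 112) (nat_lit 5) (nat_lit 112) (nat_lit 4) (nat_lit 470) (nat_lit 337) (nat_lit 333)) (XT.lf (nat_lit 0) (nat_lit 4200697784) (nat_lit 380) (nat_lit 5621372337) (nat_lit 0) (nat_lit 900571621) (nat_lit 103) (nat_lit 5) (nat_lit 108) (nat_lit 4) (nat_lit 103) (nat_lit 4) (nat_lit 471) (nat_lit 337) (nat_lit 332))))) (XT.nd (nat_lit 234) (nat_lit 912) (nat_lit 0) (XT.nd (nat_lit 78) (nat_lit 304) (nat_lit 0) (XT.lf (nat_lit 0) (nat_lit 3256589024) (nat_lit 304) (nat_lit 5746705168) (nat_lit 304) (nat_lit 1824866316) (nat_lit 99) (nat_lit 4) (nat_lit 103) (nat_lit 5) (nat_lit 103) (nat_lit 4) (nat_lit 472) (nat_lit 337) (nat_lit 331)) (XT.nd (nat_lit 78) (nat_lit 0) (nat_lit 0) (XT.lf (nat_lit 0) (nat_lit 1336222818) (nat_lit 228) (nat_lit 1568521694) (nat_lit 304) (nat_lit 8031117012) (nat_lit 95) (nat_lit 5) (nat_lit 98) (nat_lit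 5) (nat_lit 99) (nat_lit 4) (nat_lit 473) (nat_lit 337) (nat_lit 330)) (XT.lf (nat_lit 0) (nat_lit 7704329417) (nat_lit 304) (nat_lit 665191544) (nat_lit 0) (nat_lit 2675964784) (nat_lit 95) (nat_lit 5) (nat_lit 99) (nat_lit 4) (nat_lit 95) (nat_lit 4) (nat_lit 474) (nat_lit 337) (nat_lit 329)))) (XT.nd (nat_lit 78) (nat_lit 532) (nat_lit 0) (XT.lf (nat_lit 0) (nat_lit 1421326911) (nat_lit 380) (nat_lit 2731650697) (nat_lit 76) (nat_lit 7004191157) (nat_lit 90) (nat_lit 5) (nat_lit 95) (nat_lit 5) (nat_lit 91) (nat_lit 4) (nat_lit 475) (nat_lit 337) (nat_lit 328)) (XT.nd (nat_lit 78) (nat_lit 304) (nat_lit 0) (XT.lf (nat_lit 0) (nat_lit 6214077133) (nat_lit 304) (nat_lit 4887837411) (nat_lit 0) (nat_lit 169140470) (nat_lit 87) (nat_lit 5) (nat_lit 91) (nat_lit 4) (nat_lit 87) (nat_lit 4) (nat_lit 476) (nat_lit 337) (nat_lit 327)) (XT.lf (nat_lit 0) (nat_lit 4245024645) (nat_lit 304) (nat_lit 6864123132) (nat_lit 304) (nat_lit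 277948158) (nat_lit 83) (nat_lit 4) (nat_lit 87) (nat_lit 5) (nat_lit 87) (nat_lit 4) (nat_lit 477) (nat_lit 337) (nat_lit 326))))))))
noncomputable def xc10 : XT := (XT.nd (nat_lit 1794) (nat_lit 988) (nat_lit 0) (XT.nd (nat_lit 858) (nat_lit 1824) (nat_lit 0) (XT.nd (nat_lit 390) (nat_lit 988) (nat_lit 0) (XT.nd (nat_lit 156) (nat_lit 836) (nat_lit 0) (XT.nd (nat_lit 78) (nat_lit 0) (nat_lit 0) (XT.lf (nat_lit 0) (nat_lit 2004493465) (nat_lit 228) (nat_lit 2510998729) (nat_lit 304) (nat_lit 6989792277) (nat_lit 79) (nat_lit 5) (nat_lit 82) (nat_lit 5) (nat_lit 83) (nat_lit 4) (nat_lit 478) (nat_lit 337) (nat_lit 325)) (XT.lf (nat_lit 0) (nat_lit 9395213178) (nat_lit 304) (nat_lit 322773501) (nat_lit 0) (nat_lit 1907936575) (nat_lit 79) (nat_lit 5) (nat_lit 83) (nat_lit 4) (nat_lit 79) (nat_lit 4) (nat_lit 479) (nat_lit 337) (nat_lit 324))) (XT.nd (nat_lit 78) (nat_lit 532) (nat_lit 0) (XT.lf (nat_lit 0) (nat_lit 2599122235)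 (nat_lit 304) (nat_lit 2737070225) (nat_lit 76) (nat_lit 6412247805) (nat_lit 75) (nat_lit 5) (nat_lit 79) (nat_lit 5) (nat_lit 76) (nat_lit 4) (nat_lit 480) (nat_lit 337) (nat_lit 323)) (XT.nd (nat_lit 78) (nat_lit 304) (nat_lit 0) (XT.lf (nat_lit 0) (nat_lit 6623371956) (nat_lit 228) (nat_lit 852313840) (nat_lit 304) (nat_lit 4397832396) (nat_lit 72) (nat_lit 5) (nat_lit 75) (nat_lit 5) (nat_lit 76) (nat_lit 4) (nat_lit 481) (nat_lit 337) (nat_lit 322)) (XT.lf (nat_lit 0) (nat_lit 447301645) (nat_lit 304) (nat_lit 7878918797) (nat_lit 76) (nat_lit 3674734245) (nat_lit 68) (nat_lit 5) (nat_lit 72) (nat_lit 5) (nat_lit 69) (nat_lit 4) (nat_lit 482) (nat_lit 337) (nat_lit 321))))) (XT.nd (nat_lit 234) (nat_lit 456) (nat_lit 0) (XT.nd (nat_lit 78) (nat_lit 304) (nat_lit 0) (XT.lf (nat_lit 0) (nat_lit 1494892885) (nat_lit 228) (nat_lit 3821593596) (nat_lit 304) (nat_lit 6814156570) (nat_lit 65) (nat_lit 5) (nat_lit 68) (nat_lit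 5) (nat_lit 69) (nat_lit 4) (nat_lit 483) (nat_lit 337) (nat_lit 320)) (XT.nd (nat_lit 78) (nat_lit 304) (nat_lit 0) (XT.lf (nat_lit 0) (nat_lit 10276701638) (nat_lit 304) (nat_lit 1216804902) (nat_lit 0) (nat_lit 769550839) (nat_lit 65) (nat_lit 5) (nat_lit 69) (nat_lit 4) (nat_lit 65) (nat_lit 4) (nat_lit 484) (nat_lit 337) (nat_lit 319)) (XT.lf (nat_lit 0) (nat_lit 2915860219) (nat_lit 304) (nat_lit 4052411124) (nat_lit 76) (nat_lit 5429144243) (nat_lit 61) (nat_lit 5) (nat_lit 65) (nat_lit 5) (nat_lit 62) (nat_lit 4) (nat_lit 485) (nat_lit 337) (nat_lit 318)))) (XT.nd (nat_lit 78) (nat_lit 304) (nat_lit 0) (XT.lf (nat_lit 0) (nat_lit 5529091570) (nat_lit 152) (nat_lit 2341355484) (nat_lit 228) (nat_lit 4664137663) (nat_lit 59) (nat_lit 5) (nat_lit 61) (nat_lit 5) (nat_lit 62) (nat_lit 4) (nat_lit 486) (nat_lit 337) (nat_lit 317)) (XT.nd (nat_lit 78) (nat_lit 0) (nat_lit 0) (XT.lf (nat_lit 0) (nat_lit 242965984) (nat_lit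 304) (nat_lit 10085293318) (nat_lit 76) (nat_lit 2346277931) (nat_lit 55) (nat_lit 5) (nat_lit 59) (nat_lit 5) (nat_lit 56) (nat_lit 4) (nat_lit 487) (nat_lit 337) (nat_lit 316)) (XT.lf (nat_lit 0) (nat_lit 5185750476) (nat_lit 304) (nat_lit 503016682) (nat_lit 76) (nat_lit 7127909766) (nat_lit 55) (nat_lit 5) (nat_lit 59) (nat_lit 5) (nat_lit 56) (nat_lit 4) (nat_lit 488) (nat_lit 337) (nat_lit 315)))))) (XT.nd (nat_lit 468) (nat_lit 760) (nat_lit 0) (XT.nd (nat_lit 234) (nat_lit 456) (nat_lit 0) (XT.nd (nat_lit 78) (nat_lit 456) (nat_lit 0) (XT.lf (nat_lit 0) (nat_lit 9284040091) (nat_lit 152) (nat_lit 941967589) (nat_lit 228) (nat_lit 2735683853) (nat_lit 53) (nat_lit 5) (nat_lit 55) (nat_lit 5) (nat_lit 56) (nat_lit 4) (nat_lit 489) (nat_lit 337) (nat_lit 314)) (XT.nd (nat_lit 78) (nat_lit 152) (nat_lit 0) (XT.lf (nat_lit 0) (nat_lit 2234830214) (nat_lit 304) (nat_lit 7014101361) (nat_lit 76) (nat_lit 3860246541) (nat_lit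 49) (nat_lit 5) (nat_lit 53) (nat_lit 5) (nat_lit 50) (nat_lit 4) (nat_lit 490) (nat_lit 337) (nat_lit 313)) (XT.lf (nat_lit 0) (nat_lit 2756685814) (nat_lit 152) (nat_lit 4499089846) (nat_lit 228) (nat_lit 6003728285) (nat_lit 47) (nat_lit 5) (nat_lit 49) (nat_lit 5) (nat_lit 50) (nat_lit 4) (nat_lit 491) (nat_lit 337) (nat_lit 312)))) (XT.nd (nat_lit 78) (nat_lit 456) (nat_lit 0) (XT.lf (nat_lit 0) (nat_lit 12365596680) (nat_lit 228) (nat_lit 705621930) (nat_lit 0) (nat_lit 341852672) (nat_lit 47) (nat_lit 5) (nat_lit 50) (nat_lit 4) (nat_lit 47) (nat_lit 4) (nat_lit 492) (nat_lit 337) (nat_lit 311)) (XT.nd (nat_lit 78) (nat_lit 152) (nat_lit 0) (XT.lf (nat_lit 0) (nat_lit 3985563268) (nat_lit 304) (nat_lit 4323000271) (nat_lit 76) (nat_lit 5260025484) (nat_lit 43) (nat_lit 5) (nat_lit 47) (nat_lit 5) (nat_lit 44) (nat_lit 4) (nat_lit 493) (nat_lit 337) (nat_lit 310)) (XT.lf (nat_lit 0) (nat_lit 5638150211) (nat_lit 152)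 (nat_lit 3448591255) (nat_lit 228) (nat_lit 4640710959) (nat_lit 41) (nat_lit 5) (nat_lit 43) (nat_lit 5) (nat_lit 44) (nat_lit 4) (nat_lit 494) (nat_lit 337) (nat_lit 309))))) (XT.nd (nat_lit 234) (nat_lit 380) (nat_lit 0) (XT.nd (nat_lit 78) (nat_lit 152) (nat_lit 0) (XT.lf (nat_lit 0) (nat_lit 386609006) (nat_lit 228) (nat_lit 12016664552) (nat_lit 76) (nat_lit 1486343059) (nat_lit 38) (nat_lit 5) (nat_lit 41) (nat_lit 5) (nat_lit 39) (nat_lit 4) (nat_lit 495) (nat_lit 337) (nat_lit 308)) (XT.nd (nat_lit 78) (nat_lit 152) (nat_lit 0) (XT.lf (nat_lit 0) (nat_lit 5470255854) (nat_lit 228) (nat_lit 2071130720) (nat_lit 76) (nat_lit 6512669286) (nat_lit 38) (nat_lit 5) (nat_lit 41) (nat_lit 5) (nat_lit 39) (nat_lit 4) (nat_lit 496) (nat_lit 337) (nat_lit 307)) (XT.lf (nat_lit 0) (nat_lit 8073944909) (nat_lit 152) (nat_lit 2575601347) (nat_lit 228) (nat_lit 3572361813) (nat_lit 36) (nat_lit 5) (nat_lit 38) (nat_lit 5) (nat_lit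 39) (nat_lit 4) (nat_lit 497) (nat_lit 337) (nat_lit 306)))) (XT.nd (nat_lit 78) (nat_lit 152) (nat_lit 0) (XT.lf (nat_lit 0) (nat_lit 1516857668) (nat_lit 228) (nat_lit 10415371081) (nat_lit 76) (nat_lit 2460737327) (nat_lit 33) (nat_lit 5) (nat_lit 36) (nat_lit 5) (nat_lit 34) (nat_lit 4) (nat_lit 498) (nat_lit 337) (nat_lit 305)) (XT.nd (nat_lit 78) (nat_lit 152) (nat_lit 0) (XT.lf (nat_lit 0) (nat_lit 6660449021) (nat_lit 228) (nat_lit 324118462) (nat_lit 76) (nat_lit 7582400449) (nat_lit 33) (nat_lit 5) (nat_lit 36) (nat_lit 5) (nat_lit 34) (nat_lit 4) (nat_lit 499) (nat_lit 337) (nat_lit 304)) (XT.lf (nat_lit 0) (nat_lit 9996623878) (nat_lit 152) (nat_lit 1918124843) (nat_lit 228) (nat_lit 2829547693) (nat_lit 31) (nat_lit 5) (nat_lit 33) (nat_lit 5) (nat_lit 34) (nat_lit 4) (nat_lit 500) (nat_lit 337) (nat_lit 303))))))) (XT.nd (nat_lit 56784) (nat_lit 0) (nat_lit 4636) (XT.nd (nat_lit 468) (nat_lit 304) (nat_lit 0)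 (XT.nd (nat_lit 234) (nat_lit 304) (nat_lit 0) (XT.nd (nat_lit 78) (nat_lit 152) (nat_lit 0) (XT.lf (nat_lit 0) (nat_lit 2320582582) (nat_lit 228) (nat_lit 9389254176) (nat_lit 76) (nat_lit 3214984343) (nat_lit 28) (nat_lit 5) (nat_lit 31) (nat_lit 5) (nat_lit 29) (nat_lit 4) (nat_lit 501) (nat_lit 337) (nat_lit 302)) (XT.nd (nat_lit 78) (nat_lit 0) (nat_lit 0) (XT.lf (nat_lit 0) (nat_lit 856412224) (nat_lit 152) (nat_lit 6672939260) (nat_lit 228) (nat_lit 7579363385) (nat_lit 26) (nat_lit 5) (nat_lit 28) (nat_lit 5) (nat_lit 29) (nat_lit 4) (nat_lit 502) (nat_lit 337) (nat_lit 301)) (XT.lf (nat_lit 0) (nat_lit 11331272557) (nat_lit 152) (nat_lit 1517630627) (nat_lit 228) (nat_lit 2447254246) (nat_lit 26) (nat_lit 5) (nat_lit 28) (nat_lit 5) (nat_lit 29) (nat_lit 4) (nat_lit 503) (nat_lit 337) (nat_lit 300)))) (XT.nd (nat_lit 78) (nat_lit 76) (nat_lit 0) (XT.lf (nat_lit 0) (nat_lit 2761824526) (nat_lit 228) (nat_lit 9018015854)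 (nat_lit 76) (nat_lit 3706931724) (nat_lit 23) (nat_lit 5) (nat_lit 26) (nat_lit 5) (nat_lit 24) (nat_lit 4) (nat_lit 504) (nat_lit 337) (nat_lit 299)) (XT.nd (nat_lit 78) (nat_lit 0) (nat_lit 0) (XT.lf (nat_lit 0) (nat_lit 1373876064) (nat_lit 76) (nat_lit 6658699192) (nat_lit 152) (nat_lit 7648497994) (nat_lit 22) (nat_lit 5) (nat_lit 23) (nat_lit 5) (nat_lit 24) (nat_lit 4) (nat_lit 505) (nat_lit 337) (nat_lit 298)) (XT.lf (nat_lit 0) (nat_lit 11994660350) (nat_lit 76) (nat_lit 1419503205) (nat_lit 152) (nat_lit 2464991246) (nat_lit 22) (nat_lit 5) (nat_lit 23) (nat_lit 5) (nat_lit 24) (nat_lit 4) (nat_lit 506) (nat_lit 337) (nat_lit 297))))) (XT.nd (nat_lit 56082) (nat_lit 0) (nat_lit 7524) (XT.nd (nat_lit 78) (nat_lit 76) (nat_lit 0) (XT.lf (nat_lit 0) (nat_lit 2800001536) (nat_lit 228) (nat_lit 9390145597) (nat_lit 76) (nat_lit 3890390515) (nat_lit 19) (nat_lit 5) (nat_lit 22) (nat_lit 5) (nat_lit 20) (nat_lit 4) (nat_lit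 507) (nat_lit 337) (nat_lit 296)) (XT.nd (nat_lit 55926) (nat_lit 0) (nat_lit 8588) (XT.lf (nat_lit 0) (nat_lit 1132906996) (nat_lit 76) (nat_lit 6993161799) (nat_lit 152) (nat_lit 8159780536) (nat_lit 18) (nat_lit 5) (nat_lit 19) (nat_lit 5) (nat_lit 20) (nat_lit 4) (nat_lit 508) (nat_lit 337) (nat_lit 295)) (XT.lf (nat_lit 0) (nat_lit 1527497739) (nat_lit 380) (nat_lit 1963835308) (nat_lit 0) (nat_lit 1527497739) (nat_lit 131) (nat_lit 5) (nat_lit 136) (nat_lit 4) (nat_lit 131) (nat_lit 4) (nat_lit 464) (nat_lit 338) (nat_lit 338)))) (XT.nd (nat_lit 78) (nat_lit 684) (nat_lit 0) (XT.lf (nat_lit 0) (nat_lit 4573929514) (nat_lit 380) (nat_lit 3149767093) (nat_lit 380) (nat_lit 2406762877) (nat_lit 126) (nat_lit 4) (nat_lit 131) (nat_lit 5) (nat_lit 131) (nat_lit 4) (nat_lit 465) (nat_lit 338) (nat_lit 337)) (XT.nd (nat_lit 78) (nat_lit 304) (nat_lit 0) (XT.lf (nat_lit 0) (nat_lit 2211255881) (nat_lit 380) (nat_lit 7245299320)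 (nat_lit 0) (nat_lit 768667920) (nat_lit 121) (nat_lit 5) (nat_lit 126) (nat_lit 4) (nat_lit 121) (nat_lit 4) (nat_lit 466) (nat_lit 338) (nat_lit 336)) (XT.lf (nat_lit 0) (nat_lit 1307576338) (nat_lit 304) (nat_lit 5578400832) (nat_lit 304) (nat_lit 3435663403) (nat_lit 117) (nat_lit 4) (nat_lit 121) (nat_lit 5) (nat_lit 121) (nat_lit 4) (nat_lit 467) (nat_lit 338) (nat_lit 335)))))) (XT.nd (nat_lit 468) (nat_lit 1216) (nat_lit 0) (XT.nd (nat_lit 234) (nat_lit 912) (nat_lit 0) (XT.nd (nat_lit 78) (nat_lit 684) (nat_lit 0) (XT.lf (nat_lit 0) (nat_lit 1196792569) (nat_lit 380) (nat_lit 411637484) (nat_lit 76) (nat_lit 8811828373) (nat_lit 116) (nat_lit 5) (nat_lit 121) (nat_lit 5) (nat_lit 117) (nat_lit 4) (nat_lit 468) (nat_lit 338) (nat_lit 334)) (XT.nd (nat_lit 78) (nat_lit 380) (nat_lit 0) (XT.lf (nat_lit 0) (nat_lit 5877356079) (nat_lit 380) (nat_lit 2199111927) (nat_lit 0) (nat_lit 2443904820) (nat_lit 112) (nat_lit 5)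 (nat_lit 117) (nat_lit 4) (nat_lit 112) (nat_lit 4) (nat_lit 469) (nat_lit 338) (nat_lit 333)) (XT.lf (nat_lit 0) (nat_lit 16252389) (nat_lit 380) (nat_lit 4047451315) (nat_lit 76) (nat_lit 6559037528) (nat_lit 107) (nat_lit 5) (nat_lit 112) (nat_lit 5) (nat_lit 108) (nat_lit 4) (nat_lit 470) (nat_lit 338) (nat_lit 332)))) (XT.nd (nat_lit 78) (nat_lit 608) (nat_lit 0) (XT.lf (nat_lit 0) (nat_lit 4684401732) (nat_lit 380) (nat_lit 5980177942) (nat_lit 0) (nat_lit 62413412) (nat_lit 103) (nat_lit 5) (nat_lit 108) (nat_lit 4) (nat_lit 103) (nat_lit 4) (nat_lit 471) (nat_lit 338) (nat_lit 331)) (XT.nd (nat_lit 78) (nat_lit 304) (nat_lit 0) (XT.lf (nat_lit 0) (nat_lit 2836509342) (nat_lit 304) (nat_lit 6614121949) (nat_lit 304) (nat_lit 1382611385) (nat_lit 99) (nat_lit 4) (nat_lit 103) (nat_lit 5) (nat_lit 103) (nat_lit 4) (nat_lit 472) (nat_lit 338) (nat_lit 330)) (XT.lf (nat_lit 0) (nat_lit 845911861) (nat_lit 228) (nat_lit 2458540244)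 (nat_lit 304) (nat_lit 7637172451) (nat_lit 95) (nat_lit 5) (nat_lit 98) (nat_lit 5) (nat_lit 99) (nat_lit 4) (nat_lit 473) (nat_lit 338) (nat_lit 329))))) (XT.nd (nat_lit 234) (nat_lit 608) (nat_lit 0) (XT.nd (nat_lit 78) (nat_lit 608) (nat_lit 0) (XT.lf (nat_lit 0) (nat_lit 8064848430) (nat_lit 304) (nat_lit 1211491079) (nat_lit 0) (nat_lit 1775696326) (nat_lit 95) (nat_lit 5) (nat_lit 99) (nat_lit 4) (nat_lit 95) (nat_lit 4) (nat_lit 474) (nat_lit 338) (nat_lit 328)) (XT.nd (nat_lit 78) (nat_lit 228) (nat_lit 0) (XT.lf (nat_lit 0) (nat_lit 1733696985) (nat_lit 380) (nat_lit 3350188532) (nat_lit 76) (nat_lit 6080529661) (nat_lit 90) (nat_lit 5) (nat_lit 95) (nat_lit 5) (nat_lit 91) (nat_lit 4) (nat_lit 475) (nat_lit 338) (nat_lit 327)) (XT.lf (nat_lit 0) (nat_lit 5701881811) (nat_lit 228) (nat_lit 786336669) (nat_lit 304) (nat_lit 4790850618) (nat_lit 87) (nat_lit 5) (nat_lit 90) (nat_lit 5) (nat_lit 91) (nat_lit 4) (nat_lit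 476) (nat_lit 338) (nat_lit 326)))) (XT.nd (nat_lit 78) (nat_lit 304) (nat_lit 0) (XT.lf (nat_lit 0) (nat_lit 3495827070) (nat_lit 304) (nat_lit 7844949407) (nat_lit 304) (nat_lit 55186829) (nat_lit 83) (nat_lit 4) (nat_lit 87) (nat_lit 5) (nat_lit 87) (nat_lit 4) (nat_lit 477) (nat_lit 338) (nat_lit 325)) (XT.nd (nat_lit 78) (nat_lit 0) (nat_lit 0) (XT.lf (nat_lit 0) (nat_lit 1178956036) (nat_lit 228) (nat_lit 3518539004) (nat_lit 304) (nat_lit 6817387532) (nat_lit 79) (nat_lit 5) (nat_lit 82) (nat_lit 5) (nat_lit 83) (nat_lit 4) (nat_lit 478) (nat_lit 338) (nat_lit 324)) (XT.lf (nat_lit 0) (nat_lit 9538331192) (nat_lit 304) (nat_lit 1206703149) (nat_lit 0) (nat_lit 891267571) (nat_lit 79) (nat_lit 5) (nat_lit 83) (nat_lit 4) (nat_lit 79) (nat_lit 4) (nat_lit 479) (nat_lit 338) (nat_lit 323))))))))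
noncomputable def xc11 : XT := (XT.nd (nat_lit 1794) (nat_lit 684) (nat_lit 0) (XT.nd (nat_lit 858) (nat_lit 1596) (nat_lit 0) (XT.nd (nat_lit 390) (nat_lit 1216) (nat_lit 0) (XT.nd (nat_lit 156) (nat_lit 532) (nat_lit 0) (XT.nd (nat_lit 78) (nat_lit 228) (nat_lit 0) (XT.lf (nat_lit 0) (nat_lit 2691985783) (nat_lit 304) (nat_lit 3699468550) (nat_lit 76) (nat_lit 5368112799) (nat_lit 75) (nat_lit 5) (nat_lit 79) (nat_lit 5) (nat_lit 76) (nat_lit 4) (nat_lit 480) (nat_lit 338) (nat_lit 322)) (XT.lf (nat_lit 0) (nat_lit 5593144926) (nat_lit 228) (nat_lit 1937067396) (nat_lit 304) (nat_lit 4355202175) (nat_lit 72) (nat_lit 5) (nat_lit 75) (nat_lit 5) (nat_lit 76) (nat_lit 4) (nat_lit 481) (nat_lit 338) (nat_lit 321))) (XT.nd (nat_lit 78) (nat_lit 228) (nat_lit 0) (XT.lf (nat_lit 0) (nat_lit 443331899) (nat_lit 304) (nat_lit 8995709253) (nat_lit 76) (nat_lit 2574727712) (nat_lit 68) (nat_lit 5) (nat_lit 72) (nat_lit 5) (nat_lit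 69) (nat_lit 4) (nat_lit 482) (nat_lit 338) (nat_lit 320)) (XT.nd (nat_lit 78) (nat_lit 0) (nat_lit 0) (XT.lf (nat_lit 0) (nat_lit 308030649) (nat_lit 228) (nat_lit 4965313086) (nat_lit 304) (nat_lit 6870899492) (nat_lit 65) (nat_lit 5) (nat_lit 68) (nat_lit 5) (nat_lit 69) (nat_lit 4) (nat_lit 483) (nat_lit 338) (nat_lit 319)) (XT.lf (nat_lit 0) (nat_lit 9810407057) (nat_lit 228) (nat_lit 386887340) (nat_lit 304) (nat_lit 2080090939) (nat_lit 65) (nat_lit 5) (nat_lit 68) (nat_lit 5) (nat_lit 69) (nat_lit 4) (nat_lit 484) (nat_lit 338) (nat_lit 318))))) (XT.nd (nat_lit 234) (nat_lit 456) (nat_lit 0) (XT.nd (nat_lit 78) (nat_lit 456) (nat_lit 0) (XT.lf (nat_lit 0) (nat_lit 2781266613) (nat_lit 304) (nat_lit 5385199866) (nat_lit 76) (nat_lit 4246133383) (nat_lit 61) (nat_lit 5) (nat_lit 65) (nat_lit 5) (nat_lit 62) (nat_lit 4) (nat_lit 485) (nat_lit 338) (nat_lit 317)) (XT.nd (nat_lit 78) (nat_lit 304) (nat_lit 0) (XT.lf (nat_lit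 0) (nat_lit 4124266773) (nat_lit 152) (nat_lit 3571782739) (nat_lit 228) (nat_lit 4854517906) (nat_lit 59) (nat_lit 5) (nat_lit 61) (nat_lit 5) (nat_lit 62) (nat_lit 4) (nat_lit 486) (nat_lit 338) (nat_lit 316)) (XT.lf (nat_lit 0) (nat_lit 6548726) (nat_lit 304) (nat_lit 11586716905) (nat_lit 76) (nat_lit 1098251956) (nat_lit 55) (nat_lit 5) (nat_lit 59) (nat_lit 5) (nat_lit 56) (nat_lit 4) (nat_lit 487) (nat_lit 338) (nat_lit 315)))) (XT.nd (nat_lit 78) (nat_lit 456) (nat_lit 0) (XT.lf (nat_lit 0) (nat_lit 4918807910) (nat_lit 304) (nat_lit 2058216136) (nat_lit 76) (nat_lit 5857245950) (nat_lit 55) (nat_lit 5) (nat_lit 59) (nat_lit 5) (nat_lit 56) (nat_lit 4) (nat_lit 488) (nat_lit 338) (nat_lit 314)) (XT.nd (nat_lit 78) (nat_lit 304) (nat_lit 0) (XT.lf (nat_lit 0) (nat_lit 7654750778) (nat_lit 152) (nat_lit 2263809138) (nat_lit 228) (nat_lit 3061536962) (nat_lit 53) (nat_lit 5) (nat_lit 55) (nat_lit 5) (nat_lit 56) (nat_lit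 4) (nat_lit 489) (nat_lit 338) (nat_lit 313)) (XT.lf (nat_lit 0) (nat_lit 1863379748) (nat_lit 304) (nat_lit 8745476173) (nat_lit 76) (nat_lit 2519769356) (nat_lit 49) (nat_lit 5) (nat_lit 53) (nat_lit 5) (nat_lit 50) (nat_lit 4) (nat_lit 490) (nat_lit 338) (nat_lit 312)))))) (XT.nd (nat_lit 468) (nat_lit 760) (nat_lit 0) (XT.nd (nat_lit 234) (nat_lit 380) (nat_lit 0) (XT.nd (nat_lit 78) (nat_lit 304) (nat_lit 0) (XT.lf (nat_lit 0) (nat_lit 948726021) (nat_lit 152) (nat_lit 5894079500) (nat_lit 228) (nat_lit 6436978020) (nat_lit 47) (nat_lit 5) (nat_lit 49) (nat_lit 5) (nat_lit 50) (nat_lit 4) (nat_lit 491) (nat_lit 338) (nat_lit 311)) (XT.nd (nat_lit 78) (nat_lit 304) (nat_lit 0) (XT.lf (nat_lit 0) (nat_lit 10849258159) (nat_lit 152) (nat_lit 1071581068) (nat_lit 228) (nat_lit 1513149401) (nat_lit 47) (nat_lit 5) (nat_lit 49) (nat_lit 5) (nat_lit 50) (nat_lit 4) (nat_lit 492) (nat_lit 338) (nat_lit 310)) (XT.lf (nat_lit 0)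 (nat_lit 3476950016) (nat_lit 304) (nat_lit 6291199346) (nat_lit 76) (nat_lit 3822400318) (nat_lit 43) (nat_lit 5) (nat_lit 47) (nat_lit 5) (nat_lit 44) (nat_lit 4) (nat_lit 493) (nat_lit 338) (nat_lit 309)))) (XT.nd (nat_lit 78) (nat_lit 228) (nat_lit 0) (XT.lf (nat_lit 0) (nat_lit 3591127266) (nat_lit 152) (nat_lit 4944647552) (nat_lit 228) (nat_lit 5214487219) (nat_lit 41) (nat_lit 5) (nat_lit 43) (nat_lit 5) (nat_lit 44) (nat_lit 4) (nat_lit 494) (nat_lit 338) (nat_lit 308)) (XT.nd (nat_lit 78) (nat_lit 228) (nat_lit 0) (XT.lf (nat_lit 0) (nat_lit 13652076892) (nat_lit 152) (nat_lit 27683612) (nat_lit 228) (nat_lit 233732188) (nat_lit 41) (nat_lit 5) (nat_lit 43) (nat_lit 5) (nat_lit 44) (nat_lit 4) (nat_lit 495) (nat_lit 338) (nat_lit 307)) (XT.lf (nat_lit 0) (nat_lit 4822133095) (nat_lit 228) (nat_lit 4283283431) (nat_lit 76) (nat_lit 4973164479) (nat_lit 38) (nat_lit 5) (nat_lit 41) (nat_lit 5) (nat_lit 39) (nat_lit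 4) (nat_lit 496) (nat_lit 338) (nat_lit 306))))) (XT.nd (nat_lit 234) (nat_lit 380) (nat_lit 0) (XT.nd (nat_lit 78) (nat_lit 228) (nat_lit 0) (XT.lf (nat_lit 0) (nat_lit 5780627707) (nat_lit 152) (nat_lit 4177537393) (nat_lit 228) (nat_lit 4289135026) (nat_lit 36) (nat_lit 5) (nat_lit 38) (nat_lit 5) (nat_lit 39) (nat_lit 4) (nat_lit 497) (nat_lit 338) (nat_lit 305)) (XT.nd (nat_lit 78) (nat_lit 0) (nat_lit 0) (XT.lf (nat_lit 0) (nat_lit 754911931) (nat_lit 228) (nat_lit 12827669810) (nat_lit 76) (nat_lit 836962605) (nat_lit 33) (nat_lit 5) (nat_lit 36) (nat_lit 5) (nat_lit 34) (nat_lit 4) (nat_lit 498) (nat_lit 338) (nat_lit 304)) (XT.lf (nat_lit 0) (nat_lit 5870251704) (nat_lit 228) (nat_lit 2787626522) (nat_lit 76) (nat_lit 5936234650) (nat_lit 33) (nat_lit 5) (nat_lit 36) (nat_lit 5) (nat_lit 34) (nat_lit 4) (nat_lit 499) (nat_lit 338) (nat_lit 303)))) (XT.nd (nat_lit 78) (nat_lit 228) (nat_lit 0) (XT.lf (nat_lit 0) (nat_lit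 7449504664) (nat_lit 152) (nat_lit 3630811525) (nat_lit 228) (nat_lit 3692011485) (nat_lit 31) (nat_lit 5) (nat_lit 33) (nat_lit 5) (nat_lit 34) (nat_lit 4) (nat_lit 500) (nat_lit 338) (nat_lit 302)) (XT.nd (nat_lit 78) (nat_lit 0) (nat_lit 0) (XT.lf (nat_lit 0) (nat_lit 1413115030) (nat_lit 228) (nat_lit 12061489752) (nat_lit 76) (nat_lit 1479487422) (nat_lit 28) (nat_lit 5) (nat_lit 31) (nat_lit 5) (nat_lit 29) (nat_lit 4) (nat_lit 501) (nat_lit 338) (nat_lit 301)) (XT.lf (nat_lit 0) (nat_lit 6588734072) (nat_lit 228) (nat_lit 1877373388) (nat_lit 76) (nat_lit 6672543027) (nat_lit 28) (nat_lit 5) (nat_lit 31) (nat_lit 5) (nat_lit 29) (nat_lit 4) (nat_lit 502) (nat_lit 338) (nat_lit 300))))))) (XT.nd (nat_lit 56628) (nat_lit 0) (nat_lit 4560) (XT.nd (nat_lit 56160) (nat_lit 0) (nat_lit 7448) (XT.nd (nat_lit 234) (nat_lit 304) (nat_lit 0) (XT.nd (nat_lit 78) (nat_lit 228) (nat_lit 0) (XT.lf (nat_lit 0) (nat_lit 8522550643)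 (nat_lit 152) (nat_lit 3346010944) (nat_lit 228) (nat_lit 3458327432) (nat_lit 26) (nat_lit 5) (nat_lit 28) (nat_lit 5) (nat_lit 29) (nat_lit 4) (nat_lit 503) (nat_lit 338) (nat_lit 299)) (XT.nd (nat_lit 78) (nat_lit 0) (nat_lit 0) (XT.lf (nat_lit 0) (nat_lit 1705848822) (nat_lit 228) (nat_lit 11958174411) (nat_lit 76) (nat_lit 1854776440) (nat_lit 23) (nat_lit 5) (nat_lit 26) (nat_lit 5) (nat_lit 24) (nat_lit 4) (nat_lit 504) (nat_lit 338) (nat_lit 298)) (XT.lf (nat_lit 0) (nat_lit 6940730870) (nat_lit 228) (nat_lit 1633736749) (nat_lit 76) (nat_lit 7139351976) (nat_lit 23) (nat_lit 5) (nat_lit 26) (nat_lit 5) (nat_lit 24) (nat_lit 4) (nat_lit 505) (nat_lit 338) (nat_lit 297)))) (XT.nd (nat_lit 78) (nat_lit 228) (nat_lit 0) (XT.lf (nat_lit 0) (nat_lit 8916225643) (nat_lit 76) (nat_lit 3368606235) (nat_lit 152) (nat_lit 3627820389) (nat_lit 22) (nat_lit 5) (nat_lit 23) (nat_lit 5) (nat_lit 24) (nat_lit 4) (nat_lit 506) (nat_lit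 338) (nat_lit 296)) (XT.nd (nat_lit 78) (nat_lit 0) (nat_lit 0) (XT.lf (nat_lit 0) (nat_lit 1592305010) (nat_lit 228) (nat_lit 12606534161) (nat_lit 76) (nat_lit 1916550623) (nat_lit 19) (nat_lit 5) (nat_lit 22) (nat_lit 5) (nat_lit 20) (nat_lit 4) (nat_lit 507) (nat_lit 338) (nat_lit 295)) (XT.lf (nat_lit 0) (nat_lit 6884688838) (nat_lit 228) (nat_lit 2146902426) (nat_lit 76) (nat_lit 7289785177) (nat_lit 19) (nat_lit 5) (nat_lit 22) (nat_lit 5) (nat_lit 20) (nat_lit 4) (nat_lit 508) (nat_lit 338) (nat_lit 294))))) (XT.nd (nat_lit 234) (nat_lit 1064) (nat_lit 0) (XT.nd (nat_lit 78) (nat_lit 760) (nat_lit 0) (XT.lf (nat_lit 0) (nat_lit 2265364031) (nat_lit 456) (nat_lit 397727180) (nat_lit 0) (nat_lit 2265364031) (nat_lit 141) (nat_lit 5) (nat_lit 147) (nat_lit 4) (nat_lit 141) (nat_lit 4) (nat_lit 462) (nat_lit 339) (nat_lit 339)) (XT.nd (nat_lit 78) (nat_lit 380) (nat_lit 0) (XT.lf (nat_lit 0) (nat_lit 7595187379) (nat_lit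 380) (nat_lit 1562358543) (nat_lit 380) (nat_lit 789336958) (nat_lit 136) (nat_lit 4) (nat_lit 141) (nat_lit 5) (nat_lit 141) (nat_lit 4) (nat_lit 463) (nat_lit 339) (nat_lit 338)) (XT.lf (nat_lit 0) (nat_lit 3777756038) (nat_lit 380) (nat_lit 3983724339) (nat_lit 0) (nat_lit 2276887522) (nat_lit 131) (nat_lit 5) (nat_lit 136) (nat_lit 4) (nat_lit 131) (nat_lit 4) (nat_lit 464) (nat_lit 339) (nat_lit 337)))) (XT.nd (nat_lit 78) (nat_lit 684) (nat_lit 0) (XT.lf (nat_lit 0) (nat_lit 4461445921) (nat_lit 380) (nat_lit 3949865495) (nat_lit 380) (nat_lit 1720561474) (nat_lit 126) (nat_lit 4) (nat_lit 131) (nat_lit 5) (nat_lit 131) (nat_lit 4) (nat_lit 465) (nat_lit 339) (nat_lit 336)) (XT.nd (nat_lit 78) (nat_lit 304) (nat_lit 0) (XT.lf (nat_lit 0) (nat_lit 2809371976) (nat_lit 304) (nat_lit 38562901) (nat_lit 380) (nat_lit 7379427005) (nat_lit 121) (nat_lit 5) (nat_lit 125) (nat_lit 5) (nat_lit 126) (nat_lit 4) (nat_lit 466) (nat_lit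 339) (nat_lit 335)) (XT.lf (nat_lit 0) (nat_lit 1076869538) (nat_lit 304) (nat_lit 6409897102) (nat_lit 304) (nat_lit 2837734412) (nat_lit 117) (nat_lit 4) (nat_lit 121) (nat_lit 5) (nat_lit 121) (nat_lit 4) (nat_lit 467) (nat_lit 339) (nat_lit 334)))))) (XT.nd (nat_lit 468) (nat_lit 1216) (nat_lit 0) (XT.nd (nat_lit 234) (nat_lit 912) (nat_lit 0) (XT.nd (nat_lit 78) (nat_lit 684) (nat_lit 0) (XT.lf (nat_lit 0) (nat_lit 1752823675) (nat_lit 380) (nat_lit 704420675) (nat_lit 76) (nat_lit 7966481804) (nat_lit 116) (nat_lit 5) (nat_lit 121) (nat_lit 5) (nat_lit 117) (nat_lit 4) (nat_lit 468) (nat_lit 339) (nat_lit 333)) (XT.nd (nat_lit 78) (nat_lit 380) (nat_lit 0) (XT.lf (nat_lit 0) (nat_lit 6392054279) (nat_lit 380) (nat_lit 2549279002) (nat_lit 0) (nat_lit 1583337631) (nat_lit 112) (nat_lit 5) (nat_lit 117) (nat_lit 4) (nat_lit 112) (nat_lit 4) (nat_lit 469) (nat_lit 339) (nat_lit 332)) (XT.lf (nat_lit 0) (nat_lit 483837035)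 (nat_lit 380) (nat_lit 4465512780) (nat_lit 76) (nat_lit 5678349212) (nat_lit 107) (nat_lit 5) (nat_lit 112) (nat_lit 5) (nat_lit 108) (nat_lit 4) (nat_lit 470) (nat_lit 339) (nat_lit 331)))) (XT.nd (nat_lit 78) (nat_lit 608) (nat_lit 0) (XT.lf (nat_lit 0) (nat_lit 4268384374) (nat_lit 304) (nat_lit 846942682) (nat_lit 380) (nat_lit 5617360497) (nat_lit 103) (nat_lit 5) (nat_lit 107) (nat_lit 5) (nat_lit 108) (nat_lit 4) (nat_lit 471) (nat_lit 339) (nat_lit 330)) (XT.nd (nat_lit 78) (nat_lit 304) (nat_lit 0) (XT.lf (nat_lit 0) (nat_lit 2296124541) (nat_lit 304) (nat_lit 7543444807) (nat_lit 304) (nat_lit 1000210958) (nat_lit 99) (nat_lit 4) (nat_lit 103) (nat_lit 5) (nat_lit 103) (nat_lit 4) (nat_lit 472) (nat_lit 339) (nat_lit 329)) (XT.lf (nat_lit 0) (nat_lit 233725563) (nat_lit 228) (nat_lit 3411231449) (nat_lit 304) (nat_lit 7303896410) (nat_lit 95) (nat_lit 5) (nat_lit 98) (nat_lit 5) (nat_lit 99) (nat_lit 4) (nat_lit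 473) (nat_lit 339) (nat_lit 328))))) (XT.nd (nat_lit 234) (nat_lit 608) (nat_lit 0) (XT.nd (nat_lit 78) (nat_lit 608) (nat_lit 0) (XT.lf (nat_lit 0) (nat_lit 8366412942) (nat_lit 304) (nat_lit 1879626754) (nat_lit 0) (nat_lit 814007033) (nat_lit 95) (nat_lit 5) (nat_lit 99) (nat_lit 4) (nat_lit 95) (nat_lit 4) (nat_lit 474) (nat_lit 339) (nat_lit 327)) (XT.nd (nat_lit 78) (nat_lit 228) (nat_lit 0) (XT.lf (nat_lit 0) (nat_lit 1986290946) (nat_lit 380) (nat_lit 4092161274) (nat_lit 76) (nat_lit 5094681022) (nat_lit 90) (nat_lit 5) (nat_lit 95) (nat_lit 5) (nat_lit 91) (nat_lit 4) (nat_lit 475) (nat_lit 339) (nat_lit 326)) (XT.lf (nat_lit 0) (nat_lit 4895428114) (nat_lit 228) (nat_lit 1808104267) (nat_lit 304) (nat_lit 4585003418) (nat_lit 87) (nat_lit 5) (nat_lit 90) (nat_lit 5) (nat_lit 91) (nat_lit 4) (nat_lit 476) (nat_lit 339) (nat_lit 325)))) (XT.nd (nat_lit 78) (nat_lit 228) (nat_lit 0) (XT.lf (nat_lit 0) (nat_lit 104170001)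 (nat_lit 380) (nat_lit 8785981588) (nat_lit 76) (nat_lit 2516152060) (nat_lit 82) (nat_lit 5) (nat_lit 87) (nat_lit 5) (nat_lit 83) (nat_lit 4) (nat_lit 477) (nat_lit 339) (nat_lit 324)) (XT.nd (nat_lit 78) (nat_lit 0) (nat_lit 0) (XT.lf (nat_lit 0) (nat_lit 226139249) (nat_lit 228) (nat_lit 4591962329) (nat_lit 304) (nat_lit 6707877562) (nat_lit 79) (nat_lit 5) (nat_lit 82) (nat_lit 5) (nat_lit 83) (nat_lit 4) (nat_lit 478) (nat_lit 339) (nat_lit 323)) (XT.lf (nat_lit 0) (nat_lit 9429002121) (nat_lit 228) (nat_lit 192507085) (nat_lit 304) (nat_lit 2026640649) (nat_lit 79) (nat_lit 5) (nat_lit 82) (nat_lit 5) (nat_lit 83) (nat_lit 4) (nat_lit 479) (nat_lit 339) (nat_lit 322))))))))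
noncomputable def xc12 : XT := (XT.nd (nat_lit 1794) (nat_lit 684) (nat_lit 0) (XT.nd (nat_lit 858) (nat_lit 1596) (nat_lit 0) (XT.nd (nat_lit 390) (nat_lit 1216) (nat_lit 0) (XT.nd (nat_lit 156) (nat_lit 532) (nat_lit 0) (XT.nd (nat_lit 78) (nat_lit 228) (nat_lit 0) (XT.lf (nat_lit 0) (nat_lit 2722777428) (nat_lit 304) (nat_lit 4790835369) (nat_lit 76) (nat_lit 4258587770) (nat_lit 75) (nat_lit 5) (nat_lit 79) (nat_lit 5) (nat_lit 76) (nat_lit 4) (nat_lit 480) (nat_lit 339) (nat_lit 321)) (XT.lf (nat_lit 0) (nat_lit 4433314673) (nat_lit 228) (nat_lit 3089131350) (nat_lit 304) (nat_lit 4376375708) (nat_lit 72) (nat_lit 5) (nat_lit 75) (nat_lit 5) (nat_lit 76) (nat_lit 4) (nat_lit 481) (nat_lit 339) (nat_lit 320))) (XT.nd (nat_lit 78) (nat_lit 228) (nat_lit 0) (XT.lf (nat_lit 0) (nat_lit 375719210) (nat_lit 304) (nat_lit 10244937372) (nat_lit 76) (nat_lit 1407459143) (nat_lit 68) (nat_lit 5) (nat_lit 72) (nat_lit 5) (nat_lit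 69) (nat_lit 4) (nat_lit 482) (nat_lit 339) (nat_lit 319)) (XT.nd (nat_lit 78) (nat_lit 228) (nat_lit 0) (XT.lf (nat_lit 0) (nat_lit 5172881006) (nat_lit 304) (nat_lit 998674472) (nat_lit 76) (nat_lit 5987694101) (nat_lit 68) (nat_lit 5) (nat_lit 72) (nat_lit 5) (nat_lit 69) (nat_lit 4) (nat_lit 483) (nat_lit 339) (nat_lit 318)) (XT.lf (nat_lit 0) (nat_lit 8437344511) (nat_lit 228) (nat_lit 1622327065) (nat_lit 304) (nat_lit 2233465754) (nat_lit 65) (nat_lit 5) (nat_lit 68) (nat_lit 5) (nat_lit 69) (nat_lit 4) (nat_lit 484) (nat_lit 339) (nat_lit 317))))) (XT.nd (nat_lit 234) (nat_lit 760) (nat_lit 0) (XT.nd (nat_lit 78) (nat_lit 152) (nat_lit 0) (XT.lf (nat_lit 0) (nat_lit 2582001713) (nat_lit 304) (nat_lit 6852939664) (nat_lit 76) (nat_lit 2994390774) (nat_lit 61) (nat_lit 5) (nat_lit 65) (nat_lit 5) (nat_lit 62) (nat_lit 4) (nat_lit 485) (nat_lit 339) (nat_lit 316)) (XT.nd (nat_lit 78) (nat_lit 0) (nat_lit 0) (XT.lf (nat_lit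 0) (nat_lit 2583762667) (nat_lit 152) (nat_lit 4872938714) (nat_lit 228) (nat_lit 5111402292) (nat_lit 59) (nat_lit 5) (nat_lit 61) (nat_lit 5) (nat_lit 62) (nat_lit 4) (nat_lit 486) (nat_lit 339) (nat_lit 315)) (XT.lf (nat_lit 0) (nat_lit 12196619101) (nat_lit 152) (nat_lit 218005285) (nat_lit 228) (nat_lit 295316208) (nat_lit 59) (nat_lit 5) (nat_lit 61) (nat_lit 5) (nat_lit 62) (nat_lit 4) (nat_lit 487) (nat_lit 339) (nat_lit 314)))) (XT.nd (nat_lit 78) (nat_lit 456) (nat_lit 0) (XT.lf (nat_lit 0) (nat_lit 4586074413) (nat_lit 304) (nat_lit 3751016882) (nat_lit 76) (nat_lit 4516337056) (nat_lit 55) (nat_lit 5) (nat_lit 59) (nat_lit 5) (nat_lit 56) (nat_lit 4) (nat_lit 488) (nat_lit 339) (nat_lit 313)) (XT.nd (nat_lit 78) (nat_lit 304) (nat_lit 0) (XT.lf (nat_lit 0) (nat_lit 5887079014) (nat_lit 152) (nat_lit 3657930534) (nat_lit 228) (nat_lit 3455064147) (nat_lit 53) (nat_lit 5) (nat_lit 55) (nat_lit 5) (nat_lit 56) (nat_lit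 4) (nat_lit 489) (nat_lit 339) (nat_lit 312)) (XT.lf (nat_lit 0) (nat_lit 1424342252) (nat_lit 304) (nat_lit 10618282473) (nat_lit 76) (nat_lit 1107043943) (nat_lit 49) (nat_lit 5) (nat_lit 53) (nat_lit 5) (nat_lit 50) (nat_lit 4) (nat_lit 490) (nat_lit 339) (nat_lit 311)))))) (XT.nd (nat_lit 468) (nat_lit 760) (nat_lit 0) (XT.nd (nat_lit 234) (nat_lit 380) (nat_lit 0) (XT.nd (nat_lit 78) (nat_lit 456) (nat_lit 0) (XT.lf (nat_lit 0) (nat_lit 6368411014) (nat_lit 304) (nat_lit 988359522) (nat_lit 76) (nat_lit 5944765539) (nat_lit 49) (nat_lit 5) (nat_lit 53) (nat_lit 5) (nat_lit 50) (nat_lit 4) (nat_lit 491) (nat_lit 339) (nat_lit 310)) (XT.nd (nat_lit 78) (nat_lit 304) (nat_lit 0) (XT.lf (nat_lit 0) (nat_lit 8847542334) (nat_lit 152) (nat_lit 2563440919) (nat_lit 228) (nat_lit 2045469101) (nat_lit 47) (nat_lit 5) (nat_lit 49) (nat_lit 5) (nat_lit 50) (nat_lit 4) (nat_lit 492) (nat_lit 339) (nat_lit 309)) (XT.lf (nat_lit 0)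 (nat_lit 2899457714) (nat_lit 304) (nat_lit 8403755530) (nat_lit 76) (nat_lit 2310914254) (nat_lit 43) (nat_lit 5) (nat_lit 47) (nat_lit 5) (nat_lit 44) (nat_lit 4) (nat_lit 493) (nat_lit 339) (nat_lit 308)))) (XT.nd (nat_lit 78) (nat_lit 228) (nat_lit 0) (XT.lf (nat_lit 0) (nat_lit 1398861480) (nat_lit 152) (nat_lit 6516694486) (nat_lit 228) (nat_lit 5859140271) (nat_lit 41) (nat_lit 5) (nat_lit 43) (nat_lit 5) (nat_lit 44) (nat_lit 4) (nat_lit 494) (nat_lit 339) (nat_lit 307)) (XT.nd (nat_lit 78) (nat_lit 228) (nat_lit 0) (XT.lf (nat_lit 0) (nat_lit 11409188710) (nat_lit 152) (nat_lit 1622090044) (nat_lit 228) (nat_lit 907215208) (nat_lit 41) (nat_lit 5) (nat_lit 43) (nat_lit 5) (nat_lit 44) (nat_lit 4) (nat_lit 495) (nat_lit 339) (nat_lit 306)) (XT.lf (nat_lit 0) (nat_lit 4103743185) (nat_lit 228) (nat_lit 6642875389) (nat_lit 76) (nat_lit 3358127693) (nat_lit 38) (nat_lit 5) (nat_lit 41) (nat_lit 5) (nat_lit 39) (nat_lit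 4) (nat_lit 496) (nat_lit 339) (nat_lit 305))))) (XT.nd (nat_lit 234) (nat_lit 380) (nat_lit 0) (XT.nd (nat_lit 78) (nat_lit 228) (nat_lit 0) (XT.lf (nat_lit 0) (nat_lit 3338926889) (nat_lit 152) (nat_lit 5857182748) (nat_lit 228) (nat_lit 5078230772) (nat_lit 36) (nat_lit 5) (nat_lit 38) (nat_lit 5) (nat_lit 39) (nat_lit 4) (nat_lit 497) (nat_lit 339) (nat_lit 304)) (XT.nd (nat_lit 78) (nat_lit 228) (nat_lit 0) (XT.lf (nat_lit 0) (nat_lit 13509904009) (nat_lit 152) (nat_lit 869264556) (nat_lit 228) (nat_lit 68384349) (nat_lit 36) (nat_lit 5) (nat_lit 38) (nat_lit 5) (nat_lit 39) (nat_lit 4) (nat_lit 498) (nat_lit 339) (nat_lit 303)) (XT.lf (nat_lit 0) (nat_lit 5008301231) (nat_lit 228) (nat_lit 5401819304) (nat_lit 76) (nat_lit 4212802422) (nat_lit 33) (nat_lit 5) (nat_lit 36) (nat_lit 5) (nat_lit 34) (nat_lit 4) (nat_lit 499) (nat_lit 339) (nat_lit 302)))) (XT.nd (nat_lit 78) (nat_lit 228) (nat_lit 0) (XT.lf (nat_lit 0) (nat_lit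 4750695707) (nat_lit 152) (nat_lit 5422993014) (nat_lit 228) (nat_lit 4628344152) (nat_lit 31) (nat_lit 5) (nat_lit 33) (nat_lit 5) (nat_lit 34) (nat_lit 4) (nat_lit 500) (nat_lit 339) (nat_lit 301)) (XT.nd (nat_lit 78) (nat_lit 0) (nat_lit 0) (XT.lf (nat_lit 0) (nat_lit 94002465) (nat_lit 152) (nat_lit 339972268) (nat_lit 228) (nat_lit 14551047530) (nat_lit 28) (nat_lit 5) (nat_lit 30) (nat_lit 5) (nat_lit 31) (nat_lit 5) (nat_lit 501) (nat_lit 339) (nat_lit 300)) (XT.lf (nat_lit 0) (nat_lit 5580337956) (nat_lit 228) (nat_lit 4754027516) (nat_lit 76) (nat_lit 4835801678) (nat_lit 28) (nat_lit 5) (nat_lit 31) (nat_lit 5) (nat_lit 29) (nat_lit 4) (nat_lit 502) (nat_lit 339) (nat_lit 299))))))) (XT.nd (nat_lit 56394) (nat_lit 0) (nat_lit 5168) (XT.nd (nat_lit 390) (nat_lit 0) (nat_lit 0) (XT.nd (nat_lit 156) (nat_lit 304) (nat_lit 0) (XT.nd (nat_lit 78) (nat_lit 228) (nat_lit 0) (XT.lf (nat_lit 0) (nat_lit 5558660436) (nat_lit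 152) (nat_lit 5255743362) (nat_lit 228) (nat_lit 4544918577) (nat_lit 26) (nat_lit 5) (nat_lit 28) (nat_lit 5) (nat_lit 29) (nat_lit 4) (nat_lit 503) (nat_lit 339) (nat_lit 298)) (XT.lf (nat_lit 0) (nat_lit 495034763) (nat_lit 152) (nat_lit 79800852) (nat_lit 228) (nat_lit 14977713370) (nat_lit 23) (nat_lit 5) (nat_lit 25) (nat_lit 5) (nat_lit 26) (nat_lit 5) (nat_lit 504) (nat_lit 339) (nat_lit 297))) (XT.nd (nat_lit 78) (nat_lit 304) (nat_lit 0) (XT.lf (nat_lit 0) (nat_lit 5782779380) (nat_lit 228) (nat_lit 4781024741) (nat_lit 76) (nat_lit 5184304928) (nat_lit 23) (nat_lit 5) (nat_lit 26) (nat_lit 5) (nat_lit 24) (nat_lit 4) (nat_lit 505) (nat_lit 339) (nat_lit 296)) (XT.nd (nat_lit 78) (nat_lit 228) (nat_lit 0) (XT.lf (nat_lit 0) (nat_lit 5678964408) (nat_lit 76) (nat_lit 5400995410) (nat_lit 152) (nat_lit 4867921661) (nat_lit 22) (nat_lit 5) (nat_lit 23) (nat_lit 5) (nat_lit 24) (nat_lit 4) (nat_lit 506) (nat_lit 339)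 (nat_lit 295)) (XT.lf (nat_lit 0) (nat_lit 165714742) (nat_lit 152) (nat_lit 142482650) (nat_lit 228) (nat_lit 15843789350) (nat_lit 19) (nat_lit 5) (nat_lit 21) (nat_lit 5) (nat_lit 22) (nat_lit 5) (nat_lit 507) (nat_lit 339) (nat_lit 294))))) (XT.nd (nat_lit 55770) (nat_lit 0) (nat_lit 8512) (XT.nd (nat_lit 55614) (nat_lit 0) (nat_lit 9272) (XT.lf (nat_lit 0) (nat_lit 5573844514) (nat_lit 228) (nat_lit 5573325547) (nat_lit 76) (nat_lit 5211339333) (nat_lit 19) (nat_lit 5) (nat_lit 22) (nat_lit 5) (nat_lit 20) (nat_lit 4) (nat_lit 508) (nat_lit 339) (nat_lit 293)) (XT.nd (nat_lit 78) (nat_lit 456) (nat_lit 0) (XT.lf (nat_lit 0) (nat_lit 1126380786) (nat_lit 380) (nat_lit 1857259178) (nat_lit 380) (nat_lit 1857259178) (nat_lit 147) (nat_lit 4) (nat_lit 152) (nat_lit 5) (nat_lit 152) (nat_lit 4) (nat_lit 460) (nat_lit 340) (nat_lit 340)) (XT.lf (nat_lit 0) (nat_lit 736801034) (nat_lit 380) (nat_lit 26096338) (nat_lit 456) (nat_lit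 9006217979) (nat_lit 141) (nat_lit 5) (nat_lit 146) (nat_lit 5) (nat_lit 147) (nat_lit 4) (nat_lit 461) (nat_lit 340) (nat_lit 339)))) (XT.nd (nat_lit 78) (nat_lit 760) (nat_lit 0) (XT.lf (nat_lit 0) (nat_lit 5284503684) (nat_lit 456) (nat_lit 850105272) (nat_lit 0) (nat_lit 3723000081) (nat_lit 141) (nat_lit 5) (nat_lit 147) (nat_lit 4) (nat_lit 141) (nat_lit 4) (nat_lit 462) (nat_lit 340) (nat_lit 338)) (XT.nd (nat_lit 78) (nat_lit 380) (nat_lit 0) (XT.lf (nat_lit 0) (nat_lit 7485518819) (nat_lit 380) (nat_lit 2391064804) (nat_lit 380) (nat_lit 71696900) (nat_lit 136) (nat_lit 4) (nat_lit 141) (nat_lit 5) (nat_lit 141) (nat_lit 4) (nat_lit 463) (nat_lit 340) (nat_lit 337)) (XT.lf (nat_lit 0) (nat_lit 4445452637) (nat_lit 380) (nat_lit 4151907484) (nat_lit 0) (nat_lit 1443127030) (nat_lit 131) (nat_lit 5) (nat_lit 136) (nat_lit 4) (nat_lit 131) (nat_lit 4) (nat_lit 464) (nat_lit 340) (nat_lit 336)))))) (XT.nd (nat_lit 468)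 (nat_lit 1520) (nat_lit 0) (XT.nd (nat_lit 234) (nat_lit 760) (nat_lit 0) (XT.nd (nat_lit 78) (nat_lit 684) (nat_lit 0) (XT.lf (nat_lit 0) (nat_lit 4236434625) (nat_lit 380) (nat_lit 4807371848) (nat_lit 380) (nat_lit 1090893785) (nat_lit 126) (nat_lit 4) (nat_lit 131) (nat_lit 5) (nat_lit 131) (nat_lit 4) (nat_lit 465) (nat_lit 340) (nat_lit 335)) (XT.nd (nat_lit 78) (nat_lit 304) (nat_lit 0) (XT.lf (nat_lit 0) (nat_lit 2519671848) (nat_lit 304) (nat_lit 914139725) (nat_lit 380) (nat_lit 6797010495) (nat_lit 121) (nat_lit 5) (nat_lit 125) (nat_lit 5) (nat_lit 126) (nat_lit 4) (nat_lit 466) (nat_lit 340) (nat_lit 334)) (XT.lf (nat_lit 0) (nat_lit 730696251) (nat_lit 304) (nat_lit 7300542860) (nat_lit 304) (nat_lit 2297554060) (nat_lit 117) (nat_lit 4) (nat_lit 121) (nat_lit 5) (nat_lit 121) (nat_lit 4) (nat_lit 467) (nat_lit 340) (nat_lit 333)))) (XT.nd (nat_lit 78) (nat_lit 684) (nat_lit 0) (XT.lf (nat_lit 0) (nat_lit 2252531289)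 (nat_lit 380) (nat_lit 1112642076) (nat_lit 76) (nat_lit 7063446228) (nat_lit 116) (nat_lit 5) (nat_lit 121) (nat_lit 5) (nat_lit 117) (nat_lit 4) (nat_lit 468) (nat_lit 340) (nat_lit 332)) (XT.nd (nat_lit 78) (nat_lit 380) (nat_lit 0) (XT.lf (nat_lit 0) (nat_lit 6849945052) (nat_lit 380) (nat_lit 3016382018) (nat_lit 0) (nat_lit 664077245) (nat_lit 112) (nat_lit 5) (nat_lit 117) (nat_lit 4) (nat_lit 112) (nat_lit 4) (nat_lit 469) (nat_lit 340) (nat_lit 331)) (XT.lf (nat_lit 0) (nat_lit 893831186) (nat_lit 380) (nat_lit 5002041500) (nat_lit 76) (nat_lit 4738229177) (nat_lit 107) (nat_lit 5) (nat_lit 112) (nat_lit 5) (nat_lit 108) (nat_lit 4) (nat_lit 470) (nat_lit 340) (nat_lit 330))))) (XT.nd (nat_lit 234) (nat_lit 836) (nat_lit 0) (XT.nd (nat_lit 78) (nat_lit 380) (nat_lit 0) (XT.lf (nat_lit 0) (nat_lit 3670576140) (nat_lit 304) (nat_lit 1818373801) (nat_lit 380) (nat_lit 5250871293) (nat_lit 103) (nat_lit 5) (nat_lit 107)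 (nat_lit 5) (nat_lit 108) (nat_lit 4) (nat_lit 471) (nat_lit 340) (nat_lit 329)) (XT.nd (nat_lit 78) (nat_lit 76) (nat_lit 0) (XT.lf (nat_lit 0) (nat_lit 1635222708) (nat_lit 304) (nat_lit 8535038183) (nat_lit 304) (nat_lit 677515074) (nat_lit 99) (nat_lit 4) (nat_lit 103) (nat_lit 5) (nat_lit 103) (nat_lit 4) (nat_lit 472) (nat_lit 340) (nat_lit 328)) (XT.lf (nat_lit 0) (nat_lit 3929642837) (nat_lit 380) (nat_lit 494011001) (nat_lit 76) (nat_lit 6533832117) (nat_lit 98) (nat_lit 5) (nat_lit 103) (nat_lit 5) (nat_lit 99) (nat_lit 4) (nat_lit 473) (nat_lit 340) (nat_lit 327)))) (XT.nd (nat_lit 78) (nat_lit 608) (nat_lit 0) (XT.lf (nat_lit 0) (nat_lit 8398255264) (nat_lit 228) (nat_lit 212264109) (nat_lit 304) (nat_lit 2458974636) (nat_lit 95) (nat_lit 5) (nat_lit 98) (nat_lit 5) (nat_lit 99) (nat_lit 4) (nat_lit 474) (nat_lit 340) (nat_lit 326)) (XT.nd (nat_lit 78) (nat_lit 228) (nat_lit 0) (XT.lf (nat_lit 0) (nat_lit 2179207851)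 (nat_lit 380) (nat_lit 4957859893) (nat_lit 76) (nat_lit 4046258635) (nat_lit 90) (nat_lit 5) (nat_lit 95) (nat_lit 5) (nat_lit 91) (nat_lit 4) (nat_lit 475) (nat_lit 340) (nat_lit 325)) (XT.lf (nat_lit 0) (nat_lit 3964675279) (nat_lit 228) (nat_lit 2894315228) (nat_lit 304) (nat_lit 4440490579) (nat_lit 87) (nat_lit 5) (nat_lit 90) (nat_lit 5) (nat_lit 91) (nat_lit 4) (nat_lit 476) (nat_lit 340) (nat_lit 324))))))))
noncomputable def xc13 : XT := (XT.nd (nat_lit 1794) (nat_lit 1064) (nat_lit 0) (XT.nd (nat_lit 858) (nat_lit 1976) (nat_lit 0) (XT.nd (nat_lit 390) (nat_lit 988) (nat_lit 0) (XT.nd (nat_lit 156) (nat_lit 760) (nat_lit 0) (XT.nd (nat_lit 78) (nat_lit 0) (nat_lit 0) (XT.lf (nat_lit 0) (nat_lit 201658526) (nat_lit 380) (nat_lit 9799225182) (nat_lit 76) (nat_lit 1417251903) (nat_lit 82) (nat_lit 5) (nat_lit 87) (nat_lit 5) (nat_lit 83) (nat_lit 4) (nat_lit 477) (nat_lit 340) (nat_lit 323)) (XT.lf (nat_lit 0) (nat_lit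 4882905987) (nat_lit 380) (nat_lit 843125849) (nat_lit 76) (nat_lit 5812435752) (nat_lit 82) (nat_lit 5) (nat_lit 87) (nat_lit 5) (nat_lit 83) (nat_lit 4) (nat_lit 478) (nat_lit 340) (nat_lit 322))) (XT.nd (nat_lit 78) (nat_lit 532) (nat_lit 0) (XT.lf (nat_lit 0) (nat_lit 8295825724) (nat_lit 228) (nat_lit 1353995008) (nat_lit 304) (nat_lit 2011550177) (nat_lit 79) (nat_lit 5) (nat_lit 82) (nat_lit 5) (nat_lit 83) (nat_lit 4) (nat_lit 479) (nat_lit 340) (nat_lit 321)) (XT.nd (nat_lit 78) (nat_lit 228) (nat_lit 0) (XT.lf (nat_lit 0) (nat_lit 2691509244) (nat_lit 304) (nat_lit 6011598667) (nat_lit 76) (nat_lit 3083237609) (nat_lit 75) (nat_lit 5) (nat_lit 79) (nat_lit 5) (nat_lit 76) (nat_lit 4) (nat_lit 480) (nat_lit 340) (nat_lit 320)) (XT.lf (nat_lit 0) (nat_lit 3143426364) (nat_lit 228) (nat_lit 4308957492) (nat_lit 304) (nat_lit 4461361298) (nat_lit 72) (nat_lit 5) (nat_lit 75) (nat_lit 5) (nat_lit 76) (nat_lit 4) (nat_lit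 481) (nat_lit 340) (nat_lit 319))))) (XT.nd (nat_lit 234) (nat_lit 456) (nat_lit 0) (XT.nd (nat_lit 78) (nat_lit 228) (nat_lit 0) (XT.lf (nat_lit 0) (nat_lit 244437063) (nat_lit 304) (nat_lit 11627093047) (nat_lit 76) (nat_lit 172470787) (nat_lit 68) (nat_lit 5) (nat_lit 72) (nat_lit 5) (nat_lit 69) (nat_lit 4) (nat_lit 482) (nat_lit 340) (nat_lit 318)) (XT.nd (nat_lit 78) (nat_lit 228) (nat_lit 0) (XT.lf (nat_lit 0) (nat_lit 5011353662) (nat_lit 304) (nat_lit 2433219486) (nat_lit 76) (nat_lit 4731168948) (nat_lit 68) (nat_lit 5) (nat_lit 72) (nat_lit 5) (nat_lit 69) (nat_lit 4) (nat_lit 483) (nat_lit 340) (nat_lit 317)) (XT.lf (nat_lit 0) (nat_lit 6931690477) (nat_lit 228) (nat_lit 2927025896) (nat_lit 304) (nat_lit 2451704424) (nat_lit 65) (nat_lit 5) (nat_lit 68) (nat_lit 5) (nat_lit 69) (nat_lit 4) (nat_lit 484) (nat_lit 340) (nat_lit 316)))) (XT.nd (nat_lit 78) (nat_lit 152) (nat_lit 0) (XT.lf (nat_lit 0) (nat_lit 2317987376)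 (nat_lit 304) (nat_lit 8456206103) (nat_lit 76) (nat_lit 1673425537) (nat_lit 61) (nat_lit 5) (nat_lit 65) (nat_lit 5) (nat_lit 62) (nat_lit 4) (nat_lit 485) (nat_lit 340) (nat_lit 315)) (XT.nd (nat_lit 78) (nat_lit 0) (nat_lit 0) (XT.lf (nat_lit 0) (nat_lit 906975133) (nat_lit 152) (nat_lit 6245333665) (nat_lit 228) (nat_lit 5434891560) (nat_lit 59) (nat_lit 5) (nat_lit 61) (nat_lit 5) (nat_lit 62) (nat_lit 4) (nat_lit 486) (nat_lit 340) (nat_lit 314)) (XT.lf (nat_lit 0) (nat_lit 10468640854) (nat_lit 152) (nat_lit 1612345421) (nat_lit 228) (nat_lit 648638126) (nat_lit 59) (nat_lit 5) (nat_lit 61) (nat_lit 5) (nat_lit 62) (nat_lit 4) (nat_lit 487) (nat_lit 340) (nat_lit 313)))))) (XT.nd (nat_lit 468) (nat_lit 760) (nat_lit 0) (XT.nd (nat_lit 234) (nat_lit 456) (nat_lit 0) (XT.nd (nat_lit 78) (nat_lit 456) (nat_lit 0) (XT.lf (nat_lit 0) (nat_lit 4187419501) (nat_lit 304) (nat_lit 5582082765) (nat_lit 76) (nat_lit 3104657234)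 (nat_lit 55) (nat_lit 5) (nat_lit 59) (nat_lit 5) (nat_lit 56) (nat_lit 4) (nat_lit 488) (nat_lit 340) (nat_lit 312)) (XT.nd (nat_lit 78) (nat_lit 304) (nat_lit 0) (XT.lf (nat_lit 0) (nat_lit 3980331597) (nat_lit 152) (nat_lit 5124878491) (nat_lit 228) (nat_lit 3916419731) (nat_lit 53) (nat_lit 5) (nat_lit 55) (nat_lit 5) (nat_lit 56) (nat_lit 4) (nat_lit 489) (nat_lit 340) (nat_lit 311)) (XT.lf (nat_lit 0) (nat_lit 536522022) (nat_lit 228) (nat_lit 383513556) (nat_lit 304) (nat_lit 12252231161) (nat_lit 49) (nat_lit 5) (nat_lit 52) (nat_lit 5) (nat_lit 53) (nat_lit 5) (nat_lit 490) (nat_lit 340) (nat_lit 310)))) (XT.nd (nat_lit 78) (nat_lit 456) (nat_lit 0) (XT.lf (nat_lit 0) (nat_lit 5832989559) (nat_lit 304) (nat_lit 3054151872) (nat_lit 76) (nat_lit 4437616975) (nat_lit 49) (nat_lit 5) (nat_lit 53) (nat_lit 5) (nat_lit 50) (nat_lit 4) (nat_lit 491) (nat_lit 340) (nat_lit 309)) (XT.nd (nat_lit 78) (nat_lit 304) (nat_lit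 0) (XT.lf (nat_lit 0) (nat_lit 6703810904) (nat_lit 152) (nat_lit 4129768879) (nat_lit 228) (nat_lit 2646936466) (nat_lit 47) (nat_lit 5) (nat_lit 49) (nat_lit 5) (nat_lit 50) (nat_lit 4) (nat_lit 492) (nat_lit 340) (nat_lit 308)) (XT.lf (nat_lit 0) (nat_lit 2252859893) (nat_lit 304) (nat_lit 10661497276) (nat_lit 76) (nat_lit 724974553) (nat_lit 43) (nat_lit 5) (nat_lit 47) (nat_lit 5) (nat_lit 44) (nat_lit 4) (nat_lit 493) (nat_lit 340) (nat_lit 307))))) (XT.nd (nat_lit 234) (nat_lit 380) (nat_lit 0) (XT.nd (nat_lit 78) (nat_lit 380) (nat_lit 0) (XT.lf (nat_lit 0) (nat_lit 7231941587) (nat_lit 304) (nat_lit 927185058) (nat_lit 76) (nat_lit 5641515961) (nat_lit 43) (nat_lit 5) (nat_lit 47) (nat_lit 5) (nat_lit 44) (nat_lit 4) (nat_lit 494) (nat_lit 340) (nat_lit 306)) (XT.nd (nat_lit 78) (nat_lit 228) (nat_lit 0) (XT.lf (nat_lit 0) (nat_lit 9021190571) (nat_lit 152) (nat_lit 3292665180) (nat_lit 228) (nat_lit 1651262531) (nat_lit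 41) (nat_lit 5) (nat_lit 43) (nat_lit 5) (nat_lit 44) (nat_lit 4) (nat_lit 495) (nat_lit 340) (nat_lit 305)) (XT.lf (nat_lit 0) (nat_lit 3314804404) (nat_lit 228) (nat_lit 9150831925) (nat_lit 76) (nat_lit 1666925580) (nat_lit 38) (nat_lit 5) (nat_lit 41) (nat_lit 5) (nat_lit 39) (nat_lit 4) (nat_lit 496) (nat_lit 340) (nat_lit 304)))) (XT.nd (nat_lit 78) (nat_lit 228) (nat_lit 0) (XT.lf (nat_lit 0) (nat_lit 747884927) (nat_lit 152) (nat_lit 7615196095) (nat_lit 228) (nat_lit 5939958501) (nat_lit 36) (nat_lit 5) (nat_lit 38) (nat_lit 5) (nat_lit 39) (nat_lit 4) (nat_lit 497) (nat_lit 340) (nat_lit 303)) (XT.nd (nat_lit 78) (nat_lit 228) (nat_lit 0) (XT.lf (nat_lit 0) (nat_lit 10870081651) (nat_lit 152) (nat_lit 2649009162) (nat_lit 228) (nat_lit 957703840) (nat_lit 36) (nat_lit 5) (nat_lit 38) (nat_lit 5) (nat_lit 39) (nat_lit 4) (nat_lit 498) (nat_lit 340) (nat_lit 302)) (XT.lf (nat_lit 0) (nat_lit 4074259583) (nat_lit 228)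 (nat_lit 8167721979) (nat_lit 76) (nat_lit 2411427909) (nat_lit 33) (nat_lit 5) (nat_lit 36) (nat_lit 5) (nat_lit 34) (nat_lit 4) (nat_lit 499) (nat_lit 340) (nat_lit 301))))))) (XT.nd (nat_lit 56316) (nat_lit 0) (nat_lit 6080) (XT.nd (nat_lit 468) (nat_lit 304) (nat_lit 0) (XT.nd (nat_lit 234) (nat_lit 380) (nat_lit 0) (XT.nd (nat_lit 78) (nat_lit 228) (nat_lit 0) (XT.lf (nat_lit 0) (nat_lit 1899138650) (nat_lit 152) (nat_lit 7295372127) (nat_lit 228) (nat_lit 5638912884) (nat_lit 31) (nat_lit 5) (nat_lit 33) (nat_lit 5) (nat_lit 34) (nat_lit 4) (nat_lit 500) (nat_lit 340) (nat_lit 300)) (XT.nd (nat_lit 78) (nat_lit 228) (nat_lit 0) (XT.lf (nat_lit 0) (nat_lit 12181216898) (nat_lit 152) (nat_lit 2237408903) (nat_lit 228) (nat_lit 598386223) (nat_lit 31) (nat_lit 5) (nat_lit 33) (nat_lit 5) (nat_lit 34) (nat_lit 4) (nat_lit 501) (nat_lit 340) (nat_lit 299)) (XT.lf (nat_lit 0) (nat_lit 4498207292) (nat_lit 228) (nat_lit 7785910261)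 (nat_lit 76) (nat_lit 2919270873) (nat_lit 28) (nat_lit 5) (nat_lit 31) (nat_lit 5) (nat_lit 29) (nat_lit 4) (nat_lit 502) (nat_lit 340) (nat_lit 298)))) (XT.nd (nat_lit 78) (nat_lit 228) (nat_lit 0) (XT.lf (nat_lit 0) (nat_lit 2438439626) (nat_lit 152) (nat_lit 7247576797) (nat_lit 228) (nat_lit 5707453793) (nat_lit 26) (nat_lit 5) (nat_lit 28) (nat_lit 5) (nat_lit 29) (nat_lit 4) (nat_lit 503) (nat_lit 340) (nat_lit 297)) (XT.nd (nat_lit 78) (nat_lit 228) (nat_lit 0) (XT.lf (nat_lit 0) (nat_lit 12877666770) (nat_lit 152) (nat_lit 2100058177) (nat_lit 228) (nat_lit 609628660) (nat_lit 26) (nat_lit 5) (nat_lit 28) (nat_lit 5) (nat_lit 29) (nat_lit 4) (nat_lit 504) (nat_lit 340) (nat_lit 296)) (XT.lf (nat_lit 0) (nat_lit 4549346573) (nat_lit 228) (nat_lit 8087240771) (nat_lit 76) (nat_lit 3147546114) (nat_lit 23) (nat_lit 5) (nat_lit 26) (nat_lit 5) (nat_lit 24) (nat_lit 4) (nat_lit 505) (nat_lit 340) (nat_lit 295))))) (XT.nd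 (nat_lit 55614) (nat_lit 0) (nat_lit 9728) (XT.nd (nat_lit 78) (nat_lit 228) (nat_lit 0) (XT.lf (nat_lit 0) (nat_lit 2281607132) (nat_lit 76) (nat_lit 7517467746) (nat_lit 152) (nat_lit 6185781376) (nat_lit 22) (nat_lit 5) (nat_lit 23) (nat_lit 5) (nat_lit 24) (nat_lit 4) (nat_lit 506) (nat_lit 340) (nat_lit 294)) (XT.nd (nat_lit 78) (nat_lit 228) (nat_lit 0) (XT.lf (nat_lit 0) (nat_lit 12873975477) (nat_lit 76) (nat_lit 2283194422) (nat_lit 152) (nat_lit 1032358777) (nat_lit 22) (nat_lit 5) (nat_lit 23) (nat_lit 5) (nat_lit 24) (nat_lit 4) (nat_lit 507) (nat_lit 340) (nat_lit 293)) (XT.lf (nat_lit 0) (nat_lit 4185666182) (nat_lit 228) (nat_lit 9162564340) (nat_lit 76) (nat_lit 3049179341) (nat_lit 19) (nat_lit 5) (nat_lit 22) (nat_lit 5) (nat_lit 20) (nat_lit 4) (nat_lit 508) (nat_lit 340) (nat_lit 292)))) (XT.nd (nat_lit 78) (nat_lit 836) (nat_lit 0) (XT.lf (nat_lit 0) (nat_lit 2605081663) (nat_lit 380) (nat_lit 1075552610)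 (nat_lit 380) (nat_lit 1075552610) (nat_lit 158) (nat_lit 4) (nat_lit 163) (nat_lit 5) (nat_lit 163) (nat_lit 4) (nat_lit 458) (nat_lit 341) (nat_lit 341)) (XT.nd (nat_lit 78) (nat_lit 380) (nat_lit 0) (XT.lf (nat_lit 0) (nat_lit 2276904653) (nat_lit 456) (nat_lit 5863140314) (nat_lit 0) (nat_lit 1456567962) (nat_lit 152) (nat_lit 5) (nat_lit 158) (nat_lit 4) (nat_lit 152) (nat_lit 4) (nat_lit 459) (nat_lit 341) (nat_lit 340)) (XT.lf (nat_lit 0) (nat_lit 2198790392) (nat_lit 380) (nat_lit 4554147211) (nat_lit 380) (nat_lit 2929558862) (nat_lit 147) (nat_lit 4) (nat_lit 152) (nat_lit 5) (nat_lit 152) (nat_lit 4) (nat_lit 460) (nat_lit 341) (nat_lit 339)))))) (XT.nd (nat_lit 468) (nat_lit 1672) (nat_lit 0) (XT.nd (nat_lit 234) (nat_lit 1064) (nat_lit 0) (XT.nd (nat_lit 78) (nat_lit 456) (nat_lit 0) (XT.lf (nat_lit 0) (nat_lit 622159426) (nat_lit 380) (nat_lit 880429579) (nat_lit 456) (nat_lit 8267826477) (nat_lit 141) (nat_lit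 5) (nat_lit 146) (nat_lit 5) (nat_lit 147) (nat_lit 4) (nat_lit 461) (nat_lit 341) (nat_lit 338)) (XT.nd (nat_lit 78) (nat_lit 456) (nat_lit 0) (XT.lf (nat_lit 0) (nat_lit 5984622541) (nat_lit 456) (nat_lit 1014079438) (nat_lit 0) (nat_lit 2861002980) (nat_lit 141) (nat_lit 5) (nat_lit 147) (nat_lit 4) (nat_lit 141) (nat_lit 4) (nat_lit 462) (nat_lit 341) (nat_lit 337)) (XT.lf (nat_lit 0) (nat_lit 583094042) (nat_lit 456) (nat_lit 2688773811) (nat_lit 76) (nat_lit 6679131782) (nat_lit 135) (nat_lit 5) (nat_lit 141) (nat_lit 5) (nat_lit 136) (nat_lit 4) (nat_lit 463) (nat_lit 341) (nat_lit 336)))) (XT.nd (nat_lit 78) (nat_lit 760) (nat_lit 0) (XT.lf (nat_lit 0) (nat_lit 5058347116) (nat_lit 380) (nat_lit 4432286009) (nat_lit 0) (nat_lit 553387035) (nat_lit 131) (nat_lit 5) (nat_lit 136) (nat_lit 4) (nat_lit 131) (nat_lit 4) (nat_lit 464) (nat_lit 341) (nat_lit 335)) (XT.nd (nat_lit 78) (nat_lit 380) (nat_lit 0) (XT.lf (nat_lit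 0) (nat_lit 3898807385) (nat_lit 380) (nat_lit 5722622429) (nat_lit 380) (nat_lit 517512881) (nat_lit 126) (nat_lit 4) (nat_lit 131) (nat_lit 5) (nat_lit 131) (nat_lit 4) (nat_lit 465) (nat_lit 341) (nat_lit 334)) (XT.lf (nat_lit 0) (nat_lit 2115867976) (nat_lit 304) (nat_lit 1848190721) (nat_lit 380) (nat_lit 6271647477) (nat_lit 121) (nat_lit 5) (nat_lit 125) (nat_lit 5) (nat_lit 126) (nat_lit 4) (nat_lit 466) (nat_lit 341) (nat_lit 333))))) (XT.nd (nat_lit 234) (nat_lit 988) (nat_lit 0) (XT.nd (nat_lit 78) (nat_lit 380) (nat_lit 0) (XT.lf (nat_lit 0) (nat_lit 268920722) (nat_lit 304) (nat_lit 8250687379) (nat_lit 304) (nat_lit 1814910513) (nat_lit 117) (nat_lit 4) (nat_lit 121) (nat_lit 5) (nat_lit 121) (nat_lit 4) (nat_lit 467) (nat_lit 341) (nat_lit 332)) (XT.nd (nat_lit 78) (nat_lit 304) (nat_lit 0) (XT.lf (nat_lit 0) (nat_lit 2696111373) (nat_lit 380) (nat_lit 1636461773) (nat_lit 76) (nat_lit 6102367514) (nat_lit 116)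 (nat_lit 5) (nat_lit 121) (nat_lit 5) (nat_lit 117) (nat_lit 4) (nat_lit 468) (nat_lit 341) (nat_lit 331)) (XT.lf (nat_lit 0) (nat_lit 6934862438) (nat_lit 304) (nat_lit 318412874) (nat_lit 380) (nat_lit 3284258624) (nat_lit 112) (nat_lit 5) (nat_lit 116) (nat_lit 5) (nat_lit 117) (nat_lit 4) (nat_lit 469) (nat_lit 341) (nat_lit 330)))) (XT.nd (nat_lit 78) (nat_lit 608) (nat_lit 0) (XT.lf (nat_lit 0) (nat_lit 1246395624) (nat_lit 380) (nat_lit 5657247881) (nat_lit 76) (nat_lit 3738308749) (nat_lit 107) (nat_lit 5) (nat_lit 112) (nat_lit 5) (nat_lit 108) (nat_lit 4) (nat_lit 470) (nat_lit 341) (nat_lit 329)) (XT.nd (nat_lit 78) (nat_lit 304) (nat_lit 0) (XT.lf (nat_lit 0) (nat_lit 2953574834) (nat_lit 304) (nat_lit 2851431455) (nat_lit 380) (nat_lit 4943398849) (nat_lit 103) (nat_lit 5) (nat_lit 107) (nat_lit 5) (nat_lit 108) (nat_lit 4) (nat_lit 471) (nat_lit 341) (nat_lit 328)) (XT.lf (nat_lit 0) (nat_lit 853544664) (nat_lit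 304) (nat_lit 9589290935) (nat_lit 304) (nat_lit 414397187) (nat_lit 99) (nat_lit 4) (nat_lit 103) (nat_lit 5) (nat_lit 103) (nat_lit 4) (nat_lit 472) (nat_lit 341) (nat_lit 327))))))))
noncomputable def xc14 : XT := (XT.nd (nat_lit 1794) (nat_lit 1672) (nat_lit 0) (XT.nd (nat_lit 858) (nat_lit 2052) (nat_lit 0) (XT.nd (nat_lit 390) (nat_lit 1064) (nat_lit 0) (XT.nd (nat_lit 156) (nat_lit 988) (nat_lit 0) (XT.nd (nat_lit 78) (nat_lit 228) (nat_lit 0) (XT.lf (nat_lit 0) (nat_lit 4157682099) (nat_lit 380) (nat_lit 1339480246) (nat_lit 76) (nat_lit 5470381979) (nat_lit 98) (nat_lit 5) (nat_lit 103) (nat_lit 5) (nat_lit 99) (nat_lit 4) (nat_lit 473) (nat_lit 341) (nat_lit 326)) (XT.lf (nat_lit 0) (nat_lit 7489270358) (nat_lit 228) (nat_lit 1312378909) (nat_lit 304) (nat_lit 2278644393) (nat_lit 95) (nat_lit 5) (nat_lit 98) (nat_lit 5) (nat_lit 99) (nat_lit 4) (nat_lit 474) (nat_lit 341) (nat_lit 325))) (XT.nd (nat_lit 78) (nat_lit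 608) (nat_lit 0) (XT.lf (nat_lit 0) (nat_lit 2312523353) (nat_lit 380) (nat_lit 5947623879) (nat_lit 76) (nat_lit 2934851351) (nat_lit 90) (nat_lit 5) (nat_lit 95) (nat_lit 5) (nat_lit 91) (nat_lit 4) (nat_lit 475) (nat_lit 341) (nat_lit 324)) (XT.nd (nat_lit 78) (nat_lit 380) (nat_lit 0) (XT.lf (nat_lit 0) (nat_lit 2909258305) (nat_lit 228) (nat_lit 4045395519) (nat_lit 304) (nat_lit 4357255428) (nat_lit 87) (nat_lit 5) (nat_lit 90) (nat_lit 5) (nat_lit 91) (nat_lit 4) (nat_lit 476) (nat_lit 341) (nat_lit 323)) (XT.lf (nat_lit 0) (nat_lit 238040763) (nat_lit 380) (nat_lit 10939906058) (nat_lit 76) (nat_lit 253524178) (nat_lit 82) (nat_lit 5) (nat_lit 87) (nat_lit 5) (nat_lit 83) (nat_lit 4) (nat_lit 477) (nat_lit 341) (nat_lit 322))))) (XT.nd (nat_lit 234) (nat_lit 532) (nat_lit 0) (XT.nd (nat_lit 78) (nat_lit 532) (nat_lit 0) (XT.lf (nat_lit 0) (nat_lit 4888684428) (nat_lit 380) (nat_lit 2035822067) (nat_lit 76) (nat_lit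 4627911304) (nat_lit 82) (nat_lit 5) (nat_lit 87) (nat_lit 5) (nat_lit 83) (nat_lit 4) (nat_lit 478) (nat_lit 341) (nat_lit 321)) (XT.nd (nat_lit 78) (nat_lit 304) (nat_lit 0) (XT.lf (nat_lit 0) (nat_lit 7035606066) (nat_lit 228) (nat_lit 2581807206) (nat_lit 304) (nat_lit 2058674263) (nat_lit 79) (nat_lit 5) (nat_lit 82) (nat_lit 5) (nat_lit 83) (nat_lit 4) (nat_lit 479) (nat_lit 341) (nat_lit 320)) (XT.lf (nat_lit 0) (nat_lit 2598168969) (nat_lit 304) (nat_lit 7362237176) (nat_lit 76) (nat_lit 1841601394) (nat_lit 75) (nat_lit 5) (nat_lit 79) (nat_lit 5) (nat_lit 76) (nat_lit 4) (nat_lit 480) (nat_lit 341) (nat_lit 319)))) (XT.nd (nat_lit 78) (nat_lit 304) (nat_lit 0) (XT.lf (nat_lit 0) (nat_lit 1722974160) (nat_lit 228) (nat_lit 5597024186) (nat_lit 304) (nat_lit 4610192272) (nat_lit 72) (nat_lit 5) (nat_lit 75) (nat_lit 5) (nat_lit 76) (nat_lit 4) (nat_lit 481) (nat_lit 341) (nat_lit 318)) (XT.nd (nat_lit 78) (nat_lit 228)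 (nat_lit 0) (XT.lf (nat_lit 0) (nat_lit 63942634) (nat_lit 304) (nat_lit 1074594630) (nat_lit 76) (nat_lit 10922603172) (nat_lit 71) (nat_lit 5) (nat_lit 75) (nat_lit 5) (nat_lit 72) (nat_lit 5) (nat_lit 482) (nat_lit 341) (nat_lit 317)) (XT.lf (nat_lit 0) (nat_lit 4786698419) (nat_lit 304) (nat_lit 4000206836) (nat_lit 76) (nat_lit 3406861989) (nat_lit 68) (nat_lit 5) (nat_lit 72) (nat_lit 5) (nat_lit 69) (nat_lit 4) (nat_lit 483) (nat_lit 341) (nat_lit 316)))))) (XT.nd (nat_lit 468) (nat_lit 912) (nat_lit 0) (XT.nd (nat_lit 234) (nat_lit 608) (nat_lit 0) (XT.nd (nat_lit 78) (nat_lit 304) (nat_lit 0) (XT.lf (nat_lit 0) (nat_lit 5292854501) (nat_lit 228) (nat_lit 4301495480) (nat_lit 304) (nat_lit 2734892534) (nat_lit 65) (nat_lit 5) (nat_lit 68) (nat_lit 5) (nat_lit 69) (nat_lit 4) (nat_lit 484) (nat_lit 341) (nat_lit 315)) (XT.nd (nat_lit 78) (nat_lit 0) (nat_lit 0) (XT.lf (nat_lit 0) (nat_lit 1989120067) (nat_lit 304) (nat_lit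 10195627915) (nat_lit 76) (nat_lit 282719647) (nat_lit 61) (nat_lit 5) (nat_lit 65) (nat_lit 5) (nat_lit 62) (nat_lit 4) (nat_lit 485) (nat_lit 341) (nat_lit 314)) (XT.lf (nat_lit 0) (nat_lit 6788639640) (nat_lit 304) (nat_lit 894861157) (nat_lit 76) (nat_lit 4924246420) (nat_lit 61) (nat_lit 5) (nat_lit 65) (nat_lit 5) (nat_lit 62) (nat_lit 4) (nat_lit 486) (nat_lit 341) (nat_lit 313)))) (XT.nd (nat_lit 78) (nat_lit 456) (nat_lit 0) (XT.lf (nat_lit 0) (nat_lit 8604725355) (nat_lit 152) (nat_lit 3078032429) (nat_lit 228) (nat_lit 1068106829) (nat_lit 59) (nat_lit 5) (nat_lit 61) (nat_lit 5) (nat_lit 62) (nat_lit 4) (nat_lit 487) (nat_lit 341) (nat_lit 312)) (XT.nd (nat_lit 78) (nat_lit 152) (nat_lit 0) (XT.lf (nat_lit 0) (nat_lit 3722686838) (nat_lit 304) (nat_lit 7552131849) (nat_lit 76) (nat_lit 1621652887) (nat_lit 55) (nat_lit 5) (nat_lit 59) (nat_lit 5) (nat_lit 56) (nat_lit 4) (nat_lit 488) (nat_lit 341) (nat_lit 311))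 (XT.lf (nat_lit 0) (nat_lit 1933760780) (nat_lit 152) (nat_lit 6665228283) (nat_lit 228) (nat_lit 4445784639) (nat_lit 53) (nat_lit 5) (nat_lit 55) (nat_lit 5) (nat_lit 56) (nat_lit 4) (nat_lit 489) (nat_lit 341) (nat_lit 310))))) (XT.nd (nat_lit 234) (nat_lit 456) (nat_lit 0) (XT.nd (nat_lit 78) (nat_lit 380) (nat_lit 0) (XT.lf (nat_lit 0) (nat_lit 365974585) (nat_lit 228) (nat_lit 1586522147) (nat_lit 76) (nat_lit 11243617371) (nat_lit 52) (nat_lit 5) (nat_lit 55) (nat_lit 5) (nat_lit 53) (nat_lit 5) (nat_lit 490) (nat_lit 341) (nat_lit 309)) (XT.nd (nat_lit 78) (nat_lit 152) (nat_lit 0) (XT.lf (nat_lit 0) (nat_lit 5230171428) (nat_lit 304) (nat_lit 5261903856) (nat_lit 76) (nat_lit 2857507552) (nat_lit 49) (nat_lit 5) (nat_lit 53) (nat_lit 5) (nat_lit 50) (nat_lit 4) (nat_lit 491) (nat_lit 341) (nat_lit 308)) (XT.lf (nat_lit 0) (nat_lit 4417223189) (nat_lit 152) (nat_lit 5771179196) (nat_lit 228) (nat_lit 3317787368) (nat_lit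 47) (nat_lit 5) (nat_lit 49) (nat_lit 5) (nat_lit 50) (nat_lit 4) (nat_lit 492) (nat_lit 341) (nat_lit 307)))) (XT.nd (nat_lit 78) (nat_lit 152) (nat_lit 0) (XT.lf (nat_lit 0) (nat_lit 594580940) (nat_lit 228) (nat_lit 948480209) (nat_lit 304) (nat_lit 12122987925) (nat_lit 43) (nat_lit 5) (nat_lit 46) (nat_lit 5) (nat_lit 47) (nat_lit 5) (nat_lit 493) (nat_lit 341) (nat_lit 306)) (XT.nd (nat_lit 78) (nat_lit 152) (nat_lit 0) (XT.lf (nat_lit 0) (nat_lit 6488598188) (nat_lit 304) (nat_lit 3379976650) (nat_lit 76) (nat_lit 3959457792) (nat_lit 43) (nat_lit 5) (nat_lit 47) (nat_lit 5) (nat_lit 44) (nat_lit 4) (nat_lit 494) (nat_lit 341) (nat_lit 305)) (XT.lf (nat_lit 0) (nat_lit 6487146004) (nat_lit 152) (nat_lit 5040064148) (nat_lit 228) (nat_lit 2466165942) (nat_lit 41) (nat_lit 5) (nat_lit 43) (nat_lit 5) (nat_lit 44) (nat_lit 4) (nat_lit 495) (nat_lit 341) (nat_lit 304))))))) (XT.nd (nat_lit 936) (nat_lit 228) (nat_lit 0)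 (XT.nd (nat_lit 468) (nat_lit 684) (nat_lit 0) (XT.nd (nat_lit 234) (nat_lit 380) (nat_lit 0) (XT.nd (nat_lit 78) (nat_lit 152) (nat_lit 0) (XT.lf (nat_lit 0) (nat_lit 2353223821) (nat_lit 152) (nat_lit 102448708) (nat_lit 228) (nat_lit 11706353006) (nat_lit 38) (nat_lit 5) (nat_lit 40) (nat_lit 5) (nat_lit 41) (nat_lit 5) (nat_lit 496) (nat_lit 341) (nat_lit 303)) (XT.nd (nat_lit 78) (nat_lit 152) (nat_lit 0) (XT.lf (nat_lit 0) (nat_lit 7471695795) (nat_lit 228) (nat_lit 1967368976) (nat_lit 76) (nat_lit 4894085088) (nat_lit 38) (nat_lit 5) (nat_lit 41) (nat_lit 5) (nat_lit 39) (nat_lit 4) (nat_lit 497) (nat_lit 341) (nat_lit 302)) (XT.lf (nat_lit 0) (nat_lit 8080858532) (nat_lit 152) (nat_lit 4507385075) (nat_lit 228) (nat_lit 1919452233) (nat_lit 36) (nat_lit 5) (nat_lit 38) (nat_lit 5) (nat_lit 39) (nat_lit 4) (nat_lit 498) (nat_lit 341) (nat_lit 301)))) (XT.nd (nat_lit 78) (nat_lit 152) (nat_lit 0) (XT.lf (nat_lit 0) (nat_lit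 3067760469) (nat_lit 228) (nat_lit 11086419217) (nat_lit 76) (nat_lit 531404690) (nat_lit 33) (nat_lit 5) (nat_lit 36) (nat_lit 5) (nat_lit 34) (nat_lit 4) (nat_lit 499) (nat_lit 341) (nat_lit 300)) (XT.nd (nat_lit 78) (nat_lit 152) (nat_lit 0) (XT.lf (nat_lit 0) (nat_lit 8149581102) (nat_lit 228) (nat_lit 1091775638) (nat_lit 76) (nat_lit 5625011954) (nat_lit 33) (nat_lit 5) (nat_lit 36) (nat_lit 5) (nat_lit 34) (nat_lit 4) (nat_lit 500) (nat_lit 341) (nat_lit 299)) (XT.lf (nat_lit 0) (nat_lit 9128795225) (nat_lit 152) (nat_lit 4211824696) (nat_lit 228) (nat_lit 1710000150) (nat_lit 31) (nat_lit 5) (nat_lit 33) (nat_lit 5) (nat_lit 34) (nat_lit 4) (nat_lit 501) (nat_lit 341) (nat_lit 298))))) (XT.nd (nat_lit 234) (nat_lit 304) (nat_lit 0) (XT.nd (nat_lit 78) (nat_lit 152) (nat_lit 0) (XT.lf (nat_lit 0) (nat_lit 3341917713) (nat_lit 228) (nat_lit 10974210595) (nat_lit 76) (nat_lit 922199034) (nat_lit 28) (nat_lit 5) (nat_lit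 31) (nat_lit 5) (nat_lit 29) (nat_lit 4) (nat_lit 502) (nat_lit 341) (nat_lit 297)) (XT.nd (nat_lit 78) (nat_lit 152) (nat_lit 0) (XT.lf (nat_lit 0) (nat_lit 8488406477) (nat_lit 228) (nat_lit 828327369) (nat_lit 76) (nat_lit 6112503095) (nat_lit 28) (nat_lit 5) (nat_lit 31) (nat_lit 5) (nat_lit 29) (nat_lit 4) (nat_lit 503) (nat_lit 341) (nat_lit 296)) (XT.lf (nat_lit 0) (nat_lit 9553711482) (nat_lit 152) (nat_lit 4195665536) (nat_lit 228) (nat_lit 1874359449) (nat_lit 26) (nat_lit 5) (nat_lit 28) (nat_lit 5) (nat_lit 29) (nat_lit 4) (nat_lit 504) (nat_lit 341) (nat_lit 295)))) (XT.nd (nat_lit 78) (nat_lit 76) (nat_lit 0) (XT.lf (nat_lit 0) (nat_lit 3239948751) (nat_lit 228) (nat_lit 11553681397) (nat_lit 76) (nat_lit 1028276805) (nat_lit 23) (nat_lit 5) (nat_lit 26) (nat_lit 5) (nat_lit 24) (nat_lit 4) (nat_lit 505) (nat_lit 341) (nat_lit 294)) (XT.nd (nat_lit 78) (nat_lit 76) (nat_lit 0) (XT.lf (nat_lit 0) (nat_lit 8449967037)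 (nat_lit 228) (nat_lit 1260428057) (nat_lit 76) (nat_lit 6313030149) (nat_lit 23) (nat_lit 5) (nat_lit 26) (nat_lit 5) (nat_lit 24) (nat_lit 4) (nat_lit 506) (nat_lit 341) (nat_lit 293)) (XT.lf (nat_lit 0) (nat_lit 9269819452) (nat_lit 76) (nat_lit 4505247595) (nat_lit 152) (nat_lit 2453691791) (nat_lit 22) (nat_lit 5) (nat_lit 23) (nat_lit 5) (nat_lit 24) (nat_lit 4) (nat_lit 507) (nat_lit 341) (nat_lit 292)))))) (XT.nd (nat_lit 55692) (nat_lit 0) (nat_lit 7752) (XT.nd (nat_lit 55458) (nat_lit 0) (nat_lit 9728) (XT.nd (nat_lit 55302) (nat_lit 0) (nat_lit 10944) (XT.lf (nat_lit 0) (nat_lit 2719609459) (nat_lit 228) (nat_lit 12916026350) (nat_lit 76) (nat_lit 802457295) (nat_lit 19) (nat_lit 5) (nat_lit 22) (nat_lit 5) (nat_lit 20) (nat_lit 4) (nat_lit 508) (nat_lit 341) (nat_lit 291)) (XT.nd (nat_lit 78) (nat_lit 456) (nat_lit 0) (XT.lf (nat_lit 0) (nat_lit 4039505211) (nat_lit 456) (nat_lit 317397224) (nat_lit 456) (nat_lit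 317397224) (nat_lit 169) (nat_lit 4) (nat_lit 175) (nat_lit 5) (nat_lit 175) (nat_lit 4) (nat_lit 456) (nat_lit 342) (nat_lit 342)) (XT.lf (nat_lit 0) (nat_lit 3744450742) (nat_lit 456) (nat_lit 2794410190) (nat_lit 0) (nat_lit 2890972449) (nat_lit 163) (nat_lit 5) (nat_lit 169) (nat_lit 4) (nat_lit 163) (nat_lit 4) (nat_lit 457) (nat_lit 342) (nat_lit 341)))) (XT.nd (nat_lit 78) (nat_lit 836) (nat_lit 0) (XT.lf (nat_lit 0) (nat_lit 5157583527) (nat_lit 380) (nat_lit 3022851491) (nat_lit 380) (nat_lit 1332629772) (nat_lit 158) (nat_lit 4) (nat_lit 163) (nat_lit 5) (nat_lit 163) (nat_lit 4) (nat_lit 458) (nat_lit 342) (nat_lit 340)) (XT.nd (nat_lit 78) (nat_lit 380) (nat_lit 0) (XT.lf (nat_lit 0) (nat_lit 3044304307) (nat_lit 456) (nat_lit 5970732257) (nat_lit 0) (nat_lit 582972533) (nat_lit 152) (nat_lit 5) (nat_lit 158) (nat_lit 4) (nat_lit 152) (nat_lit 4) (nat_lit 459) (nat_lit 342) (nat_lit 339)) (XT.lf (nat_lit 0) (nat_lit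 2036855688) (nat_lit 380) (nat_lit 5448774692) (nat_lit 380) (nat_lit 2198960901) (nat_lit 147) (nat_lit 4) (nat_lit 152) (nat_lit 5) (nat_lit 152) (nat_lit 4) (nat_lit 460) (nat_lit 342) (nat_lit 338))))) (XT.nd (nat_lit 234) (nat_lit 1064) (nat_lit 0) (XT.nd (nat_lit 78) (nat_lit 456) (nat_lit 0) (XT.lf (nat_lit 0) (nat_lit 398122384) (nat_lit 380) (nat_lit 1790470567) (nat_lit 456) (nat_lit 7584527055) (nat_lit 141) (nat_lit 5) (nat_lit 146) (nat_lit 5) (nat_lit 147) (nat_lit 4) (nat_lit 461) (nat_lit 342) (nat_lit 337)) (XT.nd (nat_lit 78) (nat_lit 456) (nat_lit 0) (XT.lf (nat_lit 0) (nat_lit 6631359191) (nat_lit 456) (nat_lit 1287441164) (nat_lit 0) (nat_lit 1944398723) (nat_lit 141) (nat_lit 5) (nat_lit 147) (nat_lit 4) (nat_lit 141) (nat_lit 4) (nat_lit 462) (nat_lit 342) (nat_lit 336)) (XT.lf (nat_lit 0) (nat_lit 1182823626) (nat_lit 456) (nat_lit 3026092248) (nat_lit 76) (nat_lit 5746199971) (nat_lit 135) (nat_lit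 5) (nat_lit 141) (nat_lit 5) (nat_lit 136) (nat_lit 4) (nat_lit 463) (nat_lit 342) (nat_lit 335)))) (XT.nd (nat_lit 78) (nat_lit 760) (nat_lit 0) (XT.lf (nat_lit 0) (nat_lit 5221363351) (nat_lit 304) (nat_lit 397899906) (nat_lit 380) (nat_lit 4429653387) (nat_lit 131) (nat_lit 5) (nat_lit 135) (nat_lit 5) (nat_lit 136) (nat_lit 4) (nat_lit 464) (nat_lit 342) (nat_lit 334)) (XT.nd (nat_lit 78) (nat_lit 380) (nat_lit 0) (XT.lf (nat_lit 0) (nat_lit 3448431799) (nat_lit 380) (nat_lit 6695976159) (nat_lit 380) (nat_lit 193908) (nat_lit 126) (nat_lit 4) (nat_lit 131) (nat_lit 5) (nat_lit 131) (nat_lit 4) (nat_lit 465) (nat_lit 342) (nat_lit 333)) (XT.lf (nat_lit 0) (nat_lit 1597802007) (nat_lit 304) (nat_lit 2841082185) (nat_lit 380) (nat_lit 5803131927) (nat_lit 121) (nat_lit 5) (nat_lit 125) (nat_lit 5) (nat_lit 126) (nat_lit 4) (nat_lit 466) (nat_lit 342) (nat_lit 332))))))))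
noncomputable def xc15 : XT := (XT.nd (nat_lit 1794) (nat_lit 2584) (nat_lit 0) (XT.nd (nat_lit 858) (nat_lit 2356) (nat_lit 0) (XT.nd (nat_lit 390) (nat_lit 1292) (nat_lit 0) (XT.nd (nat_lit 156) (nat_lit 988) (nat_lit 0) (XT.nd (nat_lit 78) (nat_lit 380) (nat_lit 0) (XT.lf (nat_lit 0) (nat_lit 8954069013) (nat_lit 380) (nat_lit 304590291) (nat_lit 0) (nat_lit 1082980246) (nat_lit 121) (nat_lit 5) (nat_lit 126) (nat_lit 4) (nat_lit 121) (nat_lit 4) (nat_lit 467) (nat_lit 342) (nat_lit 331)) (XT.lf (nat_lit 0) (nat_lit 3083737882) (nat_lit 380) (nat_lit 2276085188) (nat_lit 76) (nat_lit 5082868768) (nat_lit 116) (nat_lit 5) (nat_lit 121) (nat_lit 5) (nat_lit 117) (nat_lit 4) (nat_lit 468) (nat_lit 342) (nat_lit 330))) (XT.nd (nat_lit 78) (nat_lit 684) (nat_lit 0) (XT.lf (nat_lit 0) (nat_lit 6234939567) (nat_lit 304) (nat_lit 1369955465) (nat_lit 380) (nat_lit 2941113702) (nat_lit 112) (nat_lit 5) (nat_lit 116) (nat_lit 5) (nat_lit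 117) (nat_lit 4) (nat_lit 469) (nat_lit 342) (nat_lit 329)) (XT.nd (nat_lit 78) (nat_lit 304) (nat_lit 0) (XT.lf (nat_lit 0) (nat_lit 1541668609) (nat_lit 380) (nat_lit 6431388865) (nat_lit 76) (nat_lit 2678195802) (nat_lit 107) (nat_lit 5) (nat_lit 112) (nat_lit 5) (nat_lit 108) (nat_lit 4) (nat_lit 470) (nat_lit 342) (nat_lit 328)) (XT.lf (nat_lit 0) (nat_lit 2117099279) (nat_lit 304) (nat_lit 3946520764) (nat_lit 380) (nat_lit 4694822587) (nat_lit 103) (nat_lit 5) (nat_lit 107) (nat_lit 5) (nat_lit 108) (nat_lit 4) (nat_lit 471) (nat_lit 342) (nat_lit 327))))) (XT.nd (nat_lit 234) (nat_lit 684) (nat_lit 0) (XT.nd (nat_lit 78) (nat_lit 608) (nat_lit 0) (XT.lf (nat_lit 0) (nat_lit 10657719912) (nat_lit 380) (nat_lit 48570651) (nat_lit 0) (nat_lit 161857525) (nat_lit 103) (nat_lit 5) (nat_lit 108) (nat_lit 4) (nat_lit 103) (nat_lit 4) (nat_lit 472) (nat_lit 342) (nat_lit 326)) (XT.nd (nat_lit 78) (nat_lit 228) (nat_lit 0) (XT.lf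 (nat_lit 0) (nat_lit 4327646723) (nat_lit 380) (nat_lit 2306079081) (nat_lit 76) (nat_lit 4345337018) (nat_lit 98) (nat_lit 5) (nat_lit 103) (nat_lit 5) (nat_lit 99) (nat_lit 4) (nat_lit 473) (nat_lit 342) (nat_lit 325)) (XT.lf (nat_lit 0) (nat_lit 6458571208) (nat_lit 228) (nat_lit 2475951059) (nat_lit 304) (nat_lit 2158034759) (nat_lit 95) (nat_lit 5) (nat_lit 98) (nat_lit 5) (nat_lit 99) (nat_lit 4) (nat_lit 474) (nat_lit 342) (nat_lit 324)))) (XT.nd (nat_lit 78) (nat_lit 304) (nat_lit 0) (XT.lf (nat_lit 0) (nat_lit 2386289733) (nat_lit 380) (nat_lit 7061841374) (nat_lit 76) (nat_lit 1760023327) (nat_lit 90) (nat_lit 5) (nat_lit 95) (nat_lit 5) (nat_lit 91) (nat_lit 4) (nat_lit 475) (nat_lit 342) (nat_lit 323)) (XT.nd (nat_lit 78) (nat_lit 76) (nat_lit 0) (XT.lf (nat_lit 0) (nat_lit 1728763303) (nat_lit 228) (nat_lit 5261796541) (nat_lit 304) (nat_lit 4335265326) (nat_lit 87) (nat_lit 5) (nat_lit 90) (nat_lit 5) (nat_lit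 91) (nat_lit 4) (nat_lit 476) (nat_lit 342) (nat_lit 322)) (XT.lf (nat_lit 0) (nat_lit 224739586) (nat_lit 304) (nat_lit 758620863) (nat_lit 76) (nat_lit 10462726418) (nat_lit 86) (nat_lit 5) (nat_lit 90) (nat_lit 5) (nat_lit 87) (nat_lit 5) (nat_lit 477) (nat_lit 342) (nat_lit 321)))))) (XT.nd (nat_lit 468) (nat_lit 988) (nat_lit 0) (XT.nd (nat_lit 234) (nat_lit 532) (nat_lit 0) (XT.nd (nat_lit 78) (nat_lit 532) (nat_lit 0) (XT.lf (nat_lit 0) (nat_lit 4833970923) (nat_lit 380) (nat_lit 3355382984) (nat_lit 76) (nat_lit 3378510703) (nat_lit 82) (nat_lit 5) (nat_lit 87) (nat_lit 5) (nat_lit 83) (nat_lit 4) (nat_lit 478) (nat_lit 342) (nat_lit 320)) (XT.nd (nat_lit 78) (nat_lit 304) (nat_lit 0) (XT.lf (nat_lit 0) (nat_lit 5647848942) (nat_lit 228) (nat_lit 3876425172) (nat_lit 304) (nat_lit 2168031387) (nat_lit 79) (nat_lit 5) (nat_lit 82) (nat_lit 5) (nat_lit 83) (nat_lit 4) (nat_lit 479) (nat_lit 342) (nat_lit 319)) (XT.lf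 (nat_lit 0) (nat_lit 2442719999) (nat_lit 304) (nat_lit 8843280558) (nat_lit 76) (nat_lit 533192210) (nat_lit 75) (nat_lit 5) (nat_lit 79) (nat_lit 5) (nat_lit 76) (nat_lit 4) (nat_lit 480) (nat_lit 342) (nat_lit 318)))) (XT.nd (nat_lit 78) (nat_lit 304) (nat_lit 0) (XT.lf (nat_lit 0) (nat_lit 171401021) (nat_lit 228) (nat_lit 6953836556) (nat_lit 304) (nat_lit 4822926996) (nat_lit 72) (nat_lit 5) (nat_lit 75) (nat_lit 5) (nat_lit 76) (nat_lit 4) (nat_lit 481) (nat_lit 342) (nat_lit 317)) (XT.nd (nat_lit 78) (nat_lit 304) (nat_lit 0) (XT.lf (nat_lit 0) (nat_lit 9385551294) (nat_lit 228) (nat_lit 2516640857) (nat_lit 304) (nat_lit 177512860) (nat_lit 72) (nat_lit 5) (nat_lit 75) (nat_lit 5) (nat_lit 76) (nat_lit 4) (nat_lit 482) (nat_lit 342) (nat_lit 316)) (XT.lf (nat_lit 0) (nat_lit 4498827179) (nat_lit 304) (nat_lit 5700251027) (nat_lit 76) (nat_lit 2014253889) (nat_lit 68) (nat_lit 5) (nat_lit 72) (nat_lit 5) (nat_lit 69)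 (nat_lit 4) (nat_lit 483) (nat_lit 342) (nat_lit 315))))) (XT.nd (nat_lit 234) (nat_lit 456) (nat_lit 0) (XT.nd (nat_lit 78) (nat_lit 304) (nat_lit 0) (XT.lf (nat_lit 0) (nat_lit 3520193904) (nat_lit 228) (nat_lit 5746274823) (nat_lit 304) (nat_lit 3083141138) (nat_lit 65) (nat_lit 5) (nat_lit 68) (nat_lit 5) (nat_lit 69) (nat_lit 4) (nat_lit 484) (nat_lit 342) (nat_lit 314)) (XT.nd (nat_lit 78) (nat_lit 0) (nat_lit 0) (XT.lf (nat_lit 0) (nat_lit 409091719) (nat_lit 228) (nat_lit 1193930890) (nat_lit 304) (nat_lit 10885708125) (nat_lit 61) (nat_lit 5) (nat_lit 64) (nat_lit 5) (nat_lit 65) (nat_lit 5) (nat_lit 485) (nat_lit 342) (nat_lit 313)) (XT.lf (nat_lit 0) (nat_lit 6366444151) (nat_lit 304) (nat_lit 2820649229) (nat_lit 76) (nat_lit 3442641071) (nat_lit 61) (nat_lit 5) (nat_lit 65) (nat_lit 5) (nat_lit 62) (nat_lit 4) (nat_lit 486) (nat_lit 342) (nat_lit 312)))) (XT.nd (nat_lit 78) (nat_lit 304) (nat_lit 0) (XT.lf (nat_lit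 0) (nat_lit 6604141658) (nat_lit 152) (nat_lit 4615641090) (nat_lit 228) (nat_lit 1553886817) (nat_lit 59) (nat_lit 5) (nat_lit 61) (nat_lit 5) (nat_lit 62) (nat_lit 4) (nat_lit 487) (nat_lit 342) (nat_lit 311)) (XT.nd (nat_lit 78) (nat_lit 0) (nat_lit 0) (XT.lf (nat_lit 0) (nat_lit 3191694176) (nat_lit 304) (nat_lit 9661936702) (nat_lit 76) (nat_lit 66742444) (nat_lit 55) (nat_lit 5) (nat_lit 59) (nat_lit 5) (nat_lit 56) (nat_lit 4) (nat_lit 488) (nat_lit 342) (nat_lit 310)) (XT.lf (nat_lit 0) (nat_lit 8027793433) (nat_lit 304) (nat_lit 250112151) (nat_lit 76) (nat_lit 4791575929) (nat_lit 55) (nat_lit 5) (nat_lit 59) (nat_lit 5) (nat_lit 56) (nat_lit 4) (nat_lit 489) (nat_lit 342) (nat_lit 309))))))) (XT.nd (nat_lit 936) (nat_lit 760) (nat_lit 0) (XT.nd (nat_lit 468) (nat_lit 760) (nat_lit 0) (XT.nd (nat_lit 234) (nat_lit 456) (nat_lit 0) (XT.nd (nat_lit 78) (nat_lit 456) (nat_lit 0) (XT.lf (nat_lit 0) (nat_lit 9376465026)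 (nat_lit 152) (nat_lit 3590274568) (nat_lit 228) (nat_lit 254713742) (nat_lit 53) (nat_lit 5) (nat_lit 55) (nat_lit 5) (nat_lit 56) (nat_lit 4) (nat_lit 490) (nat_lit 342) (nat_lit 308)) (XT.nd (nat_lit 78) (nat_lit 152) (nat_lit 0) (XT.lf (nat_lit 0) (nat_lit 4559720223) (nat_lit 304) (nat_lit 7612481258) (nat_lit 76) (nat_lit 1203817620) (nat_lit 49) (nat_lit 5) (nat_lit 53) (nat_lit 5) (nat_lit 50) (nat_lit 4) (nat_lit 491) (nat_lit 342) (nat_lit 307)) (XT.lf (nat_lit 0) (nat_lit 1986882488) (nat_lit 152) (nat_lit 7488315559) (nat_lit 228) (nat_lit 4058284883) (nat_lit 47) (nat_lit 5) (nat_lit 49) (nat_lit 5) (nat_lit 50) (nat_lit 4) (nat_lit 492) (nat_lit 342) (nat_lit 306)))) (XT.nd (nat_lit 78) (nat_lit 380) (nat_lit 0) (XT.lf (nat_lit 0) (nat_lit 781482279) (nat_lit 228) (nat_lit 1913976757) (nat_lit 76) (nat_lit 10998597014) (nat_lit 46) (nat_lit 5) (nat_lit 49) (nat_lit 5) (nat_lit 47) (nat_lit 5) (nat_lit 493) (nat_lit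 342) (nat_lit 305)) (XT.nd (nat_lit 78) (nat_lit 152) (nat_lit 0) (XT.lf (nat_lit 0) (nat_lit 5676151926) (nat_lit 304) (nat_lit 5978821495) (nat_lit 76) (nat_lit 2202085275) (nat_lit 43) (nat_lit 5) (nat_lit 47) (nat_lit 5) (nat_lit 44) (nat_lit 4) (nat_lit 494) (nat_lit 342) (nat_lit 304)) (XT.lf (nat_lit 0) (nat_lit 3806061266) (nat_lit 152) (nat_lit 6864972202) (nat_lit 228) (nat_lit 3352245009) (nat_lit 41) (nat_lit 5) (nat_lit 43) (nat_lit 5) (nat_lit 44) (nat_lit 4) (nat_lit 495) (nat_lit 342) (nat_lit 303))))) (XT.nd (nat_lit 234) (nat_lit 380) (nat_lit 0) (XT.nd (nat_lit 78) (nat_lit 304) (nat_lit 0) (XT.lf (nat_lit 0) (nat_lit 1539650740) (nat_lit 228) (nat_lit 429991466) (nat_lit 76) (nat_lit 12223233692) (nat_lit 40) (nat_lit 5) (nat_lit 43) (nat_lit 5) (nat_lit 41) (nat_lit 5) (nat_lit 496) (nat_lit 342) (nat_lit 302)) (XT.nd (nat_lit 78) (nat_lit 152) (nat_lit 0) (XT.lf (nat_lit 0) (nat_lit 6514495063) (nat_lit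 228) (nat_lit 4822260470) (nat_lit 76) (nat_lit 3028069877) (nat_lit 38) (nat_lit 5) (nat_lit 41) (nat_lit 5) (nat_lit 39) (nat_lit 4) (nat_lit 497) (nat_lit 342) (nat_lit 301)) (XT.lf (nat_lit 0) (nat_lit 5141140838) (nat_lit 152) (nat_lit 6445121070) (nat_lit 228) (nat_lit 2954006682) (nat_lit 36) (nat_lit 5) (nat_lit 38) (nat_lit 5) (nat_lit 39) (nat_lit 4) (nat_lit 498) (nat_lit 342) (nat_lit 300)))) (XT.nd (nat_lit 78) (nat_lit 152) (nat_lit 0) (XT.lf (nat_lit 0) (nat_lit 550822024) (nat_lit 152) (nat_lit 1446981926) (nat_lit 228) (nat_lit 12721468443) (nat_lit 33) (nat_lit 5) (nat_lit 35) (nat_lit 5) (nat_lit 36) (nat_lit 5) (nat_lit 499) (nat_lit 342) (nat_lit 299)) (XT.nd (nat_lit 78) (nat_lit 152) (nat_lit 0) (XT.lf (nat_lit 0) (nat_lit 7044641490) (nat_lit 228) (nat_lit 4210793895) (nat_lit 76) (nat_lit 3645322477) (nat_lit 33) (nat_lit 5) (nat_lit 36) (nat_lit 5) (nat_lit 34) (nat_lit 4) (nat_lit 500) (nat_lit 342)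 (nat_lit 298)) (XT.lf (nat_lit 0) (nat_lit 5922250132) (nat_lit 152) (nat_lit 6267524564) (nat_lit 228) (nat_lit 2896154113) (nat_lit 31) (nat_lit 5) (nat_lit 33) (nat_lit 5) (nat_lit 34) (nat_lit 4) (nat_lit 501) (nat_lit 342) (nat_lit 297)))))) (XT.nd (nat_lit 468) (nat_lit 76) (nat_lit 0) (XT.nd (nat_lit 234) (nat_lit 304) (nat_lit 0) (XT.nd (nat_lit 78) (nat_lit 152) (nat_lit 0) (XT.lf (nat_lit 0) (nat_lit 947060078) (nat_lit 152) (nat_lit 1171562255) (nat_lit 228) (nat_lit 13156223135) (nat_lit 28) (nat_lit 5) (nat_lit 30) (nat_lit 5) (nat_lit 31) (nat_lit 5) (nat_lit 502) (nat_lit 342) (nat_lit 296)) (XT.nd (nat_lit 78) (nat_lit 152) (nat_lit 0) (XT.lf (nat_lit 0) (nat_lit 7232515910) (nat_lit 228) (nat_lit 4219870201) (nat_lit 76) (nat_lit 4014022234) (nat_lit 28) (nat_lit 5) (nat_lit 31) (nat_lit 5) (nat_lit 29) (nat_lit 4) (nat_lit 503) (nat_lit 342) (nat_lit 295)) (XT.lf (nat_lit 0) (nat_lit 6071822068) (nat_lit 152)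 (nat_lit 6374558994) (nat_lit 228) (nat_lit 3215470267) (nat_lit 26) (nat_lit 5) (nat_lit 28) (nat_lit 5) (nat_lit 29) (nat_lit 4) (nat_lit 504) (nat_lit 342) (nat_lit 294)))) (XT.nd (nat_lit 78) (nat_lit 76) (nat_lit 0) (XT.lf (nat_lit 0) (nat_lit 671857940) (nat_lit 152) (nat_lit 1189940365) (nat_lit 228) (nat_lit 13999491522) (nat_lit 23) (nat_lit 5) (nat_lit 25) (nat_lit 5) (nat_lit 26) (nat_lit 5) (nat_lit 505) (nat_lit 342) (nat_lit 293)) (XT.nd (nat_lit 78) (nat_lit 76) (nat_lit 0) (XT.lf (nat_lit 0) (nat_lit 7039682562) (nat_lit 228) (nat_lit 4933228035) (nat_lit 76) (nat_lit 4090541471) (nat_lit 23) (nat_lit 5) (nat_lit 26) (nat_lit 5) (nat_lit 24) (nat_lit 4) (nat_lit 506) (nat_lit 342) (nat_lit 292)) (XT.lf (nat_lit 0) (nat_lit 5503729101) (nat_lit 76) (nat_lit 6812671956) (nat_lit 152) (nat_lit 3953353480) (nat_lit 22) (nat_lit 5) (nat_lit 23) (nat_lit 5) (nat_lit 24) (nat_lit 4) (nat_lit 507) (nat_lit 342) (nat_lit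 291))))) (XT.nd (nat_lit 55302) (nat_lit 0) (nat_lit 10412) (XT.nd (nat_lit 55146) (nat_lit 0) (nat_lit 11248) (XT.lf (nat_lit 0) (nat_lit 1187532290) (nat_lit 152) (nat_lit 360088212) (nat_lit 76) (nat_lit 14932705911) (nat_lit 21) (nat_lit 5) (nat_lit 23) (nat_lit 5) (nat_lit 22) (nat_lit 5) (nat_lit 508) (nat_lit 342) (nat_lit 290)) (XT.nd (nat_lit 78) (nat_lit 456) (nat_lit 0) (XT.lf (nat_lit 0) (nat_lit 423038941) (nat_lit 456) (nat_lit 3748873510) (nat_lit 0) (nat_lit 423038941) (nat_lit 175) (nat_lit 5) (nat_lit 181) (nat_lit 4) (nat_lit 175) (nat_lit 4) (nat_lit 454) (nat_lit 343) (nat_lit 343)) (XT.lf (nat_lit 0) (nat_lit 189059809) (nat_lit 456) (nat_lit 4983758535) (nat_lit 456) (nat_lit 4095799718) (nat_lit 169) (nat_lit 4) (nat_lit 175) (nat_lit 5) (nat_lit 175) (nat_lit 4) (nat_lit 455) (nat_lit 343) (nat_lit 342)))) (XT.nd (nat_lit 78) (nat_lit 760) (nat_lit 0) (XT.lf (nat_lit 0) (nat_lit 215649761) (nat_lit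 532) (nat_lit 1322894157) (nat_lit 76) (nat_lit 7810711295) (nat_lit 168) (nat_lit 5) (nat_lit 175) (nat_lit 5) (nat_lit 169) (nat_lit 4) (nat_lit 456) (nat_lit 343) (nat_lit 341)) (XT.nd (nat_lit 78) (nat_lit 380) (nat_lit 0) (XT.lf (nat_lit 0) (nat_lit 4546378314) (nat_lit 456) (nat_lit 2899228406) (nat_lit 0) (nat_lit 1985608736) (nat_lit 163) (nat_lit 5) (nat_lit 169) (nat_lit 4) (nat_lit 163) (nat_lit 4) (nat_lit 457) (nat_lit 343) (nat_lit 340)) (XT.lf (nat_lit 0) (nat_lit 4999823510) (nat_lit 380) (nat_lit 3948210444) (nat_lit 380) (nat_lit 567104176) (nat_lit 158) (nat_lit 4) (nat_lit 163) (nat_lit 5) (nat_lit 163) (nat_lit 4) (nat_lit 458) (nat_lit 343) (nat_lit 339))))))))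
noncomputable def xc16 : XT := (XT.nd (nat_lit 1794) (nat_lit 3724) (nat_lit 0) (XT.nd (nat_lit 858) (nat_lit 2812) (nat_lit 0) (XT.nd (nat_lit 390) (nat_lit 1748) (nat_lit 0) (XT.nd (nat_lit 156) (nat_lit 912) (nat_lit 0) (XT.nd (nat_lit 78) (nat_lit 380) (nat_lit 0) (XT.lf (nat_lit 0) (nat_lit 3412533720) (nat_lit 380) (nat_lit 348798778) (nat_lit 456) (nat_lit 5839424190) (nat_lit 152) (nat_lit 5) (nat_lit 157) (nat_lit 5) (nat_lit 158) (nat_lit 4) (nat_lit 459) (nat_lit 343) (nat_lit 338)) (XT.lf (nat_lit 0) (nat_lit 1766893955) (nat_lit 380) (nat_lit 6398751635) (nat_lit 380) (nat_lit 1522437964) (nat_lit 147) (nat_lit 4) (nat_lit 152) (nat_lit 5) (nat_lit 152) (nat_lit 4) (nat_lit 460) (nat_lit 343) (nat_lit 337))) (XT.nd (nat_lit 78) (nat_lit 456) (nat_lit 0) (XT.lf (nat_lit 0) (nat_lit 64602048) (nat_lit 380) (nat_lit 2756576178) (nat_lit 456) (nat_lit 6956051752) (nat_lit 141) (nat_lit 5) (nat_lit 146) (nat_lit 5)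 (nat_lit 147) (nat_lit 4) (nat_lit 461) (nat_lit 343) (nat_lit 336)) (XT.nd (nat_lit 78) (nat_lit 456) (nat_lit 0) (XT.lf (nat_lit 0) (nat_lit 7224967255) (nat_lit 456) (nat_lit 1670297649) (nat_lit 0) (nat_lit 972827857) (nat_lit 141) (nat_lit 5) (nat_lit 147) (nat_lit 4) (nat_lit 141) (nat_lit 4) (nat_lit 462) (nat_lit 343) (nat_lit 335)) (XT.lf (nat_lit 0) (nat_lit 1728667357) (nat_lit 456) (nat_lit 3474383793) (nat_lit 76) (nat_lit 4757588929) (nat_lit 135) (nat_lit 5) (nat_lit 141) (nat_lit 5) (nat_lit 136) (nat_lit 4) (nat_lit 463) (nat_lit 343) (nat_lit 334))))) (XT.nd (nat_lit 234) (nat_lit 684) (nat_lit 0) (XT.nd (nat_lit 78) (nat_lit 760) (nat_lit 0) (XT.lf (nat_lit 0) (nat_lit 4715856307) (nat_lit 304) (nat_lit 1413994003) (nat_lit 380) (nat_lit 3925299627) (nat_lit 131) (nat_lit 5) (nat_lit 135) (nat_lit 5) (nat_lit 136) (nat_lit 4) (nat_lit 464) (nat_lit 343) (nat_lit 333)) (XT.nd (nat_lit 78) (nat_lit 304) (nat_lit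 0) (XT.lf (nat_lit 0) (nat_lit 455216419) (nat_lit 456) (nat_lit 7269543586) (nat_lit 76) (nat_lit 2426860088) (nat_lit 125) (nat_lit 5) (nat_lit 131) (nat_lit 5) (nat_lit 126) (nat_lit 4) (nat_lit 465) (nat_lit 343) (nat_lit 332)) (XT.lf (nat_lit 0) (nat_lit 965270775) (nat_lit 304) (nat_lit 3893203486) (nat_lit 380) (nat_lit 5391280113) (nat_lit 121) (nat_lit 5) (nat_lit 125) (nat_lit 5) (nat_lit 126) (nat_lit 4) (nat_lit 466) (nat_lit 343) (nat_lit 331)))) (XT.nd (nat_lit 78) (nat_lit 684) (nat_lit 0) (XT.lf (nat_lit 0) (nat_lit 9335286776) (nat_lit 380) (nat_lit 989062694) (nat_lit 0) (nat_lit 25799408) (nat_lit 121) (nat_lit 5) (nat_lit 126) (nat_lit 4) (nat_lit 121) (nat_lit 4) (nat_lit 467) (nat_lit 343) (nat_lit 330)) (XT.nd (nat_lit 78) (nat_lit 304) (nat_lit 0) (XT.lf (nat_lit 0) (nat_lit 3415562825) (nat_lit 380) (nat_lit 3031763151) (nat_lit 76) (nat_lit 4004550187) (nat_lit 116) (nat_lit 5) (nat_lit 121) (nat_lit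 5) (nat_lit 117) (nat_lit 4) (nat_lit 468) (nat_lit 343) (nat_lit 329)) (XT.lf (nat_lit 0) (nat_lit 5418435514) (nat_lit 304) (nat_lit 2482137662) (nat_lit 380) (nat_lit 2655346238) (nat_lit 112) (nat_lit 5) (nat_lit 116) (nat_lit 5) (nat_lit 117) (nat_lit 4) (nat_lit 469) (nat_lit 343) (nat_lit 328)))))) (XT.nd (nat_lit 468) (nat_lit 1140) (nat_lit 0) (XT.nd (nat_lit 234) (nat_lit 988) (nat_lit 0) (XT.nd (nat_lit 78) (nat_lit 304) (nat_lit 0) (XT.lf (nat_lit 0) (nat_lit 1779765935) (nat_lit 380) (nat_lit 7324768037) (nat_lit 76) (nat_lit 1557474606) (nat_lit 107) (nat_lit 5) (nat_lit 112) (nat_lit 5) (nat_lit 108) (nat_lit 4) (nat_lit 470) (nat_lit 343) (nat_lit 327)) (XT.nd (nat_lit 78) (nat_lit 0) (nat_lit 0) (XT.lf (nat_lit 0) (nat_lit 1160821445) (nat_lit 304) (nat_lit 5104071176) (nat_lit 380) (nat_lit 4505045026) (nat_lit 103) (nat_lit 5) (nat_lit 107) (nat_lit 5) (nat_lit 108) (nat_lit 4) (nat_lit 471) (nat_lit 343)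 (nat_lit 326)) (XT.lf (nat_lit 0) (nat_lit 9814360144) (nat_lit 304) (nat_lit 1013227051) (nat_lit 380) (nat_lit 52687176) (nat_lit 103) (nat_lit 5) (nat_lit 107) (nat_lit 5) (nat_lit 108) (nat_lit 4) (nat_lit 472) (nat_lit 343) (nat_lit 325)))) (XT.nd (nat_lit 78) (nat_lit 608) (nat_lit 0) (XT.lf (nat_lit 0) (nat_lit 4439603364) (nat_lit 380) (nat_lit 3394186562) (nat_lit 76) (nat_lit 3158256040) (nat_lit 98) (nat_lit 5) (nat_lit 103) (nat_lit 5) (nat_lit 99) (nat_lit 4) (nat_lit 473) (nat_lit 343) (nat_lit 324)) (XT.nd (nat_lit 78) (nat_lit 380) (nat_lit 0) (XT.lf (nat_lit 0) (nat_lit 5305753620) (nat_lit 228) (nat_lit 3703436862) (nat_lit 304) (nat_lit 2097098434) (nat_lit 95) (nat_lit 5) (nat_lit 98) (nat_lit 5) (nat_lit 99) (nat_lit 4) (nat_lit 474) (nat_lit 343) (nat_lit 323)) (XT.lf (nat_lit 0) (nat_lit 2400535919) (nat_lit 380) (nat_lit 8300949327) (nat_lit 76) (nat_lit 521313844) (nat_lit 90) (nat_lit 5) (nat_lit 95)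 (nat_lit 5) (nat_lit 91) (nat_lit 4) (nat_lit 475) (nat_lit 343) (nat_lit 322))))) (XT.nd (nat_lit 234) (nat_lit 532) (nat_lit 0) (XT.nd (nat_lit 78) (nat_lit 380) (nat_lit 0) (XT.lf (nat_lit 0) (nat_lit 422727333) (nat_lit 228) (nat_lit 6543995317) (nat_lit 304) (nat_lit 4374511647) (nat_lit 87) (nat_lit 5) (nat_lit 90) (nat_lit 5) (nat_lit 91) (nat_lit 4) (nat_lit 476) (nat_lit 343) (nat_lit 321)) (XT.nd (nat_lit 78) (nat_lit 304) (nat_lit 0) (XT.lf (nat_lit 0) (nat_lit 156466475) (nat_lit 304) (nat_lit 2129677928) (nat_lit 76) (nat_lit 9175950213) (nat_lit 86) (nat_lit 5) (nat_lit 90) (nat_lit 5) (nat_lit 87) (nat_lit 5) (nat_lit 477) (nat_lit 343) (nat_lit 320)) (XT.lf (nat_lit 0) (nat_lit 4718744014) (nat_lit 380) (nat_lit 4802326076) (nat_lit 76) (nat_lit 2063743988) (nat_lit 82) (nat_lit 5) (nat_lit 87) (nat_lit 5) (nat_lit 83) (nat_lit 4) (nat_lit 478) (nat_lit 343) (nat_lit 319)))) (XT.nd (nat_lit 78) (nat_lit 304)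 (nat_lit 0) (XT.lf (nat_lit 0) (nat_lit 4132010133) (nat_lit 228) (nat_lit 5238356601) (nat_lit 304) (nat_lit 2339664434) (nat_lit 79) (nat_lit 5) (nat_lit 82) (nat_lit 5) (nat_lit 83) (nat_lit 4) (nat_lit 479) (nat_lit 343) (nat_lit 318)) (XT.nd (nat_lit 78) (nat_lit 0) (nat_lit 0) (XT.lf (nat_lit 0) (nat_lit 1376944691) (nat_lit 228) (nat_lit 853699466) (nat_lit 304) (nat_lit 9607152931) (nat_lit 75) (nat_lit 5) (nat_lit 78) (nat_lit 5) (nat_lit 79) (nat_lit 5) (nat_lit 480) (nat_lit 343) (nat_lit 317)) (XT.lf (nat_lit 0) (nat_lit 6877841438) (nat_lit 304) (nat_lit 1492072653) (nat_lit 76) (nat_lit 3597563648) (nat_lit 75) (nat_lit 5) (nat_lit 79) (nat_lit 5) (nat_lit 76) (nat_lit 4) (nat_lit 481) (nat_lit 343) (nat_lit 316))))))) (XT.nd (nat_lit 858) (nat_lit 1748) (nat_lit 0) (XT.nd (nat_lit 390) (nat_lit 912) (nat_lit 0) (XT.nd (nat_lit 156) (nat_lit 532) (nat_lit 0) (XT.nd (nat_lit 78) (nat_lit 304) (nat_lit 0) (XT.lf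 (nat_lit 0) (nat_lit 7653375758) (nat_lit 228) (nat_lit 3963184059) (nat_lit 304) (nat_lit 483225479) (nat_lit 72) (nat_lit 5) (nat_lit 75) (nat_lit 5) (nat_lit 76) (nat_lit 4) (nat_lit 482) (nat_lit 343) (nat_lit 315)) (XT.lf (nat_lit 0) (nat_lit 4147627049) (nat_lit 304) (nat_lit 7534018742) (nat_lit 76) (nat_lit 552798524) (nat_lit 68) (nat_lit 5) (nat_lit 72) (nat_lit 5) (nat_lit 69) (nat_lit 4) (nat_lit 483) (nat_lit 343) (nat_lit 314))) (XT.nd (nat_lit 78) (nat_lit 304) (nat_lit 0) (XT.lf (nat_lit 0) (nat_lit 1613013524) (nat_lit 228) (nat_lit 7261930507) (nat_lit 304) (nat_lit 3496586803) (nat_lit 65) (nat_lit 5) (nat_lit 68) (nat_lit 5) (nat_lit 69) (nat_lit 4) (nat_lit 484) (nat_lit 343) (nat_lit 313)) (XT.nd (nat_lit 78) (nat_lit 228) (nat_lit 0) (XT.lf (nat_lit 0) (nat_lit 1164451414) (nat_lit 304) (nat_lit 1571144646) (nat_lit 76) (nat_lit 9775722456) (nat_lit 64) (nat_lit 5) (nat_lit 68) (nat_lit 5) (nat_lit 65)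 (nat_lit 5) (nat_lit 485) (nat_lit 343) (nat_lit 312)) (XT.lf (nat_lit 0) (nat_lit 5879668081) (nat_lit 304) (nat_lit 4883039436) (nat_lit 76) (nat_lit 1890580940) (nat_lit 61) (nat_lit 5) (nat_lit 65) (nat_lit 5) (nat_lit 62) (nat_lit 4) (nat_lit 486) (nat_lit 343) (nat_lit 311))))) (XT.nd (nat_lit 234) (nat_lit 456) (nat_lit 0) (XT.nd (nat_lit 78) (nat_lit 304) (nat_lit 0) (XT.lf (nat_lit 0) (nat_lit 4466105218) (nat_lit 152) (nat_lit 6225774387) (nat_lit 228) (nat_lit 2106168589) (nat_lit 59) (nat_lit 5) (nat_lit 61) (nat_lit 5) (nat_lit 62) (nat_lit 4) (nat_lit 487) (nat_lit 343) (nat_lit 310)) (XT.nd (nat_lit 78) (nat_lit 0) (nat_lit 0) (XT.lf (nat_lit 0) (nat_lit 1023076409) (nat_lit 228) (nat_lit 1581424531) (nat_lit 304) (nat_lit 10341167825) (nat_lit 55) (nat_lit 5) (nat_lit 58) (nat_lit 5) (nat_lit 59) (nat_lit 5) (nat_lit 488) (nat_lit 343) (nat_lit 309)) (XT.lf (nat_lit 0) (nat_lit 7403226941) (nat_lit 304) (nat_lit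 2548251579) (nat_lit 76) (nat_lit 3144047865) (nat_lit 55) (nat_lit 5) (nat_lit 59) (nat_lit 5) (nat_lit 56) (nat_lit 4) (nat_lit 489) (nat_lit 343) (nat_lit 308)))) (XT.nd (nat_lit 78) (nat_lit 304) (nat_lit 0) (XT.lf (nat_lit 0) (nat_lit 7000347258) (nat_lit 152) (nat_lit 5299824393) (nat_lit 228) (nat_lit 948168510) (nat_lit 53) (nat_lit 5) (nat_lit 55) (nat_lit 5) (nat_lit 56) (nat_lit 4) (nat_lit 490) (nat_lit 343) (nat_lit 307)) (XT.nd (nat_lit 78) (nat_lit 0) (nat_lit 0) (XT.lf (nat_lit 0) (nat_lit 3293754700) (nat_lit 228) (nat_lit 531066356) (nat_lit 304) (nat_lit 9579187552) (nat_lit 49) (nat_lit 5) (nat_lit 52) (nat_lit 5) (nat_lit 53) (nat_lit 5) (nat_lit 491) (nat_lit 343) (nat_lit 306)) (XT.lf (nat_lit 0) (nat_lit 8697505835) (nat_lit 304) (nat_lit 580450392) (nat_lit 76) (nat_lit 4284373884) (nat_lit 49) (nat_lit 5) (nat_lit 53) (nat_lit 5) (nat_lit 50) (nat_lit 4) (nat_lit 492) (nat_lit 343) (nat_lit 305))))))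 (XT.nd (nat_lit 468) (nat_lit 760) (nat_lit 0) (XT.nd (nat_lit 234) (nat_lit 380) (nat_lit 0) (XT.nd (nat_lit 78) (nat_lit 456) (nat_lit 0) (XT.lf (nat_lit 0) (nat_lit 9163635626) (nat_lit 152) (nat_lit 4514650903) (nat_lit 228) (nat_lit 45322264) (nat_lit 47) (nat_lit 5) (nat_lit 49) (nat_lit 5) (nat_lit 50) (nat_lit 4) (nat_lit 493) (nat_lit 343) (nat_lit 304)) (XT.nd (nat_lit 78) (nat_lit 152) (nat_lit 0) (XT.lf (nat_lit 0) (nat_lit 4794284194) (nat_lit 304) (nat_lit 8724738746) (nat_lit 76) (nat_lit 368709246) (nat_lit 43) (nat_lit 5) (nat_lit 47) (nat_lit 5) (nat_lit 44) (nat_lit 4) (nat_lit 494) (nat_lit 343) (nat_lit 303)) (XT.lf (nat_lit 0) (nat_lit 976884951) (nat_lit 152) (nat_lit 8768104992) (nat_lit 228) (nat_lit 4309847216) (nat_lit 41) (nat_lit 5) (nat_lit 43) (nat_lit 5) (nat_lit 44) (nat_lit 4) (nat_lit 495) (nat_lit 343) (nat_lit 302)))) (XT.nd (nat_lit 78) (nat_lit 304) (nat_lit 0) (XT.lf (nat_lit 0) (nat_lit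 568837934) (nat_lit 228) (nat_lit 3330703414) (nat_lit 76) (nat_lit 10325534585) (nat_lit 40) (nat_lit 5) (nat_lit 43) (nat_lit 5) (nat_lit 41) (nat_lit 5) (nat_lit 496) (nat_lit 343) (nat_lit 301)) (XT.nd (nat_lit 78) (nat_lit 152) (nat_lit 0) (XT.lf (nat_lit 0) (nat_lit 5486247689) (nat_lit 228) (nat_lit 7827717766) (nat_lit 76) (nat_lit 1084210260) (nat_lit 38) (nat_lit 5) (nat_lit 41) (nat_lit 5) (nat_lit 39) (nat_lit 4) (nat_lit 497) (nat_lit 343) (nat_lit 300)) (XT.lf (nat_lit 0) (nat_lit 2049775740) (nat_lit 152) (nat_lit 8462977043) (nat_lit 228) (nat_lit 4061772896) (nat_lit 36) (nat_lit 5) (nat_lit 38) (nat_lit 5) (nat_lit 39) (nat_lit 4) (nat_lit 498) (nat_lit 343) (nat_lit 299))))) (XT.nd (nat_lit 234) (nat_lit 380) (nat_lit 0) (XT.nd (nat_lit 78) (nat_lit 304) (nat_lit 0) (XT.lf (nat_lit 0) (nat_lit 875833777) (nat_lit 228) (nat_lit 2620233285) (nat_lit 76) (nat_lit 11258182405) (nat_lit 35) (nat_lit 5) (nat_lit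 38) (nat_lit 5) (nat_lit 36) (nat_lit 5) (nat_lit 499) (nat_lit 343) (nat_lit 298)) (XT.nd (nat_lit 78) (nat_lit 152) (nat_lit 0) (XT.lf (nat_lit 0) (nat_lit 5866928163) (nat_lit 228) (nat_lit 7484046807) (nat_lit 76) (nat_lit 1585876287) (nat_lit 33) (nat_lit 5) (nat_lit 36) (nat_lit 5) (nat_lit 34) (nat_lit 4) (nat_lit 500) (nat_lit 343) (nat_lit 297)) (XT.lf (nat_lit 0) (nat_lit 2560324150) (nat_lit 152) (nat_lit 8405314664) (nat_lit 228) (nat_lit 4157313271) (nat_lit 31) (nat_lit 5) (nat_lit 33) (nat_lit 5) (nat_lit 34) (nat_lit 4) (nat_lit 501) (nat_lit 343) (nat_lit 296)))) (XT.nd (nat_lit 78) (nat_lit 304) (nat_lit 0) (XT.lf (nat_lit 0) (nat_lit 843291594) (nat_lit 228) (nat_lit 2500737075) (nat_lit 76) (nat_lit 11968619455) (nat_lit 30) (nat_lit 5) (nat_lit 33) (nat_lit 5) (nat_lit 31) (nat_lit 5) (nat_lit 502) (nat_lit 343) (nat_lit 295)) (XT.nd (nat_lit 78) (nat_lit 152) (nat_lit 0) (XT.lf (nat_lit 0) (nat_lit 5902020250)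 (nat_lit 228) (nat_lit 7769499462) (nat_lit 76) (nat_lit 1833795935) (nat_lit 28) (nat_lit 5) (nat_lit 31) (nat_lit 5) (nat_lit 29) (nat_lit 4) (nat_lit 503) (nat_lit 343) (nat_lit 294)) (XT.lf (nat_lit 0) (nat_lit 2430633080) (nat_lit 152) (nat_lit 8637593018) (nat_lit 228) (nat_lit 4633487039) (nat_lit 26) (nat_lit 5) (nat_lit 28) (nat_lit 5) (nat_lit 29) (nat_lit 4) (nat_lit 504) (nat_lit 343) (nat_lit 293))))))))
noncomputable def xc17 : XT := (XT.nd (nat_lit 56706) (nat_lit 0) (nat_lit 1596) (XT.nd (nat_lit 55770) (nat_lit 0) (nat_lit 6460) (XT.nd (nat_lit 55302) (nat_lit 0) (nat_lit 10260) (XT.nd (nat_lit 156) (nat_lit 76) (nat_lit 0) (XT.nd (nat_lit 78) (nat_lit 152) (nat_lit 0) (XT.lf (nat_lit 0) (nat_lit 434027958) (nat_lit 228) (nat_lit 3052634446) (nat_lit 76) (nat_lit 12415241659) (nat_lit 25) (nat_lit 5) (nat_lit 28) (nat_lit 5) (nat_lit 26) (nat_lit 5) (nat_lit 505) (nat_lit 343) (nat_lit 292)) (XT.lf (nat_lit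 0) (nat_lit 5552854692) (nat_lit 228) (nat_lit 8768156803) (nat_lit 76) (nat_lit 1784237205) (nat_lit 23) (nat_lit 5) (nat_lit 26) (nat_lit 5) (nat_lit 24) (nat_lit 4) (nat_lit 506) (nat_lit 343) (nat_lit 291))) (XT.nd (nat_lit 78) (nat_lit 0) (nat_lit 0) (XT.lf (nat_lit 0) (nat_lit 1574227526) (nat_lit 76) (nat_lit 9206372380) (nat_lit 152) (nat_lit 5531931948) (nat_lit 22) (nat_lit 5) (nat_lit 23) (nat_lit 5) (nat_lit 24) (nat_lit 4) (nat_lit 507) (nat_lit 343) (nat_lit 290)) (XT.nd (nat_lit 54990) (nat_lit 0) (nat_lit 12540) (XT.lf (nat_lit 0) (nat_lit 12155952043) (nat_lit 76) (nat_lit 3968765515) (nat_lit 152) (nat_lit 399009181) (nat_lit 22) (nat_lit 5) (nat_lit 23) (nat_lit 5) (nat_lit 24) (nat_lit 4) (nat_lit 508) (nat_lit 343) (nat_lit 289)) (XT.lf (nat_lit 0) (nat_lit 1147829174) (nat_lit 532) (nat_lit 2222486572) (nat_lit 0) (nat_lit 1147829174) (nat_lit 187) (nat_lit 5) (nat_lit 194) (nat_lit 4) (nat_lit 187) (nat_lit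 4) (nat_lit 452) (nat_lit 344) (nat_lit 344))))) (XT.nd (nat_lit 234) (nat_lit 912) (nat_lit 0) (XT.nd (nat_lit 78) (nat_lit 912) (nat_lit 0) (XT.lf (nat_lit 0) (nat_lit 3132710867) (nat_lit 456) (nat_lit 3451814319) (nat_lit 456) (nat_lit 2527981966) (nat_lit 181) (nat_lit 4) (nat_lit 187) (nat_lit 5) (nat_lit 187) (nat_lit 4) (nat_lit 453) (nat_lit 344) (nat_lit 343)) (XT.nd (nat_lit 78) (nat_lit 456) (nat_lit 0) (XT.lf (nat_lit 0) (nat_lit 1640794364) (nat_lit 380) (nat_lit 77198066) (nat_lit 456) (nat_lit 7472591506) (nat_lit 175) (nat_lit 5) (nat_lit 180) (nat_lit 5) (nat_lit 181) (nat_lit 4) (nat_lit 454) (nat_lit 344) (nat_lit 342)) (XT.lf (nat_lit 0) (nat_lit 85631279) (nat_lit 456) (nat_lit 5924296838) (nat_lit 456) (nat_lit 3260072169) (nat_lit 169) (nat_lit 4) (nat_lit 175) (nat_lit 5) (nat_lit 175) (nat_lit 4) (nat_lit 455) (nat_lit 344) (nat_lit 341)))) (XT.nd (nat_lit 78) (nat_lit 836) (nat_lit 0) (XT.lf (nat_lit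 0) (nat_lit 1006892760) (nat_lit 532) (nat_lit 1483779586) (nat_lit 76) (nat_lit 6860531832) (nat_lit 168) (nat_lit 5) (nat_lit 175) (nat_lit 5) (nat_lit 169) (nat_lit 4) (nat_lit 456) (nat_lit 344) (nat_lit 340)) (XT.nd (nat_lit 78) (nat_lit 456) (nat_lit 0) (XT.lf (nat_lit 0) (nat_lit 5297069644) (nat_lit 456) (nat_lit 3108905942) (nat_lit 0) (nat_lit 1028004559) (nat_lit 163) (nat_lit 5) (nat_lit 169) (nat_lit 4) (nat_lit 163) (nat_lit 4) (nat_lit 457) (nat_lit 344) (nat_lit 339)) (XT.lf (nat_lit 0) (nat_lit 143859952) (nat_lit 456) (nat_lit 4782719638) (nat_lit 76) (nat_lit 4591996079) (nat_lit 157) (nat_lit 5) (nat_lit 163) (nat_lit 5) (nat_lit 158) (nat_lit 4) (nat_lit 458) (nat_lit 344) (nat_lit 338)))))) (XT.nd (nat_lit 468) (nat_lit 1824) (nat_lit 0) (XT.nd (nat_lit 234) (nat_lit 1140) (nat_lit 0) (XT.nd (nat_lit 78) (nat_lit 456) (nat_lit 0) (XT.lf (nat_lit 0) (nat_lit 3087195687) (nat_lit 380) (nat_lit 1342999583)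 (nat_lit 456) (nat_lit 5174623012) (nat_lit 152) (nat_lit 5) (nat_lit 157) (nat_lit 5) (nat_lit 158) (nat_lit 4) (nat_lit 459) (nat_lit 344) (nat_lit 337)) (XT.nd (nat_lit 78) (nat_lit 76) (nat_lit 0) (XT.lf (nat_lit 0) (nat_lit 1388799327) (nat_lit 380) (nat_lit 7404450578) (nat_lit 380) (nat_lit 899724748) (nat_lit 147) (nat_lit 4) (nat_lit 152) (nat_lit 5) (nat_lit 152) (nat_lit 4) (nat_lit 460) (nat_lit 344) (nat_lit 336)) (XT.lf (nat_lit 0) (nat_lit 3403050590) (nat_lit 456) (nat_lit 373567852) (nat_lit 76) (nat_lit 6006079417) (nat_lit 146) (nat_lit 5) (nat_lit 152) (nat_lit 5) (nat_lit 147) (nat_lit 4) (nat_lit 461) (nat_lit 344) (nat_lit 335)))) (XT.nd (nat_lit 78) (nat_lit 760) (nat_lit 0) (XT.lf (nat_lit 0) (nat_lit 7711225921) (nat_lit 380) (nat_lit 54809461) (nat_lit 456) (nat_lit 2108345432) (nat_lit 141) (nat_lit 5) (nat_lit 146) (nat_lit 5) (nat_lit 147) (nat_lit 4) (nat_lit 462) (nat_lit 344) (nat_lit 334))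 (XT.nd (nat_lit 78) (nat_lit 304) (nat_lit 0) (XT.lf (nat_lit 0) (nat_lit 2220839290) (nat_lit 456) (nat_lit 4033824247) (nat_lit 76) (nat_lit 3712910964) (nat_lit 135) (nat_lit 5) (nat_lit 141) (nat_lit 5) (nat_lit 136) (nat_lit 4) (nat_lit 463) (nat_lit 344) (nat_lit 333)) (XT.lf (nat_lit 0) (nat_lit 4098728302) (nat_lit 304) (nat_lit 2487939501) (nat_lit 380) (nat_lit 3476127496) (nat_lit 131) (nat_lit 5) (nat_lit 135) (nat_lit 5) (nat_lit 136) (nat_lit 4) (nat_lit 464) (nat_lit 344) (nat_lit 332))))) (XT.nd (nat_lit 234) (nat_lit 1064) (nat_lit 0) (XT.nd (nat_lit 78) (nat_lit 304) (nat_lit 0) (XT.lf (nat_lit 0) (nat_lit 855676335) (nat_lit 456) (nat_lit 7957124459) (nat_lit 76) (nat_lit 1347266457) (nat_lit 125) (nat_lit 5) (nat_lit 131) (nat_lit 5) (nat_lit 126) (nat_lit 4) (nat_lit 465) (nat_lit 344) (nat_lit 331)) (XT.nd (nat_lit 78) (nat_lit 0) (nat_lit 0) (XT.lf (nat_lit 0) (nat_lit 218026231) (nat_lit 304) (nat_lit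 5004967220) (nat_lit 380) (nat_lit 5035930525) (nat_lit 121) (nat_lit 5) (nat_lit 125) (nat_lit 5) (nat_lit 126) (nat_lit 4) (nat_lit 466) (nat_lit 344) (nat_lit 330)) (XT.lf (nat_lit 0) (nat_lit 8564479392) (nat_lit 304) (nat_lit 1104355694) (nat_lit 380) (nat_lit 691106367) (nat_lit 121) (nat_lit 5) (nat_lit 125) (nat_lit 5) (nat_lit 126) (nat_lit 4) (nat_lit 467) (nat_lit 344) (nat_lit 329)))) (XT.nd (nat_lit 78) (nat_lit 684) (nat_lit 0) (XT.lf (nat_lit 0) (nat_lit 3691716329) (nat_lit 380) (nat_lit 3903792007) (nat_lit 76) (nat_lit 2866988901) (nat_lit 116) (nat_lit 5) (nat_lit 121) (nat_lit 5) (nat_lit 117) (nat_lit 4) (nat_lit 468) (nat_lit 344) (nat_lit 328)) (XT.nd (nat_lit 78) (nat_lit 380) (nat_lit 0) (XT.lf (nat_lit 0) (nat_lit 4485030081) (nat_lit 304) (nat_lit 3655395613) (nat_lit 380) (nat_lit 2426844166) (nat_lit 112) (nat_lit 5) (nat_lit 116) (nat_lit 5) (nat_lit 117) (nat_lit 4) (nat_lit 469) (nat_lit 344)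 (nat_lit 327)) (XT.lf (nat_lit 0) (nat_lit 1960780974) (nat_lit 380) (nat_lit 8337735742) (nat_lit 76) (nat_lit 375705661) (nat_lit 107) (nat_lit 5) (nat_lit 112) (nat_lit 5) (nat_lit 108) (nat_lit 4) (nat_lit 470) (nat_lit 344) (nat_lit 326))))))) (XT.nd (nat_lit 936) (nat_lit 2204) (nat_lit 0) (XT.nd (nat_lit 468) (nat_lit 1368) (nat_lit 0) (XT.nd (nat_lit 234) (nat_lit 608) (nat_lit 0) (XT.nd (nat_lit 78) (nat_lit 380) (nat_lit 0) (XT.lf (nat_lit 0) (nat_lit 84366323) (nat_lit 304) (nat_lit 6324536633) (nat_lit 380) (nat_lit 4373991743) (nat_lit 103) (nat_lit 5) (nat_lit 107) (nat_lit 5) (nat_lit 108) (nat_lit 4) (nat_lit 471) (nat_lit 344) (nat_lit 325)) (XT.nd (nat_lit 78) (nat_lit 304) (nat_lit 0) (XT.lf (nat_lit 0) (nat_lit 47392741) (nat_lit 380) (nat_lit 2205280918) (nat_lit 76) (nat_lit 8641149533) (nat_lit 102) (nat_lit 5) (nat_lit 107) (nat_lit 5) (nat_lit 103) (nat_lit 5) (nat_lit 472) (nat_lit 344) (nat_lit 324))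 (XT.lf (nat_lit 0) (nat_lit 4493595925) (nat_lit 380) (nat_lit 4604229401) (nat_lit 76) (nat_lit 1908673523) (nat_lit 98) (nat_lit 5) (nat_lit 103) (nat_lit 5) (nat_lit 99) (nat_lit 4) (nat_lit 473) (nat_lit 344) (nat_lit 323)))) (XT.nd (nat_lit 78) (nat_lit 380) (nat_lit 0) (XT.lf (nat_lit 0) (nat_lit 4030365507) (nat_lit 228) (nat_lit 4995317683) (nat_lit 304) (nat_lit 2095811522) (nat_lit 95) (nat_lit 5) (nat_lit 98) (nat_lit 5) (nat_lit 99) (nat_lit 4) (nat_lit 474) (nat_lit 344) (nat_lit 322)) (XT.nd (nat_lit 78) (nat_lit 0) (nat_lit 0) (XT.lf (nat_lit 0) (nat_lit 1568258591) (nat_lit 304) (nat_lit 792152082) (nat_lit 380) (nat_lit 8878424755) (nat_lit 90) (nat_lit 5) (nat_lit 94) (nat_lit 5) (nat_lit 95) (nat_lit 5) (nat_lit 475) (nat_lit 344) (nat_lit 321)) (XT.lf (nat_lit 0) (nat_lit 6889686340) (nat_lit 380) (nat_lit 996123812) (nat_lit 76) (nat_lit 3472201455) (nat_lit 90) (nat_lit 5) (nat_lit 95) (nat_lit 5) (nat_lit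 91) (nat_lit 4) (nat_lit 476) (nat_lit 344) (nat_lit 320))))) (XT.nd (nat_lit 234) (nat_lit 532) (nat_lit 0) (XT.nd (nat_lit 78) (nat_lit 532) (nat_lit 0) (XT.lf (nat_lit 0) (nat_lit 28324123) (nat_lit 304) (nat_lit 3626911915) (nat_lit 76) (nat_lit 7824361894) (nat_lit 86) (nat_lit 5) (nat_lit 90) (nat_lit 5) (nat_lit 87) (nat_lit 5) (nat_lit 477) (nat_lit 344) (nat_lit 319)) (XT.nd (nat_lit 78) (nat_lit 228) (nat_lit 0) (XT.lf (nat_lit 0) (nat_lit 4542958515) (nat_lit 380) (nat_lit 6377218771) (nat_lit 76) (nat_lit 683095563) (nat_lit 82) (nat_lit 5) (nat_lit 87) (nat_lit 5) (nat_lit 83) (nat_lit 4) (nat_lit 478) (nat_lit 344) (nat_lit 318)) (XT.lf (nat_lit 0) (nat_lit 2487495194) (nat_lit 228) (nat_lit 6668135584) (nat_lit 304) (nat_lit 2573640710) (nat_lit 79) (nat_lit 5) (nat_lit 82) (nat_lit 5) (nat_lit 83) (nat_lit 4) (nat_lit 479) (nat_lit 344) (nat_lit 317)))) (XT.nd (nat_lit 78) (nat_lit 456) (nat_lit 0) (XT.lf (nat_lit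 0) (nat_lit 1962579658) (nat_lit 304) (nat_lit 351465733) (nat_lit 76) (nat_lit 9543767976) (nat_lit 78) (nat_lit 5) (nat_lit 82) (nat_lit 5) (nat_lit 79) (nat_lit 5) (nat_lit 480) (nat_lit 344) (nat_lit 316)) (XT.nd (nat_lit 78) (nat_lit 228) (nat_lit 0) (XT.lf (nat_lit 0) (nat_lit 6569865204) (nat_lit 304) (nat_lit 3283951575) (nat_lit 76) (nat_lit 2134477869) (nat_lit 75) (nat_lit 5) (nat_lit 79) (nat_lit 5) (nat_lit 76) (nat_lit 4) (nat_lit 481) (nat_lit 344) (nat_lit 315)) (XT.lf (nat_lit 0) (nat_lit 5789769001) (nat_lit 228) (nat_lit 5479163230) (nat_lit 304) (nat_lit 852465347) (nat_lit 72) (nat_lit 5) (nat_lit 75) (nat_lit 5) (nat_lit 76) (nat_lit 4) (nat_lit 482) (nat_lit 344) (nat_lit 314)))))) (XT.nd (nat_lit 468) (nat_lit 1140) (nat_lit 0) (XT.nd (nat_lit 234) (nat_lit 456) (nat_lit 0) (XT.nd (nat_lit 78) (nat_lit 304) (nat_lit 0) (XT.lf (nat_lit 0) (nat_lit 2748319670) (nat_lit 228) (nat_lit 991075353) (nat_lit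 304) (nat_lit 8517588473) (nat_lit 68) (nat_lit 5) (nat_lit 71) (nat_lit 5) (nat_lit 72) (nat_lit 5) (nat_lit 483) (nat_lit 344) (nat_lit 313)) (XT.nd (nat_lit 78) (nat_lit 304) (nat_lit 0) (XT.lf (nat_lit 0) (nat_lit 8422410527) (nat_lit 304) (nat_lit 423802441) (nat_lit 76) (nat_lit 3548745286) (nat_lit 68) (nat_lit 5) (nat_lit 72) (nat_lit 5) (nat_lit 69) (nat_lit 4) (nat_lit 484) (nat_lit 344) (nat_lit 312)) (XT.lf (nat_lit 0) (nat_lit 664581214) (nat_lit 304) (nat_lit 3681471177) (nat_lit 76) (nat_lit 8189360508) (nat_lit 64) (nat_lit 5) (nat_lit 68) (nat_lit 5) (nat_lit 65) (nat_lit 5) (nat_lit 485) (nat_lit 344) (nat_lit 311)))) (XT.nd (nat_lit 78) (nat_lit 228) (nat_lit 0) (XT.lf (nat_lit 0) (nat_lit 5328120536) (nat_lit 304) (nat_lit 7082840557) (nat_lit 76) (nat_lit 267457376) (nat_lit 61) (nat_lit 5) (nat_lit 65) (nat_lit 5) (nat_lit 62) (nat_lit 4) (nat_lit 486) (nat_lit 344) (nat_lit 310)) (XT.nd (nat_lit 78) (nat_lit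 76) (nat_lit 0) (XT.lf (nat_lit 0) (nat_lit 2189777591) (nat_lit 152) (nat_lit 7909063745) (nat_lit 228) (nat_lit 2725168728) (nat_lit 59) (nat_lit 5) (nat_lit 61) (nat_lit 5) (nat_lit 62) (nat_lit 4) (nat_lit 487) (nat_lit 344) (nat_lit 309)) (XT.lf (nat_lit 0) (nat_lit 1960310635) (nat_lit 228) (nat_lit 1335333305) (nat_lit 76) (nat_lit 9676735208) (nat_lit 58) (nat_lit 5) (nat_lit 61) (nat_lit 5) (nat_lit 59) (nat_lit 5) (nat_lit 488) (nat_lit 344) (nat_lit 308))))) (XT.nd (nat_lit 234) (nat_lit 456) (nat_lit 0) (XT.nd (nat_lit 78) (nat_lit 456) (nat_lit 0) (XT.lf (nat_lit 0) (nat_lit 6712489401) (nat_lit 304) (nat_lit 4986920353) (nat_lit 76) (nat_lit 1423759882) (nat_lit 55) (nat_lit 5) (nat_lit 59) (nat_lit 5) (nat_lit 56) (nat_lit 4) (nat_lit 489) (nat_lit 344) (nat_lit 307)) (XT.nd (nat_lit 78) (nat_lit 304) (nat_lit 0) (XT.lf (nat_lit 0) (nat_lit 4482762726) (nat_lit 152) (nat_lit 7084272500) (nat_lit 228) (nat_lit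 1709798051) (nat_lit 53) (nat_lit 5) (nat_lit 55) (nat_lit 5) (nat_lit 56) (nat_lit 4) (nat_lit 490) (nat_lit 344) (nat_lit 306)) (XT.lf (nat_lit 0) (nat_lit 672298468) (nat_lit 228) (nat_lit 2357850537) (nat_lit 304) (nat_lit 10403314062) (nat_lit 49) (nat_lit 5) (nat_lit 52) (nat_lit 5) (nat_lit 53) (nat_lit 5) (nat_lit 491) (nat_lit 344) (nat_lit 305)))) (XT.nd (nat_lit 78) (nat_lit 456) (nat_lit 0) (XT.lf (nat_lit 0) (nat_lit 7865046764) (nat_lit 304) (nat_lit 3265529745) (nat_lit 76) (nat_lit 2461965580) (nat_lit 49) (nat_lit 5) (nat_lit 53) (nat_lit 5) (nat_lit 50) (nat_lit 4) (nat_lit 492) (nat_lit 344) (nat_lit 304)) (XT.nd (nat_lit 78) (nat_lit 304) (nat_lit 0) (XT.lf (nat_lit 0) (nat_lit 6397146449) (nat_lit 152) (nat_lit 6405301160) (nat_lit 228) (nat_lit 952242502) (nat_lit 47) (nat_lit 5) (nat_lit 49) (nat_lit 5) (nat_lit 50) (nat_lit 4) (nat_lit 493) (nat_lit 344) (nat_lit 303)) (XT.lf (nat_lit 0) (nat_lit 2290916363)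 (nat_lit 228) (nat_lit 1561873519) (nat_lit 304) (nat_lit 10067072434) (nat_lit 43) (nat_lit 5) (nat_lit 46) (nat_lit 5) (nat_lit 47) (nat_lit 5) (nat_lit 494) (nat_lit 344) (nat_lit 302))))))))
noncomputable def xc18 : XT := (XT.nd (nat_lit 56550) (nat_lit 0) (nat_lit 4028) (XT.nd (nat_lit 858) (nat_lit 304) (nat_lit 0) (XT.nd (nat_lit 390) (nat_lit 760) (nat_lit 0) (XT.nd (nat_lit 156) (nat_lit 380) (nat_lit 0) (XT.nd (nat_lit 78) (nat_lit 152) (nat_lit 0) (XT.lf (nat_lit 0) (nat_lit 8761711441) (nat_lit 304) (nat_lit 1975242486) (nat_lit 76) (nat_lit 3350850687) (nat_lit 43) (nat_lit 5) (nat_lit 47) (nat_lit 5) (nat_lit 44) (nat_lit 4) (nat_lit 495) (nat_lit 344) (nat_lit 301)) (XT.lf (nat_lit 0) (nat_lit 7874861112) (nat_lit 152) (nat_lit 5905316998) (nat_lit 228) (nat_lit 478703570) (nat_lit 41) (nat_lit 5) (nat_lit 43) (nat_lit 5) (nat_lit 44) (nat_lit 4) (nat_lit 496) (nat_lit 344) (nat_lit 300))) (XT.nd (nat_lit 78)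 (nat_lit 152) (nat_lit 0) (XT.lf (nat_lit 0) (nat_lit 3441998187) (nat_lit 152) (nat_lit 950724989) (nat_lit 228) (nat_lit 10040367222) (nat_lit 38) (nat_lit 5) (nat_lit 40) (nat_lit 5) (nat_lit 41) (nat_lit 5) (nat_lit 497) (nat_lit 344) (nat_lit 299)) (XT.nd (nat_lit 78) (nat_lit 152) (nat_lit 0) (XT.lf (nat_lit 0) (nat_lit 9375050403) (nat_lit 228) (nat_lit 1178783648) (nat_lit 76) (nat_lit 4056491384) (nat_lit 38) (nat_lit 5) (nat_lit 41) (nat_lit 5) (nat_lit 39) (nat_lit 4) (nat_lit 498) (nat_lit 344) (nat_lit 298)) (XT.lf (nat_lit 0) (nat_lit 8851486777) (nat_lit 152) (nat_lit 5620394306) (nat_lit 228) (nat_lit 318929958) (nat_lit 36) (nat_lit 5) (nat_lit 38) (nat_lit 5) (nat_lit 39) (nat_lit 4) (nat_lit 499) (nat_lit 344) (nat_lit 297))))) (XT.nd (nat_lit 234) (nat_lit 380) (nat_lit 0) (XT.nd (nat_lit 78) (nat_lit 152) (nat_lit 0) (XT.lf (nat_lit 0) (nat_lit 4058126499) (nat_lit 152) (nat_lit 561498394) (nat_lit 228)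 (nat_lit 10354965230) (nat_lit 33) (nat_lit 5) (nat_lit 35) (nat_lit 5) (nat_lit 36) (nat_lit 5) (nat_lit 500) (nat_lit 344) (nat_lit 296)) (XT.nd (nat_lit 78) (nat_lit 152) (nat_lit 0) (XT.lf (nat_lit 0) (nat_lit 9673954150) (nat_lit 228) (nat_lit 945732830) (nat_lit 76) (nat_lit 4541893001) (nat_lit 33) (nat_lit 5) (nat_lit 36) (nat_lit 5) (nat_lit 34) (nat_lit 4) (nat_lit 501) (nat_lit 344) (nat_lit 295)) (XT.lf (nat_lit 0) (nat_lit 9255525580) (nat_lit 152) (nat_lit 5589903844) (nat_lit 228) (nat_lit 506561800) (nat_lit 31) (nat_lit 5) (nat_lit 33) (nat_lit 5) (nat_lit 34) (nat_lit 4) (nat_lit 502) (nat_lit 344) (nat_lit 294)))) (XT.nd (nat_lit 78) (nat_lit 152) (nat_lit 0) (XT.lf (nat_lit 0) (nat_lit 4064487917) (nat_lit 152) (nat_lit 434732385) (nat_lit 228) (nat_lit 11046697348) (nat_lit 28) (nat_lit 5) (nat_lit 30) (nat_lit 5) (nat_lit 31) (nat_lit 5) (nat_lit 503) (nat_lit 344) (nat_lit 293)) (XT.nd (nat_lit 78) (nat_lit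 152) (nat_lit 0) (XT.lf (nat_lit 0) (nat_lit 9623274956) (nat_lit 228) (nat_lit 1353298769) (nat_lit 76) (nat_lit 4766585735) (nat_lit 28) (nat_lit 5) (nat_lit 31) (nat_lit 5) (nat_lit 29) (nat_lit 4) (nat_lit 504) (nat_lit 344) (nat_lit 292)) (XT.lf (nat_lit 0) (nat_lit 9007602275) (nat_lit 152) (nat_lit 5856937806) (nat_lit 228) (nat_lit 1079514002) (nat_lit 26) (nat_lit 5) (nat_lit 28) (nat_lit 5) (nat_lit 29) (nat_lit 4) (nat_lit 505) (nat_lit 344) (nat_lit 291)))))) (XT.nd (nat_lit 55224) (nat_lit 0) (nat_lit 10260) (XT.nd (nat_lit 54990) (nat_lit 0) (nat_lit 12540) (XT.nd (nat_lit 78) (nat_lit 76) (nat_lit 0) (XT.lf (nat_lit 0) (nat_lit 3378041412) (nat_lit 152) (nat_lit 614850964) (nat_lit 228) (nat_lit 12155859309) (nat_lit 23) (nat_lit 5) (nat_lit 25) (nat_lit 5) (nat_lit 26) (nat_lit 5) (nat_lit 506) (nat_lit 344) (nat_lit 290)) (XT.nd (nat_lit 78) (nat_lit 76) (nat_lit 0) (XT.lf (nat_lit 0) (nat_lit 9183424299) (nat_lit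 228) (nat_lit 2487173031) (nat_lit 76) (nat_lit 4686182973) (nat_lit 23) (nat_lit 5) (nat_lit 26) (nat_lit 5) (nat_lit 24) (nat_lit 4) (nat_lit 507) (nat_lit 344) (nat_lit 289)) (XT.lf (nat_lit 0) (nat_lit 8019583019) (nat_lit 76) (nat_lit 6468774455) (nat_lit 152) (nat_lit 2080402578) (nat_lit 22) (nat_lit 5) (nat_lit 23) (nat_lit 5) (nat_lit 24) (nat_lit 4) (nat_lit 508) (nat_lit 344) (nat_lit 288)))) (XT.nd (nat_lit 78) (nat_lit 988) (nat_lit 0) (XT.lf (nat_lit 0) (nat_lit 1857598753) (nat_lit 532) (nat_lit 728792407) (nat_lit 0) (nat_lit 1857598753) (nat_lit 200) (nat_lit 5) (nat_lit 207) (nat_lit 4) (nat_lit 200) (nat_lit 4) (nat_lit 450) (nat_lit 345) (nat_lit 345)) (XT.nd (nat_lit 78) (nat_lit 532) (nat_lit 0) (XT.lf (nat_lit 0) (nat_lit 6010672026) (nat_lit 456) (nat_lit 1956116790) (nat_lit 456) (nat_lit 994961610) (nat_lit 194) (nat_lit 4) (nat_lit 200) (nat_lit 5) (nat_lit 200) (nat_lit 4) (nat_lit 451) (nat_lit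 345) (nat_lit 344)) (XT.lf (nat_lit 0) (nat_lit 3203987592) (nat_lit 532) (nat_lit 4495140891) (nat_lit 0) (nat_lit 1337846239) (nat_lit 187) (nat_lit 5) (nat_lit 194) (nat_lit 4) (nat_lit 187) (nat_lit 4) (nat_lit 452) (nat_lit 345) (nat_lit 343))))) (XT.nd (nat_lit 234) (nat_lit 1368) (nat_lit 0) (XT.nd (nat_lit 78) (nat_lit 456) (nat_lit 0) (XT.lf (nat_lit 0) (nat_lit 3032038722) (nat_lit 456) (nat_lit 4426848589) (nat_lit 456) (nat_lit 1654989244) (nat_lit 181) (nat_lit 4) (nat_lit 187) (nat_lit 5) (nat_lit 187) (nat_lit 4) (nat_lit 453) (nat_lit 345) (nat_lit 342)) (XT.nd (nat_lit 78) (nat_lit 0) (nat_lit 0) (XT.lf (nat_lit 0) (nat_lit 1481691417) (nat_lit 380) (nat_lit 1063610354) (nat_lit 456) (nat_lit 6647227865) (nat_lit 175) (nat_lit 5) (nat_lit 180) (nat_lit 5) (nat_lit 181) (nat_lit 4) (nat_lit 454) (nat_lit 345) (nat_lit 341)) (XT.lf (nat_lit 0) (nat_lit 6797304465) (nat_lit 456) (nat_lit 119675911) (nat_lit 0)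 (nat_lit 2355769151) (nat_lit 175) (nat_lit 5) (nat_lit 181) (nat_lit 4) (nat_lit 175) (nat_lit 4) (nat_lit 455) (nat_lit 345) (nat_lit 340)))) (XT.nd (nat_lit 78) (nat_lit 836) (nat_lit 0) (XT.lf (nat_lit 0) (nat_lit 1747570282) (nat_lit 532) (nat_lit 1748186769) (nat_lit 76) (nat_lit 5858772356) (nat_lit 168) (nat_lit 5) (nat_lit 175) (nat_lit 5) (nat_lit 169) (nat_lit 4) (nat_lit 456) (nat_lit 345) (nat_lit 339)) (XT.nd (nat_lit 78) (nat_lit 456) (nat_lit 0) (XT.lf (nat_lit 0) (nat_lit 5996819123) (nat_lit 456) (nat_lit 3423525026) (nat_lit 0) (nat_lit 17784387) (nat_lit 163) (nat_lit 5) (nat_lit 169) (nat_lit 4) (nat_lit 163) (nat_lit 4) (nat_lit 457) (nat_lit 345) (nat_lit 338)) (XT.lf (nat_lit 0) (nat_lit 795703165) (nat_lit 456) (nat_lit 5160196359) (nat_lit 76) (nat_lit 3567431330) (nat_lit 157) (nat_lit 5) (nat_lit 163) (nat_lit 5) (nat_lit 158) (nat_lit 4) (nat_lit 458) (nat_lit 345) (nat_lit 337))))))) (XT.nd (nat_lit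 858) (nat_lit 2812) (nat_lit 0) (XT.nd (nat_lit 390) (nat_lit 1748) (nat_lit 0) (XT.nd (nat_lit 156) (nat_lit 912) (nat_lit 0) (XT.nd (nat_lit 78) (nat_lit 380) (nat_lit 0) (XT.lf (nat_lit 0) (nat_lit 2655047211) (nat_lit 380) (nat_lit 2392272368) (nat_lit 456) (nat_lit 4562952602) (nat_lit 152) (nat_lit 5) (nat_lit 157) (nat_lit 5) (nat_lit 158) (nat_lit 4) (nat_lit 459) (nat_lit 345) (nat_lit 336)) (XT.lf (nat_lit 0) (nat_lit 902423530) (nat_lit 380) (nat_lit 8466265915) (nat_lit 380) (nat_lit 330577052) (nat_lit 147) (nat_lit 4) (nat_lit 152) (nat_lit 5) (nat_lit 152) (nat_lit 4) (nat_lit 460) (nat_lit 345) (nat_lit 335))) (XT.nd (nat_lit 78) (nat_lit 836) (nat_lit 0) (XT.lf (nat_lit 0) (nat_lit 3933111834) (nat_lit 456) (nat_lit 919238462) (nat_lit 76) (nat_lit 4937202026) (nat_lit 146) (nat_lit 5) (nat_lit 152) (nat_lit 5) (nat_lit 147) (nat_lit 4) (nat_lit 461) (nat_lit 345) (nat_lit 334)) (XT.nd (nat_lit 78) (nat_lit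 456) (nat_lit 0) (XT.lf (nat_lit 0) (nat_lit 7109320344) (nat_lit 380) (nat_lit 1151866372) (nat_lit 456) (nat_lit 1620750762) (nat_lit 141) (nat_lit 5) (nat_lit 146) (nat_lit 5) (nat_lit 147) (nat_lit 4) (nat_lit 462) (nat_lit 345) (nat_lit 333)) (XT.lf (nat_lit 0) (nat_lit 2659532436) (nat_lit 456) (nat_lit 4704632999) (nat_lit 76) (nat_lit 2611756398) (nat_lit 135) (nat_lit 5) (nat_lit 141) (nat_lit 5) (nat_lit 136) (nat_lit 4) (nat_lit 463) (nat_lit 345) (nat_lit 332))))) (XT.nd (nat_lit 234) (nat_lit 988) (nat_lit 0) (XT.nd (nat_lit 78) (nat_lit 456) (nat_lit 0) (XT.lf (nat_lit 0) (nat_lit 3369737324) (nat_lit 304) (nat_lit 3620157554) (nat_lit 380) (nat_lit 3081960849) (nat_lit 131) (nat_lit 5) (nat_lit 135) (nat_lit 5) (nat_lit 136) (nat_lit 4) (nat_lit 464) (nat_lit 345) (nat_lit 331)) (XT.nd (nat_lit 78) (nat_lit 0) (nat_lit 0) (XT.lf (nat_lit 0) (nat_lit 1201345428) (nat_lit 456) (nat_lit 8759181067) (nat_lit 76)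 (nat_lit 209420187) (nat_lit 125) (nat_lit 5) (nat_lit 131) (nat_lit 5) (nat_lit 126) (nat_lit 4) (nat_lit 465) (nat_lit 345) (nat_lit 330)) (XT.lf (nat_lit 0) (nat_lit 5536767444) (nat_lit 456) (nat_lit 635775540) (nat_lit 76) (nat_lit 4096901880) (nat_lit 125) (nat_lit 5) (nat_lit 131) (nat_lit 5) (nat_lit 126) (nat_lit 4) (nat_lit 466) (nat_lit 345) (nat_lit 329)))) (XT.nd (nat_lit 78) (nat_lit 684) (nat_lit 0) (XT.lf (nat_lit 0) (nat_lit 7653664404) (nat_lit 304) (nat_lit 2294564740) (nat_lit 380) (nat_lit 422924284) (nat_lit 121) (nat_lit 5) (nat_lit 125) (nat_lit 5) (nat_lit 126) (nat_lit 4) (nat_lit 467) (nat_lit 345) (nat_lit 328)) (XT.nd (nat_lit 78) (nat_lit 304) (nat_lit 0) (XT.lf (nat_lit 0) (nat_lit 3912306691) (nat_lit 380) (nat_lit 4892513730) (nat_lit 76) (nat_lit 1669738807) (nat_lit 116) (nat_lit 5) (nat_lit 121) (nat_lit 5) (nat_lit 117) (nat_lit 4) (nat_lit 468) (nat_lit 345) (nat_lit 327)) (XT.lf (nat_lit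 0) (nat_lit 3434357227) (nat_lit 304) (nat_lit 4890189420) (nat_lit 380) (nat_lit 2255517877) (nat_lit 112) (nat_lit 5) (nat_lit 116) (nat_lit 5) (nat_lit 117) (nat_lit 4) (nat_lit 469) (nat_lit 345) (nat_lit 326)))))) (XT.nd (nat_lit 468) (nat_lit 1140) (nat_lit 0) (XT.nd (nat_lit 234) (nat_lit 912) (nat_lit 0) (XT.nd (nat_lit 78) (nat_lit 380) (nat_lit 0) (XT.lf (nat_lit 0) (nat_lit 1211388360) (nat_lit 304) (nat_lit 879104077) (nat_lit 380) (nat_lit 8597292871) (nat_lit 107) (nat_lit 5) (nat_lit 111) (nat_lit 5) (nat_lit 112) (nat_lit 5) (nat_lit 470) (nat_lit 345) (nat_lit 325)) (XT.nd (nat_lit 78) (nat_lit 380) (nat_lit 0) (XT.lf (nat_lit 0) (nat_lit 6502931828) (nat_lit 380) (nat_lit 1098095122) (nat_lit 76) (nat_lit 3196147428) (nat_lit 107) (nat_lit 5) (nat_lit 112) (nat_lit 5) (nat_lit 108) (nat_lit 4) (nat_lit 471) (nat_lit 345) (nat_lit 324)) (XT.lf (nat_lit 0) (nat_lit 89465445) (nat_lit 380) (nat_lit 3465705764)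 (nat_lit 76) (nat_lit 7353656893) (nat_lit 102) (nat_lit 5) (nat_lit 107) (nat_lit 5) (nat_lit 103) (nat_lit 5) (nat_lit 472) (nat_lit 345) (nat_lit 323)))) (XT.nd (nat_lit 78) (nat_lit 608) (nat_lit 0) (XT.lf (nat_lit 0) (nat_lit 4489645581) (nat_lit 380) (nat_lit 5936682122) (nat_lit 76) (nat_lit 596099435) (nat_lit 98) (nat_lit 5) (nat_lit 103) (nat_lit 5) (nat_lit 99) (nat_lit 4) (nat_lit 473) (nat_lit 345) (nat_lit 322)) (XT.nd (nat_lit 78) (nat_lit 380) (nat_lit 0) (XT.lf (nat_lit 0) (nat_lit 2631906718) (nat_lit 228) (nat_lit 6352100144) (nat_lit 304) (nat_lit 2154173519) (nat_lit 95) (nat_lit 5) (nat_lit 98) (nat_lit 5) (nat_lit 99) (nat_lit 4) (nat_lit 474) (nat_lit 345) (nat_lit 321)) (XT.lf (nat_lit 0) (nat_lit 86323165) (nat_lit 304) (nat_lit 2178286431) (nat_lit 380) (nat_lit 8991685919) (nat_lit 90) (nat_lit 5) (nat_lit 94) (nat_lit 5) (nat_lit 95) (nat_lit 5) (nat_lit 475) (nat_lit 345) (nat_lit 320))))) (XT.nd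 (nat_lit 234) (nat_lit 532) (nat_lit 0) (XT.nd (nat_lit 78) (nat_lit 608) (nat_lit 0) (XT.lf (nat_lit 0) (nat_lit 6756431379) (nat_lit 380) (nat_lit 2534384981) (nat_lit 76) (nat_lit 2085407106) (nat_lit 90) (nat_lit 5) (nat_lit 95) (nat_lit 5) (nat_lit 91) (nat_lit 4) (nat_lit 476) (nat_lit 345) (nat_lit 319)) (XT.nd (nat_lit 78) (nat_lit 380) (nat_lit 0) (XT.lf (nat_lit 0) (nat_lit 6246621782) (nat_lit 228) (nat_lit 5090100331) (nat_lit 304) (nat_lit 161860550) (nat_lit 87) (nat_lit 5) (nat_lit 90) (nat_lit 5) (nat_lit 91) (nat_lit 4) (nat_lit 477) (nat_lit 345) (nat_lit 318)) (XT.lf (nat_lit 0) (nat_lit 3537442807) (nat_lit 304) (nat_lit 774128841) (nat_lit 380) (nat_lit 7311575990) (nat_lit 82) (nat_lit 5) (nat_lit 86) (nat_lit 5) (nat_lit 87) (nat_lit 5) (nat_lit 478) (nat_lit 345) (nat_lit 317)))) (XT.nd (nat_lit 78) (nat_lit 304) (nat_lit 0) (XT.lf (nat_lit 0) (nat_lit 713659215) (nat_lit 228) (nat_lit 8166322817) (nat_lit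 304) (nat_lit 2870051972) (nat_lit 79) (nat_lit 5) (nat_lit 82) (nat_lit 5) (nat_lit 83) (nat_lit 4) (nat_lit 479) (nat_lit 345) (nat_lit 316)) (XT.nd (nat_lit 78) (nat_lit 228) (nat_lit 0) (XT.lf (nat_lit 0) (nat_lit 1642392330) (nat_lit 304) (nat_lit 2191311708) (nat_lit 76) (nat_lit 8045466001) (nat_lit 78) (nat_lit 5) (nat_lit 82) (nat_lit 5) (nat_lit 79) (nat_lit 5) (nat_lit 480) (nat_lit 345) (nat_lit 315)) (XT.lf (nat_lit 0) (nat_lit 6200075252) (nat_lit 304) (nat_lit 5207186395) (nat_lit 76) (nat_lit 603384070) (nat_lit 75) (nat_lit 5) (nat_lit 79) (nat_lit 5) (nat_lit 76) (nat_lit 4) (nat_lit 481) (nat_lit 345) (nat_lit 314))))))))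
noncomputable def xc19 : XT := (XT.nd (nat_lit 1794) (nat_lit 456) (nat_lit 0) (XT.nd (nat_lit 858) (nat_lit 1596) (nat_lit 0) (XT.nd (nat_lit 390) (nat_lit 912) (nat_lit 0) (XT.nd (nat_lit 156) (nat_lit 532) (nat_lit 0) (XT.nd (nat_lit 78) (nat_lit 304) (nat_lit 0) (XT.lf (nat_lit 0) (nat_lit 3794000198) (nat_lit 228) (nat_lit 7065172871) (nat_lit 304) (nat_lit 1285377262) (nat_lit 72) (nat_lit 5) (nat_lit 75) (nat_lit 5) (nat_lit 76) (nat_lit 4) (nat_lit 482) (nat_lit 345) (nat_lit 313)) (XT.lf (nat_lit 0) (nat_lit 658384366) (nat_lit 228) (nat_lit 2613246898) (nat_lit 304) (nat_lit 9009374003) (nat_lit 68) (nat_lit 5) (nat_lit 71) (nat_lit 5) (nat_lit 72) (nat_lit 5) (nat_lit 483) (nat_lit 345) (nat_lit 312))) (XT.nd (nat_lit 78) (nat_lit 532) (nat_lit 0) (XT.lf (nat_lit 0) (nat_lit 7917257684) (nat_lit 304) (nat_lit 2573747537) (nat_lit 76) (nat_lit 1928724754) (nat_lit 68) (nat_lit 5) (nat_lit 72) (nat_lit 5) (nat_lit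 69) (nat_lit 4) (nat_lit 484) (nat_lit 345) (nat_lit 311)) (XT.nd (nat_lit 78) (nat_lit 228) (nat_lit 0) (XT.lf (nat_lit 0) (nat_lit 100559885) (nat_lit 304) (nat_lit 5928080764) (nat_lit 76) (nat_lit 6532435803) (nat_lit 64) (nat_lit 5) (nat_lit 68) (nat_lit 5) (nat_lit 65) (nat_lit 5) (nat_lit 485) (nat_lit 345) (nat_lit 310)) (XT.lf (nat_lit 0) (nat_lit 3274640707) (nat_lit 228) (nat_lit 1446335083) (nat_lit 304) (nat_lit 7983970744) (nat_lit 61) (nat_lit 5) (nat_lit 64) (nat_lit 5) (nat_lit 65) (nat_lit 5) (nat_lit 486) (nat_lit 345) (nat_lit 309))))) (XT.nd (nat_lit 234) (nat_lit 456) (nat_lit 0) (XT.nd (nat_lit 78) (nat_lit 456) (nat_lit 0) (XT.lf (nat_lit 0) (nat_lit 9441900991) (nat_lit 304) (nat_lit 222773359) (nat_lit 76) (nat_lit 3186861693) (nat_lit 61) (nat_lit 5) (nat_lit 65) (nat_lit 5) (nat_lit 62) (nat_lit 4) (nat_lit 487) (nat_lit 345) (nat_lit 308)) (XT.nd (nat_lit 78) (nat_lit 228) (nat_lit 0) (XT.lf (nat_lit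 0) (nat_lit 1257202778) (nat_lit 228) (nat_lit 3819751613) (nat_lit 76) (nat_lit 7923593909) (nat_lit 58) (nat_lit 5) (nat_lit 61) (nat_lit 5) (nat_lit 59) (nat_lit 5) (nat_lit 488) (nat_lit 345) (nat_lit 307)) (XT.lf (nat_lit 0) (nat_lit 5582864650) (nat_lit 228) (nat_lit 374879252) (nat_lit 304) (nat_lit 7194629527) (nat_lit 55) (nat_lit 5) (nat_lit 58) (nat_lit 5) (nat_lit 59) (nat_lit 5) (nat_lit 489) (nat_lit 345) (nat_lit 306)))) (XT.nd (nat_lit 78) (nat_lit 304) (nat_lit 0) (XT.lf (nat_lit 0) (nat_lit 1822724141) (nat_lit 152) (nat_lit 8944318674) (nat_lit 228) (nat_lit 2539901042) (nat_lit 53) (nat_lit 5) (nat_lit 55) (nat_lit 5) (nat_lit 56) (nat_lit 4) (nat_lit 490) (nat_lit 345) (nat_lit 305)) (XT.nd (nat_lit 78) (nat_lit 228) (nat_lit 0) (XT.lf (nat_lit 0) (nat_lit 2181066792) (nat_lit 228) (nat_lit 2066320313) (nat_lit 76) (nat_lit 9216893435) (nat_lit 52) (nat_lit 5) (nat_lit 55) (nat_lit 5) (nat_lit 53) (nat_lit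 5) (nat_lit 491) (nat_lit 345) (nat_lit 304)) (XT.lf (nat_lit 0) (nat_lit 6964594220) (nat_lit 304) (nat_lit 6095466863) (nat_lit 76) (nat_lit 564327630) (nat_lit 49) (nat_lit 5) (nat_lit 53) (nat_lit 5) (nat_lit 50) (nat_lit 4) (nat_lit 492) (nat_lit 345) (nat_lit 303)))))) (XT.nd (nat_lit 468) (nat_lit 760) (nat_lit 0) (XT.nd (nat_lit 234) (nat_lit 380) (nat_lit 0) (XT.nd (nat_lit 78) (nat_lit 304) (nat_lit 0) (XT.lf (nat_lit 0) (nat_lit 3484771023) (nat_lit 152) (nat_lit 8373395395) (nat_lit 228) (nat_lit 1929248599) (nat_lit 47) (nat_lit 5) (nat_lit 49) (nat_lit 5) (nat_lit 50) (nat_lit 4) (nat_lit 493) (nat_lit 345) (nat_lit 302)) (XT.nd (nat_lit 78) (nat_lit 228) (nat_lit 0) (XT.lf (nat_lit 0) (nat_lit 2848841595) (nat_lit 228) (nat_lit 722169600) (nat_lit 76) (nat_lit 10382499653) (nat_lit 46) (nat_lit 5) (nat_lit 49) (nat_lit 5) (nat_lit 47) (nat_lit 5) (nat_lit 494) (nat_lit 345) (nat_lit 301)) (XT.lf (nat_lit 0) (nat_lit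 7715131130) (nat_lit 304) (nat_lit 5062954835) (nat_lit 76) (nat_lit 1344221434) (nat_lit 43) (nat_lit 5) (nat_lit 47) (nat_lit 5) (nat_lit 44) (nat_lit 4) (nat_lit 495) (nat_lit 345) (nat_lit 300)))) (XT.nd (nat_lit 78) (nat_lit 228) (nat_lit 0) (XT.lf (nat_lit 0) (nat_lit 4702044850) (nat_lit 152) (nat_lit 7986634499) (nat_lit 228) (nat_lit 1605605063) (nat_lit 41) (nat_lit 5) (nat_lit 43) (nat_lit 5) (nat_lit 44) (nat_lit 4) (nat_lit 496) (nat_lit 345) (nat_lit 299)) (XT.nd (nat_lit 78) (nat_lit 0) (nat_lit 0) (XT.lf (nat_lit 0) (nat_lit 154449030) (nat_lit 152) (nat_lit 3080523833) (nat_lit 228) (nat_lit 11234580683) (nat_lit 38) (nat_lit 5) (nat_lit 40) (nat_lit 5) (nat_lit 41) (nat_lit 5) (nat_lit 497) (nat_lit 345) (nat_lit 298)) (XT.lf (nat_lit 0) (nat_lit 8179259644) (nat_lit 228) (nat_lit 4532570341) (nat_lit 76) (nat_lit 1935720895) (nat_lit 38) (nat_lit 5) (nat_lit 41) (nat_lit 5) (nat_lit 39) (nat_lit 4) (nat_lit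 498) (nat_lit 345) (nat_lit 297))))) (XT.nd (nat_lit 234) (nat_lit 380) (nat_lit 0) (XT.nd (nat_lit 78) (nat_lit 228) (nat_lit 0) (XT.lf (nat_lit 0) (nat_lit 5409814429) (nat_lit 152) (nat_lit 7820192650) (nat_lit 228) (nat_lit 1598952531) (nat_lit 36) (nat_lit 5) (nat_lit 38) (nat_lit 5) (nat_lit 39) (nat_lit 4) (nat_lit 499) (nat_lit 345) (nat_lit 296)) (XT.nd (nat_lit 78) (nat_lit 0) (nat_lit 0) (XT.lf (nat_lit 0) (nat_lit 497130532) (nat_lit 152) (nat_lit 2812433907) (nat_lit 228) (nat_lit 11704278382) (nat_lit 33) (nat_lit 5) (nat_lit 35) (nat_lit 5) (nat_lit 36) (nat_lit 5) (nat_lit 500) (nat_lit 345) (nat_lit 295)) (XT.lf (nat_lit 0) (nat_lit 8325639471) (nat_lit 228) (nat_lit 4574216606) (nat_lit 76) (nat_lit 2301743061) (nat_lit 33) (nat_lit 5) (nat_lit 36) (nat_lit 5) (nat_lit 34) (nat_lit 4) (nat_lit 501) (nat_lit 345) (nat_lit 294)))) (XT.nd (nat_lit 78) (nat_lit 228) (nat_lit 0) (XT.lf (nat_lit 0) (nat_lit 5536253392)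 (nat_lit 152) (nat_lit 7913537235) (nat_lit 228) (nat_lit 1943167584) (nat_lit 31) (nat_lit 5) (nat_lit 33) (nat_lit 5) (nat_lit 34) (nat_lit 4) (nat_lit 502) (nat_lit 345) (nat_lit 293)) (XT.nd (nat_lit 78) (nat_lit 0) (nat_lit 0) (XT.lf (nat_lit 0) (nat_lit 221127773) (nat_lit 152) (nat_lit 2812228210) (nat_lit 228) (nat_lit 12554678495) (nat_lit 28) (nat_lit 5) (nat_lit 30) (nat_lit 5) (nat_lit 31) (nat_lit 5) (nat_lit 503) (nat_lit 345) (nat_lit 292)) (XT.lf (nat_lit 0) (nat_lit 8118888727) (nat_lit 228) (nat_lit 5265443342) (nat_lit 76) (nat_lit 2401715926) (nat_lit 28) (nat_lit 5) (nat_lit 31) (nat_lit 5) (nat_lit 29) (nat_lit 4) (nat_lit 504) (nat_lit 345) (nat_lit 291))))))) (XT.nd (nat_lit 55536) (nat_lit 0) (nat_lit 7524) (XT.nd (nat_lit 55068) (nat_lit 0) (nat_lit 11628) (XT.nd (nat_lit 234) (nat_lit 76) (nat_lit 0) (XT.nd (nat_lit 78) (nat_lit 228) (nat_lit 0) (XT.lf (nat_lit 0) (nat_lit 5001640477) (nat_lit 152)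 (nat_lit 8309871044) (nat_lit 228) (nat_lit 2676405189) (nat_lit 26) (nat_lit 5) (nat_lit 28) (nat_lit 5) (nat_lit 29) (nat_lit 4) (nat_lit 505) (nat_lit 345) (nat_lit 290)) (XT.nd (nat_lit 78) (nat_lit 152) (nat_lit 0) (XT.lf (nat_lit 0) (nat_lit 2372406873) (nat_lit 228) (nat_lit 747026914) (nat_lit 76) (nat_lit 13074279841) (nat_lit 25) (nat_lit 5) (nat_lit 28) (nat_lit 5) (nat_lit 26) (nat_lit 5) (nat_lit 506) (nat_lit 345) (nat_lit 289)) (XT.lf (nat_lit 0) (nat_lit 7519180829) (nat_lit 228) (nat_lit 6692300747) (nat_lit 76) (nat_lit 2191137002) (nat_lit 23) (nat_lit 5) (nat_lit 26) (nat_lit 5) (nat_lit 24) (nat_lit 4) (nat_lit 507) (nat_lit 345) (nat_lit 288)))) (XT.nd (nat_lit 54678) (nat_lit 0) (nat_lit 13528) (XT.lf (nat_lit 0) (nat_lit 3717477989) (nat_lit 76) (nat_lit 9056596682) (nat_lit 152) (nat_lit 3841525592) (nat_lit 22) (nat_lit 5) (nat_lit 23) (nat_lit 5) (nat_lit 24) (nat_lit 4) (nat_lit 508) (nat_lit 345)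 (nat_lit 287)) (XT.nd (nat_lit 78) (nat_lit 532) (nat_lit 0) (XT.lf (nat_lit 0) (nat_lit 747218732) (nat_lit 532) (nat_lit 1812559277) (nat_lit 532) (nat_lit 1812559277) (nat_lit 207) (nat_lit 4) (nat_lit 214) (nat_lit 5) (nat_lit 214) (nat_lit 4) (nat_lit 448) (nat_lit 346) (nat_lit 346)) (XT.lf (nat_lit 0) (nat_lit 14228572) (nat_lit 456) (nat_lit 487857774) (nat_lit 532) (nat_lit 8314085505) (nat_lit 200) (nat_lit 5) (nat_lit 206) (nat_lit 5) (nat_lit 207) (nat_lit 4) (nat_lit 449) (nat_lit 346) (nat_lit 345))))) (XT.nd (nat_lit 234) (nat_lit 912) (nat_lit 0) (XT.nd (nat_lit 78) (nat_lit 988) (nat_lit 0) (XT.lf (nat_lit 0) (nat_lit 4661900523) (nat_lit 532) (nat_lit 1506391246) (nat_lit 0) (nat_lit 2720367060) (nat_lit 200) (nat_lit 5) (nat_lit 207) (nat_lit 4) (nat_lit 200) (nat_lit 4) (nat_lit 450) (nat_lit 346) (nat_lit 344)) (XT.nd (nat_lit 78) (nat_lit 532) (nat_lit 0) (XT.lf (nat_lit 0) (nat_lit 5912731647) (nat_lit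 456) (nat_lit 2967109326) (nat_lit 456) (nat_lit 83266863) (nat_lit 194) (nat_lit 4) (nat_lit 200) (nat_lit 5) (nat_lit 200) (nat_lit 4) (nat_lit 451) (nat_lit 346) (nat_lit 343)) (XT.lf (nat_lit 0) (nat_lit 4063190176) (nat_lit 532) (nat_lit 4645663803) (nat_lit 0) (nat_lit 330175651) (nat_lit 187) (nat_lit 5) (nat_lit 194) (nat_lit 4) (nat_lit 187) (nat_lit 4) (nat_lit 452) (nat_lit 346) (nat_lit 342)))) (XT.nd (nat_lit 78) (nat_lit 456) (nat_lit 0) (XT.lf (nat_lit 0) (nat_lit 2830654955) (nat_lit 456) (nat_lit 5453467142) (nat_lit 456) (nat_lit 832493801) (nat_lit 181) (nat_lit 4) (nat_lit 187) (nat_lit 5) (nat_lit 187) (nat_lit 4) (nat_lit 453) (nat_lit 346) (nat_lit 341)) (XT.nd (nat_lit 78) (nat_lit 0) (nat_lit 0) (XT.lf (nat_lit 0) (nat_lit 1220462162) (nat_lit 380) (nat_lit 2102301878) (nat_lit 456) (nat_lit 5873087936) (nat_lit 175) (nat_lit 5) (nat_lit 180) (nat_lit 5) (nat_lit 181) (nat_lit 4) (nat_lit 454) (nat_lit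 346) (nat_lit 340)) (XT.lf (nat_lit 0) (nat_lit 7535696806) (nat_lit 456) (nat_lit 426052179) (nat_lit 0) (nat_lit 1315109067) (nat_lit 175) (nat_lit 5) (nat_lit 181) (nat_lit 4) (nat_lit 175) (nat_lit 4) (nat_lit 455) (nat_lit 346) (nat_lit 339)))))) (XT.nd (nat_lit 468) (nat_lit 1900) (nat_lit 0) (XT.nd (nat_lit 234) (nat_lit 836) (nat_lit 0) (XT.nd (nat_lit 78) (nat_lit 836) (nat_lit 0) (XT.lf (nat_lit 0) (nat_lit 2437972789) (nat_lit 532) (nat_lit 2116219395) (nat_lit 76) (nat_lit 4805040021) (nat_lit 168) (nat_lit 5) (nat_lit 175) (nat_lit 5) (nat_lit 169) (nat_lit 4) (nat_lit 456) (nat_lit 346) (nat_lit 338)) (XT.nd (nat_lit 78) (nat_lit 456) (nat_lit 0) (XT.lf (nat_lit 0) (nat_lit 5593437710) (nat_lit 380) (nat_lit 1059341397) (nat_lit 456) (nat_lit 2790745586) (nat_lit 163) (nat_lit 5) (nat_lit 168) (nat_lit 5) (nat_lit 169) (nat_lit 4) (nat_lit 457) (nat_lit 346) (nat_lit 337)) (XT.lf (nat_lit 0) (nat_lit 1396118759)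 (nat_lit 456) (nat_lit 5644210797) (nat_lit 76) (nat_lit 2489149633) (nat_lit 157) (nat_lit 5) (nat_lit 163) (nat_lit 5) (nat_lit 158) (nat_lit 4) (nat_lit 458) (nat_lit 346) (nat_lit 336)))) (XT.nd (nat_lit 78) (nat_lit 456) (nat_lit 0) (XT.lf (nat_lit 0) (nat_lit 2115918821) (nat_lit 380) (nat_lit 3497028611) (nat_lit 456) (nat_lit 4004173090) (nat_lit 152) (nat_lit 5) (nat_lit 157) (nat_lit 5) (nat_lit 158) (nat_lit 4) (nat_lit 459) (nat_lit 346) (nat_lit 335)) (XT.nd (nat_lit 78) (nat_lit 0) (nat_lit 0) (XT.lf (nat_lit 0) (nat_lit 182799015) (nat_lit 456) (nat_lit 9400588348) (nat_lit 76) (nat_lit 123550136) (nat_lit 146) (nat_lit 5) (nat_lit 152) (nat_lit 5) (nat_lit 147) (nat_lit 4) (nat_lit 460) (nat_lit 346) (nat_lit 334)) (XT.lf (nat_lit 0) (nat_lit 4411150386) (nat_lit 456) (nat_lit 1573471035) (nat_lit 76) (nat_lit 3813183020) (nat_lit 146) (nat_lit 5) (nat_lit 152) (nat_lit 5) (nat_lit 147) (nat_lit 4) (nat_lit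 461) (nat_lit 346) (nat_lit 333))))) (XT.nd (nat_lit 234) (nat_lit 760) (nat_lit 0) (XT.nd (nat_lit 78) (nat_lit 760) (nat_lit 0) (XT.lf (nat_lit 0) (nat_lit 6398370528) (nat_lit 380) (nat_lit 2305844724) (nat_lit 456) (nat_lit 1186678472) (nat_lit 141) (nat_lit 5) (nat_lit 146) (nat_lit 5) (nat_lit 147) (nat_lit 4) (nat_lit 462) (nat_lit 346) (nat_lit 332)) (XT.nd (nat_lit 78) (nat_lit 304) (nat_lit 0) (XT.lf (nat_lit 0) (nat_lit 3044918829) (nat_lit 456) (nat_lit 5487073111) (nat_lit 76) (nat_lit 1453693407) (nat_lit 135) (nat_lit 5) (nat_lit 141) (nat_lit 5) (nat_lit 136) (nat_lit 4) (nat_lit 463) (nat_lit 346) (nat_lit 331)) (XT.lf (nat_lit 0) (nat_lit 2528597494) (nat_lit 304) (nat_lit 4811092169) (nat_lit 380) (nat_lit 2742645109) (nat_lit 131) (nat_lit 5) (nat_lit 135) (nat_lit 5) (nat_lit 136) (nat_lit 4) (nat_lit 464) (nat_lit 346) (nat_lit 330)))) (XT.nd (nat_lit 78) (nat_lit 304) (nat_lit 0) (XT.lf (nat_lit 0) (nat_lit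 498610188) (nat_lit 380) (nat_lit 1000243309) (nat_lit 456) (nat_lit 8682278876) (nat_lit 125) (nat_lit 5) (nat_lit 130) (nat_lit 5) (nat_lit 131) (nat_lit 5) (nat_lit 465) (nat_lit 346) (nat_lit 329)) (XT.nd (nat_lit 78) (nat_lit 304) (nat_lit 0) (XT.lf (nat_lit 0) (nat_lit 5797899378) (nat_lit 456) (nat_lit 1600549583) (nat_lit 76) (nat_lit 2882912604) (nat_lit 125) (nat_lit 5) (nat_lit 131) (nat_lit 5) (nat_lit 126) (nat_lit 4) (nat_lit 466) (nat_lit 346) (nat_lit 328)) (XT.lf (nat_lit 0) (nat_lit 6628457166) (nat_lit 304) (nat_lit 3544951615) (nat_lit 380) (nat_lit 210383812) (nat_lit 121) (nat_lit 5) (nat_lit 125) (nat_lit 5) (nat_lit 126) (nat_lit 4) (nat_lit 467) (nat_lit 346) (nat_lit 327))))))))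
noncomputable def xc20 : XT := (XT.nd (nat_lit 1794) (nat_lit 2432) (nat_lit 0) (XT.nd (nat_lit 858) (nat_lit 2052) (nat_lit 0) (XT.nd (nat_lit 390) (nat_lit 1520) (nat_lit 0) (XT.nd (nat_lit 156) (nat_lit 760) (nat_lit 0) (XT.nd (nat_lit 78) (nat_lit 304) (nat_lit 0) (XT.lf (nat_lit 0) (nat_lit 4077420417) (nat_lit 380) (nat_lit 5998316051) (nat_lit 76) (nat_lit 412330395) (nat_lit 116) (nat_lit 5) (nat_lit 121) (nat_lit 5) (nat_lit 117) (nat_lit 4) (nat_lit 468) (nat_lit 346) (nat_lit 326)) (XT.lf (nat_lit 0) (nat_lit 2266004922) (nat_lit 304) (nat_lit 6187003315) (nat_lit 380) (nat_lit 2141300185) (nat_lit 112) (nat_lit 5) (nat_lit 116) (nat_lit 5) (nat_lit 117) (nat_lit 4) (nat_lit 469) (nat_lit 346) (nat_lit 325))) (XT.nd (nat_lit 78) (nat_lit 684) (nat_lit 0) (XT.lf (nat_lit 0) (nat_lit 2166352058) (nat_lit 380) (nat_lit 35141549) (nat_lit 76) (nat_lit 8501261067) (nat_lit 111) (nat_lit 5) (nat_lit 116) (nat_lit 5) (nat_lit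 112) (nat_lit 5) (nat_lit 470) (nat_lit 346) (nat_lit 324)) (XT.nd (nat_lit 78) (nat_lit 380) (nat_lit 0) (XT.lf (nat_lit 0) (nat_lit 6541122792) (nat_lit 380) (nat_lit 2398931109) (nat_lit 76) (nat_lit 1872846249) (nat_lit 107) (nat_lit 5) (nat_lit 112) (nat_lit 5) (nat_lit 108) (nat_lit 4) (nat_lit 471) (nat_lit 346) (nat_lit 323)) (XT.lf (nat_lit 0) (nat_lit 74238437) (nat_lit 380) (nat_lit 4847340971) (nat_lit 76) (nat_lit 6003722419) (nat_lit 102) (nat_lit 5) (nat_lit 107) (nat_lit 5) (nat_lit 103) (nat_lit 5) (nat_lit 472) (nat_lit 346) (nat_lit 322))))) (XT.nd (nat_lit 234) (nat_lit 912) (nat_lit 0) (XT.nd (nat_lit 78) (nat_lit 304) (nat_lit 0) (XT.lf (nat_lit 0) (nat_lit 3642535740) (nat_lit 304) (nat_lit 790346494) (nat_lit 380) (nat_lit 6606852216) (nat_lit 98) (nat_lit 5) (nat_lit 102) (nat_lit 5) (nat_lit 103) (nat_lit 5) (nat_lit 473) (nat_lit 346) (nat_lit 321)) (XT.nd (nat_lit 78) (nat_lit 76) (nat_lit 0) (XT.lf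 (nat_lit 0) (nat_lit 1109828837) (nat_lit 228) (nat_lit 7774316316) (nat_lit 304) (nat_lit 2272207312) (nat_lit 95) (nat_lit 5) (nat_lit 98) (nat_lit 5) (nat_lit 99) (nat_lit 4) (nat_lit 474) (nat_lit 346) (nat_lit 320)) (XT.lf (nat_lit 0) (nat_lit 2119541017) (nat_lit 304) (nat_lit 1501090670) (nat_lit 76) (nat_lit 7654425590) (nat_lit 94) (nat_lit 5) (nat_lit 98) (nat_lit 5) (nat_lit 95) (nat_lit 5) (nat_lit 475) (nat_lit 346) (nat_lit 319)))) (XT.nd (nat_lit 78) (nat_lit 608) (nat_lit 0) (XT.lf (nat_lit 0) (nat_lit 6564160886) (nat_lit 380) (nat_lit 4198203556) (nat_lit 76) (nat_lit 633567468) (nat_lit 90) (nat_lit 5) (nat_lit 95) (nat_lit 5) (nat_lit 91) (nat_lit 4) (nat_lit 476) (nat_lit 346) (nat_lit 318)) (XT.nd (nat_lit 78) (nat_lit 380) (nat_lit 0) (XT.lf (nat_lit 0) (nat_lit 4514073840) (nat_lit 228) (nat_lit 6591779661) (nat_lit 304) (nat_lit 413212159) (nat_lit 87) (nat_lit 5) (nat_lit 90) (nat_lit 5) (nat_lit 91)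 (nat_lit 4) (nat_lit 477) (nat_lit 346) (nat_lit 317)) (XT.lf (nat_lit 0) (nat_lit 1716087206) (nat_lit 304) (nat_lit 2308312114) (nat_lit 380) (nat_lit 7620048786) (nat_lit 82) (nat_lit 5) (nat_lit 86) (nat_lit 5) (nat_lit 87) (nat_lit 5) (nat_lit 478) (nat_lit 346) (nat_lit 316)))))) (XT.nd (nat_lit 468) (nat_lit 988) (nat_lit 0) (XT.nd (nat_lit 234) (nat_lit 532) (nat_lit 0) (XT.nd (nat_lit 78) (nat_lit 532) (nat_lit 0) (XT.lf (nat_lit 0) (nat_lit 8551039928) (nat_lit 380) (nat_lit 1174583822) (nat_lit 76) (nat_lit 2046548561) (nat_lit 82) (nat_lit 5) (nat_lit 87) (nat_lit 5) (nat_lit 83) (nat_lit 4) (nat_lit 479) (nat_lit 346) (nat_lit 315)) (XT.nd (nat_lit 78) (nat_lit 228) (nat_lit 0) (XT.lf (nat_lit 0) (nat_lit 1261016569) (nat_lit 304) (nat_lit 4161373619) (nat_lit 76) (nat_lit 6479664088) (nat_lit 78) (nat_lit 5) (nat_lit 82) (nat_lit 5) (nat_lit 79) (nat_lit 5) (nat_lit 480) (nat_lit 346) (nat_lit 314)) (XT.lf (nat_lit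 0) (nat_lit 4765322570) (nat_lit 228) (nat_lit 1009558720) (nat_lit 304) (nat_lit 6259527330) (nat_lit 75) (nat_lit 5) (nat_lit 78) (nat_lit 5) (nat_lit 79) (nat_lit 5) (nat_lit 481) (nat_lit 346) (nat_lit 313)))) (XT.nd (nat_lit 78) (nat_lit 304) (nat_lit 0) (XT.lf (nat_lit 0) (nat_lit 1665286695) (nat_lit 228) (nat_lit 8721834949) (nat_lit 304) (nat_lit 1782130995) (nat_lit 72) (nat_lit 5) (nat_lit 75) (nat_lit 5) (nat_lit 76) (nat_lit 4) (nat_lit 482) (nat_lit 346) (nat_lit 312)) (XT.nd (nat_lit 78) (nat_lit 228) (nat_lit 0) (XT.lf (nat_lit 0) (nat_lit 2750686197) (nat_lit 304) (nat_lit 1545945547) (nat_lit 76) (nat_lit 8009756630) (nat_lit 71) (nat_lit 5) (nat_lit 75) (nat_lit 5) (nat_lit 72) (nat_lit 5) (nat_lit 483) (nat_lit 346) (nat_lit 311)) (XT.lf (nat_lit 0) (nat_lit 7348814652) (nat_lit 304) (nat_lit 4858819840) (nat_lit 76) (nat_lit 238430675) (nat_lit 68) (nat_lit 5) (nat_lit 72) (nat_lit 5) (nat_lit 69) (nat_lit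 4) (nat_lit 484) (nat_lit 346) (nat_lit 310))))) (XT.nd (nat_lit 234) (nat_lit 456) (nat_lit 0) (XT.nd (nat_lit 78) (nat_lit 304) (nat_lit 0) (XT.lf (nat_lit 0) (nat_lit 4272922768) (nat_lit 228) (nat_lit 7780478633) (nat_lit 304) (nat_lit 534848388) (nat_lit 65) (nat_lit 5) (nat_lit 68) (nat_lit 5) (nat_lit 69) (nat_lit 4) (nat_lit 485) (nat_lit 346) (nat_lit 309)) (XT.nd (nat_lit 78) (nat_lit 0) (nat_lit 0) (XT.lf (nat_lit 0) (nat_lit 813828983) (nat_lit 228) (nat_lit 3237008186) (nat_lit 304) (nat_lit 8682189055) (nat_lit 61) (nat_lit 5) (nat_lit 64) (nat_lit 5) (nat_lit 65) (nat_lit 5) (nat_lit 486) (nat_lit 346) (nat_lit 308)) (XT.lf (nat_lit 0) (nat_lit 8734462070) (nat_lit 304) (nat_lit 2744898262) (nat_lit 76) (nat_lit 1401003371) (nat_lit 61) (nat_lit 5) (nat_lit 65) (nat_lit 5) (nat_lit 62) (nat_lit 4) (nat_lit 487) (nat_lit 346) (nat_lit 307)))) (XT.nd (nat_lit 78) (nat_lit 228) (nat_lit 0) (XT.lf (nat_lit 0) (nat_lit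 488259149) (nat_lit 228) (nat_lit 6444570629) (nat_lit 76) (nat_lit 6097490341) (nat_lit 58) (nat_lit 5) (nat_lit 61) (nat_lit 5) (nat_lit 59) (nat_lit 5) (nat_lit 488) (nat_lit 346) (nat_lit 306)) (XT.nd (nat_lit 78) (nat_lit 0) (nat_lit 0) (XT.lf (nat_lit 0) (nat_lit 2878551513) (nat_lit 228) (nat_lit 2267562623) (nat_lit 304) (nat_lit 8036886686) (nat_lit 55) (nat_lit 5) (nat_lit 58) (nat_lit 5) (nat_lit 59) (nat_lit 5) (nat_lit 489) (nat_lit 346) (nat_lit 305)) (XT.lf (nat_lit 0) (nat_lit 9906248776) (nat_lit 304) (nat_lit 967948127) (nat_lit 76) (nat_lit 2464359447) (nat_lit 55) (nat_lit 5) (nat_lit 59) (nat_lit 5) (nat_lit 56) (nat_lit 4) (nat_lit 490) (nat_lit 346) (nat_lit 304))))))) (XT.nd (nat_lit 858) (nat_lit 760) (nat_lit 0) (XT.nd (nat_lit 390) (nat_lit 760) (nat_lit 0) (XT.nd (nat_lit 156) (nat_lit 456) (nat_lit 0) (XT.nd (nat_lit 78) (nat_lit 228) (nat_lit 0) (XT.lf (nat_lit 0) (nat_lit 1268952939) (nat_lit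 228) (nat_lit 4939918395) (nat_lit 76) (nat_lit 7287767551) (nat_lit 52) (nat_lit 5) (nat_lit 55) (nat_lit 5) (nat_lit 53) (nat_lit 5) (nat_lit 491) (nat_lit 346) (nat_lit 303)) (XT.lf (nat_lit 0) (nat_lit 4577053910) (nat_lit 228) (nat_lit 1428012781) (nat_lit 304) (nat_lit 7652630350) (nat_lit 49) (nat_lit 5) (nat_lit 52) (nat_lit 5) (nat_lit 53) (nat_lit 5) (nat_lit 492) (nat_lit 346) (nat_lit 302))) (XT.nd (nat_lit 78) (nat_lit 304) (nat_lit 0) (XT.lf (nat_lit 0) (nat_lit 425367238) (nat_lit 152) (nat_lit 10419705411) (nat_lit 228) (nat_lit 2976723696) (nat_lit 47) (nat_lit 5) (nat_lit 49) (nat_lit 5) (nat_lit 50) (nat_lit 4) (nat_lit 493) (nat_lit 346) (nat_lit 301)) (XT.nd (nat_lit 78) (nat_lit 228) (nat_lit 0) (XT.lf (nat_lit 0) (nat_lit 1790710546) (nat_lit 228) (nat_lit 3852568734) (nat_lit 76) (nat_lit 8345238400) (nat_lit 46) (nat_lit 5) (nat_lit 49) (nat_lit 5) (nat_lit 47) (nat_lit 5) (nat_lit 494) (nat_lit 346)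 (nat_lit 300)) (XT.lf (nat_lit 0) (nat_lit 5853243207) (nat_lit 228) (nat_lit 750123089) (nat_lit 304) (nat_lit 7555022189) (nat_lit 43) (nat_lit 5) (nat_lit 46) (nat_lit 5) (nat_lit 47) (nat_lit 5) (nat_lit 495) (nat_lit 346) (nat_lit 299))))) (XT.nd (nat_lit 234) (nat_lit 380) (nat_lit 0) (XT.nd (nat_lit 78) (nat_lit 228) (nat_lit 0) (XT.lf (nat_lit 0) (nat_lit 1378496695) (nat_lit 152) (nat_lit 10148127255) (nat_lit 228) (nat_lit 2804748908) (nat_lit 41) (nat_lit 5) (nat_lit 43) (nat_lit 5) (nat_lit 44) (nat_lit 4) (nat_lit 496) (nat_lit 346) (nat_lit 298)) (XT.nd (nat_lit 78) (nat_lit 152) (nat_lit 0) (XT.lf (nat_lit 0) (nat_lit 2026745977) (nat_lit 228) (nat_lit 3243103990) (nat_lit 76) (nat_lit 9237445426) (nat_lit 40) (nat_lit 5) (nat_lit 43) (nat_lit 5) (nat_lit 41) (nat_lit 5) (nat_lit 497) (nat_lit 346) (nat_lit 297)) (XT.lf (nat_lit 0) (nat_lit 6644922417) (nat_lit 152) (nat_lit 268423430) (nat_lit 228) (nat_lit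 7773102078) (nat_lit 38) (nat_lit 5) (nat_lit 40) (nat_lit 5) (nat_lit 41) (nat_lit 5) (nat_lit 498) (nat_lit 346) (nat_lit 296)))) (XT.nd (nat_lit 78) (nat_lit 228) (nat_lit 0) (XT.lf (nat_lit 0) (nat_lit 1813526767) (nat_lit 152) (nat_lit 10102202065) (nat_lit 228) (nat_lit 2953096542) (nat_lit 36) (nat_lit 5) (nat_lit 38) (nat_lit 5) (nat_lit 39) (nat_lit 4) (nat_lit 499) (nat_lit 346) (nat_lit 295)) (XT.nd (nat_lit 78) (nat_lit 152) (nat_lit 0) (XT.lf (nat_lit 0) (nat_lit 1946712119) (nat_lit 228) (nat_lit 3178694674) (nat_lit 76) (nat_lit 9929008369) (nat_lit 35) (nat_lit 5) (nat_lit 38) (nat_lit 5) (nat_lit 36) (nat_lit 5) (nat_lit 500) (nat_lit 346) (nat_lit 294)) (XT.lf (nat_lit 0) (nat_lit 6883092172) (nat_lit 152) (nat_lit 20584175) (nat_lit 228) (nat_lit 8339678695) (nat_lit 33) (nat_lit 5) (nat_lit 35) (nat_lit 5) (nat_lit 36) (nat_lit 5) (nat_lit 501) (nat_lit 346) (nat_lit 293)))))) (XT.nd (nat_lit 468) (nat_lit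 0) (nat_lit 0) (XT.nd (nat_lit 234) (nat_lit 380) (nat_lit 0) (XT.nd (nat_lit 78) (nat_lit 228) (nat_lit 0) (XT.lf (nat_lit 0) (nat_lit 1658294877) (nat_lit 152) (nat_lit 10321499000) (nat_lit 228) (nat_lit 3455882233) (nat_lit 31) (nat_lit 5) (nat_lit 33) (nat_lit 5) (nat_lit 34) (nat_lit 4) (nat_lit 502) (nat_lit 346) (nat_lit 292)) (XT.nd (nat_lit 78) (nat_lit 152) (nat_lit 0) (XT.lf (nat_lit 0) (nat_lit 1516352765) (nat_lit 228) (nat_lit 3733844877) (nat_lit 76) (nat_lit 10381234998) (nat_lit 30) (nat_lit 5) (nat_lit 33) (nat_lit 5) (nat_lit 31) (nat_lit 5) (nat_lit 503) (nat_lit 346) (nat_lit 291)) (XT.lf (nat_lit 0) (nat_lit 6491181462) (nat_lit 152) (nat_lit 47825225) (nat_lit 228) (nat_lit 9291698292) (nat_lit 28) (nat_lit 5) (nat_lit 30) (nat_lit 5) (nat_lit 31) (nat_lit 5) (nat_lit 504) (nat_lit 346) (nat_lit 290)))) (XT.nd (nat_lit 78) (nat_lit 228) (nat_lit 0) (XT.lf (nat_lit 0) (nat_lit 832725812) (nat_lit 152)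 (nat_lit 10849336610) (nat_lit 228) (nat_lit 4351503833) (nat_lit 26) (nat_lit 5) (nat_lit 28) (nat_lit 5) (nat_lit 29) (nat_lit 4) (nat_lit 505) (nat_lit 346) (nat_lit 289)) (XT.nd (nat_lit 78) (nat_lit 152) (nat_lit 0) (XT.lf (nat_lit 0) (nat_lit 697115346) (nat_lit 228) (nat_lit 4991213661) (nat_lit 76) (nat_lit 10551696098) (nat_lit 25) (nat_lit 5) (nat_lit 28) (nat_lit 5) (nat_lit 26) (nat_lit 5) (nat_lit 506) (nat_lit 346) (nat_lit 288)) (XT.lf (nat_lit 0) (nat_lit 5384199806) (nat_lit 152) (nat_lit 395363074) (nat_lit 228) (nat_lit 10670654855) (nat_lit 23) (nat_lit 5) (nat_lit 25) (nat_lit 5) (nat_lit 26) (nat_lit 5) (nat_lit 507) (nat_lit 346) (nat_lit 287))))) (XT.nd (nat_lit 54678) (nat_lit 0) (nat_lit 13452) (XT.nd (nat_lit 54522) (nat_lit 0) (nat_lit 14516) (XT.lf (nat_lit 0) (nat_lit 10986079694) (nat_lit 228) (nat_lit 742186871) (nat_lit 76) (nat_lit 4935901523) (nat_lit 23) (nat_lit 5) (nat_lit 26) (nat_lit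 5) (nat_lit 24) (nat_lit 4) (nat_lit 508) (nat_lit 346) (nat_lit 286)) (XT.nd (nat_lit 78) (nat_lit 532) (nat_lit 0) (XT.lf (nat_lit 0) (nat_lit 2210068398) (nat_lit 532) (nat_lit 1046537618) (nat_lit 532) (nat_lit 1046537618) (nat_lit 221) (nat_lit 4) (nat_lit 228) (nat_lit 5) (nat_lit 228) (nat_lit 4) (nat_lit 446) (nat_lit 347) (nat_lit 347)) (XT.lf (nat_lit 0) (nat_lit 1987535890) (nat_lit 532) (nat_lit 5720020040) (nat_lit 0) (nat_lit 967550324) (nat_lit 214) (nat_lit 5) (nat_lit 221) (nat_lit 4) (nat_lit 214) (nat_lit 4) (nat_lit 447) (nat_lit 347) (nat_lit 346)))) (XT.nd (nat_lit 78) (nat_lit 532) (nat_lit 0) (XT.lf (nat_lit 0) (nat_lit 1446350241) (nat_lit 532) (nat_lit 4659487769) (nat_lit 532) (nat_lit 2639516354) (nat_lit 207) (nat_lit 4) (nat_lit 214) (nat_lit 5) (nat_lit 214) (nat_lit 4) (nat_lit 448) (nat_lit 347) (nat_lit 345)) (XT.nd (nat_lit 78) (nat_lit 456) (nat_lit 0) (XT.lf (nat_lit 0) (nat_lit 1441402734)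 (nat_lit 608) (nat_lit 88716173) (nat_lit 76) (nat_lit 7287277438) (nat_lit 206) (nat_lit 5) (nat_lit 214) (nat_lit 5) (nat_lit 207) (nat_lit 4) (nat_lit 449) (nat_lit 347) (nat_lit 344)) (XT.lf (nat_lit 0) (nat_lit 5560847370) (nat_lit 532) (nat_lit 1652829678) (nat_lit 0) (nat_lit 1677019058) (nat_lit 200) (nat_lit 5) (nat_lit 207) (nat_lit 4) (nat_lit 200) (nat_lit 4) (nat_lit 450) (nat_lit 347) (nat_lit 343))))))))
noncomputable def xc21 : XT := (XT.nd (nat_lit 1794) (nat_lit 4408) (nat_lit 0) (XT.nd (nat_lit 858) (nat_lit 3648) (nat_lit 0) (XT.nd (nat_lit 390) (nat_lit 2204) (nat_lit 0) (XT.nd (nat_lit 156) (nat_lit 912) (nat_lit 0) (XT.nd (nat_lit 78) (nat_lit 456) (nat_lit 0) (XT.lf (nat_lit 0) (nat_lit 769103990) (nat_lit 532) (nat_lit 3254070603) (nat_lit 76) (nat_lit 4942547399) (nat_lit 193) (nat_lit 5) (nat_lit 200) (nat_lit 5) (nat_lit 194) (nat_lit 4) (nat_lit 451) (nat_lit 347) (nat_lit 342)) (XT.lf (nat_lit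 0) (nat_lit 4140970886) (nat_lit 456) (nat_lit 737419976) (nat_lit 532) (nat_lit 4163968752) (nat_lit 187) (nat_lit 5) (nat_lit 193) (nat_lit 5) (nat_lit 194) (nat_lit 4) (nat_lit 452) (nat_lit 347) (nat_lit 341))) (XT.nd (nat_lit 78) (nat_lit 456) (nat_lit 0) (XT.lf (nat_lit 0) (nat_lit 2528480590) (nat_lit 456) (nat_lit 6532072574) (nat_lit 456) (nat_lit 60173090) (nat_lit 181) (nat_lit 4) (nat_lit 187) (nat_lit 5) (nat_lit 187) (nat_lit 4) (nat_lit 453) (nat_lit 347) (nat_lit 340)) (XT.nd (nat_lit 78) (nat_lit 0) (nat_lit 0) (XT.lf (nat_lit 0) (nat_lit 857004156) (nat_lit 380) (nat_lit 3193679969) (nat_lit 456) (nat_lit 5149868136) (nat_lit 175) (nat_lit 5) (nat_lit 180) (nat_lit 5) (nat_lit 181) (nat_lit 4) (nat_lit 454) (nat_lit 347) (nat_lit 339)) (XT.lf (nat_lit 0) (nat_lit 8224838731) (nat_lit 456) (nat_lit 834740742) (nat_lit 0) (nat_lit 222759120) (nat_lit 175) (nat_lit 5) (nat_lit 181) (nat_lit 4) (nat_lit 175) (nat_lit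 4) (nat_lit 455) (nat_lit 347) (nat_lit 338))))) (XT.nd (nat_lit 234) (nat_lit 836) (nat_lit 0) (XT.nd (nat_lit 78) (nat_lit 836) (nat_lit 0) (XT.lf (nat_lit 0) (nat_lit 3078371028) (nat_lit 532) (nat_lit 2588021791) (nat_lit 76) (nat_lit 3698921597) (nat_lit 168) (nat_lit 5) (nat_lit 175) (nat_lit 5) (nat_lit 169) (nat_lit 4) (nat_lit 456) (nat_lit 347) (nat_lit 337)) (XT.nd (nat_lit 78) (nat_lit 456) (nat_lit 0) (XT.lf (nat_lit 0) (nat_lit 5067952018) (nat_lit 380) (nat_lit 2190842686) (nat_lit 456) (nat_lit 2191504275) (nat_lit 163) (nat_lit 5) (nat_lit 168) (nat_lit 5) (nat_lit 169) (nat_lit 4) (nat_lit 457) (nat_lit 347) (nat_lit 336)) (XT.lf (nat_lit 0) (nat_lit 1945342193) (nat_lit 456) (nat_lit 6234952760) (nat_lit 76) (nat_lit 1356728132) (nat_lit 157) (nat_lit 5) (nat_lit 163) (nat_lit 5) (nat_lit 158) (nat_lit 4) (nat_lit 458) (nat_lit 347) (nat_lit 335)))) (XT.nd (nat_lit 78) (nat_lit 456) (nat_lit 0) (XT.lf (nat_lit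 0) (nat_lit 1469599094) (nat_lit 380) (nat_lit 4657701550) (nat_lit 456) (nat_lit 3498065345) (nat_lit 152) (nat_lit 5) (nat_lit 157) (nat_lit 5) (nat_lit 158) (nat_lit 4) (nat_lit 459) (nat_lit 347) (nat_lit 334)) (XT.nd (nat_lit 78) (nat_lit 380) (nat_lit 0) (XT.lf (nat_lit 0) (nat_lit 648880396) (nat_lit 456) (nat_lit 401903344) (nat_lit 76) (nat_lit 8665005286) (nat_lit 151) (nat_lit 5) (nat_lit 157) (nat_lit 5) (nat_lit 152) (nat_lit 5) (nat_lit 460) (nat_lit 347) (nat_lit 333)) (XT.lf (nat_lit 0) (nat_lit 4837353713) (nat_lit 456) (nat_lit 2336522136) (nat_lit 76) (nat_lit 2633581607) (nat_lit 146) (nat_lit 5) (nat_lit 152) (nat_lit 5) (nat_lit 147) (nat_lit 4) (nat_lit 461) (nat_lit 347) (nat_lit 332)))))) (XT.nd (nat_lit 468) (nat_lit 1748) (nat_lit 0) (XT.nd (nat_lit 234) (nat_lit 760) (nat_lit 0) (XT.nd (nat_lit 78) (nat_lit 760) (nat_lit 0) (XT.lf (nat_lit 0) (nat_lit 5578097669) (nat_lit 380) (nat_lit 3517197059)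 (nat_lit 456) (nat_lit 805958337) (nat_lit 141) (nat_lit 5) (nat_lit 146) (nat_lit 5) (nat_lit 147) (nat_lit 4) (nat_lit 462) (nat_lit 347) (nat_lit 331)) (XT.nd (nat_lit 78) (nat_lit 304) (nat_lit 0) (XT.lf (nat_lit 0) (nat_lit 3377149603) (nat_lit 456) (nat_lit 6381451421) (nat_lit 76) (nat_lit 238267849) (nat_lit 135) (nat_lit 5) (nat_lit 141) (nat_lit 5) (nat_lit 136) (nat_lit 4) (nat_lit 463) (nat_lit 347) (nat_lit 330)) (XT.lf (nat_lit 0) (nat_lit 1574978954) (nat_lit 304) (nat_lit 6061210380) (nat_lit 380) (nat_lit 2458047213) (nat_lit 131) (nat_lit 5) (nat_lit 135) (nat_lit 5) (nat_lit 136) (nat_lit 4) (nat_lit 464) (nat_lit 347) (nat_lit 329)))) (XT.nd (nat_lit 78) (nat_lit 684) (nat_lit 0) (XT.lf (nat_lit 0) (nat_lit 1747022437) (nat_lit 380) (nat_lit 522118164) (nat_lit 76) (nat_lit 7924514005) (nat_lit 130) (nat_lit 5) (nat_lit 135) (nat_lit 5) (nat_lit 131) (nat_lit 5) (nat_lit 465) (nat_lit 347) (nat_lit 328))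 (XT.nd (nat_lit 78) (nat_lit 304) (nat_lit 0) (XT.lf (nat_lit 0) (nat_lit 6005076087) (nat_lit 456) (nat_lit 2679533692) (nat_lit 76) (nat_lit 1610097282) (nat_lit 125) (nat_lit 5) (nat_lit 131) (nat_lit 5) (nat_lit 126) (nat_lit 4) (nat_lit 466) (nat_lit 347) (nat_lit 327)) (XT.lf (nat_lit 0) (nat_lit 5488455635) (nat_lit 304) (nat_lit 4856006667) (nat_lit 380) (nat_lit 53401601) (nat_lit 121) (nat_lit 5) (nat_lit 125) (nat_lit 5) (nat_lit 126) (nat_lit 4) (nat_lit 467) (nat_lit 347) (nat_lit 326))))) (XT.nd (nat_lit 234) (nat_lit 988) (nat_lit 0) (XT.nd (nat_lit 78) (nat_lit 380) (nat_lit 0) (XT.lf (nat_lit 0) (nat_lit 3275314900) (nat_lit 304) (nat_lit 917766102) (nat_lit 380) (nat_lit 6309825265) (nat_lit 116) (nat_lit 5) (nat_lit 120) (nat_lit 5) (nat_lit 121) (nat_lit 5) (nat_lit 468) (nat_lit 347) (nat_lit 325)) (XT.nd (nat_lit 78) (nat_lit 76) (nat_lit 0) (XT.lf (nat_lit 0) (nat_lit 979514990) (nat_lit 304) (nat_lit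 7546345854) (nat_lit 380) (nat_lit 2084146299) (nat_lit 112) (nat_lit 5) (nat_lit 116) (nat_lit 5) (nat_lit 117) (nat_lit 4) (nat_lit 469) (nat_lit 347) (nat_lit 324)) (XT.lf (nat_lit 0) (nat_lit 2194329940) (nat_lit 380) (nat_lit 1384078294) (nat_lit 76) (nat_lit 7140609301) (nat_lit 111) (nat_lit 5) (nat_lit 116) (nat_lit 5) (nat_lit 112) (nat_lit 5) (nat_lit 470) (nat_lit 347) (nat_lit 323)))) (XT.nd (nat_lit 78) (nat_lit 684) (nat_lit 0) (XT.lf (nat_lit 0) (nat_lit 6522943063) (nat_lit 380) (nat_lit 3819758250) (nat_lit 76) (nat_lit 487387828) (nat_lit 107) (nat_lit 5) (nat_lit 112) (nat_lit 5) (nat_lit 108) (nat_lit 4) (nat_lit 471) (nat_lit 347) (nat_lit 322)) (XT.nd (nat_lit 78) (nat_lit 304) (nat_lit 0) (XT.lf (nat_lit 0) (nat_lit 1705746) (nat_lit 380) (nat_lit 6350728356) (nat_lit 76) (nat_lit 4590816726) (nat_lit 102) (nat_lit 5) (nat_lit 107) (nat_lit 5) (nat_lit 103) (nat_lit 5) (nat_lit 472) (nat_lit 347) (nat_lit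 321)) (XT.lf (nat_lit 0) (nat_lit 2072881867) (nat_lit 304) (nat_lit 2249611355) (nat_lit 380) (nat_lit 6735950159) (nat_lit 98) (nat_lit 5) (nat_lit 102) (nat_lit 5) (nat_lit 103) (nat_lit 5) (nat_lit 473) (nat_lit 347) (nat_lit 320))))))) (XT.nd (nat_lit 936) (nat_lit 1900) (nat_lit 0) (XT.nd (nat_lit 468) (nat_lit 1292) (nat_lit 0) (XT.nd (nat_lit 234) (nat_lit 608) (nat_lit 0) (XT.nd (nat_lit 78) (nat_lit 608) (nat_lit 0) (XT.lf (nat_lit 0) (nat_lit 8729541989) (nat_lit 380) (nat_lit 529429193) (nat_lit 76) (nat_lit 1916977246) (nat_lit 98) (nat_lit 5) (nat_lit 103) (nat_lit 5) (nat_lit 99) (nat_lit 4) (nat_lit 474) (nat_lit 347) (nat_lit 319)) (XT.nd (nat_lit 78) (nat_lit 304) (nat_lit 0) (XT.lf (nat_lit 0) (nat_lit 1916647493) (nat_lit 304) (nat_lit 3211776549) (nat_lit 76) (nat_lit 6166874041) (nat_lit 94) (nat_lit 5) (nat_lit 98) (nat_lit 5) (nat_lit 95) (nat_lit 5) (nat_lit 475) (nat_lit 347) (nat_lit 318)) (XT.lf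 (nat_lit 0) (nat_lit 5422981304) (nat_lit 304) (nat_lit 895633200) (nat_lit 380) (nat_lit 5098413860) (nat_lit 90) (nat_lit 5) (nat_lit 94) (nat_lit 5) (nat_lit 95) (nat_lit 5) (nat_lit 476) (nat_lit 347) (nat_lit 317)))) (XT.nd (nat_lit 78) (nat_lit 380) (nat_lit 0) (XT.lf (nat_lit 0) (nat_lit 2654552831) (nat_lit 228) (nat_lit 8161052991) (nat_lit 304) (nat_lit 725452858) (nat_lit 87) (nat_lit 5) (nat_lit 90) (nat_lit 5) (nat_lit 91) (nat_lit 4) (nat_lit 477) (nat_lit 347) (nat_lit 316)) (XT.nd (nat_lit 78) (nat_lit 304) (nat_lit 0) (XT.lf (nat_lit 0) (nat_lit 3678355081) (nat_lit 304) (nat_lit 231072220) (nat_lit 76) (nat_lit 7757814784) (nat_lit 86) (nat_lit 5) (nat_lit 90) (nat_lit 5) (nat_lit 87) (nat_lit 5) (nat_lit 478) (nat_lit 347) (nat_lit 315)) (XT.lf (nat_lit 0) (nat_lit 8166427461) (nat_lit 380) (nat_lit 3182515377) (nat_lit 76) (nat_lit 446797210) (nat_lit 82) (nat_lit 5) (nat_lit 87) (nat_lit 5) (nat_lit 83)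 (nat_lit 4) (nat_lit 479) (nat_lit 347) (nat_lit 314))))) (XT.nd (nat_lit 234) (nat_lit 760) (nat_lit 0) (XT.nd (nat_lit 78) (nat_lit 228) (nat_lit 0) (XT.lf (nat_lit 0) (nat_lit 818302818) (nat_lit 304) (nat_lit 6262424038) (nat_lit 76) (nat_lit 4845748199) (nat_lit 78) (nat_lit 5) (nat_lit 82) (nat_lit 5) (nat_lit 79) (nat_lit 5) (nat_lit 480) (nat_lit 347) (nat_lit 313)) (XT.nd (nat_lit 78) (nat_lit 0) (nat_lit 0) (XT.lf (nat_lit 0) (nat_lit 2591308354) (nat_lit 228) (nat_lit 2700676058) (nat_lit 304) (nat_lit 6767650904) (nat_lit 75) (nat_lit 5) (nat_lit 78) (nat_lit 5) (nat_lit 79) (nat_lit 5) (nat_lit 481) (nat_lit 347) (nat_lit 312)) (XT.lf (nat_lit 0) (nat_lit 9856470294) (nat_lit 304) (nat_lit 589373830) (nat_lit 76) (nat_lit 1749592511) (nat_lit 75) (nat_lit 5) (nat_lit 79) (nat_lit 5) (nat_lit 76) (nat_lit 4) (nat_lit 482) (nat_lit 347) (nat_lit 311)))) (XT.nd (nat_lit 78) (nat_lit 456) (nat_lit 0) (XT.lf (nat_lit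 0) (nat_lit 2171337295) (nat_lit 304) (nat_lit 3875671348) (nat_lit 76) (nat_lit 6286234491) (nat_lit 71) (nat_lit 5) (nat_lit 75) (nat_lit 5) (nat_lit 72) (nat_lit 5) (nat_lit 483) (nat_lit 347) (nat_lit 310)) (XT.nd (nat_lit 78) (nat_lit 228) (nat_lit 0) (XT.lf (nat_lit 0) (nat_lit 5183839909) (nat_lit 228) (nat_lit 1543037020) (nat_lit 304) (nat_lit 5746896858) (nat_lit 68) (nat_lit 5) (nat_lit 71) (nat_lit 5) (nat_lit 72) (nat_lit 5) (nat_lit 484) (nat_lit 347) (nat_lit 309)) (XT.lf (nat_lit 0) (nat_lit 1775232437) (nat_lit 228) (nat_lit 9604688331) (nat_lit 304) (nat_lit 1237070542) (nat_lit 65) (nat_lit 5) (nat_lit 68) (nat_lit 5) (nat_lit 69) (nat_lit 4) (nat_lit 485) (nat_lit 347) (nat_lit 308)))))) (XT.nd (nat_lit 468) (nat_lit 912) (nat_lit 0) (XT.nd (nat_lit 234) (nat_lit 532) (nat_lit 0) (XT.nd (nat_lit 78) (nat_lit 380) (nat_lit 0) (XT.lf (nat_lit 0) (nat_lit 3327278362) (nat_lit 304) (nat_lit 1762603432) (nat_lit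 76) (nat_lit 7672590030) (nat_lit 64) (nat_lit 5) (nat_lit 68) (nat_lit 5) (nat_lit 65) (nat_lit 5) (nat_lit 486) (nat_lit 347) (nat_lit 307)) (XT.nd (nat_lit 78) (nat_lit 152) (nat_lit 0) (XT.lf (nat_lit 0) (nat_lit 7501412808) (nat_lit 228) (nat_lit 463627023) (nat_lit 304) (nat_lit 4945688664) (nat_lit 61) (nat_lit 5) (nat_lit 64) (nat_lit 5) (nat_lit 65) (nat_lit 5) (nat_lit 487) (nat_lit 347) (nat_lit 306)) (XT.lf (nat_lit 0) (nat_lit 3848559233) (nat_lit 152) (nat_lit 8861670540) (nat_lit 228) (nat_lit 351430875) (nat_lit 59) (nat_lit 5) (nat_lit 61) (nat_lit 5) (nat_lit 62) (nat_lit 4) (nat_lit 488) (nat_lit 347) (nat_lit 305)))) (XT.nd (nat_lit 78) (nat_lit 228) (nat_lit 0) (XT.lf (nat_lit 0) (nat_lit 31803536) (nat_lit 228) (nat_lit 4236111440) (nat_lit 304) (nat_lit 8947336186) (nat_lit 55) (nat_lit 5) (nat_lit 58) (nat_lit 5) (nat_lit 59) (nat_lit 5) (nat_lit 489) (nat_lit 347) (nat_lit 304)) (XT.nd (nat_lit 78)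 (nat_lit 228) (nat_lit 0) (XT.lf (nat_lit 0) (nat_lit 8990718114) (nat_lit 304) (nat_lit 3877415262) (nat_lit 76) (nat_lit 503421723) (nat_lit 55) (nat_lit 5) (nat_lit 59) (nat_lit 5) (nat_lit 56) (nat_lit 4) (nat_lit 490) (nat_lit 347) (nat_lit 303)) (XT.lf (nat_lit 0) (nat_lit 289084747) (nat_lit 228) (nat_lit 7958439994) (nat_lit 76) (nat_lit 5283113351) (nat_lit 52) (nat_lit 5) (nat_lit 55) (nat_lit 5) (nat_lit 53) (nat_lit 5) (nat_lit 491) (nat_lit 347) (nat_lit 302))))) (XT.nd (nat_lit 234) (nat_lit 456) (nat_lit 0) (XT.nd (nat_lit 78) (nat_lit 228) (nat_lit 0) (XT.lf (nat_lit 0) (nat_lit 1475409720) (nat_lit 228) (nat_lit 3505620531) (nat_lit 304) (nat_lit 8711551036) (nat_lit 49) (nat_lit 5) (nat_lit 52) (nat_lit 5) (nat_lit 53) (nat_lit 5) (nat_lit 492) (nat_lit 347) (nat_lit 301)) (XT.nd (nat_lit 78) (nat_lit 228) (nat_lit 0) (XT.lf (nat_lit 0) (nat_lit 9780833319) (nat_lit 304) (nat_lit 2745774768) (nat_lit 76) (nat_lit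 1330878205) (nat_lit 49) (nat_lit 5) (nat_lit 53) (nat_lit 5) (nat_lit 50) (nat_lit 4) (nat_lit 493) (nat_lit 347) (nat_lit 300)) (XT.lf (nat_lit 0) (nat_lit 663107633) (nat_lit 228) (nat_lit 7131554425) (nat_lit 76) (nat_lit 6230531966) (nat_lit 46) (nat_lit 5) (nat_lit 49) (nat_lit 5) (nat_lit 47) (nat_lit 5) (nat_lit 494) (nat_lit 347) (nat_lit 299)))) (XT.nd (nat_lit 78) (nat_lit 228) (nat_lit 0) (XT.lf (nat_lit 0) (nat_lit 2488397895) (nat_lit 228) (nat_lit 2942072144) (nat_lit 304) (nat_lit 8765502205) (nat_lit 43) (nat_lit 5) (nat_lit 46) (nat_lit 5) (nat_lit 47) (nat_lit 5) (nat_lit 495) (nat_lit 347) (nat_lit 298)) (XT.nd (nat_lit 78) (nat_lit 228) (nat_lit 0) (XT.lf (nat_lit 0) (nat_lit 10307171884) (nat_lit 304) (nat_lit 2069583035) (nat_lit 76) (nat_lit 1993134331) (nat_lit 43) (nat_lit 5) (nat_lit 47) (nat_lit 5) (nat_lit 44) (nat_lit 4) (nat_lit 496) (nat_lit 347) (nat_lit 297)) (XT.lf (nat_lit 0) (nat_lit 748229720)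 (nat_lit 228) (nat_lit 6791057997) (nat_lit 76) (nat_lit 7007429805) (nat_lit 40) (nat_lit 5) (nat_lit 43) (nat_lit 5) (nat_lit 41) (nat_lit 5) (nat_lit 497) (nat_lit 347) (nat_lit 296))))))))
noncomputable def xc22 : XT := (XT.nd (nat_lit 56082) (nat_lit 0) (nat_lit 4484) (XT.nd (nat_lit 55146) (nat_lit 0) (nat_lit 11552) (XT.nd (nat_lit 390) (nat_lit 760) (nat_lit 0) (XT.nd (nat_lit 156) (nat_lit 380) (nat_lit 0) (XT.nd (nat_lit 78) (nat_lit 0) (nat_lit 0) (XT.lf (nat_lit 0) (nat_lit 3008253592) (nat_lit 152) (nat_lit 2580081553) (nat_lit 228) (nat_lit 9138466226) (nat_lit 38) (nat_lit 5) (nat_lit 40) (nat_lit 5) (nat_lit 41) (nat_lit 5) (nat_lit 498) (nat_lit 347) (nat_lit 295)) (XT.lf (nat_lit 0) (nat_lit 10541118829) (nat_lit 228) (nat_lit 1913358982) (nat_lit 76) (nat_lit 2455694398) (nat_lit 38) (nat_lit 5) (nat_lit 41) (nat_lit 5) (nat_lit 39) (nat_lit 4) (nat_lit 499) (nat_lit 347) (nat_lit 294))) (XT.nd (nat_lit 78)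 (nat_lit 152) (nat_lit 0) (XT.lf (nat_lit 0) (nat_lit 513869802) (nat_lit 228) (nat_lit 7004451255) (nat_lit 76) (nat_lit 7578335275) (nat_lit 35) (nat_lit 5) (nat_lit 38) (nat_lit 5) (nat_lit 36) (nat_lit 5) (nat_lit 500) (nat_lit 347) (nat_lit 293)) (XT.nd (nat_lit 78) (nat_lit 0) (nat_lit 0) (XT.lf (nat_lit 0) (nat_lit 2965642437) (nat_lit 152) (nat_lit 2457418916) (nat_lit 228) (nat_lit 9863491634) (nat_lit 33) (nat_lit 5) (nat_lit 35) (nat_lit 5) (nat_lit 36) (nat_lit 5) (nat_lit 501) (nat_lit 347) (nat_lit 292)) (XT.lf (nat_lit 0) (nat_lit 10450314406) (nat_lit 228) (nat_lit 2348658299) (nat_lit 76) (nat_lit 2680879934) (nat_lit 33) (nat_lit 5) (nat_lit 36) (nat_lit 5) (nat_lit 34) (nat_lit 4) (nat_lit 502) (nat_lit 347) (nat_lit 291))))) (XT.nd (nat_lit 234) (nat_lit 380) (nat_lit 0) (XT.nd (nat_lit 78) (nat_lit 228) (nat_lit 0) (XT.lf (nat_lit 0) (nat_lit 7829485117) (nat_lit 152) (nat_lit 7771620341) (nat_lit 228)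 (nat_lit 75455533) (nat_lit 31) (nat_lit 5) (nat_lit 33) (nat_lit 5) (nat_lit 34) (nat_lit 4) (nat_lit 503) (nat_lit 347) (nat_lit 290)) (XT.nd (nat_lit 78) (nat_lit 0) (nat_lit 0) (XT.lf (nat_lit 0) (nat_lit 2283640595) (nat_lit 152) (nat_lit 2615418046) (nat_lit 228) (nat_lit 10977768294) (nat_lit 28) (nat_lit 5) (nat_lit 30) (nat_lit 5) (nat_lit 31) (nat_lit 5) (nat_lit 504) (nat_lit 347) (nat_lit 289)) (XT.lf (nat_lit 0) (nat_lit 9998283149) (nat_lit 228) (nat_lit 3454863271) (nat_lit 76) (nat_lit 2627419613) (nat_lit 28) (nat_lit 5) (nat_lit 31) (nat_lit 5) (nat_lit 29) (nat_lit 4) (nat_lit 505) (nat_lit 347) (nat_lit 288)))) (XT.nd (nat_lit 78) (nat_lit 228) (nat_lit 0) (XT.lf (nat_lit 0) (nat_lit 6880572652) (nat_lit 152) (nat_lit 8337831727) (nat_lit 228) (nat_lit 1069599659) (nat_lit 26) (nat_lit 5) (nat_lit 28) (nat_lit 5) (nat_lit 29) (nat_lit 4) (nat_lit 506) (nat_lit 347) (nat_lit 287)) (XT.nd (nat_lit 78) (nat_lit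 0) (nat_lit 0) (XT.lf (nat_lit 0) (nat_lit 876886620) (nat_lit 152) (nat_lit 3099423257) (nat_lit 228) (nat_lit 12523038129) (nat_lit 23) (nat_lit 5) (nat_lit 25) (nat_lit 5) (nat_lit 26) (nat_lit 5) (nat_lit 507) (nat_lit 347) (nat_lit 286)) (XT.lf (nat_lit 0) (nat_lit 9144021377) (nat_lit 228) (nat_lit 5320053429) (nat_lit 76) (nat_lit 2250000764) (nat_lit 23) (nat_lit 5) (nat_lit 26) (nat_lit 5) (nat_lit 24) (nat_lit 4) (nat_lit 508) (nat_lit 347) (nat_lit 285)))))) (XT.nd (nat_lit 468) (nat_lit 2356) (nat_lit 0) (XT.nd (nat_lit 234) (nat_lit 1140) (nat_lit 0) (XT.nd (nat_lit 78) (nat_lit 1140) (nat_lit 0) (XT.lf (nat_lit 0) (nat_lit 3654821006) (nat_lit 608) (nat_lit 290820028) (nat_lit 608) (nat_lit 290820028) (nat_lit 236) (nat_lit 4) (nat_lit 244) (nat_lit 5) (nat_lit 244) (nat_lit 4) (nat_lit 444) (nat_lit 348) (nat_lit 348)) (XT.nd (nat_lit 78) (nat_lit 532) (nat_lit 0) (XT.lf (nat_lit 0) (nat_lit 3456581947) (nat_lit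 608) (nat_lit 2687074216) (nat_lit 0) (nat_lit 2395388965) (nat_lit 228) (nat_lit 5) (nat_lit 236) (nat_lit 4) (nat_lit 228) (nat_lit 4) (nat_lit 445) (nat_lit 348) (nat_lit 347)) (XT.lf (nat_lit 0) (nat_lit 4373406655) (nat_lit 532) (nat_lit 3167566730) (nat_lit 532) (nat_lit 1065988470) (nat_lit 221) (nat_lit 4) (nat_lit 228) (nat_lit 5) (nat_lit 228) (nat_lit 4) (nat_lit 446) (nat_lit 348) (nat_lit 346)))) (XT.nd (nat_lit 78) (nat_lit 608) (nat_lit 0) (XT.lf (nat_lit 0) (nat_lit 2859914257) (nat_lit 456) (nat_lit 101213506) (nat_lit 532) (nat_lit 5715325913) (nat_lit 214) (nat_lit 5) (nat_lit 220) (nat_lit 5) (nat_lit 221) (nat_lit 4) (nat_lit 447) (nat_lit 348) (nat_lit 345)) (XT.nd (nat_lit 78) (nat_lit 76) (nat_lit 0) (XT.lf (nat_lit 0) (nat_lit 1302069711) (nat_lit 532) (nat_lit 5743029635) (nat_lit 532) (nat_lit 1702294660) (nat_lit 207) (nat_lit 4) (nat_lit 214) (nat_lit 5) (nat_lit 214) (nat_lit 4) (nat_lit 448) (nat_lit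 348) (nat_lit 344)) (XT.lf (nat_lit 0) (nat_lit 2333717813) (nat_lit 608) (nat_lit 287780172) (nat_lit 76) (nat_lit 6198473987) (nat_lit 206) (nat_lit 5) (nat_lit 214) (nat_lit 5) (nat_lit 207) (nat_lit 4) (nat_lit 449) (nat_lit 348) (nat_lit 343))))) (XT.nd (nat_lit 234) (nat_lit 912) (nat_lit 0) (XT.nd (nat_lit 78) (nat_lit 988) (nat_lit 0) (XT.lf (nat_lit 0) (nat_lit 6412390572) (nat_lit 532) (nat_lit 1896957539) (nat_lit 0) (nat_lit 584744342) (nat_lit 200) (nat_lit 5) (nat_lit 207) (nat_lit 4) (nat_lit 200) (nat_lit 4) (nat_lit 450) (nat_lit 348) (nat_lit 342)) (XT.nd (nat_lit 78) (nat_lit 456) (nat_lit 0) (XT.lf (nat_lit 0) (nat_lit 1572257707) (nat_lit 532) (nat_lit 3557403653) (nat_lit 76) (nat_lit 3840029314) (nat_lit 193) (nat_lit 5) (nat_lit 200) (nat_lit 5) (nat_lit 194) (nat_lit 4) (nat_lit 451) (nat_lit 348) (nat_lit 341)) (XT.lf (nat_lit 0) (nat_lit 3786879855) (nat_lit 456) (nat_lit 1860745340) (nat_lit 532)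 (nat_lit 3399386470) (nat_lit 187) (nat_lit 5) (nat_lit 193) (nat_lit 5) (nat_lit 194) (nat_lit 4) (nat_lit 452) (nat_lit 348) (nat_lit 340)))) (XT.nd (nat_lit 78) (nat_lit 380) (nat_lit 0) (XT.lf (nat_lit 0) (nat_lit 653589892) (nat_lit 532) (nat_lit 7005112043) (nat_lit 76) (nat_lit 1467421302) (nat_lit 180) (nat_lit 5) (nat_lit 187) (nat_lit 5) (nat_lit 181) (nat_lit 4) (nat_lit 453) (nat_lit 348) (nat_lit 339)) (XT.nd (nat_lit 78) (nat_lit 0) (nat_lit 0) (XT.lf (nat_lit 0) (nat_lit 391174866) (nat_lit 380) (nat_lit 4338172617) (nat_lit 456) (nat_lit 4477284849) (nat_lit 175) (nat_lit 5) (nat_lit 180) (nat_lit 5) (nat_lit 181) (nat_lit 4) (nat_lit 454) (nat_lit 348) (nat_lit 338)) (XT.lf (nat_lit 0) (nat_lit 7937106275) (nat_lit 380) (nat_lit 933958089) (nat_lit 456) (nat_lit 418007655) (nat_lit 175) (nat_lit 5) (nat_lit 180) (nat_lit 5) (nat_lit 181) (nat_lit 4) (nat_lit 455) (nat_lit 348) (nat_lit 337))))))) (XT.nd (nat_lit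 936) (nat_lit 2888) (nat_lit 0) (XT.nd (nat_lit 468) (nat_lit 1976) (nat_lit 0) (XT.nd (nat_lit 234) (nat_lit 836) (nat_lit 0) (XT.nd (nat_lit 78) (nat_lit 836) (nat_lit 0) (XT.lf (nat_lit 0) (nat_lit 3669016134) (nat_lit 532) (nat_lit 3163778977) (nat_lit 76) (nat_lit 2539983313) (nat_lit 168) (nat_lit 5) (nat_lit 175) (nat_lit 5) (nat_lit 169) (nat_lit 4) (nat_lit 456) (nat_lit 348) (nat_lit 336)) (XT.nd (nat_lit 78) (nat_lit 456) (nat_lit 0) (XT.lf (nat_lit 0) (nat_lit 4438059704) (nat_lit 380) (nat_lit 3376926859) (nat_lit 456) (nat_lit 1643469825) (nat_lit 163) (nat_lit 5) (nat_lit 168) (nat_lit 5) (nat_lit 169) (nat_lit 4) (nat_lit 457) (nat_lit 348) (nat_lit 335)) (XT.lf (nat_lit 0) (nat_lit 2443588847) (nat_lit 456) (nat_lit 6932653914) (nat_lit 76) (nat_lit 169722740) (nat_lit 157) (nat_lit 5) (nat_lit 163) (nat_lit 5) (nat_lit 158) (nat_lit 4) (nat_lit 458) (nat_lit 348) (nat_lit 334)))) (XT.nd (nat_lit 78) (nat_lit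 456) (nat_lit 0) (XT.lf (nat_lit 0) (nat_lit 715834572) (nat_lit 380) (nat_lit 5874746350) (nat_lit 456) (nat_lit 3044430895) (nat_lit 152) (nat_lit 5) (nat_lit 157) (nat_lit 5) (nat_lit 158) (nat_lit 4) (nat_lit 459) (nat_lit 348) (nat_lit 333)) (XT.nd (nat_lit 78) (nat_lit 380) (nat_lit 0) (XT.lf (nat_lit 0) (nat_lit 1066583550) (nat_lit 456) (nat_lit 1214535170) (nat_lit 76) (nat_lit 7444860791) (nat_lit 151) (nat_lit 5) (nat_lit 157) (nat_lit 5) (nat_lit 152) (nat_lit 5) (nat_lit 460) (nat_lit 348) (nat_lit 332)) (XT.lf (nat_lit 0) (nat_lit 5211888952) (nat_lit 456) (nat_lit 3208690998) (nat_lit 76) (nat_lit 1397935198) (nat_lit 146) (nat_lit 5) (nat_lit 152) (nat_lit 5) (nat_lit 147) (nat_lit 4) (nat_lit 461) (nat_lit 348) (nat_lit 331))))) (XT.nd (nat_lit 234) (nat_lit 836) (nat_lit 0) (XT.nd (nat_lit 78) (nat_lit 760) (nat_lit 0) (XT.lf (nat_lit 0) (nat_lit 4648180092) (nat_lit 380) (nat_lit 4786398414) (nat_lit 456)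 (nat_lit 478441055) (nat_lit 141) (nat_lit 5) (nat_lit 146) (nat_lit 5) (nat_lit 147) (nat_lit 4) (nat_lit 462) (nat_lit 348) (nat_lit 330)) (XT.nd (nat_lit 78) (nat_lit 304) (nat_lit 0) (XT.lf (nat_lit 0) (nat_lit 2614412754) (nat_lit 380) (nat_lit 1048751479) (nat_lit 456) (nat_lit 6346176378) (nat_lit 135) (nat_lit 5) (nat_lit 140) (nat_lit 5) (nat_lit 141) (nat_lit 5) (nat_lit 463) (nat_lit 348) (nat_lit 329)) (XT.lf (nat_lit 0) (nat_lit 508507735) (nat_lit 304) (nat_lit 7371002430) (nat_lit 380) (nat_lit 2228055553) (nat_lit 131) (nat_lit 5) (nat_lit 135) (nat_lit 5) (nat_lit 136) (nat_lit 4) (nat_lit 464) (nat_lit 348) (nat_lit 328)))) (XT.nd (nat_lit 78) (nat_lit 760) (nat_lit 0) (XT.lf (nat_lit 0) (nat_lit 1945116249) (nat_lit 380) (nat_lit 1649314633) (nat_lit 76) (nat_lit 6613104077) (nat_lit 130) (nat_lit 5) (nat_lit 135) (nat_lit 5) (nat_lit 131) (nat_lit 5) (nat_lit 465) (nat_lit 348) (nat_lit 327)) (XT.nd (nat_lit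 78) (nat_lit 380) (nat_lit 0) (XT.lf (nat_lit 0) (nat_lit 6158378817) (nat_lit 456) (nat_lit 3873150999) (nat_lit 76) (nat_lit 277956771) (nat_lit 125) (nat_lit 5) (nat_lit 131) (nat_lit 5) (nat_lit 126) (nat_lit 4) (nat_lit 466) (nat_lit 348) (nat_lit 326)) (XT.lf (nat_lit 0) (nat_lit 47453280) (nat_lit 380) (nat_lit 6180472320) (nat_lit 76) (nat_lit 4185441035) (nat_lit 120) (nat_lit 5) (nat_lit 125) (nat_lit 5) (nat_lit 121) (nat_lit 5) (nat_lit 467) (nat_lit 348) (nat_lit 325)))))) (XT.nd (nat_lit 468) (nat_lit 1216) (nat_lit 0) (XT.nd (nat_lit 234) (nat_lit 988) (nat_lit 0) (XT.nd (nat_lit 78) (nat_lit 380) (nat_lit 0) (XT.lf (nat_lit 0) (nat_lit 1941164391) (nat_lit 304) (nat_lit 2315323453) (nat_lit 380) (nat_lit 6262652331) (nat_lit 116) (nat_lit 5) (nat_lit 120) (nat_lit 5) (nat_lit 121) (nat_lit 5) (nat_lit 468) (nat_lit 348) (nat_lit 324)) (XT.nd (nat_lit 78) (nat_lit 380) (nat_lit 0) (XT.lf (nat_lit 0) (nat_lit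 8545896425) (nat_lit 380) (nat_lit 420035029) (nat_lit 76) (nat_lit 1661180119) (nat_lit 116) (nat_lit 5) (nat_lit 121) (nat_lit 5) (nat_lit 117) (nat_lit 4) (nat_lit 469) (nat_lit 348) (nat_lit 323)) (XT.lf (nat_lit 0) (nat_lit 2166571919) (nat_lit 380) (nat_lit 2851838447) (nat_lit 76) (nat_lit 5718327209) (nat_lit 111) (nat_lit 5) (nat_lit 116) (nat_lit 5) (nat_lit 112) (nat_lit 5) (nat_lit 470) (nat_lit 348) (nat_lit 322)))) (XT.nd (nat_lit 78) (nat_lit 684) (nat_lit 0) (XT.lf (nat_lit 0) (nat_lit 5481167077) (nat_lit 304) (nat_lit 973539296) (nat_lit 380) (nat_lit 4393915299) (nat_lit 107) (nat_lit 5) (nat_lit 111) (nat_lit 5) (nat_lit 112) (nat_lit 5) (nat_lit 471) (nat_lit 348) (nat_lit 321)) (XT.nd (nat_lit 78) (nat_lit 380) (nat_lit 0) (XT.lf (nat_lit 0) (nat_lit 2985364631) (nat_lit 304) (nat_lit 7847436381) (nat_lit 380) (nat_lit 129864266) (nat_lit 103) (nat_lit 5) (nat_lit 107) (nat_lit 5) (nat_lit 108) (nat_lit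 4) (nat_lit 472) (nat_lit 348) (nat_lit 320)) (XT.lf (nat_lit 0) (nat_lit 380167989) (nat_lit 304) (nat_lit 3774345559) (nat_lit 380) (nat_lit 6924126153) (nat_lit 98) (nat_lit 5) (nat_lit 102) (nat_lit 5) (nat_lit 103) (nat_lit 5) (nat_lit 473) (nat_lit 348) (nat_lit 319))))) (XT.nd (nat_lit 234) (nat_lit 608) (nat_lit 0) (XT.nd (nat_lit 78) (nat_lit 608) (nat_lit 0) (XT.lf (nat_lit 0) (nat_lit 8524668717) (nat_lit 380) (nat_lit 2277355627) (nat_lit 76) (nat_lit 394860971) (nat_lit 98) (nat_lit 5) (nat_lit 103) (nat_lit 5) (nat_lit 99) (nat_lit 4) (nat_lit 474) (nat_lit 348) (nat_lit 318)) (XT.nd (nat_lit 78) (nat_lit 304) (nat_lit 0) (XT.lf (nat_lit 0) (nat_lit 1655288991) (nat_lit 304) (nat_lit 5047537473) (nat_lit 76) (nat_lit 4614210617) (nat_lit 94) (nat_lit 5) (nat_lit 98) (nat_lit 5) (nat_lit 95) (nat_lit 5) (nat_lit 475) (nat_lit 348) (nat_lit 317)) (XT.lf (nat_lit 0) (nat_lit 3518139156) (nat_lit 304) (nat_lit 2500343257)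 (nat_lit 380) (nat_lit 5421062959) (nat_lit 90) (nat_lit 5) (nat_lit 94) (nat_lit 5) (nat_lit 95) (nat_lit 5) (nat_lit 476) (nat_lit 348) (nat_lit 316)))) (XT.nd (nat_lit 78) (nat_lit 380) (nat_lit 0) (XT.lf (nat_lit 0) (nat_lit 667329530) (nat_lit 228) (nat_lit 9798535723) (nat_lit 304) (nat_lit 1098705094) (nat_lit 87) (nat_lit 5) (nat_lit 90) (nat_lit 5) (nat_lit 91) (nat_lit 4) (nat_lit 477) (nat_lit 348) (nat_lit 315)) (XT.nd (nat_lit 78) (nat_lit 304) (nat_lit 0) (XT.lf (nat_lit 0) (nat_lit 3283766097) (nat_lit 304) (nat_lit 2283664062) (nat_lit 76) (nat_lit 6123899096) (nat_lit 86) (nat_lit 5) (nat_lit 90) (nat_lit 5) (nat_lit 87) (nat_lit 5) (nat_lit 478) (nat_lit 348) (nat_lit 314)) (XT.lf (nat_lit 0) (nat_lit 6492364252) (nat_lit 304) (nat_lit 1237027607) (nat_lit 380) (nat_lit 4091286638) (nat_lit 82) (nat_lit 5) (nat_lit 86) (nat_lit 5) (nat_lit 87) (nat_lit 5) (nat_lit 479) (nat_lit 348) (nat_lit 313))))))))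
noncomputable def xc23 : XT := (XT.nd (nat_lit 1794) (nat_lit 760) (nat_lit 0) (XT.nd (nat_lit 858) (nat_lit 1672) (nat_lit 0) (XT.nd (nat_lit 390) (nat_lit 988) (nat_lit 0) (XT.nd (nat_lit 156) (nat_lit 532) (nat_lit 0) (XT.nd (nat_lit 78) (nat_lit 228) (nat_lit 0) (XT.lf (nat_lit 0) (nat_lit 314077463) (nat_lit 304) (nat_lit 8495286908) (nat_lit 76) (nat_lit 3143077582) (nat_lit 78) (nat_lit 5) (nat_lit 82) (nat_lit 5) (nat_lit 79) (nat_lit 5) (nat_lit 480) (nat_lit 348) (nat_lit 312)) (XT.lf (nat_lit 0) (nat_lit 284613146) (nat_lit 228) (nat_lit 4462612468) (nat_lit 304) (nat_lit 7339189479) (nat_lit 75) (nat_lit 5) (nat_lit 78) (nat_lit 5) (nat_lit 79) (nat_lit 5) (nat_lit 481) (nat_lit 348) (nat_lit 311))) (XT.nd (nat_lit 78) (nat_lit 532) (nat_lit 0) (XT.lf (nat_lit 0) (nat_lit 9267815376) (nat_lit 228) (nat_lit 7048823) (nat_lit 304) (nat_lit 2948091327) (nat_lit 75) (nat_lit 5) (nat_lit 78) (nat_lit 5) (nat_lit 79)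 (nat_lit 5) (nat_lit 482) (nat_lit 348) (nat_lit 310)) (XT.nd (nat_lit 78) (nat_lit 228) (nat_lit 0) (XT.lf (nat_lit 0) (nat_lit 1529082694) (nat_lit 304) (nat_lit 6340341483) (nat_lit 76) (nat_lit 4492241395) (nat_lit 71) (nat_lit 5) (nat_lit 75) (nat_lit 5) (nat_lit 72) (nat_lit 5) (nat_lit 483) (nat_lit 348) (nat_lit 309)) (XT.lf (nat_lit 0) (nat_lit 2642965819) (nat_lit 228) (nat_lit 3400252306) (nat_lit 304) (nat_lit 6459808227) (nat_lit 68) (nat_lit 5) (nat_lit 71) (nat_lit 5) (nat_lit 72) (nat_lit 5) (nat_lit 484) (nat_lit 348) (nat_lit 308))))) (XT.nd (nat_lit 234) (nat_lit 456) (nat_lit 0) (XT.nd (nat_lit 78) (nat_lit 532) (nat_lit 0) (XT.lf (nat_lit 0) (nat_lit 10647866108) (nat_lit 304) (nat_lit 849095941) (nat_lit 76) (nat_lit 1150251745) (nat_lit 68) (nat_lit 5) (nat_lit 72) (nat_lit 5) (nat_lit 69) (nat_lit 4) (nat_lit 485) (nat_lit 348) (nat_lit 307)) (XT.nd (nat_lit 78) (nat_lit 228) (nat_lit 0) (XT.lf (nat_lit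 0) (nat_lit 2544608303) (nat_lit 304) (nat_lit 4466589680) (nat_lit 76) (nat_lit 5782205040) (nat_lit 64) (nat_lit 5) (nat_lit 68) (nat_lit 5) (nat_lit 65) (nat_lit 5) (nat_lit 486) (nat_lit 348) (nat_lit 306)) (XT.lf (nat_lit 0) (nat_lit 4718749245) (nat_lit 228) (nat_lit 2421272097) (nat_lit 304) (nat_lit 5802487209) (nat_lit 61) (nat_lit 5) (nat_lit 64) (nat_lit 5) (nat_lit 65) (nat_lit 5) (nat_lit 487) (nat_lit 348) (nat_lit 305)))) (XT.nd (nat_lit 78) (nat_lit 304) (nat_lit 0) (XT.lf (nat_lit 0) (nat_lit 966758285) (nat_lit 152) (nat_lit 10862838863) (nat_lit 228) (nat_lit 1264957689) (nat_lit 59) (nat_lit 5) (nat_lit 61) (nat_lit 5) (nat_lit 62) (nat_lit 4) (nat_lit 488) (nat_lit 348) (nat_lit 304)) (XT.nd (nat_lit 78) (nat_lit 228) (nat_lit 0) (XT.lf (nat_lit 0) (nat_lit 3342010546) (nat_lit 228) (nat_lit 2919694450) (nat_lit 76) (nat_lit 6987047930) (nat_lit 58) (nat_lit 5) (nat_lit 61) (nat_lit 5) (nat_lit 59) (nat_lit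 5) (nat_lit 489) (nat_lit 348) (nat_lit 303)) (XT.lf (nat_lit 0) (nat_lit 6465180311) (nat_lit 228) (nat_lit 1553161308) (nat_lit 304) (nat_lit 5387646429) (nat_lit 55) (nat_lit 5) (nat_lit 58) (nat_lit 5) (nat_lit 59) (nat_lit 5) (nat_lit 490) (nat_lit 348) (nat_lit 302)))))) (XT.nd (nat_lit 468) (nat_lit 760) (nat_lit 0) (XT.nd (nat_lit 234) (nat_lit 456) (nat_lit 0) (XT.nd (nat_lit 78) (nat_lit 304) (nat_lit 0) (XT.lf (nat_lit 0) (nat_lit 2438129882) (nat_lit 152) (nat_lit 10359054029) (nat_lit 228) (nat_lit 769007721) (nat_lit 53) (nat_lit 5) (nat_lit 55) (nat_lit 5) (nat_lit 56) (nat_lit 4) (nat_lit 491) (nat_lit 348) (nat_lit 301)) (XT.nd (nat_lit 78) (nat_lit 228) (nat_lit 0) (XT.lf (nat_lit 0) (nat_lit 3899884986) (nat_lit 228) (nat_lit 1750181126) (nat_lit 76) (nat_lit 8078832987) (nat_lit 52) (nat_lit 5) (nat_lit 55) (nat_lit 5) (nat_lit 53) (nat_lit 5) (nat_lit 492) (nat_lit 348) (nat_lit 300)) (XT.lf (nat_lit 0)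 (nat_lit 7830454611) (nat_lit 228) (nat_lit 825597732) (nat_lit 304) (nat_lit 5238626086) (nat_lit 49) (nat_lit 5) (nat_lit 52) (nat_lit 5) (nat_lit 53) (nat_lit 5) (nat_lit 493) (nat_lit 348) (nat_lit 299)))) (XT.nd (nat_lit 78) (nat_lit 304) (nat_lit 0) (XT.lf (nat_lit 0) (nat_lit 3499555543) (nat_lit 152) (nat_lit 10022417042) (nat_lit 228) (nat_lit 541511359) (nat_lit 47) (nat_lit 5) (nat_lit 49) (nat_lit 5) (nat_lit 50) (nat_lit 4) (nat_lit 494) (nat_lit 348) (nat_lit 298)) (XT.nd (nat_lit 78) (nat_lit 228) (nat_lit 0) (XT.lf (nat_lit 0) (nat_lit 4193809936) (nat_lit 228) (nat_lit 1014006868) (nat_lit 76) (nat_lit 9027300058) (nat_lit 46) (nat_lit 5) (nat_lit 49) (nat_lit 5) (nat_lit 47) (nat_lit 5) (nat_lit 495) (nat_lit 348) (nat_lit 297)) (XT.lf (nat_lit 0) (nat_lit 8757159113) (nat_lit 228) (nat_lit 270768892) (nat_lit 304) (nat_lit 5381959027) (nat_lit 43) (nat_lit 5) (nat_lit 46) (nat_lit 5) (nat_lit 47) (nat_lit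 5) (nat_lit 496) (nat_lit 348) (nat_lit 296))))) (XT.nd (nat_lit 234) (nat_lit 380) (nat_lit 0) (XT.nd (nat_lit 78) (nat_lit 228) (nat_lit 0) (XT.lf (nat_lit 0) (nat_lit 4090985199) (nat_lit 152) (nat_lit 9886709625) (nat_lit 228) (nat_lit 610081401) (nat_lit 41) (nat_lit 5) (nat_lit 43) (nat_lit 5) (nat_lit 44) (nat_lit 4) (nat_lit 497) (nat_lit 348) (nat_lit 295)) (XT.nd (nat_lit 78) (nat_lit 152) (nat_lit 0) (XT.lf (nat_lit 0) (nat_lit 4196059678) (nat_lit 228) (nat_lit 773187122) (nat_lit 76) (nat_lit 9799533211) (nat_lit 40) (nat_lit 5) (nat_lit 43) (nat_lit 5) (nat_lit 41) (nat_lit 5) (nat_lit 498) (nat_lit 348) (nat_lit 294)) (XT.lf (nat_lit 0) (nat_lit 9105842376) (nat_lit 228) (nat_lit 5771891517) (nat_lit 76) (nat_lit 75278350) (nat_lit 38) (nat_lit 5) (nat_lit 41) (nat_lit 5) (nat_lit 39) (nat_lit 4) (nat_lit 499) (nat_lit 348) (nat_lit 293)))) (XT.nd (nat_lit 78) (nat_lit 228) (nat_lit 0) (XT.lf (nat_lit 0) (nat_lit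 4145826098) (nat_lit 152) (nat_lit 9988745462) (nat_lit 228) (nat_lit 1005945264) (nat_lit 36) (nat_lit 5) (nat_lit 38) (nat_lit 5) (nat_lit 39) (nat_lit 4) (nat_lit 500) (nat_lit 348) (nat_lit 292)) (XT.nd (nat_lit 78) (nat_lit 152) (nat_lit 0) (XT.lf (nat_lit 0) (nat_lit 3875284526) (nat_lit 228) (nat_lit 1096485308) (nat_lit 76) (nat_lit 10359598665) (nat_lit 35) (nat_lit 5) (nat_lit 38) (nat_lit 5) (nat_lit 36) (nat_lit 5) (nat_lit 501) (nat_lit 348) (nat_lit 291)) (XT.lf (nat_lit 0) (nat_lit 8857111861) (nat_lit 228) (nat_lit 6493531415) (nat_lit 76) (nat_lit 174934658) (nat_lit 33) (nat_lit 5) (nat_lit 36) (nat_lit 5) (nat_lit 34) (nat_lit 4) (nat_lit 502) (nat_lit 348) (nat_lit 290))))))) (XT.nd (nat_lit 55068) (nat_lit 0) (nat_lit 10184) (XT.nd (nat_lit 54600) (nat_lit 0) (nat_lit 14516) (XT.nd (nat_lit 234) (nat_lit 380) (nat_lit 0) (XT.nd (nat_lit 78) (nat_lit 228) (nat_lit 0) (XT.lf (nat_lit 0) (nat_lit 3590202777)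 (nat_lit 152) (nat_lit 10368764736) (nat_lit 228) (nat_lit 1764298726) (nat_lit 31) (nat_lit 5) (nat_lit 33) (nat_lit 5) (nat_lit 34) (nat_lit 4) (nat_lit 503) (nat_lit 348) (nat_lit 289)) (XT.nd (nat_lit 78) (nat_lit 152) (nat_lit 0) (XT.lf (nat_lit 0) (nat_lit 3196154479) (nat_lit 228) (nat_lit 2060172575) (nat_lit 76) (nat_lit 10668149837) (nat_lit 30) (nat_lit 5) (nat_lit 33) (nat_lit 5) (nat_lit 31) (nat_lit 5) (nat_lit 504) (nat_lit 348) (nat_lit 288)) (XT.lf (nat_lit 0) (nat_lit 8233557564) (nat_lit 152) (nat_lit 9767224) (nat_lit 228) (nat_lit 7885933458) (nat_lit 28) (nat_lit 5) (nat_lit 30) (nat_lit 5) (nat_lit 31) (nat_lit 5) (nat_lit 505) (nat_lit 348) (nat_lit 287)))) (XT.nd (nat_lit 78) (nat_lit 228) (nat_lit 0) (XT.lf (nat_lit 0) (nat_lit 2342141532) (nat_lit 152) (nat_lit 11070865199) (nat_lit 228) (nat_lit 2924699455) (nat_lit 26) (nat_lit 5) (nat_lit 28) (nat_lit 5) (nat_lit 29) (nat_lit 4) (nat_lit 506) (nat_lit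 348) (nat_lit 286)) (XT.nd (nat_lit 78) (nat_lit 152) (nat_lit 0) (XT.lf (nat_lit 0) (nat_lit 2118962874) (nat_lit 228) (nat_lit 3748865172) (nat_lit 76) (nat_lit 10681995649) (nat_lit 25) (nat_lit 5) (nat_lit 28) (nat_lit 5) (nat_lit 26) (nat_lit 5) (nat_lit 507) (nat_lit 348) (nat_lit 285)) (XT.lf (nat_lit 0) (nat_lit 6695637126) (nat_lit 152) (nat_lit 530850519) (nat_lit 228) (nat_lit 9539268432) (nat_lit 23) (nat_lit 5) (nat_lit 25) (nat_lit 5) (nat_lit 26) (nat_lit 5) (nat_lit 508) (nat_lit 348) (nat_lit 284))))) (XT.nd (nat_lit 234) (nat_lit 1596) (nat_lit 0) (XT.nd (nat_lit 78) (nat_lit 684) (nat_lit 0) (XT.lf (nat_lit 0) (nat_lit 459900006) (nat_lit 608) (nat_lit 3252210248) (nat_lit 0) (nat_lit 459900006) (nat_lit 244) (nat_lit 5) (nat_lit 252) (nat_lit 4) (nat_lit 244) (nat_lit 4) (nat_lit 442) (nat_lit 349) (nat_lit 349)) (XT.nd (nat_lit 78) (nat_lit 76) (nat_lit 0) (XT.lf (nat_lit 0) (nat_lit 313492361) (nat_lit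 608) (nat_lit 4599249978) (nat_lit 608) (nat_lit 3495184799) (nat_lit 236) (nat_lit 4) (nat_lit 244) (nat_lit 5) (nat_lit 244) (nat_lit 4) (nat_lit 443) (nat_lit 349) (nat_lit 348)) (XT.lf (nat_lit 0) (nat_lit 482166839) (nat_lit 684) (nat_lit 1212505006) (nat_lit 76) (nat_lit 6778856644) (nat_lit 235) (nat_lit 5) (nat_lit 244) (nat_lit 5) (nat_lit 236) (nat_lit 4) (nat_lit 444) (nat_lit 349) (nat_lit 347)))) (XT.nd (nat_lit 78) (nat_lit 1064) (nat_lit 0) (XT.lf (nat_lit 0) (nat_lit 4472079767) (nat_lit 608) (nat_lit 2780231097) (nat_lit 0) (nat_lit 1288084665) (nat_lit 228) (nat_lit 5) (nat_lit 236) (nat_lit 4) (nat_lit 228) (nat_lit 4) (nat_lit 445) (nat_lit 349) (nat_lit 346)) (XT.nd (nat_lit 78) (nat_lit 532) (nat_lit 0) (XT.lf (nat_lit 0) (nat_lit 4233197903) (nat_lit 532) (nat_lit 4289884318) (nat_lit 532) (nat_lit 85903650) (nat_lit 221) (nat_lit 4) (nat_lit 228) (nat_lit 5) (nat_lit 228) (nat_lit 4) (nat_lit 446) (nat_lit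 349) (nat_lit 345)) (XT.lf (nat_lit 0) (nat_lit 2663389571) (nat_lit 456) (nat_lit 1231341165) (nat_lit 532) (nat_lit 4784297854) (nat_lit 214) (nat_lit 5) (nat_lit 220) (nat_lit 5) (nat_lit 221) (nat_lit 4) (nat_lit 447) (nat_lit 349) (nat_lit 344)))))) (XT.nd (nat_lit 468) (nat_lit 1748) (nat_lit 0) (XT.nd (nat_lit 234) (nat_lit 1520) (nat_lit 0) (XT.nd (nat_lit 78) (nat_lit 532) (nat_lit 0) (XT.lf (nat_lit 0) (nat_lit 1061539293) (nat_lit 532) (nat_lit 6876169071) (nat_lit 532) (nat_lit 813085933) (nat_lit 207) (nat_lit 4) (nat_lit 214) (nat_lit 5) (nat_lit 214) (nat_lit 4) (nat_lit 448) (nat_lit 349) (nat_lit 343)) (XT.nd (nat_lit 78) (nat_lit 456) (nat_lit 0) (XT.lf (nat_lit 0) (nat_lit 3179289128) (nat_lit 608) (nat_lit 583228098) (nat_lit 76) (nat_lit 5061384360) (nat_lit 206) (nat_lit 5) (nat_lit 214) (nat_lit 5) (nat_lit 207) (nat_lit 4) (nat_lit 449) (nat_lit 349) (nat_lit 342)) (XT.lf (nat_lit 0) (nat_lit 6656241646)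 (nat_lit 456) (nat_lit 564286144) (nat_lit 532) (nat_lit 1678248141) (nat_lit 200) (nat_lit 5) (nat_lit 206) (nat_lit 5) (nat_lit 207) (nat_lit 4) (nat_lit 450) (nat_lit 349) (nat_lit 341)))) (XT.nd (nat_lit 78) (nat_lit 988) (nat_lit 0) (XT.lf (nat_lit 0) (nat_lit 2327601310) (nat_lit 532) (nat_lit 3959953670) (nat_lit 76) (nat_lit 2687471274) (nat_lit 193) (nat_lit 5) (nat_lit 200) (nat_lit 5) (nat_lit 194) (nat_lit 4) (nat_lit 451) (nat_lit 349) (nat_lit 340)) (XT.nd (nat_lit 78) (nat_lit 532) (nat_lit 0) (XT.lf (nat_lit 0) (nat_lit 3333169529) (nat_lit 456) (nat_lit 3035853097) (nat_lit 532) (nat_lit 2684008424) (nat_lit 187) (nat_lit 5) (nat_lit 193) (nat_lit 5) (nat_lit 194) (nat_lit 4) (nat_lit 452) (nat_lit 349) (nat_lit 339)) (XT.lf (nat_lit 0) (nat_lit 1317625509) (nat_lit 532) (nat_lit 7520489089) (nat_lit 76) (nat_lit 294779026) (nat_lit 180) (nat_lit 5) (nat_lit 187) (nat_lit 5) (nat_lit 181) (nat_lit 4) (nat_lit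 453) (nat_lit 349) (nat_lit 338))))) (XT.nd (nat_lit 234) (nat_lit 836) (nat_lit 0) (XT.nd (nat_lit 78) (nat_lit 912) (nat_lit 0) (XT.lf (nat_lit 0) (nat_lit 5360170813) (nat_lit 532) (nat_lit 174884265) (nat_lit 76) (nat_lit 3679016486) (nat_lit 180) (nat_lit 5) (nat_lit 187) (nat_lit 5) (nat_lit 181) (nat_lit 4) (nat_lit 454) (nat_lit 349) (nat_lit 337)) (XT.nd (nat_lit 78) (nat_lit 456) (nat_lit 0) (XT.lf (nat_lit 0) (nat_lit 170954271) (nat_lit 456) (nat_lit 1974799822) (nat_lit 76) (nat_lit 7151369484) (nat_lit 174) (nat_lit 5) (nat_lit 180) (nat_lit 5) (nat_lit 175) (nat_lit 5) (nat_lit 455) (nat_lit 349) (nat_lit 336)) (XT.lf (nat_lit 0) (nat_lit 4210139733) (nat_lit 532) (nat_lit 3843716741) (nat_lit 76) (nat_lit 1327770684) (nat_lit 168) (nat_lit 5) (nat_lit 175) (nat_lit 5) (nat_lit 169) (nat_lit 4) (nat_lit 456) (nat_lit 349) (nat_lit 335)))) (XT.nd (nat_lit 78) (nat_lit 456) (nat_lit 0) (XT.lf (nat_lit 0) (nat_lit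 3703513750) (nat_lit 380) (nat_lit 4618059048) (nat_lit 456) (nat_lit 1146427321) (nat_lit 163) (nat_lit 5) (nat_lit 168) (nat_lit 5) (nat_lit 169) (nat_lit 4) (nat_lit 457) (nat_lit 349) (nat_lit 334)) (XT.nd (nat_lit 78) (nat_lit 0) (nat_lit 0) (XT.lf (nat_lit 0) (nat_lit 1811526167) (nat_lit 380) (nat_lit 1086582762) (nat_lit 456) (nat_lit 6658059919) (nat_lit 157) (nat_lit 5) (nat_lit 162) (nat_lit 5) (nat_lit 163) (nat_lit 5) (nat_lit 458) (nat_lit 349) (nat_lit 333)) (XT.lf (nat_lit 0) (nat_lit 7003915735) (nat_lit 456) (nat_lit 143759846) (nat_lit 76) (nat_lit 2498367293) (nat_lit 157) (nat_lit 5) (nat_lit 163) (nat_lit 5) (nat_lit 158) (nat_lit 4) (nat_lit 459) (nat_lit 349) (nat_lit 332))))))))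
noncomputable def xc24 : XT := (XT.nd (nat_lit 1794) (nat_lit 3572) (nat_lit 0) (XT.nd (nat_lit 858) (nat_lit 2736) (nat_lit 0) (XT.nd (nat_lit 390) (nat_lit 1824) (nat_lit 0) (XT.nd (nat_lit 156) (nat_lit 836) (nat_lit 0) (XT.nd (nat_lit 78) (nat_lit 380) (nat_lit 0) (XT.lf (nat_lit 0) (nat_lit 1433265047) (nat_lit 456) (nat_lit 2135064617) (nat_lit 76) (nat_lit 6169239432) (nat_lit 151) (nat_lit 5) (nat_lit 157) (nat_lit 5) (nat_lit 152) (nat_lit 5) (nat_lit 460) (nat_lit 349) (nat_lit 331)) (XT.lf (nat_lit 0) (nat_lit 5534902981) (nat_lit 456) (nat_lit 4190319649) (nat_lit 76) (nat_lit 105759227) (nat_lit 146) (nat_lit 5) (nat_lit 152) (nat_lit 5) (nat_lit 147) (nat_lit 4) (nat_lit 461) (nat_lit 349) (nat_lit 330))) (XT.nd (nat_lit 78) (nat_lit 456) (nat_lit 0) (XT.lf (nat_lit 0) (nat_lit 3608253122) (nat_lit 380) (nat_lit 6113946518) (nat_lit 456) (nat_lit 203998187) (nat_lit 141) (nat_lit 5) (nat_lit 146) (nat_lit 5) (nat_lit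 147) (nat_lit 4) (nat_lit 462) (nat_lit 349) (nat_lit 329)) (XT.nd (nat_lit 78) (nat_lit 0) (nat_lit 0) (XT.lf (nat_lit 0) (nat_lit 1500163305) (nat_lit 380) (nat_lit 2398051075) (nat_lit 456) (nat_lit 6124988283) (nat_lit 135) (nat_lit 5) (nat_lit 140) (nat_lit 5) (nat_lit 141) (nat_lit 5) (nat_lit 463) (nat_lit 349) (nat_lit 328)) (XT.lf (nat_lit 0) (nat_lit 8074105674) (nat_lit 456) (nat_lit 662431026) (nat_lit 76) (nat_lit 1385703649) (nat_lit 135) (nat_lit 5) (nat_lit 141) (nat_lit 5) (nat_lit 136) (nat_lit 4) (nat_lit 464) (nat_lit 349) (nat_lit 327))))) (XT.nd (nat_lit 234) (nat_lit 684) (nat_lit 0) (XT.nd (nat_lit 78) (nat_lit 760) (nat_lit 0) (XT.lf (nat_lit 0) (nat_lit 2089975309) (nat_lit 380) (nat_lit 2889960617) (nat_lit 76) (nat_lit 5242907695) (nat_lit 130) (nat_lit 5) (nat_lit 135) (nat_lit 5) (nat_lit 131) (nat_lit 5) (nat_lit 465) (nat_lit 349) (nat_lit 326)) (XT.nd (nat_lit 78) (nat_lit 380) (nat_lit 0) (XT.lf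 (nat_lit 0) (nat_lit 5136360613) (nat_lit 380) (nat_lit 1128836227) (nat_lit 456) (nat_lit 4060362515) (nat_lit 125) (nat_lit 5) (nat_lit 130) (nat_lit 5) (nat_lit 131) (nat_lit 5) (nat_lit 466) (nat_lit 349) (nat_lit 325)) (XT.lf (nat_lit 0) (nat_lit 92878215) (nat_lit 380) (nat_lit 7568700378) (nat_lit 76) (nat_lit 2768734787) (nat_lit 120) (nat_lit 5) (nat_lit 125) (nat_lit 5) (nat_lit 121) (nat_lit 5) (nat_lit 467) (nat_lit 349) (nat_lit 324)))) (XT.nd (nat_lit 78) (nat_lit 380) (nat_lit 0) (XT.lf (nat_lit 0) (nat_lit 489543043) (nat_lit 304) (nat_lit 3775410066) (nat_lit 380) (nat_lit 6271876101) (nat_lit 116) (nat_lit 5) (nat_lit 120) (nat_lit 5) (nat_lit 121) (nat_lit 5) (nat_lit 468) (nat_lit 349) (nat_lit 323)) (XT.nd (nat_lit 78) (nat_lit 380) (nat_lit 0) (XT.lf (nat_lit 0) (nat_lit 8517491907) (nat_lit 380) (nat_lit 1924368460) (nat_lit 76) (nat_lit 203680672) (nat_lit 116) (nat_lit 5) (nat_lit 121) (nat_lit 5) (nat_lit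 117) (nat_lit 4) (nat_lit 469) (nat_lit 349) (nat_lit 322)) (XT.lf (nat_lit 0) (nat_lit 2083067109) (nat_lit 380) (nat_lit 4438997600) (nat_lit 76) (nat_lit 4233857034) (nat_lit 111) (nat_lit 5) (nat_lit 116) (nat_lit 5) (nat_lit 112) (nat_lit 5) (nat_lit 470) (nat_lit 349) (nat_lit 321)))))) (XT.nd (nat_lit 468) (nat_lit 1140) (nat_lit 0) (XT.nd (nat_lit 234) (nat_lit 912) (nat_lit 0) (XT.nd (nat_lit 78) (nat_lit 380) (nat_lit 0) (XT.lf (nat_lit 0) (nat_lit 3828632542) (nat_lit 304) (nat_lit 2505052819) (nat_lit 380) (nat_lit 4534873661) (nat_lit 107) (nat_lit 5) (nat_lit 111) (nat_lit 5) (nat_lit 112) (nat_lit 5) (nat_lit 471) (nat_lit 349) (nat_lit 320)) (XT.nd (nat_lit 78) (nat_lit 76) (nat_lit 0) (XT.lf (nat_lit 0) (nat_lit 1256320911) (nat_lit 304) (nat_lit 9407636355) (nat_lit 380) (nat_lit 319604621) (nat_lit 103) (nat_lit 5) (nat_lit 107) (nat_lit 5) (nat_lit 108) (nat_lit 4) (nat_lit 472) (nat_lit 349) (nat_lit 319))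 (XT.lf (nat_lit 0) (nat_lit 3938202552) (nat_lit 380) (nat_lit 1417432768) (nat_lit 76) (nat_lit 5744509506) (nat_lit 102) (nat_lit 5) (nat_lit 107) (nat_lit 5) (nat_lit 103) (nat_lit 5) (nat_lit 473) (nat_lit 349) (nat_lit 318)))) (XT.nd (nat_lit 78) (nat_lit 608) (nat_lit 0) (XT.lf (nat_lit 0) (nat_lit 7062124200) (nat_lit 304) (nat_lit 1207957912) (nat_lit 380) (nat_lit 2949076482) (nat_lit 98) (nat_lit 5) (nat_lit 102) (nat_lit 5) (nat_lit 103) (nat_lit 5) (nat_lit 474) (nat_lit 349) (nat_lit 317)) (XT.nd (nat_lit 78) (nat_lit 304) (nat_lit 0) (XT.lf (nat_lit 0) (nat_lit 1335363017) (nat_lit 304) (nat_lit 7009093347) (nat_lit 76) (nat_lit 2995826431) (nat_lit 94) (nat_lit 5) (nat_lit 98) (nat_lit 5) (nat_lit 95) (nat_lit 5) (nat_lit 475) (nat_lit 349) (nat_lit 316)) (XT.lf (nat_lit 0) (nat_lit 1486706483) (nat_lit 304) (nat_lit 4172772225) (nat_lit 380) (nat_lit 5804096424) (nat_lit 90) (nat_lit 5) (nat_lit 94) (nat_lit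 5) (nat_lit 95) (nat_lit 5) (nat_lit 476) (nat_lit 349) (nat_lit 315))))) (XT.nd (nat_lit 234) (nat_lit 532) (nat_lit 0) (XT.nd (nat_lit 78) (nat_lit 608) (nat_lit 0) (XT.lf (nat_lit 0) (nat_lit 10065898457) (nat_lit 380) (nat_lit 1429379660) (nat_lit 76) (nat_lit 94143692) (nat_lit 90) (nat_lit 5) (nat_lit 95) (nat_lit 5) (nat_lit 91) (nat_lit 4) (nat_lit 477) (nat_lit 349) (nat_lit 314)) (XT.nd (nat_lit 78) (nat_lit 304) (nat_lit 0) (XT.lf (nat_lit 0) (nat_lit 2829335653) (nat_lit 304) (nat_lit 4465000049) (nat_lit 76) (nat_lit 4422606201) (nat_lit 86) (nat_lit 5) (nat_lit 90) (nat_lit 5) (nat_lit 87) (nat_lit 5) (nat_lit 478) (nat_lit 349) (nat_lit 313)) (XT.lf (nat_lit 0) (nat_lit 4238913029) (nat_lit 304) (nat_lit 2996204088) (nat_lit 380) (nat_lit 4611973212) (nat_lit 82) (nat_lit 5) (nat_lit 86) (nat_lit 5) (nat_lit 87) (nat_lit 5) (nat_lit 479) (nat_lit 349) (nat_lit 312)))) (XT.nd (nat_lit 78) (nat_lit 304) (nat_lit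 0) (XT.lf (nat_lit 0) (nat_lit 1117437195) (nat_lit 228) (nat_lit 10607290533) (nat_lit 304) (nat_lit 255204281) (nat_lit 79) (nat_lit 5) (nat_lit 82) (nat_lit 5) (nat_lit 83) (nat_lit 4) (nat_lit 480) (nat_lit 349) (nat_lit 311)) (XT.nd (nat_lit 78) (nat_lit 228) (nat_lit 0) (XT.lf (nat_lit 0) (nat_lit 4154387289) (nat_lit 304) (nat_lit 2127395672) (nat_lit 76) (nat_lit 5832695570) (nat_lit 78) (nat_lit 5) (nat_lit 82) (nat_lit 5) (nat_lit 79) (nat_lit 5) (nat_lit 481) (nat_lit 349) (nat_lit 310)) (XT.lf (nat_lit 0) (nat_lit 6785090560) (nat_lit 228) (nat_lit 1858099270) (nat_lit 304) (nat_lit 3608607979) (nat_lit 75) (nat_lit 5) (nat_lit 78) (nat_lit 5) (nat_lit 79) (nat_lit 5) (nat_lit 482) (nat_lit 349) (nat_lit 309))))))) (XT.nd (nat_lit 858) (nat_lit 1596) (nat_lit 0) (XT.nd (nat_lit 390) (nat_lit 912) (nat_lit 0) (XT.nd (nat_lit 156) (nat_lit 760) (nat_lit 0) (XT.nd (nat_lit 78) (nat_lit 0) (nat_lit 0) (XT.lf (nat_lit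 0) (nat_lit 823670531) (nat_lit 304) (nat_lit 8940922488) (nat_lit 76) (nat_lit 2627073816) (nat_lit 71) (nat_lit 5) (nat_lit 75) (nat_lit 5) (nat_lit 72) (nat_lit 5) (nat_lit 483) (nat_lit 349) (nat_lit 308)) (XT.lf (nat_lit 0) (nat_lit 5296227287) (nat_lit 304) (nat_lit 34317310) (nat_lit 76) (nat_lit 7203316594) (nat_lit 71) (nat_lit 5) (nat_lit 75) (nat_lit 5) (nat_lit 72) (nat_lit 5) (nat_lit 484) (nat_lit 349) (nat_lit 307))) (XT.nd (nat_lit 78) (nat_lit 532) (nat_lit 0) (XT.lf (nat_lit 0) (nat_lit 9086334881) (nat_lit 228) (nat_lit 782536032) (nat_lit 304) (nat_lit 2809819770) (nat_lit 68) (nat_lit 5) (nat_lit 71) (nat_lit 5) (nat_lit 72) (nat_lit 5) (nat_lit 485) (nat_lit 349) (nat_lit 306)) (XT.nd (nat_lit 78) (nat_lit 228) (nat_lit 0) (XT.lf (nat_lit 0) (nat_lit 1697236147) (nat_lit 304) (nat_lit 7309863660) (nat_lit 76) (nat_lit 3818837826) (nat_lit 64) (nat_lit 5) (nat_lit 68) (nat_lit 5) (nat_lit 65) (nat_lit 5)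 (nat_lit 486) (nat_lit 349) (nat_lit 305)) (XT.lf (nat_lit 0) (nat_lit 1795784981) (nat_lit 228) (nat_lit 4454080957) (nat_lit 304) (nat_lit 6726034738) (nat_lit 61) (nat_lit 5) (nat_lit 64) (nat_lit 5) (nat_lit 65) (nat_lit 5) (nat_lit 487) (nat_lit 349) (nat_lit 304))))) (XT.nd (nat_lit 234) (nat_lit 456) (nat_lit 0) (XT.nd (nat_lit 78) (nat_lit 456) (nat_lit 0) (XT.lf (nat_lit 0) (nat_lit 10896247699) (nat_lit 304) (nat_lit 2030522421) (nat_lit 76) (nat_lit 202042536) (nat_lit 61) (nat_lit 5) (nat_lit 65) (nat_lit 5) (nat_lit 62) (nat_lit 4) (nat_lit 488) (nat_lit 349) (nat_lit 303)) (XT.nd (nat_lit 78) (nat_lit 228) (nat_lit 0) (XT.lf (nat_lit 0) (nat_lit 2349967831) (nat_lit 228) (nat_lit 6013601126) (nat_lit 76) (nat_lit 4920311695) (nat_lit 58) (nat_lit 5) (nat_lit 61) (nat_lit 5) (nat_lit 59) (nat_lit 5) (nat_lit 489) (nat_lit 349) (nat_lit 302)) (XT.lf (nat_lit 0) (nat_lit 3288942968) (nat_lit 228) (nat_lit 3693519361)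 (nat_lit 304) (nat_lit 6459531886) (nat_lit 55) (nat_lit 5) (nat_lit 58) (nat_lit 5) (nat_lit 59) (nat_lit 5) (nat_lit 490) (nat_lit 349) (nat_lit 301)))) (XT.nd (nat_lit 78) (nat_lit 456) (nat_lit 0) (XT.lf (nat_lit 0) (nat_lit 11708443673) (nat_lit 304) (nat_lit 832948900) (nat_lit 76) (nat_lit 1061864120) (nat_lit 55) (nat_lit 5) (nat_lit 59) (nat_lit 5) (nat_lit 56) (nat_lit 4) (nat_lit 491) (nat_lit 349) (nat_lit 300)) (XT.nd (nat_lit 78) (nat_lit 228) (nat_lit 0) (XT.lf (nat_lit 0) (nat_lit 2760231418) (nat_lit 228) (nat_lit 5102954075) (nat_lit 76) (nat_lit 5903498736) (nat_lit 52) (nat_lit 5) (nat_lit 55) (nat_lit 5) (nat_lit 53) (nat_lit 5) (nat_lit 492) (nat_lit 349) (nat_lit 299)) (XT.lf (nat_lit 0) (nat_lit 4392597649) (nat_lit 228) (nat_lit 3078835974) (nat_lit 304) (nat_lit 6461930817) (nat_lit 49) (nat_lit 5) (nat_lit 52) (nat_lit 5) (nat_lit 53) (nat_lit 5) (nat_lit 493) (nat_lit 349) (nat_lit 298)))))) (XT.nd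 (nat_lit 468) (nat_lit 760) (nat_lit 0) (XT.nd (nat_lit 234) (nat_lit 380) (nat_lit 0) (XT.nd (nat_lit 78) (nat_lit 456) (nat_lit 0) (XT.lf (nat_lit 0) (nat_lit 12277432487) (nat_lit 304) (nat_lit 48326537) (nat_lit 76) (nat_lit 1777610907) (nat_lit 49) (nat_lit 5) (nat_lit 53) (nat_lit 5) (nat_lit 50) (nat_lit 4) (nat_lit 494) (nat_lit 349) (nat_lit 297)) (XT.nd (nat_lit 78) (nat_lit 228) (nat_lit 0) (XT.lf (nat_lit 0) (nat_lit 2903373208) (nat_lit 228) (nat_lit 4634190757) (nat_lit 76) (nat_lit 6738064282) (nat_lit 46) (nat_lit 5) (nat_lit 49) (nat_lit 5) (nat_lit 47) (nat_lit 5) (nat_lit 495) (nat_lit 349) (nat_lit 296)) (XT.lf (nat_lit 0) (nat_lit 5049020080) (nat_lit 228) (nat_lit 2642301304) (nat_lit 304) (nat_lit 6760001889) (nat_lit 43) (nat_lit 5) (nat_lit 46) (nat_lit 5) (nat_lit 47) (nat_lit 5) (nat_lit 496) (nat_lit 349) (nat_lit 295)))) (XT.nd (nat_lit 78) (nat_lit 228) (nat_lit 0) (XT.lf (nat_lit 0) (nat_lit 267266817)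 (nat_lit 152) (nat_lit 12311571765) (nat_lit 228) (nat_lit 2051620306) (nat_lit 41) (nat_lit 5) (nat_lit 43) (nat_lit 5) (nat_lit 44) (nat_lit 4) (nat_lit 497) (nat_lit 349) (nat_lit 294)) (XT.nd (nat_lit 78) (nat_lit 152) (nat_lit 0) (XT.lf (nat_lit 0) (nat_lit 2751432603) (nat_lit 228) (nat_lit 4669655165) (nat_lit 76) (nat_lit 7391003355) (nat_lit 40) (nat_lit 5) (nat_lit 43) (nat_lit 5) (nat_lit 41) (nat_lit 5) (nat_lit 498) (nat_lit 349) (nat_lit 293)) (XT.lf (nat_lit 0) (nat_lit 5194208791) (nat_lit 152) (nat_lit 2419059347) (nat_lit 228) (nat_lit 7384015506) (nat_lit 38) (nat_lit 5) (nat_lit 40) (nat_lit 5) (nat_lit 41) (nat_lit 5) (nat_lit 499) (nat_lit 349) (nat_lit 292))))) (XT.nd (nat_lit 234) (nat_lit 380) (nat_lit 0) (XT.nd (nat_lit 78) (nat_lit 228) (nat_lit 0) (XT.lf (nat_lit 0) (nat_lit 37753050) (nat_lit 152) (nat_lit 12540365900) (nat_lit 228) (nat_lit 2607948164) (nat_lit 36) (nat_lit 5) (nat_lit 38) (nat_lit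 5) (nat_lit 39) (nat_lit 4) (nat_lit 500) (nat_lit 349) (nat_lit 291)) (XT.nd (nat_lit 78) (nat_lit 152) (nat_lit 0) (XT.lf (nat_lit 0) (nat_lit 2272821598) (nat_lit 228) (nat_lit 5278456993) (nat_lit 76) (nat_lit 7826278905) (nat_lit 35) (nat_lit 5) (nat_lit 38) (nat_lit 5) (nat_lit 36) (nat_lit 5) (nat_lit 501) (nat_lit 349) (nat_lit 290)) (XT.lf (nat_lit 0) (nat_lit 4757177855) (nat_lit 152) (nat_lit 2447507695) (nat_lit 228) (nat_lit 8368081894) (nat_lit 33) (nat_lit 5) (nat_lit 35) (nat_lit 5) (nat_lit 36) (nat_lit 5) (nat_lit 502) (nat_lit 349) (nat_lit 289)))) (XT.nd (nat_lit 78) (nat_lit 380) (nat_lit 0) (XT.lf (nat_lit 0) (nat_lit 12246349041) (nat_lit 228) (nat_lit 801099997) (nat_lit 76) (nat_lit 2724211775) (nat_lit 33) (nat_lit 5) (nat_lit 36) (nat_lit 5) (nat_lit 34) (nat_lit 4) (nat_lit 503) (nat_lit 349) (nat_lit 288)) (XT.nd (nat_lit 78) (nat_lit 152) (nat_lit 0) (XT.lf (nat_lit 0) (nat_lit 1431967880) (nat_lit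 228) (nat_lit 6537231701) (nat_lit 76) (nat_lit 8004427121) (nat_lit 30) (nat_lit 5) (nat_lit 33) (nat_lit 5) (nat_lit 31) (nat_lit 5) (nat_lit 504) (nat_lit 349) (nat_lit 287)) (XT.lf (nat_lit 0) (nat_lit 3659172455) (nat_lit 152) (nat_lit 2769712597) (nat_lit 228) (nat_lit 9750529218) (nat_lit 28) (nat_lit 5) (nat_lit 30) (nat_lit 5) (nat_lit 31) (nat_lit 5) (nat_lit 505) (nat_lit 349) (nat_lit 286))))))))
noncomputable def xc25 : XT := (XT.nd (nat_lit 55770) (nat_lit 0) (nat_lit 3648) (XT.nd (nat_lit 54834) (nat_lit 0) (nat_lit 10184) (XT.nd (nat_lit 54366) (nat_lit 0) (nat_lit 14516) (XT.nd (nat_lit 156) (nat_lit 152) (nat_lit 0) (XT.nd (nat_lit 78) (nat_lit 228) (nat_lit 0) (XT.lf (nat_lit 0) (nat_lit 11544941486) (nat_lit 228) (nat_lit 2332584854) (nat_lit 76) (nat_lit 2511409509) (nat_lit 28) (nat_lit 5) (nat_lit 31) (nat_lit 5) (nat_lit 29) (nat_lit 4) (nat_lit 506) (nat_lit 349) (nat_lit 285)) (XT.lf (nat_lit 0) (nat_lit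 188917923) (nat_lit 228) (nat_lit 8530978253) (nat_lit 76) (nat_lit 7882125930) (nat_lit 25) (nat_lit 5) (nat_lit 28) (nat_lit 5) (nat_lit 26) (nat_lit 5) (nat_lit 507) (nat_lit 349) (nat_lit 284))) (XT.nd (nat_lit 54054) (nat_lit 0) (nat_lit 17404) (XT.lf (nat_lit 0) (nat_lit 1812804173) (nat_lit 152) (nat_lit 3431863031) (nat_lit 228) (nat_lit 11574323857) (nat_lit 23) (nat_lit 5) (nat_lit 25) (nat_lit 5) (nat_lit 26) (nat_lit 5) (nat_lit 508) (nat_lit 349) (nat_lit 283)) (XT.nd (nat_lit 78) (nat_lit 608) (nat_lit 0) (XT.lf (nat_lit 0) (nat_lit 1206660382) (nat_lit 684) (nat_lit 1696525005) (nat_lit 0) (nat_lit 1206660382) (nat_lit 260) (nat_lit 5) (nat_lit 269) (nat_lit 4) (nat_lit 260) (nat_lit 4) (nat_lit 440) (nat_lit 350) (nat_lit 350)) (XT.lf (nat_lit 0) (nat_lit 3321791193) (nat_lit 608) (nat_lit 3054122739) (nat_lit 608) (nat_lit 1905453326) (nat_lit 252) (nat_lit 4) (nat_lit 260) (nat_lit 5) (nat_lit 260) (nat_lit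 4) (nat_lit 441) (nat_lit 350) (nat_lit 349))))) (XT.nd (nat_lit 234) (nat_lit 1596) (nat_lit 0) (XT.nd (nat_lit 78) (nat_lit 684) (nat_lit 0) (XT.lf (nat_lit 0) (nat_lit 1793132120) (nat_lit 532) (nat_lit 220703531) (nat_lit 608) (nat_lit 6330833404) (nat_lit 244) (nat_lit 5) (nat_lit 251) (nat_lit 5) (nat_lit 252) (nat_lit 4) (nat_lit 442) (nat_lit 350) (nat_lit 348)) (XT.nd (nat_lit 78) (nat_lit 76) (nat_lit 0) (XT.lf (nat_lit 0) (nat_lit 221818830) (nat_lit 608) (nat_lit 5750044910) (nat_lit 608) (nat_lit 2437416406) (nat_lit 236) (nat_lit 4) (nat_lit 244) (nat_lit 5) (nat_lit 244) (nat_lit 4) (nat_lit 443) (nat_lit 350) (nat_lit 347)) (XT.lf (nat_lit 0) (nat_lit 1493310857) (nat_lit 684) (nat_lit 1357333555) (nat_lit 76) (nat_lit 5624760713) (nat_lit 235) (nat_lit 5) (nat_lit 244) (nat_lit 5) (nat_lit 236) (nat_lit 4) (nat_lit 444) (nat_lit 350) (nat_lit 346)))) (XT.nd (nat_lit 78) (nat_lit 1064) (nat_lit 0) (XT.lf (nat_lit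 0) (nat_lit 5442280659) (nat_lit 608) (nat_lit 2966581392) (nat_lit 0) (nat_lit 134234811) (nat_lit 228) (nat_lit 5) (nat_lit 236) (nat_lit 4) (nat_lit 228) (nat_lit 4) (nat_lit 445) (nat_lit 350) (nat_lit 345)) (XT.nd (nat_lit 78) (nat_lit 456) (nat_lit 0) (XT.lf (nat_lit 0) (nat_lit 836447621) (nat_lit 608) (nat_lit 4618407501) (nat_lit 76) (nat_lit 3157394932) (nat_lit 220) (nat_lit 5) (nat_lit 228) (nat_lit 5) (nat_lit 221) (nat_lit 4) (nat_lit 446) (nat_lit 350) (nat_lit 344)) (XT.lf (nat_lit 0) (nat_lit 2371927858) (nat_lit 456) (nat_lit 2410417606) (nat_lit 532) (nat_lit 3900613850) (nat_lit 214) (nat_lit 5) (nat_lit 220) (nat_lit 5) (nat_lit 221) (nat_lit 4) (nat_lit 447) (nat_lit 350) (nat_lit 343)))))) (XT.nd (nat_lit 468) (nat_lit 1748) (nat_lit 0) (XT.nd (nat_lit 234) (nat_lit 1520) (nat_lit 0) (XT.nd (nat_lit 78) (nat_lit 456) (nat_lit 0) (XT.lf (nat_lit 0) (nat_lit 28085297) (nat_lit 608) (nat_lit 8031076679)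 (nat_lit 76) (nat_lit 696390899) (nat_lit 206) (nat_lit 5) (nat_lit 214) (nat_lit 5) (nat_lit 207) (nat_lit 4) (nat_lit 448) (nat_lit 350) (nat_lit 342)) (XT.nd (nat_lit 78) (nat_lit 456) (nat_lit 0) (XT.lf (nat_lit 0) (nat_lit 3978448277) (nat_lit 608) (nat_lit 975175812) (nat_lit 76) (nat_lit 3875562640) (nat_lit 206) (nat_lit 5) (nat_lit 214) (nat_lit 5) (nat_lit 207) (nat_lit 4) (nat_lit 449) (nat_lit 350) (nat_lit 341)) (XT.lf (nat_lit 0) (nat_lit 6214533253) (nat_lit 456) (nat_lit 1771552181) (nat_lit 532) (nat_lit 918652749) (nat_lit 200) (nat_lit 5) (nat_lit 206) (nat_lit 5) (nat_lit 207) (nat_lit 4) (nat_lit 450) (nat_lit 350) (nat_lit 340)))) (XT.nd (nat_lit 78) (nat_lit 988) (nat_lit 0) (XT.lf (nat_lit 0) (nat_lit 3035431010) (nat_lit 532) (nat_lit 4461878517) (nat_lit 76) (nat_lit 1484421295) (nat_lit 193) (nat_lit 5) (nat_lit 200) (nat_lit 5) (nat_lit 194) (nat_lit 4) (nat_lit 451) (nat_lit 350) (nat_lit 339))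 (XT.nd (nat_lit 78) (nat_lit 532) (nat_lit 0) (XT.lf (nat_lit 0) (nat_lit 2779661981) (nat_lit 456) (nat_lit 4263204074) (nat_lit 532) (nat_lit 2017554073) (nat_lit 187) (nat_lit 5) (nat_lit 193) (nat_lit 5) (nat_lit 194) (nat_lit 4) (nat_lit 452) (nat_lit 350) (nat_lit 338)) (XT.lf (nat_lit 0) (nat_lit 996618033) (nat_lit 456) (nat_lit 942484546) (nat_lit 532) (nat_lit 7201822914) (nat_lit 180) (nat_lit 5) (nat_lit 186) (nat_lit 5) (nat_lit 187) (nat_lit 5) (nat_lit 453) (nat_lit 350) (nat_lit 337))))) (XT.nd (nat_lit 234) (nat_lit 836) (nat_lit 0) (XT.nd (nat_lit 78) (nat_lit 912) (nat_lit 0) (XT.lf (nat_lit 0) (nat_lit 5945457551) (nat_lit 532) (nat_lit 837241989) (nat_lit 76) (nat_lit 2440132212) (nat_lit 180) (nat_lit 5) (nat_lit 187) (nat_lit 5) (nat_lit 181) (nat_lit 4) (nat_lit 454) (nat_lit 350) (nat_lit 336)) (XT.nd (nat_lit 78) (nat_lit 456) (nat_lit 0) (XT.lf (nat_lit 0) (nat_lit 705562069) (nat_lit 456) (nat_lit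 2703289020) (nat_lit 76) (nat_lit 5897649296) (nat_lit 174) (nat_lit 5) (nat_lit 180) (nat_lit 5) (nat_lit 175) (nat_lit 5) (nat_lit 455) (nat_lit 350) (nat_lit 335)) (XT.lf (nat_lit 0) (nat_lit 4701954031) (nat_lit 532) (nat_lit 4628101725) (nat_lit 76) (nat_lit 61808331) (nat_lit 168) (nat_lit 5) (nat_lit 175) (nat_lit 5) (nat_lit 169) (nat_lit 4) (nat_lit 456) (nat_lit 350) (nat_lit 334)))) (XT.nd (nat_lit 78) (nat_lit 456) (nat_lit 0) (XT.lf (nat_lit 0) (nat_lit 2864026100) (nat_lit 380) (nat_lit 5914725971) (nat_lit 456) (nat_lit 700181845) (nat_lit 163) (nat_lit 5) (nat_lit 168) (nat_lit 5) (nat_lit 169) (nat_lit 4) (nat_lit 457) (nat_lit 350) (nat_lit 333)) (XT.nd (nat_lit 78) (nat_lit 0) (nat_lit 0) (XT.lf (nat_lit 0) (nat_lit 902086763) (nat_lit 380) (nat_lit 2401418305) (nat_lit 456) (nat_lit 6264243570) (nat_lit 157) (nat_lit 5) (nat_lit 162) (nat_lit 5) (nat_lit 163) (nat_lit 5) (nat_lit 458) (nat_lit 350) (nat_lit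 332)) (XT.lf (nat_lit 0) (nat_lit 7371870402) (nat_lit 456) (nat_lit 1100626734) (nat_lit 76) (nat_lit 1185878283) (nat_lit 157) (nat_lit 5) (nat_lit 163) (nat_lit 5) (nat_lit 158) (nat_lit 4) (nat_lit 459) (nat_lit 350) (nat_lit 331))))))) (XT.nd (nat_lit 936) (nat_lit 2736) (nat_lit 0) (XT.nd (nat_lit 468) (nat_lit 1748) (nat_lit 0) (XT.nd (nat_lit 234) (nat_lit 760) (nat_lit 0) (XT.nd (nat_lit 78) (nat_lit 836) (nat_lit 0) (XT.lf (nat_lit 0) (nat_lit 1749068684) (nat_lit 456) (nat_lit 3163852677) (nat_lit 76) (nat_lit 4837640965) (nat_lit 151) (nat_lit 5) (nat_lit 157) (nat_lit 5) (nat_lit 152) (nat_lit 5) (nat_lit 460) (nat_lit 350) (nat_lit 330)) (XT.nd (nat_lit 78) (nat_lit 456) (nat_lit 0) (XT.lf (nat_lit 0) (nat_lit 4554725204) (nat_lit 380) (nat_lit 1259977879) (nat_lit 456) (nat_lit 4029995774) (nat_lit 146) (nat_lit 5) (nat_lit 151) (nat_lit 5) (nat_lit 152) (nat_lit 5) (nat_lit 461) (nat_lit 350) (nat_lit 329))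 (XT.lf (nat_lit 0) (nat_lit 17248664) (nat_lit 456) (nat_lit 7482997564) (nat_lit 76) (nat_lit 2440544534) (nat_lit 140) (nat_lit 5) (nat_lit 146) (nat_lit 5) (nat_lit 141) (nat_lit 5) (nat_lit 462) (nat_lit 350) (nat_lit 328)))) (XT.nd (nat_lit 78) (nat_lit 380) (nat_lit 0) (XT.lf (nat_lit 0) (nat_lit 273831047) (nat_lit 380) (nat_lit 3806993621) (nat_lit 456) (nat_lit 5957667148) (nat_lit 135) (nat_lit 5) (nat_lit 140) (nat_lit 5) (nat_lit 141) (nat_lit 5) (nat_lit 463) (nat_lit 350) (nat_lit 327)) (XT.nd (nat_lit 78) (nat_lit 380) (nat_lit 0) (XT.lf (nat_lit 0) (nat_lit 8199193155) (nat_lit 380) (nat_lit 20673439) (nat_lit 456) (nat_lit 1918403314) (nat_lit 135) (nat_lit 5) (nat_lit 140) (nat_lit 5) (nat_lit 141) (nat_lit 5) (nat_lit 464) (nat_lit 350) (nat_lit 326)) (XT.lf (nat_lit 0) (nat_lit 2181656423) (nat_lit 380) (nat_lit 4244542645) (nat_lit 76) (nat_lit 3813387526) (nat_lit 130) (nat_lit 5) (nat_lit 135) (nat_lit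 5) (nat_lit 131) (nat_lit 5) (nat_lit 465) (nat_lit 350) (nat_lit 325))))) (XT.nd (nat_lit 234) (nat_lit 988) (nat_lit 0) (XT.nd (nat_lit 78) (nat_lit 380) (nat_lit 0) (XT.lf (nat_lit 0) (nat_lit 3719946809) (nat_lit 380) (nat_lit 2600519196) (nat_lit 456) (nat_lit 4022567783) (nat_lit 125) (nat_lit 5) (nat_lit 130) (nat_lit 5) (nat_lit 131) (nat_lit 5) (nat_lit 466) (nat_lit 350) (nat_lit 324)) (XT.nd (nat_lit 78) (nat_lit 0) (nat_lit 0) (XT.lf (nat_lit 0) (nat_lit 83591390) (nat_lit 380) (nat_lit 9074290128) (nat_lit 76) (nat_lit 1290836203) (nat_lit 120) (nat_lit 5) (nat_lit 125) (nat_lit 5) (nat_lit 121) (nat_lit 5) (nat_lit 467) (nat_lit 350) (nat_lit 323)) (XT.lf (nat_lit 0) (nat_lit 4225492962) (nat_lit 380) (nat_lit 1065952459) (nat_lit 76) (nat_lit 5264394631) (nat_lit 120) (nat_lit 5) (nat_lit 125) (nat_lit 5) (nat_lit 121) (nat_lit 5) (nat_lit 468) (nat_lit 350) (nat_lit 322)))) (XT.nd (nat_lit 78) (nat_lit 684)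 (nat_lit 0) (XT.lf (nat_lit 0) (nat_lit 7109678713) (nat_lit 304) (nat_lit 1333254145) (nat_lit 380) (nat_lit 2222323976) (nat_lit 116) (nat_lit 5) (nat_lit 120) (nat_lit 5) (nat_lit 121) (nat_lit 5) (nat_lit 469) (nat_lit 350) (nat_lit 321)) (XT.nd (nat_lit 78) (nat_lit 304) (nat_lit 0) (XT.lf (nat_lit 0) (nat_lit 1943782763) (nat_lit 380) (nat_lit 6146178167) (nat_lit 76) (nat_lit 2686616628) (nat_lit 111) (nat_lit 5) (nat_lit 116) (nat_lit 5) (nat_lit 112) (nat_lit 5) (nat_lit 470) (nat_lit 350) (nat_lit 320)) (XT.lf (nat_lit 0) (nat_lit 2055349863) (nat_lit 304) (nat_lit 4101276206) (nat_lit 380) (nat_lit 4733347072) (nat_lit 107) (nat_lit 5) (nat_lit 111) (nat_lit 5) (nat_lit 112) (nat_lit 5) (nat_lit 471) (nat_lit 350) (nat_lit 319)))))) (XT.nd (nat_lit 468) (nat_lit 1444) (nat_lit 0) (XT.nd (nat_lit 234) (nat_lit 608) (nat_lit 0) (XT.nd (nat_lit 78) (nat_lit 684) (nat_lit 0) (XT.lf (nat_lit 0) (nat_lit 10418243621) (nat_lit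 304) (nat_lit 24160182) (nat_lit 380) (nat_lit 563464835) (nat_lit 107) (nat_lit 5) (nat_lit 111) (nat_lit 5) (nat_lit 112) (nat_lit 5) (nat_lit 472) (nat_lit 350) (nat_lit 318)) (XT.nd (nat_lit 78) (nat_lit 304) (nat_lit 0) (XT.lf (nat_lit 0) (nat_lit 3667422759) (nat_lit 380) (nat_lit 3332851695) (nat_lit 76) (nat_lit 4122813788) (nat_lit 102) (nat_lit 5) (nat_lit 107) (nat_lit 5) (nat_lit 103) (nat_lit 5) (nat_lit 473) (nat_lit 350) (nat_lit 317)) (XT.lf (nat_lit 0) (nat_lit 5078488090) (nat_lit 304) (nat_lit 2882376886) (nat_lit 380) (nat_lit 3282008374) (nat_lit 98) (nat_lit 5) (nat_lit 102) (nat_lit 5) (nat_lit 103) (nat_lit 5) (nat_lit 474) (nat_lit 350) (nat_lit 316)))) (XT.nd (nat_lit 78) (nat_lit 304) (nat_lit 0) (XT.lf (nat_lit 0) (nat_lit 956744111) (nat_lit 304) (nat_lit 9097213410) (nat_lit 76) (nat_lit 1311086820) (nat_lit 94) (nat_lit 5) (nat_lit 98) (nat_lit 5) (nat_lit 95) (nat_lit 5) (nat_lit 475) (nat_lit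 350) (nat_lit 315)) (XT.nd (nat_lit 78) (nat_lit 304) (nat_lit 0) (XT.lf (nat_lit 0) (nat_lit 5245826407) (nat_lit 304) (nat_lit 663298466) (nat_lit 76) (nat_lit 5579914912) (nat_lit 94) (nat_lit 5) (nat_lit 98) (nat_lit 5) (nat_lit 95) (nat_lit 5) (nat_lit 476) (nat_lit 350) (nat_lit 314)) (XT.lf (nat_lit 0) (nat_lit 7959746461) (nat_lit 304) (nat_lit 1662360085) (nat_lit 380) (nat_lit 1993385104) (nat_lit 90) (nat_lit 5) (nat_lit 94) (nat_lit 5) (nat_lit 95) (nat_lit 5) (nat_lit 477) (nat_lit 350) (nat_lit 313))))) (XT.nd (nat_lit 234) (nat_lit 836) (nat_lit 0) (XT.nd (nat_lit 78) (nat_lit 304) (nat_lit 0) (XT.lf (nat_lit 0) (nat_lit 2314885539) (nat_lit 304) (nat_lit 6775935607) (nat_lit 76) (nat_lit 2653268924) (nat_lit 86) (nat_lit 5) (nat_lit 90) (nat_lit 5) (nat_lit 87) (nat_lit 5) (nat_lit 478) (nat_lit 350) (nat_lit 312)) (XT.nd (nat_lit 78) (nat_lit 0) (nat_lit 0) (XT.lf (nat_lit 0) (nat_lit 1854985542) (nat_lit 304)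 (nat_lit 4825484408) (nat_lit 380) (nat_lit 5194574744) (nat_lit 82) (nat_lit 5) (nat_lit 86) (nat_lit 5) (nat_lit 87) (nat_lit 5) (nat_lit 479) (nat_lit 350) (nat_lit 311)) (XT.lf (nat_lit 0) (nat_lit 10666642118) (nat_lit 304) (nat_lit 462697034) (nat_lit 380) (nat_lit 879364262) (nat_lit 82) (nat_lit 5) (nat_lit 86) (nat_lit 5) (nat_lit 87) (nat_lit 5) (nat_lit 480) (nat_lit 350) (nat_lit 310)))) (XT.nd (nat_lit 78) (nat_lit 532) (nat_lit 0) (XT.lf (nat_lit 0) (nat_lit 3501956875) (nat_lit 304) (nat_lit 4668449741) (nat_lit 76) (nat_lit 3973655620) (nat_lit 78) (nat_lit 5) (nat_lit 82) (nat_lit 5) (nat_lit 79) (nat_lit 5) (nat_lit 481) (nat_lit 350) (nat_lit 309)) (XT.nd (nat_lit 78) (nat_lit 304) (nat_lit 0) (XT.lf (nat_lit 0) (nat_lit 4168655428) (nat_lit 228) (nat_lit 3781033568) (nat_lit 304) (nat_lit 4332516011) (nat_lit 75) (nat_lit 5) (nat_lit 78) (nat_lit 5) (nat_lit 79) (nat_lit 5) (nat_lit 482) (nat_lit 350) (nat_lit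 308)) (XT.lf (nat_lit 0) (nat_lit 54824173) (nat_lit 304) (nat_lit 11678434201) (nat_lit 76) (nat_lit 690000314) (nat_lit 71) (nat_lit 5) (nat_lit 75) (nat_lit 5) (nat_lit 72) (nat_lit 5) (nat_lit 483) (nat_lit 350) (nat_lit 307))))))))
noncomputable def xc26 : XT := (XT.nd (nat_lit 1794) (nat_lit 152) (nat_lit 0) (XT.nd (nat_lit 858) (nat_lit 1596) (nat_lit 0) (XT.nd (nat_lit 390) (nat_lit 912) (nat_lit 0) (XT.nd (nat_lit 156) (nat_lit 532) (nat_lit 0) (XT.nd (nat_lit 78) (nat_lit 228) (nat_lit 0) (XT.lf (nat_lit 0) (nat_lit 4503440940) (nat_lit 304) (nat_lit 2813043877) (nat_lit 76) (nat_lit 5249448989) (nat_lit 71) (nat_lit 5) (nat_lit 75) (nat_lit 5) (nat_lit 72) (nat_lit 5) (nat_lit 484) (nat_lit 350) (nat_lit 306)) (XT.lf (nat_lit 0) (nat_lit 6229736797) (nat_lit 228) (nat_lit 2804330264) (nat_lit 304) (nat_lit 3677538513) (nat_lit 68) (nat_lit 5) (nat_lit 71) (nat_lit 5) (nat_lit 72) (nat_lit 5) (nat_lit 485) (nat_lit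 350) (nat_lit 305))) (XT.nd (nat_lit 78) (nat_lit 228) (nat_lit 0) (XT.lf (nat_lit 0) (nat_lit 784829591) (nat_lit 304) (nat_lit 10293540383) (nat_lit 76) (nat_lit 1781718438) (nat_lit 64) (nat_lit 5) (nat_lit 68) (nat_lit 5) (nat_lit 65) (nat_lit 5) (nat_lit 486) (nat_lit 350) (nat_lit 304)) (XT.nd (nat_lit 78) (nat_lit 228) (nat_lit 0) (XT.lf (nat_lit 0) (nat_lit 5302461304) (nat_lit 304) (nat_lit 1251987980) (nat_lit 76) (nat_lit 6456303946) (nat_lit 64) (nat_lit 5) (nat_lit 68) (nat_lit 5) (nat_lit 65) (nat_lit 5) (nat_lit 487) (nat_lit 350) (nat_lit 303)) (XT.lf (nat_lit 0) (nat_lit 7994957365) (nat_lit 228) (nat_lit 1921177169) (nat_lit 304) (nat_lit 3248186624) (nat_lit 61) (nat_lit 5) (nat_lit 64) (nat_lit 5) (nat_lit 65) (nat_lit 5) (nat_lit 488) (nat_lit 350) (nat_lit 302))))) (XT.nd (nat_lit 234) (nat_lit 456) (nat_lit 0) (XT.nd (nat_lit 78) (nat_lit 228) (nat_lit 0) (XT.lf (nat_lit 0) (nat_lit 1291191305) (nat_lit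 228) (nat_lit 9251546898) (nat_lit 76) (nat_lit 2777914042) (nat_lit 58) (nat_lit 5) (nat_lit 61) (nat_lit 5) (nat_lit 59) (nat_lit 5) (nat_lit 489) (nat_lit 350) (nat_lit 301)) (XT.nd (nat_lit 78) (nat_lit 228) (nat_lit 0) (XT.lf (nat_lit 0) (nat_lit 5879572651) (nat_lit 228) (nat_lit 32014101) (nat_lit 76) (nat_lit 7568062993) (nat_lit 58) (nat_lit 5) (nat_lit 61) (nat_lit 5) (nat_lit 59) (nat_lit 5) (nat_lit 490) (nat_lit 350) (nat_lit 300)) (XT.lf (nat_lit 0) (nat_lit 9416437065) (nat_lit 228) (nat_lit 1159350268) (nat_lit 304) (nat_lit 3065721867) (nat_lit 55) (nat_lit 5) (nat_lit 58) (nat_lit 5) (nat_lit 59) (nat_lit 5) (nat_lit 491) (nat_lit 350) (nat_lit 299)))) (XT.nd (nat_lit 78) (nat_lit 228) (nat_lit 0) (XT.lf (nat_lit 0) (nat_lit 1552043285) (nat_lit 228) (nat_lit 8603574202) (nat_lit 76) (nat_lit 3650525592) (nat_lit 52) (nat_lit 5) (nat_lit 55) (nat_lit 5) (nat_lit 53) (nat_lit 5) (nat_lit 492) (nat_lit 350)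 (nat_lit 298)) (XT.nd (nat_lit 78) (nat_lit 0) (nat_lit 0) (XT.lf (nat_lit 0) (nat_lit 805723354) (nat_lit 228) (nat_lit 5412033473) (nat_lit 304) (nat_lit 7755977786) (nat_lit 49) (nat_lit 5) (nat_lit 52) (nat_lit 5) (nat_lit 53) (nat_lit 5) (nat_lit 493) (nat_lit 350) (nat_lit 297)) (XT.lf (nat_lit 0) (nat_lit 10441144108) (nat_lit 228) (nat_lit 548898863) (nat_lit 304) (nat_lit 3154372905) (nat_lit 49) (nat_lit 5) (nat_lit 52) (nat_lit 5) (nat_lit 53) (nat_lit 5) (nat_lit 494) (nat_lit 350) (nat_lit 296)))))) (XT.nd (nat_lit 468) (nat_lit 760) (nat_lit 0) (XT.nd (nat_lit 234) (nat_lit 380) (nat_lit 0) (XT.nd (nat_lit 78) (nat_lit 228) (nat_lit 0) (XT.lf (nat_lit 0) (nat_lit 1542497472) (nat_lit 228) (nat_lit 8406209236) (nat_lit 76) (nat_lit 4369138702) (nat_lit 46) (nat_lit 5) (nat_lit 49) (nat_lit 5) (nat_lit 47) (nat_lit 5) (nat_lit 495) (nat_lit 350) (nat_lit 295)) (XT.nd (nat_lit 78) (nat_lit 0) (nat_lit 0) (XT.lf (nat_lit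 0) (nat_lit 1187809924) (nat_lit 228) (nat_lit 5095905211) (nat_lit 304) (nat_lit 8210761342) (nat_lit 43) (nat_lit 5) (nat_lit 46) (nat_lit 5) (nat_lit 47) (nat_lit 5) (nat_lit 496) (nat_lit 350) (nat_lit 294)) (XT.lf (nat_lit 0) (nat_lit 11010296728) (nat_lit 228) (nat_lit 122471007) (nat_lit 304) (nat_lit 3541615051) (nat_lit 43) (nat_lit 5) (nat_lit 46) (nat_lit 5) (nat_lit 47) (nat_lit 5) (nat_lit 497) (nat_lit 350) (nat_lit 293)))) (XT.nd (nat_lit 78) (nat_lit 152) (nat_lit 0) (XT.lf (nat_lit 0) (nat_lit 1234355821) (nat_lit 228) (nat_lit 8722132350) (nat_lit 76) (nat_lit 4900654150) (nat_lit 40) (nat_lit 5) (nat_lit 43) (nat_lit 5) (nat_lit 41) (nat_lit 5) (nat_lit 498) (nat_lit 350) (nat_lit 292)) (XT.nd (nat_lit 78) (nat_lit 0) (nat_lit 0) (XT.lf (nat_lit 0) (nat_lit 1049477258) (nat_lit 152) (nat_lit 4998663602) (nat_lit 228) (nat_lit 8995156314) (nat_lit 38) (nat_lit 5) (nat_lit 40) (nat_lit 5) (nat_lit 41) (nat_lit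 5) (nat_lit 499) (nat_lit 350) (nat_lit 291)) (XT.lf (nat_lit 0) (nat_lit 10974919721) (nat_lit 228) (nat_lit 4174697207) (nat_lit 76) (nat_lit 83226451) (nat_lit 38) (nat_lit 5) (nat_lit 41) (nat_lit 5) (nat_lit 39) (nat_lit 4) (nat_lit 500) (nat_lit 350) (nat_lit 290))))) (XT.nd (nat_lit 234) (nat_lit 380) (nat_lit 0) (XT.nd (nat_lit 78) (nat_lit 152) (nat_lit 0) (XT.lf (nat_lit 0) (nat_lit 595789235) (nat_lit 228) (nat_lit 9620807539) (nat_lit 76) (nat_lit 5208926417) (nat_lit 35) (nat_lit 5) (nat_lit 38) (nat_lit 5) (nat_lit 36) (nat_lit 5) (nat_lit 501) (nat_lit 350) (nat_lit 289)) (XT.nd (nat_lit 78) (nat_lit 0) (nat_lit 0) (XT.lf (nat_lit 0) (nat_lit 319379872) (nat_lit 152) (nat_lit 5158823333) (nat_lit 228) (nat_lit 10143520155) (nat_lit 33) (nat_lit 5) (nat_lit 35) (nat_lit 5) (nat_lit 36) (nat_lit 5) (nat_lit 502) (nat_lit 350) (nat_lit 288)) (XT.lf (nat_lit 0) (nat_lit 10481683290) (nat_lit 228) (nat_lit 5307553460)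 (nat_lit 76) (nat_lit 32144843) (nat_lit 33) (nat_lit 5) (nat_lit 36) (nat_lit 5) (nat_lit 34) (nat_lit 4) (nat_lit 503) (nat_lit 350) (nat_lit 287)))) (XT.nd (nat_lit 78) (nat_lit 228) (nat_lit 0) (XT.lf (nat_lit 0) (nat_lit 4842604595) (nat_lit 152) (nat_lit 10767478209) (nat_lit 228) (nat_lit 414455561) (nat_lit 31) (nat_lit 5) (nat_lit 33) (nat_lit 5) (nat_lit 34) (nat_lit 4) (nat_lit 504) (nat_lit 350) (nat_lit 286)) (XT.nd (nat_lit 78) (nat_lit 152) (nat_lit 0) (XT.lf (nat_lit 0) (nat_lit 4543989306) (nat_lit 228) (nat_lit 1067429495) (nat_lit 76) (nat_lit 10619840237) (nat_lit 30) (nat_lit 5) (nat_lit 33) (nat_lit 5) (nat_lit 31) (nat_lit 5) (nat_lit 505) (nat_lit 350) (nat_lit 285)) (XT.lf (nat_lit 0) (nat_lit 9296057042) (nat_lit 152) (nat_lit 320452546) (nat_lit 228) (nat_lit 6825142857) (nat_lit 28) (nat_lit 5) (nat_lit 30) (nat_lit 5) (nat_lit 31) (nat_lit 5) (nat_lit 506) (nat_lit 350) (nat_lit 284))))))) (XT.nd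 (nat_lit 54834) (nat_lit 0) (nat_lit 9500) (XT.nd (nat_lit 54366) (nat_lit 0) (nat_lit 13680) (XT.nd (nat_lit 54132) (nat_lit 0) (nat_lit 16568) (XT.nd (nat_lit 53976) (nat_lit 0) (nat_lit 18468) (XT.lf (nat_lit 0) (nat_lit 3161034088) (nat_lit 152) (nat_lit 11650338299) (nat_lit 228) (nat_lit 1844465682) (nat_lit 26) (nat_lit 5) (nat_lit 28) (nat_lit 5) (nat_lit 29) (nat_lit 4) (nat_lit 507) (nat_lit 350) (nat_lit 283)) (XT.nd (nat_lit 78) (nat_lit 608) (nat_lit 0) (XT.lf (nat_lit 0) (nat_lit 1949631285) (nat_lit 684) (nat_lit 150824669) (nat_lit 0) (nat_lit 1949631285) (nat_lit 277) (nat_lit 5) (nat_lit 286) (nat_lit 4) (nat_lit 277) (nat_lit 4) (nat_lit 438) (nat_lit 351) (nat_lit 351)) (XT.lf (nat_lit 0) (nat_lit 6310710028) (nat_lit 608) (nat_lit 1522007794) (nat_lit 608) (nat_lit 326932138) (nat_lit 269) (nat_lit 4) (nat_lit 277) (nat_lit 5) (nat_lit 277) (nat_lit 4) (nat_lit 439) (nat_lit 351) (nat_lit 350)))) (XT.nd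 (nat_lit 78) (nat_lit 1216) (nat_lit 0) (XT.lf (nat_lit 0) (nat_lit 3551645128) (nat_lit 684) (nat_lit 3437386434) (nat_lit 0) (nat_lit 1231332915) (nat_lit 260) (nat_lit 5) (nat_lit 269) (nat_lit 4) (nat_lit 260) (nat_lit 4) (nat_lit 440) (nat_lit 351) (nat_lit 349)) (XT.nd (nat_lit 78) (nat_lit 608) (nat_lit 0) (XT.lf (nat_lit 0) (nat_lit 3232820826) (nat_lit 608) (nat_lit 4248174682) (nat_lit 608) (nat_lit 801715986) (nat_lit 252) (nat_lit 4) (nat_lit 260) (nat_lit 5) (nat_lit 260) (nat_lit 4) (nat_lit 441) (nat_lit 351) (nat_lit 348)) (XT.lf (nat_lit 0) (nat_lit 1650156624) (nat_lit 532) (nat_lit 1419487187) (nat_lit 608) (nat_lit 5276901417) (nat_lit 244) (nat_lit 5) (nat_lit 251) (nat_lit 5) (nat_lit 252) (nat_lit 4) (nat_lit 442) (nat_lit 351) (nat_lit 347))))) (XT.nd (nat_lit 234) (nat_lit 1672) (nat_lit 0) (XT.nd (nat_lit 78) (nat_lit 608) (nat_lit 0) (XT.lf (nat_lit 0) (nat_lit 38435818) (nat_lit 608) (nat_lit 6948020888)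 (nat_lit 608) (nat_lit 1425529988) (nat_lit 236) (nat_lit 4) (nat_lit 244) (nat_lit 5) (nat_lit 244) (nat_lit 4) (nat_lit 443) (nat_lit 351) (nat_lit 346)) (XT.nd (nat_lit 78) (nat_lit 532) (nat_lit 0) (XT.lf (nat_lit 0) (nat_lit 2459816837) (nat_lit 684) (nat_lit 1594046165) (nat_lit 76) (nat_lit 4424765295) (nat_lit 235) (nat_lit 5) (nat_lit 244) (nat_lit 5) (nat_lit 236) (nat_lit 4) (nat_lit 444) (nat_lit 351) (nat_lit 345)) (XT.lf (nat_lit 0) (nat_lit 5293794473) (nat_lit 532) (nat_lit 1080787811) (nat_lit 608) (nat_lit 2172427558) (nat_lit 228) (nat_lit 5) (nat_lit 235) (nat_lit 5) (nat_lit 236) (nat_lit 4) (nat_lit 445) (nat_lit 351) (nat_lit 344)))) (XT.nd (nat_lit 78) (nat_lit 1064) (nat_lit 0) (XT.lf (nat_lit 0) (nat_lit 1712027314) (nat_lit 608) (nat_lit 4956261287) (nat_lit 76) (nat_lit 1948572036) (nat_lit 220) (nat_lit 5) (nat_lit 228) (nat_lit 5) (nat_lit 221) (nat_lit 4) (nat_lit 446) (nat_lit 351) (nat_lit 343))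 (XT.nd (nat_lit 78) (nat_lit 608) (nat_lit 0) (XT.lf (nat_lit 0) (nat_lit 1985414821) (nat_lit 456) (nat_lit 3638905210) (nat_lit 532) (nat_lit 3063927359) (nat_lit 214) (nat_lit 5) (nat_lit 220) (nat_lit 5) (nat_lit 221) (nat_lit 4) (nat_lit 447) (nat_lit 351) (nat_lit 342)) (XT.lf (nat_lit 0) (nat_lit 282335746) (nat_lit 532) (nat_lit 533004186) (nat_lit 608) (nat_lit 7946166724) (nat_lit 206) (nat_lit 5) (nat_lit 213) (nat_lit 5) (nat_lit 214) (nat_lit 5) (nat_lit 448) (nat_lit 351) (nat_lit 341)))))) (XT.nd (nat_lit 468) (nat_lit 2204) (nat_lit 0) (XT.nd (nat_lit 234) (nat_lit 988) (nat_lit 0) (XT.nd (nat_lit 78) (nat_lit 988) (nat_lit 0) (XT.lf (nat_lit 0) (nat_lit 4731508655) (nat_lit 608) (nat_lit 1463777020) (nat_lit 76) (nat_lit 2640543800) (nat_lit 206) (nat_lit 5) (nat_lit 214) (nat_lit 5) (nat_lit 207) (nat_lit 4) (nat_lit 449) (nat_lit 351) (nat_lit 340)) (XT.nd (nat_lit 78) (nat_lit 532) (nat_lit 0) (XT.lf (nat_lit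 0) (nat_lit 5675760459) (nat_lit 456) (nat_lit 3029756263) (nat_lit 532) (nat_lit 206541767) (nat_lit 200) (nat_lit 5) (nat_lit 206) (nat_lit 5) (nat_lit 207) (nat_lit 4) (nat_lit 450) (nat_lit 351) (nat_lit 339)) (XT.lf (nat_lit 0) (nat_lit 3696024389) (nat_lit 532) (nat_lit 5063375027) (nat_lit 76) (nat_lit 230407592) (nat_lit 193) (nat_lit 5) (nat_lit 200) (nat_lit 5) (nat_lit 194) (nat_lit 4) (nat_lit 451) (nat_lit 351) (nat_lit 338)))) (XT.nd (nat_lit 78) (nat_lit 532) (nat_lit 0) (XT.lf (nat_lit 0) (nat_lit 2126140150) (nat_lit 456) (nat_lit 5543279587) (nat_lit 532) (nat_lit 1399762064) (nat_lit 187) (nat_lit 5) (nat_lit 193) (nat_lit 5) (nat_lit 194) (nat_lit 4) (nat_lit 452) (nat_lit 351) (nat_lit 337)) (XT.nd (nat_lit 78) (nat_lit 0) (nat_lit 0) (XT.lf (nat_lit 0) (nat_lit 277322232) (nat_lit 456) (nat_lit 2237107271) (nat_lit 532) (nat_lit 6635869204) (nat_lit 180) (nat_lit 5) (nat_lit 186) (nat_lit 5) (nat_lit 187)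 (nat_lit 5) (nat_lit 453) (nat_lit 351) (nat_lit 336)) (XT.lf (nat_lit 0) (nat_lit 6482897456) (nat_lit 532) (nat_lit 1601288382) (nat_lit 76) (nat_lit 1148781289) (nat_lit 180) (nat_lit 5) (nat_lit 187) (nat_lit 5) (nat_lit 181) (nat_lit 4) (nat_lit 454) (nat_lit 351) (nat_lit 335))))) (XT.nd (nat_lit 234) (nat_lit 912) (nat_lit 0) (XT.nd (nat_lit 78) (nat_lit 836) (nat_lit 0) (XT.lf (nat_lit 0) (nat_lit 1191507634) (nat_lit 456) (nat_lit 3535005038) (nat_lit 76) (nat_lit 4590747731) (nat_lit 174) (nat_lit 5) (nat_lit 180) (nat_lit 5) (nat_lit 175) (nat_lit 5) (nat_lit 455) (nat_lit 351) (nat_lit 334)) (XT.nd (nat_lit 78) (nat_lit 380) (nat_lit 0) (XT.lf (nat_lit 0) (nat_lit 3877807169) (nat_lit 456) (nat_lit 1275123676) (nat_lit 532) (nat_lit 4250396803) (nat_lit 168) (nat_lit 5) (nat_lit 174) (nat_lit 5) (nat_lit 175) (nat_lit 5) (nat_lit 456) (nat_lit 351) (nat_lit 333)) (XT.lf (nat_lit 0) (nat_lit 1919267543) (nat_lit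 380) (nat_lit 7267436125) (nat_lit 456) (nat_lit 304558397) (nat_lit 163) (nat_lit 5) (nat_lit 168) (nat_lit 5) (nat_lit 169) (nat_lit 4) (nat_lit 457) (nat_lit 351) (nat_lit 332)))) (XT.nd (nat_lit 78) (nat_lit 836) (nat_lit 0) (XT.lf (nat_lit 0) (nat_lit 3659561265) (nat_lit 456) (nat_lit 112726265) (nat_lit 76) (nat_lit 5808429382) (nat_lit 162) (nat_lit 5) (nat_lit 168) (nat_lit 5) (nat_lit 163) (nat_lit 5) (nat_lit 458) (nat_lit 351) (nat_lit 331)) (XT.nd (nat_lit 78) (nat_lit 456) (nat_lit 0) (XT.lf (nat_lit 0) (nat_lit 7506353854) (nat_lit 380) (nat_lit 184787456) (nat_lit 456) (nat_lit 1980941939) (nat_lit 157) (nat_lit 5) (nat_lit 162) (nat_lit 5) (nat_lit 163) (nat_lit 5) (nat_lit 459) (nat_lit 351) (nat_lit 330)) (XT.lf (nat_lit 0) (nat_lit 2014118306) (nat_lit 456) (nat_lit 4301302795) (nat_lit 76) (nat_lit 3449543195) (nat_lit 151) (nat_lit 5) (nat_lit 157) (nat_lit 5) (nat_lit 152) (nat_lit 5) (nat_lit 460) (nat_lit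 351) (nat_lit 329))))))))
noncomputable def xc27 : XT := (XT.nd (nat_lit 1794) (nat_lit 3572) (nat_lit 0) (XT.nd (nat_lit 858) (nat_lit 2432) (nat_lit 0) (XT.nd (nat_lit 390) (nat_lit 1748) (nat_lit 0) (XT.nd (nat_lit 156) (nat_lit 760) (nat_lit 0) (XT.nd (nat_lit 78) (nat_lit 456) (nat_lit 0) (XT.lf (nat_lit 0) (nat_lit 3358838783) (nat_lit 380) (nat_lit 2685450886) (nat_lit 456) (nat_lit 3815524046) (nat_lit 146) (nat_lit 5) (nat_lit 151) (nat_lit 5) (nat_lit 152) (nat_lit 5) (nat_lit 461) (nat_lit 351) (nat_lit 328)) (XT.lf (nat_lit 0) (nat_lit 183633636) (nat_lit 456) (nat_lit 8761322567) (nat_lit 76) (nat_lit 1011830532) (nat_lit 140) (nat_lit 5) (nat_lit 146) (nat_lit 5) (nat_lit 141) (nat_lit 5) (nat_lit 462) (nat_lit 351) (nat_lit 327))) (XT.nd (nat_lit 78) (nat_lit 760) (nat_lit 0) (XT.lf (nat_lit 0) (nat_lit 4217981819) (nat_lit 456) (nat_lit 1051096415) (nat_lit 76) (nat_lit 4785997530) (nat_lit 140) (nat_lit 5)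 (nat_lit 146) (nat_lit 5) (nat_lit 141) (nat_lit 5) (nat_lit 463) (nat_lit 351) (nat_lit 326)) (XT.nd (nat_lit 78) (nat_lit 380) (nat_lit 0) (XT.lf (nat_lit 0) (nat_lit 6817569025) (nat_lit 380) (nat_lit 1505350496) (nat_lit 456) (nat_lit 1832619770) (nat_lit 135) (nat_lit 5) (nat_lit 140) (nat_lit 5) (nat_lit 141) (nat_lit 5) (nat_lit 464) (nat_lit 351) (nat_lit 325)) (XT.lf (nat_lit 0) (nat_lit 2220195547) (nat_lit 380) (nat_lit 5713591926) (nat_lit 76) (nat_lit 2323982975) (nat_lit 130) (nat_lit 5) (nat_lit 135) (nat_lit 5) (nat_lit 131) (nat_lit 5) (nat_lit 465) (nat_lit 351) (nat_lit 324))))) (XT.nd (nat_lit 234) (nat_lit 988) (nat_lit 0) (XT.nd (nat_lit 78) (nat_lit 380) (nat_lit 0) (XT.lf (nat_lit 0) (nat_lit 2188403958) (nat_lit 380) (nat_lit 4133975369) (nat_lit 456) (nat_lit 4039573988) (nat_lit 125) (nat_lit 5) (nat_lit 130) (nat_lit 5) (nat_lit 131) (nat_lit 5) (nat_lit 466) (nat_lit 351) (nat_lit 323)) (XT.nd (nat_lit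 78) (nat_lit 304) (nat_lit 0) (XT.lf (nat_lit 0) (nat_lit 22725483) (nat_lit 456) (nat_lit 227886440) (nat_lit 76) (nat_lit 10217912222) (nat_lit 124) (nat_lit 5) (nat_lit 130) (nat_lit 5) (nat_lit 125) (nat_lit 5) (nat_lit 467) (nat_lit 351) (nat_lit 322)) (XT.lf (nat_lit 0) (nat_lit 4135025162) (nat_lit 380) (nat_lit 2732126982) (nat_lit 76) (nat_lit 3709089346) (nat_lit 120) (nat_lit 5) (nat_lit 125) (nat_lit 5) (nat_lit 121) (nat_lit 5) (nat_lit 468) (nat_lit 351) (nat_lit 321)))) (XT.nd (nat_lit 78) (nat_lit 684) (nat_lit 0) (XT.lf (nat_lit 0) (nat_lit 5379009430) (nat_lit 304) (nat_lit 2936272335) (nat_lit 380) (nat_lit 2371123091) (nat_lit 116) (nat_lit 5) (nat_lit 120) (nat_lit 5) (nat_lit 121) (nat_lit 5) (nat_lit 469) (nat_lit 351) (nat_lit 320)) (XT.nd (nat_lit 78) (nat_lit 304) (nat_lit 0) (XT.lf (nat_lit 0) (nat_lit 1748664260) (nat_lit 380) (nat_lit 7974049631) (nat_lit 76) (nat_lit 1075999233) (nat_lit 111) (nat_lit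 5) (nat_lit 116) (nat_lit 5) (nat_lit 112) (nat_lit 5) (nat_lit 470) (nat_lit 351) (nat_lit 319)) (XT.lf (nat_lit 0) (nat_lit 160623634) (nat_lit 304) (nat_lit 5762835427) (nat_lit 380) (nat_lit 4989413365) (nat_lit 107) (nat_lit 5) (nat_lit 111) (nat_lit 5) (nat_lit 112) (nat_lit 5) (nat_lit 471) (nat_lit 351) (nat_lit 318)))))) (XT.nd (nat_lit 468) (nat_lit 1140) (nat_lit 0) (XT.nd (nat_lit 234) (nat_lit 608) (nat_lit 0) (XT.nd (nat_lit 78) (nat_lit 684) (nat_lit 0) (XT.lf (nat_lit 0) (nat_lit 8481788653) (nat_lit 304) (nat_lit 1701935364) (nat_lit 380) (nat_lit 845556858) (nat_lit 107) (nat_lit 5) (nat_lit 111) (nat_lit 5) (nat_lit 112) (nat_lit 5) (nat_lit 472) (nat_lit 351) (nat_lit 317)) (XT.nd (nat_lit 78) (nat_lit 304) (nat_lit 0) (XT.lf (nat_lit 0) (nat_lit 3339599679) (nat_lit 380) (nat_lit 5371825908) (nat_lit 76) (nat_lit 2436102728) (nat_lit 102) (nat_lit 5) (nat_lit 107) (nat_lit 5) (nat_lit 103) (nat_lit 5) (nat_lit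 473) (nat_lit 351) (nat_lit 316)) (XT.lf (nat_lit 0) (nat_lit 2970493184) (nat_lit 304) (nat_lit 4623805088) (nat_lit 380) (nat_lit 3673792561) (nat_lit 98) (nat_lit 5) (nat_lit 102) (nat_lit 5) (nat_lit 103) (nat_lit 5) (nat_lit 474) (nat_lit 351) (nat_lit 315)))) (XT.nd (nat_lit 78) (nat_lit 304) (nat_lit 0) (XT.lf (nat_lit 0) (nat_lit 75657779) (nat_lit 228) (nat_lit 446525152) (nat_lit 304) (nat_lit 10869090517) (nat_lit 94) (nat_lit 5) (nat_lit 97) (nat_lit 5) (nat_lit 98) (nat_lit 5) (nat_lit 475) (nat_lit 351) (nat_lit 314)) (XT.nd (nat_lit 78) (nat_lit 304) (nat_lit 0) (XT.lf (nat_lit 0) (nat_lit 4783483042) (nat_lit 304) (nat_lit 2920356945) (nat_lit 76) (nat_lit 3811986943) (nat_lit 94) (nat_lit 5) (nat_lit 98) (nat_lit 5) (nat_lit 95) (nat_lit 5) (nat_lit 476) (nat_lit 351) (nat_lit 313)) (XT.lf (nat_lit 0) (nat_lit 5631410896) (nat_lit 304) (nat_lit 3488840039) (nat_lit 380) (nat_lit 2522820449) (nat_lit 90) (nat_lit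 5) (nat_lit 94) (nat_lit 5) (nat_lit 95) (nat_lit 5) (nat_lit 477) (nat_lit 351) (nat_lit 312))))) (XT.nd (nat_lit 234) (nat_lit 532) (nat_lit 0) (XT.nd (nat_lit 78) (nat_lit 304) (nat_lit 0) (XT.lf (nat_lit 0) (nat_lit 1740214012) (nat_lit 304) (nat_lit 9217376985) (nat_lit 76) (nat_lit 815193409) (nat_lit 86) (nat_lit 5) (nat_lit 90) (nat_lit 5) (nat_lit 87) (nat_lit 5) (nat_lit 478) (nat_lit 351) (nat_lit 311)) (XT.nd (nat_lit 78) (nat_lit 304) (nat_lit 0) (XT.lf (nat_lit 0) (nat_lit 6069520297) (nat_lit 304) (nat_lit 651692432) (nat_lit 76) (nat_lit 5183254073) (nat_lit 86) (nat_lit 5) (nat_lit 90) (nat_lit 5) (nat_lit 87) (nat_lit 5) (nat_lit 479) (nat_lit 351) (nat_lit 310)) (XT.lf (nat_lit 0) (nat_lit 8110664496) (nat_lit 304) (nat_lit 2379414550) (nat_lit 380) (nat_lit 1548614852) (nat_lit 82) (nat_lit 5) (nat_lit 86) (nat_lit 5) (nat_lit 87) (nat_lit 5) (nat_lit 480) (nat_lit 351) (nat_lit 309)))) (XT.nd (nat_lit 78)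 (nat_lit 228) (nat_lit 0) (XT.lf (nat_lit 0) (nat_lit 2787830620) (nat_lit 304) (nat_lit 7343278304) (nat_lit 76) (nat_lit 2044105845) (nat_lit 78) (nat_lit 5) (nat_lit 82) (nat_lit 5) (nat_lit 79) (nat_lit 5) (nat_lit 481) (nat_lit 351) (nat_lit 308)) (XT.nd (nat_lit 78) (nat_lit 0) (nat_lit 0) (XT.lf (nat_lit 0) (nat_lit 1417483927) (nat_lit 228) (nat_lit 5776605807) (nat_lit 304) (nat_lit 5120099309) (nat_lit 75) (nat_lit 5) (nat_lit 78) (nat_lit 5) (nat_lit 79) (nat_lit 5) (nat_lit 482) (nat_lit 351) (nat_lit 307)) (XT.lf (nat_lit 0) (nat_lit 10372209643) (nat_lit 228) (nat_lit 1318258895) (nat_lit 304) (nat_lit 765438419) (nat_lit 75) (nat_lit 5) (nat_lit 78) (nat_lit 5) (nat_lit 79) (nat_lit 5) (nat_lit 483) (nat_lit 351) (nat_lit 306))))))) (XT.nd (nat_lit 936) (nat_lit 1368) (nat_lit 0) (XT.nd (nat_lit 468) (nat_lit 912) (nat_lit 0) (XT.nd (nat_lit 234) (nat_lit 760) (nat_lit 0) (XT.nd (nat_lit 78) (nat_lit 228) (nat_lit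 0) (XT.lf (nat_lit 0) (nat_lit 3647388302) (nat_lit 304) (nat_lit 5728966550) (nat_lit 76) (nat_lit 3223245121) (nat_lit 71) (nat_lit 5) (nat_lit 75) (nat_lit 5) (nat_lit 72) (nat_lit 5) (nat_lit 484) (nat_lit 351) (nat_lit 305)) (XT.nd (nat_lit 78) (nat_lit 0) (nat_lit 0) (XT.lf (nat_lit 0) (nat_lit 3234922159) (nat_lit 228) (nat_lit 4900637571) (nat_lit 304) (nat_lit 4610562992) (nat_lit 68) (nat_lit 5) (nat_lit 71) (nat_lit 5) (nat_lit 72) (nat_lit 5) (nat_lit 485) (nat_lit 351) (nat_lit 304)) (XT.lf (nat_lit 0) (nat_lit 12376251596) (nat_lit 228) (nat_lit 329601685) (nat_lit 304) (nat_lit 189879208) (nat_lit 68) (nat_lit 5) (nat_lit 71) (nat_lit 5) (nat_lit 72) (nat_lit 5) (nat_lit 486) (nat_lit 351) (nat_lit 303)))) (XT.nd (nat_lit 78) (nat_lit 456) (nat_lit 0) (XT.lf (nat_lit 0) (nat_lit 4301781509) (nat_lit 304) (nat_lit 4416986727) (nat_lit 76) (nat_lit 4328224732) (nat_lit 64) (nat_lit 5) (nat_lit 68) (nat_lit 5) (nat_lit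 65) (nat_lit 5) (nat_lit 487) (nat_lit 351) (nat_lit 302)) (XT.nd (nat_lit 78) (nat_lit 228) (nat_lit 0) (XT.lf (nat_lit 0) (nat_lit 4748409747) (nat_lit 228) (nat_lit 4123533870) (nat_lit 304) (nat_lit 4329489246) (nat_lit 61) (nat_lit 5) (nat_lit 64) (nat_lit 5) (nat_lit 65) (nat_lit 5) (nat_lit 488) (nat_lit 351) (nat_lit 301)) (XT.lf (nat_lit 0) (nat_lit 165265760) (nat_lit 228) (nat_lit 12634801548) (nat_lit 76) (nat_lit 559014815) (nat_lit 58) (nat_lit 5) (nat_lit 61) (nat_lit 5) (nat_lit 59) (nat_lit 5) (nat_lit 489) (nat_lit 351) (nat_lit 300))))) (XT.nd (nat_lit 234) (nat_lit 456) (nat_lit 0) (XT.nd (nat_lit 78) (nat_lit 456) (nat_lit 0) (XT.lf (nat_lit 0) (nat_lit 4731334212) (nat_lit 228) (nat_lit 3454363083) (nat_lit 76) (nat_lit 5332830229) (nat_lit 58) (nat_lit 5) (nat_lit 61) (nat_lit 5) (nat_lit 59) (nat_lit 5) (nat_lit 490) (nat_lit 351) (nat_lit 299)) (XT.nd (nat_lit 78) (nat_lit 228) (nat_lit 0) (XT.lf (nat_lit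 0) (nat_lit 5909769734) (nat_lit 228) (nat_lit 3473136164) (nat_lit 304) (nat_lit 4298375552) (nat_lit 55) (nat_lit 5) (nat_lit 58) (nat_lit 5) (nat_lit 59) (nat_lit 5) (nat_lit 491) (nat_lit 351) (nat_lit 298)) (XT.lf (nat_lit 0) (nat_lit 274846790) (nat_lit 228) (nat_lit 12253414299) (nat_lit 76) (nat_lit 1319030038) (nat_lit 52) (nat_lit 5) (nat_lit 55) (nat_lit 5) (nat_lit 53) (nat_lit 5) (nat_lit 492) (nat_lit 351) (nat_lit 297)))) (XT.nd (nat_lit 78) (nat_lit 456) (nat_lit 0) (XT.lf (nat_lit 0) (nat_lit 4913564044) (nat_lit 228) (nat_lit 2893126760) (nat_lit 76) (nat_lit 6208733300) (nat_lit 52) (nat_lit 5) (nat_lit 55) (nat_lit 5) (nat_lit 53) (nat_lit 5) (nat_lit 493) (nat_lit 351) (nat_lit 296)) (XT.nd (nat_lit 78) (nat_lit 228) (nat_lit 0) (XT.lf (nat_lit 0) (nat_lit 6665655964) (nat_lit 228) (nat_lit 2979574308) (nat_lit 304) (nat_lit 4541688981) (nat_lit 49) (nat_lit 5) (nat_lit 52) (nat_lit 5) (nat_lit 53) (nat_lit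 5) (nat_lit 494) (nat_lit 351) (nat_lit 295)) (XT.lf (nat_lit 0) (nat_lit 110649051) (nat_lit 228) (nat_lit 12331541530) (nat_lit 76) (nat_lit 1919594329) (nat_lit 46) (nat_lit 5) (nat_lit 49) (nat_lit 5) (nat_lit 47) (nat_lit 5) (nat_lit 495) (nat_lit 351) (nat_lit 294)))))) (XT.nd (nat_lit 468) (nat_lit 608) (nat_lit 0) (XT.nd (nat_lit 234) (nat_lit 380) (nat_lit 0) (XT.nd (nat_lit 78) (nat_lit 380) (nat_lit 0) (XT.lf (nat_lit 0) (nat_lit 4822918415) (nat_lit 228) (nat_lit 2790896013) (nat_lit 76) (nat_lit 6925181917) (nat_lit 46) (nat_lit 5) (nat_lit 49) (nat_lit 5) (nat_lit 47) (nat_lit 5) (nat_lit 496) (nat_lit 351) (nat_lit 293)) (XT.nd (nat_lit 78) (nat_lit 152) (nat_lit 0) (XT.lf (nat_lit 0) (nat_lit 6956954600) (nat_lit 228) (nat_lit 2675591626) (nat_lit 304) (nat_lit 5087146298) (nat_lit 43) (nat_lit 5) (nat_lit 46) (nat_lit 5) (nat_lit 47) (nat_lit 5) (nat_lit 497) (nat_lit 351) (nat_lit 292)) (XT.lf (nat_lit 0)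 (nat_lit 1969356017) (nat_lit 152) (nat_lit 12574054912) (nat_lit 228) (nat_lit 360493535) (nat_lit 41) (nat_lit 5) (nat_lit 43) (nat_lit 5) (nat_lit 44) (nat_lit 4) (nat_lit 498) (nat_lit 351) (nat_lit 291)))) (XT.nd (nat_lit 78) (nat_lit 304) (nat_lit 0) (XT.lf (nat_lit 0) (nat_lit 4430479902) (nat_lit 228) (nat_lit 3211514757) (nat_lit 76) (nat_lit 7448663555) (nat_lit 40) (nat_lit 5) (nat_lit 43) (nat_lit 5) (nat_lit 41) (nat_lit 5) (nat_lit 499) (nat_lit 351) (nat_lit 290)) (XT.nd (nat_lit 78) (nat_lit 152) (nat_lit 0) (XT.lf (nat_lit 0) (nat_lit 6718125331) (nat_lit 152) (nat_lit 2596898618) (nat_lit 228) (nat_lit 5966026435) (nat_lit 38) (nat_lit 5) (nat_lit 40) (nat_lit 5) (nat_lit 41) (nat_lit 5) (nat_lit 500) (nat_lit 351) (nat_lit 289)) (XT.lf (nat_lit 0) (nat_lit 1342284043) (nat_lit 152) (nat_lit 12961009086) (nat_lit 228) (nat_lit 1171839101) (nat_lit 36) (nat_lit 5) (nat_lit 38) (nat_lit 5) (nat_lit 39) (nat_lit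 4) (nat_lit 501) (nat_lit 351) (nat_lit 288))))) (XT.nd (nat_lit 234) (nat_lit 228) (nat_lit 0) (XT.nd (nat_lit 78) (nat_lit 304) (nat_lit 0) (XT.lf (nat_lit 0) (nat_lit 3703637912) (nat_lit 228) (nat_lit 4225755767) (nat_lit 76) (nat_lit 7742538199) (nat_lit 35) (nat_lit 5) (nat_lit 38) (nat_lit 5) (nat_lit 36) (nat_lit 5) (nat_lit 502) (nat_lit 351) (nat_lit 287)) (XT.nd (nat_lit 78) (nat_lit 152) (nat_lit 0) (XT.lf (nat_lit 0) (nat_lit 5876475735) (nat_lit 152) (nat_lit 2782558739) (nat_lit 228) (nat_lit 7213518481) (nat_lit 33) (nat_lit 5) (nat_lit 35) (nat_lit 5) (nat_lit 36) (nat_lit 5) (nat_lit 503) (nat_lit 351) (nat_lit 286)) (XT.lf (nat_lit 0) (nat_lit 73747944) (nat_lit 152) (nat_lit 13644876637) (nat_lit 228) (nat_lit 2358462483) (nat_lit 31) (nat_lit 5) (nat_lit 33) (nat_lit 5) (nat_lit 34) (nat_lit 4) (nat_lit 504) (nat_lit 351) (nat_lit 285)))) (XT.nd (nat_lit 78) (nat_lit 152) (nat_lit 0) (XT.lf (nat_lit 0)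 (nat_lit 2605723296) (nat_lit 228) (nat_lit 5912095510) (nat_lit 76) (nat_lit 7766637574) (nat_lit 30) (nat_lit 5) (nat_lit 33) (nat_lit 5) (nat_lit 31) (nat_lit 5) (nat_lit 505) (nat_lit 351) (nat_lit 284)) (XT.nd (nat_lit 78) (nat_lit 0) (nat_lit 0) (XT.lf (nat_lit 0) (nat_lit 4351361585) (nat_lit 152) (nat_lit 3275410017) (nat_lit 228) (nat_lit 8869108710) (nat_lit 28) (nat_lit 5) (nat_lit 30) (nat_lit 5) (nat_lit 31) (nat_lit 5) (nat_lit 506) (nat_lit 351) (nat_lit 283)) (XT.lf (nat_lit 0) (nat_lit 12762608304) (nat_lit 228) (nat_lit 1895391866) (nat_lit 76) (nat_lit 2053247349) (nat_lit 28) (nat_lit 5) (nat_lit 31) (nat_lit 5) (nat_lit 29) (nat_lit 4) (nat_lit 507) (nat_lit 351) (nat_lit 282))))))))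
noncomputable def xc28 : XT := (XT.nd (nat_lit 1794) (nat_lit 6384) (nat_lit 0) (XT.nd (nat_lit 858) (nat_lit 4408) (nat_lit 0) (XT.nd (nat_lit 390) (nat_lit 3040) (nat_lit 0) (XT.nd (nat_lit 156) (nat_lit 1292) (nat_lit 0) (XT.nd (nat_lit 78) (nat_lit 684) (nat_lit 0) (XT.lf (nat_lit 0) (nat_lit 1407401321) (nat_lit 684) (nat_lit 1292560702) (nat_lit 684) (nat_lit 1292560702) (nat_lit 286) (nat_lit 4) (nat_lit 295) (nat_lit 5) (nat_lit 295) (nat_lit 4) (nat_lit 436) (nat_lit 352) (nat_lit 352)) (XT.lf (nat_lit 0) (nat_lit 1236500374) (nat_lit 684) (nat_lit 6788363363) (nat_lit 0) (nat_lit 17523204) (nat_lit 277) (nat_lit 5) (nat_lit 286) (nat_lit 4) (nat_lit 277) (nat_lit 4) (nat_lit 437) (nat_lit 352) (nat_lit 351))) (XT.nd (nat_lit 78) (nat_lit 1292) (nat_lit 0) (XT.lf (nat_lit 0) (nat_lit 5085124782) (nat_lit 684) (nat_lit 344646881) (nat_lit 0) (nat_lit 2671071955) (nat_lit 277) (nat_lit 5) (nat_lit 286) (nat_lit 4) (nat_lit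 277) (nat_lit 4) (nat_lit 438) (nat_lit 352) (nat_lit 350)) (XT.nd (nat_lit 78) (nat_lit 608) (nat_lit 0) (XT.lf (nat_lit 0) (nat_lit 813753505) (nat_lit 684) (nat_lit 1941913547) (nat_lit 76) (nat_lit 5405212190) (nat_lit 268) (nat_lit 5) (nat_lit 277) (nat_lit 5) (nat_lit 269) (nat_lit 4) (nat_lit 439) (nat_lit 352) (nat_lit 349)) (XT.lf (nat_lit 0) (nat_lit 4646752411) (nat_lit 684) (nat_lit 3570413091) (nat_lit 0) (nat_lit 5218058) (nat_lit 260) (nat_lit 5) (nat_lit 269) (nat_lit 4) (nat_lit 260) (nat_lit 4) (nat_lit 440) (nat_lit 352) (nat_lit 348))))) (XT.nd (nat_lit 234) (nat_lit 1824) (nat_lit 0) (XT.nd (nat_lit 78) (nat_lit 532) (nat_lit 0) (XT.lf (nat_lit 0) (nat_lit 254144670) (nat_lit 684) (nat_lit 5232227298) (nat_lit 76) (nat_lit 2798995087) (nat_lit 251) (nat_lit 5) (nat_lit 260) (nat_lit 5) (nat_lit 252) (nat_lit 4) (nat_lit 441) (nat_lit 352) (nat_lit 347)) (XT.nd (nat_lit 78) (nat_lit 0) (nat_lit 0) (XT.lf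 (nat_lit 0) (nat_lit 1416789812) (nat_lit 532) (nat_lit 2664797408) (nat_lit 608) (nat_lit 4268183585) (nat_lit 244) (nat_lit 5) (nat_lit 251) (nat_lit 5) (nat_lit 252) (nat_lit 4) (nat_lit 442) (nat_lit 352) (nat_lit 346)) (XT.lf (nat_lit 0) (nat_lit 7958456115) (nat_lit 608) (nat_lit 233623851) (nat_lit 0) (nat_lit 223937137) (nat_lit 244) (nat_lit 5) (nat_lit 252) (nat_lit 4) (nat_lit 244) (nat_lit 4) (nat_lit 443) (nat_lit 352) (nat_lit 345)))) (XT.nd (nat_lit 78) (nat_lit 1140) (nat_lit 0) (XT.lf (nat_lit 0) (nat_lit 3382063802) (nat_lit 684) (nat_lit 1922735663) (nat_lit 76) (nat_lit 3178399806) (nat_lit 235) (nat_lit 5) (nat_lit 244) (nat_lit 5) (nat_lit 236) (nat_lit 4) (nat_lit 444) (nat_lit 352) (nat_lit 344)) (XT.nd (nat_lit 78) (nat_lit 608) (nat_lit 0) (XT.lf (nat_lit 0) (nat_lit 4917831582) (nat_lit 532) (nat_lit 2345694148) (nat_lit 608) (nat_lit 1288726765) (nat_lit 228) (nat_lit 5) (nat_lit 235) (nat_lit 5)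 (nat_lit 236) (nat_lit 4) (nat_lit 445) (nat_lit 352) (nat_lit 343)) (XT.lf (nat_lit 0) (nat_lit 2542305434) (nat_lit 608) (nat_lit 5388924076) (nat_lit 76) (nat_lit 691601072) (nat_lit 220) (nat_lit 5) (nat_lit 228) (nat_lit 5) (nat_lit 221) (nat_lit 4) (nat_lit 446) (nat_lit 352) (nat_lit 342)))))) (XT.nd (nat_lit 468) (nat_lit 1900) (nat_lit 0) (XT.nd (nat_lit 234) (nat_lit 1444) (nat_lit 0) (XT.nd (nat_lit 78) (nat_lit 608) (nat_lit 0) (XT.lf (nat_lit 0) (nat_lit 1503698885) (nat_lit 456) (nat_lit 4917285738) (nat_lit 532) (nat_lit 2273910267) (nat_lit 214) (nat_lit 5) (nat_lit 220) (nat_lit 5) (nat_lit 221) (nat_lit 4) (nat_lit 447) (nat_lit 352) (nat_lit 341)) (XT.nd (nat_lit 78) (nat_lit 532) (nat_lit 0) (XT.lf (nat_lit 0) (nat_lit 1562794037) (nat_lit 532) (nat_lit 257722753) (nat_lit 76) (nat_lit 6948183895) (nat_lit 213) (nat_lit 5) (nat_lit 220) (nat_lit 5) (nat_lit 214) (nat_lit 5) (nat_lit 448) (nat_lit 352) (nat_lit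 340)) (XT.lf (nat_lit 0) (nat_lit 5438765581) (nat_lit 608) (nat_lit 2049223330) (nat_lit 76) (nat_lit 1355843517) (nat_lit 206) (nat_lit 5) (nat_lit 214) (nat_lit 5) (nat_lit 207) (nat_lit 4) (nat_lit 449) (nat_lit 352) (nat_lit 339)))) (XT.nd (nat_lit 78) (nat_lit 912) (nat_lit 0) (XT.lf (nat_lit 0) (nat_lit 452352534) (nat_lit 532) (nat_lit 3884003745) (nat_lit 76) (nat_lit 4584323923) (nat_lit 199) (nat_lit 5) (nat_lit 206) (nat_lit 5) (nat_lit 200) (nat_lit 5) (nat_lit 450) (nat_lit 352) (nat_lit 338)) (XT.nd (nat_lit 78) (nat_lit 456) (nat_lit 0) (XT.lf (nat_lit 0) (nat_lit 3227364669) (nat_lit 456) (nat_lit 1089348607) (nat_lit 532) (nat_lit 4682403247) (nat_lit 193) (nat_lit 5) (nat_lit 199) (nat_lit 5) (nat_lit 200) (nat_lit 5) (nat_lit 451) (nat_lit 352) (nat_lit 337)) (XT.lf (nat_lit 0) (nat_lit 1372347753) (nat_lit 456) (nat_lit 6876581624) (nat_lit 532) (nat_lit 830390125) (nat_lit 187) (nat_lit 5) (nat_lit 193)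 (nat_lit 5) (nat_lit 194) (nat_lit 4) (nat_lit 452) (nat_lit 352) (nat_lit 336))))) (XT.nd (nat_lit 234) (nat_lit 912) (nat_lit 0) (XT.nd (nat_lit 78) (nat_lit 912) (nat_lit 0) (XT.lf (nat_lit 0) (nat_lit 3045423187) (nat_lit 532) (nat_lit 536654961) (nat_lit 76) (nat_lit 5578906964) (nat_lit 186) (nat_lit 5) (nat_lit 193) (nat_lit 5) (nat_lit 187) (nat_lit 5) (nat_lit 453) (nat_lit 352) (nat_lit 335)) (XT.nd (nat_lit 78) (nat_lit 456) (nat_lit 0) (XT.lf (nat_lit 0) (nat_lit 6775846401) (nat_lit 456) (nat_lit 198141352) (nat_lit 532) (nat_lit 2270468182) (nat_lit 180) (nat_lit 5) (nat_lit 186) (nat_lit 5) (nat_lit 187) (nat_lit 5) (nat_lit 454) (nat_lit 352) (nat_lit 334)) (XT.lf (nat_lit 0) (nat_lit 1628981534) (nat_lit 456) (nat_lit 4470274039) (nat_lit 76) (nat_lit 3230152277) (nat_lit 174) (nat_lit 5) (nat_lit 180) (nat_lit 5) (nat_lit 175) (nat_lit 5) (nat_lit 455) (nat_lit 352) (nat_lit 333)))) (XT.nd (nat_lit 78) (nat_lit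 456) (nat_lit 0) (XT.lf (nat_lit 0) (nat_lit 2887362980) (nat_lit 456) (nat_lit 2668368775) (nat_lit 532) (nat_lit 3860440885) (nat_lit 168) (nat_lit 5) (nat_lit 174) (nat_lit 5) (nat_lit 175) (nat_lit 5) (nat_lit 456) (nat_lit 352) (nat_lit 332)) (XT.nd (nat_lit 78) (nat_lit 0) (nat_lit 0) (XT.lf (nat_lit 0) (nat_lit 40065714) (nat_lit 456) (nat_lit 8636385408) (nat_lit 76) (nat_lit 828533009) (nat_lit 162) (nat_lit 5) (nat_lit 168) (nat_lit 5) (nat_lit 163) (nat_lit 5) (nat_lit 457) (nat_lit 352) (nat_lit 331)) (XT.lf (nat_lit 0) (nat_lit 3972228656) (nat_lit 456) (nat_lit 1221571645) (nat_lit 76) (nat_lit 4401162227) (nat_lit 162) (nat_lit 5) (nat_lit 168) (nat_lit 5) (nat_lit 163) (nat_lit 5) (nat_lit 458) (nat_lit 352) (nat_lit 330))))))) (XT.nd (nat_lit 858) (nat_lit 2888) (nat_lit 0) (XT.nd (nat_lit 390) (nat_lit 1824) (nat_lit 0) (XT.nd (nat_lit 156) (nat_lit 836) (nat_lit 0) (XT.nd (nat_lit 78) (nat_lit 456) (nat_lit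 0) (XT.lf (nat_lit 0) (nat_lit 6340574857) (nat_lit 380) (nat_lit 1628250730) (nat_lit 456) (nat_lit 1718206712) (nat_lit 157) (nat_lit 5) (nat_lit 162) (nat_lit 5) (nat_lit 163) (nat_lit 5) (nat_lit 459) (nat_lit 352) (nat_lit 329)) (XT.lf (nat_lit 0) (nat_lit 2228517853) (nat_lit 456) (nat_lit 5547861030) (nat_lit 76) (nat_lit 2004401770) (nat_lit 151) (nat_lit 5) (nat_lit 157) (nat_lit 5) (nat_lit 152) (nat_lit 5) (nat_lit 460) (nat_lit 352) (nat_lit 328))) (XT.nd (nat_lit 78) (nat_lit 456) (nat_lit 0) (XT.lf (nat_lit 0) (nat_lit 2053243671) (nat_lit 380) (nat_lit 4169813317) (nat_lit 456) (nat_lit 3653289286) (nat_lit 146) (nat_lit 5) (nat_lit 151) (nat_lit 5) (nat_lit 152) (nat_lit 5) (nat_lit 461) (nat_lit 352) (nat_lit 327)) (XT.nd (nat_lit 78) (nat_lit 380) (nat_lit 0) (XT.lf (nat_lit 0) (nat_lit 302203183) (nat_lit 456) (nat_lit 178695943) (nat_lit 76) (nat_lit 9493233269) (nat_lit 145) (nat_lit 5) (nat_lit 151) (nat_lit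 5) (nat_lit 146) (nat_lit 5) (nat_lit 462) (nat_lit 352) (nat_lit 326)) (XT.lf (nat_lit 0) (nat_lit 4305333938) (nat_lit 456) (nat_lit 2484038135) (nat_lit 76) (nat_lit 3283677051) (nat_lit 140) (nat_lit 5) (nat_lit 146) (nat_lit 5) (nat_lit 141) (nat_lit 5) (nat_lit 463) (nat_lit 352) (nat_lit 325))))) (XT.nd (nat_lit 234) (nat_lit 684) (nat_lit 0) (XT.nd (nat_lit 78) (nat_lit 760) (nat_lit 0) (XT.lf (nat_lit 0) (nat_lit 5323693922) (nat_lit 380) (nat_lit 3050494475) (nat_lit 456) (nat_lit 1800049204) (nat_lit 135) (nat_lit 5) (nat_lit 140) (nat_lit 5) (nat_lit 141) (nat_lit 5) (nat_lit 464) (nat_lit 352) (nat_lit 324)) (XT.nd (nat_lit 78) (nat_lit 380) (nat_lit 0) (XT.lf (nat_lit 0) (nat_lit 2205607791) (nat_lit 380) (nat_lit 7297684557) (nat_lit 76) (nat_lit 774109961) (nat_lit 130) (nat_lit 5) (nat_lit 135) (nat_lit 5) (nat_lit 131) (nat_lit 5) (nat_lit 465) (nat_lit 352) (nat_lit 323)) (XT.lf (nat_lit 0) (nat_lit 541131453)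 (nat_lit 380) (nat_lit 5729806099) (nat_lit 456) (nat_lit 4111387800) (nat_lit 125) (nat_lit 5) (nat_lit 130) (nat_lit 5) (nat_lit 131) (nat_lit 5) (nat_lit 466) (nat_lit 352) (nat_lit 322)))) (XT.nd (nat_lit 78) (nat_lit 684) (nat_lit 0) (XT.lf (nat_lit 0) (nat_lit 8552215626) (nat_lit 380) (nat_lit 1861983154) (nat_lit 456) (nat_lit 75221711) (nat_lit 125) (nat_lit 5) (nat_lit 130) (nat_lit 5) (nat_lit 131) (nat_lit 5) (nat_lit 467) (nat_lit 352) (nat_lit 321)) (XT.nd (nat_lit 78) (nat_lit 304) (nat_lit 0) (XT.lf (nat_lit 0) (nat_lit 3990335793) (nat_lit 380) (nat_lit 4516054372) (nat_lit 76) (nat_lit 2091714930) (nat_lit 120) (nat_lit 5) (nat_lit 125) (nat_lit 5) (nat_lit 121) (nat_lit 5) (nat_lit 468) (nat_lit 352) (nat_lit 320)) (XT.lf (nat_lit 0) (nat_lit 3529852841) (nat_lit 304) (nat_lit 4603295721) (nat_lit 380) (nat_lit 2575871635) (nat_lit 116) (nat_lit 5) (nat_lit 120) (nat_lit 5) (nat_lit 121) (nat_lit 5) (nat_lit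 469) (nat_lit 352) (nat_lit 319)))))) (XT.nd (nat_lit 468) (nat_lit 1444) (nat_lit 0) (XT.nd (nat_lit 234) (nat_lit 760) (nat_lit 0) (XT.nd (nat_lit 78) (nat_lit 304) (nat_lit 0) (XT.lf (nat_lit 0) (nat_lit 894991215) (nat_lit 304) (nat_lit 606582200) (nat_lit 380) (nat_lit 9320684938) (nat_lit 111) (nat_lit 5) (nat_lit 115) (nat_lit 5) (nat_lit 116) (nat_lit 5) (nat_lit 470) (nat_lit 352) (nat_lit 318)) (XT.nd (nat_lit 78) (nat_lit 304) (nat_lit 0) (XT.lf (nat_lit 0) (nat_lit 5646145162) (nat_lit 380) (nat_lit 1831943606) (nat_lit 76) (nat_lit 3458936045) (nat_lit 111) (nat_lit 5) (nat_lit 116) (nat_lit 5) (nat_lit 112) (nat_lit 5) (nat_lit 471) (nat_lit 352) (nat_lit 317)) (XT.lf (nat_lit 0) (nat_lit 6423965315) (nat_lit 304) (nat_lit 3445380012) (nat_lit 380) (nat_lit 1184831872) (nat_lit 107) (nat_lit 5) (nat_lit 111) (nat_lit 5) (nat_lit 112) (nat_lit 5) (nat_lit 472) (nat_lit 352) (nat_lit 316)))) (XT.nd (nat_lit 78)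 (nat_lit 380) (nat_lit 0) (XT.lf (nat_lit 0) (nat_lit 2954604752) (nat_lit 380) (nat_lit 7535155005) (nat_lit 76) (nat_lit 683714869) (nat_lit 102) (nat_lit 5) (nat_lit 107) (nat_lit 5) (nat_lit 103) (nat_lit 5) (nat_lit 473) (nat_lit 352) (nat_lit 315)) (XT.nd (nat_lit 78) (nat_lit 76) (nat_lit 0) (XT.lf (nat_lit 0) (nat_lit 737312820) (nat_lit 304) (nat_lit 6432925433) (nat_lit 380) (nat_lit 4124582683) (nat_lit 98) (nat_lit 5) (nat_lit 102) (nat_lit 5) (nat_lit 103) (nat_lit 5) (nat_lit 474) (nat_lit 352) (nat_lit 314)) (XT.lf (nat_lit 0) (nat_lit 52304392) (nat_lit 380) (nat_lit 2222942081) (nat_lit 76) (nat_lit 9143318019) (nat_lit 97) (nat_lit 5) (nat_lit 102) (nat_lit 5) (nat_lit 98) (nat_lit 5) (nat_lit 475) (nat_lit 352) (nat_lit 313))))) (XT.nd (nat_lit 234) (nat_lit 608) (nat_lit 0) (XT.nd (nat_lit 78) (nat_lit 608) (nat_lit 0) (XT.lf (nat_lit 0) (nat_lit 4262614615) (nat_lit 304) (nat_lit 5304852496) (nat_lit 76)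 (nat_lit 1976673007) (nat_lit 94) (nat_lit 5) (nat_lit 98) (nat_lit 5) (nat_lit 95) (nat_lit 5) (nat_lit 476) (nat_lit 352) (nat_lit 312)) (XT.nd (nat_lit 78) (nat_lit 304) (nat_lit 0) (XT.lf (nat_lit 0) (nat_lit 3174754138) (nat_lit 304) (nat_lit 5384761317) (nat_lit 380) (nat_lit 3112668760) (nat_lit 90) (nat_lit 5) (nat_lit 94) (nat_lit 5) (nat_lit 95) (nat_lit 5) (nat_lit 477) (nat_lit 352) (nat_lit 311)) (XT.lf (nat_lit 0) (nat_lit 5424366) (nat_lit 228) (nat_lit 1106857797) (nat_lit 304) (nat_lit 10690610268) (nat_lit 86) (nat_lit 5) (nat_lit 89) (nat_lit 5) (nat_lit 90) (nat_lit 5) (nat_lit 478) (nat_lit 352) (nat_lit 310)))) (XT.nd (nat_lit 78) (nat_lit 608) (nat_lit 0) (XT.lf (nat_lit 0) (nat_lit 5410642848) (nat_lit 304) (nat_lit 3264703067) (nat_lit 76) (nat_lit 3259849993) (nat_lit 86) (nat_lit 5) (nat_lit 90) (nat_lit 5) (nat_lit 87) (nat_lit 5) (nat_lit 479) (nat_lit 352) (nat_lit 309)) (XT.nd (nat_lit 78) (nat_lit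 304) (nat_lit 0) (XT.lf (nat_lit 0) (nat_lit 5423086172) (nat_lit 304) (nat_lit 4367372603) (nat_lit 380) (nat_lit 2279781210) (nat_lit 82) (nat_lit 5) (nat_lit 86) (nat_lit 5) (nat_lit 87) (nat_lit 5) (nat_lit 480) (nat_lit 352) (nat_lit 308)) (XT.lf (nat_lit 0) (nat_lit 2011728475) (nat_lit 304) (nat_lit 10152930313) (nat_lit 76) (nat_lit 43289558) (nat_lit 78) (nat_lit 5) (nat_lit 82) (nat_lit 5) (nat_lit 79) (nat_lit 5) (nat_lit 481) (nat_lit 352) (nat_lit 307))))))))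
noncomputable def xc29 : XT := (XT.nd (nat_lit 1794) (nat_lit 380) (nat_lit 0) (XT.nd (nat_lit 858) (nat_lit 1672) (nat_lit 0) (XT.nd (nat_lit 390) (nat_lit 988) (nat_lit 0) (XT.nd (nat_lit 156) (nat_lit 532) (nat_lit 0) (XT.nd (nat_lit 78) (nat_lit 228) (nat_lit 0) (XT.lf (nat_lit 0) (nat_lit 6385636719) (nat_lit 304) (nat_lit 1450230040) (nat_lit 76) (nat_lit 4511704881) (nat_lit 78) (nat_lit 5) (nat_lit 82) (nat_lit 5) (nat_lit 79) (nat_lit 5) (nat_lit 482) (nat_lit 352) (nat_lit 306)) (XT.lf (nat_lit 0) (nat_lit 7446011161) (nat_lit 228) (nat_lit 3403515037) (nat_lit 304) (nat_lit 1640415107) (nat_lit 75) (nat_lit 5) (nat_lit 78) (nat_lit 5) (nat_lit 79) (nat_lit 5) (nat_lit 483) (nat_lit 352) (nat_lit 305))) (XT.nd (nat_lit 78) (nat_lit 228) (nat_lit 0) (XT.lf (nat_lit 0) (nat_lit 2727733665) (nat_lit 304) (nat_lit 8783228829) (nat_lit 76) (nat_lit 1123910400) (nat_lit 71) (nat_lit 5) (nat_lit 75) (nat_lit 5) (nat_lit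 72) (nat_lit 5) (nat_lit 484) (nat_lit 352) (nat_lit 304)) (XT.nd (nat_lit 78) (nat_lit 0) (nat_lit 0) (XT.lf (nat_lit 0) (nat_lit 100716532) (nat_lit 228) (nat_lit 7072280034) (nat_lit 304) (nat_lit 5609259098) (nat_lit 68) (nat_lit 5) (nat_lit 71) (nat_lit 5) (nat_lit 72) (nat_lit 5) (nat_lit 485) (nat_lit 352) (nat_lit 303)) (XT.lf (nat_lit 0) (nat_lit 9203463801) (nat_lit 228) (nat_lit 2517458966) (nat_lit 304) (nat_lit 1211391825) (nat_lit 68) (nat_lit 5) (nat_lit 71) (nat_lit 5) (nat_lit 72) (nat_lit 5) (nat_lit 486) (nat_lit 352) (nat_lit 302))))) (XT.nd (nat_lit 234) (nat_lit 456) (nat_lit 0) (XT.nd (nat_lit 78) (nat_lit 228) (nat_lit 0) (XT.lf (nat_lit 0) (nat_lit 3235774705) (nat_lit 304) (nat_lit 7724004476) (nat_lit 76) (nat_lit 2125088109) (nat_lit 64) (nat_lit 5) (nat_lit 68) (nat_lit 5) (nat_lit 65) (nat_lit 5) (nat_lit 487) (nat_lit 352) (nat_lit 301)) (XT.nd (nat_lit 78) (nat_lit 0) (nat_lit 0) (XT.lf (nat_lit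 0) (nat_lit 1358730036) (nat_lit 228) (nat_lit 6403206195) (nat_lit 304) (nat_lit 5478252675) (nat_lit 61) (nat_lit 5) (nat_lit 64) (nat_lit 5) (nat_lit 65) (nat_lit 5) (nat_lit 488) (nat_lit 352) (nat_lit 300)) (XT.lf (nat_lit 0) (nat_lit 10651152369) (nat_lit 228) (nat_lit 1735249138) (nat_lit 304) (nat_lit 1012063222) (nat_lit 61) (nat_lit 5) (nat_lit 64) (nat_lit 5) (nat_lit 65) (nat_lit 5) (nat_lit 489) (nat_lit 352) (nat_lit 299)))) (XT.nd (nat_lit 78) (nat_lit 228) (nat_lit 0) (XT.lf (nat_lit 0) (nat_lit 3515942724) (nat_lit 228) (nat_lit 7022581154) (nat_lit 76) (nat_lit 3020546000) (nat_lit 58) (nat_lit 5) (nat_lit 61) (nat_lit 5) (nat_lit 59) (nat_lit 5) (nat_lit 490) (nat_lit 352) (nat_lit 298)) (XT.nd (nat_lit 78) (nat_lit 0) (nat_lit 0) (XT.lf (nat_lit 0) (nat_lit 2256056302) (nat_lit 228) (nat_lit 5866289319) (nat_lit 304) (nat_lit 5600383138) (nat_lit 55) (nat_lit 5) (nat_lit 58) (nat_lit 5) (nat_lit 59) (nat_lit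 5) (nat_lit 491) (nat_lit 352) (nat_lit 297)) (XT.lf (nat_lit 0) (nat_lit 11740054783) (nat_lit 228) (nat_lit 1084985035) (nat_lit 304) (nat_lit 1064540860) (nat_lit 55) (nat_lit 5) (nat_lit 58) (nat_lit 5) (nat_lit 59) (nat_lit 5) (nat_lit 492) (nat_lit 352) (nat_lit 296)))))) (XT.nd (nat_lit 468) (nat_lit 760) (nat_lit 0) (XT.nd (nat_lit 234) (nat_lit 456) (nat_lit 0) (XT.nd (nat_lit 78) (nat_lit 228) (nat_lit 0) (XT.lf (nat_lit 0) (nat_lit 3545520091) (nat_lit 228) (nat_lit 6731307167) (nat_lit 76) (nat_lit 3781878478) (nat_lit 52) (nat_lit 5) (nat_lit 55) (nat_lit 5) (nat_lit 53) (nat_lit 5) (nat_lit 493) (nat_lit 352) (nat_lit 295)) (XT.nd (nat_lit 78) (nat_lit 0) (nat_lit 0) (XT.lf (nat_lit 0) (nat_lit 2739027083) (nat_lit 228) (nat_lit 5491745121) (nat_lit 304) (nat_lit 6000358423) (nat_lit 49) (nat_lit 5) (nat_lit 52) (nat_lit 5) (nat_lit 53) (nat_lit 5) (nat_lit 494) (nat_lit 352) (nat_lit 294)) (XT.lf (nat_lit 0)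 (nat_lit 12415864646) (nat_lit 228) (nat_lit 597124431) (nat_lit 304) (nat_lit 1393952633) (nat_lit 49) (nat_lit 5) (nat_lit 52) (nat_lit 5) (nat_lit 53) (nat_lit 5) (nat_lit 495) (nat_lit 352) (nat_lit 293)))) (XT.nd (nat_lit 78) (nat_lit 228) (nat_lit 0) (XT.lf (nat_lit 0) (nat_lit 3298715948) (nat_lit 228) (nat_lit 6908135686) (nat_lit 76) (nat_lit 4378241550) (nat_lit 46) (nat_lit 5) (nat_lit 49) (nat_lit 5) (nat_lit 47) (nat_lit 5) (nat_lit 496) (nat_lit 352) (nat_lit 292)) (XT.nd (nat_lit 78) (nat_lit 0) (nat_lit 0) (XT.lf (nat_lit 0) (nat_lit 2748188537) (nat_lit 228) (nat_lit 5312417500) (nat_lit 304) (nat_lit 6706139428) (nat_lit 43) (nat_lit 5) (nat_lit 46) (nat_lit 5) (nat_lit 47) (nat_lit 5) (nat_lit 497) (nat_lit 352) (nat_lit 291)) (XT.lf (nat_lit 0) (nat_lit 12618381733) (nat_lit 228) (nat_lit 304813100) (nat_lit 304) (nat_lit 2028729410) (nat_lit 43) (nat_lit 5) (nat_lit 46) (nat_lit 5) (nat_lit 47) (nat_lit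 5) (nat_lit 498) (nat_lit 352) (nat_lit 290))))) (XT.nd (nat_lit 234) (nat_lit 380) (nat_lit 0) (XT.nd (nat_lit 78) (nat_lit 152) (nat_lit 0) (XT.lf (nat_lit 0) (nat_lit 2746371016) (nat_lit 228) (nat_lit 7617263571) (nat_lit 76) (nat_lit 4776016347) (nat_lit 40) (nat_lit 5) (nat_lit 43) (nat_lit 5) (nat_lit 41) (nat_lit 5) (nat_lit 499) (nat_lit 352) (nat_lit 289)) (XT.nd (nat_lit 78) (nat_lit 0) (nat_lit 0) (XT.lf (nat_lit 0) (nat_lit 2217642144) (nat_lit 152) (nat_lit 5364131962) (nat_lit 228) (nat_lit 7749253063) (nat_lit 38) (nat_lit 5) (nat_lit 40) (nat_lit 5) (nat_lit 41) (nat_lit 5) (nat_lit 500) (nat_lit 352) (nat_lit 288)) (XT.lf (nat_lit 0) (nat_lit 12280840902) (nat_lit 152) (nat_lit 244243880) (nat_lit 228) (nat_lit 3000924622) (nat_lit 38) (nat_lit 5) (nat_lit 40) (nat_lit 5) (nat_lit 41) (nat_lit 5) (nat_lit 501) (nat_lit 352) (nat_lit 287)))) (XT.nd (nat_lit 78) (nat_lit 152) (nat_lit 0) (XT.lf (nat_lit 0) (nat_lit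 1855628700) (nat_lit 228) (nat_lit 8929834899) (nat_lit 76) (nat_lit 4938442391) (nat_lit 35) (nat_lit 5) (nat_lit 38) (nat_lit 5) (nat_lit 36) (nat_lit 5) (nat_lit 502) (nat_lit 352) (nat_lit 286)) (XT.nd (nat_lit 78) (nat_lit 0) (nat_lit 0) (XT.lf (nat_lit 0) (nat_lit 1074318733) (nat_lit 152) (nat_lit 5686081171) (nat_lit 228) (nat_lit 9165140819) (nat_lit 33) (nat_lit 5) (nat_lit 35) (nat_lit 5) (nat_lit 36) (nat_lit 5) (nat_lit 503) (nat_lit 352) (nat_lit 285)) (XT.lf (nat_lit 0) (nat_lit 11329172748) (nat_lit 152) (nat_lit 455048572) (nat_lit 228) (nat_lit 4346570013) (nat_lit 33) (nat_lit 5) (nat_lit 35) (nat_lit 5) (nat_lit 36) (nat_lit 5) (nat_lit 504) (nat_lit 352) (nat_lit 284))))))) (XT.nd (nat_lit 54522) (nat_lit 0) (nat_lit 11552) (XT.nd (nat_lit 54054) (nat_lit 0) (nat_lit 16416) (XT.nd (nat_lit 53820) (nat_lit 0) (nat_lit 19608) (XT.nd (nat_lit 78) (nat_lit 152) (nat_lit 0) (XT.lf (nat_lit 0) (nat_lit 589569144)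 (nat_lit 228) (nat_lit 10924716165) (nat_lit 76) (nat_lit 4825217007) (nat_lit 30) (nat_lit 5) (nat_lit 33) (nat_lit 5) (nat_lit 31) (nat_lit 5) (nat_lit 505) (nat_lit 352) (nat_lit 283)) (XT.nd (nat_lit 78) (nat_lit 152) (nat_lit 0) (XT.lf (nat_lit 0) (nat_lit 5563377551) (nat_lit 228) (nat_lit 752817047) (nat_lit 76) (nat_lit 10235677510) (nat_lit 30) (nat_lit 5) (nat_lit 33) (nat_lit 5) (nat_lit 31) (nat_lit 5) (nat_lit 506) (nat_lit 352) (nat_lit 282)) (XT.lf (nat_lit 0) (nat_lit 9681188662) (nat_lit 152) (nat_lit 980726527) (nat_lit 228) (nat_lit 6106071150) (nat_lit 28) (nat_lit 5) (nat_lit 30) (nat_lit 5) (nat_lit 31) (nat_lit 5) (nat_lit 507) (nat_lit 352) (nat_lit 281)))) (XT.nd (nat_lit 78) (nat_lit 1444) (nat_lit 0) (XT.lf (nat_lit 0) (nat_lit 2965570017) (nat_lit 684) (nat_lit 485859887) (nat_lit 684) (nat_lit 485859887) (nat_lit 305) (nat_lit 4) (nat_lit 314) (nat_lit 5) (nat_lit 314) (nat_lit 4) (nat_lit 434)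 (nat_lit 353) (nat_lit 353)) (XT.nd (nat_lit 78) (nat_lit 684) (nat_lit 0) (XT.lf (nat_lit 0) (nat_lit 2814726012) (nat_lit 760) (nat_lit 3568139649) (nat_lit 0) (nat_lit 1546502164) (nat_lit 295) (nat_lit 5) (nat_lit 305) (nat_lit 4) (nat_lit 295) (nat_lit 4) (nat_lit 435) (nat_lit 353) (nat_lit 352)) (XT.lf (nat_lit 0) (nat_lit 2772582982) (nat_lit 684) (nat_lit 3862357150) (nat_lit 684) (nat_lit 1350776589) (nat_lit 286) (nat_lit 4) (nat_lit 295) (nat_lit 5) (nat_lit 295) (nat_lit 4) (nat_lit 436) (nat_lit 353) (nat_lit 351))))) (XT.nd (nat_lit 234) (nat_lit 1824) (nat_lit 0) (XT.nd (nat_lit 78) (nat_lit 684) (nat_lit 0) (XT.lf (nat_lit 0) (nat_lit 1160169321) (nat_lit 608) (nat_lit 1260982684) (nat_lit 684) (nat_lit 5622422848) (nat_lit 277) (nat_lit 5) (nat_lit 285) (nat_lit 5) (nat_lit 286) (nat_lit 4) (nat_lit 437) (nat_lit 353) (nat_lit 350)) (XT.nd (nat_lit 78) (nat_lit 684) (nat_lit 0) (XT.lf (nat_lit 0) (nat_lit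 6229123630) (nat_lit 684) (nat_lit 473656366) (nat_lit 0) (nat_lit 1400071289) (nat_lit 277) (nat_lit 5) (nat_lit 286) (nat_lit 4) (nat_lit 277) (nat_lit 4) (nat_lit 438) (nat_lit 353) (nat_lit 349)) (XT.lf (nat_lit 0) (nat_lit 1907592865) (nat_lit 684) (nat_lit 2124384164) (nat_lit 76) (nat_lit 4131431518) (nat_lit 268) (nat_lit 5) (nat_lit 277) (nat_lit 5) (nat_lit 269) (nat_lit 4) (nat_lit 439) (nat_lit 353) (nat_lit 348)))) (XT.nd (nat_lit 78) (nat_lit 1216) (nat_lit 0) (XT.lf (nat_lit 0) (nat_lit 4425075226) (nat_lit 608) (nat_lit 1282322527) (nat_lit 684) (nat_lit 2518185308) (nat_lit 260) (nat_lit 5) (nat_lit 268) (nat_lit 5) (nat_lit 269) (nat_lit 4) (nat_lit 440) (nat_lit 353) (nat_lit 347)) (XT.nd (nat_lit 78) (nat_lit 532) (nat_lit 0) (XT.lf (nat_lit 0) (nat_lit 1255984998) (nat_lit 684) (nat_lit 5509903848) (nat_lit 76) (nat_lit 1523381207) (nat_lit 251) (nat_lit 5) (nat_lit 260) (nat_lit 5) (nat_lit 252) (nat_lit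 4) (nat_lit 441) (nat_lit 353) (nat_lit 346)) (XT.lf (nat_lit 0) (nat_lit 1092940168) (nat_lit 532) (nat_lit 3957122552) (nat_lit 608) (nat_lit 3304284331) (nat_lit 244) (nat_lit 5) (nat_lit 251) (nat_lit 5) (nat_lit 252) (nat_lit 4) (nat_lit 442) (nat_lit 353) (nat_lit 345)))))) (XT.nd (nat_lit 468) (nat_lit 2508) (nat_lit 0) (XT.nd (nat_lit 234) (nat_lit 1140) (nat_lit 0) (XT.nd (nat_lit 78) (nat_lit 1140) (nat_lit 0) (XT.lf (nat_lit 0) (nat_lit 467084380) (nat_lit 608) (nat_lit 605923540) (nat_lit 76) (nat_lit 7348177661) (nat_lit 243) (nat_lit 5) (nat_lit 251) (nat_lit 5) (nat_lit 244) (nat_lit 5) (nat_lit 443) (nat_lit 353) (nat_lit 344)) (XT.nd (nat_lit 78) (nat_lit 532) (nat_lit 0) (XT.lf (nat_lit 0) (nat_lit 4260413416) (nat_lit 684) (nat_lit 2343530948) (nat_lit 76) (nat_lit 1885175474) (nat_lit 235) (nat_lit 5) (nat_lit 244) (nat_lit 5) (nat_lit 236) (nat_lit 4) (nat_lit 444) (nat_lit 353) (nat_lit 343)) (XT.lf (nat_lit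 0) (nat_lit 4449380147) (nat_lit 532) (nat_lit 3659196328) (nat_lit 608) (nat_lit 450268061) (nat_lit 228) (nat_lit 5) (nat_lit 235) (nat_lit 5) (nat_lit 236) (nat_lit 4) (nat_lit 445) (nat_lit 353) (nat_lit 342)))) (XT.nd (nat_lit 78) (nat_lit 532) (nat_lit 0) (XT.lf (nat_lit 0) (nat_lit 2709476358) (nat_lit 532) (nat_lit 622170769) (nat_lit 608) (nat_lit 5298434316) (nat_lit 220) (nat_lit 5) (nat_lit 227) (nat_lit 5) (nat_lit 228) (nat_lit 5) (nat_lit 446) (nat_lit 353) (nat_lit 341)) (XT.nd (nat_lit 78) (nat_lit 76) (nat_lit 0) (XT.lf (nat_lit 0) (nat_lit 926591143) (nat_lit 456) (nat_lit 6246060516) (nat_lit 532) (nat_lit 1530252765) (nat_lit 214) (nat_lit 5) (nat_lit 220) (nat_lit 5) (nat_lit 221) (nat_lit 4) (nat_lit 447) (nat_lit 353) (nat_lit 340)) (XT.lf (nat_lit 0) (nat_lit 2266925141) (nat_lit 532) (nat_lit 889690763) (nat_lit 76) (nat_lit 5620598191) (nat_lit 213) (nat_lit 5) (nat_lit 220) (nat_lit 5) (nat_lit 214)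 (nat_lit 5) (nat_lit 448) (nat_lit 353) (nat_lit 339))))) (XT.nd (nat_lit 234) (nat_lit 988) (nat_lit 0) (XT.nd (nat_lit 78) (nat_lit 988) (nat_lit 0) (XT.lf (nat_lit 0) (nat_lit 6100496409) (nat_lit 608) (nat_lit 2731744328) (nat_lit 76) (nat_lit 20957988) (nat_lit 206) (nat_lit 5) (nat_lit 214) (nat_lit 5) (nat_lit 207) (nat_lit 4) (nat_lit 449) (nat_lit 353) (nat_lit 338)) (XT.nd (nat_lit 78) (nat_lit 456) (nat_lit 0) (XT.lf (nat_lit 0) (nat_lit 1062209284) (nat_lit 532) (nat_lit 4631635115) (nat_lit 76) (nat_lit 3236801119) (nat_lit 199) (nat_lit 5) (nat_lit 206) (nat_lit 5) (nat_lit 200) (nat_lit 5) (nat_lit 450) (nat_lit 353) (nat_lit 337)) (XT.lf (nat_lit 0) (nat_lit 2427698397) (nat_lit 456) (nat_lit 2464824865) (nat_lit 532) (nat_lit 4117244113) (nat_lit 193) (nat_lit 5) (nat_lit 199) (nat_lit 5) (nat_lit 200) (nat_lit 5) (nat_lit 451) (nat_lit 353) (nat_lit 336)))) (XT.nd (nat_lit 78) (nat_lit 532) (nat_lit 0) (XT.lf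 (nat_lit 0) (nat_lit 517989185) (nat_lit 456) (nat_lit 8263633050) (nat_lit 532) (nat_lit 309214973) (nat_lit 187) (nat_lit 5) (nat_lit 193) (nat_lit 5) (nat_lit 194) (nat_lit 4) (nat_lit 452) (nat_lit 353) (nat_lit 335)) (XT.nd (nat_lit 78) (nat_lit 456) (nat_lit 0) (XT.lf (nat_lit 0) (nat_lit 3531223542) (nat_lit 532) (nat_lit 1447790759) (nat_lit 76) (nat_lit 4193995964) (nat_lit 186) (nat_lit 5) (nat_lit 193) (nat_lit 5) (nat_lit 187) (nat_lit 5) (nat_lit 453) (nat_lit 353) (nat_lit 334)) (XT.lf (nat_lit 0) (nat_lit 5811001875) (nat_lit 456) (nat_lit 1614541929) (nat_lit 532) (nat_lit 1831626420) (nat_lit 180) (nat_lit 5) (nat_lit 186) (nat_lit 5) (nat_lit 187) (nat_lit 5) (nat_lit 454) (nat_lit 353) (nat_lit 333))))))))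
noncomputable def xc30 : XT := (XT.nd (nat_lit 1794) (nat_lit 3952) (nat_lit 0) (XT.nd (nat_lit 858) (nat_lit 3040) (nat_lit 0) (XT.nd (nat_lit 390) (nat_lit 2052) (nat_lit 0) (XT.nd (nat_lit 156) (nat_lit 836) (nat_lit 0) (XT.nd (nat_lit 78) (nat_lit 456) (nat_lit 0) (XT.lf (nat_lit 0) (nat_lit 2018155327) (nat_lit 456) (nat_lit 5509462796) (nat_lit 76) (nat_lit 1815329368) (nat_lit 174) (nat_lit 5) (nat_lit 180) (nat_lit 5) (nat_lit 175) (nat_lit 5) (nat_lit 455) (nat_lit 353) (nat_lit 332)) (XT.lf (nat_lit 0) (nat_lit 1792456153) (nat_lit 456) (nat_lit 4117651936) (nat_lit 532) (nat_lit 3520304144) (nat_lit 168) (nat_lit 5) (nat_lit 174) (nat_lit 5) (nat_lit 175) (nat_lit 5) (nat_lit 456) (nat_lit 353) (nat_lit 331))) (XT.nd (nat_lit 78) (nat_lit 760) (nat_lit 0) (XT.lf (nat_lit 0) (nat_lit 337017152) (nat_lit 532) (nat_lit 290117632) (nat_lit 76) (nat_lit 8892823109) (nat_lit 167) (nat_lit 5) (nat_lit 174) (nat_lit 5) (nat_lit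 168) (nat_lit 5) (nat_lit 457) (nat_lit 353) (nat_lit 330)) (XT.nd (nat_lit 78) (nat_lit 380) (nat_lit 0) (XT.lf (nat_lit 0) (nat_lit 4235772908) (nat_lit 456) (nat_lit 2436715248) (nat_lit 76) (nat_lit 2938120051) (nat_lit 162) (nat_lit 5) (nat_lit 168) (nat_lit 5) (nat_lit 163) (nat_lit 5) (nat_lit 458) (nat_lit 353) (nat_lit 329)) (XT.lf (nat_lit 0) (nat_lit 5067912394) (nat_lit 380) (nat_lit 3129317906) (nat_lit 456) (nat_lit 1506154170) (nat_lit 157) (nat_lit 5) (nat_lit 162) (nat_lit 5) (nat_lit 163) (nat_lit 5) (nat_lit 459) (nat_lit 353) (nat_lit 328))))) (XT.nd (nat_lit 234) (nat_lit 1140) (nat_lit 0) (XT.nd (nat_lit 78) (nat_lit 456) (nat_lit 0) (XT.lf (nat_lit 0) (nat_lit 2392351404) (nat_lit 456) (nat_lit 6904016230) (nat_lit 76) (nat_lit 501649968) (nat_lit 151) (nat_lit 5) (nat_lit 157) (nat_lit 5) (nat_lit 152) (nat_lit 5) (nat_lit 460) (nat_lit 353) (nat_lit 327)) (XT.nd (nat_lit 78) (nat_lit 76) (nat_lit 0)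 (XT.lf (nat_lit 0) (nat_lit 637427869) (nat_lit 380) (nat_lit 5713647276) (nat_lit 456) (nat_lit 3543227873) (nat_lit 146) (nat_lit 5) (nat_lit 151) (nat_lit 5) (nat_lit 152) (nat_lit 5) (nat_lit 461) (nat_lit 353) (nat_lit 326)) (XT.lf (nat_lit 0) (nat_lit 384277138) (nat_lit 456) (nat_lit 1654360768) (nat_lit 76) (nat_lit 7953971171) (nat_lit 145) (nat_lit 5) (nat_lit 151) (nat_lit 5) (nat_lit 146) (nat_lit 5) (nat_lit 462) (nat_lit 353) (nat_lit 325)))) (XT.nd (nat_lit 78) (nat_lit 760) (nat_lit 0) (XT.lf (nat_lit 0) (nat_lit 4341137389) (nat_lit 456) (nat_lit 4029147394) (nat_lit 76) (nat_lit 1722169718) (nat_lit 140) (nat_lit 5) (nat_lit 146) (nat_lit 5) (nat_lit 141) (nat_lit 5) (nat_lit 463) (nat_lit 353) (nat_lit 324)) (XT.nd (nat_lit 78) (nat_lit 380) (nat_lit 0) (XT.lf (nat_lit 0) (nat_lit 3716982011) (nat_lit 380) (nat_lit 4656711316) (nat_lit 456) (nat_lit 1820678843) (nat_lit 135) (nat_lit 5) (nat_lit 140) (nat_lit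 5) (nat_lit 141) (nat_lit 5) (nat_lit 464) (nat_lit 353) (nat_lit 323)) (XT.lf (nat_lit 0) (nat_lit 1295432496) (nat_lit 304) (nat_lit 847960462) (nat_lit 380) (nat_lit 8154986809) (nat_lit 130) (nat_lit 5) (nat_lit 134) (nat_lit 5) (nat_lit 135) (nat_lit 5) (nat_lit 465) (nat_lit 353) (nat_lit 322)))))) (XT.nd (nat_lit 468) (nat_lit 1596) (nat_lit 0) (XT.nd (nat_lit 234) (nat_lit 684) (nat_lit 0) (XT.nd (nat_lit 78) (nat_lit 760) (nat_lit 0) (XT.lf (nat_lit 0) (nat_lit 6174057899) (nat_lit 380) (nat_lit 1206483168) (nat_lit 76) (nat_lit 3023458077) (nat_lit 130) (nat_lit 5) (nat_lit 135) (nat_lit 5) (nat_lit 131) (nat_lit 5) (nat_lit 466) (nat_lit 353) (nat_lit 321)) (XT.nd (nat_lit 78) (nat_lit 380) (nat_lit 0) (XT.lf (nat_lit 0) (nat_lit 6748075247) (nat_lit 380) (nat_lit 3535900533) (nat_lit 456) (nat_lit 227788344) (nat_lit 125) (nat_lit 5) (nat_lit 130) (nat_lit 5) (nat_lit 131) (nat_lit 5) (nat_lit 467) (nat_lit 353)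 (nat_lit 320)) (XT.lf (nat_lit 0) (nat_lit 3791368114) (nat_lit 380) (nat_lit 6418434209) (nat_lit 76) (nat_lit 411637116) (nat_lit 120) (nat_lit 5) (nat_lit 125) (nat_lit 5) (nat_lit 121) (nat_lit 5) (nat_lit 468) (nat_lit 353) (nat_lit 319)))) (XT.nd (nat_lit 78) (nat_lit 380) (nat_lit 0) (XT.lf (nat_lit 0) (nat_lit 1561483787) (nat_lit 304) (nat_lit 6334978039) (nat_lit 380) (nat_lit 2836649901) (nat_lit 116) (nat_lit 5) (nat_lit 120) (nat_lit 5) (nat_lit 121) (nat_lit 5) (nat_lit 469) (nat_lit 353) (nat_lit 318)) (XT.nd (nat_lit 78) (nat_lit 304) (nat_lit 0) (XT.lf (nat_lit 0) (nat_lit 1213528860) (nat_lit 380) (nat_lit 1147756874) (nat_lit 76) (nat_lit 8485714436) (nat_lit 115) (nat_lit 5) (nat_lit 120) (nat_lit 5) (nat_lit 116) (nat_lit 5) (nat_lit 470) (nat_lit 353) (nat_lit 317)) (XT.lf (nat_lit 0) (nat_lit 5314359957) (nat_lit 380) (nat_lit 3943768893) (nat_lit 76) (nat_lit 1704515234) (nat_lit 111) (nat_lit 5) (nat_lit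 116) (nat_lit 5) (nat_lit 112) (nat_lit 5) (nat_lit 471) (nat_lit 353) (nat_lit 316))))) (XT.nd (nat_lit 234) (nat_lit 912) (nat_lit 0) (XT.nd (nat_lit 78) (nat_lit 380) (nat_lit 0) (XT.lf (nat_lit 0) (nat_lit 4243966619) (nat_lit 304) (nat_lit 5255177830) (nat_lit 380) (nat_lit 1581422926) (nat_lit 107) (nat_lit 5) (nat_lit 111) (nat_lit 5) (nat_lit 112) (nat_lit 5) (nat_lit 472) (nat_lit 353) (nat_lit 315)) (XT.nd (nat_lit 78) (nat_lit 0) (nat_lit 0) (XT.lf (nat_lit 0) (nat_lit 1369633308) (nat_lit 304) (nat_lit 1150121042) (nat_lit 380) (nat_lit 8681033656) (nat_lit 102) (nat_lit 5) (nat_lit 106) (nat_lit 5) (nat_lit 107) (nat_lit 5) (nat_lit 473) (nat_lit 353) (nat_lit 314)) (XT.lf (nat_lit 0) (nat_lit 6699049256) (nat_lit 380) (nat_lit 1600656873) (nat_lit 76) (nat_lit 3023157399) (nat_lit 102) (nat_lit 5) (nat_lit 107) (nat_lit 5) (nat_lit 103) (nat_lit 5) (nat_lit 474) (nat_lit 353) (nat_lit 313)))) (XT.nd (nat_lit 78)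 (nat_lit 608) (nat_lit 0) (XT.lf (nat_lit 0) (nat_lit 6797226090) (nat_lit 304) (nat_lit 4168756759) (nat_lit 380) (nat_lit 481321491) (nat_lit 98) (nat_lit 5) (nat_lit 102) (nat_lit 5) (nat_lit 103) (nat_lit 5) (nat_lit 475) (nat_lit 353) (nat_lit 312)) (XT.nd (nat_lit 78) (nat_lit 304) (nat_lit 0) (XT.lf (nat_lit 0) (nat_lit 3683016865) (nat_lit 304) (nat_lit 7817720217) (nat_lit 76) (nat_lit 73253376) (nat_lit 94) (nat_lit 5) (nat_lit 98) (nat_lit 5) (nat_lit 95) (nat_lit 5) (nat_lit 476) (nat_lit 353) (nat_lit 311)) (XT.lf (nat_lit 0) (nat_lit 588812791) (nat_lit 304) (nat_lit 7350867416) (nat_lit 380) (nat_lit 3763161353) (nat_lit 90) (nat_lit 5) (nat_lit 94) (nat_lit 5) (nat_lit 95) (nat_lit 5) (nat_lit 477) (nat_lit 353) (nat_lit 310))))))) (XT.nd (nat_lit 936) (nat_lit 1748) (nat_lit 0) (XT.nd (nat_lit 468) (nat_lit 1064) (nat_lit 0) (XT.nd (nat_lit 234) (nat_lit 532) (nat_lit 0) (XT.nd (nat_lit 78) (nat_lit 532) (nat_lit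 0) (XT.lf (nat_lit 0) (nat_lit 446888925) (nat_lit 380) (nat_lit 2646236054) (nat_lit 76) (nat_lit 8740980072) (nat_lit 89) (nat_lit 5) (nat_lit 94) (nat_lit 5) (nat_lit 90) (nat_lit 5) (nat_lit 478) (nat_lit 353) (nat_lit 309)) (XT.nd (nat_lit 78) (nat_lit 304) (nat_lit 0) (XT.lf (nat_lit 0) (nat_lit 4691535423) (nat_lit 304) (nat_lit 6009399539) (nat_lit 76) (nat_lit 1266549974) (nat_lit 86) (nat_lit 5) (nat_lit 90) (nat_lit 5) (nat_lit 87) (nat_lit 5) (nat_lit 479) (nat_lit 353) (nat_lit 308)) (XT.lf (nat_lit 0) (nat_lit 2602853194) (nat_lit 304) (nat_lit 6427350783) (nat_lit 380) (nat_lit 3073150068) (nat_lit 82) (nat_lit 5) (nat_lit 86) (nat_lit 5) (nat_lit 87) (nat_lit 5) (nat_lit 480) (nat_lit 353) (nat_lit 307)))) (XT.nd (nat_lit 78) (nat_lit 456) (nat_lit 0) (XT.lf (nat_lit 0) (nat_lit 1192346223) (nat_lit 380) (nat_lit 858443067) (nat_lit 76) (nat_lit 10191106511) (nat_lit 81) (nat_lit 5) (nat_lit 86) (nat_lit 5)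 (nat_lit 82) (nat_lit 5) (nat_lit 481) (nat_lit 353) (nat_lit 306)) (XT.nd (nat_lit 78) (nat_lit 228) (nat_lit 0) (XT.lf (nat_lit 0) (nat_lit 5524560580) (nat_lit 304) (nat_lit 4434504772) (nat_lit 76) (nat_lit 2423289584) (nat_lit 78) (nat_lit 5) (nat_lit 82) (nat_lit 5) (nat_lit 79) (nat_lit 5) (nat_lit 482) (nat_lit 353) (nat_lit 305)) (XT.lf (nat_lit 0) (nat_lit 4383634124) (nat_lit 228) (nat_lit 5562684178) (nat_lit 304) (nat_lit 2579250859) (nat_lit 75) (nat_lit 5) (nat_lit 78) (nat_lit 5) (nat_lit 79) (nat_lit 5) (nat_lit 483) (nat_lit 353) (nat_lit 304))))) (XT.nd (nat_lit 234) (nat_lit 532) (nat_lit 0) (XT.nd (nat_lit 78) (nat_lit 228) (nat_lit 0) (XT.lf (nat_lit 0) (nat_lit 687696058) (nat_lit 228) (nat_lit 1063324127) (nat_lit 304) (nat_lit 10920608140) (nat_lit 71) (nat_lit 5) (nat_lit 74) (nat_lit 5) (nat_lit 75) (nat_lit 5) (nat_lit 484) (nat_lit 353) (nat_lit 303)) (XT.nd (nat_lit 78) (nat_lit 228) (nat_lit 0)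 (XT.lf (nat_lit 0) (nat_lit 6166608514) (nat_lit 304) (nat_lit 3132480171) (nat_lit 76) (nat_lit 3520517715) (nat_lit 71) (nat_lit 5) (nat_lit 75) (nat_lit 5) (nat_lit 72) (nat_lit 5) (nat_lit 485) (nat_lit 353) (nat_lit 302)) (XT.lf (nat_lit 0) (nat_lit 5890812430) (nat_lit 228) (nat_lit 4781185088) (nat_lit 304) (nat_lit 2298520332) (nat_lit 68) (nat_lit 5) (nat_lit 71) (nat_lit 5) (nat_lit 72) (nat_lit 5) (nat_lit 486) (nat_lit 353) (nat_lit 301)))) (XT.nd (nat_lit 78) (nat_lit 228) (nat_lit 0) (XT.lf (nat_lit 0) (nat_lit 1949019733) (nat_lit 228) (nat_lit 156016076) (nat_lit 304) (nat_lit 11019334983) (nat_lit 64) (nat_lit 5) (nat_lit 67) (nat_lit 5) (nat_lit 68) (nat_lit 5) (nat_lit 487) (nat_lit 353) (nat_lit 300)) (XT.nd (nat_lit 78) (nat_lit 228) (nat_lit 0) (XT.lf (nat_lit 0) (nat_lit 6599801293) (nat_lit 304) (nat_lit 2146880145) (nat_lit 76) (nat_lit 4533640565) (nat_lit 64) (nat_lit 5) (nat_lit 68) (nat_lit 5) (nat_lit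 65) (nat_lit 5) (nat_lit 488) (nat_lit 353) (nat_lit 299)) (XT.lf (nat_lit 0) (nat_lit 7079801134) (nat_lit 228) (nat_lit 4108961094) (nat_lit 304) (nat_lit 2250547328) (nat_lit 61) (nat_lit 5) (nat_lit 64) (nat_lit 5) (nat_lit 65) (nat_lit 5) (nat_lit 489) (nat_lit 353) (nat_lit 298)))))) (XT.nd (nat_lit 468) (nat_lit 836) (nat_lit 0) (XT.nd (nat_lit 234) (nat_lit 456) (nat_lit 0) (XT.nd (nat_lit 78) (nat_lit 228) (nat_lit 0) (XT.lf (nat_lit 0) (nat_lit 2232921562) (nat_lit 228) (nat_lit 10738067615) (nat_lit 76) (nat_lit 630303528) (nat_lit 58) (nat_lit 5) (nat_lit 61) (nat_lit 5) (nat_lit 59) (nat_lit 5) (nat_lit 490) (nat_lit 353) (nat_lit 297)) (XT.nd (nat_lit 78) (nat_lit 228) (nat_lit 0) (XT.lf (nat_lit 0) (nat_lit 6803650707) (nat_lit 228) (nat_lit 1525858205) (nat_lit 76) (nat_lit 5436157697) (nat_lit 58) (nat_lit 5) (nat_lit 61) (nat_lit 5) (nat_lit 59) (nat_lit 5) (nat_lit 491) (nat_lit 353) (nat_lit 296)) (XT.lf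 (nat_lit 0) (nat_lit 7901265325) (nat_lit 228) (nat_lit 3574189760) (nat_lit 304) (nat_lit 2457682758) (nat_lit 55) (nat_lit 5) (nat_lit 58) (nat_lit 5) (nat_lit 59) (nat_lit 5) (nat_lit 492) (nat_lit 353) (nat_lit 295)))) (XT.nd (nat_lit 78) (nat_lit 228) (nat_lit 0) (XT.lf (nat_lit 0) (nat_lit 2107857191) (nat_lit 228) (nat_lit 10720890242) (nat_lit 76) (nat_lit 1274953677) (nat_lit 52) (nat_lit 5) (nat_lit 55) (nat_lit 5) (nat_lit 53) (nat_lit 5) (nat_lit 493) (nat_lit 353) (nat_lit 294)) (XT.nd (nat_lit 78) (nat_lit 228) (nat_lit 0) (XT.lf (nat_lit 0) (nat_lit 6754816081) (nat_lit 228) (nat_lit 1322704343) (nat_lit 76) (nat_lit 6199372871) (nat_lit 52) (nat_lit 5) (nat_lit 55) (nat_lit 5) (nat_lit 53) (nat_lit 5) (nat_lit 494) (nat_lit 353) (nat_lit 293)) (XT.lf (nat_lit 0) (nat_lit 8300567981) (nat_lit 228) (nat_lit 3207421824) (nat_lit 304) (nat_lit 2945296838) (nat_lit 49) (nat_lit 5) (nat_lit 52) (nat_lit 5) (nat_lit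 53) (nat_lit 5) (nat_lit 495) (nat_lit 353) (nat_lit 292))))) (XT.nd (nat_lit 234) (nat_lit 380) (nat_lit 0) (XT.nd (nat_lit 78) (nat_lit 228) (nat_lit 0) (XT.lf (nat_lit 0) (nat_lit 1702797958) (nat_lit 228) (nat_lit 11181102038) (nat_lit 76) (nat_lit 1749039315) (nat_lit 46) (nat_lit 5) (nat_lit 49) (nat_lit 5) (nat_lit 47) (nat_lit 5) (nat_lit 496) (nat_lit 353) (nat_lit 291)) (XT.nd (nat_lit 78) (nat_lit 228) (nat_lit 0) (XT.lf (nat_lit 0) (nat_lit 6426833592) (nat_lit 228) (nat_lit 1596436160) (nat_lit 76) (nat_lit 6792080250) (nat_lit 46) (nat_lit 5) (nat_lit 49) (nat_lit 5) (nat_lit 47) (nat_lit 5) (nat_lit 497) (nat_lit 353) (nat_lit 290)) (XT.lf (nat_lit 0) (nat_lit 8217160191) (nat_lit 228) (nat_lit 3041910597) (nat_lit 304) (nat_lit 3742066320) (nat_lit 43) (nat_lit 5) (nat_lit 46) (nat_lit 5) (nat_lit 47) (nat_lit 5) (nat_lit 498) (nat_lit 353) (nat_lit 289)))) (XT.nd (nat_lit 78) (nat_lit 152) (nat_lit 0) (XT.lf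 (nat_lit 0) (nat_lit 988339865) (nat_lit 228) (nat_lit 12183261010) (nat_lit 76) (nat_lit 2018829951) (nat_lit 40) (nat_lit 5) (nat_lit 43) (nat_lit 5) (nat_lit 41) (nat_lit 5) (nat_lit 499) (nat_lit 353) (nat_lit 288)) (XT.nd (nat_lit 78) (nat_lit 152) (nat_lit 0) (XT.lf (nat_lit 0) (nat_lit 5789814321) (nat_lit 228) (nat_lit 2412449605) (nat_lit 76) (nat_lit 7180222928) (nat_lit 40) (nat_lit 5) (nat_lit 43) (nat_lit 5) (nat_lit 41) (nat_lit 5) (nat_lit 500) (nat_lit 353) (nat_lit 287)) (XT.lf (nat_lit 0) (nat_lit 7583909756) (nat_lit 152) (nat_lit 3113970767) (nat_lit 228) (nat_lit 4880294652) (nat_lit 38) (nat_lit 5) (nat_lit 40) (nat_lit 5) (nat_lit 41) (nat_lit 5) (nat_lit 501) (nat_lit 353) (nat_lit 286))))))))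
noncomputable def xc31 : XT := (XT.nd (nat_lit 55224) (nat_lit 0) (nat_lit 6004) (XT.nd (nat_lit 54288) (nat_lit 0) (nat_lit 14060) (XT.nd (nat_lit 390) (nat_lit 152) (nat_lit 0) (XT.nd (nat_lit 156) (nat_lit 380) (nat_lit 0) (XT.nd (nat_lit 78) (nat_lit 76) (nat_lit 0) (XT.lf (nat_lit 0) (nat_lit 1978356070) (nat_lit 152) (nat_lit 13729807721) (nat_lit 228) (nat_lit 69534726) (nat_lit 36) (nat_lit 5) (nat_lit 38) (nat_lit 5) (nat_lit 39) (nat_lit 4) (nat_lit 502) (nat_lit 353) (nat_lit 285)) (XT.lf (nat_lit 0) (nat_lit 4810107984) (nat_lit 228) (nat_lit 3843235779) (nat_lit 76) (nat_lit 7326520454) (nat_lit 35) (nat_lit 5) (nat_lit 38) (nat_lit 5) (nat_lit 36) (nat_lit 5) (nat_lit 503) (nat_lit 353) (nat_lit 284))) (XT.nd (nat_lit 78) (nat_lit 228) (nat_lit 0) (XT.lf (nat_lit 0) (nat_lit 6326361479) (nat_lit 152) (nat_lit 3463370106) (nat_lit 228) (nat_lit 6396268305) (nat_lit 33) (nat_lit 5) (nat_lit 35) (nat_lit 5) (nat_lit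 36) (nat_lit 5) (nat_lit 504) (nat_lit 353) (nat_lit 283)) (XT.nd (nat_lit 78) (nat_lit 76) (nat_lit 0) (XT.lf (nat_lit 0) (nat_lit 279060127) (nat_lit 152) (nat_lit 14591892282) (nat_lit 228) (nat_lit 1525267961) (nat_lit 31) (nat_lit 5) (nat_lit 33) (nat_lit 5) (nat_lit 34) (nat_lit 4) (nat_lit 505) (nat_lit 353) (nat_lit 282)) (XT.lf (nat_lit 0) (nat_lit 3449928947) (nat_lit 228) (nat_lit 5969170906) (nat_lit 76) (nat_lit 7190061724) (nat_lit 30) (nat_lit 5) (nat_lit 33) (nat_lit 5) (nat_lit 31) (nat_lit 5) (nat_lit 506) (nat_lit 353) (nat_lit 281))))) (XT.nd (nat_lit 53664) (nat_lit 0) (nat_lit 19608) (XT.nd (nat_lit 53508) (nat_lit 0) (nat_lit 21736) (XT.lf (nat_lit 0) (nat_lit 4361921826) (nat_lit 152) (nat_lit 4133757903) (nat_lit 228) (nat_lit 8330652838) (nat_lit 28) (nat_lit 5) (nat_lit 30) (nat_lit 5) (nat_lit 31) (nat_lit 5) (nat_lit 507) (nat_lit 353) (nat_lit 280)) (XT.nd (nat_lit 78) (nat_lit 0) (nat_lit 0) (XT.lf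 (nat_lit 0) (nat_lit 322674240) (nat_lit 760) (nat_lit 3238868989) (nat_lit 0) (nat_lit 322674240) (nat_lit 314) (nat_lit 5) (nat_lit 324) (nat_lit 4) (nat_lit 314) (nat_lit 4) (nat_lit 432) (nat_lit 354) (nat_lit 354)) (XT.lf (nat_lit 0) (nat_lit 4393810269) (nat_lit 760) (nat_lit 352867891) (nat_lit 0) (nat_lit 3074350178) (nat_lit 314) (nat_lit 5) (nat_lit 324) (nat_lit 4) (nat_lit 314) (nat_lit 4) (nat_lit 433) (nat_lit 354) (nat_lit 353)))) (XT.nd (nat_lit 78) (nat_lit 1368) (nat_lit 0) (XT.lf (nat_lit 0) (nat_lit 309913333) (nat_lit 760) (nat_lit 1987023481) (nat_lit 76) (nat_lit 5578270194) (nat_lit 304) (nat_lit 5) (nat_lit 314) (nat_lit 5) (nat_lit 305) (nat_lit 4) (nat_lit 434) (nat_lit 354) (nat_lit 352)) (XT.nd (nat_lit 78) (nat_lit 684) (nat_lit 0) (XT.lf (nat_lit 0) (nat_lit 4041788372) (nat_lit 760) (nat_lit 3652304852) (nat_lit 0) (nat_lit 236619486) (nat_lit 295) (nat_lit 5) (nat_lit 305) (nat_lit 4) (nat_lit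 295) (nat_lit 4) (nat_lit 435) (nat_lit 354) (nat_lit 351)) (XT.lf (nat_lit 0) (nat_lit 2645907443) (nat_lit 684) (nat_lit 5182984699) (nat_lit 684) (nat_lit 158838644) (nat_lit 286) (nat_lit 4) (nat_lit 295) (nat_lit 5) (nat_lit 295) (nat_lit 4) (nat_lit 436) (nat_lit 354) (nat_lit 350)))))) (XT.nd (nat_lit 468) (nat_lit 2356) (nat_lit 0) (XT.nd (nat_lit 234) (nat_lit 1824) (nat_lit 0) (XT.nd (nat_lit 78) (nat_lit 684) (nat_lit 0) (XT.lf (nat_lit 0) (nat_lit 980368750) (nat_lit 608) (nat_lit 2583784944) (nat_lit 684) (nat_lit 4481953225) (nat_lit 277) (nat_lit 5) (nat_lit 285) (nat_lit 5) (nat_lit 286) (nat_lit 4) (nat_lit 437) (nat_lit 354) (nat_lit 349)) (XT.nd (nat_lit 78) (nat_lit 684) (nat_lit 0) (XT.lf (nat_lit 0) (nat_lit 7331707744) (nat_lit 684) (nat_lit 688728387) (nat_lit 0) (nat_lit 85762142) (nat_lit 277) (nat_lit 5) (nat_lit 286) (nat_lit 4) (nat_lit 277) (nat_lit 4) (nat_lit 438) (nat_lit 354) (nat_lit 348))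 (XT.lf (nat_lit 0) (nat_lit 2959302673) (nat_lit 684) (nat_lit 2394300683) (nat_lit 76) (nat_lit 2813677968) (nat_lit 268) (nat_lit 5) (nat_lit 277) (nat_lit 5) (nat_lit 269) (nat_lit 4) (nat_lit 439) (nat_lit 354) (nat_lit 347)))) (XT.nd (nat_lit 78) (nat_lit 1216) (nat_lit 0) (XT.lf (nat_lit 0) (nat_lit 4110361167) (nat_lit 608) (nat_lit 2615638055) (nat_lit 684) (nat_lit 1504124974) (nat_lit 260) (nat_lit 5) (nat_lit 268) (nat_lit 5) (nat_lit 269) (nat_lit 4) (nat_lit 440) (nat_lit 354) (nat_lit 346)) (XT.nd (nat_lit 78) (nat_lit 532) (nat_lit 0) (XT.lf (nat_lit 0) (nat_lit 2214712525) (nat_lit 684) (nat_lit 5877823939) (nat_lit 76) (nat_lit 201989660) (nat_lit 251) (nat_lit 5) (nat_lit 260) (nat_lit 5) (nat_lit 252) (nat_lit 4) (nat_lit 441) (nat_lit 354) (nat_lit 345)) (XT.lf (nat_lit 0) (nat_lit 678480693) (nat_lit 532) (nat_lit 5296969411) (nat_lit 608) (nat_lit 2384825656) (nat_lit 244) (nat_lit 5) (nat_lit 251) (nat_lit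 5) (nat_lit 252) (nat_lit 4) (nat_lit 442) (nat_lit 354) (nat_lit 344))))) (XT.nd (nat_lit 234) (nat_lit 1064) (nat_lit 0) (XT.nd (nat_lit 78) (nat_lit 1216) (nat_lit 0) (XT.lf (nat_lit 0) (nat_lit 1343964444) (nat_lit 608) (nat_lit 1073525914) (nat_lit 76) (nat_lit 6010120540) (nat_lit 243) (nat_lit 5) (nat_lit 251) (nat_lit 5) (nat_lit 244) (nat_lit 5) (nat_lit 443) (nat_lit 354) (nat_lit 343)) (XT.nd (nat_lit 78) (nat_lit 608) (nat_lit 0) (XT.lf (nat_lit 0) (nat_lit 5095210132) (nat_lit 684) (nat_lit 2856597036) (nat_lit 76) (nat_lit 544585152) (nat_lit 235) (nat_lit 5) (nat_lit 244) (nat_lit 5) (nat_lit 236) (nat_lit 4) (nat_lit 444) (nat_lit 354) (nat_lit 342)) (XT.lf (nat_lit 0) (nat_lit 338775214) (nat_lit 608) (nat_lit 4680760876) (nat_lit 76) (nat_lit 3547207887) (nat_lit 227) (nat_lit 5) (nat_lit 235) (nat_lit 5) (nat_lit 228) (nat_lit 5) (nat_lit 445) (nat_lit 354) (nat_lit 341)))) (XT.nd (nat_lit 78) (nat_lit 532)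 (nat_lit 0) (XT.lf (nat_lit 0) (nat_lit 2086254346) (nat_lit 532) (nat_lit 1994939844) (nat_lit 608) (nat_lit 4557405223) (nat_lit 220) (nat_lit 5) (nat_lit 227) (nat_lit 5) (nat_lit 228) (nat_lit 5) (nat_lit 446) (nat_lit 354) (nat_lit 340)) (XT.nd (nat_lit 78) (nat_lit 76) (nat_lit 0) (XT.lf (nat_lit 0) (nat_lit 253865277) (nat_lit 456) (nat_lit 7625750631) (nat_lit 532) (nat_lit 832663222) (nat_lit 214) (nat_lit 5) (nat_lit 220) (nat_lit 5) (nat_lit 221) (nat_lit 4) (nat_lit 447) (nat_lit 354) (nat_lit 339)) (XT.lf (nat_lit 0) (nat_lit 2926176264) (nat_lit 532) (nat_lit 1617518997) (nat_lit 76) (nat_lit 4243391627) (nat_lit 213) (nat_lit 5) (nat_lit 220) (nat_lit 5) (nat_lit 214) (nat_lit 5) (nat_lit 448) (nat_lit 354) (nat_lit 338))))))) (XT.nd (nat_lit 936) (nat_lit 3344) (nat_lit 0) (XT.nd (nat_lit 468) (nat_lit 2204) (nat_lit 0) (XT.nd (nat_lit 234) (nat_lit 988) (nat_lit 0) (XT.nd (nat_lit 78) (nat_lit 988) (nat_lit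 0) (XT.lf (nat_lit 0) (nat_lit 5343166944) (nat_lit 532) (nat_lit 1382771569) (nat_lit 608) (nat_lit 2137813972) (nat_lit 206) (nat_lit 5) (nat_lit 213) (nat_lit 5) (nat_lit 214) (nat_lit 5) (nat_lit 449) (nat_lit 354) (nat_lit 337)) (XT.nd (nat_lit 78) (nat_lit 456) (nat_lit 0) (XT.lf (nat_lit 0) (nat_lit 1625976474) (nat_lit 532) (nat_lit 5478144324) (nat_lit 76) (nat_lit 1837864370) (nat_lit 199) (nat_lit 5) (nat_lit 206) (nat_lit 5) (nat_lit 200) (nat_lit 5) (nat_lit 450) (nat_lit 354) (nat_lit 336)) (XT.lf (nat_lit 0) (nat_lit 1528665728) (nat_lit 456) (nat_lit 3893498589) (nat_lit 532) (nat_lit 3599629742) (nat_lit 193) (nat_lit 5) (nat_lit 199) (nat_lit 5) (nat_lit 200) (nat_lit 5) (nat_lit 451) (nat_lit 354) (nat_lit 335)))) (XT.nd (nat_lit 78) (nat_lit 912) (nat_lit 0) (XT.lf (nat_lit 0) (nat_lit 168638070) (nat_lit 532) (nat_lit 436582012) (nat_lit 76) (nat_lit 8498361644) (nat_lit 192) (nat_lit 5) (nat_lit 199) (nat_lit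 5) (nat_lit 193) (nat_lit 5) (nat_lit 452) (nat_lit 354) (nat_lit 334)) (XT.nd (nat_lit 78) (nat_lit 456) (nat_lit 0) (XT.lf (nat_lit 0) (nat_lit 3970220521) (nat_lit 532) (nat_lit 2460079601) (nat_lit 76) (nat_lit 2756114774) (nat_lit 186) (nat_lit 5) (nat_lit 193) (nat_lit 5) (nat_lit 187) (nat_lit 5) (nat_lit 453) (nat_lit 354) (nat_lit 333)) (XT.lf (nat_lit 0) (nat_lit 4744475726) (nat_lit 456) (nat_lit 3085709193) (nat_lit 532) (nat_lit 1441081219) (nat_lit 180) (nat_lit 5) (nat_lit 186) (nat_lit 5) (nat_lit 187) (nat_lit 5) (nat_lit 454) (nat_lit 354) (nat_lit 332))))) (XT.nd (nat_lit 234) (nat_lit 1216) (nat_lit 0) (XT.nd (nat_lit 78) (nat_lit 532) (nat_lit 0) (XT.lf (nat_lit 0) (nat_lit 2359181629) (nat_lit 456) (nat_lit 6652978832) (nat_lit 76) (nat_lit 345724171) (nat_lit 174) (nat_lit 5) (nat_lit 180) (nat_lit 5) (nat_lit 175) (nat_lit 5) (nat_lit 455) (nat_lit 354) (nat_lit 331)) (XT.nd (nat_lit 78) (nat_lit 76)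 (nat_lit 0) (XT.lf (nat_lit 0) (nat_lit 592657313) (nat_lit 456) (nat_lit 5623541505) (nat_lit 532) (nat_lit 3229853194) (nat_lit 168) (nat_lit 5) (nat_lit 174) (nat_lit 5) (nat_lit 175) (nat_lit 5) (nat_lit 456) (nat_lit 354) (nat_lit 330)) (XT.lf (nat_lit 0) (nat_lit 596602064) (nat_lit 532) (nat_lit 1548085864) (nat_lit 76) (nat_lit 7391416937) (nat_lit 167) (nat_lit 5) (nat_lit 174) (nat_lit 5) (nat_lit 168) (nat_lit 5) (nat_lit 457) (nat_lit 354) (nat_lit 329)))) (XT.nd (nat_lit 78) (nat_lit 836) (nat_lit 0) (XT.lf (nat_lit 0) (nat_lit 4450297372) (nat_lit 456) (nat_lit 3758633601) (nat_lit 76) (nat_lit 1418729114) (nat_lit 162) (nat_lit 5) (nat_lit 168) (nat_lit 5) (nat_lit 163) (nat_lit 5) (nat_lit 458) (nat_lit 354) (nat_lit 328)) (XT.nd (nat_lit 78) (nat_lit 456) (nat_lit 0) (XT.lf (nat_lit 0) (nat_lit 3687867383) (nat_lit 380) (nat_lit 4688577635) (nat_lit 456) (nat_lit 1344701155) (nat_lit 157) (nat_lit 5) (nat_lit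 162) (nat_lit 5) (nat_lit 163) (nat_lit 5) (nat_lit 459) (nat_lit 354) (nat_lit 327)) (XT.lf (nat_lit 0) (nat_lit 1439273212) (nat_lit 380) (nat_lit 1073379084) (nat_lit 456) (nat_lit 7303890223) (nat_lit 151) (nat_lit 5) (nat_lit 156) (nat_lit 5) (nat_lit 157) (nat_lit 5) (nat_lit 460) (nat_lit 354) (nat_lit 326)))))) (XT.nd (nat_lit 468) (nat_lit 1748) (nat_lit 0) (XT.nd (nat_lit 234) (nat_lit 760) (nat_lit 0) (XT.nd (nat_lit 78) (nat_lit 836) (nat_lit 0) (XT.lf (nat_lit 0) (nat_lit 6434167384) (nat_lit 456) (nat_lit 877502300) (nat_lit 76) (nat_lit 2601905842) (nat_lit 151) (nat_lit 5) (nat_lit 157) (nat_lit 5) (nat_lit 152) (nat_lit 5) (nat_lit 461) (nat_lit 354) (nat_lit 325)) (XT.nd (nat_lit 78) (nat_lit 380) (nat_lit 0) (XT.lf (nat_lit 0) (nat_lit 415425074) (nat_lit 456) (nat_lit 3241086862) (nat_lit 76) (nat_lit 6356001344) (nat_lit 145) (nat_lit 5) (nat_lit 151) (nat_lit 5) (nat_lit 146) (nat_lit 5) (nat_lit 462)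 (nat_lit 354) (nat_lit 324)) (XT.lf (nat_lit 0) (nat_lit 4325406213) (nat_lit 456) (nat_lit 5687030117) (nat_lit 76) (nat_lit 100863178) (nat_lit 140) (nat_lit 5) (nat_lit 146) (nat_lit 5) (nat_lit 141) (nat_lit 5) (nat_lit 463) (nat_lit 354) (nat_lit 323)))) (XT.nd (nat_lit 78) (nat_lit 380) (nat_lit 0) (XT.lf (nat_lit 0) (nat_lit 1996803210) (nat_lit 380) (nat_lit 6324630907) (nat_lit 456) (nat_lit 1894516778) (nat_lit 135) (nat_lit 5) (nat_lit 140) (nat_lit 5) (nat_lit 141) (nat_lit 5) (nat_lit 464) (nat_lit 354) (nat_lit 322)) (XT.nd (nat_lit 78) (nat_lit 304) (nat_lit 0) (XT.lf (nat_lit 0) (nat_lit 2036824673) (nat_lit 456) (nat_lit 502648757) (nat_lit 76) (nat_lit 7781171661) (nat_lit 134) (nat_lit 5) (nat_lit 140) (nat_lit 5) (nat_lit 135) (nat_lit 5) (nat_lit 465) (nat_lit 354) (nat_lit 321)) (XT.lf (nat_lit 0) (nat_lit 6028035335) (nat_lit 380) (nat_lit 3062532663) (nat_lit 76) (nat_lit 1336488529) (nat_lit 130) (nat_lit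 5) (nat_lit 135) (nat_lit 5) (nat_lit 131) (nat_lit 5) (nat_lit 466) (nat_lit 354) (nat_lit 320))))) (XT.nd (nat_lit 234) (nat_lit 988) (nat_lit 0) (XT.nd (nat_lit 78) (nat_lit 380) (nat_lit 0) (XT.lf (nat_lit 0) (nat_lit 4827661565) (nat_lit 380) (nat_lit 5273172999) (nat_lit 456) (nat_lit 434732234) (nat_lit 125) (nat_lit 5) (nat_lit 130) (nat_lit 5) (nat_lit 131) (nat_lit 5) (nat_lit 467) (nat_lit 354) (nat_lit 319)) (XT.nd (nat_lit 78) (nat_lit 0) (nat_lit 0) (XT.lf (nat_lit 0) (nat_lit 2197304053) (nat_lit 304) (nat_lit 1349501907) (nat_lit 380) (nat_lit 7099272477) (nat_lit 120) (nat_lit 5) (nat_lit 124) (nat_lit 5) (nat_lit 125) (nat_lit 5) (nat_lit 468) (nat_lit 354) (nat_lit 318)) (XT.lf (nat_lit 0) (nat_lit 7608549525) (nat_lit 380) (nat_lit 519959651) (nat_lit 76) (nat_lit 2630111302) (nat_lit 120) (nat_lit 5) (nat_lit 125) (nat_lit 5) (nat_lit 121) (nat_lit 5) (nat_lit 469) (nat_lit 354) (nat_lit 317)))) (XT.nd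 (nat_lit 78) (nat_lit 608) (nat_lit 0) (XT.lf (nat_lit 0) (nat_lit 876387130) (nat_lit 380) (nat_lit 3299083486) (nat_lit 76) (nat_lit 6697638271) (nat_lit 115) (nat_lit 5) (nat_lit 120) (nat_lit 5) (nat_lit 116) (nat_lit 5) (nat_lit 470) (nat_lit 354) (nat_lit 316)) (XT.nd (nat_lit 78) (nat_lit 304) (nat_lit 0) (XT.lf (nat_lit 0) (nat_lit 4811202730) (nat_lit 304) (nat_lit 116484024) (nat_lit 380) (nat_lit 6062059268) (nat_lit 111) (nat_lit 5) (nat_lit 115) (nat_lit 5) (nat_lit 116) (nat_lit 5) (nat_lit 471) (nat_lit 354) (nat_lit 315)) (XT.lf (nat_lit 0) (nat_lit 1940937664) (nat_lit 304) (nat_lit 7132038541) (nat_lit 380) (nat_lit 2035485547) (nat_lit 107) (nat_lit 5) (nat_lit 111) (nat_lit 5) (nat_lit 112) (nat_lit 5) (nat_lit 472) (nat_lit 354) (nat_lit 314))))))))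
noncomputable def xc32 : XT := (XT.nd (nat_lit 1794) (nat_lit 1444) (nat_lit 0) (XT.nd (nat_lit 858) (nat_lit 1976) (nat_lit 0) (XT.nd (nat_lit 390) (nat_lit 1444) (nat_lit 0) (XT.nd (nat_lit 156) (nat_lit 608) (nat_lit 0) (XT.nd (nat_lit 78) (nat_lit 304) (nat_lit 0) (XT.lf (nat_lit 0) (nat_lit 2039025861) (nat_lit 380) (nat_lit 1015173620) (nat_lit 76) (nat_lit 8175196723) (nat_lit 106) (nat_lit 5) (nat_lit 111) (nat_lit 5) (nat_lit 107) (nat_lit 5) (nat_lit 473) (nat_lit 354) (nat_lit 313)) (XT.lf (nat_lit 0) (nat_lit 6175623339) (nat_lit 380) (nat_lit 4054277535) (nat_lit 76) (nat_lit 1122427195) (nat_lit 102) (nat_lit 5) (nat_lit 107) (nat_lit 5) (nat_lit 103) (nat_lit 5) (nat_lit 474) (nat_lit 354) (nat_lit 312))) (XT.nd (nat_lit 78) (nat_lit 304) (nat_lit 0) (XT.lf (nat_lit 0) (nat_lit 4272266991) (nat_lit 304) (nat_lit 6130747325) (nat_lit 380) (nat_lit 1074547765) (nat_lit 98) (nat_lit 5) (nat_lit 102) (nat_lit 5)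 (nat_lit 103) (nat_lit 5) (nat_lit 475) (nat_lit 354) (nat_lit 311)) (XT.nd (nat_lit 78) (nat_lit 0) (nat_lit 0) (XT.lf (nat_lit 0) (nat_lit 1132700695) (nat_lit 228) (nat_lit 1924255346) (nat_lit 304) (nat_lit 8548183740) (nat_lit 94) (nat_lit 5) (nat_lit 97) (nat_lit 5) (nat_lit 98) (nat_lit 5) (nat_lit 476) (nat_lit 354) (nat_lit 310)) (XT.lf (nat_lit 0) (nat_lit 7274314787) (nat_lit 304) (nat_lit 2099525648) (nat_lit 76) (nat_lit 2360938751) (nat_lit 94) (nat_lit 5) (nat_lit 98) (nat_lit 5) (nat_lit 95) (nat_lit 5) (nat_lit 477) (nat_lit 354) (nat_lit 309))))) (XT.nd (nat_lit 234) (nat_lit 836) (nat_lit 0) (XT.nd (nat_lit 78) (nat_lit 304) (nat_lit 0) (XT.lf (nat_lit 0) (nat_lit 6436489671) (nat_lit 304) (nat_lit 5148538976) (nat_lit 380) (nat_lit 281806952) (nat_lit 90) (nat_lit 5) (nat_lit 94) (nat_lit 5) (nat_lit 95) (nat_lit 5) (nat_lit 478) (nat_lit 354) (nat_lit 308)) (XT.nd (nat_lit 78) (nat_lit 0) (nat_lit 0) (XT.lf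 (nat_lit 0) (nat_lit 3109137191) (nat_lit 228) (nat_lit 808025062) (nat_lit 304) (nat_lit 8084079373) (nat_lit 86) (nat_lit 5) (nat_lit 89) (nat_lit 5) (nat_lit 90) (nat_lit 5) (nat_lit 479) (nat_lit 354) (nat_lit 307)) (XT.lf (nat_lit 0) (nat_lit 8211296350) (nat_lit 304) (nat_lit 346535142) (nat_lit 76) (nat_lit 3580171974) (nat_lit 86) (nat_lit 5) (nat_lit 90) (nat_lit 5) (nat_lit 87) (nat_lit 5) (nat_lit 480) (nat_lit 354) (nat_lit 306)))) (XT.nd (nat_lit 78) (nat_lit 456) (nat_lit 0) (XT.lf (nat_lit 0) (nat_lit 325346300) (nat_lit 380) (nat_lit 3879417770) (nat_lit 76) (nat_lit 8072386702) (nat_lit 81) (nat_lit 5) (nat_lit 86) (nat_lit 5) (nat_lit 82) (nat_lit 5) (nat_lit 481) (nat_lit 354) (nat_lit 305)) (XT.nd (nat_lit 78) (nat_lit 228) (nat_lit 0) (XT.lf (nat_lit 0) (nat_lit 4601320395) (nat_lit 304) (nat_lit 7555101130) (nat_lit 76) (nat_lit 262315111) (nat_lit 78) (nat_lit 5) (nat_lit 82) (nat_lit 5) (nat_lit 79)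 (nat_lit 5) (nat_lit 482) (nat_lit 354) (nat_lit 304)) (XT.lf (nat_lit 0) (nat_lit 1183877600) (nat_lit 228) (nat_lit 7796613051) (nat_lit 304) (nat_lit 3582313846) (nat_lit 75) (nat_lit 5) (nat_lit 78) (nat_lit 5) (nat_lit 79) (nat_lit 5) (nat_lit 483) (nat_lit 354) (nat_lit 303)))))) (XT.nd (nat_lit 468) (nat_lit 912) (nat_lit 0) (XT.nd (nat_lit 234) (nat_lit 532) (nat_lit 0) (XT.nd (nat_lit 78) (nat_lit 456) (nat_lit 0) (XT.lf (nat_lit 0) (nat_lit 734877804) (nat_lit 304) (nat_lit 2589043712) (nat_lit 76) (nat_lit 9385598907) (nat_lit 74) (nat_lit 5) (nat_lit 78) (nat_lit 5) (nat_lit 75) (nat_lit 5) (nat_lit 484) (nat_lit 354) (nat_lit 302)) (XT.nd (nat_lit 78) (nat_lit 228) (nat_lit 0) (XT.lf (nat_lit 0) (nat_lit 5096959665) (nat_lit 304) (nat_lit 6504399195) (nat_lit 76) (nat_lit 1257211546) (nat_lit 71) (nat_lit 5) (nat_lit 75) (nat_lit 5) (nat_lit 72) (nat_lit 5) (nat_lit 485) (nat_lit 354) (nat_lit 301)) (XT.lf (nat_lit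 0) (nat_lit 2436998403) (nat_lit 228) (nat_lit 7121667790) (nat_lit 304) (nat_lit 3451691055) (nat_lit 68) (nat_lit 5) (nat_lit 71) (nat_lit 5) (nat_lit 72) (nat_lit 5) (nat_lit 486) (nat_lit 354) (nat_lit 300)))) (XT.nd (nat_lit 78) (nat_lit 456) (nat_lit 0) (XT.lf (nat_lit 0) (nat_lit 933116275) (nat_lit 304) (nat_lit 1599348782) (nat_lit 76) (nat_lit 10632574008) (nat_lit 67) (nat_lit 5) (nat_lit 71) (nat_lit 5) (nat_lit 68) (nat_lit 5) (nat_lit 487) (nat_lit 354) (nat_lit 299)) (XT.nd (nat_lit 78) (nat_lit 228) (nat_lit 0) (XT.lf (nat_lit 0) (nat_lit 5380722026) (nat_lit 304) (nat_lit 5778604841) (nat_lit 76) (nat_lit 2162608248) (nat_lit 64) (nat_lit 5) (nat_lit 68) (nat_lit 5) (nat_lit 65) (nat_lit 5) (nat_lit 488) (nat_lit 354) (nat_lit 298)) (XT.lf (nat_lit 0) (nat_lit 3363332193) (nat_lit 228) (nat_lit 6561496931) (nat_lit 304) (nat_lit 3556992229) (nat_lit 61) (nat_lit 5) (nat_lit 64) (nat_lit 5) (nat_lit 65) (nat_lit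 5) (nat_lit 489) (nat_lit 354) (nat_lit 297))))) (XT.nd (nat_lit 234) (nat_lit 456) (nat_lit 0) (XT.nd (nat_lit 78) (nat_lit 380) (nat_lit 0) (XT.lf (nat_lit 0) (nat_lit 900159206) (nat_lit 304) (nat_lit 956692561) (nat_lit 76) (nat_lit 11787992964) (nat_lit 60) (nat_lit 5) (nat_lit 64) (nat_lit 5) (nat_lit 61) (nat_lit 5) (nat_lit 490) (nat_lit 354) (nat_lit 296)) (XT.nd (nat_lit 78) (nat_lit 228) (nat_lit 0) (XT.lf (nat_lit 0) (nat_lit 5431883060) (nat_lit 228) (nat_lit 5426187231) (nat_lit 76) (nat_lit 2951929968) (nat_lit 58) (nat_lit 5) (nat_lit 61) (nat_lit 5) (nat_lit 59) (nat_lit 5) (nat_lit 491) (nat_lit 354) (nat_lit 295)) (XT.lf (nat_lit 0) (nat_lit 3913223472) (nat_lit 228) (nat_lit 6144361477) (nat_lit 304) (nat_lit 3920810081) (nat_lit 55) (nat_lit 5) (nat_lit 58) (nat_lit 5) (nat_lit 59) (nat_lit 5) (nat_lit 492) (nat_lit 354) (nat_lit 294)))) (XT.nd (nat_lit 78) (nat_lit 380) (nat_lit 0) (XT.lf (nat_lit 0) (nat_lit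 613336430) (nat_lit 304) (nat_lit 712356892) (nat_lit 76) (nat_lit 12824468050) (nat_lit 54) (nat_lit 5) (nat_lit 58) (nat_lit 5) (nat_lit 55) (nat_lit 5) (nat_lit 493) (nat_lit 354) (nat_lit 293)) (XT.nd (nat_lit 78) (nat_lit 228) (nat_lit 0) (XT.lf (nat_lit 0) (nat_lit 5226862951) (nat_lit 228) (nat_lit 5500769844) (nat_lit 76) (nat_lit 3596390812) (nat_lit 52) (nat_lit 5) (nat_lit 55) (nat_lit 5) (nat_lit 53) (nat_lit 5) (nat_lit 494) (nat_lit 354) (nat_lit 292)) (XT.lf (nat_lit 0) (nat_lit 4031696626) (nat_lit 228) (nat_lit 5900910475) (nat_lit 304) (nat_lit 4568759819) (nat_lit 49) (nat_lit 5) (nat_lit 52) (nat_lit 5) (nat_lit 53) (nat_lit 5) (nat_lit 495) (nat_lit 354) (nat_lit 291))))))) (XT.nd (nat_lit 858) (nat_lit 0) (nat_lit 0) (XT.nd (nat_lit 390) (nat_lit 760) (nat_lit 0) (XT.nd (nat_lit 156) (nat_lit 456) (nat_lit 0) (XT.nd (nat_lit 78) (nat_lit 152) (nat_lit 0) (XT.lf (nat_lit 0) (nat_lit 46950243) (nat_lit 304)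 (nat_lit 923114838) (nat_lit 76) (nat_lit 13712240175) (nat_lit 48) (nat_lit 5) (nat_lit 52) (nat_lit 5) (nat_lit 49) (nat_lit 5) (nat_lit 496) (nat_lit 354) (nat_lit 290)) (XT.lf (nat_lit 0) (nat_lit 4738955216) (nat_lit 228) (nat_lit 6061721883) (nat_lit 76) (nat_lit 4064680757) (nat_lit 46) (nat_lit 5) (nat_lit 49) (nat_lit 5) (nat_lit 47) (nat_lit 5) (nat_lit 497) (nat_lit 354) (nat_lit 289))) (XT.nd (nat_lit 78) (nat_lit 228) (nat_lit 0) (XT.lf (nat_lit 0) (nat_lit 3657845870) (nat_lit 228) (nat_lit 5864510124) (nat_lit 304) (nat_lit 5529766967) (nat_lit 43) (nat_lit 5) (nat_lit 46) (nat_lit 5) (nat_lit 47) (nat_lit 5) (nat_lit 498) (nat_lit 354) (nat_lit 288)) (XT.nd (nat_lit 78) (nat_lit 228) (nat_lit 0) (XT.lf (nat_lit 0) (nat_lit 13585278754) (nat_lit 228) (nat_lit 818285859) (nat_lit 304) (nat_lit 839018472) (nat_lit 43) (nat_lit 5) (nat_lit 46) (nat_lit 5) (nat_lit 47) (nat_lit 5) (nat_lit 499) (nat_lit 354) (nat_lit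 287)) (XT.lf (nat_lit 0) (nat_lit 3938024196) (nat_lit 228) (nat_lit 7174809330) (nat_lit 76) (nat_lit 4322624446) (nat_lit 40) (nat_lit 5) (nat_lit 43) (nat_lit 5) (nat_lit 41) (nat_lit 5) (nat_lit 500) (nat_lit 354) (nat_lit 286))))) (XT.nd (nat_lit 234) (nat_lit 380) (nat_lit 0) (XT.nd (nat_lit 78) (nat_lit 228) (nat_lit 0) (XT.lf (nat_lit 0) (nat_lit 2724163511) (nat_lit 152) (nat_lit 6071602342) (nat_lit 228) (nat_lit 6836388104) (nat_lit 38) (nat_lit 5) (nat_lit 40) (nat_lit 5) (nat_lit 41) (nat_lit 5) (nat_lit 501) (nat_lit 354) (nat_lit 285)) (XT.nd (nat_lit 78) (nat_lit 228) (nat_lit 0) (XT.lf (nat_lit 0) (nat_lit 12850846283) (nat_lit 152) (nat_lit 910348765) (nat_lit 228) (nat_lit 2071380484) (nat_lit 38) (nat_lit 5) (nat_lit 40) (nat_lit 5) (nat_lit 41) (nat_lit 5) (nat_lit 502) (nat_lit 354) (nat_lit 284)) (XT.lf (nat_lit 0) (nat_lit 2790168219) (nat_lit 228) (nat_lit 8912912118) (nat_lit 76) (nat_lit 4332808917)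 (nat_lit 35) (nat_lit 5) (nat_lit 38) (nat_lit 5) (nat_lit 36) (nat_lit 5) (nat_lit 503) (nat_lit 354) (nat_lit 283)))) (XT.nd (nat_lit 78) (nat_lit 228) (nat_lit 0) (XT.lf (nat_lit 0) (nat_lit 1155799874) (nat_lit 152) (nat_lit 6562096294) (nat_lit 228) (nat_lit 8525167756) (nat_lit 33) (nat_lit 5) (nat_lit 35) (nat_lit 5) (nat_lit 36) (nat_lit 5) (nat_lit 504) (nat_lit 354) (nat_lit 282)) (XT.nd (nat_lit 78) (nat_lit 228) (nat_lit 0) (XT.lf (nat_lit 0) (nat_lit 11480336201) (nat_lit 152) (nat_lit 1286931349) (nat_lit 228) (nat_lit 3686654907) (nat_lit 33) (nat_lit 5) (nat_lit 35) (nat_lit 5) (nat_lit 36) (nat_lit 5) (nat_lit 505) (nat_lit 354) (nat_lit 281)) (XT.lf (nat_lit 0) (nat_lit 1257345063) (nat_lit 228) (nat_lit 11356814511) (nat_lit 76) (nat_lit 4054176653) (nat_lit 30) (nat_lit 5) (nat_lit 33) (nat_lit 5) (nat_lit 31) (nat_lit 5) (nat_lit 506) (nat_lit 354) (nat_lit 280)))))) (XT.nd (nat_lit 53742) (nat_lit 0) (nat_lit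 17480) (XT.nd (nat_lit 53508) (nat_lit 0) (nat_lit 20824) (XT.nd (nat_lit 53352) (nat_lit 0) (nat_lit 22344) (XT.lf (nat_lit 0) (nat_lit 6256882564) (nat_lit 228) (nat_lit 1115429006) (nat_lit 76) (nat_lit 9514120914) (nat_lit 30) (nat_lit 5) (nat_lit 33) (nat_lit 5) (nat_lit 31) (nat_lit 5) (nat_lit 507) (nat_lit 354) (nat_lit 279)) (XT.nd (nat_lit 78) (nat_lit 760) (nat_lit 0) (XT.lf (nat_lit 0) (nat_lit 1136001233) (nat_lit 836) (nat_lit 1561196467) (nat_lit 0) (nat_lit 1136001233) (nat_lit 334) (nat_lit 5) (nat_lit 345) (nat_lit 4) (nat_lit 334) (nat_lit 4) (nat_lit 430) (nat_lit 355) (nat_lit 355)) (XT.lf (nat_lit 0) (nat_lit 2903040321) (nat_lit 760) (nat_lit 3093337541) (nat_lit 760) (nat_lit 1720571262) (nat_lit 324) (nat_lit 4) (nat_lit 334) (nat_lit 5) (nat_lit 334) (nat_lit 4) (nat_lit 431) (nat_lit 355) (nat_lit 354)))) (XT.nd (nat_lit 78) (nat_lit 760) (nat_lit 0) (XT.lf (nat_lit 0) (nat_lit 1245477602) (nat_lit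 684) (nat_lit 716944760) (nat_lit 760) (nat_lit 5806595631) (nat_lit 314) (nat_lit 5) (nat_lit 323) (nat_lit 5) (nat_lit 324) (nat_lit 4) (nat_lit 432) (nat_lit 355) (nat_lit 353)) (XT.nd (nat_lit 78) (nat_lit 760) (nat_lit 0) (XT.lf (nat_lit 0) (nat_lit 5673454478) (nat_lit 760) (nat_lit 434356141) (nat_lit 0) (nat_lit 1714556769) (nat_lit 314) (nat_lit 5) (nat_lit 324) (nat_lit 4) (nat_lit 314) (nat_lit 4) (nat_lit 433) (nat_lit 355) (nat_lit 352)) (XT.lf (nat_lit 0) (nat_lit 1538299609) (nat_lit 760) (nat_lit 2119756345) (nat_lit 76) (nat_lit 4218994297) (nat_lit 304) (nat_lit 5) (nat_lit 314) (nat_lit 5) (nat_lit 305) (nat_lit 4) (nat_lit 434) (nat_lit 355) (nat_lit 351))))) (XT.nd (nat_lit 234) (nat_lit 1292) (nat_lit 0) (XT.nd (nat_lit 78) (nat_lit 1368) (nat_lit 0) (XT.lf (nat_lit 0) (nat_lit 4105249584) (nat_lit 684) (nat_lit 1130259254) (nat_lit 760) (nat_lit 2697747404) (nat_lit 295) (nat_lit 5) (nat_lit 304) (nat_lit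 5) (nat_lit 305) (nat_lit 4) (nat_lit 435) (nat_lit 355) (nat_lit 350)) (XT.nd (nat_lit 78) (nat_lit 608) (nat_lit 0) (XT.lf (nat_lit 0) (nat_lit 978160616) (nat_lit 760) (nat_lit 5562797358) (nat_lit 76) (nat_lit 1450001760) (nat_lit 285) (nat_lit 5) (nat_lit 295) (nat_lit 5) (nat_lit 286) (nat_lit 4) (nat_lit 436) (nat_lit 355) (nat_lit 349)) (XT.lf (nat_lit 0) (nat_lit 714668947) (nat_lit 608) (nat_lit 3951169444) (nat_lit 684) (nat_lit 3384148048) (nat_lit 277) (nat_lit 5) (nat_lit 285) (nat_lit 5) (nat_lit 286) (nat_lit 4) (nat_lit 437) (nat_lit 355) (nat_lit 348)))) (XT.nd (nat_lit 78) (nat_lit 1216) (nat_lit 0) (XT.lf (nat_lit 0) (nat_lit 287145874) (nat_lit 684) (nat_lit 1000207266) (nat_lit 76) (nat_lit 6823327555) (nat_lit 276) (nat_lit 5) (nat_lit 285) (nat_lit 5) (nat_lit 277) (nat_lit 5) (nat_lit 438) (nat_lit 355) (nat_lit 347)) (XT.nd (nat_lit 78) (nat_lit 608) (nat_lit 0) (XT.lf (nat_lit 0) (nat_lit 3969295364)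 (nat_lit 684) (nat_lit 2751768951) (nat_lit 76) (nat_lit 1451434774) (nat_lit 268) (nat_lit 5) (nat_lit 277) (nat_lit 5) (nat_lit 269) (nat_lit 4) (nat_lit 439) (nat_lit 355) (nat_lit 346)) (XT.lf (nat_lit 0) (nat_lit 3707739890) (nat_lit 608) (nat_lit 3995182050) (nat_lit 684) (nat_lit 533087491) (nat_lit 260) (nat_lit 5) (nat_lit 268) (nat_lit 5) (nat_lit 269) (nat_lit 4) (nat_lit 440) (nat_lit 355) (nat_lit 345))))))))
noncomputable def xc33 : XT := (XT.nd (nat_lit 1794) (nat_lit 5472) (nat_lit 0) (XT.nd (nat_lit 858) (nat_lit 4028) (nat_lit 0) (XT.nd (nat_lit 390) (nat_lit 2584) (nat_lit 0) (XT.nd (nat_lit 156) (nat_lit 1292) (nat_lit 0) (XT.nd (nat_lit 78) (nat_lit 532) (nat_lit 0) (XT.lf (nat_lit 0) (nat_lit 1957183031) (nat_lit 608) (nat_lit 1181189256) (nat_lit 684) (nat_lit 5162611662) (nat_lit 251) (nat_lit 5) (nat_lit 259) (nat_lit 5) (nat_lit 260) (nat_lit 5) (nat_lit 441) (nat_lit 355) (nat_lit 344)) (XT.lf (nat_lit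 0) (nat_lit 173248852) (nat_lit 532) (nat_lit 6684863417) (nat_lit 608) (nat_lit 1509446987) (nat_lit 244) (nat_lit 5) (nat_lit 251) (nat_lit 5) (nat_lit 252) (nat_lit 4) (nat_lit 442) (nat_lit 355) (nat_lit 343))) (XT.nd (nat_lit 78) (nat_lit 1216) (nat_lit 0) (XT.lf (nat_lit 0) (nat_lit 2177941044) (nat_lit 608) (nat_lit 1632160531) (nat_lit 76) (nat_lit 4625283073) (nat_lit 243) (nat_lit 5) (nat_lit 251) (nat_lit 5) (nat_lit 244) (nat_lit 5) (nat_lit 443) (nat_lit 355) (nat_lit 342)) (XT.nd (nat_lit 78) (nat_lit 608) (nat_lit 0) (XT.lf (nat_lit 0) (nat_lit 5037221446) (nat_lit 608) (nat_lit 855111826) (nat_lit 684) (nat_lit 2612575257) (nat_lit 235) (nat_lit 5) (nat_lit 243) (nat_lit 5) (nat_lit 244) (nat_lit 5) (nat_lit 444) (nat_lit 355) (nat_lit 341)) (XT.lf (nat_lit 0) (nat_lit 1077896020) (nat_lit 608) (nat_lit 5348938604) (nat_lit 76) (nat_lit 2149111208) (nat_lit 227) (nat_lit 5) (nat_lit 235) (nat_lit 5) (nat_lit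 228) (nat_lit 5) (nat_lit 445) (nat_lit 355) (nat_lit 340))))) (XT.nd (nat_lit 234) (nat_lit 1520) (nat_lit 0) (XT.nd (nat_lit 78) (nat_lit 532) (nat_lit 0) (XT.lf (nat_lit 0) (nat_lit 1368637077) (nat_lit 532) (nat_lit 3418053479) (nat_lit 608) (nat_lit 3861788280) (nat_lit 220) (nat_lit 5) (nat_lit 227) (nat_lit 5) (nat_lit 228) (nat_lit 5) (nat_lit 446) (nat_lit 355) (nat_lit 339)) (XT.nd (nat_lit 78) (nat_lit 532) (nat_lit 0) (XT.lf (nat_lit 0) (nat_lit 8212746214) (nat_lit 532) (nat_lit 334925003) (nat_lit 608) (nat_lit 175241136) (nat_lit 220) (nat_lit 5) (nat_lit 227) (nat_lit 5) (nat_lit 228) (nat_lit 5) (nat_lit 447) (nat_lit 355) (nat_lit 338)) (XT.lf (nat_lit 0) (nat_lit 3540805936) (nat_lit 532) (nat_lit 2441492877) (nat_lit 76) (nat_lit 2816024120) (nat_lit 213) (nat_lit 5) (nat_lit 220) (nat_lit 5) (nat_lit 214) (nat_lit 5) (nat_lit 448) (nat_lit 355) (nat_lit 337)))) (XT.nd (nat_lit 78) (nat_lit 988) (nat_lit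 0) (XT.lf (nat_lit 0) (nat_lit 4468117977) (nat_lit 532) (nat_lit 2838712861) (nat_lit 608) (nat_lit 1568837131) (nat_lit 206) (nat_lit 5) (nat_lit 213) (nat_lit 5) (nat_lit 214) (nat_lit 5) (nat_lit 449) (nat_lit 355) (nat_lit 336)) (XT.nd (nat_lit 78) (nat_lit 456) (nat_lit 0) (XT.lf (nat_lit 0) (nat_lit 2143875188) (nat_lit 532) (nat_lit 6423863337) (nat_lit 76) (nat_lit 386965073) (nat_lit 199) (nat_lit 5) (nat_lit 206) (nat_lit 5) (nat_lit 200) (nat_lit 5) (nat_lit 450) (nat_lit 355) (nat_lit 335)) (XT.lf (nat_lit 0) (nat_lit 529914100) (nat_lit 456) (nat_lit 5375930041) (nat_lit 532) (nat_lit 3129357148) (nat_lit 193) (nat_lit 5) (nat_lit 199) (nat_lit 5) (nat_lit 200) (nat_lit 5) (nat_lit 451) (nat_lit 355) (nat_lit 334)))))) (XT.nd (nat_lit 468) (nat_lit 2052) (nat_lit 0) (XT.nd (nat_lit 234) (nat_lit 988) (nat_lit 0) (XT.nd (nat_lit 78) (nat_lit 912) (nat_lit 0) (XT.lf (nat_lit 0) (nat_lit 605108808) (nat_lit 532)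 (nat_lit 1491836771) (nat_lit 76) (nat_lit 7020539244) (nat_lit 192) (nat_lit 5) (nat_lit 199) (nat_lit 5) (nat_lit 193) (nat_lit 5) (nat_lit 452) (nat_lit 355) (nat_lit 333)) (XT.nd (nat_lit 78) (nat_lit 456) (nat_lit 0) (XT.lf (nat_lit 0) (nat_lit 4362586277) (nat_lit 532) (nat_lit 3573918463) (nat_lit 76) (nat_lit 1264699518) (nat_lit 186) (nat_lit 5) (nat_lit 193) (nat_lit 5) (nat_lit 187) (nat_lit 5) (nat_lit 453) (nat_lit 355) (nat_lit 332)) (XT.lf (nat_lit 0) (nat_lit 3575849707) (nat_lit 456) (nat_lit 4612220074) (nat_lit 532) (nat_lit 1098679423) (nat_lit 180) (nat_lit 5) (nat_lit 186) (nat_lit 5) (nat_lit 187) (nat_lit 5) (nat_lit 454) (nat_lit 355) (nat_lit 331)))) (XT.nd (nat_lit 78) (nat_lit 532) (nat_lit 0) (XT.lf (nat_lit 0) (nat_lit 1465041230) (nat_lit 380) (nat_lit 1194911103) (nat_lit 456) (nat_lit 6714117638) (nat_lit 174) (nat_lit 5) (nat_lit 179) (nat_lit 5) (nat_lit 180) (nat_lit 5) (nat_lit 455) (nat_lit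 355) (nat_lit 330)) (XT.nd (nat_lit 78) (nat_lit 532) (nat_lit 0) (XT.lf (nat_lit 0) (nat_lit 6478750028) (nat_lit 456) (nat_lit 703159429) (nat_lit 76) (nat_lit 2281096133) (nat_lit 174) (nat_lit 5) (nat_lit 180) (nat_lit 5) (nat_lit 175) (nat_lit 5) (nat_lit 456) (nat_lit 355) (nat_lit 329)) (XT.lf (nat_lit 0) (nat_lit 807795756) (nat_lit 532) (nat_lit 2911704146) (nat_lit 76) (nat_lit 5834154007) (nat_lit 167) (nat_lit 5) (nat_lit 174) (nat_lit 5) (nat_lit 168) (nat_lit 5) (nat_lit 457) (nat_lit 355) (nat_lit 328))))) (XT.nd (nat_lit 234) (nat_lit 1216) (nat_lit 0) (XT.nd (nat_lit 78) (nat_lit 456) (nat_lit 0) (XT.lf (nat_lit 0) (nat_lit 4457222131) (nat_lit 380) (nat_lit 159700930) (nat_lit 456) (nat_lit 5029181058) (nat_lit 162) (nat_lit 5) (nat_lit 167) (nat_lit 5) (nat_lit 168) (nat_lit 5) (nat_lit 458) (nat_lit 355) (nat_lit 327)) (XT.nd (nat_lit 78) (nat_lit 76) (nat_lit 0) (XT.lf (nat_lit 0) (nat_lit 2199898628) (nat_lit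 380) (nat_lit 6306641394) (nat_lit 456) (nat_lit 1233784352) (nat_lit 157) (nat_lit 5) (nat_lit 162) (nat_lit 5) (nat_lit 163) (nat_lit 5) (nat_lit 459) (nat_lit 355) (nat_lit 326)) (XT.lf (nat_lit 0) (nat_lit 2587017345) (nat_lit 456) (nat_lit 126799970) (nat_lit 76) (nat_lit 7122594362) (nat_lit 156) (nat_lit 5) (nat_lit 162) (nat_lit 5) (nat_lit 157) (nat_lit 5) (nat_lit 460) (nat_lit 355) (nat_lit 325)))) (XT.nd (nat_lit 78) (nat_lit 836) (nat_lit 0) (XT.lf (nat_lit 0) (nat_lit 6471452707) (nat_lit 456) (nat_lit 2493986366) (nat_lit 76) (nat_lit 968750556) (nat_lit 151) (nat_lit 5) (nat_lit 157) (nat_lit 5) (nat_lit 152) (nat_lit 5) (nat_lit 461) (nat_lit 355) (nat_lit 324)) (XT.nd (nat_lit 78) (nat_lit 380) (nat_lit 0) (XT.lf (nat_lit 0) (nat_lit 395659207) (nat_lit 456) (nat_lit 4939496470) (nat_lit 76) (nat_lit 4698697132) (nat_lit 145) (nat_lit 5) (nat_lit 151) (nat_lit 5) (nat_lit 146) (nat_lit 5) (nat_lit 462) (nat_lit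 355) (nat_lit 323)) (XT.lf (nat_lit 0) (nat_lit 2666647336) (nat_lit 380) (nat_lit 1601887419) (nat_lit 456) (nat_lit 5866849550) (nat_lit 140) (nat_lit 5) (nat_lit 145) (nat_lit 5) (nat_lit 146) (nat_lit 5) (nat_lit 463) (nat_lit 355) (nat_lit 322))))))) (XT.nd (nat_lit 936) (nat_lit 2280) (nat_lit 0) (XT.nd (nat_lit 468) (nat_lit 1672) (nat_lit 0) (XT.nd (nat_lit 234) (nat_lit 760) (nat_lit 0) (XT.nd (nat_lit 78) (nat_lit 380) (nat_lit 0) (XT.lf (nat_lit 0) (nat_lit 162482939) (nat_lit 380) (nat_lit 8054907335) (nat_lit 456) (nat_lit 2021591963) (nat_lit 135) (nat_lit 5) (nat_lit 140) (nat_lit 5) (nat_lit 141) (nat_lit 5) (nat_lit 464) (nat_lit 355) (nat_lit 321)) (XT.nd (nat_lit 78) (nat_lit 304) (nat_lit 0) (XT.lf (nat_lit 0) (nat_lit 1886624001) (nat_lit 456) (nat_lit 2398207963) (nat_lit 76) (nat_lit 6059359786) (nat_lit 134) (nat_lit 5) (nat_lit 140) (nat_lit 5) (nat_lit 135) (nat_lit 5) (nat_lit 465) (nat_lit 355) (nat_lit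 320)) (XT.lf (nat_lit 0) (nat_lit 5413966357) (nat_lit 304) (nat_lit 418047093) (nat_lit 380) (nat_lit 4619509078) (nat_lit 130) (nat_lit 5) (nat_lit 134) (nat_lit 5) (nat_lit 135) (nat_lit 5) (nat_lit 466) (nat_lit 355) (nat_lit 319)))) (XT.nd (nat_lit 78) (nat_lit 380) (nat_lit 0) (XT.lf (nat_lit 0) (nat_lit 2790221475) (nat_lit 380) (nat_lit 7074481835) (nat_lit 456) (nat_lit 696134538) (nat_lit 125) (nat_lit 5) (nat_lit 130) (nat_lit 5) (nat_lit 131) (nat_lit 5) (nat_lit 467) (nat_lit 355) (nat_lit 318)) (XT.nd (nat_lit 78) (nat_lit 0) (nat_lit 0) (XT.lf (nat_lit 0) (nat_lit 69909160) (nat_lit 304) (nat_lit 3181008461) (nat_lit 380) (nat_lit 7421226846) (nat_lit 120) (nat_lit 5) (nat_lit 124) (nat_lit 5) (nat_lit 125) (nat_lit 5) (nat_lit 468) (nat_lit 355) (nat_lit 317)) (XT.lf (nat_lit 0) (nat_lit 7276799146) (nat_lit 380) (nat_lit 2700142929) (nat_lit 76) (nat_lit 808464369) (nat_lit 120) (nat_lit 5) (nat_lit 125) (nat_lit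 5) (nat_lit 121) (nat_lit 5) (nat_lit 469) (nat_lit 355) (nat_lit 316))))) (XT.nd (nat_lit 234) (nat_lit 988) (nat_lit 0) (XT.nd (nat_lit 78) (nat_lit 304) (nat_lit 0) (XT.lf (nat_lit 0) (nat_lit 484205135) (nat_lit 380) (nat_lit 5571570249) (nat_lit 76) (nat_lit 4844935575) (nat_lit 115) (nat_lit 5) (nat_lit 120) (nat_lit 5) (nat_lit 116) (nat_lit 5) (nat_lit 470) (nat_lit 355) (nat_lit 315)) (XT.nd (nat_lit 78) (nat_lit 0) (nat_lit 0) (XT.lf (nat_lit 0) (nat_lit 2470090279) (nat_lit 304) (nat_lit 2026773623) (nat_lit 380) (nat_lit 6521259548) (nat_lit 111) (nat_lit 5) (nat_lit 115) (nat_lit 5) (nat_lit 116) (nat_lit 5) (nat_lit 471) (nat_lit 355) (nat_lit 314)) (XT.lf (nat_lit 0) (nat_lit 8593829066) (nat_lit 380) (nat_lit 479650398) (nat_lit 76) (nat_lit 2064328693) (nat_lit 111) (nat_lit 5) (nat_lit 116) (nat_lit 5) (nat_lit 112) (nat_lit 5) (nat_lit 472) (nat_lit 355) (nat_lit 313)))) (XT.nd (nat_lit 78) (nat_lit 608)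 (nat_lit 0) (XT.lf (nat_lit 0) (nat_lit 1510761659) (nat_lit 380) (nat_lit 3506329679) (nat_lit 76) (nat_lit 6242248487) (nat_lit 106) (nat_lit 5) (nat_lit 111) (nat_lit 5) (nat_lit 107) (nat_lit 5) (nat_lit 473) (nat_lit 355) (nat_lit 312)) (XT.nd (nat_lit 78) (nat_lit 304) (nat_lit 0) (XT.lf (nat_lit 0) (nat_lit 4743464547) (nat_lit 304) (nat_lit 857068219) (nat_lit 380) (nat_lit 5782677798) (nat_lit 102) (nat_lit 5) (nat_lit 106) (nat_lit 5) (nat_lit 107) (nat_lit 5) (nat_lit 474) (nat_lit 355) (nat_lit 311)) (XT.lf (nat_lit 0) (nat_lit 1620105925) (nat_lit 304) (nat_lit 8162338568) (nat_lit 380) (nat_lit 1726911967) (nat_lit 98) (nat_lit 5) (nat_lit 102) (nat_lit 5) (nat_lit 103) (nat_lit 5) (nat_lit 475) (nat_lit 355) (nat_lit 310)))))) (XT.nd (nat_lit 468) (nat_lit 1064) (nat_lit 0) (XT.nd (nat_lit 234) (nat_lit 608) (nat_lit 0) (XT.nd (nat_lit 78) (nat_lit 532) (nat_lit 0) (XT.lf (nat_lit 0) (nat_lit 2383150582) (nat_lit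 380) (nat_lit 1599404997) (nat_lit 76) (nat_lit 7655065447) (nat_lit 97) (nat_lit 5) (nat_lit 102) (nat_lit 5) (nat_lit 98) (nat_lit 5) (nat_lit 476) (nat_lit 355) (nat_lit 309)) (XT.nd (nat_lit 78) (nat_lit 304) (nat_lit 0) (XT.lf (nat_lit 0) (nat_lit 6554016048) (nat_lit 304) (nat_lit 4909782717) (nat_lit 76) (nat_lit 304393699) (nat_lit 94) (nat_lit 5) (nat_lit 98) (nat_lit 5) (nat_lit 95) (nat_lit 5) (nat_lit 477) (nat_lit 355) (nat_lit 308)) (XT.lf (nat_lit 0) (nat_lit 3551495415) (nat_lit 304) (nat_lit 7272407761) (nat_lit 380) (nat_lit 1077164360) (nat_lit 90) (nat_lit 5) (nat_lit 94) (nat_lit 5) (nat_lit 95) (nat_lit 5) (nat_lit 478) (nat_lit 355) (nat_lit 307)))) (XT.nd (nat_lit 78) (nat_lit 304) (nat_lit 0) (XT.lf (nat_lit 0) (nat_lit 118905313) (nat_lit 228) (nat_lit 2971868934) (nat_lit 304) (nat_lit 8945633876) (nat_lit 86) (nat_lit 5) (nat_lit 89) (nat_lit 5) (nat_lit 90) (nat_lit 5) (nat_lit 479) (nat_lit 355)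 (nat_lit 306)) (XT.nd (nat_lit 78) (nat_lit 304) (nat_lit 0) (XT.lf (nat_lit 0) (nat_lit 7348909456) (nat_lit 304) (nat_lit 3394936161) (nat_lit 76) (nat_lit 1430046327) (nat_lit 86) (nat_lit 5) (nat_lit 90) (nat_lit 5) (nat_lit 87) (nat_lit 5) (nat_lit 480) (nat_lit 355) (nat_lit 305)) (XT.lf (nat_lit 0) (nat_lit 5274195592) (nat_lit 304) (nat_lit 6428467434) (nat_lit 380) (nat_lit 611257268) (nat_lit 82) (nat_lit 5) (nat_lit 86) (nat_lit 5) (nat_lit 87) (nat_lit 5) (nat_lit 481) (nat_lit 355) (nat_lit 304))))) (XT.nd (nat_lit 234) (nat_lit 532) (nat_lit 0) (XT.nd (nat_lit 78) (nat_lit 228) (nat_lit 0) (XT.lf (nat_lit 0) (nat_lit 1630254532) (nat_lit 228) (nat_lit 1998273695) (nat_lit 304) (nat_lit 8827943300) (nat_lit 78) (nat_lit 5) (nat_lit 81) (nat_lit 5) (nat_lit 82) (nat_lit 5) (nat_lit 482) (nat_lit 355) (nat_lit 303)) (XT.nd (nat_lit 78) (nat_lit 228) (nat_lit 0) (XT.lf (nat_lit 0) (nat_lit 7965653020) (nat_lit 304)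 (nat_lit 2126256387) (nat_lit 76) (nat_lit 2509472739) (nat_lit 78) (nat_lit 5) (nat_lit 82) (nat_lit 5) (nat_lit 79) (nat_lit 5) (nat_lit 483) (nat_lit 355) (nat_lit 302)) (XT.lf (nat_lit 0) (nat_lit 6750791742) (nat_lit 228) (nat_lit 5653442441) (nat_lit 304) (nat_lit 344666182) (nat_lit 75) (nat_lit 5) (nat_lit 78) (nat_lit 5) (nat_lit 79) (nat_lit 5) (nat_lit 484) (nat_lit 355) (nat_lit 301)))) (XT.nd (nat_lit 78) (nat_lit 228) (nat_lit 0) (XT.lf (nat_lit 0) (nat_lit 2874234933) (nat_lit 228) (nat_lit 1095856724) (nat_lit 304) (nat_lit 8928942078) (nat_lit 71) (nat_lit 5) (nat_lit 74) (nat_lit 5) (nat_lit 75) (nat_lit 5) (nat_lit 485) (nat_lit 355) (nat_lit 300)) (XT.nd (nat_lit 78) (nat_lit 228) (nat_lit 0) (XT.lf (nat_lit 0) (nat_lit 8388019347) (nat_lit 304) (nat_lit 1144127858) (nat_lit 76) (nat_lit 3519550659) (nat_lit 71) (nat_lit 5) (nat_lit 75) (nat_lit 5) (nat_lit 72) (nat_lit 5) (nat_lit 486) (nat_lit 355) (nat_lit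 299)) (XT.lf (nat_lit 0) (nat_lit 7939976907) (nat_lit 228) (nat_lit 4971863859) (nat_lit 304) (nat_lit 295227191) (nat_lit 68) (nat_lit 5) (nat_lit 71) (nat_lit 5) (nat_lit 72) (nat_lit 5) (nat_lit 487) (nat_lit 355) (nat_lit 298))))))))
noncomputable def xc34 : XT := (XT.nd (nat_lit 54912) (nat_lit 0) (nat_lit 11856) (XT.nd (nat_lit 858) (nat_lit 1216) (nat_lit 0) (XT.nd (nat_lit 390) (nat_lit 912) (nat_lit 0) (XT.nd (nat_lit 156) (nat_lit 456) (nat_lit 0) (XT.nd (nat_lit 78) (nat_lit 0) (nat_lit 0) (XT.lf (nat_lit 0) (nat_lit 3807614438) (nat_lit 228) (nat_lit 289664841) (nat_lit 304) (nat_lit 9267904099) (nat_lit 64) (nat_lit 5) (nat_lit 67) (nat_lit 5) (nat_lit 68) (nat_lit 5) (nat_lit 488) (nat_lit 355) (nat_lit 297)) (XT.lf (nat_lit 0) (nat_lit 8597350998) (nat_lit 304) (nat_lit 493158079) (nat_lit 76) (nat_lit 4435442827) (nat_lit 64) (nat_lit 5) (nat_lit 68) (nat_lit 5) (nat_lit 65) (nat_lit 5) (nat_lit 489) (nat_lit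 355) (nat_lit 296))) (XT.nd (nat_lit 78) (nat_lit 228) (nat_lit 0) (XT.lf (nat_lit 0) (nat_lit 8796084677) (nat_lit 228) (nat_lit 4410130786) (nat_lit 304) (nat_lit 483347638) (nat_lit 61) (nat_lit 5) (nat_lit 64) (nat_lit 5) (nat_lit 65) (nat_lit 5) (nat_lit 490) (nat_lit 355) (nat_lit 295)) (XT.nd (nat_lit 78) (nat_lit 0) (nat_lit 0) (XT.lf (nat_lit 0) (nat_lit 3991856919) (nat_lit 228) (nat_lit 9476048898) (nat_lit 76) (nat_lit 388134233) (nat_lit 58) (nat_lit 5) (nat_lit 61) (nat_lit 5) (nat_lit 59) (nat_lit 5) (nat_lit 491) (nat_lit 355) (nat_lit 294)) (XT.lf (nat_lit 0) (nat_lit 8572338355) (nat_lit 228) (nat_lit 222675472) (nat_lit 76) (nat_lit 5230326862) (nat_lit 58) (nat_lit 5) (nat_lit 61) (nat_lit 5) (nat_lit 59) (nat_lit 5) (nat_lit 492) (nat_lit 355) (nat_lit 293))))) (XT.nd (nat_lit 234) (nat_lit 456) (nat_lit 0) (XT.nd (nat_lit 78) (nat_lit 228) (nat_lit 0) (XT.lf (nat_lit 0) (nat_lit 9268575842) (nat_lit 228)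 (nat_lit 3996793391) (nat_lit 304) (nat_lit 932242202) (nat_lit 55) (nat_lit 5) (nat_lit 58) (nat_lit 5) (nat_lit 59) (nat_lit 5) (nat_lit 493) (nat_lit 355) (nat_lit 292)) (XT.nd (nat_lit 78) (nat_lit 0) (nat_lit 0) (XT.lf (nat_lit 0) (nat_lit 3628530035) (nat_lit 228) (nat_lit 9832730708) (nat_lit 76) (nat_lit 911634972) (nat_lit 52) (nat_lit 5) (nat_lit 55) (nat_lit 5) (nat_lit 53) (nat_lit 5) (nat_lit 494) (nat_lit 355) (nat_lit 291)) (XT.lf (nat_lit 0) (nat_lit 8288771043) (nat_lit 228) (nat_lit 387276779) (nat_lit 76) (nat_lit 5875102617) (nat_lit 52) (nat_lit 5) (nat_lit 55) (nat_lit 5) (nat_lit 53) (nat_lit 5) (nat_lit 495) (nat_lit 355) (nat_lit 290)))) (XT.nd (nat_lit 78) (nat_lit 228) (nat_lit 0) (XT.lf (nat_lit 0) (nat_lit 9301473833) (nat_lit 228) (nat_lit 3762859941) (nat_lit 304) (nat_lit 1668196816) (nat_lit 49) (nat_lit 5) (nat_lit 52) (nat_lit 5) (nat_lit 53) (nat_lit 5) (nat_lit 496) (nat_lit 355) (nat_lit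 289)) (XT.nd (nat_lit 78) (nat_lit 0) (nat_lit 0) (XT.lf (nat_lit 0) (nat_lit 2978465934) (nat_lit 228) (nat_lit 10685462710) (nat_lit 76) (nat_lit 1253216855) (nat_lit 46) (nat_lit 5) (nat_lit 49) (nat_lit 5) (nat_lit 47) (nat_lit 5) (nat_lit 497) (nat_lit 355) (nat_lit 288)) (XT.lf (nat_lit 0) (nat_lit 7719260368) (nat_lit 228) (nat_lit 1047429412) (nat_lit 76) (nat_lit 6338074196) (nat_lit 46) (nat_lit 5) (nat_lit 49) (nat_lit 5) (nat_lit 47) (nat_lit 5) (nat_lit 498) (nat_lit 355) (nat_lit 287)))))) (XT.nd (nat_lit 468) (nat_lit 380) (nat_lit 0) (XT.nd (nat_lit 234) (nat_lit 380) (nat_lit 0) (XT.nd (nat_lit 78) (nat_lit 228) (nat_lit 0) (XT.lf (nat_lit 0) (nat_lit 8832743335) (nat_lit 228) (nat_lit 3742130767) (nat_lit 304) (nat_lit 2720863117) (nat_lit 43) (nat_lit 5) (nat_lit 46) (nat_lit 5) (nat_lit 47) (nat_lit 5) (nat_lit 499) (nat_lit 355) (nat_lit 286)) (XT.nd (nat_lit 78) (nat_lit 0) (nat_lit 0) (XT.lf (nat_lit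 0) (nat_lit 2011279136) (nat_lit 228) (nat_lit 12100389398) (nat_lit 76) (nat_lit 1378580732) (nat_lit 40) (nat_lit 5) (nat_lit 43) (nat_lit 5) (nat_lit 41) (nat_lit 5) (nat_lit 500) (nat_lit 355) (nat_lit 285)) (XT.lf (nat_lit 0) (nat_lit 6832929945) (nat_lit 228) (nat_lit 2270134718) (nat_lit 76) (nat_lit 6584603555) (nat_lit 40) (nat_lit 5) (nat_lit 43) (nat_lit 5) (nat_lit 41) (nat_lit 5) (nat_lit 501) (nat_lit 355) (nat_lit 284)))) (XT.nd (nat_lit 78) (nat_lit 228) (nat_lit 0) (XT.lf (nat_lit 0) (nat_lit 7793605930) (nat_lit 152) (nat_lit 3971562412) (nat_lit 228) (nat_lit 4123586394) (nat_lit 38) (nat_lit 5) (nat_lit 40) (nat_lit 5) (nat_lit 41) (nat_lit 5) (nat_lit 502) (nat_lit 355) (nat_lit 283)) (XT.nd (nat_lit 78) (nat_lit 0) (nat_lit 0) (XT.lf (nat_lit 0) (nat_lit 692813287) (nat_lit 228) (nat_lit 14150788274) (nat_lit 76) (nat_lit 1250175749) (nat_lit 35) (nat_lit 5) (nat_lit 38) (nat_lit 5) (nat_lit 36) (nat_lit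 5) (nat_lit 503) (nat_lit 355) (nat_lit 282)) (XT.lf (nat_lit 0) (nat_lit 5595071393) (nat_lit 228) (nat_lit 4129658746) (nat_lit 76) (nat_lit 6576732300) (nat_lit 35) (nat_lit 5) (nat_lit 38) (nat_lit 5) (nat_lit 36) (nat_lit 5) (nat_lit 504) (nat_lit 355) (nat_lit 281))))) (XT.nd (nat_lit 53352) (nat_lit 0) (nat_lit 23104) (XT.nd (nat_lit 78) (nat_lit 228) (nat_lit 0) (XT.lf (nat_lit 0) (nat_lit 6107785962) (nat_lit 152) (nat_lit 4491665515) (nat_lit 228) (nat_lit 5913770362) (nat_lit 33) (nat_lit 5) (nat_lit 35) (nat_lit 5) (nat_lit 36) (nat_lit 5) (nat_lit 505) (nat_lit 355) (nat_lit 280)) (XT.nd (nat_lit 78) (nat_lit 228) (nat_lit 0) (XT.lf (nat_lit 0) (nat_lit 15701827535) (nat_lit 228) (nat_lit 192693360) (nat_lit 76) (nat_lit 834739428) (nat_lit 33) (nat_lit 5) (nat_lit 36) (nat_lit 5) (nat_lit 34) (nat_lit 4) (nat_lit 506) (nat_lit 355) (nat_lit 279)) (XT.lf (nat_lit 0) (nat_lit 3966761609) (nat_lit 228) (nat_lit 6708337743)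 (nat_lit 76) (nat_lit 6272767985) (nat_lit 30) (nat_lit 5) (nat_lit 33) (nat_lit 5) (nat_lit 31) (nat_lit 5) (nat_lit 507) (nat_lit 355) (nat_lit 278)))) (XT.nd (nat_lit 78) (nat_lit 836) (nat_lit 0) (XT.lf (nat_lit 0) (nat_lit 122565638) (nat_lit 760) (nat_lit 1830945280) (nat_lit 760) (nat_lit 1830945280) (nat_lit 345) (nat_lit 4) (nat_lit 355) (nat_lit 5) (nat_lit 355) (nat_lit 4) (nat_lit 428) (nat_lit 356) (nat_lit 356)) (XT.nd (nat_lit 78) (nat_lit 836) (nat_lit 0) (XT.lf (nat_lit 0) (nat_lit 6173612335) (nat_lit 760) (nat_lit 1436018689) (nat_lit 760) (nat_lit 7792652) (nat_lit 345) (nat_lit 4) (nat_lit 355) (nat_lit 5) (nat_lit 355) (nat_lit 4) (nat_lit 429) (nat_lit 356) (nat_lit 355)) (XT.lf (nat_lit 0) (nat_lit 3638932568) (nat_lit 836) (nat_lit 3162194298) (nat_lit 0) (nat_lit 865944685) (nat_lit 334) (nat_lit 5) (nat_lit 345) (nat_lit 4) (nat_lit 334) (nat_lit 4) (nat_lit 430) (nat_lit 356) (nat_lit 354)))))))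 (XT.nd (nat_lit 858) (nat_lit 4940) (nat_lit 0) (XT.nd (nat_lit 390) (nat_lit 3344) (nat_lit 0) (XT.nd (nat_lit 156) (nat_lit 1444) (nat_lit 0) (XT.nd (nat_lit 78) (nat_lit 760) (nat_lit 0) (XT.lf (nat_lit 0) (nat_lit 2823170507) (nat_lit 760) (nat_lit 4506980160) (nat_lit 760) (nat_lit 388142984) (nat_lit 324) (nat_lit 4) (nat_lit 334) (nat_lit 5) (nat_lit 334) (nat_lit 4) (nat_lit 431) (nat_lit 356) (nat_lit 353)) (XT.lf (nat_lit 0) (nat_lit 1114693844) (nat_lit 684) (nat_lit 2129361161) (nat_lit 760) (nat_lit 4526808307) (nat_lit 314) (nat_lit 5) (nat_lit 323) (nat_lit 5) (nat_lit 324) (nat_lit 4) (nat_lit 432) (nat_lit 356) (nat_lit 352))) (XT.nd (nat_lit 78) (nat_lit 1444) (nat_lit 0) (XT.lf (nat_lit 0) (nat_lit 6913784625) (nat_lit 760) (nat_lit 597364596) (nat_lit 0) (nat_lit 313896790) (nat_lit 314) (nat_lit 5) (nat_lit 324) (nat_lit 4) (nat_lit 314) (nat_lit 4) (nat_lit 433) (nat_lit 356) (nat_lit 351)) (XT.nd (nat_lit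 78) (nat_lit 684) (nat_lit 0) (XT.lf (nat_lit 0) (nat_lit 2726665051) (nat_lit 760) (nat_lit 2335381145) (nat_lit 76) (nat_lit 2818190018) (nat_lit 304) (nat_lit 5) (nat_lit 314) (nat_lit 5) (nat_lit 305) (nat_lit 4) (nat_lit 434) (nat_lit 356) (nat_lit 350)) (XT.lf (nat_lit 0) (nat_lit 3847299144) (nat_lit 684) (nat_lit 2543552767) (nat_lit 760) (nat_lit 1546257577) (nat_lit 295) (nat_lit 5) (nat_lit 304) (nat_lit 5) (nat_lit 305) (nat_lit 4) (nat_lit 435) (nat_lit 356) (nat_lit 349))))) (XT.nd (nat_lit 234) (nat_lit 1900) (nat_lit 0) (XT.nd (nat_lit 78) (nat_lit 684) (nat_lit 0) (XT.lf (nat_lit 0) (nat_lit 2072132342) (nat_lit 760) (nat_lit 5870466564) (nat_lit 76) (nat_lit 52919442) (nat_lit 285) (nat_lit 5) (nat_lit 295) (nat_lit 5) (nat_lit 286) (nat_lit 4) (nat_lit 436) (nat_lit 356) (nat_lit 348)) (XT.nd (nat_lit 78) (nat_lit 76) (nat_lit 0) (XT.lf (nat_lit 0) (nat_lit 362965716) (nat_lit 608) (nat_lit 5363672415) (nat_lit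 684) (nat_lit 2328576804) (nat_lit 277) (nat_lit 5) (nat_lit 285) (nat_lit 5) (nat_lit 286) (nat_lit 4) (nat_lit 437) (nat_lit 356) (nat_lit 347)) (XT.lf (nat_lit 0) (nat_lit 1298127540) (nat_lit 684) (nat_lit 1403569268) (nat_lit 76) (nat_lit 5414696415) (nat_lit 276) (nat_lit 5) (nat_lit 285) (nat_lit 5) (nat_lit 277) (nat_lit 5) (nat_lit 438) (nat_lit 356) (nat_lit 346)))) (XT.nd (nat_lit 78) (nat_lit 1292) (nat_lit 0) (XT.lf (nat_lit 0) (nat_lit 4937967014) (nat_lit 684) (nat_lit 3196929153) (nat_lit 76) (nat_lit 44167722) (nat_lit 268) (nat_lit 5) (nat_lit 277) (nat_lit 5) (nat_lit 269) (nat_lit 4) (nat_lit 439) (nat_lit 356) (nat_lit 345)) (XT.nd (nat_lit 78) (nat_lit 608) (nat_lit 0) (XT.lf (nat_lit 0) (nat_lit 390123404) (nat_lit 684) (nat_lit 5028754172) (nat_lit 76) (nat_lit 2824312166) (nat_lit 259) (nat_lit 5) (nat_lit 268) (nat_lit 5) (nat_lit 260) (nat_lit 5) (nat_lit 440) (nat_lit 356) (nat_lit 344)) (XT.lf (nat_lit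 0) (nat_lit 1406784326) (nat_lit 608) (nat_lit 2614507092) (nat_lit 684) (nat_lit 4287475343) (nat_lit 251) (nat_lit 5) (nat_lit 259) (nat_lit 5) (nat_lit 260) (nat_lit 5) (nat_lit 441) (nat_lit 356) (nat_lit 343)))))) (XT.nd (nat_lit 468) (nat_lit 2508) (nat_lit 0) (XT.nd (nat_lit 234) (nat_lit 1216) (nat_lit 0) (XT.nd (nat_lit 78) (nat_lit 1216) (nat_lit 0) (XT.lf (nat_lit 0) (nat_lit 7701141451) (nat_lit 684) (nat_lit 417406373) (nat_lit 76) (nat_lit 257597651) (nat_lit 251) (nat_lit 5) (nat_lit 260) (nat_lit 5) (nat_lit 252) (nat_lit 4) (nat_lit 442) (nat_lit 356) (nat_lit 342)) (XT.nd (nat_lit 78) (nat_lit 608) (nat_lit 0) (XT.lf (nat_lit 0) (nat_lit 2969341231) (nat_lit 608) (nat_lit 2282046461) (nat_lit 76) (nat_lit 3193122188) (nat_lit 243) (nat_lit 5) (nat_lit 251) (nat_lit 5) (nat_lit 244) (nat_lit 5) (nat_lit 443) (nat_lit 356) (nat_lit 341)) (XT.lf (nat_lit 0) (nat_lit 4339316800) (nat_lit 608) (nat_lit 2311125961)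 (nat_lit 684) (nat_lit 1864262098) (nat_lit 235) (nat_lit 5) (nat_lit 243) (nat_lit 5) (nat_lit 244) (nat_lit 5) (nat_lit 444) (nat_lit 356) (nat_lit 340)))) (XT.nd (nat_lit 78) (nat_lit 608) (nat_lit 0) (XT.lf (nat_lit 0) (nat_lit 1773289554) (nat_lit 608) (nat_lit 6111336165) (nat_lit 76) (nat_lit 701886459) (nat_lit 227) (nat_lit 5) (nat_lit 235) (nat_lit 5) (nat_lit 228) (nat_lit 5) (nat_lit 445) (nat_lit 356) (nat_lit 339)) (XT.nd (nat_lit 78) (nat_lit 76) (nat_lit 0) (XT.lf (nat_lit 0) (nat_lit 556343134) (nat_lit 532) (nat_lit 4892069757) (nat_lit 608) (nat_lit 3211310695) (nat_lit 220) (nat_lit 5) (nat_lit 227) (nat_lit 5) (nat_lit 228) (nat_lit 5) (nat_lit 446) (nat_lit 356) (nat_lit 338)) (XT.lf (nat_lit 0) (nat_lit 440719215) (nat_lit 608) (nat_lit 1376155878) (nat_lit 76) (nat_lit 6917790775) (nat_lit 219) (nat_lit 5) (nat_lit 227) (nat_lit 5) (nat_lit 220) (nat_lit 5) (nat_lit 447) (nat_lit 356) (nat_lit 337)))))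 (XT.nd (nat_lit 234) (nat_lit 988) (nat_lit 0) (XT.nd (nat_lit 78) (nat_lit 1064) (nat_lit 0) (XT.lf (nat_lit 0) (nat_lit 4111055187) (nat_lit 532) (nat_lit 3361935532) (nat_lit 76) (nat_lit 1337935920) (nat_lit 213) (nat_lit 5) (nat_lit 220) (nat_lit 5) (nat_lit 214) (nat_lit 5) (nat_lit 448) (nat_lit 356) (nat_lit 336)) (XT.nd (nat_lit 78) (nat_lit 532) (nat_lit 0) (XT.lf (nat_lit 0) (nat_lit 3496104980) (nat_lit 532) (nat_lit 4347158326) (nat_lit 608) (nat_lit 1045689305) (nat_lit 206) (nat_lit 5) (nat_lit 213) (nat_lit 5) (nat_lit 214) (nat_lit 5) (nat_lit 449) (nat_lit 356) (nat_lit 335)) (XT.lf (nat_lit 0) (nat_lit 1492150700) (nat_lit 456) (nat_lit 1131302994) (nat_lit 532) (nat_lit 6345205198) (nat_lit 199) (nat_lit 5) (nat_lit 205) (nat_lit 5) (nat_lit 206) (nat_lit 5) (nat_lit 450) (nat_lit 356) (nat_lit 334)))) (XT.nd (nat_lit 78) (nat_lit 988) (nat_lit 0) (XT.lf (nat_lit 0) (nat_lit 6347446402) (nat_lit 532) (nat_lit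 561486297) (nat_lit 76) (nat_lit 2140987743) (nat_lit 199) (nat_lit 5) (nat_lit 206) (nat_lit 5) (nat_lit 200) (nat_lit 5) (nat_lit 451) (nat_lit 356) (nat_lit 333)) (XT.nd (nat_lit 78) (nat_lit 456) (nat_lit 0) (XT.lf (nat_lit 0) (nat_lit 995582512) (nat_lit 532) (nat_lit 2647496636) (nat_lit 76) (nat_lit 5489689778) (nat_lit 192) (nat_lit 5) (nat_lit 199) (nat_lit 5) (nat_lit 193) (nat_lit 5) (nat_lit 452) (nat_lit 356) (nat_lit 332)) (XT.lf (nat_lit 0) (nat_lit 4425755460) (nat_lit 456) (nat_lit 284566816) (nat_lit 532) (nat_lit 4507024924) (nat_lit 186) (nat_lit 5) (nat_lit 192) (nat_lit 5) (nat_lit 193) (nat_lit 5) (nat_lit 453) (nat_lit 356) (nat_lit 331))))))))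
noncomputable def xc35 : XT := (XT.nd (nat_lit 1794) (nat_lit 4180) (nat_lit 0) (XT.nd (nat_lit 858) (nat_lit 3268) (nat_lit 0) (XT.nd (nat_lit 390) (nat_lit 1672) (nat_lit 0) (XT.nd (nat_lit 156) (nat_lit 912) (nat_lit 0) (XT.nd (nat_lit 78) (nat_lit 456) (nat_lit 0) (XT.lf (nat_lit 0) (nat_lit 2304665533) (nat_lit 456) (nat_lit 6194673201) (nat_lit 532) (nat_lit 804286757) (nat_lit 180) (nat_lit 5) (nat_lit 186) (nat_lit 5) (nat_lit 187) (nat_lit 5) (nat_lit 454) (nat_lit 356) (nat_lit 330)) (XT.lf (nat_lit 0) (nat_lit 118625693) (nat_lit 380) (nat_lit 2796841133) (nat_lit 456) (nat_lit 6476145398) (nat_lit 174) (nat_lit 5) (nat_lit 179) (nat_lit 5) (nat_lit 180) (nat_lit 5) (nat_lit 455) (nat_lit 356) (nat_lit 329))) (XT.nd (nat_lit 78) (nat_lit 912) (nat_lit 0) (XT.lf (nat_lit 0) (nat_lit 6697772145) (nat_lit 456) (nat_lit 2095689155) (nat_lit 76) (nat_lit 687820165) (nat_lit 174) (nat_lit 5) (nat_lit 180) (nat_lit 5) (nat_lit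 175) (nat_lit 5) (nat_lit 456) (nat_lit 356) (nat_lit 328)) (XT.nd (nat_lit 78) (nat_lit 380) (nat_lit 0) (XT.lf (nat_lit 0) (nat_lit 970681049) (nat_lit 532) (nat_lit 4381507230) (nat_lit 76) (nat_lit 4220423626) (nat_lit 167) (nat_lit 5) (nat_lit 174) (nat_lit 5) (nat_lit 168) (nat_lit 5) (nat_lit 457) (nat_lit 356) (nat_lit 327)) (XT.lf (nat_lit 0) (nat_lit 2929077584) (nat_lit 380) (nat_lit 1815312888) (nat_lit 456) (nat_lit 4921383557) (nat_lit 162) (nat_lit 5) (nat_lit 167) (nat_lit 5) (nat_lit 168) (nat_lit 5) (nat_lit 458) (nat_lit 356) (nat_lit 326))))) (XT.nd (nat_lit 234) (nat_lit 836) (nat_lit 0) (XT.nd (nat_lit 78) (nat_lit 456) (nat_lit 0) (XT.lf (nat_lit 0) (nat_lit 603422613) (nat_lit 380) (nat_lit 7984143716) (nat_lit 456) (nat_lit 1173360265) (nat_lit 157) (nat_lit 5) (nat_lit 162) (nat_lit 5) (nat_lit 163) (nat_lit 5) (nat_lit 459) (nat_lit 356) (nat_lit 325)) (XT.nd (nat_lit 78) (nat_lit 380) (nat_lit 0)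 (XT.lf (nat_lit 0) (nat_lit 2621401563) (nat_lit 456) (nat_lit 1782829101) (nat_lit 76) (nat_lit 5453283686) (nat_lit 156) (nat_lit 5) (nat_lit 162) (nat_lit 5) (nat_lit 157) (nat_lit 5) (nat_lit 460) (nat_lit 356) (nat_lit 324)) (XT.lf (nat_lit 0) (nat_lit 5730362294) (nat_lit 380) (nat_lit 733205291) (nat_lit 456) (nat_lit 3492573388) (nat_lit 151) (nat_lit 5) (nat_lit 156) (nat_lit 5) (nat_lit 157) (nat_lit 5) (nat_lit 461) (nat_lit 356) (nat_lit 323)))) (XT.nd (nat_lit 78) (nat_lit 380) (nat_lit 0) (XT.lf (nat_lit 0) (nat_lit 324971785) (nat_lit 456) (nat_lit 6750255634) (nat_lit 76) (nat_lit 2981408612) (nat_lit 145) (nat_lit 5) (nat_lit 151) (nat_lit 5) (nat_lit 146) (nat_lit 5) (nat_lit 462) (nat_lit 356) (nat_lit 322)) (XT.nd (nat_lit 78) (nat_lit 0) (nat_lit 0) (XT.lf (nat_lit 0) (nat_lit 793276761) (nat_lit 380) (nat_lit 3367884870) (nat_lit 456) (nat_lit 5997742706) (nat_lit 140) (nat_lit 5) (nat_lit 145) (nat_lit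 5) (nat_lit 146) (nat_lit 5) (nat_lit 463) (nat_lit 356) (nat_lit 321)) (XT.lf (nat_lit 0) (nat_lit 8073121424) (nat_lit 456) (nat_lit 1763265275) (nat_lit 76) (nat_lit 426856519) (nat_lit 140) (nat_lit 5) (nat_lit 146) (nat_lit 5) (nat_lit 141) (nat_lit 5) (nat_lit 464) (nat_lit 356) (nat_lit 320)))))) (XT.nd (nat_lit 468) (nat_lit 1368) (nat_lit 0) (XT.nd (nat_lit 234) (nat_lit 760) (nat_lit 0) (XT.nd (nat_lit 78) (nat_lit 684) (nat_lit 0) (XT.lf (nat_lit 0) (nat_lit 1684321234) (nat_lit 456) (nat_lit 4408978310) (nat_lit 76) (nat_lit 4275897656) (nat_lit 134) (nat_lit 5) (nat_lit 140) (nat_lit 5) (nat_lit 135) (nat_lit 5) (nat_lit 465) (nat_lit 356) (nat_lit 319)) (XT.nd (nat_lit 78) (nat_lit 380) (nat_lit 0) (XT.lf (nat_lit 0) (nat_lit 3338458386) (nat_lit 304) (nat_lit 2253947330) (nat_lit 380) (nat_lit 4884871221) (nat_lit 130) (nat_lit 5) (nat_lit 134) (nat_lit 5) (nat_lit 135) (nat_lit 5) (nat_lit 466) (nat_lit 356)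 (nat_lit 318)) (XT.lf (nat_lit 0) (nat_lit 634955982) (nat_lit 380) (nat_lit 8940533436) (nat_lit 456) (nat_lit 1012097765) (nat_lit 125) (nat_lit 5) (nat_lit 130) (nat_lit 5) (nat_lit 131) (nat_lit 5) (nat_lit 467) (nat_lit 356) (nat_lit 317)))) (XT.nd (nat_lit 78) (nat_lit 684) (nat_lit 0) (XT.lf (nat_lit 0) (nat_lit 2915015085) (nat_lit 456) (nat_lit 2148696375) (nat_lit 76) (nat_lit 5635707731) (nat_lit 124) (nat_lit 5) (nat_lit 130) (nat_lit 5) (nat_lit 125) (nat_lit 5) (nat_lit 468) (nat_lit 356) (nat_lit 316)) (XT.nd (nat_lit 78) (nat_lit 380) (nat_lit 0) (XT.lf (nat_lit 0) (nat_lit 5806051071) (nat_lit 304) (nat_lit 1091981198) (nat_lit 380) (nat_lit 3915508827) (nat_lit 120) (nat_lit 5) (nat_lit 124) (nat_lit 5) (nat_lit 125) (nat_lit 5) (nat_lit 469) (nat_lit 356) (nat_lit 315)) (XT.lf (nat_lit 0) (nat_lit 36829081) (nat_lit 380) (nat_lit 7966108333) (nat_lit 76) (nat_lit 2926879798) (nat_lit 115) (nat_lit 5) (nat_lit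 120) (nat_lit 5) (nat_lit 116) (nat_lit 5) (nat_lit 470) (nat_lit 356) (nat_lit 314))))) (XT.nd (nat_lit 234) (nat_lit 684) (nat_lit 0) (XT.nd (nat_lit 78) (nat_lit 380) (nat_lit 0) (XT.lf (nat_lit 0) (nat_lit 6057952) (nat_lit 304) (nat_lit 4004450585) (nat_lit 380) (nat_lit 7037503242) (nat_lit 111) (nat_lit 5) (nat_lit 115) (nat_lit 5) (nat_lit 116) (nat_lit 5) (nat_lit 471) (nat_lit 356) (nat_lit 313)) (XT.nd (nat_lit 78) (nat_lit 380) (nat_lit 0) (XT.lf (nat_lit 0) (nat_lit 8071770990) (nat_lit 380) (nat_lit 2998029981) (nat_lit 76) (nat_lit 98612010) (nat_lit 111) (nat_lit 5) (nat_lit 116) (nat_lit 5) (nat_lit 112) (nat_lit 5) (nat_lit 472) (nat_lit 356) (nat_lit 312)) (XT.lf (nat_lit 0) (nat_lit 925862012) (nat_lit 380) (nat_lit 6122774779) (nat_lit 76) (nat_lit 4242171670) (nat_lit 106) (nat_lit 5) (nat_lit 111) (nat_lit 5) (nat_lit 107) (nat_lit 5) (nat_lit 473) (nat_lit 356) (nat_lit 311)))) (XT.nd (nat_lit 78) (nat_lit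 380) (nat_lit 0) (XT.lf (nat_lit 0) (nat_lit 2055134687) (nat_lit 304) (nat_lit 2920684197) (nat_lit 380) (nat_lit 6439658899) (nat_lit 102) (nat_lit 5) (nat_lit 106) (nat_lit 5) (nat_lit 107) (nat_lit 5) (nat_lit 474) (nat_lit 356) (nat_lit 310)) (XT.nd (nat_lit 78) (nat_lit 380) (nat_lit 0) (XT.lf (nat_lit 0) (nat_lit 9111563440) (nat_lit 380) (nat_lit 1145079664) (nat_lit 76) (nat_lit 1285906175) (nat_lit 102) (nat_lit 5) (nat_lit 107) (nat_lit 5) (nat_lit 103) (nat_lit 5) (nat_lit 475) (nat_lit 356) (nat_lit 309)) (XT.lf (nat_lit 0) (nat_lit 1658528546) (nat_lit 380) (nat_lit 4445324745) (nat_lit 76) (nat_lit 5567649792) (nat_lit 97) (nat_lit 5) (nat_lit 102) (nat_lit 5) (nat_lit 98) (nat_lit 5) (nat_lit 476) (nat_lit 356) (nat_lit 308))))))) (XT.nd (nat_lit 936) (nat_lit 1900) (nat_lit 0) (XT.nd (nat_lit 468) (nat_lit 1064) (nat_lit 0) (XT.nd (nat_lit 234) (nat_lit 608) (nat_lit 0) (XT.nd (nat_lit 78) (nat_lit 380) (nat_lit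 0) (XT.lf (nat_lit 0) (nat_lit 3940159565) (nat_lit 228) (nat_lit 1846507742) (nat_lit 304) (nat_lit 6016263873) (nat_lit 94) (nat_lit 5) (nat_lit 97) (nat_lit 5) (nat_lit 98) (nat_lit 5) (nat_lit 477) (nat_lit 356) (nat_lit 307)) (XT.nd (nat_lit 78) (nat_lit 76) (nat_lit 0) (XT.lf (nat_lit 0) (nat_lit 534753721) (nat_lit 304) (nat_lit 9468563084) (nat_lit 380) (nat_lit 1933556285) (nat_lit 90) (nat_lit 5) (nat_lit 94) (nat_lit 5) (nat_lit 95) (nat_lit 5) (nat_lit 478) (nat_lit 356) (nat_lit 306)) (XT.lf (nat_lit 0) (nat_lit 2223227060) (nat_lit 380) (nat_lit 2965868824) (nat_lit 76) (nat_lit 6883678739) (nat_lit 89) (nat_lit 5) (nat_lit 94) (nat_lit 5) (nat_lit 90) (nat_lit 5) (nat_lit 479) (nat_lit 356) (nat_lit 305)))) (XT.nd (nat_lit 78) (nat_lit 380) (nat_lit 0) (XT.lf (nat_lit 0) (nat_lit 5628373823) (nat_lit 228) (nat_lit 802643123) (nat_lit 304) (nat_lit 5780250369) (nat_lit 86) (nat_lit 5) (nat_lit 89) (nat_lit 5)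 (nat_lit 90) (nat_lit 5) (nat_lit 480) (nat_lit 356) (nat_lit 304)) (XT.nd (nat_lit 78) (nat_lit 76) (nat_lit 0) (XT.lf (nat_lit 0) (nat_lit 2013066267) (nat_lit 304) (nat_lit 8724222101) (nat_lit 380) (nat_lit 1614958865) (nat_lit 82) (nat_lit 5) (nat_lit 86) (nat_lit 5) (nat_lit 87) (nat_lit 5) (nat_lit 481) (nat_lit 356) (nat_lit 303)) (XT.lf (nat_lit 0) (nat_lit 2606351834) (nat_lit 380) (nat_lit 1719726452) (nat_lit 76) (nat_lit 8169485134) (nat_lit 81) (nat_lit 5) (nat_lit 86) (nat_lit 5) (nat_lit 82) (nat_lit 5) (nat_lit 482) (nat_lit 356) (nat_lit 302))))) (XT.nd (nat_lit 234) (nat_lit 532) (nat_lit 0) (XT.nd (nat_lit 78) (nat_lit 304) (nat_lit 0) (XT.lf (nat_lit 0) (nat_lit 6896008541) (nat_lit 304) (nat_lit 5558971690) (nat_lit 76) (nat_lit 186444984) (nat_lit 78) (nat_lit 5) (nat_lit 82) (nat_lit 5) (nat_lit 79) (nat_lit 5) (nat_lit 483) (nat_lit 356) (nat_lit 301)) (XT.nd (nat_lit 78) (nat_lit 76) (nat_lit 0) (XT.lf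 (nat_lit 0) (nat_lit 3236942195) (nat_lit 228) (nat_lit 8054278839) (nat_lit 304) (nat_lit 1498591551) (nat_lit 75) (nat_lit 5) (nat_lit 78) (nat_lit 5) (nat_lit 79) (nat_lit 5) (nat_lit 484) (nat_lit 356) (nat_lit 300)) (XT.lf (nat_lit 0) (nat_lit 2792124650) (nat_lit 304) (nat_lit 745824109) (nat_lit 76) (nat_lit 9402932257) (nat_lit 74) (nat_lit 5) (nat_lit 78) (nat_lit 5) (nat_lit 75) (nat_lit 5) (nat_lit 485) (nat_lit 356) (nat_lit 299)))) (XT.nd (nat_lit 78) (nat_lit 304) (nat_lit 0) (XT.lf (nat_lit 0) (nat_lit 7168824876) (nat_lit 304) (nat_lit 4835332233) (nat_lit 76) (nat_lit 1090214261) (nat_lit 71) (nat_lit 5) (nat_lit 75) (nat_lit 5) (nat_lit 72) (nat_lit 5) (nat_lit 486) (nat_lit 356) (nat_lit 298)) (XT.nd (nat_lit 78) (nat_lit 76) (nat_lit 0) (XT.lf (nat_lit 0) (nat_lit 4164773311) (nat_lit 228) (nat_lit 7483329947) (nat_lit 304) (nat_lit 1602530709) (nat_lit 68) (nat_lit 5) (nat_lit 71) (nat_lit 5) (nat_lit 72)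 (nat_lit 5) (nat_lit 487) (nat_lit 356) (nat_lit 297)) (XT.lf (nat_lit 0) (nat_lit 2762405034) (nat_lit 304) (nat_lit 87131992) (nat_lit 76) (nat_lit 10560278024) (nat_lit 67) (nat_lit 5) (nat_lit 71) (nat_lit 5) (nat_lit 68) (nat_lit 5) (nat_lit 488) (nat_lit 356) (nat_lit 296)))))) (XT.nd (nat_lit 468) (nat_lit 760) (nat_lit 0) (XT.nd (nat_lit 234) (nat_lit 456) (nat_lit 0) (XT.nd (nat_lit 78) (nat_lit 456) (nat_lit 0) (XT.lf (nat_lit 0) (nat_lit 7225360018) (nat_lit 304) (nat_lit 4451685481) (nat_lit 76) (nat_lit 1894281959) (nat_lit 64) (nat_lit 5) (nat_lit 68) (nat_lit 5) (nat_lit 65) (nat_lit 5) (nat_lit 489) (nat_lit 356) (nat_lit 295)) (XT.nd (nat_lit 78) (nat_lit 228) (nat_lit 0) (XT.lf (nat_lit 0) (nat_lit 4750574106) (nat_lit 228) (nat_lit 7037855499) (nat_lit 304) (nat_lit 1947426466) (nat_lit 61) (nat_lit 5) (nat_lit 64) (nat_lit 5) (nat_lit 65) (nat_lit 5) (nat_lit 490) (nat_lit 356) (nat_lit 294)) (XT.lf (nat_lit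 0) (nat_lit 211632126) (nat_lit 152) (nat_lit 2286219093) (nat_lit 228) (nat_lit 11405655946) (nat_lit 58) (nat_lit 5) (nat_lit 60) (nat_lit 5) (nat_lit 61) (nat_lit 5) (nat_lit 491) (nat_lit 356) (nat_lit 293)))) (XT.nd (nat_lit 78) (nat_lit 456) (nat_lit 0) (XT.lf (nat_lit 0) (nat_lit 7044064287) (nat_lit 228) (nat_lit 4457691932) (nat_lit 76) (nat_lit 2571738383) (nat_lit 58) (nat_lit 5) (nat_lit 61) (nat_lit 5) (nat_lit 59) (nat_lit 5) (nat_lit 492) (nat_lit 356) (nat_lit 292)) (XT.nd (nat_lit 78) (nat_lit 228) (nat_lit 0) (XT.lf (nat_lit 0) (nat_lit 4943468182) (nat_lit 228) (nat_lit 6746501675) (nat_lit 304) (nat_lit 2556739399) (nat_lit 55) (nat_lit 5) (nat_lit 58) (nat_lit 5) (nat_lit 59) (nat_lit 5) (nat_lit 493) (nat_lit 356) (nat_lit 291)) (XT.lf (nat_lit 0) (nat_lit 90788660) (nat_lit 152) (nat_lit 1880612059) (nat_lit 228) (nat_lit 12451883865) (nat_lit 52) (nat_lit 5) (nat_lit 54) (nat_lit 5) (nat_lit 55) (nat_lit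 5) (nat_lit 494) (nat_lit 356) (nat_lit 290))))) (XT.nd (nat_lit 234) (nat_lit 456) (nat_lit 0) (XT.nd (nat_lit 78) (nat_lit 304) (nat_lit 0) (XT.lf (nat_lit 0) (nat_lit 6600483807) (nat_lit 228) (nat_lit 4908298596) (nat_lit 76) (nat_lit 3093381386) (nat_lit 52) (nat_lit 5) (nat_lit 55) (nat_lit 5) (nat_lit 53) (nat_lit 5) (nat_lit 495) (nat_lit 356) (nat_lit 289)) (XT.nd (nat_lit 78) (nat_lit 76) (nat_lit 0) (XT.lf (nat_lit 0) (nat_lit 4687123412) (nat_lit 228) (nat_lit 6640387486) (nat_lit 304) (nat_lit 3457005048) (nat_lit 49) (nat_lit 5) (nat_lit 52) (nat_lit 5) (nat_lit 53) (nat_lit 5) (nat_lit 496) (nat_lit 356) (nat_lit 288)) (XT.lf (nat_lit 0) (nat_lit 1158797036) (nat_lit 304) (nat_lit 503081121) (nat_lit 76) (nat_lit 13308572651) (nat_lit 48) (nat_lit 5) (nat_lit 52) (nat_lit 5) (nat_lit 49) (nat_lit 5) (nat_lit 497) (nat_lit 356) (nat_lit 287)))) (XT.nd (nat_lit 78) (nat_lit 304) (nat_lit 0) (XT.lf (nat_lit 0) (nat_lit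 5866982358) (nat_lit 228) (nat_lit 5864341662) (nat_lit 76) (nat_lit 3427398667) (nat_lit 46) (nat_lit 5) (nat_lit 49) (nat_lit 5) (nat_lit 47) (nat_lit 5) (nat_lit 498) (nat_lit 356) (nat_lit 286)) (XT.nd (nat_lit 78) (nat_lit 76) (nat_lit 0) (XT.lf (nat_lit 0) (nat_lit 3919130237) (nat_lit 228) (nat_lit 6753438485) (nat_lit 304) (nat_lit 4678128952) (nat_lit 43) (nat_lit 5) (nat_lit 46) (nat_lit 5) (nat_lit 47) (nat_lit 5) (nat_lit 499) (nat_lit 356) (nat_lit 285)) (XT.lf (nat_lit 0) (nat_lit 30446481) (nat_lit 304) (nat_lit 1633622129) (nat_lit 76) (nat_lit 13882381153) (nat_lit 42) (nat_lit 5) (nat_lit 46) (nat_lit 5) (nat_lit 43) (nat_lit 5) (nat_lit 500) (nat_lit 356) (nat_lit 284))))))))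
noncomputable def xc36 : XT := (XT.nd (nat_lit 54756) (nat_lit 0) (nat_lit 8360) (XT.nd (nat_lit 53820) (nat_lit 0) (nat_lit 16796) (XT.nd (nat_lit 390) (nat_lit 228) (nat_lit 0) (XT.nd (nat_lit 156) (nat_lit 380) (nat_lit 0) (XT.nd (nat_lit 78) (nat_lit 152) (nat_lit 0) (XT.lf (nat_lit 0) (nat_lit 4812431449) (nat_lit 228) (nat_lit 7393210128) (nat_lit 76) (nat_lit 3539021582) (nat_lit 40) (nat_lit 5) (nat_lit 43) (nat_lit 5) (nat_lit 41) (nat_lit 5) (nat_lit 501) (nat_lit 356) (nat_lit 283)) (XT.lf (nat_lit 0) (nat_lit 2570316930) (nat_lit 152) (nat_lit 7122750728) (nat_lit 228) (nat_lit 6253715168) (nat_lit 38) (nat_lit 5) (nat_lit 40) (nat_lit 5) (nat_lit 41) (nat_lit 5) (nat_lit 502) (nat_lit 356) (nat_lit 282))) (XT.nd (nat_lit 78) (nat_lit 380) (nat_lit 0) (XT.lf (nat_lit 0) (nat_lit 12769700222) (nat_lit 152) (nat_lit 1915784147) (nat_lit 228) (nat_lit 1467179351) (nat_lit 38) (nat_lit 5) (nat_lit 40) (nat_lit 5) (nat_lit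 41) (nat_lit 5) (nat_lit 503) (nat_lit 356) (nat_lit 281)) (XT.nd (nat_lit 78) (nat_lit 152) (nat_lit 0) (XT.lf (nat_lit 0) (nat_lit 3401865444) (nat_lit 228) (nat_lit 9569576967) (nat_lit 76) (nat_lit 3390147111) (nat_lit 35) (nat_lit 5) (nat_lit 38) (nat_lit 5) (nat_lit 36) (nat_lit 5) (nat_lit 504) (nat_lit 356) (nat_lit 280)) (XT.lf (nat_lit 0) (nat_lit 563995045) (nat_lit 152) (nat_lit 7788988518) (nat_lit 228) (nat_lit 8221431619) (nat_lit 33) (nat_lit 5) (nat_lit 35) (nat_lit 5) (nat_lit 36) (nat_lit 5) (nat_lit 505) (nat_lit 356) (nat_lit 279))))) (XT.nd (nat_lit 53196) (nat_lit 0) (nat_lit 23864) (XT.nd (nat_lit 78) (nat_lit 228) (nat_lit 0) (XT.lf (nat_lit 0) (nat_lit 10967417739) (nat_lit 152) (nat_lit 2465319755) (nat_lit 228) (nat_lit 3358169617) (nat_lit 33) (nat_lit 5) (nat_lit 35) (nat_lit 5) (nat_lit 36) (nat_lit 5) (nat_lit 506) (nat_lit 356) (nat_lit 278)) (XT.nd (nat_lit 53040) (nat_lit 0) (nat_lit 25536)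 (XT.lf (nat_lit 0) (nat_lit 1596098289) (nat_lit 228) (nat_lit 12476205073) (nat_lit 76) (nat_lit 2938924270) (nat_lit 30) (nat_lit 5) (nat_lit 33) (nat_lit 5) (nat_lit 31) (nat_lit 5) (nat_lit 507) (nat_lit 356) (nat_lit 277)) (XT.lf (nat_lit 0) (nat_lit 1835205879) (nat_lit 836) (nat_lit 951289534) (nat_lit 836) (nat_lit 951289534) (nat_lit 366) (nat_lit 4) (nat_lit 377) (nat_lit 5) (nat_lit 377) (nat_lit 4) (nat_lit 426) (nat_lit 357) (nat_lit 357)))) (XT.nd (nat_lit 78) (nat_lit 836) (nat_lit 0) (XT.lf (nat_lit 0) (nat_lit 1704246618) (nat_lit 836) (nat_lit 5570256956) (nat_lit 0) (nat_lit 247456061) (nat_lit 355) (nat_lit 5) (nat_lit 366) (nat_lit 4) (nat_lit 355) (nat_lit 4) (nat_lit 427) (nat_lit 357) (nat_lit 356)) (XT.nd (nat_lit 78) (nat_lit 76) (nat_lit 0) (XT.lf (nat_lit 0) (nat_lit 206160366) (nat_lit 760) (nat_lit 5124222691) (nat_lit 760) (nat_lit 2239206097) (nat_lit 345) (nat_lit 4) (nat_lit 355) (nat_lit 5)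 (nat_lit 355) (nat_lit 4) (nat_lit 428) (nat_lit 357) (nat_lit 355)) (XT.lf (nat_lit 0) (nat_lit 1363336439) (nat_lit 836) (nat_lit 1531298590) (nat_lit 76) (nat_lit 4723949504) (nat_lit 344) (nat_lit 5) (nat_lit 355) (nat_lit 5) (nat_lit 345) (nat_lit 4) (nat_lit 429) (nat_lit 357) (nat_lit 354)))))) (XT.nd (nat_lit 468) (nat_lit 3344) (nat_lit 0) (XT.nd (nat_lit 234) (nat_lit 1444) (nat_lit 0) (XT.nd (nat_lit 78) (nat_lit 1520) (nat_lit 0) (XT.lf (nat_lit 0) (nat_lit 4383588156) (nat_lit 760) (nat_lit 587497305) (nat_lit 836) (nat_lit 2697931113) (nat_lit 334) (nat_lit 5) (nat_lit 344) (nat_lit 5) (nat_lit 345) (nat_lit 4) (nat_lit 430) (nat_lit 357) (nat_lit 353)) (XT.nd (nat_lit 78) (nat_lit 684) (nat_lit 0) (XT.lf (nat_lit 0) (nat_lit 892607529) (nat_lit 836) (nat_lit 5063456094) (nat_lit 76) (nat_lit 1764802160) (nat_lit 323) (nat_lit 5) (nat_lit 334) (nat_lit 5) (nat_lit 324) (nat_lit 4) (nat_lit 431) (nat_lit 357) (nat_lit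 352)) (XT.lf (nat_lit 0) (nat_lit 902625026) (nat_lit 684) (nat_lit 3583878267) (nat_lit 760) (nat_lit 3287553237) (nat_lit 314) (nat_lit 5) (nat_lit 323) (nat_lit 5) (nat_lit 324) (nat_lit 4) (nat_lit 432) (nat_lit 357) (nat_lit 351)))) (XT.nd (nat_lit 78) (nat_lit 1368) (nat_lit 0) (XT.lf (nat_lit 0) (nat_lit 289939389) (nat_lit 760) (nat_lit 851286908) (nat_lit 76) (nat_lit 6687652365) (nat_lit 313) (nat_lit 5) (nat_lit 323) (nat_lit 5) (nat_lit 314) (nat_lit 5) (nat_lit 433) (nat_lit 357) (nat_lit 350)) (XT.nd (nat_lit 78) (nat_lit 684) (nat_lit 0) (XT.lf (nat_lit 0) (nat_lit 3875475684) (nat_lit 760) (nat_lit 2633982439) (nat_lit 76) (nat_lit 1375308024) (nat_lit 304) (nat_lit 5) (nat_lit 314) (nat_lit 5) (nat_lit 305) (nat_lit 4) (nat_lit 434) (nat_lit 357) (nat_lit 349)) (XT.lf (nat_lit 0) (nat_lit 3506043223) (nat_lit 684) (nat_lit 4000670738) (nat_lit 760) (nat_lit 435591134) (nat_lit 295) (nat_lit 5) (nat_lit 304)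 (nat_lit 5) (nat_lit 305) (nat_lit 4) (nat_lit 435) (nat_lit 357) (nat_lit 348))))) (XT.nd (nat_lit 234) (nat_lit 1900) (nat_lit 0) (XT.nd (nat_lit 78) (nat_lit 684) (nat_lit 0) (XT.lf (nat_lit 0) (nat_lit 1728193966) (nat_lit 684) (nat_lit 1406526880) (nat_lit 760) (nat_lit 4866525555) (nat_lit 285) (nat_lit 5) (nat_lit 294) (nat_lit 5) (nat_lit 295) (nat_lit 5) (nat_lit 436) (nat_lit 357) (nat_lit 347)) (XT.nd (nat_lit 78) (nat_lit 684) (nat_lit 0) (XT.lf (nat_lit 0) (nat_lit 6747455077) (nat_lit 760) (nat_lit 73896816) (nat_lit 76) (nat_lit 1240432841) (nat_lit 285) (nat_lit 5) (nat_lit 295) (nat_lit 5) (nat_lit 286) (nat_lit 4) (nat_lit 437) (nat_lit 357) (nat_lit 346)) (XT.lf (nat_lit 0) (nat_lit 2268440554) (nat_lit 684) (nat_lit 1893376109) (nat_lit 76) (nat_lit 3961633368) (nat_lit 276) (nat_lit 5) (nat_lit 285) (nat_lit 5) (nat_lit 277) (nat_lit 5) (nat_lit 438) (nat_lit 357) (nat_lit 345)))) (XT.nd (nat_lit 78) (nat_lit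 1292) (nat_lit 0) (XT.lf (nat_lit 0) (nat_lit 4447569486) (nat_lit 608) (nat_lit 1427395605) (nat_lit 684) (nat_lit 2311827855) (nat_lit 268) (nat_lit 5) (nat_lit 276) (nat_lit 5) (nat_lit 277) (nat_lit 5) (nat_lit 439) (nat_lit 357) (nat_lit 344)) (XT.nd (nat_lit 78) (nat_lit 608) (nat_lit 0) (XT.lf (nat_lit 0) (nat_lit 1264619269) (nat_lit 684) (nat_lit 5622032241) (nat_lit 76) (nat_lit 1365004053) (nat_lit 259) (nat_lit 5) (nat_lit 268) (nat_lit 5) (nat_lit 260) (nat_lit 5) (nat_lit 440) (nat_lit 357) (nat_lit 343)) (XT.lf (nat_lit 0) (nat_lit 766645685) (nat_lit 608) (nat_lit 4095841597) (nat_lit 684) (nat_lit 3455416909) (nat_lit 251) (nat_lit 5) (nat_lit 259) (nat_lit 5) (nat_lit 260) (nat_lit 5) (nat_lit 441) (nat_lit 357) (nat_lit 342))))))) (XT.nd (nat_lit 858) (nat_lit 3952) (nat_lit 0) (XT.nd (nat_lit 390) (nat_lit 2660) (nat_lit 0) (XT.nd (nat_lit 156) (nat_lit 1216) (nat_lit 0) (XT.nd (nat_lit 78) (nat_lit 532)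 (nat_lit 0) (XT.lf (nat_lit 0) (nat_lit 124271930) (nat_lit 684) (nat_lit 1104599187) (nat_lit 76) (nat_lit 7157011237) (nat_lit 250) (nat_lit 5) (nat_lit 259) (nat_lit 5) (nat_lit 251) (nat_lit 5) (nat_lit 442) (nat_lit 357) (nat_lit 341)) (XT.lf (nat_lit 0) (nat_lit 3718475357) (nat_lit 608) (nat_lit 3023438562) (nat_lit 76) (nat_lit 1713076253) (nat_lit 243) (nat_lit 5) (nat_lit 251) (nat_lit 5) (nat_lit 244) (nat_lit 5) (nat_lit 443) (nat_lit 357) (nat_lit 340))) (XT.nd (nat_lit 78) (nat_lit 608) (nat_lit 0) (XT.lf (nat_lit 0) (nat_lit 3549462111) (nat_lit 608) (nat_lit 3816790988) (nat_lit 684) (nat_lit 1159603709) (nat_lit 235) (nat_lit 5) (nat_lit 243) (nat_lit 5) (nat_lit 244) (nat_lit 5) (nat_lit 444) (nat_lit 357) (nat_lit 339)) (XT.nd (nat_lit 78) (nat_lit 0) (nat_lit 0) (XT.lf (nat_lit 0) (nat_lit 1624859524) (nat_lit 532) (nat_lit 805599480) (nat_lit 608) (nat_lit 6167883545) (nat_lit 227) (nat_lit 5) (nat_lit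 234) (nat_lit 5) (nat_lit 235) (nat_lit 5) (nat_lit 445) (nat_lit 357) (nat_lit 338)) (XT.lf (nat_lit 0) (nat_lit 6068899269) (nat_lit 608) (nat_lit 346343309) (nat_lit 76) (nat_lit 2257049922) (nat_lit 227) (nat_lit 5) (nat_lit 235) (nat_lit 5) (nat_lit 228) (nat_lit 5) (nat_lit 446) (nat_lit 357) (nat_lit 337))))) (XT.nd (nat_lit 234) (nat_lit 1064) (nat_lit 0) (XT.nd (nat_lit 78) (nat_lit 988) (nat_lit 0) (XT.lf (nat_lit 0) (nat_lit 1010640241) (nat_lit 608) (nat_lit 2338585064) (nat_lit 76) (nat_lit 5398535699) (nat_lit 219) (nat_lit 5) (nat_lit 227) (nat_lit 5) (nat_lit 220) (nat_lit 5) (nat_lit 447) (nat_lit 357) (nat_lit 336)) (XT.nd (nat_lit 78) (nat_lit 532) (nat_lit 0) (XT.lf (nat_lit 0) (nat_lit 4444410282) (nat_lit 456) (nat_lit 193996920) (nat_lit 532) (nat_lit 4186470555) (nat_lit 213) (nat_lit 5) (nat_lit 219) (nat_lit 5) (nat_lit 220) (nat_lit 5) (nat_lit 448) (nat_lit 357) (nat_lit 335)) (XT.lf (nat_lit 0)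 (nat_lit 2426746771) (nat_lit 532) (nat_lit 5908699509) (nat_lit 608) (nat_lit 568165339) (nat_lit 206) (nat_lit 5) (nat_lit 213) (nat_lit 5) (nat_lit 214) (nat_lit 5) (nat_lit 449) (nat_lit 357) (nat_lit 334)))) (XT.nd (nat_lit 78) (nat_lit 532) (nat_lit 0) (XT.lf (nat_lit 0) (nat_lit 351906631) (nat_lit 456) (nat_lit 2708540685) (nat_lit 532) (nat_lit 5923498262) (nat_lit 199) (nat_lit 5) (nat_lit 205) (nat_lit 5) (nat_lit 206) (nat_lit 5) (nat_lit 450) (nat_lit 357) (nat_lit 333)) (XT.nd (nat_lit 78) (nat_lit 532) (nat_lit 0) (XT.lf (nat_lit 0) (nat_lit 6747542176) (nat_lit 532) (nat_lit 1745159708) (nat_lit 76) (nat_lit 573247451) (nat_lit 199) (nat_lit 5) (nat_lit 206) (nat_lit 5) (nat_lit 200) (nat_lit 5) (nat_lit 451) (nat_lit 357) (nat_lit 332)) (XT.lf (nat_lit 0) (nat_lit 1340212311) (nat_lit 532) (nat_lit 3904014806) (nat_lit 76) (nat_lit 3905212914) (nat_lit 192) (nat_lit 5) (nat_lit 199) (nat_lit 5) (nat_lit 193)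 (nat_lit 5) (nat_lit 452) (nat_lit 357) (nat_lit 331)))))) (XT.nd (nat_lit 468) (nat_lit 1672) (nat_lit 0) (XT.nd (nat_lit 234) (nat_lit 1292) (nat_lit 0) (XT.nd (nat_lit 78) (nat_lit 532) (nat_lit 0) (XT.lf (nat_lit 0) (nat_lit 3114304356) (nat_lit 456) (nat_lit 1906092635) (nat_lit 532) (nat_lit 4214316421) (nat_lit 186) (nat_lit 5) (nat_lit 192) (nat_lit 5) (nat_lit 193) (nat_lit 5) (nat_lit 453) (nat_lit 357) (nat_lit 330)) (XT.nd (nat_lit 78) (nat_lit 76) (nat_lit 0) (XT.lf (nat_lit 0) (nat_lit 930424702) (nat_lit 456) (nat_lit 7833689146) (nat_lit 532) (nat_lit 557787773) (nat_lit 180) (nat_lit 5) (nat_lit 186) (nat_lit 5) (nat_lit 187) (nat_lit 5) (nat_lit 454) (nat_lit 357) (nat_lit 329)) (XT.lf (nat_lit 0) (nat_lit 3132202600) (nat_lit 532) (nat_lit 1315072206) (nat_lit 76) (nat_lit 4963115919) (nat_lit 179) (nat_lit 5) (nat_lit 186) (nat_lit 5) (nat_lit 180) (nat_lit 5) (nat_lit 455) (nat_lit 357) (nat_lit 328))))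 (XT.nd (nat_lit 78) (nat_lit 912) (nat_lit 0) (XT.lf (nat_lit 0) (nat_lit 5901258885) (nat_lit 380) (nat_lit 974571820) (nat_lit 456) (nat_lit 2625006507) (nat_lit 174) (nat_lit 5) (nat_lit 179) (nat_lit 5) (nat_lit 180) (nat_lit 5) (nat_lit 456) (nat_lit 357) (nat_lit 327)) (XT.nd (nat_lit 78) (nat_lit 380) (nat_lit 0) (XT.lf (nat_lit 0) (nat_lit 1085321819) (nat_lit 532) (nat_lit 5958071511) (nat_lit 76) (nat_lit 2549592961) (nat_lit 167) (nat_lit 5) (nat_lit 174) (nat_lit 5) (nat_lit 168) (nat_lit 5) (nat_lit 457) (nat_lit 357) (nat_lit 326)) (XT.lf (nat_lit 0) (nat_lit 1293513993) (nat_lit 380) (nat_lit 3529901858) (nat_lit 456) (nat_lit 4863448358) (nat_lit 162) (nat_lit 5) (nat_lit 167) (nat_lit 5) (nat_lit 168) (nat_lit 5) (nat_lit 458) (nat_lit 357) (nat_lit 325))))) (XT.nd (nat_lit 234) (nat_lit 836) (nat_lit 0) (XT.nd (nat_lit 78) (nat_lit 836) (nat_lit 0) (XT.lf (nat_lit 0) (nat_lit 8626711843) (nat_lit 456) (nat_lit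 1087731353) (nat_lit 76) (nat_lit 68374594) (nat_lit 162) (nat_lit 5) (nat_lit 168) (nat_lit 5) (nat_lit 163) (nat_lit 5) (nat_lit 459) (nat_lit 357) (nat_lit 324)) (XT.nd (nat_lit 78) (nat_lit 380) (nat_lit 0) (XT.lf (nat_lit 0) (nat_lit 2606473718) (nat_lit 456) (nat_lit 3548339931) (nat_lit 76) (nat_lit 3725232059) (nat_lit 156) (nat_lit 5) (nat_lit 162) (nat_lit 5) (nat_lit 157) (nat_lit 5) (nat_lit 460) (nat_lit 357) (nat_lit 323)) (XT.lf (nat_lit 0) (nat_lit 3903834923) (nat_lit 380) (nat_lit 2508678781) (nat_lit 456) (nat_lit 3566884369) (nat_lit 151) (nat_lit 5) (nat_lit 156) (nat_lit 5) (nat_lit 157) (nat_lit 5) (nat_lit 461) (nat_lit 357) (nat_lit 322)))) (XT.nd (nat_lit 78) (nat_lit 380) (nat_lit 0) (XT.lf (nat_lit 0) (nat_lit 203335088) (nat_lit 456) (nat_lit 8674074456) (nat_lit 76) (nat_lit 1203462337) (nat_lit 145) (nat_lit 5) (nat_lit 151) (nat_lit 5) (nat_lit 146) (nat_lit 5) (nat_lit 462) (nat_lit 357) (nat_lit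 321)) (XT.nd (nat_lit 78) (nat_lit 380) (nat_lit 0) (XT.lf (nat_lit 0) (nat_lit 4010332752) (nat_lit 456) (nat_lit 1178241930) (nat_lit 76) (nat_lit 4995152386) (nat_lit 145) (nat_lit 5) (nat_lit 151) (nat_lit 5) (nat_lit 146) (nat_lit 5) (nat_lit 463) (nat_lit 357) (nat_lit 320)) (XT.lf (nat_lit 0) (nat_lit 6478614936) (nat_lit 380) (nat_lit 1409306895) (nat_lit 456) (nat_lit 2400834507) (nat_lit 140) (nat_lit 5) (nat_lit 145) (nat_lit 5) (nat_lit 146) (nat_lit 5) (nat_lit 464) (nat_lit 357) (nat_lit 319))))))))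
noncomputable def xc37 : XT := (XT.nd (nat_lit 1794) (nat_lit 2660) (nat_lit 0) (XT.nd (nat_lit 858) (nat_lit 2584) (nat_lit 0) (XT.nd (nat_lit 390) (nat_lit 1368) (nat_lit 0) (XT.nd (nat_lit 156) (nat_lit 760) (nat_lit 0) (XT.nd (nat_lit 78) (nat_lit 304) (nat_lit 0) (XT.lf (nat_lit 0) (nat_lit 1429837037) (nat_lit 456) (nat_lit 6535748333) (nat_lit 76) (nat_lit 2430085872) (nat_lit 134) (nat_lit 5) (nat_lit 140) (nat_lit 5) (nat_lit 135) (nat_lit 5) (nat_lit 465) (nat_lit 357) (nat_lit 318)) (XT.lf (nat_lit 0) (nat_lit 1146154565) (nat_lit 304) (nat_lit 4154170913) (nat_lit 380) (nat_lit 5204180226) (nat_lit 130) (nat_lit 5) (nat_lit 134) (nat_lit 5) (nat_lit 135) (nat_lit 5) (nat_lit 466) (nat_lit 357) (nat_lit 317))) (XT.nd (nat_lit 78) (nat_lit 760) (nat_lit 0) (XT.lf (nat_lit 0) (nat_lit 8996479812) (nat_lit 304) (nat_lit 248856749) (nat_lit 380) (nat_lit 1370243591) (nat_lit 130) (nat_lit 5) (nat_lit 134) (nat_lit 5)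 (nat_lit 135) (nat_lit 5) (nat_lit 467) (nat_lit 357) (nat_lit 316)) (XT.nd (nat_lit 78) (nat_lit 304) (nat_lit 0) (XT.lf (nat_lit 0) (nat_lit 2526062136) (nat_lit 456) (nat_lit 4485449658) (nat_lit 76) (nat_lit 3716659599) (nat_lit 124) (nat_lit 5) (nat_lit 130) (nat_lit 5) (nat_lit 125) (nat_lit 5) (nat_lit 468) (nat_lit 357) (nat_lit 315)) (XT.lf (nat_lit 0) (nat_lit 3401501325) (nat_lit 304) (nat_lit 3069254292) (nat_lit 380) (nat_lit 4372306748) (nat_lit 120) (nat_lit 5) (nat_lit 124) (nat_lit 5) (nat_lit 125) (nat_lit 5) (nat_lit 469) (nat_lit 357) (nat_lit 314))))) (XT.nd (nat_lit 234) (nat_lit 684) (nat_lit 0) (XT.nd (nat_lit 78) (nat_lit 380) (nat_lit 0) (XT.lf (nat_lit 0) (nat_lit 473675741) (nat_lit 304) (nat_lit 10014593752) (nat_lit 380) (nat_lit 472108260) (nat_lit 116) (nat_lit 5) (nat_lit 120) (nat_lit 5) (nat_lit 121) (nat_lit 5) (nat_lit 470) (nat_lit 357) (nat_lit 313)) (XT.nd (nat_lit 78) (nat_lit 304) (nat_lit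 0) (XT.lf (nat_lit 0) (nat_lit 3485193080) (nat_lit 380) (nat_lit 2547998975) (nat_lit 76) (nat_lit 5045895410) (nat_lit 115) (nat_lit 5) (nat_lit 120) (nat_lit 5) (nat_lit 116) (nat_lit 5) (nat_lit 471) (nat_lit 357) (nat_lit 312)) (XT.lf (nat_lit 0) (nat_lit 5546917007) (nat_lit 304) (nat_lit 1959802726) (nat_lit 380) (nat_lit 3693566043) (nat_lit 111) (nat_lit 5) (nat_lit 115) (nat_lit 5) (nat_lit 116) (nat_lit 5) (nat_lit 472) (nat_lit 357) (nat_lit 311)))) (XT.nd (nat_lit 78) (nat_lit 304) (nat_lit 0) (XT.lf (nat_lit 0) (nat_lit 284097548) (nat_lit 380) (nat_lit 8865534978) (nat_lit 76) (nat_lit 2174181926) (nat_lit 106) (nat_lit 5) (nat_lit 111) (nat_lit 5) (nat_lit 107) (nat_lit 5) (nat_lit 473) (nat_lit 357) (nat_lit 310)) (XT.nd (nat_lit 78) (nat_lit 304) (nat_lit 0) (XT.lf (nat_lit 0) (nat_lit 4298789738) (nat_lit 380) (nat_lit 750487628) (nat_lit 76) (nat_lit 6399913959) (nat_lit 106) (nat_lit 5) (nat_lit 111) (nat_lit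 5) (nat_lit 107) (nat_lit 5) (nat_lit 474) (nat_lit 357) (nat_lit 309)) (XT.lf (nat_lit 0) (nat_lit 7554830405) (nat_lit 304) (nat_lit 844583395) (nat_lit 380) (nat_lit 3177553640) (nat_lit 102) (nat_lit 5) (nat_lit 106) (nat_lit 5) (nat_lit 107) (nat_lit 5) (nat_lit 475) (nat_lit 357) (nat_lit 308)))))) (XT.nd (nat_lit 468) (nat_lit 1368) (nat_lit 0) (XT.nd (nat_lit 234) (nat_lit 608) (nat_lit 0) (XT.nd (nat_lit 78) (nat_lit 228) (nat_lit 0) (XT.lf (nat_lit 0) (nat_lit 875451526) (nat_lit 380) (nat_lit 7421030166) (nat_lit 76) (nat_lit 3410464634) (nat_lit 97) (nat_lit 5) (nat_lit 102) (nat_lit 5) (nat_lit 98) (nat_lit 5) (nat_lit 476) (nat_lit 357) (nat_lit 307)) (XT.nd (nat_lit 78) (nat_lit 0) (nat_lit 0) (XT.lf (nat_lit 0) (nat_lit 889072996) (nat_lit 228) (nat_lit 4073370715) (nat_lit 304) (nat_lit 6876755727) (nat_lit 94) (nat_lit 5) (nat_lit 97) (nat_lit 5) (nat_lit 98) (nat_lit 5) (nat_lit 477) (nat_lit 357) (nat_lit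 306)) (XT.lf (nat_lit 0) (nat_lit 9139925519) (nat_lit 304) (nat_lit 2580623322) (nat_lit 76) (nat_lit 253377903) (nat_lit 94) (nat_lit 5) (nat_lit 98) (nat_lit 5) (nat_lit 95) (nat_lit 5) (nat_lit 478) (nat_lit 357) (nat_lit 305)))) (XT.nd (nat_lit 78) (nat_lit 228) (nat_lit 0) (XT.lf (nat_lit 0) (nat_lit 1296310236) (nat_lit 380) (nat_lit 6182492825) (nat_lit 76) (nat_lit 4631909734) (nat_lit 89) (nat_lit 5) (nat_lit 94) (nat_lit 5) (nat_lit 90) (nat_lit 5) (nat_lit 479) (nat_lit 357) (nat_lit 304)) (XT.nd (nat_lit 78) (nat_lit 0) (nat_lit 0) (XT.lf (nat_lit 0) (nat_lit 2333718905) (nat_lit 228) (nat_lit 3128214482) (nat_lit 304) (nat_lit 6788117358) (nat_lit 86) (nat_lit 5) (nat_lit 89) (nat_lit 5) (nat_lit 90) (nat_lit 5) (nat_lit 480) (nat_lit 357) (nat_lit 303)) (XT.lf (nat_lit 0) (nat_lit 9719351731) (nat_lit 304) (nat_lit 1366589349) (nat_lit 76) (nat_lit 1306068533) (nat_lit 86) (nat_lit 5) (nat_lit 90) (nat_lit 5)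 (nat_lit 87) (nat_lit 5) (nat_lit 481) (nat_lit 357) (nat_lit 302))))) (XT.nd (nat_lit 234) (nat_lit 760) (nat_lit 0) (XT.nd (nat_lit 78) (nat_lit 228) (nat_lit 0) (XT.lf (nat_lit 0) (nat_lit 1532833458) (nat_lit 380) (nat_lit 5185519805) (nat_lit 76) (nat_lit 5817705521) (nat_lit 81) (nat_lit 5) (nat_lit 86) (nat_lit 5) (nat_lit 82) (nat_lit 5) (nat_lit 482) (nat_lit 357) (nat_lit 301)) (XT.nd (nat_lit 78) (nat_lit 0) (nat_lit 0) (XT.lf (nat_lit 0) (nat_lit 3537121641) (nat_lit 228) (nat_lit 2240878859) (nat_lit 304) (nat_lit 6904811651) (nat_lit 78) (nat_lit 5) (nat_lit 81) (nat_lit 5) (nat_lit 82) (nat_lit 5) (nat_lit 483) (nat_lit 357) (nat_lit 300)) (XT.lf (nat_lit 0) (nat_lit 10117495946) (nat_lit 304) (nat_lit 412042661) (nat_lit 76) (nat_lit 2302776998) (nat_lit 78) (nat_lit 5) (nat_lit 82) (nat_lit 5) (nat_lit 79) (nat_lit 5) (nat_lit 484) (nat_lit 357) (nat_lit 299)))) (XT.nd (nat_lit 78) (nat_lit 456) (nat_lit 0)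 (XT.lf (nat_lit 0) (nat_lit 1569006933) (nat_lit 304) (nat_lit 4469332636) (nat_lit 76) (nat_lit 6945660888) (nat_lit 74) (nat_lit 5) (nat_lit 78) (nat_lit 5) (nat_lit 75) (nat_lit 5) (nat_lit 485) (nat_lit 357) (nat_lit 298)) (XT.nd (nat_lit 78) (nat_lit 228) (nat_lit 0) (XT.lf (nat_lit 0) (nat_lit 4459184289) (nat_lit 228) (nat_lit 1434914180) (nat_lit 304) (nat_lit 7244426157) (nat_lit 71) (nat_lit 5) (nat_lit 74) (nat_lit 5) (nat_lit 75) (nat_lit 5) (nat_lit 486) (nat_lit 357) (nat_lit 297)) (XT.lf (nat_lit 0) (nat_lit 244860726) (nat_lit 228) (nat_lit 10074109910) (nat_lit 304) (nat_lit 2976906322) (nat_lit 68) (nat_lit 5) (nat_lit 71) (nat_lit 5) (nat_lit 72) (nat_lit 5) (nat_lit 487) (nat_lit 357) (nat_lit 296))))))) (XT.nd (nat_lit 936) (nat_lit 988) (nat_lit 0) (XT.nd (nat_lit 468) (nat_lit 684) (nat_lit 0) (XT.nd (nat_lit 234) (nat_lit 456) (nat_lit 0) (XT.nd (nat_lit 78) (nat_lit 456) (nat_lit 0) (XT.lf (nat_lit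 0) (nat_lit 1386451968) (nat_lit 304) (nat_lit 4077214365) (nat_lit 76) (nat_lit 7991963777) (nat_lit 67) (nat_lit 5) (nat_lit 71) (nat_lit 5) (nat_lit 68) (nat_lit 5) (nat_lit 488) (nat_lit 357) (nat_lit 295)) (XT.nd (nat_lit 78) (nat_lit 228) (nat_lit 0) (XT.lf (nat_lit 0) (nat_lit 5055617682) (nat_lit 228) (nat_lit 735639742) (nat_lit 304) (nat_lit 7827049602) (nat_lit 64) (nat_lit 5) (nat_lit 67) (nat_lit 5) (nat_lit 68) (nat_lit 5) (nat_lit 489) (nat_lit 357) (nat_lit 294)) (XT.lf (nat_lit 0) (nat_lit 556074525) (nat_lit 228) (nat_lit 9747096929) (nat_lit 304) (nat_lit 3480688783) (nat_lit 61) (nat_lit 5) (nat_lit 64) (nat_lit 5) (nat_lit 65) (nat_lit 5) (nat_lit 490) (nat_lit 357) (nat_lit 293)))) (XT.nd (nat_lit 78) (nat_lit 380) (nat_lit 0) (XT.lf (nat_lit 0) (nat_lit 964211747) (nat_lit 304) (nat_lit 4056989222) (nat_lit 76) (nat_lit 8930920615) (nat_lit 60) (nat_lit 5) (nat_lit 64) (nat_lit 5) (nat_lit 61) (nat_lit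 5) (nat_lit 491) (nat_lit 357) (nat_lit 292)) (XT.nd (nat_lit 78) (nat_lit 228) (nat_lit 0) (XT.lf (nat_lit 0) (nat_lit 5277445883) (nat_lit 152) (nat_lit 170416756) (nat_lit 228) (nat_lit 8675499029) (nat_lit 58) (nat_lit 5) (nat_lit 60) (nat_lit 5) (nat_lit 61) (nat_lit 5) (nat_lit 492) (nat_lit 357) (nat_lit 291)) (XT.lf (nat_lit 0) (nat_lit 464901187) (nat_lit 228) (nat_lit 9580012303) (nat_lit 304) (nat_lit 4252641299) (nat_lit 55) (nat_lit 5) (nat_lit 58) (nat_lit 5) (nat_lit 59) (nat_lit 5) (nat_lit 493) (nat_lit 357) (nat_lit 290))))) (XT.nd (nat_lit 234) (nat_lit 456) (nat_lit 0) (XT.nd (nat_lit 78) (nat_lit 152) (nat_lit 0) (XT.lf (nat_lit 0) (nat_lit 278512131) (nat_lit 304) (nat_lit 4461549860) (nat_lit 76) (nat_lit 9734674241) (nat_lit 54) (nat_lit 5) (nat_lit 58) (nat_lit 5) (nat_lit 55) (nat_lit 5) (nat_lit 494) (nat_lit 357) (nat_lit 289)) (XT.nd (nat_lit 78) (nat_lit 0) (nat_lit 0) (XT.lf (nat_lit 0) (nat_lit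 4840906869) (nat_lit 228) (nat_lit 9586018197) (nat_lit 76) (nat_lit 228025432) (nat_lit 52) (nat_lit 5) (nat_lit 55) (nat_lit 5) (nat_lit 53) (nat_lit 5) (nat_lit 495) (nat_lit 357) (nat_lit 288)) (XT.lf (nat_lit 0) (nat_lit 9519290071) (nat_lit 228) (nat_lit 84235880) (nat_lit 76) (nat_lit 5234750854) (nat_lit 52) (nat_lit 5) (nat_lit 55) (nat_lit 5) (nat_lit 53) (nat_lit 5) (nat_lit 496) (nat_lit 357) (nat_lit 287)))) (XT.nd (nat_lit 78) (nat_lit 228) (nat_lit 0) (XT.lf (nat_lit 0) (nat_lit 9670711485) (nat_lit 228) (nat_lit 4647251270) (nat_lit 304) (nat_lit 706774961) (nat_lit 49) (nat_lit 5) (nat_lit 52) (nat_lit 5) (nat_lit 53) (nat_lit 5) (nat_lit 497) (nat_lit 357) (nat_lit 286)) (XT.nd (nat_lit 78) (nat_lit 0) (nat_lit 0) (XT.lf (nat_lit 0) (nat_lit 3941046419) (nat_lit 228) (nat_lit 10842753171) (nat_lit 76) (nat_lit 430695646) (nat_lit 46) (nat_lit 5) (nat_lit 49) (nat_lit 5) (nat_lit 47) (nat_lit 5) (nat_lit 498)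 (nat_lit 357) (nat_lit 285)) (XT.lf (nat_lit 0) (nat_lit 8703417646) (nat_lit 228) (nat_lit 1142306789) (nat_lit 76) (nat_lit 5561611264) (nat_lit 46) (nat_lit 5) (nat_lit 49) (nat_lit 5) (nat_lit 47) (nat_lit 5) (nat_lit 499) (nat_lit 357) (nat_lit 284)))))) (XT.nd (nat_lit 468) (nat_lit 152) (nat_lit 0) (XT.nd (nat_lit 234) (nat_lit 380) (nat_lit 0) (XT.nd (nat_lit 78) (nat_lit 228) (nat_lit 0) (XT.lf (nat_lit 0) (nat_lit 8804996905) (nat_lit 228) (nat_lit 4778016607) (nat_lit 304) (nat_lit 2020582238) (nat_lit 43) (nat_lit 5) (nat_lit 46) (nat_lit 5) (nat_lit 47) (nat_lit 5) (nat_lit 500) (nat_lit 357) (nat_lit 283)) (XT.nd (nat_lit 78) (nat_lit 0) (nat_lit 0) (XT.lf (nat_lit 0) (nat_lit 2715790937) (nat_lit 228) (nat_lit 12682799663) (nat_lit 76) (nat_lit 404924274) (nat_lit 40) (nat_lit 5) (nat_lit 43) (nat_lit 5) (nat_lit 41) (nat_lit 5) (nat_lit 501) (nat_lit 357) (nat_lit 282)) (XT.lf (nat_lit 0) (nat_lit 7562396659)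 (nat_lit 228) (nat_lit 2784070238) (nat_lit 76) (nat_lit 5659849337) (nat_lit 40) (nat_lit 5) (nat_lit 43) (nat_lit 5) (nat_lit 41) (nat_lit 5) (nat_lit 502) (nat_lit 357) (nat_lit 281)))) (XT.nd (nat_lit 78) (nat_lit 228) (nat_lit 0) (XT.lf (nat_lit 0) (nat_lit 7347431281) (nat_lit 152) (nat_lit 5171863083) (nat_lit 228) (nat_lit 3693614207) (nat_lit 38) (nat_lit 5) (nat_lit 40) (nat_lit 5) (nat_lit 41) (nat_lit 5) (nat_lit 503) (nat_lit 357) (nat_lit 280)) (XT.nd (nat_lit 78) (nat_lit 0) (nat_lit 0) (XT.lf (nat_lit 0) (nat_lit 1129914023) (nat_lit 228) (nat_lit 15181246611) (nat_lit 76) (nat_lit 112458203) (nat_lit 35) (nat_lit 5) (nat_lit 38) (nat_lit 5) (nat_lit 36) (nat_lit 5) (nat_lit 504) (nat_lit 357) (nat_lit 279)) (XT.lf (nat_lit 0) (nat_lit 6060440903) (nat_lit 228) (nat_lit 5085625299) (nat_lit 76) (nat_lit 5490791121) (nat_lit 35) (nat_lit 5) (nat_lit 38) (nat_lit 5) (nat_lit 36) (nat_lit 5) (nat_lit 505) (nat_lit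 357) (nat_lit 278))))) (XT.nd (nat_lit 53040) (nat_lit 0) (nat_lit 24472) (XT.nd (nat_lit 78) (nat_lit 0) (nat_lit 0) (XT.lf (nat_lit 0) (nat_lit 5219859317) (nat_lit 152) (nat_lit 5870082925) (nat_lit 228) (nat_lit 5764413043) (nat_lit 33) (nat_lit 5) (nat_lit 35) (nat_lit 5) (nat_lit 36) (nat_lit 5) (nat_lit 506) (nat_lit 357) (nat_lit 277)) (XT.nd (nat_lit 52884) (nat_lit 0) (nat_lit 27056) (XT.lf (nat_lit 0) (nat_lit 15740280182) (nat_lit 152) (nat_lit 480620891) (nat_lit 228) (nat_lit 855286726) (nat_lit 33) (nat_lit 5) (nat_lit 35) (nat_lit 5) (nat_lit 36) (nat_lit 5) (nat_lit 507) (nat_lit 357) (nat_lit 276)) (XT.lf (nat_lit 0) (nat_lit 3559480400) (nat_lit 912) (nat_lit 66949562) (nat_lit 912) (nat_lit 66949562) (nat_lit 389) (nat_lit 4) (nat_lit 401) (nat_lit 5) (nat_lit 401) (nat_lit 4) (nat_lit 424) (nat_lit 358) (nat_lit 358)))) (XT.nd (nat_lit 78) (nat_lit 1672) (nat_lit 0) (XT.lf (nat_lit 0) (nat_lit 3446074349)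 (nat_lit 912) (nat_lit 2054154014) (nat_lit 0) (nat_lit 1930429453) (nat_lit 377) (nat_lit 5) (nat_lit 389) (nat_lit 4) (nat_lit 377) (nat_lit 4) (nat_lit 425) (nat_lit 358) (nat_lit 357)) (XT.nd (nat_lit 78) (nat_lit 836) (nat_lit 0) (XT.lf (nat_lit 0) (nat_lit 3632796557) (nat_lit 836) (nat_lit 3422509846) (nat_lit 836) (nat_lit 420938582) (nat_lit 366) (nat_lit 4) (nat_lit 377) (nat_lit 5) (nat_lit 377) (nat_lit 4) (nat_lit 426) (nat_lit 358) (nat_lit 356)) (XT.lf (nat_lit 0) (nat_lit 1866997407) (nat_lit 760) (nat_lit 1264368547) (nat_lit 836) (nat_lit 4391786325) (nat_lit 355) (nat_lit 5) (nat_lit 365) (nat_lit 5) (nat_lit 366) (nat_lit 4) (nat_lit 427) (nat_lit 358) (nat_lit 355))))))))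
noncomputable def xc38 : XT := (XT.nd (nat_lit 1794) (nat_lit 7524) (nat_lit 0) (XT.nd (nat_lit 858) (nat_lit 5396) (nat_lit 0) (XT.nd (nat_lit 390) (nat_lit 2888) (nat_lit 0) (XT.nd (nat_lit 156) (nat_lit 2280) (nat_lit 0) (XT.nd (nat_lit 78) (nat_lit 76) (nat_lit 0) (XT.lf (nat_lit 0) (nat_lit 89232351) (nat_lit 760) (nat_lit 6626775952) (nat_lit 760) (nat_lit 855611386) (nat_lit 345) (nat_lit 4) (nat_lit 355) (nat_lit 5) (nat_lit 355) (nat_lit 4) (nat_lit 428) (nat_lit 358) (nat_lit 354)) (XT.lf (nat_lit 0) (nat_lit 2696433283) (nat_lit 836) (nat_lit 1697135613) (nat_lit 76) (nat_lit 3227521242) (nat_lit 344) (nat_lit 5) (nat_lit 355) (nat_lit 5) (nat_lit 345) (nat_lit 4) (nat_lit 429) (nat_lit 358) (nat_lit 353))) (XT.nd (nat_lit 78) (nat_lit 1520) (nat_lit 0) (XT.lf (nat_lit 0) (nat_lit 4177901298) (nat_lit 760) (nat_lit 2093228125) (nat_lit 836) (nat_lit 1401061361) (nat_lit 334) (nat_lit 5) (nat_lit 344) (nat_lit 5)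 (nat_lit 345) (nat_lit 4) (nat_lit 430) (nat_lit 358) (nat_lit 352)) (XT.nd (nat_lit 78) (nat_lit 684) (nat_lit 0) (XT.lf (nat_lit 0) (nat_lit 2129474443) (nat_lit 836) (nat_lit 5315363809) (nat_lit 76) (nat_lit 279900476) (nat_lit 323) (nat_lit 5) (nat_lit 334) (nat_lit 5) (nat_lit 324) (nat_lit 4) (nat_lit 431) (nat_lit 358) (nat_lit 351)) (XT.lf (nat_lit 0) (nat_lit 609187982) (nat_lit 684) (nat_lit 5081066480) (nat_lit 760) (nat_lit 2088344439) (nat_lit 314) (nat_lit 5) (nat_lit 323) (nat_lit 5) (nat_lit 324) (nat_lit 4) (nat_lit 432) (nat_lit 358) (nat_lit 350))))) (XT.nd (nat_lit 234) (nat_lit 1368) (nat_lit 0) (XT.nd (nat_lit 78) (nat_lit 1444) (nat_lit 0) (XT.lf (nat_lit 0) (nat_lit 1442367592) (nat_lit 760) (nat_lit 1194904841) (nat_lit 76) (nat_lit 5196620770) (nat_lit 313) (nat_lit 5) (nat_lit 323) (nat_lit 5) (nat_lit 314) (nat_lit 5) (nat_lit 433) (nat_lit 358) (nat_lit 349)) (XT.nd (nat_lit 78) (nat_lit 760) (nat_lit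 0) (XT.lf (nat_lit 0) (nat_lit 4874224884) (nat_lit 684) (nat_lit 111682255) (nat_lit 760) (nat_lit 2904720187) (nat_lit 304) (nat_lit 5) (nat_lit 313) (nat_lit 5) (nat_lit 314) (nat_lit 5) (nat_lit 434) (nat_lit 358) (nat_lit 348)) (XT.lf (nat_lit 0) (nat_lit 626363438) (nat_lit 760) (nat_lit 4871617917) (nat_lit 76) (nat_lit 2450781329) (nat_lit 294) (nat_lit 5) (nat_lit 304) (nat_lit 5) (nat_lit 295) (nat_lit 5) (nat_lit 435) (nat_lit 358) (nat_lit 347)))) (XT.nd (nat_lit 78) (nat_lit 684) (nat_lit 0) (XT.lf (nat_lit 0) (nat_lit 1246098073) (nat_lit 684) (nat_lit 2911749871) (nat_lit 760) (nat_lit 3850468091) (nat_lit 285) (nat_lit 5) (nat_lit 294) (nat_lit 5) (nat_lit 295) (nat_lit 5) (nat_lit 436) (nat_lit 358) (nat_lit 346)) (XT.nd (nat_lit 78) (nat_lit 684) (nat_lit 0) (XT.lf (nat_lit 0) (nat_lit 7476774350) (nat_lit 684) (nat_lit 256008033) (nat_lit 760) (nat_lit 336834171) (nat_lit 285) (nat_lit 5) (nat_lit 294) (nat_lit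 5) (nat_lit 295) (nat_lit 5) (nat_lit 437) (nat_lit 358) (nat_lit 345)) (XT.lf (nat_lit 0) (nat_lit 3198465430) (nat_lit 684) (nat_lit 2469819869) (nat_lit 76) (nat_lit 2463568585) (nat_lit 276) (nat_lit 5) (nat_lit 285) (nat_lit 5) (nat_lit 277) (nat_lit 5) (nat_lit 438) (nat_lit 358) (nat_lit 344)))))) (XT.nd (nat_lit 468) (nat_lit 2280) (nat_lit 0) (XT.nd (nat_lit 234) (nat_lit 1216) (nat_lit 0) (XT.nd (nat_lit 78) (nat_lit 1292) (nat_lit 0) (XT.lf (nat_lit 0) (nat_lit 3825675364) (nat_lit 608) (nat_lit 2946304616) (nat_lit 684) (nat_lit 1423882853) (nat_lit 268) (nat_lit 5) (nat_lit 276) (nat_lit 5) (nat_lit 277) (nat_lit 5) (nat_lit 439) (nat_lit 358) (nat_lit 343)) (XT.nd (nat_lit 78) (nat_lit 608) (nat_lit 0) (XT.lf (nat_lit 0) (nat_lit 1955657129) (nat_lit 608) (nat_lit 143005941) (nat_lit 684) (nat_lit 6162797798) (nat_lit 259) (nat_lit 5) (nat_lit 267) (nat_lit 5) (nat_lit 268) (nat_lit 5) (nat_lit 440) (nat_lit 358)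 (nat_lit 342)) (XT.lf (nat_lit 0) (nat_lit 36516072) (nat_lit 608) (nat_lit 5625773686) (nat_lit 684) (nat_lit 2666110062) (nat_lit 251) (nat_lit 5) (nat_lit 259) (nat_lit 5) (nat_lit 260) (nat_lit 5) (nat_lit 441) (nat_lit 358) (nat_lit 341)))) (XT.nd (nat_lit 78) (nat_lit 1140) (nat_lit 0) (XT.lf (nat_lit 0) (nat_lit 874779094) (nat_lit 684) (nat_lit 1888195198) (nat_lit 76) (nat_lit 5633875438) (nat_lit 250) (nat_lit 5) (nat_lit 259) (nat_lit 5) (nat_lit 251) (nat_lit 5) (nat_lit 442) (nat_lit 358) (nat_lit 340)) (XT.nd (nat_lit 78) (nat_lit 608) (nat_lit 0) (XT.lf (nat_lit 0) (nat_lit 4425637201) (nat_lit 608) (nat_lit 3856627577) (nat_lit 76) (nat_lit 184564858) (nat_lit 243) (nat_lit 5) (nat_lit 251) (nat_lit 5) (nat_lit 244) (nat_lit 5) (nat_lit 443) (nat_lit 358) (nat_lit 339)) (XT.lf (nat_lit 0) (nat_lit 2667347633) (nat_lit 608) (nat_lit 5372697363) (nat_lit 684) (nat_lit 498323752) (nat_lit 235) (nat_lit 5) (nat_lit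 243) (nat_lit 5) (nat_lit 244) (nat_lit 5) (nat_lit 444) (nat_lit 358) (nat_lit 338))))) (XT.nd (nat_lit 234) (nat_lit 1064) (nat_lit 0) (XT.nd (nat_lit 78) (nat_lit 608) (nat_lit 0) (XT.lf (nat_lit 0) (nat_lit 676014041) (nat_lit 532) (nat_lit 2373363988) (nat_lit 608) (nat_lit 5562069237) (nat_lit 227) (nat_lit 5) (nat_lit 234) (nat_lit 5) (nat_lit 235) (nat_lit 5) (nat_lit 445) (nat_lit 358) (nat_lit 337)) (XT.nd (nat_lit 78) (nat_lit 608) (nat_lit 0) (XT.lf (nat_lit 0) (nat_lit 6650344779) (nat_lit 608) (nat_lit 1335833689) (nat_lit 76) (nat_lit 699973005) (nat_lit 227) (nat_lit 5) (nat_lit 235) (nat_lit 5) (nat_lit 228) (nat_lit 5) (nat_lit 446) (nat_lit 358) (nat_lit 336)) (XT.lf (nat_lit 0) (nat_lit 1537043759) (nat_lit 608) (nat_lit 3396693340) (nat_lit 76) (nat_lit 3828488556) (nat_lit 219) (nat_lit 5) (nat_lit 227) (nat_lit 5) (nat_lit 220) (nat_lit 5) (nat_lit 447) (nat_lit 358) (nat_lit 335)))) (XT.nd (nat_lit 78)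 (nat_lit 608) (nat_lit 0) (XT.lf (nat_lit 0) (nat_lit 3334652346) (nat_lit 456) (nat_lit 1796300046) (nat_lit 532) (nat_lit 3709071691) (nat_lit 213) (nat_lit 5) (nat_lit 219) (nat_lit 5) (nat_lit 220) (nat_lit 5) (nat_lit 448) (nat_lit 358) (nat_lit 334)) (XT.nd (nat_lit 78) (nat_lit 76) (nat_lit 0) (XT.lf (nat_lit 0) (nat_lit 1259623995) (nat_lit 532) (nat_lit 7523948781) (nat_lit 608) (nat_lit 136077967) (nat_lit 206) (nat_lit 5) (nat_lit 213) (nat_lit 5) (nat_lit 214) (nat_lit 5) (nat_lit 449) (nat_lit 358) (nat_lit 333)) (XT.lf (nat_lit 0) (nat_lit 3458245413) (nat_lit 608) (nat_lit 876099458) (nat_lit 76) (nat_lit 4666160419) (nat_lit 205) (nat_lit 5) (nat_lit 213) (nat_lit 5) (nat_lit 206) (nat_lit 5) (nat_lit 450) (nat_lit 358) (nat_lit 332))))))) (XT.nd (nat_lit 936) (nat_lit 3344) (nat_lit 0) (XT.nd (nat_lit 468) (nat_lit 1824) (nat_lit 0) (XT.nd (nat_lit 234) (nat_lit 912) (nat_lit 0) (XT.nd (nat_lit 78) (nat_lit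 988) (nat_lit 0) (XT.lf (nat_lit 0) (nat_lit 6047810161) (nat_lit 456) (nat_lit 1061932417) (nat_lit 532) (nat_lit 1973482590) (nat_lit 199) (nat_lit 5) (nat_lit 205) (nat_lit 5) (nat_lit 206) (nat_lit 5) (nat_lit 451) (nat_lit 358) (nat_lit 331)) (XT.nd (nat_lit 78) (nat_lit 456) (nat_lit 0) (XT.lf (nat_lit 0) (nat_lit 1639133353) (nat_lit 532) (nat_lit 5261884034) (nat_lit 76) (nat_lit 2266487289) (nat_lit 192) (nat_lit 5) (nat_lit 199) (nat_lit 5) (nat_lit 193) (nat_lit 5) (nat_lit 452) (nat_lit 358) (nat_lit 330)) (XT.lf (nat_lit 0) (nat_lit 1700904988) (nat_lit 456) (nat_lit 3583706639) (nat_lit 532) (nat_lit 3968864484) (nat_lit 186) (nat_lit 5) (nat_lit 192) (nat_lit 5) (nat_lit 193) (nat_lit 5) (nat_lit 453) (nat_lit 358) (nat_lit 329)))) (XT.nd (nat_lit 78) (nat_lit 912) (nat_lit 0) (XT.lf (nat_lit 0) (nat_lit 8800041462) (nat_lit 456) (nat_lit 187227257) (nat_lit 532) (nat_lit 354220647) (nat_lit 186) (nat_lit 5)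 (nat_lit 192) (nat_lit 5) (nat_lit 193) (nat_lit 5) (nat_lit 454) (nat_lit 358) (nat_lit 328)) (XT.nd (nat_lit 78) (nat_lit 380) (nat_lit 0) (XT.lf (nat_lit 0) (nat_lit 3303043523) (nat_lit 532) (nat_lit 2851160980) (nat_lit 76) (nat_lit 3276352360) (nat_lit 179) (nat_lit 5) (nat_lit 186) (nat_lit 5) (nat_lit 180) (nat_lit 5) (nat_lit 455) (nat_lit 358) (nat_lit 327)) (XT.lf (nat_lit 0) (nat_lit 4307722433) (nat_lit 380) (nat_lit 2703843062) (nat_lit 456) (nat_lit 2510143605) (nat_lit 174) (nat_lit 5) (nat_lit 179) (nat_lit 5) (nat_lit 180) (nat_lit 5) (nat_lit 456) (nat_lit 358) (nat_lit 326))))) (XT.nd (nat_lit 234) (nat_lit 912) (nat_lit 0) (XT.nd (nat_lit 78) (nat_lit 380) (nat_lit 0) (XT.lf (nat_lit 0) (nat_lit 1151763024) (nat_lit 532) (nat_lit 7642015249) (nat_lit 76) (nat_lit 821006782) (nat_lit 167) (nat_lit 5) (nat_lit 174) (nat_lit 5) (nat_lit 168) (nat_lit 5) (nat_lit 457) (nat_lit 358) (nat_lit 325)) (XT.nd (nat_lit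 78) (nat_lit 380) (nat_lit 0) (XT.lf (nat_lit 0) (nat_lit 4856952599) (nat_lit 532) (nat_lit 444206764) (nat_lit 76) (nat_lit 4408165116) (nat_lit 167) (nat_lit 5) (nat_lit 174) (nat_lit 5) (nat_lit 168) (nat_lit 5) (nat_lit 458) (nat_lit 358) (nat_lit 324)) (XT.lf (nat_lit 0) (nat_lit 6915351067) (nat_lit 380) (nat_lit 1717262245) (nat_lit 456) (nat_lit 1173220805) (nat_lit 162) (nat_lit 5) (nat_lit 167) (nat_lit 5) (nat_lit 168) (nat_lit 5) (nat_lit 459) (nat_lit 358) (nat_lit 323)))) (XT.nd (nat_lit 78) (nat_lit 456) (nat_lit 0) (XT.lf (nat_lit 0) (nat_lit 2542227957) (nat_lit 456) (nat_lit 5424024816) (nat_lit 76) (nat_lit 1937761813) (nat_lit 156) (nat_lit 5) (nat_lit 162) (nat_lit 5) (nat_lit 157) (nat_lit 5) (nat_lit 460) (nat_lit 358) (nat_lit 322)) (XT.nd (nat_lit 78) (nat_lit 76) (nat_lit 0) (XT.lf (nat_lit 0) (nat_lit 1966405691) (nat_lit 380) (nat_lit 4345491990) (nat_lit 456) (nat_lit 3692199833) (nat_lit 151)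 (nat_lit 5) (nat_lit 156) (nat_lit 5) (nat_lit 157) (nat_lit 5) (nat_lit 461) (nat_lit 358) (nat_lit 321)) (XT.lf (nat_lit 0) (nat_lit 38841223) (nat_lit 456) (nat_lit 601411875) (nat_lit 76) (nat_lit 9466153971) (nat_lit 150) (nat_lit 5) (nat_lit 156) (nat_lit 5) (nat_lit 151) (nat_lit 5) (nat_lit 462) (nat_lit 358) (nat_lit 320)))))) (XT.nd (nat_lit 468) (nat_lit 1368) (nat_lit 0) (XT.nd (nat_lit 234) (nat_lit 760) (nat_lit 0) (XT.nd (nat_lit 78) (nat_lit 836) (nat_lit 0) (XT.lf (nat_lit 0) (nat_lit 3814128781) (nat_lit 456) (nat_lit 3252439458) (nat_lit 76) (nat_lit 3143331194) (nat_lit 145) (nat_lit 5) (nat_lit 151) (nat_lit 5) (nat_lit 146) (nat_lit 5) (nat_lit 463) (nat_lit 358) (nat_lit 319)) (XT.nd (nat_lit 78) (nat_lit 456) (nat_lit 0) (XT.lf (nat_lit 0) (nat_lit 4340528362) (nat_lit 380) (nat_lit 3314199488) (nat_lit 456) (nat_lit 2660943573) (nat_lit 140) (nat_lit 5) (nat_lit 145) (nat_lit 5) (nat_lit 146) (nat_lit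 5) (nat_lit 464) (nat_lit 358) (nat_lit 318)) (XT.lf (nat_lit 0) (nat_lit 1123071613) (nat_lit 456) (nat_lit 8779352060) (nat_lit 76) (nat_lit 521200587) (nat_lit 134) (nat_lit 5) (nat_lit 140) (nat_lit 5) (nat_lit 135) (nat_lit 5) (nat_lit 465) (nat_lit 358) (nat_lit 317)))) (XT.nd (nat_lit 78) (nat_lit 760) (nat_lit 0) (XT.lf (nat_lit 0) (nat_lit 4963214390) (nat_lit 456) (nat_lit 1148541320) (nat_lit 76) (nat_lit 4421312675) (nat_lit 134) (nat_lit 5) (nat_lit 140) (nat_lit 5) (nat_lit 135) (nat_lit 5) (nat_lit 466) (nat_lit 358) (nat_lit 316)) (XT.nd (nat_lit 78) (nat_lit 456) (nat_lit 0) (XT.lf (nat_lit 0) (nat_lit 6650697518) (nat_lit 304) (nat_lit 2227284206) (nat_lit 380) (nat_lit 1766768679) (nat_lit 130) (nat_lit 5) (nat_lit 134) (nat_lit 5) (nat_lit 135) (nat_lit 5) (nat_lit 467) (nat_lit 358) (nat_lit 315)) (XT.lf (nat_lit 0) (nat_lit 2083452347) (nat_lit 456) (nat_lit 6942183936) (nat_lit 76) (nat_lit 1732785146)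 (nat_lit 124) (nat_lit 5) (nat_lit 130) (nat_lit 5) (nat_lit 125) (nat_lit 5) (nat_lit 468) (nat_lit 358) (nat_lit 314))))) (XT.nd (nat_lit 234) (nat_lit 684) (nat_lit 0) (XT.nd (nat_lit 78) (nat_lit 380) (nat_lit 0) (XT.lf (nat_lit 0) (nat_lit 876096537) (nat_lit 304) (nat_lit 5113386244) (nat_lit 380) (nat_lit 4884605419) (nat_lit 120) (nat_lit 5) (nat_lit 124) (nat_lit 5) (nat_lit 125) (nat_lit 5) (nat_lit 469) (nat_lit 358) (nat_lit 313)) (XT.nd (nat_lit 78) (nat_lit 380) (nat_lit 0) (XT.lf (nat_lit 0) (nat_lit 8873508449) (nat_lit 304) (nat_lit 1102151624) (nat_lit 380) (nat_lit 1016372738) (nat_lit 120) (nat_lit 5) (nat_lit 124) (nat_lit 5) (nat_lit 125) (nat_lit 5) (nat_lit 470) (nat_lit 358) (nat_lit 312)) (XT.lf (nat_lit 0) (nat_lit 2904792075) (nat_lit 380) (nat_lit 5225239386) (nat_lit 76) (nat_lit 2981649623) (nat_lit 115) (nat_lit 5) (nat_lit 120) (nat_lit 5) (nat_lit 116) (nat_lit 5) (nat_lit 471) (nat_lit 358)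 (nat_lit 311)))) (XT.nd (nat_lit 78) (nat_lit 380) (nat_lit 0) (XT.lf (nat_lit 0) (nat_lit 2798598225) (nat_lit 304) (nat_lit 4088220916) (nat_lit 380) (nat_lit 4346852591) (nat_lit 111) (nat_lit 5) (nat_lit 115) (nat_lit 5) (nat_lit 116) (nat_lit 5) (nat_lit 472) (nat_lit 358) (nat_lit 310)) (XT.nd (nat_lit 78) (nat_lit 380) (nat_lit 0) (XT.lf (nat_lit 0) (nat_lit 10940488362) (nat_lit 380) (nat_lit 375113476) (nat_lit 76) (nat_lit 42664971) (nat_lit 111) (nat_lit 5) (nat_lit 116) (nat_lit 5) (nat_lit 112) (nat_lit 5) (nat_lit 473) (nat_lit 358) (nat_lit 309)) (XT.lf (nat_lit 0) (nat_lit 3578417230) (nat_lit 380) (nat_lit 3655843082) (nat_lit 76) (nat_lit 4249919345) (nat_lit 106) (nat_lit 5) (nat_lit 111) (nat_lit 5) (nat_lit 107) (nat_lit 5) (nat_lit 474) (nat_lit 358) (nat_lit 308))))))))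
noncomputable def xc39 : XT := (XT.nd (nat_lit 1794) (nat_lit 1216) (nat_lit 0) (XT.nd (nat_lit 858) (nat_lit 1900) (nat_lit 0) (XT.nd (nat_lit 390) (nat_lit 1140) (nat_lit 0) (XT.nd (nat_lit 156) (nat_lit 608) (nat_lit 0) (XT.nd (nat_lit 78) (nat_lit 380) (nat_lit 0) (XT.lf (nat_lit 0) (nat_lit 4575891350) (nat_lit 304) (nat_lit 3062738543) (nat_lit 380) (nat_lit 3974136276) (nat_lit 102) (nat_lit 5) (nat_lit 106) (nat_lit 5) (nat_lit 107) (nat_lit 5) (nat_lit 475) (nat_lit 358) (nat_lit 307)) (XT.lf (nat_lit 0) (nat_lit 33612430) (nat_lit 380) (nat_lit 10527688205) (nat_lit 76) (nat_lit 1182664017) (nat_lit 97) (nat_lit 5) (nat_lit 102) (nat_lit 5) (nat_lit 98) (nat_lit 5) (nat_lit 476) (nat_lit 358) (nat_lit 306))) (XT.nd (nat_lit 78) (nat_lit 608) (nat_lit 0) (XT.lf (nat_lit 0) (nat_lit 4093913637) (nat_lit 380) (nat_lit 2263917549) (nat_lit 76) (nat_lit 5518922441) (nat_lit 97) (nat_lit 5) (nat_lit 102) (nat_lit 5) (nat_lit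 98) (nat_lit 5) (nat_lit 477) (nat_lit 358) (nat_lit 305)) (XT.nd (nat_lit 78) (nat_lit 380) (nat_lit 0) (XT.lf (nat_lit 0) (nat_lit 6177482853) (nat_lit 228) (nat_lit 2056619443) (nat_lit 304) (nat_lit 3778126502) (nat_lit 94) (nat_lit 5) (nat_lit 97) (nat_lit 5) (nat_lit 98) (nat_lit 5) (nat_lit 478) (nat_lit 358) (nat_lit 304)) (XT.lf (nat_lit 0) (nat_lit 308888264) (nat_lit 380) (nat_lit 9533787575) (nat_lit 76) (nat_lit 2307577113) (nat_lit 89) (nat_lit 5) (nat_lit 94) (nat_lit 5) (nat_lit 90) (nat_lit 5) (nat_lit 479) (nat_lit 358) (nat_lit 303))))) (XT.nd (nat_lit 234) (nat_lit 532) (nat_lit 0) (XT.nd (nat_lit 78) (nat_lit 608) (nat_lit 0) (XT.lf (nat_lit 0) (nat_lit 4438991083) (nat_lit 380) (nat_lit 1082321149) (nat_lit 76) (nat_lit 6768990966) (nat_lit 89) (nat_lit 5) (nat_lit 94) (nat_lit 5) (nat_lit 90) (nat_lit 5) (nat_lit 480) (nat_lit 358) (nat_lit 302)) (XT.nd (nat_lit 78) (nat_lit 380) (nat_lit 0) (XT.lf (nat_lit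 0) (nat_lit 7569847569) (nat_lit 228) (nat_lit 1090659672) (nat_lit 304) (nat_lit 3772474717) (nat_lit 86) (nat_lit 5) (nat_lit 89) (nat_lit 5) (nat_lit 90) (nat_lit 5) (nat_lit 481) (nat_lit 358) (nat_lit 301)) (XT.lf (nat_lit 0) (nat_lit 396967421) (nat_lit 380) (nat_lit 8789865740) (nat_lit 76) (nat_lit 3391352032) (nat_lit 81) (nat_lit 5) (nat_lit 86) (nat_lit 5) (nat_lit 82) (nat_lit 5) (nat_lit 482) (nat_lit 358) (nat_lit 300)))) (XT.nd (nat_lit 78) (nat_lit 532) (nat_lit 0) (XT.lf (nat_lit 0) (nat_lit 4599329628) (nat_lit 380) (nat_lit 147217812) (nat_lit 76) (nat_lit 7979248959) (nat_lit 81) (nat_lit 5) (nat_lit 86) (nat_lit 5) (nat_lit 82) (nat_lit 5) (nat_lit 483) (nat_lit 358) (nat_lit 299)) (XT.nd (nat_lit 78) (nat_lit 304) (nat_lit 0) (XT.lf (nat_lit 0) (nat_lit 8716047433) (nat_lit 228) (nat_lit 186992027) (nat_lit 304) (nat_lit 3972977815) (nat_lit 78) (nat_lit 5) (nat_lit 81) (nat_lit 5) (nat_lit 82) (nat_lit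 5) (nat_lit 484) (nat_lit 358) (nat_lit 298)) (XT.lf (nat_lit 0) (nat_lit 281597412) (nat_lit 304) (nat_lit 8335446953) (nat_lit 76) (nat_lit 4411737827) (nat_lit 74) (nat_lit 5) (nat_lit 78) (nat_lit 5) (nat_lit 75) (nat_lit 5) (nat_lit 485) (nat_lit 358) (nat_lit 297)))))) (XT.nd (nat_lit 468) (nat_lit 912) (nat_lit 0) (XT.nd (nat_lit 234) (nat_lit 532) (nat_lit 0) (XT.nd (nat_lit 78) (nat_lit 228) (nat_lit 0) (XT.lf (nat_lit 0) (nat_lit 508182754) (nat_lit 228) (nat_lit 4053522742) (nat_lit 304) (nat_lit 8622502147) (nat_lit 71) (nat_lit 5) (nat_lit 74) (nat_lit 5) (nat_lit 75) (nat_lit 5) (nat_lit 486) (nat_lit 358) (nat_lit 296)) (XT.nd (nat_lit 78) (nat_lit 228) (nat_lit 0) (XT.lf (nat_lit 0) (nat_lit 8948732074) (nat_lit 304) (nat_lit 3771181057) (nat_lit 76) (nat_lit 622405335) (nat_lit 71) (nat_lit 5) (nat_lit 75) (nat_lit 5) (nat_lit 72) (nat_lit 5) (nat_lit 487) (nat_lit 358) (nat_lit 295)) (XT.lf (nat_lit 0) (nat_lit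 5288631264) (nat_lit 228) (nat_lit 8157919176) (nat_lit 304) (nat_lit 56583166) (nat_lit 68) (nat_lit 5) (nat_lit 71) (nat_lit 5) (nat_lit 72) (nat_lit 5) (nat_lit 488) (nat_lit 358) (nat_lit 294)))) (XT.nd (nat_lit 78) (nat_lit 228) (nat_lit 0) (XT.lf (nat_lit 0) (nat_lit 830751488) (nat_lit 228) (nat_lit 3471940825) (nat_lit 304) (nat_lit 9364052487) (nat_lit 64) (nat_lit 5) (nat_lit 67) (nat_lit 5) (nat_lit 68) (nat_lit 5) (nat_lit 489) (nat_lit 358) (nat_lit 293)) (XT.nd (nat_lit 78) (nat_lit 228) (nat_lit 0) (XT.lf (nat_lit 0) (nat_lit 8774459642) (nat_lit 304) (nat_lit 3739364776) (nat_lit 76) (nat_lit 1319277986) (nat_lit 64) (nat_lit 5) (nat_lit 68) (nat_lit 5) (nat_lit 65) (nat_lit 5) (nat_lit 490) (nat_lit 358) (nat_lit 292)) (XT.lf (nat_lit 0) (nat_lit 5524075567) (nat_lit 228) (nat_lit 7833272916) (nat_lit 304) (nat_lit 645007843) (nat_lit 61) (nat_lit 5) (nat_lit 64) (nat_lit 5) (nat_lit 65) (nat_lit 5) (nat_lit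 491) (nat_lit 358) (nat_lit 291))))) (XT.nd (nat_lit 234) (nat_lit 456) (nat_lit 0) (XT.nd (nat_lit 78) (nat_lit 228) (nat_lit 0) (XT.lf (nat_lit 0) (nat_lit 769211861) (nat_lit 152) (nat_lit 3030250171) (nat_lit 228) (nat_lit 10375172316) (nat_lit 58) (nat_lit 5) (nat_lit 60) (nat_lit 5) (nat_lit 61) (nat_lit 5) (nat_lit 492) (nat_lit 358) (nat_lit 290)) (XT.nd (nat_lit 78) (nat_lit 228) (nat_lit 0) (XT.lf (nat_lit 0) (nat_lit 8356622158) (nat_lit 228) (nat_lit 4114205811) (nat_lit 76) (nat_lit 1878798665) (nat_lit 58) (nat_lit 5) (nat_lit 61) (nat_lit 5) (nat_lit 59) (nat_lit 5) (nat_lit 493) (nat_lit 358) (nat_lit 289)) (XT.lf (nat_lit 0) (nat_lit 5349412731) (nat_lit 228) (nat_lit 7674062791) (nat_lit 304) (nat_lit 1504274910) (nat_lit 55) (nat_lit 5) (nat_lit 58) (nat_lit 5) (nat_lit 59) (nat_lit 5) (nat_lit 494) (nat_lit 358) (nat_lit 288)))) (XT.nd (nat_lit 78) (nat_lit 228) (nat_lit 0) (XT.lf (nat_lit 0) (nat_lit 268994640)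 (nat_lit 152) (nat_lit 2758264041) (nat_lit 228) (nat_lit 11681914422) (nat_lit 52) (nat_lit 5) (nat_lit 54) (nat_lit 5) (nat_lit 55) (nat_lit 5) (nat_lit 495) (nat_lit 358) (nat_lit 287)) (XT.nd (nat_lit 78) (nat_lit 228) (nat_lit 0) (XT.lf (nat_lit 0) (nat_lit 7669878525) (nat_lit 228) (nat_lit 4952024161) (nat_lit 76) (nat_lit 2271313235) (nat_lit 52) (nat_lit 5) (nat_lit 55) (nat_lit 5) (nat_lit 53) (nat_lit 5) (nat_lit 496) (nat_lit 358) (nat_lit 286)) (XT.lf (nat_lit 0) (nat_lit 4706903841) (nat_lit 228) (nat_lit 7711914253) (nat_lit 304) (nat_lit 2661854621) (nat_lit 49) (nat_lit 5) (nat_lit 52) (nat_lit 5) (nat_lit 53) (nat_lit 5) (nat_lit 497) (nat_lit 358) (nat_lit 285))))))) (XT.nd (nat_lit 53586) (nat_lit 0) (nat_lit 19836) (XT.nd (nat_lit 468) (nat_lit 380) (nat_lit 0) (XT.nd (nat_lit 234) (nat_lit 380) (nat_lit 0) (XT.nd (nat_lit 78) (nat_lit 380) (nat_lit 0) (XT.lf (nat_lit 0) (nat_lit 1962894315) (nat_lit 304)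 (nat_lit 720738956) (nat_lit 76) (nat_lit 12588026285) (nat_lit 48) (nat_lit 5) (nat_lit 52) (nat_lit 5) (nat_lit 49) (nat_lit 5) (nat_lit 498) (nat_lit 358) (nat_lit 284)) (XT.nd (nat_lit 78) (nat_lit 228) (nat_lit 0) (XT.lf (nat_lit 0) (nat_lit 6685647388) (nat_lit 228) (nat_lit 6315175190) (nat_lit 76) (nat_lit 2464470954) (nat_lit 46) (nat_lit 5) (nat_lit 49) (nat_lit 5) (nat_lit 47) (nat_lit 5) (nat_lit 499) (nat_lit 358) (nat_lit 283)) (XT.lf (nat_lit 0) (nat_lit 3532582475) (nat_lit 228) (nat_lit 7981349236) (nat_lit 304) (nat_lit 4148649231) (nat_lit 43) (nat_lit 5) (nat_lit 46) (nat_lit 5) (nat_lit 47) (nat_lit 5) (nat_lit 500) (nat_lit 358) (nat_lit 282)))) (XT.nd (nat_lit 78) (nat_lit 304) (nat_lit 0) (XT.lf (nat_lit 0) (nat_lit 575636574) (nat_lit 304) (nat_lit 2265539816) (nat_lit 76) (nat_lit 13022401042) (nat_lit 42) (nat_lit 5) (nat_lit 46) (nat_lit 5) (nat_lit 43) (nat_lit 5) (nat_lit 501) (nat_lit 358) (nat_lit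 281)) (XT.nd (nat_lit 78) (nat_lit 152) (nat_lit 0) (XT.lf (nat_lit 0) (nat_lit 5371789678) (nat_lit 228) (nat_lit 8272726153) (nat_lit 76) (nat_lit 2422873076) (nat_lit 40) (nat_lit 5) (nat_lit 43) (nat_lit 5) (nat_lit 41) (nat_lit 5) (nat_lit 502) (nat_lit 358) (nat_lit 280)) (XT.lf (nat_lit 0) (nat_lit 1755556623) (nat_lit 152) (nat_lit 8520155738) (nat_lit 228) (nat_lit 5999329426) (nat_lit 38) (nat_lit 5) (nat_lit 40) (nat_lit 5) (nat_lit 41) (nat_lit 5) (nat_lit 503) (nat_lit 358) (nat_lit 279))))) (XT.nd (nat_lit 234) (nat_lit 152) (nat_lit 0) (XT.nd (nat_lit 78) (nat_lit 228) (nat_lit 0) (XT.lf (nat_lit 0) (nat_lit 12036582918) (nat_lit 152) (nat_lit 3263244731) (nat_lit 228) (nat_lit 1186579854) (nat_lit 38) (nat_lit 5) (nat_lit 40) (nat_lit 5) (nat_lit 41) (nat_lit 5) (nat_lit 504) (nat_lit 358) (nat_lit 278)) (XT.nd (nat_lit 78) (nat_lit 0) (nat_lit 0) (XT.lf (nat_lit 0) (nat_lit 3692255587) (nat_lit 228) (nat_lit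 10901201733) (nat_lit 76) (nat_lit 2107688807) (nat_lit 35) (nat_lit 5) (nat_lit 38) (nat_lit 5) (nat_lit 36) (nat_lit 5) (nat_lit 505) (nat_lit 358) (nat_lit 277)) (XT.lf (nat_lit 0) (nat_lit 8671594118) (nat_lit 228) (nat_lit 693543873) (nat_lit 76) (nat_lit 7554510316) (nat_lit 35) (nat_lit 5) (nat_lit 38) (nat_lit 5) (nat_lit 36) (nat_lit 5) (nat_lit 506) (nat_lit 358) (nat_lit 276)))) (XT.nd (nat_lit 52728) (nat_lit 0) (nat_lit 27056) (XT.lf (nat_lit 0) (nat_lit 9788486002) (nat_lit 152) (nat_lit 3993361781) (nat_lit 228) (nat_lit 3360048086) (nat_lit 33) (nat_lit 5) (nat_lit 35) (nat_lit 5) (nat_lit 36) (nat_lit 5) (nat_lit 507) (nat_lit 358) (nat_lit 275)) (XT.nd (nat_lit 78) (nat_lit 912) (nat_lit 0) (XT.lf (nat_lit 0) (nat_lit 829250132) (nat_lit 988) (nat_lit 1992299486) (nat_lit 0) (nat_lit 829250132) (nat_lit 401) (nat_lit 5) (nat_lit 414) (nat_lit 4) (nat_lit 401) (nat_lit 4) (nat_lit 422) (nat_lit 359) (nat_lit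 359)) (XT.lf (nat_lit 0) (nat_lit 1503784644) (nat_lit 912) (nat_lit 3708387222) (nat_lit 912) (nat_lit 2131510273) (nat_lit 389) (nat_lit 4) (nat_lit 401) (nat_lit 5) (nat_lit 401) (nat_lit 4) (nat_lit 423) (nat_lit 359) (nat_lit 358)))))) (XT.nd (nat_lit 468) (nat_lit 3800) (nat_lit 0) (XT.nd (nat_lit 234) (nat_lit 1596) (nat_lit 0) (XT.nd (nat_lit 78) (nat_lit 1748) (nat_lit 0) (XT.lf (nat_lit 0) (nat_lit 1390570251) (nat_lit 988) (nat_lit 313882834) (nat_lit 76) (nat_lit 5682796913) (nat_lit 388) (nat_lit 5) (nat_lit 401) (nat_lit 5) (nat_lit 389) (nat_lit 4) (nat_lit 424) (nat_lit 359) (nat_lit 357)) (XT.nd (nat_lit 78) (nat_lit 912) (nat_lit 0) (XT.lf (nat_lit 0) (nat_lit 4925200243) (nat_lit 912) (nat_lit 2129140196) (nat_lit 0) (nat_lit 377671185) (nat_lit 377) (nat_lit 5) (nat_lit 389) (nat_lit 4) (nat_lit 377) (nat_lit 4) (nat_lit 425) (nat_lit 359) (nat_lit 356)) (XT.lf (nat_lit 0) (nat_lit 1009575920) (nat_lit 912)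 (nat_lit 3964976255) (nat_lit 76) (nat_lit 2503585493) (nat_lit 365) (nat_lit 5) (nat_lit 377) (nat_lit 5) (nat_lit 366) (nat_lit 4) (nat_lit 426) (nat_lit 359) (nat_lit 355)))) (XT.nd (nat_lit 78) (nat_lit 836) (nat_lit 0) (XT.lf (nat_lit 0) (nat_lit 1704007704) (nat_lit 760) (nat_lit 2819038511) (nat_lit 836) (nat_lit 3002618369) (nat_lit 355) (nat_lit 5) (nat_lit 365) (nat_lit 5) (nat_lit 366) (nat_lit 4) (nat_lit 427) (nat_lit 359) (nat_lit 354)) (XT.nd (nat_lit 78) (nat_lit 760) (nat_lit 0) (XT.lf (nat_lit 0) (nat_lit 487644672) (nat_lit 836) (nat_lit 111431399) (nat_lit 76) (nat_lit 6975772621) (nat_lit 354) (nat_lit 5) (nat_lit 365) (nat_lit 5) (nat_lit 355) (nat_lit 5) (nat_lit 428) (nat_lit 359) (nat_lit 353)) (XT.lf (nat_lit 0) (nat_lit 3992122862) (nat_lit 836) (nat_lit 1941336851) (nat_lit 76) (nat_lit 1691482770) (nat_lit 344) (nat_lit 5) (nat_lit 355) (nat_lit 5) (nat_lit 345) (nat_lit 4) (nat_lit 429) (nat_lit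 359) (nat_lit 352))))) (XT.nd (nat_lit 234) (nat_lit 1520) (nat_lit 0) (XT.nd (nat_lit 78) (nat_lit 1520) (nat_lit 0) (XT.lf (nat_lit 0) (nat_lit 3893546962) (nat_lit 760) (nat_lit 3640330308) (nat_lit 836) (nat_lit 142832095) (nat_lit 334) (nat_lit 5) (nat_lit 344) (nat_lit 5) (nat_lit 345) (nat_lit 4) (nat_lit 430) (nat_lit 359) (nat_lit 351)) (XT.nd (nat_lit 78) (nat_lit 684) (nat_lit 0) (XT.lf (nat_lit 0) (nat_lit 2073174780) (nat_lit 760) (nat_lit 1263059207) (nat_lit 836) (nat_lit 4393566404) (nat_lit 323) (nat_lit 5) (nat_lit 333) (nat_lit 5) (nat_lit 334) (nat_lit 5) (nat_lit 431) (nat_lit 359) (nat_lit 350)) (XT.lf (nat_lit 0) (nat_lit 234267641) (nat_lit 684) (nat_lit 6621512930) (nat_lit 760) (nat_lit 928711636) (nat_lit 314) (nat_lit 5) (nat_lit 323) (nat_lit 5) (nat_lit 324) (nat_lit 4) (nat_lit 432) (nat_lit 359) (nat_lit 349)))) (XT.nd (nat_lit 78) (nat_lit 1444) (nat_lit 0) (XT.lf (nat_lit 0) (nat_lit 2556347725)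 (nat_lit 760) (nat_lit 1620357848) (nat_lit 76) (nat_lit 3663545933) (nat_lit 313) (nat_lit 5) (nat_lit 323) (nat_lit 5) (nat_lit 314) (nat_lit 5) (nat_lit 433) (nat_lit 359) (nat_lit 348)) (XT.nd (nat_lit 78) (nat_lit 760) (nat_lit 0) (XT.lf (nat_lit 0) (nat_lit 4406251722) (nat_lit 684) (nat_lit 1660750218) (nat_lit 760) (nat_lit 1830647965) (nat_lit 304) (nat_lit 5) (nat_lit 313) (nat_lit 5) (nat_lit 314) (nat_lit 5) (nat_lit 434) (nat_lit 359) (nat_lit 347)) (XT.lf (nat_lit 0) (nat_lit 1643161232) (nat_lit 760) (nat_lit 5394495426) (nat_lit 76) (nat_lit 918859205) (nat_lit 294) (nat_lit 5) (nat_lit 304) (nat_lit 5) (nat_lit 295) (nat_lit 5) (nat_lit 435) (nat_lit 359) (nat_lit 346))))))))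
noncomputable def xc40 : XT := (XT.nd (nat_lit 1794) (nat_lit 6156) (nat_lit 0) (XT.nd (nat_lit 858) (nat_lit 4560) (nat_lit 0) (XT.nd (nat_lit 390) (nat_lit 2432) (nat_lit 0) (XT.nd (nat_lit 156) (nat_lit 1900) (nat_lit 0) (XT.nd (nat_lit 78) (nat_lit 76) (nat_lit 0) (XT.lf (nat_lit 0) (nat_lit 678930165) (nat_lit 684) (nat_lit 4462636540) (nat_lit 760) (nat_lit 2875170280) (nat_lit 285) (nat_lit 5) (nat_lit 294) (nat_lit 5) (nat_lit 295) (nat_lit 5) (nat_lit 436) (nat_lit 359) (nat_lit 345)) (XT.lf (nat_lit 0) (nat_lit 600833756) (nat_lit 760) (nat_lit 1209580587) (nat_lit 76) (nat_lit 6268131332) (nat_lit 284) (nat_lit 5) (nat_lit 294) (nat_lit 5) (nat_lit 285) (nat_lit 5) (nat_lit 437) (nat_lit 359) (nat_lit 344))) (XT.nd (nat_lit 78) (nat_lit 1292) (nat_lit 0) (XT.lf (nat_lit 0) (nat_lit 4088566884) (nat_lit 684) (nat_lit 3133126604) (nat_lit 76) (nat_lit 919914590) (nat_lit 276) (nat_lit 5) (nat_lit 285) (nat_lit 5) (nat_lit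 277) (nat_lit 5) (nat_lit 438) (nat_lit 359) (nat_lit 343)) (XT.nd (nat_lit 78) (nat_lit 684) (nat_lit 0) (XT.lf (nat_lit 0) (nat_lit 3116504878) (nat_lit 608) (nat_lit 4512567996) (nat_lit 684) (nat_lit 577210044) (nat_lit 268) (nat_lit 5) (nat_lit 276) (nat_lit 5) (nat_lit 277) (nat_lit 5) (nat_lit 439) (nat_lit 359) (nat_lit 342)) (XT.lf (nat_lit 0) (nat_lit 1183742032) (nat_lit 608) (nat_lit 1717203242) (nat_lit 684) (nat_lit 5371496960) (nat_lit 259) (nat_lit 5) (nat_lit 267) (nat_lit 5) (nat_lit 268) (nat_lit 5) (nat_lit 440) (nat_lit 359) (nat_lit 341))))) (XT.nd (nat_lit 234) (nat_lit 1216) (nat_lit 0) (XT.nd (nat_lit 78) (nat_lit 1216) (nat_lit 0) (XT.lf (nat_lit 0) (nat_lit 6426102035) (nat_lit 684) (nat_lit 773609967) (nat_lit 76) (nat_lit 1140443973) (nat_lit 259) (nat_lit 5) (nat_lit 268) (nat_lit 5) (nat_lit 260) (nat_lit 5) (nat_lit 441) (nat_lit 359) (nat_lit 340)) (XT.nd (nat_lit 78) (nat_lit 532) (nat_lit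 0) (XT.lf (nat_lit 0) (nat_lit 1583958637) (nat_lit 684) (nat_lit 2762413180) (nat_lit 76) (nat_lit 4062801856) (nat_lit 250) (nat_lit 5) (nat_lit 259) (nat_lit 5) (nat_lit 251) (nat_lit 5) (nat_lit 442) (nat_lit 359) (nat_lit 339)) (XT.lf (nat_lit 0) (nat_lit 3688744826) (nat_lit 532) (nat_lit 1411523802) (nat_lit 608) (nat_lit 3379580992) (nat_lit 243) (nat_lit 5) (nat_lit 250) (nat_lit 5) (nat_lit 251) (nat_lit 5) (nat_lit 443) (nat_lit 359) (nat_lit 338)))) (XT.nd (nat_lit 78) (nat_lit 532) (nat_lit 0) (XT.lf (nat_lit 0) (nat_lit 118265411) (nat_lit 684) (nat_lit 6860396213) (nat_lit 76) (nat_lit 1573568404) (nat_lit 234) (nat_lit 5) (nat_lit 243) (nat_lit 5) (nat_lit 235) (nat_lit 5) (nat_lit 444) (nat_lit 359) (nat_lit 337)) (XT.nd (nat_lit 78) (nat_lit 532) (nat_lit 0) (XT.lf (nat_lit 0) (nat_lit 3628054621) (nat_lit 684) (nat_lit 362208937) (nat_lit 76) (nat_lit 4635612602) (nat_lit 234) (nat_lit 5) (nat_lit 243) (nat_lit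 5) (nat_lit 235) (nat_lit 5) (nat_lit 445) (nat_lit 359) (nat_lit 336)) (XT.lf (nat_lit 0) (nat_lit 6275473789) (nat_lit 532) (nat_lit 919863867) (nat_lit 608) (nat_lit 1505921078) (nat_lit 227) (nat_lit 5) (nat_lit 234) (nat_lit 5) (nat_lit 235) (nat_lit 5) (nat_lit 446) (nat_lit 359) (nat_lit 335)))))) (XT.nd (nat_lit 468) (nat_lit 1900) (nat_lit 0) (XT.nd (nat_lit 234) (nat_lit 1520) (nat_lit 0) (XT.nd (nat_lit 78) (nat_lit 532) (nat_lit 0) (XT.lf (nat_lit 0) (nat_lit 2020136201) (nat_lit 608) (nat_lit 4550895651) (nat_lit 76) (nat_lit 2207033640) (nat_lit 219) (nat_lit 5) (nat_lit 227) (nat_lit 5) (nat_lit 220) (nat_lit 5) (nat_lit 447) (nat_lit 359) (nat_lit 334)) (XT.nd (nat_lit 78) (nat_lit 76) (nat_lit 0) (XT.lf (nat_lit 0) (nat_lit 2128260356) (nat_lit 456) (nat_lit 3451821348) (nat_lit 532) (nat_lit 3276465902) (nat_lit 213) (nat_lit 5) (nat_lit 219) (nat_lit 5) (nat_lit 220) (nat_lit 5) (nat_lit 448) (nat_lit 359)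 (nat_lit 333)) (XT.lf (nat_lit 0) (nat_lit 249189303) (nat_lit 532) (nat_lit 8972429) (nat_lit 76) (nat_lit 8678847267) (nat_lit 212) (nat_lit 5) (nat_lit 219) (nat_lit 5) (nat_lit 213) (nat_lit 5) (nat_lit 449) (nat_lit 359) (nat_lit 332)))) (XT.nd (nat_lit 78) (nat_lit 988) (nat_lit 0) (XT.lf (nat_lit 0) (nat_lit 3814171282) (nat_lit 608) (nat_lit 2198071200) (nat_lit 76) (nat_lit 3006158695) (nat_lit 205) (nat_lit 5) (nat_lit 213) (nat_lit 5) (nat_lit 206) (nat_lit 5) (nat_lit 450) (nat_lit 359) (nat_lit 331)) (XT.nd (nat_lit 78) (nat_lit 532) (nat_lit 0) (XT.lf (nat_lit 0) (nat_lit 4671821810) (nat_lit 456) (nat_lit 2759597968) (nat_lit 532) (nat_lit 1670390336) (nat_lit 199) (nat_lit 5) (nat_lit 205) (nat_lit 5) (nat_lit 206) (nat_lit 5) (nat_lit 451) (nat_lit 359) (nat_lit 330)) (XT.lf (nat_lit 0) (nat_lit 1892462861) (nat_lit 532) (nat_lit 6721636817) (nat_lit 76) (nat_lit 572870264) (nat_lit 192) (nat_lit 5) (nat_lit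 199) (nat_lit 5) (nat_lit 193) (nat_lit 5) (nat_lit 452) (nat_lit 359) (nat_lit 329))))) (XT.nd (nat_lit 234) (nat_lit 912) (nat_lit 0) (XT.nd (nat_lit 78) (nat_lit 532) (nat_lit 0) (XT.lf (nat_lit 0) (nat_lit 185003080) (nat_lit 456) (nat_lit 5318066716) (nat_lit 532) (nat_lit 3770572859) (nat_lit 186) (nat_lit 5) (nat_lit 192) (nat_lit 5) (nat_lit 193) (nat_lit 5) (nat_lit 453) (nat_lit 359) (nat_lit 328)) (XT.nd (nat_lit 78) (nat_lit 532) (nat_lit 0) (XT.lf (nat_lit 0) (nat_lit 7248110360) (nat_lit 456) (nat_lit 1932844271) (nat_lit 532) (nat_lit 181200497) (nat_lit 186) (nat_lit 5) (nat_lit 192) (nat_lit 5) (nat_lit 193) (nat_lit 5) (nat_lit 454) (nat_lit 359) (nat_lit 327)) (XT.lf (nat_lit 0) (nat_lit 3427286393) (nat_lit 532) (nat_lit 4491798815) (nat_lit 76) (nat_lit 1533048740) (nat_lit 179) (nat_lit 5) (nat_lit 186) (nat_lit 5) (nat_lit 180) (nat_lit 5) (nat_lit 455) (nat_lit 359) (nat_lit 326)))) (XT.nd (nat_lit 78)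 (nat_lit 532) (nat_lit 0) (XT.lf (nat_lit 0) (nat_lit 2608973673) (nat_lit 380) (nat_lit 4491530938) (nat_lit 456) (nat_lit 2443491204) (nat_lit 174) (nat_lit 5) (nat_lit 179) (nat_lit 5) (nat_lit 180) (nat_lit 5) (nat_lit 456) (nat_lit 359) (nat_lit 325)) (XT.nd (nat_lit 78) (nat_lit 0) (nat_lit 0) (XT.lf (nat_lit 0) (nat_lit 197535478) (nat_lit 456) (nat_lit 978850587) (nat_lit 532) (nat_lit 8461503573) (nat_lit 167) (nat_lit 5) (nat_lit 173) (nat_lit 5) (nat_lit 174) (nat_lit 5) (nat_lit 457) (nat_lit 359) (nat_lit 324)) (XT.lf (nat_lit 0) (nat_lit 4851194700) (nat_lit 532) (nat_lit 2272280870) (nat_lit 76) (nat_lit 2609564463) (nat_lit 167) (nat_lit 5) (nat_lit 174) (nat_lit 5) (nat_lit 168) (nat_lit 5) (nat_lit 458) (nat_lit 359) (nat_lit 323))))))) (XT.nd (nat_lit 858) (nat_lit 2888) (nat_lit 0) (XT.nd (nat_lit 390) (nat_lit 1596) (nat_lit 0) (XT.nd (nat_lit 156) (nat_lit 836) (nat_lit 0) (XT.nd (nat_lit 78) (nat_lit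 456) (nat_lit 0) (XT.lf (nat_lit 0) (nat_lit 5027129715) (nat_lit 380) (nat_lit 3563911608) (nat_lit 456) (nat_lit 1239227914) (nat_lit 162) (nat_lit 5) (nat_lit 167) (nat_lit 5) (nat_lit 168) (nat_lit 5) (nat_lit 459) (nat_lit 359) (nat_lit 322)) (XT.lf (nat_lit 0) (nat_lit 2428639085) (nat_lit 456) (nat_lit 7410619320) (nat_lit 76) (nat_lit 90171980) (nat_lit 156) (nat_lit 5) (nat_lit 162) (nat_lit 5) (nat_lit 157) (nat_lit 5) (nat_lit 460) (nat_lit 359) (nat_lit 321))) (XT.nd (nat_lit 78) (nat_lit 836) (nat_lit 0) (XT.lf (nat_lit 0) (nat_lit 6162216907) (nat_lit 456) (nat_lit 81600747) (nat_lit 76) (nat_lit 3786420593) (nat_lit 156) (nat_lit 5) (nat_lit 162) (nat_lit 5) (nat_lit 157) (nat_lit 5) (nat_lit 461) (nat_lit 359) (nat_lit 320)) (XT.nd (nat_lit 78) (nat_lit 456) (nat_lit 0) (XT.lf (nat_lit 0) (nat_lit 7420777156) (nat_lit 380) (nat_lit 2551677700) (nat_lit 456) (nat_lit 160573771) (nat_lit 151) (nat_lit 5) (nat_lit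 156) (nat_lit 5) (nat_lit 157) (nat_lit 5) (nat_lit 462) (nat_lit 359) (nat_lit 319)) (XT.lf (nat_lit 0) (nat_lit 3567322298) (nat_lit 456) (nat_lit 5440533203) (nat_lit 76) (nat_lit 1229679208) (nat_lit 145) (nat_lit 5) (nat_lit 151) (nat_lit 5) (nat_lit 146) (nat_lit 5) (nat_lit 463) (nat_lit 359) (nat_lit 318))))) (XT.nd (nat_lit 234) (nat_lit 760) (nat_lit 0) (XT.nd (nat_lit 78) (nat_lit 456) (nat_lit 0) (XT.lf (nat_lit 0) (nat_lit 2087744187) (nat_lit 380) (nat_lit 5282895576) (nat_lit 456) (nat_lit 2973415427) (nat_lit 140) (nat_lit 5) (nat_lit 145) (nat_lit 5) (nat_lit 146) (nat_lit 5) (nat_lit 464) (nat_lit 359) (nat_lit 317)) (XT.nd (nat_lit 78) (nat_lit 380) (nat_lit 0) (XT.lf (nat_lit 0) (nat_lit 777981658) (nat_lit 456) (nat_lit 688196720) (nat_lit 76) (nat_lit 8986607298) (nat_lit 139) (nat_lit 5) (nat_lit 145) (nat_lit 5) (nat_lit 140) (nat_lit 5) (nat_lit 465) (nat_lit 359) (nat_lit 316)) (XT.lf (nat_lit 0) (nat_lit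 4581592469) (nat_lit 456) (nat_lit 3545211670) (nat_lit 76) (nat_lit 2436158996) (nat_lit 134) (nat_lit 5) (nat_lit 140) (nat_lit 5) (nat_lit 135) (nat_lit 5) (nat_lit 466) (nat_lit 359) (nat_lit 315)))) (XT.nd (nat_lit 78) (nat_lit 456) (nat_lit 0) (XT.lf (nat_lit 0) (nat_lit 4187056192) (nat_lit 304) (nat_lit 4271293341) (nat_lit 380) (nat_lit 2217058468) (nat_lit 130) (nat_lit 5) (nat_lit 134) (nat_lit 5) (nat_lit 135) (nat_lit 5) (nat_lit 467) (nat_lit 359) (nat_lit 314)) (XT.nd (nat_lit 78) (nat_lit 0) (nat_lit 0) (XT.lf (nat_lit 0) (nat_lit 1268193348) (nat_lit 380) (nat_lit 320902309) (nat_lit 456) (nat_lit 9201043833) (nat_lit 124) (nat_lit 5) (nat_lit 129) (nat_lit 5) (nat_lit 130) (nat_lit 5) (nat_lit 468) (nat_lit 359) (nat_lit 313)) (XT.lf (nat_lit 0) (nat_lit 5465524535) (nat_lit 456) (nat_lit 1747924648) (nat_lit 76) (nat_lit 3692951599) (nat_lit 124) (nat_lit 5) (nat_lit 130) (nat_lit 5) (nat_lit 125) (nat_lit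 5) (nat_lit 469) (nat_lit 359) (nat_lit 312)))))) (XT.nd (nat_lit 468) (nat_lit 1216) (nat_lit 0) (XT.nd (nat_lit 234) (nat_lit 988) (nat_lit 0) (XT.nd (nat_lit 78) (nat_lit 380) (nat_lit 0) (XT.lf (nat_lit 0) (nat_lit 6191635230) (nat_lit 304) (nat_lit 3226940485) (nat_lit 380) (nat_lit 1606434641) (nat_lit 120) (nat_lit 5) (nat_lit 124) (nat_lit 5) (nat_lit 125) (nat_lit 5) (nat_lit 470) (nat_lit 359) (nat_lit 311)) (XT.nd (nat_lit 78) (nat_lit 0) (nat_lit 0) (XT.lf (nat_lit 0) (nat_lit 2269038580) (nat_lit 380) (nat_lit 8026792630) (nat_lit 76) (nat_lit 849974994) (nat_lit 115) (nat_lit 5) (nat_lit 120) (nat_lit 5) (nat_lit 116) (nat_lit 5) (nat_lit 471) (nat_lit 359) (nat_lit 310)) (XT.lf (nat_lit 0) (nat_lit 6211664234) (nat_lit 380) (nat_lit 74005878) (nat_lit 76) (nat_lit 4982917069) (nat_lit 115) (nat_lit 5) (nat_lit 120) (nat_lit 5) (nat_lit 116) (nat_lit 5) (nat_lit 472) (nat_lit 359) (nat_lit 309)))) (XT.nd (nat_lit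 78) (nat_lit 684) (nat_lit 0) (XT.lf (nat_lit 0) (nat_lit 8075731259) (nat_lit 304) (nat_lit 2167798327) (nat_lit 380) (nat_lit 1150091005) (nat_lit 111) (nat_lit 5) (nat_lit 115) (nat_lit 5) (nat_lit 116) (nat_lit 5) (nat_lit 473) (nat_lit 359) (nat_lit 308)) (XT.nd (nat_lit 78) (nat_lit 304) (nat_lit 0) (XT.lf (nat_lit 0) (nat_lit 2801075566) (nat_lit 380) (nat_lit 6689024491) (nat_lit 76) (nat_lit 2030623313) (nat_lit 106) (nat_lit 5) (nat_lit 111) (nat_lit 5) (nat_lit 107) (nat_lit 5) (nat_lit 474) (nat_lit 359) (nat_lit 307)) (XT.lf (nat_lit 0) (nat_lit 1468113344) (nat_lit 304) (nat_lit 5352340116) (nat_lit 380) (nat_lit 4829675241) (nat_lit 102) (nat_lit 5) (nat_lit 106) (nat_lit 5) (nat_lit 107) (nat_lit 5) (nat_lit 475) (nat_lit 359) (nat_lit 306))))) (XT.nd (nat_lit 234) (nat_lit 608) (nat_lit 0) (XT.nd (nat_lit 78) (nat_lit 608) (nat_lit 0) (XT.lf (nat_lit 0) (nat_lit 9811163299) (nat_lit 304) (nat_lit 1112592640)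 (nat_lit 380) (nat_lit 858299670) (nat_lit 102) (nat_lit 5) (nat_lit 106) (nat_lit 5) (nat_lit 107) (nat_lit 5) (nat_lit 476) (nat_lit 359) (nat_lit 305)) (XT.nd (nat_lit 78) (nat_lit 228) (nat_lit 0) (XT.lf (nat_lit 0) (nat_lit 3172473974) (nat_lit 380) (nat_lit 5536738812) (nat_lit 76) (nat_lit 3206560938) (nat_lit 97) (nat_lit 5) (nat_lit 102) (nat_lit 5) (nat_lit 98) (nat_lit 5) (nat_lit 477) (nat_lit 359) (nat_lit 304)) (XT.lf (nat_lit 0) (nat_lit 2827398842) (nat_lit 228) (nat_lit 4443406588) (nat_lit 304) (nat_lit 4781282573) (nat_lit 94) (nat_lit 5) (nat_lit 97) (nat_lit 5) (nat_lit 98) (nat_lit 5) (nat_lit 478) (nat_lit 359) (nat_lit 303)))) (XT.nd (nat_lit 78) (nat_lit 608) (nat_lit 0) (XT.lf (nat_lit 0) (nat_lit 11366995982) (nat_lit 228) (nat_lit 81009535) (nat_lit 304) (nat_lit 743188897) (nat_lit 94) (nat_lit 5) (nat_lit 97) (nat_lit 5) (nat_lit 98) (nat_lit 5) (nat_lit 479) (nat_lit 359) (nat_lit 302)) (XT.nd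 (nat_lit 78) (nat_lit 228) (nat_lit 0) (XT.lf (nat_lit 0) (nat_lit 3370707836) (nat_lit 380) (nat_lit 4603069667) (nat_lit 76) (nat_lit 4358084575) (nat_lit 89) (nat_lit 5) (nat_lit 94) (nat_lit 5) (nat_lit 90) (nat_lit 5) (nat_lit 480) (nat_lit 359) (nat_lit 301)) (XT.lf (nat_lit 0) (nat_lit 3969061559) (nat_lit 228) (nat_lit 3580206386) (nat_lit 304) (nat_lit 4926133828) (nat_lit 86) (nat_lit 5) (nat_lit 89) (nat_lit 5) (nat_lit 90) (nat_lit 5) (nat_lit 481) (nat_lit 359) (nat_lit 300))))))))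
noncomputable def xc41 : XT := (XT.nd (nat_lit 1794) (nat_lit 380) (nat_lit 0) (XT.nd (nat_lit 858) (nat_lit 1672) (nat_lit 0) (XT.nd (nat_lit 390) (nat_lit 1064) (nat_lit 0) (XT.nd (nat_lit 156) (nat_lit 532) (nat_lit 0) (XT.nd (nat_lit 78) (nat_lit 76) (nat_lit 0) (XT.lf (nat_lit 0) (nat_lit 82401666) (nat_lit 304) (nat_lit 11727106238) (nat_lit 380) (nat_lit 812345778) (nat_lit 82) (nat_lit 5) (nat_lit 86) (nat_lit 5) (nat_lit 87) (nat_lit 5) (nat_lit 482) (nat_lit 359) (nat_lit 299)) (XT.lf (nat_lit 0) (nat_lit 3381220004) (nat_lit 380) (nat_lit 3924474439) (nat_lit 76) (nat_lit 5464266649) (nat_lit 81) (nat_lit 5) (nat_lit 86) (nat_lit 5) (nat_lit 82) (nat_lit 5) (nat_lit 483) (nat_lit 359) (nat_lit 298))) (XT.nd (nat_lit 78) (nat_lit 304) (nat_lit 0) (XT.lf (nat_lit 0) (nat_lit 4855865156) (nat_lit 228) (nat_lit 2784932713) (nat_lit 304) (nat_lit 5280268414) (nat_lit 78) (nat_lit 5) (nat_lit 81) (nat_lit 5) (nat_lit 82)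 (nat_lit 5) (nat_lit 484) (nat_lit 359) (nat_lit 297)) (XT.nd (nat_lit 78) (nat_lit 76) (nat_lit 0) (XT.lf (nat_lit 0) (nat_lit 722376254) (nat_lit 228) (nat_lit 11267890057) (nat_lit 304) (nat_lit 1084836604) (nat_lit 75) (nat_lit 5) (nat_lit 78) (nat_lit 5) (nat_lit 79) (nat_lit 5) (nat_lit 485) (nat_lit 359) (nat_lit 296)) (XT.lf (nat_lit 0) (nat_lit 3187247954) (nat_lit 304) (nat_lit 3541139093) (nat_lit 76) (nat_lit 6502728795) (nat_lit 74) (nat_lit 5) (nat_lit 78) (nat_lit 5) (nat_lit 75) (nat_lit 5) (nat_lit 486) (nat_lit 359) (nat_lit 295))))) (XT.nd (nat_lit 234) (nat_lit 532) (nat_lit 0) (XT.nd (nat_lit 78) (nat_lit 304) (nat_lit 0) (XT.lf (nat_lit 0) (nat_lit 5446724940) (nat_lit 228) (nat_lit 2081368453) (nat_lit 304) (nat_lit 5862058443) (nat_lit 71) (nat_lit 5) (nat_lit 74) (nat_lit 5) (nat_lit 75) (nat_lit 5) (nat_lit 487) (nat_lit 359) (nat_lit 294)) (XT.nd (nat_lit 78) (nat_lit 76) (nat_lit 0) (XT.lf (nat_lit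 0) (nat_lit 1042347855) (nat_lit 228) (nat_lit 10923974202) (nat_lit 304) (nat_lit 1585838231) (nat_lit 68) (nat_lit 5) (nat_lit 71) (nat_lit 5) (nat_lit 72) (nat_lit 5) (nat_lit 488) (nat_lit 359) (nat_lit 293)) (XT.lf (nat_lit 0) (nat_lit 2769627911) (nat_lit 304) (nat_lit 3497422876) (nat_lit 76) (nat_lit 7449398048) (nat_lit 67) (nat_lit 5) (nat_lit 71) (nat_lit 5) (nat_lit 68) (nat_lit 5) (nat_lit 489) (nat_lit 359) (nat_lit 292)))) (XT.nd (nat_lit 78) (nat_lit 304) (nat_lit 0) (XT.lf (nat_lit 0) (nat_lit 5696249500) (nat_lit 228) (nat_lit 1495141373) (nat_lit 304) (nat_lit 6692417084) (nat_lit 64) (nat_lit 5) (nat_lit 67) (nat_lit 5) (nat_lit 68) (nat_lit 5) (nat_lit 490) (nat_lit 359) (nat_lit 291)) (XT.nd (nat_lit 78) (nat_lit 76) (nat_lit 0) (XT.lf (nat_lit 0) (nat_lit 994845688) (nat_lit 228) (nat_lit 10722278275) (nat_lit 304) (nat_lit 2337082433) (nat_lit 61) (nat_lit 5) (nat_lit 64) (nat_lit 5) (nat_lit 65) (nat_lit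 5) (nat_lit 491) (nat_lit 359) (nat_lit 290)) (XT.lf (nat_lit 0) (nat_lit 2106575304) (nat_lit 304) (nat_lit 3842346841) (nat_lit 76) (nat_lit 8278243422) (nat_lit 60) (nat_lit 5) (nat_lit 64) (nat_lit 5) (nat_lit 61) (nat_lit 5) (nat_lit 492) (nat_lit 359) (nat_lit 289)))))) (XT.nd (nat_lit 468) (nat_lit 836) (nat_lit 0) (XT.nd (nat_lit 234) (nat_lit 380) (nat_lit 0) (XT.nd (nat_lit 78) (nat_lit 304) (nat_lit 0) (XT.lf (nat_lit 0) (nat_lit 5554237031) (nat_lit 152) (nat_lit 1054000271) (nat_lit 228) (nat_lit 7795031835) (nat_lit 58) (nat_lit 5) (nat_lit 60) (nat_lit 5) (nat_lit 61) (nat_lit 5) (nat_lit 493) (nat_lit 359) (nat_lit 288)) (XT.nd (nat_lit 78) (nat_lit 76) (nat_lit 0) (XT.lf (nat_lit 0) (nat_lit 527362028) (nat_lit 228) (nat_lit 10691983852) (nat_lit 304) (nat_lit 3363163246) (nat_lit 55) (nat_lit 5) (nat_lit 58) (nat_lit 5) (nat_lit 59) (nat_lit 5) (nat_lit 494) (nat_lit 359) (nat_lit 287)) (XT.lf (nat_lit 0)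 (nat_lit 1173439293) (nat_lit 304) (nat_lit 4630131012) (nat_lit 76) (nat_lit 8960990334) (nat_lit 54) (nat_lit 5) (nat_lit 58) (nat_lit 5) (nat_lit 55) (nat_lit 5) (nat_lit 495) (nat_lit 359) (nat_lit 286)))) (XT.nd (nat_lit 78) (nat_lit 228) (nat_lit 0) (XT.lf (nat_lit 0) (nat_lit 4965121342) (nat_lit 152) (nat_lit 788114707) (nat_lit 228) (nat_lit 9196625091) (nat_lit 52) (nat_lit 5) (nat_lit 54) (nat_lit 5) (nat_lit 55) (nat_lit 5) (nat_lit 496) (nat_lit 359) (nat_lit 285)) (XT.nd (nat_lit 78) (nat_lit 228) (nat_lit 0) (XT.lf (nat_lit 0) (nat_lit 10449336762) (nat_lit 228) (nat_lit 412738616) (nat_lit 76) (nat_lit 4276300529) (nat_lit 52) (nat_lit 5) (nat_lit 55) (nat_lit 5) (nat_lit 53) (nat_lit 5) (nat_lit 497) (nat_lit 359) (nat_lit 284)) (XT.lf (nat_lit 0) (nat_lit 9408852643) (nat_lit 228) (nat_lit 5862828057) (nat_lit 304) (nat_lit 58336215) (nat_lit 49) (nat_lit 5) (nat_lit 52) (nat_lit 5) (nat_lit 53) (nat_lit 5)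 (nat_lit 498) (nat_lit 359) (nat_lit 283))))) (XT.nd (nat_lit 234) (nat_lit 380) (nat_lit 0) (XT.nd (nat_lit 78) (nat_lit 228) (nat_lit 0) (XT.lf (nat_lit 0) (nat_lit 3867362080) (nat_lit 152) (nat_lit 730401240) (nat_lit 228) (nat_lit 10927244647) (nat_lit 46) (nat_lit 5) (nat_lit 48) (nat_lit 5) (nat_lit 49) (nat_lit 5) (nat_lit 499) (nat_lit 359) (nat_lit 282)) (XT.nd (nat_lit 78) (nat_lit 228) (nat_lit 0) (XT.lf (nat_lit 0) (nat_lit 9381624888) (nat_lit 228) (nat_lit 1881277766) (nat_lit 76) (nat_lit 4460282283) (nat_lit 46) (nat_lit 5) (nat_lit 49) (nat_lit 5) (nat_lit 47) (nat_lit 5) (nat_lit 500) (nat_lit 359) (nat_lit 281)) (XT.lf (nat_lit 0) (nat_lit 8133433730) (nat_lit 228) (nat_lit 6152213747) (nat_lit 304) (nat_lit 1639190484) (nat_lit 43) (nat_lit 5) (nat_lit 46) (nat_lit 5) (nat_lit 47) (nat_lit 5) (nat_lit 501) (nat_lit 359) (nat_lit 280)))) (XT.nd (nat_lit 78) (nat_lit 152) (nat_lit 0) (XT.lf (nat_lit 0) (nat_lit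 2192773117) (nat_lit 152) (nat_lit 916879325) (nat_lit 228) (nat_lit 13020587060) (nat_lit 40) (nat_lit 5) (nat_lit 42) (nat_lit 5) (nat_lit 43) (nat_lit 5) (nat_lit 502) (nat_lit 359) (nat_lit 279)) (XT.nd (nat_lit 78) (nat_lit 152) (nat_lit 0) (XT.lf (nat_lit 0) (nat_lit 7979881875) (nat_lit 228) (nat_lit 3955549474) (nat_lit 76) (nat_lit 4403135918) (nat_lit 40) (nat_lit 5) (nat_lit 43) (nat_lit 5) (nat_lit 41) (nat_lit 5) (nat_lit 503) (nat_lit 359) (nat_lit 278)) (XT.lf (nat_lit 0) (nat_lit 6243807962) (nat_lit 152) (nat_lit 6717955311) (nat_lit 228) (nat_lit 3589015391) (nat_lit 38) (nat_lit 5) (nat_lit 40) (nat_lit 5) (nat_lit 41) (nat_lit 5) (nat_lit 504) (nat_lit 359) (nat_lit 277))))))) (XT.nd (nat_lit 53430) (nat_lit 0) (nat_lit 17176) (XT.nd (nat_lit 52962) (nat_lit 0) (nat_lit 24396) (XT.nd (nat_lit 52728) (nat_lit 0) (nat_lit 27968) (XT.nd (nat_lit 78) (nat_lit 304) (nat_lit 0) (XT.lf (nat_lit 0) (nat_lit 1253714232)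 (nat_lit 228) (nat_lit 132457270) (nat_lit 76) (nat_lit 15381010995) (nat_lit 37) (nat_lit 5) (nat_lit 40) (nat_lit 5) (nat_lit 38) (nat_lit 5) (nat_lit 505) (nat_lit 359) (nat_lit 276)) (XT.nd (nat_lit 78) (nat_lit 152) (nat_lit 0) (XT.lf (nat_lit 0) (nat_lit 6207222656) (nat_lit 228) (nat_lit 6713545441) (nat_lit 76) (nat_lit 4065434124) (nat_lit 35) (nat_lit 5) (nat_lit 38) (nat_lit 5) (nat_lit 36) (nat_lit 5) (nat_lit 506) (nat_lit 359) (nat_lit 275)) (XT.lf (nat_lit 0) (nat_lit 3659879666) (nat_lit 152) (nat_lit 7602165521) (nat_lit 228) (nat_lit 5947514145) (nat_lit 33) (nat_lit 5) (nat_lit 35) (nat_lit 5) (nat_lit 36) (nat_lit 5) (nat_lit 507) (nat_lit 359) (nat_lit 274)))) (XT.nd (nat_lit 78) (nat_lit 1900) (nat_lit 0) (XT.lf (nat_lit 0) (nat_lit 1734039807) (nat_lit 1520) (nat_lit 142353808) (nat_lit 0) (nat_lit 1734039807) (nat_lit 426) (nat_lit 5) (nat_lit 446) (nat_lit 4) (nat_lit 426) (nat_lit 4) (nat_lit 420)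 (nat_lit 360) (nat_lit 360)) (XT.nd (nat_lit 78) (nat_lit 988) (nat_lit 0) (XT.lf (nat_lit 0) (nat_lit 5118311866) (nat_lit 912) (nat_lit 1891605631) (nat_lit 912) (nat_lit 251022852) (nat_lit 414) (nat_lit 4) (nat_lit 426) (nat_lit 5) (nat_lit 426) (nat_lit 4) (nat_lit 421) (nat_lit 360) (nat_lit 359)) (XT.lf (nat_lit 0) (nat_lit 3233236117) (nat_lit 988) (nat_lit 4021101295) (nat_lit 0) (nat_lit 47944679) (nat_lit 401) (nat_lit 5) (nat_lit 414) (nat_lit 4) (nat_lit 401) (nat_lit 4) (nat_lit 422) (nat_lit 360) (nat_lit 358))))) (XT.nd (nat_lit 234) (nat_lit 1748) (nat_lit 0) (XT.nd (nat_lit 78) (nat_lit 912) (nat_lit 0) (XT.lf (nat_lit 0) (nat_lit 1430535047) (nat_lit 912) (nat_lit 5322878818) (nat_lit 912) (nat_lit 591629586) (nat_lit 389) (nat_lit 4) (nat_lit 401) (nat_lit 5) (nat_lit 401) (nat_lit 4) (nat_lit 423) (nat_lit 360) (nat_lit 357)) (XT.nd (nat_lit 78) (nat_lit 836) (nat_lit 0) (XT.lf (nat_lit 0) (nat_lit 2877428990)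 (nat_lit 988) (nat_lit 434487566) (nat_lit 76) (nat_lit 4077159819) (nat_lit 388) (nat_lit 5) (nat_lit 401) (nat_lit 5) (nat_lit 389) (nat_lit 4) (nat_lit 424) (nat_lit 360) (nat_lit 356)) (XT.lf (nat_lit 0) (nat_lit 5147439215) (nat_lit 836) (nat_lit 1228926978) (nat_lit 912) (nat_lit 1058193996) (nat_lit 377) (nat_lit 5) (nat_lit 388) (nat_lit 5) (nat_lit 389) (nat_lit 4) (nat_lit 425) (nat_lit 360) (nat_lit 355)))) (XT.nd (nat_lit 78) (nat_lit 836) (nat_lit 0) (XT.lf (nat_lit 0) (nat_lit 2397913869) (nat_lit 912) (nat_lit 4165636584) (nat_lit 76) (nat_lit 917781293) (nat_lit 365) (nat_lit 5) (nat_lit 377) (nat_lit 5) (nat_lit 366) (nat_lit 4) (nat_lit 426) (nat_lit 360) (nat_lit 354)) (XT.nd (nat_lit 78) (nat_lit 76) (nat_lit 0) (XT.lf (nat_lit 0) (nat_lit 1464330212) (nat_lit 760) (nat_lit 4413874944) (nat_lit 836) (nat_lit 1651324938) (nat_lit 355) (nat_lit 5) (nat_lit 365) (nat_lit 5) (nat_lit 366) (nat_lit 4) (nat_lit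 427) (nat_lit 360) (nat_lit 353)) (XT.lf (nat_lit 0) (nat_lit 1789767010) (nat_lit 836) (nat_lit 399811115) (nat_lit 76) (nat_lit 5389597128) (nat_lit 354) (nat_lit 5) (nat_lit 365) (nat_lit 5) (nat_lit 355) (nat_lit 5) (nat_lit 428) (nat_lit 360) (nat_lit 352)))))) (XT.nd (nat_lit 468) (nat_lit 3420) (nat_lit 0) (XT.nd (nat_lit 234) (nat_lit 1444) (nat_lit 0) (XT.nd (nat_lit 78) (nat_lit 1596) (nat_lit 0) (XT.lf (nat_lit 0) (nat_lit 5250913291) (nat_lit 836) (nat_lit 2263998069) (nat_lit 76) (nat_lit 115231722) (nat_lit 344) (nat_lit 5) (nat_lit 355) (nat_lit 5) (nat_lit 345) (nat_lit 4) (nat_lit 429) (nat_lit 360) (nat_lit 351)) (XT.nd (nat_lit 78) (nat_lit 760) (nat_lit 0) (XT.lf (nat_lit 0) (nat_lit 1063121779) (nat_lit 836) (nat_lit 4159154675) (nat_lit 76) (nat_lit 2460157749) (nat_lit 333) (nat_lit 5) (nat_lit 344) (nat_lit 5) (nat_lit 334) (nat_lit 5) (nat_lit 430) (nat_lit 360) (nat_lit 350)) (XT.lf (nat_lit 0) (nat_lit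 1654884605) (nat_lit 760) (nat_lit 2852389329) (nat_lit 836) (nat_lit 3228900535) (nat_lit 323) (nat_lit 5) (nat_lit 333) (nat_lit 5) (nat_lit 334) (nat_lit 5) (nat_lit 431) (nat_lit 360) (nat_lit 349)))) (XT.nd (nat_lit 78) (nat_lit 1368) (nat_lit 0) (XT.lf (nat_lit 0) (nat_lit 193469921) (nat_lit 836) (nat_lit 223355307) (nat_lit 76) (nat_lit 7374804913) (nat_lit 322) (nat_lit 5) (nat_lit 333) (nat_lit 5) (nat_lit 323) (nat_lit 5) (nat_lit 432) (nat_lit 360) (nat_lit 348)) (XT.nd (nat_lit 78) (nat_lit 684) (nat_lit 0) (XT.lf (nat_lit 0) (nat_lit 3632316643) (nat_lit 760) (nat_lit 2127812772) (nat_lit 76) (nat_lit 2087826648) (nat_lit 313) (nat_lit 5) (nat_lit 323) (nat_lit 5) (nat_lit 314) (nat_lit 5) (nat_lit 433) (nat_lit 360) (nat_lit 347)) (XT.lf (nat_lit 0) (nat_lit 3855909745) (nat_lit 684) (nat_lit 3254226222) (nat_lit 760) (nat_lit 795881635) (nat_lit 304) (nat_lit 5) (nat_lit 313) (nat_lit 5) (nat_lit 314) (nat_lit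 5) (nat_lit 434) (nat_lit 360) (nat_lit 346))))) (XT.nd (nat_lit 234) (nat_lit 1900) (nat_lit 0) (XT.nd (nat_lit 78) (nat_lit 760) (nat_lit 0) (XT.lf (nat_lit 0) (nat_lit 1958940353) (nat_lit 684) (nat_lit 666299552) (nat_lit 760) (nat_lit 5340297808) (nat_lit 294) (nat_lit 5) (nat_lit 303) (nat_lit 5) (nat_lit 304) (nat_lit 5) (nat_lit 435) (nat_lit 360) (nat_lit 345)) (XT.nd (nat_lit 78) (nat_lit 76) (nat_lit 0) (XT.lf (nat_lit 0) (nat_lit 26467825) (nat_lit 684) (nat_lit 6059795080) (nat_lit 760) (nat_lit 1940249651) (nat_lit 285) (nat_lit 5) (nat_lit 294) (nat_lit 5) (nat_lit 295) (nat_lit 5) (nat_lit 436) (nat_lit 360) (nat_lit 344)) (XT.lf (nat_lit 0) (nat_lit 1494810069) (nat_lit 760) (nat_lit 1914167246) (nat_lit 76) (nat_lit 4679802017) (nat_lit 284) (nat_lit 5) (nat_lit 294) (nat_lit 5) (nat_lit 285) (nat_lit 5) (nat_lit 437) (nat_lit 360) (nat_lit 343)))) (XT.nd (nat_lit 78) (nat_lit 1292) (nat_lit 0) (XT.lf (nat_lit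 0) (nat_lit 4264664394) (nat_lit 608) (nat_lit 678837041) (nat_lit 684) (nat_lit 3209126854) (nat_lit 276) (nat_lit 5) (nat_lit 284) (nat_lit 5) (nat_lit 285) (nat_lit 5) (nat_lit 438) (nat_lit 360) (nat_lit 342)) (XT.nd (nat_lit 78) (nat_lit 608) (nat_lit 0) (XT.lf (nat_lit 0) (nat_lit 225525484) (nat_lit 684) (nat_lit 5899761086) (nat_lit 76) (nat_lit 2092741043) (nat_lit 267) (nat_lit 5) (nat_lit 276) (nat_lit 5) (nat_lit 268) (nat_lit 5) (nat_lit 439) (nat_lit 360) (nat_lit 341)) (XT.lf (nat_lit 0) (nat_lit 322735216) (nat_lit 608) (nat_lit 3340064996) (nat_lit 684) (nat_lit 4621983363) (nat_lit 259) (nat_lit 5) (nat_lit 267) (nat_lit 5) (nat_lit 268) (nat_lit 5) (nat_lit 440) (nat_lit 360) (nat_lit 340))))))))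
noncomputable def xc42 : XT := (XT.nd (nat_lit 1794) (nat_lit 5624) (nat_lit 0) (XT.nd (nat_lit 858) (nat_lit 4104) (nat_lit 0) (XT.nd (nat_lit 390) (nat_lit 2660) (nat_lit 0) (XT.nd (nat_lit 156) (nat_lit 1216) (nat_lit 0) (XT.nd (nat_lit 78) (nat_lit 684) (nat_lit 0) (XT.lf (nat_lit 0) (nat_lit 6677445026) (nat_lit 608) (nat_lit 475600313) (nat_lit 684) (nat_lit 1200155493) (nat_lit 259) (nat_lit 5) (nat_lit 267) (nat_lit 5) (nat_lit 268) (nat_lit 5) (nat_lit 441) (nat_lit 360) (nat_lit 339)) (XT.lf (nat_lit 0) (nat_lit 2252088670) (nat_lit 684) (nat_lit 3727595965) (nat_lit 76) (nat_lit 2443174384) (nat_lit 250) (nat_lit 5) (nat_lit 259) (nat_lit 5) (nat_lit 251) (nat_lit 5) (nat_lit 442) (nat_lit 360) (nat_lit 338))) (XT.nd (nat_lit 78) (nat_lit 684) (nat_lit 0) (XT.lf (nat_lit 0) (nat_lit 2674598133) (nat_lit 532) (nat_lit 3060409035) (nat_lit 608) (nat_lit 2759200607) (nat_lit 243) (nat_lit 5) (nat_lit 250) (nat_lit 5)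 (nat_lit 251) (nat_lit 5) (nat_lit 443) (nat_lit 360) (nat_lit 337)) (XT.nd (nat_lit 78) (nat_lit 0) (nat_lit 0) (XT.lf (nat_lit 0) (nat_lit 619875025) (nat_lit 608) (nat_lit 66561751) (nat_lit 684) (nat_lit 7880957086) (nat_lit 234) (nat_lit 5) (nat_lit 242) (nat_lit 5) (nat_lit 243) (nat_lit 5) (nat_lit 444) (nat_lit 360) (nat_lit 336)) (XT.lf (nat_lit 0) (nat_lit 4169335162) (nat_lit 684) (nat_lit 1484925271) (nat_lit 76) (nat_lit 2987322072) (nat_lit 234) (nat_lit 5) (nat_lit 243) (nat_lit 5) (nat_lit 235) (nat_lit 5) (nat_lit 445) (nat_lit 360) (nat_lit 335))))) (XT.nd (nat_lit 234) (nat_lit 1064) (nat_lit 0) (XT.nd (nat_lit 78) (nat_lit 1064) (nat_lit 0) (XT.lf (nat_lit 0) (nat_lit 5102048288) (nat_lit 532) (nat_lit 2601011388) (nat_lit 608) (nat_lit 1014581173) (nat_lit 227) (nat_lit 5) (nat_lit 234) (nat_lit 5) (nat_lit 235) (nat_lit 5) (nat_lit 446) (nat_lit 360) (nat_lit 334)) (XT.nd (nat_lit 78) (nat_lit 456) (nat_lit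 0) (XT.lf (nat_lit 0) (nat_lit 2460107016) (nat_lit 608) (nat_lit 5801644624) (nat_lit 76) (nat_lit 533535087) (nat_lit 219) (nat_lit 5) (nat_lit 227) (nat_lit 5) (nat_lit 220) (nat_lit 5) (nat_lit 447) (nat_lit 360) (nat_lit 333)) (XT.lf (nat_lit 0) (nat_lit 824761216) (nat_lit 456) (nat_lit 5161210049) (nat_lit 532) (nat_lit 2888483536) (nat_lit 213) (nat_lit 5) (nat_lit 219) (nat_lit 5) (nat_lit 220) (nat_lit 5) (nat_lit 448) (nat_lit 360) (nat_lit 332)))) (XT.nd (nat_lit 78) (nat_lit 988) (nat_lit 0) (XT.lf (nat_lit 0) (nat_lit 606565436) (nat_lit 532) (nat_lit 1368661060) (nat_lit 76) (nat_lit 6980153840) (nat_lit 212) (nat_lit 5) (nat_lit 219) (nat_lit 5) (nat_lit 213) (nat_lit 5) (nat_lit 449) (nat_lit 360) (nat_lit 331)) (XT.nd (nat_lit 78) (nat_lit 456) (nat_lit 0) (XT.lf (nat_lit 0) (nat_lit 4126079691) (nat_lit 608) (nat_lit 3619142332) (nat_lit 76) (nat_lit 1292463931) (nat_lit 205) (nat_lit 5) (nat_lit 213) (nat_lit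 5) (nat_lit 206) (nat_lit 5) (nat_lit 450) (nat_lit 360) (nat_lit 330)) (XT.lf (nat_lit 0) (nat_lit 3196131762) (nat_lit 456) (nat_lit 4512796795) (nat_lit 532) (nat_lit 1412858331) (nat_lit 199) (nat_lit 5) (nat_lit 205) (nat_lit 5) (nat_lit 206) (nat_lit 5) (nat_lit 451) (nat_lit 360) (nat_lit 329)))))) (XT.nd (nat_lit 468) (nat_lit 2128) (nat_lit 0) (XT.nd (nat_lit 234) (nat_lit 988) (nat_lit 0) (XT.nd (nat_lit 78) (nat_lit 456) (nat_lit 0) (XT.lf (nat_lit 0) (nat_lit 916104252) (nat_lit 456) (nat_lit 1191934760) (nat_lit 532) (nat_lit 7099649679) (nat_lit 192) (nat_lit 5) (nat_lit 198) (nat_lit 5) (nat_lit 199) (nat_lit 5) (nat_lit 452) (nat_lit 360) (nat_lit 328)) (XT.nd (nat_lit 78) (nat_lit 456) (nat_lit 0) (XT.lf (nat_lit 0) (nat_lit 5685167622) (nat_lit 532) (nat_lit 1415188723) (nat_lit 76) (nat_lit 2194678397) (nat_lit 192) (nat_lit 5) (nat_lit 199) (nat_lit 5) (nat_lit 193) (nat_lit 5) (nat_lit 453) (nat_lit 360)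 (nat_lit 327)) (XT.lf (nat_lit 0) (nat_lit 5593788703) (nat_lit 456) (nat_lit 3735666775) (nat_lit 532) (nat_lit 54767378) (nat_lit 186) (nat_lit 5) (nat_lit 192) (nat_lit 5) (nat_lit 193) (nat_lit 5) (nat_lit 454) (nat_lit 360) (nat_lit 326)))) (XT.nd (nat_lit 78) (nat_lit 456) (nat_lit 0) (XT.lf (nat_lit 0) (nat_lit 3235706424) (nat_lit 456) (nat_lit 271033237) (nat_lit 532) (nat_lit 5968355587) (nat_lit 179) (nat_lit 5) (nat_lit 185) (nat_lit 5) (nat_lit 186) (nat_lit 5) (nat_lit 455) (nat_lit 360) (nat_lit 325)) (XT.nd (nat_lit 78) (nat_lit 76) (nat_lit 0) (XT.lf (nat_lit 0) (nat_lit 804346429) (nat_lit 380) (nat_lit 6338336502) (nat_lit 456) (nat_lit 2425023168) (nat_lit 174) (nat_lit 5) (nat_lit 179) (nat_lit 5) (nat_lit 180) (nat_lit 5) (nat_lit 456) (nat_lit 360) (nat_lit 324)) (XT.lf (nat_lit 0) (nat_lit 1169611643) (nat_lit 456) (nat_lit 1668729056) (nat_lit 76) (nat_lit 6823760182) (nat_lit 173) (nat_lit 5) (nat_lit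 179) (nat_lit 5) (nat_lit 174) (nat_lit 5) (nat_lit 457) (nat_lit 360) (nat_lit 323))))) (XT.nd (nat_lit 234) (nat_lit 836) (nat_lit 0) (XT.nd (nat_lit 78) (nat_lit 836) (nat_lit 0) (XT.lf (nat_lit 0) (nat_lit 4797741544) (nat_lit 532) (nat_lit 4208389884) (nat_lit 76) (nat_lit 752056708) (nat_lit 167) (nat_lit 5) (nat_lit 174) (nat_lit 5) (nat_lit 168) (nat_lit 5) (nat_lit 458) (nat_lit 360) (nat_lit 322)) (XT.nd (nat_lit 78) (nat_lit 456) (nat_lit 0) (XT.lf (nat_lit 0) (nat_lit 3030140730) (nat_lit 380) (nat_lit 5471389010) (nat_lit 456) (nat_lit 1354611991) (nat_lit 162) (nat_lit 5) (nat_lit 167) (nat_lit 5) (nat_lit 168) (nat_lit 5) (nat_lit 459) (nat_lit 360) (nat_lit 321)) (XT.lf (nat_lit 0) (nat_lit 435199078) (nat_lit 380) (nat_lit 1842425728) (nat_lit 456) (nat_lit 7678439019) (nat_lit 156) (nat_lit 5) (nat_lit 161) (nat_lit 5) (nat_lit 162) (nat_lit 5) (nat_lit 460) (nat_lit 360) (nat_lit 320)))) (XT.nd (nat_lit 78)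 (nat_lit 836) (nat_lit 0) (XT.lf (nat_lit 0) (nat_lit 5976373034) (nat_lit 456) (nat_lit 2214807622) (nat_lit 76) (nat_lit 1866390659) (nat_lit 156) (nat_lit 5) (nat_lit 162) (nat_lit 5) (nat_lit 157) (nat_lit 5) (nat_lit 461) (nat_lit 360) (nat_lit 319)) (XT.nd (nat_lit 78) (nat_lit 456) (nat_lit 0) (XT.lf (nat_lit 0) (nat_lit 5224527149) (nat_lit 380) (nat_lit 4525405357) (nat_lit 456) (nat_lit 411165735) (nat_lit 151) (nat_lit 5) (nat_lit 156) (nat_lit 5) (nat_lit 157) (nat_lit 5) (nat_lit 462) (nat_lit 360) (nat_lit 318)) (XT.lf (nat_lit 0) (nat_lit 2518252721) (nat_lit 380) (nat_lit 756475333) (nat_lit 456) (nat_lit 6991817445) (nat_lit 145) (nat_lit 5) (nat_lit 150) (nat_lit 5) (nat_lit 151) (nat_lit 5) (nat_lit 463) (nat_lit 360) (nat_lit 317))))))) (XT.nd (nat_lit 936) (nat_lit 2660) (nat_lit 0) (XT.nd (nat_lit 468) (nat_lit 1368) (nat_lit 0) (XT.nd (nat_lit 234) (nat_lit 760) (nat_lit 0) (XT.nd (nat_lit 78) (nat_lit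 836) (nat_lit 0) (XT.lf (nat_lit 0) (nat_lit 7037368142) (nat_lit 456) (nat_lit 276940637) (nat_lit 76) (nat_lit 3059573553) (nat_lit 145) (nat_lit 5) (nat_lit 151) (nat_lit 5) (nat_lit 146) (nat_lit 5) (nat_lit 464) (nat_lit 360) (nat_lit 316)) (XT.nd (nat_lit 78) (nat_lit 380) (nat_lit 0) (XT.lf (nat_lit 0) (nat_lit 395665015) (nat_lit 456) (nat_lit 3118581947) (nat_lit 76) (nat_lit 6968895301) (nat_lit 139) (nat_lit 5) (nat_lit 145) (nat_lit 5) (nat_lit 140) (nat_lit 5) (nat_lit 465) (nat_lit 360) (nat_lit 315)) (XT.lf (nat_lit 0) (nat_lit 4147868464) (nat_lit 456) (nat_lit 6059828379) (nat_lit 76) (nat_lit 386653669) (nat_lit 134) (nat_lit 5) (nat_lit 140) (nat_lit 5) (nat_lit 135) (nat_lit 5) (nat_lit 466) (nat_lit 360) (nat_lit 314)))) (XT.nd (nat_lit 78) (nat_lit 456) (nat_lit 0) (XT.lf (nat_lit 0) (nat_lit 1604589699) (nat_lit 304) (nat_lit 6381685728) (nat_lit 380) (nat_lit 2721289543) (nat_lit 130) (nat_lit 5) (nat_lit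 134) (nat_lit 5) (nat_lit 135) (nat_lit 5) (nat_lit 467) (nat_lit 360) (nat_lit 313)) (XT.nd (nat_lit 78) (nat_lit 380) (nat_lit 0) (XT.lf (nat_lit 0) (nat_lit 1061720632) (nat_lit 380) (nat_lit 1393834130) (nat_lit 76) (nat_lit 8367404803) (nat_lit 129) (nat_lit 5) (nat_lit 134) (nat_lit 5) (nat_lit 130) (nat_lit 5) (nat_lit 468) (nat_lit 360) (nat_lit 312)) (XT.lf (nat_lit 0) (nat_lit 4893657430) (nat_lit 456) (nat_lit 4481727564) (nat_lit 76) (nat_lit 1564728146) (nat_lit 124) (nat_lit 5) (nat_lit 130) (nat_lit 5) (nat_lit 125) (nat_lit 5) (nat_lit 469) (nat_lit 360) (nat_lit 311))))) (XT.nd (nat_lit 234) (nat_lit 684) (nat_lit 0) (XT.nd (nat_lit 78) (nat_lit 380) (nat_lit 0) (XT.lf (nat_lit 0) (nat_lit 3387557360) (nat_lit 304) (nat_lit 5419963149) (nat_lit 380) (nat_lit 2251988360) (nat_lit 120) (nat_lit 5) (nat_lit 124) (nat_lit 5) (nat_lit 125) (nat_lit 5) (nat_lit 470) (nat_lit 360) (nat_lit 310)) (XT.nd (nat_lit 78)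 (nat_lit 0) (nat_lit 0) (XT.lf (nat_lit 0) (nat_lit 218659880) (nat_lit 304) (nat_lit 1367904744) (nat_lit 380) (nat_lit 9594733956) (nat_lit 115) (nat_lit 5) (nat_lit 119) (nat_lit 5) (nat_lit 120) (nat_lit 5) (nat_lit 471) (nat_lit 360) (nat_lit 309)) (XT.lf (nat_lit 0) (nat_lit 5499494172) (nat_lit 380) (nat_lit 3034643879) (nat_lit 76) (nat_lit 2770537684) (nat_lit 115) (nat_lit 5) (nat_lit 120) (nat_lit 5) (nat_lit 116) (nat_lit 5) (nat_lit 472) (nat_lit 360) (nat_lit 308)))) (XT.nd (nat_lit 78) (nat_lit 380) (nat_lit 0) (XT.lf (nat_lit 0) (nat_lit 5042296196) (nat_lit 304) (nat_lit 4448961626) (nat_lit 380) (nat_lit 1939255567) (nat_lit 111) (nat_lit 5) (nat_lit 115) (nat_lit 5) (nat_lit 116) (nat_lit 5) (nat_lit 473) (nat_lit 360) (nat_lit 307)) (XT.nd (nat_lit 78) (nat_lit 0) (nat_lit 0) (XT.lf (nat_lit 0) (nat_lit 1705878474) (nat_lit 304) (nat_lit 262284354) (nat_lit 380) (nat_lit 9590639906) (nat_lit 106) (nat_lit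 5) (nat_lit 110) (nat_lit 5) (nat_lit 111) (nat_lit 5) (nat_lit 474) (nat_lit 360) (nat_lit 306)) (XT.lf (nat_lit 0) (nat_lit 5956053862) (nat_lit 380) (nat_lit 1746512119) (nat_lit 76) (nat_lit 3986273906) (nat_lit 106) (nat_lit 5) (nat_lit 111) (nat_lit 5) (nat_lit 107) (nat_lit 5) (nat_lit 475) (nat_lit 360) (nat_lit 305)))))) (XT.nd (nat_lit 468) (nat_lit 1140) (nat_lit 0) (XT.nd (nat_lit 234) (nat_lit 836) (nat_lit 0) (XT.nd (nat_lit 78) (nat_lit 380) (nat_lit 0) (XT.lf (nat_lit 0) (nat_lit 6540371809) (nat_lit 304) (nat_lit 3487425474) (nat_lit 380) (nat_lit 1793602734) (nat_lit 102) (nat_lit 5) (nat_lit 106) (nat_lit 5) (nat_lit 107) (nat_lit 5) (nat_lit 476) (nat_lit 360) (nat_lit 304)) (XT.nd (nat_lit 78) (nat_lit 0) (nat_lit 0) (XT.lf (nat_lit 0) (nat_lit 2191990922) (nat_lit 380) (nat_lit 8942334603) (nat_lit 76) (nat_lit 822064957) (nat_lit 97) (nat_lit 5) (nat_lit 102) (nat_lit 5) (nat_lit 98) (nat_lit 5) (nat_lit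 477) (nat_lit 360) (nat_lit 303)) (XT.lf (nat_lit 0) (nat_lit 6252253034) (nat_lit 380) (nat_lit 647951138) (nat_lit 76) (nat_lit 5193263900) (nat_lit 97) (nat_lit 5) (nat_lit 102) (nat_lit 5) (nat_lit 98) (nat_lit 5) (nat_lit 478) (nat_lit 360) (nat_lit 302)))) (XT.nd (nat_lit 78) (nat_lit 608) (nat_lit 0) (XT.lf (nat_lit 0) (nat_lit 7850577675) (nat_lit 228) (nat_lit 2555076389) (nat_lit 304) (nat_lit 1827398289) (nat_lit 94) (nat_lit 5) (nat_lit 97) (nat_lit 5) (nat_lit 98) (nat_lit 5) (nat_lit 479) (nat_lit 360) (nat_lit 301)) (XT.nd (nat_lit 78) (nat_lit 228) (nat_lit 0) (XT.lf (nat_lit 0) (nat_lit 2241512662) (nat_lit 380) (nat_lit 8260514477) (nat_lit 76) (nat_lit 1873019586) (nat_lit 89) (nat_lit 5) (nat_lit 94) (nat_lit 5) (nat_lit 90) (nat_lit 5) (nat_lit 480) (nat_lit 360) (nat_lit 300)) (XT.lf (nat_lit 0) (nat_lit 230414569) (nat_lit 228) (nat_lit 6146190938) (nat_lit 304) (nat_lit 6142852036) (nat_lit 86) (nat_lit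 5) (nat_lit 89) (nat_lit 5) (nat_lit 90) (nat_lit 5) (nat_lit 481) (nat_lit 360) (nat_lit 299))))) (XT.nd (nat_lit 234) (nat_lit 532) (nat_lit 0) (XT.nd (nat_lit 78) (nat_lit 608) (nat_lit 0) (XT.lf (nat_lit 0) (nat_lit 8938581468) (nat_lit 228) (nat_lit 1672821380) (nat_lit 304) (nat_lit 2055017199) (nat_lit 86) (nat_lit 5) (nat_lit 89) (nat_lit 5) (nat_lit 90) (nat_lit 5) (nat_lit 482) (nat_lit 360) (nat_lit 298)) (XT.nd (nat_lit 78) (nat_lit 228) (nat_lit 0) (XT.lf (nat_lit 0) (nat_lit 2100228600) (nat_lit 380) (nat_lit 7842519502) (nat_lit 76) (nat_lit 2873034753) (nat_lit 81) (nat_lit 5) (nat_lit 86) (nat_lit 5) (nat_lit 82) (nat_lit 5) (nat_lit 483) (nat_lit 360) (nat_lit 297)) (XT.lf (nat_lit 0) (nat_lit 853665162) (nat_lit 228) (nat_lit 5461461168) (nat_lit 304) (nat_lit 6652656963) (nat_lit 78) (nat_lit 5) (nat_lit 81) (nat_lit 5) (nat_lit 82) (nat_lit 5) (nat_lit 484) (nat_lit 360) (nat_lit 296)))) (XT.nd (nat_lit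 78) (nat_lit 532) (nat_lit 0) (XT.lf (nat_lit 0) (nat_lit 9766537728) (nat_lit 228) (nat_lit 862975329) (nat_lit 304) (nat_lit 2493010113) (nat_lit 78) (nat_lit 5) (nat_lit 81) (nat_lit 5) (nat_lit 82) (nat_lit 5) (nat_lit 485) (nat_lit 360) (nat_lit 295)) (XT.nd (nat_lit 78) (nat_lit 228) (nat_lit 0) (XT.lf (nat_lit 0) (nat_lit 1751134530) (nat_lit 304) (nat_lit 7728854887) (nat_lit 76) (nat_lit 3799659250) (nat_lit 74) (nat_lit 5) (nat_lit 78) (nat_lit 5) (nat_lit 75) (nat_lit 5) (nat_lit 486) (nat_lit 360) (nat_lit 294)) (XT.lf (nat_lit 0) (nat_lit 1171780710) (nat_lit 228) (nat_lit 4874227518) (nat_lit 304) (nat_lit 7393597386) (nat_lit 71) (nat_lit 5) (nat_lit 74) (nat_lit 5) (nat_lit 75) (nat_lit 5) (nat_lit 487) (nat_lit 360) (nat_lit 293))))))))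
noncomputable def xc43 : XT := (XT.nd (nat_lit 54132) (nat_lit 0) (nat_lit 15732) (XT.nd (nat_lit 858) (nat_lit 1064) (nat_lit 0) (XT.nd (nat_lit 390) (nat_lit 836) (nat_lit 0) (XT.nd (nat_lit 156) (nat_lit 532) (nat_lit 0) (XT.nd (nat_lit 78) (nat_lit 304) (nat_lit 0) (XT.lf (nat_lit 0) (nat_lit 10292663024) (nat_lit 228) (nat_lit 149500297) (nat_lit 304) (nat_lit 3160293704) (nat_lit 71) (nat_lit 5) (nat_lit 74) (nat_lit 5) (nat_lit 75) (nat_lit 5) (nat_lit 488) (nat_lit 360) (nat_lit 292)) (XT.lf (nat_lit 0) (nat_lit 1174822077) (nat_lit 304) (nat_lit 7964217432) (nat_lit 76) (nat_lit 4628731934) (nat_lit 67) (nat_lit 5) (nat_lit 71) (nat_lit 5) (nat_lit 68) (nat_lit 5) (nat_lit 489) (nat_lit 360) (nat_lit 291))) (XT.nd (nat_lit 78) (nat_lit 304) (nat_lit 0) (XT.lf (nat_lit 0) (nat_lit 1139027023) (nat_lit 228) (nat_lit 4410214793) (nat_lit 304) (nat_lit 8386837016) (nat_lit 64) (nat_lit 5) (nat_lit 67) (nat_lit 5) (nat_lit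 68) (nat_lit 5) (nat_lit 490) (nat_lit 360) (nat_lit 290)) (XT.nd (nat_lit 78) (nat_lit 304) (nat_lit 0) (XT.lf (nat_lit 0) (nat_lit 10031901338) (nat_lit 304) (nat_lit 3639496086) (nat_lit 76) (nat_lit 435942692) (nat_lit 64) (nat_lit 5) (nat_lit 68) (nat_lit 5) (nat_lit 65) (nat_lit 5) (nat_lit 491) (nat_lit 360) (nat_lit 289)) (XT.lf (nat_lit 0) (nat_lit 349258555) (nat_lit 304) (nat_lit 8597984322) (nat_lit 76) (nat_lit 5334118649) (nat_lit 60) (nat_lit 5) (nat_lit 64) (nat_lit 5) (nat_lit 61) (nat_lit 5) (nat_lit 492) (nat_lit 360) (nat_lit 288))))) (XT.nd (nat_lit 234) (nat_lit 456) (nat_lit 0) (XT.nd (nat_lit 78) (nat_lit 228) (nat_lit 0) (XT.lf (nat_lit 0) (nat_lit 704840759) (nat_lit 152) (nat_lit 4097283869) (nat_lit 228) (nat_lit 9656317680) (nat_lit 58) (nat_lit 5) (nat_lit 60) (nat_lit 5) (nat_lit 61) (nat_lit 5) (nat_lit 493) (nat_lit 360) (nat_lit 287)) (XT.nd (nat_lit 78) (nat_lit 228) (nat_lit 0) (XT.lf (nat_lit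 0) (nat_lit 9372801615) (nat_lit 228) (nat_lit 4394586038) (nat_lit 76) (nat_lit 871104548) (nat_lit 58) (nat_lit 5) (nat_lit 61) (nat_lit 5) (nat_lit 59) (nat_lit 5) (nat_lit 494) (nat_lit 360) (nat_lit 286)) (XT.lf (nat_lit 0) (nat_lit 5131931854) (nat_lit 228) (nat_lit 8929255544) (nat_lit 304) (nat_lit 760432302) (nat_lit 55) (nat_lit 5) (nat_lit 58) (nat_lit 5) (nat_lit 59) (nat_lit 5) (nat_lit 495) (nat_lit 360) (nat_lit 285)))) (XT.nd (nat_lit 78) (nat_lit 380) (nat_lit 0) (XT.lf (nat_lit 0) (nat_lit 3780218623) (nat_lit 304) (nat_lit 184275965) (nat_lit 76) (nat_lit 11043507935) (nat_lit 54) (nat_lit 5) (nat_lit 58) (nat_lit 5) (nat_lit 55) (nat_lit 5) (nat_lit 496) (nat_lit 360) (nat_lit 284)) (XT.nd (nat_lit 78) (nat_lit 228) (nat_lit 0) (XT.lf (nat_lit 0) (nat_lit 8437650749) (nat_lit 228) (nat_lit 5631836833) (nat_lit 76) (nat_lit 1127804253) (nat_lit 52) (nat_lit 5) (nat_lit 55) (nat_lit 5) (nat_lit 53) (nat_lit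 5) (nat_lit 497) (nat_lit 360) (nat_lit 283)) (XT.lf (nat_lit 0) (nat_lit 4090873326) (nat_lit 228) (nat_lit 9118098365) (nat_lit 304) (nat_lit 2180982762) (nat_lit 49) (nat_lit 5) (nat_lit 52) (nat_lit 5) (nat_lit 53) (nat_lit 5) (nat_lit 498) (nat_lit 360) (nat_lit 282)))))) (XT.nd (nat_lit 468) (nat_lit 228) (nat_lit 0) (XT.nd (nat_lit 234) (nat_lit 380) (nat_lit 0) (XT.nd (nat_lit 78) (nat_lit 380) (nat_lit 0) (XT.lf (nat_lit 0) (nat_lit 2461377098) (nat_lit 304) (nat_lit 1576657435) (nat_lit 76) (nat_lit 11548019281) (nat_lit 48) (nat_lit 5) (nat_lit 52) (nat_lit 5) (nat_lit 49) (nat_lit 5) (nat_lit 499) (nat_lit 360) (nat_lit 281)) (XT.nd (nat_lit 78) (nat_lit 228) (nat_lit 0) (XT.lf (nat_lit 0) (nat_lit 7196905564) (nat_lit 228) (nat_lit 7415176488) (nat_lit 76) (nat_lit 1173116479) (nat_lit 46) (nat_lit 5) (nat_lit 49) (nat_lit 5) (nat_lit 47) (nat_lit 5) (nat_lit 500) (nat_lit 360) (nat_lit 280)) (XT.lf (nat_lit 0)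 (nat_lit 2496967625) (nat_lit 228) (nat_lit 9551270427) (nat_lit 304) (nat_lit 3939668366) (nat_lit 43) (nat_lit 5) (nat_lit 46) (nat_lit 5) (nat_lit 47) (nat_lit 5) (nat_lit 501) (nat_lit 360) (nat_lit 279)))) (XT.nd (nat_lit 78) (nat_lit 304) (nat_lit 0) (XT.lf (nat_lit 0) (nat_lit 809038457) (nat_lit 304) (nat_lit 3549254087) (nat_lit 76) (nat_lit 11835921307) (nat_lit 42) (nat_lit 5) (nat_lit 46) (nat_lit 5) (nat_lit 43) (nat_lit 5) (nat_lit 502) (nat_lit 360) (nat_lit 278)) (XT.nd (nat_lit 78) (nat_lit 152) (nat_lit 0) (XT.lf (nat_lit 0) (nat_lit 5617397367) (nat_lit 228) (nat_lit 9815407192) (nat_lit 76) (nat_lit 970975469) (nat_lit 40) (nat_lit 5) (nat_lit 43) (nat_lit 5) (nat_lit 41) (nat_lit 5) (nat_lit 503) (nat_lit 360) (nat_lit 277)) (XT.lf (nat_lit 0) (nat_lit 277544753) (nat_lit 152) (nat_lit 10267289631) (nat_lit 228) (nat_lit 6072246909) (nat_lit 38) (nat_lit 5) (nat_lit 40) (nat_lit 5) (nat_lit 41) (nat_lit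 5) (nat_lit 504) (nat_lit 360) (nat_lit 276))))) (XT.nd (nat_lit 52572) (nat_lit 0) (nat_lit 29716) (XT.nd (nat_lit 78) (nat_lit 228) (nat_lit 0) (XT.lf (nat_lit 0) (nat_lit 10648903467) (nat_lit 152) (nat_lit 4956309474) (nat_lit 228) (nat_lit 1228749732) (nat_lit 38) (nat_lit 5) (nat_lit 40) (nat_lit 5) (nat_lit 41) (nat_lit 5) (nat_lit 505) (nat_lit 360) (nat_lit 275)) (XT.nd (nat_lit 78) (nat_lit 0) (nat_lit 0) (XT.lf (nat_lit 0) (nat_lit 3661970649) (nat_lit 228) (nat_lit 12910965567) (nat_lit 76) (nat_lit 481784731) (nat_lit 35) (nat_lit 5) (nat_lit 38) (nat_lit 5) (nat_lit 36) (nat_lit 5) (nat_lit 506) (nat_lit 360) (nat_lit 274)) (XT.lf (nat_lit 0) (nat_lit 8677697326) (nat_lit 228) (nat_lit 2613213961) (nat_lit 76) (nat_lit 5987949594) (nat_lit 35) (nat_lit 5) (nat_lit 38) (nat_lit 5) (nat_lit 36) (nat_lit 5) (nat_lit 507) (nat_lit 360) (nat_lit 273)))) (XT.nd (nat_lit 78) (nat_lit 1520) (nat_lit 0) (XT.lf (nat_lit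 0) (nat_lit 1747913543) (nat_lit 1748) (nat_lit 912086120) (nat_lit 1748) (nat_lit 912086120) (nat_lit 446) (nat_lit 4) (nat_lit 469) (nat_lit 5) (nat_lit 469) (nat_lit 4) (nat_lit 418) (nat_lit 361) (nat_lit 361)) (XT.nd (nat_lit 78) (nat_lit 0) (nat_lit 0) (XT.lf (nat_lit 0) (nat_lit 1596451871) (nat_lit 1444) (nat_lit 38852185) (nat_lit 1520) (nat_lit 5546969225) (nat_lit 426) (nat_lit 5) (nat_lit 445) (nat_lit 5) (nat_lit 446) (nat_lit 4) (nat_lit 419) (nat_lit 361) (nat_lit 360)) (XT.lf (nat_lit 0) (nat_lit 5107838264) (nat_lit 1520) (nat_lit 319849630) (nat_lit 0) (nat_lit 1793861052) (nat_lit 426) (nat_lit 5) (nat_lit 446) (nat_lit 4) (nat_lit 426) (nat_lit 4) (nat_lit 420) (nat_lit 361) (nat_lit 359))))))) (XT.nd (nat_lit 936) (nat_lit 6080) (nat_lit 0) (XT.nd (nat_lit 468) (nat_lit 3268) (nat_lit 0) (XT.nd (nat_lit 234) (nat_lit 1748) (nat_lit 0) (XT.nd (nat_lit 78) (nat_lit 1900) (nat_lit 0) (XT.lf (nat_lit 0) (nat_lit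 1336184503) (nat_lit 988) (nat_lit 2223299002) (nat_lit 76) (nat_lit 3702641013) (nat_lit 413) (nat_lit 5) (nat_lit 426) (nat_lit 5) (nat_lit 414) (nat_lit 4) (nat_lit 421) (nat_lit 361) (nat_lit 358)) (XT.nd (nat_lit 78) (nat_lit 988) (nat_lit 0) (XT.lf (nat_lit 0) (nat_lit 3162977008) (nat_lit 912) (nat_lit 1620312921) (nat_lit 988) (nat_lit 2520829806) (nat_lit 401) (nat_lit 5) (nat_lit 413) (nat_lit 5) (nat_lit 414) (nat_lit 4) (nat_lit 422) (nat_lit 361) (nat_lit 357)) (XT.lf (nat_lit 0) (nat_lit 899899519) (nat_lit 988) (nat_lit 6069679875) (nat_lit 76) (nat_lit 378068808) (nat_lit 388) (nat_lit 5) (nat_lit 401) (nat_lit 5) (nat_lit 389) (nat_lit 4) (nat_lit 423) (nat_lit 361) (nat_lit 356)))) (XT.nd (nat_lit 78) (nat_lit 1748) (nat_lit 0) (XT.lf (nat_lit 0) (nat_lit 4329016283) (nat_lit 988) (nat_lit 628790381) (nat_lit 76) (nat_lit 2434449620) (nat_lit 388) (nat_lit 5) (nat_lit 401) (nat_lit 5) (nat_lit 389) (nat_lit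 4) (nat_lit 424) (nat_lit 361) (nat_lit 355)) (XT.nd (nat_lit 78) (nat_lit 836) (nat_lit 0) (XT.lf (nat_lit 0) (nat_lit 351811298) (nat_lit 912) (nat_lit 2525227669) (nat_lit 76) (nat_lit 4561324158) (nat_lit 376) (nat_lit 5) (nat_lit 388) (nat_lit 5) (nat_lit 377) (nat_lit 5) (nat_lit 425) (nat_lit 361) (nat_lit 354)) (XT.lf (nat_lit 0) (nat_lit 3038363480) (nat_lit 836) (nat_lit 716428444) (nat_lit 912) (nat_lit 3730998177) (nat_lit 365) (nat_lit 5) (nat_lit 376) (nat_lit 5) (nat_lit 377) (nat_lit 5) (nat_lit 426) (nat_lit 361) (nat_lit 353))))) (XT.nd (nat_lit 234) (nat_lit 1672) (nat_lit 0) (XT.nd (nat_lit 78) (nat_lit 836) (nat_lit 0) (XT.lf (nat_lit 0) (nat_lit 1147870942) (nat_lit 760) (nat_lit 6049503272) (nat_lit 836) (nat_lit 337376113) (nat_lit 355) (nat_lit 5) (nat_lit 365) (nat_lit 5) (nat_lit 366) (nat_lit 4) (nat_lit 427) (nat_lit 361) (nat_lit 352)) (XT.nd (nat_lit 78) (nat_lit 760) (nat_lit 0) (XT.lf (nat_lit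 0) (nat_lit 3055651164) (nat_lit 836) (nat_lit 765377744) (nat_lit 76) (nat_lit 3763819997) (nat_lit 354) (nat_lit 5) (nat_lit 365) (nat_lit 5) (nat_lit 355) (nat_lit 5) (nat_lit 428) (nat_lit 361) (nat_lit 351)) (XT.lf (nat_lit 0) (nat_lit 4961369969) (nat_lit 760) (nat_lit 1521808836) (nat_lit 836) (nat_lit 1153317556) (nat_lit 344) (nat_lit 5) (nat_lit 354) (nat_lit 5) (nat_lit 355) (nat_lit 5) (nat_lit 429) (nat_lit 361) (nat_lit 350)))) (XT.nd (nat_lit 78) (nat_lit 836) (nat_lit 0) (XT.lf (nat_lit 0) (nat_lit 2230027816) (nat_lit 836) (nat_lit 4616099575) (nat_lit 76) (nat_lit 843366438) (nat_lit 333) (nat_lit 5) (nat_lit 344) (nat_lit 5) (nat_lit 334) (nat_lit 5) (nat_lit 430) (nat_lit 361) (nat_lit 349)) (XT.nd (nat_lit 78) (nat_lit 76) (nat_lit 0) (XT.lf (nat_lit 0) (nat_lit 1156218639) (nat_lit 760) (nat_lit 4484993425) (nat_lit 836) (nat_lit 2102688225) (nat_lit 323) (nat_lit 5) (nat_lit 333) (nat_lit 5) (nat_lit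 334) (nat_lit 5) (nat_lit 431) (nat_lit 361) (nat_lit 348)) (XT.lf (nat_lit 0) (nat_lit 1275336401) (nat_lit 836) (nat_lit 772408341) (nat_lit 76) (nat_lit 5752063054) (nat_lit 322) (nat_lit 5) (nat_lit 333) (nat_lit 5) (nat_lit 323) (nat_lit 5) (nat_lit 432) (nat_lit 361) (nat_lit 347)))))) (XT.nd (nat_lit 468) (nat_lit 2584) (nat_lit 0) (XT.nd (nat_lit 234) (nat_lit 1368) (nat_lit 0) (XT.nd (nat_lit 78) (nat_lit 1444) (nat_lit 0) (XT.lf (nat_lit 0) (nat_lit 4670696294) (nat_lit 760) (nat_lit 2717468617) (nat_lit 76) (nat_lit 468844986) (nat_lit 313) (nat_lit 5) (nat_lit 323) (nat_lit 5) (nat_lit 314) (nat_lit 5) (nat_lit 433) (nat_lit 361) (nat_lit 346)) (XT.nd (nat_lit 78) (nat_lit 684) (nat_lit 0) (XT.lf (nat_lit 0) (nat_lit 197361760) (nat_lit 760) (nat_lit 4694048998) (nat_lit 76) (nat_lit 3024296971) (nat_lit 303) (nat_lit 5) (nat_lit 313) (nat_lit 5) (nat_lit 304) (nat_lit 5) (nat_lit 434) (nat_lit 361) (nat_lit 345))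 (XT.lf (nat_lit 0) (nat_lit 1265613542) (nat_lit 684) (nat_lit 2309385234) (nat_lit 760) (nat_lit 4400792715) (nat_lit 294) (nat_lit 5) (nat_lit 303) (nat_lit 5) (nat_lit 304) (nat_lit 5) (nat_lit 435) (nat_lit 361) (nat_lit 344)))) (XT.nd (nat_lit 78) (nat_lit 1368) (nat_lit 0) (XT.lf (nat_lit 0) (nat_lit 6996926832) (nat_lit 760) (nat_lit 702212777) (nat_lit 76) (nat_lit 338414574) (nat_lit 294) (nat_lit 5) (nat_lit 304) (nat_lit 5) (nat_lit 295) (nat_lit 5) (nat_lit 436) (nat_lit 361) (nat_lit 343)) (XT.nd (nat_lit 78) (nat_lit 608) (nat_lit 0) (XT.lf (nat_lit 0) (nat_lit 2349862986) (nat_lit 760) (nat_lit 2704691537) (nat_lit 76) (nat_lit 3045810750) (nat_lit 284) (nat_lit 5) (nat_lit 294) (nat_lit 5) (nat_lit 285) (nat_lit 5) (nat_lit 437) (nat_lit 361) (nat_lit 342)) (XT.lf (nat_lit 0) (nat_lit 3428301168) (nat_lit 608) (nat_lit 2337254077) (nat_lit 684) (nat_lit 2399324575) (nat_lit 276) (nat_lit 5) (nat_lit 284) (nat_lit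 5) (nat_lit 285) (nat_lit 5) (nat_lit 438) (nat_lit 361) (nat_lit 341))))) (XT.nd (nat_lit 234) (nat_lit 1292) (nat_lit 0) (XT.nd (nat_lit 78) (nat_lit 608) (nat_lit 0) (XT.lf (nat_lit 0) (nat_lit 980599402) (nat_lit 684) (nat_lit 6802453816) (nat_lit 76) (nat_lit 448008315) (nat_lit 267) (nat_lit 5) (nat_lit 276) (nat_lit 5) (nat_lit 268) (nat_lit 5) (nat_lit 439) (nat_lit 361) (nat_lit 340)) (XT.nd (nat_lit 78) (nat_lit 608) (nat_lit 0) (XT.lf (nat_lit 0) (nat_lit 4388602101) (nat_lit 684) (nat_lit 619468558) (nat_lit 76) (nat_lit 3290337560) (nat_lit 267) (nat_lit 5) (nat_lit 276) (nat_lit 5) (nat_lit 268) (nat_lit 5) (nat_lit 440) (nat_lit 361) (nat_lit 339)) (XT.lf (nat_lit 0) (nat_lit 5691962619) (nat_lit 608) (nat_lit 2155937871) (nat_lit 684) (nat_lit 519549103) (nat_lit 259) (nat_lit 5) (nat_lit 267) (nat_lit 5) (nat_lit 268) (nat_lit 5) (nat_lit 441) (nat_lit 361) (nat_lit 338)))) (XT.nd (nat_lit 78) (nat_lit 608)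 (nat_lit 0) (XT.lf (nat_lit 0) (nat_lit 2879431203) (nat_lit 684) (nat_lit 4784122054) (nat_lit 76) (nat_lit 774357874) (nat_lit 250) (nat_lit 5) (nat_lit 259) (nat_lit 5) (nat_lit 251) (nat_lit 5) (nat_lit 442) (nat_lit 361) (nat_lit 337)) (XT.nd (nat_lit 78) (nat_lit 76) (nat_lit 0) (XT.lf (nat_lit 0) (nat_lit 1568602802) (nat_lit 532) (nat_lit 4760284691) (nat_lit 608) (nat_lit 2181046521) (nat_lit 243) (nat_lit 5) (nat_lit 250) (nat_lit 5) (nat_lit 251) (nat_lit 5) (nat_lit 443) (nat_lit 361) (nat_lit 336)) (XT.lf (nat_lit 0) (nat_lit 1226815227) (nat_lit 608) (nat_lit 548816422) (nat_lit 76) (nat_lit 6808021930) (nat_lit 242) (nat_lit 5) (nat_lit 250) (nat_lit 5) (nat_lit 243) (nat_lit 5) (nat_lit 444) (nat_lit 361) (nat_lit 335))))))))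
noncomputable def xc44 : XT := (XT.nd (nat_lit 1794) (nat_lit 5092) (nat_lit 0) (XT.nd (nat_lit 858) (nat_lit 3420) (nat_lit 0) (XT.nd (nat_lit 390) (nat_lit 2508) (nat_lit 0) (XT.nd (nat_lit 156) (nat_lit 1140) (nat_lit 0) (XT.nd (nat_lit 78) (nat_lit 532) (nat_lit 0) (XT.lf (nat_lit 0) (nat_lit 4669042787) (nat_lit 684) (nat_lit 2701441284) (nat_lit 76) (nat_lit 1288176167) (nat_lit 234) (nat_lit 5) (nat_lit 243) (nat_lit 5) (nat_lit 235) (nat_lit 5) (nat_lit 445) (nat_lit 361) (nat_lit 334)) (XT.lf (nat_lit 0) (nat_lit 3834278300) (nat_lit 532) (nat_lit 4334826557) (nat_lit 608) (nat_lit 566291484) (nat_lit 227) (nat_lit 5) (nat_lit 234) (nat_lit 5) (nat_lit 235) (nat_lit 5) (nat_lit 446) (nat_lit 361) (nat_lit 333))) (XT.nd (nat_lit 78) (nat_lit 532) (nat_lit 0) (XT.lf (nat_lit 0) (nat_lit 1656461966) (nat_lit 532) (nat_lit 1208513244) (nat_lit 608) (nat_lit 5948763975) (nat_lit 219) (nat_lit 5) (nat_lit 226) (nat_lit 5)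 (nat_lit 227) (nat_lit 5) (nat_lit 447) (nat_lit 361) (nat_lit 332)) (XT.nd (nat_lit 78) (nat_lit 532) (nat_lit 0) (XT.lf (nat_lit 0) (nat_lit 6352522336) (nat_lit 608) (nat_lit 568797233) (nat_lit 76) (nat_lit 1972358282) (nat_lit 219) (nat_lit 5) (nat_lit 227) (nat_lit 5) (nat_lit 220) (nat_lit 5) (nat_lit 448) (nat_lit 361) (nat_lit 331)) (XT.lf (nat_lit 0) (nat_lit 920553892) (nat_lit 532) (nat_lit 2826368736) (nat_lit 76) (nat_lit 5228215428) (nat_lit 212) (nat_lit 5) (nat_lit 219) (nat_lit 5) (nat_lit 213) (nat_lit 5) (nat_lit 449) (nat_lit 361) (nat_lit 330))))) (XT.nd (nat_lit 234) (nat_lit 1444) (nat_lit 0) (XT.nd (nat_lit 78) (nat_lit 532) (nat_lit 0) (XT.lf (nat_lit 0) (nat_lit 3915305548) (nat_lit 532) (nat_lit 481916329) (nat_lit 608) (nat_lit 4661082728) (nat_lit 205) (nat_lit 5) (nat_lit 212) (nat_lit 5) (nat_lit 213) (nat_lit 5) (nat_lit 450) (nat_lit 361) (nat_lit 329)) (XT.nd (nat_lit 78) (nat_lit 76) (nat_lit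 0) (XT.lf (nat_lit 0) (nat_lit 1620161316) (nat_lit 456) (nat_lit 6322216426) (nat_lit 532) (nat_lit 1200785582) (nat_lit 199) (nat_lit 5) (nat_lit 205) (nat_lit 5) (nat_lit 206) (nat_lit 5) (nat_lit 451) (nat_lit 361) (nat_lit 328)) (XT.lf (nat_lit 0) (nat_lit 2287141442) (nat_lit 532) (nat_lit 729306391) (nat_lit 76) (nat_lit 6213197309) (nat_lit 198) (nat_lit 5) (nat_lit 205) (nat_lit 5) (nat_lit 199) (nat_lit 5) (nat_lit 452) (nat_lit 361) (nat_lit 327)))) (XT.nd (nat_lit 78) (nat_lit 988) (nat_lit 0) (XT.lf (nat_lit 0) (nat_lit 5823537071) (nat_lit 532) (nat_lit 3115325628) (nat_lit 76) (nat_lit 378946854) (nat_lit 192) (nat_lit 5) (nat_lit 199) (nat_lit 5) (nat_lit 193) (nat_lit 5) (nat_lit 453) (nat_lit 361) (nat_lit 326)) (XT.nd (nat_lit 78) (nat_lit 456) (nat_lit 0) (XT.lf (nat_lit 0) (nat_lit 24798730) (nat_lit 532) (nat_lit 5571436615) (nat_lit 76) (nat_lit 3811462594) (nat_lit 185) (nat_lit 5) (nat_lit 192) (nat_lit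 5) (nat_lit 186) (nat_lit 5) (nat_lit 454) (nat_lit 361) (nat_lit 325)) (XT.lf (nat_lit 0) (nat_lit 1395952751) (nat_lit 456) (nat_lit 2154188280) (nat_lit 532) (nat_lit 5949134603) (nat_lit 179) (nat_lit 5) (nat_lit 185) (nat_lit 5) (nat_lit 186) (nat_lit 5) (nat_lit 455) (nat_lit 361) (nat_lit 324)))))) (XT.nd (nat_lit 468) (nat_lit 1672) (nat_lit 0) (XT.nd (nat_lit 234) (nat_lit 836) (nat_lit 0) (XT.nd (nat_lit 78) (nat_lit 912) (nat_lit 0) (XT.lf (nat_lit 0) (nat_lit 7145303513) (nat_lit 532) (nat_lit 1092350234) (nat_lit 76) (nat_lit 1355051774) (nat_lit 179) (nat_lit 5) (nat_lit 186) (nat_lit 5) (nat_lit 180) (nat_lit 5) (nat_lit 456) (nat_lit 361) (nat_lit 323)) (XT.nd (nat_lit 78) (nat_lit 456) (nat_lit 0) (XT.lf (nat_lit 0) (nat_lit 1117039535) (nat_lit 456) (nat_lit 3639418610) (nat_lit 76) (nat_lit 4931258084) (nat_lit 173) (nat_lit 5) (nat_lit 179) (nat_lit 5) (nat_lit 174) (nat_lit 5) (nat_lit 457) (nat_lit 361)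 (nat_lit 322)) (XT.lf (nat_lit 0) (nat_lit 3523667243) (nat_lit 456) (nat_lit 1180569970) (nat_lit 532) (nat_lit 5080388137) (nat_lit 167) (nat_lit 5) (nat_lit 173) (nat_lit 5) (nat_lit 174) (nat_lit 5) (nat_lit 458) (nat_lit 361) (nat_lit 321)))) (XT.nd (nat_lit 78) (nat_lit 456) (nat_lit 0) (XT.lf (nat_lit 0) (nat_lit 923600978) (nat_lit 380) (nat_lit 7440442480) (nat_lit 456) (nat_lit 1519418282) (nat_lit 162) (nat_lit 5) (nat_lit 167) (nat_lit 5) (nat_lit 168) (nat_lit 5) (nat_lit 459) (nat_lit 361) (nat_lit 320)) (XT.nd (nat_lit 78) (nat_lit 380) (nat_lit 0) (XT.lf (nat_lit 0) (nat_lit 2089587586) (nat_lit 456) (nat_lit 1737386482) (nat_lit 76) (nat_lit 6156942052) (nat_lit 161) (nat_lit 5) (nat_lit 167) (nat_lit 5) (nat_lit 162) (nat_lit 5) (nat_lit 460) (nat_lit 361) (nat_lit 319)) (XT.lf (nat_lit 0) (nat_lit 5625749793) (nat_lit 380) (nat_lit 116532788) (nat_lit 456) (nat_lit 4344065070) (nat_lit 156) (nat_lit 5) (nat_lit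 161) (nat_lit 5) (nat_lit 162) (nat_lit 5) (nat_lit 461) (nat_lit 361) (nat_lit 318))))) (XT.nd (nat_lit 234) (nat_lit 836) (nat_lit 0) (XT.nd (nat_lit 78) (nat_lit 456) (nat_lit 0) (XT.lf (nat_lit 0) (nat_lit 2915644543) (nat_lit 380) (nat_lit 6562470725) (nat_lit 456) (nat_lit 712516760) (nat_lit 151) (nat_lit 5) (nat_lit 156) (nat_lit 5) (nat_lit 157) (nat_lit 5) (nat_lit 462) (nat_lit 361) (nat_lit 317)) (XT.nd (nat_lit 78) (nat_lit 0) (nat_lit 0) (XT.lf (nat_lit 0) (nat_lit 116654780) (nat_lit 380) (nat_lit 2823169875) (nat_lit 456) (nat_lit 7357046660) (nat_lit 145) (nat_lit 5) (nat_lit 150) (nat_lit 5) (nat_lit 151) (nat_lit 5) (nat_lit 463) (nat_lit 361) (nat_lit 316)) (XT.lf (nat_lit 0) (nat_lit 6667271079) (nat_lit 456) (nat_lit 2729226089) (nat_lit 76) (nat_lit 1008417602) (nat_lit 145) (nat_lit 5) (nat_lit 151) (nat_lit 5) (nat_lit 146) (nat_lit 5) (nat_lit 464) (nat_lit 361) (nat_lit 315)))) (XT.nd (nat_lit 78)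 (nat_lit 456) (nat_lit 0) (XT.lf (nat_lit 0) (nat_lit 4848782592) (nat_lit 380) (nat_lit 5627538183) (nat_lit 456) (nat_lit 38662676) (nat_lit 140) (nat_lit 5) (nat_lit 145) (nat_lit 5) (nat_lit 146) (nat_lit 5) (nat_lit 465) (nat_lit 361) (nat_lit 314)) (XT.nd (nat_lit 78) (nat_lit 0) (nat_lit 0) (XT.lf (nat_lit 0) (nat_lit 1922269417) (nat_lit 380) (nat_lit 1750971337) (nat_lit 456) (nat_lit 6953774699) (nat_lit 134) (nat_lit 5) (nat_lit 139) (nat_lit 5) (nat_lit 140) (nat_lit 5) (nat_lit 466) (nat_lit 361) (nat_lit 313)) (XT.lf (nat_lit 0) (nat_lit 7468701371) (nat_lit 456) (nat_lit 1083317965) (nat_lit 76) (nat_lit 2189072042) (nat_lit 134) (nat_lit 5) (nat_lit 140) (nat_lit 5) (nat_lit 135) (nat_lit 5) (nat_lit 467) (nat_lit 361) (nat_lit 312))))))) (XT.nd (nat_lit 858) (nat_lit 2280) (nat_lit 0) (XT.nd (nat_lit 390) (nat_lit 1368) (nat_lit 0) (XT.nd (nat_lit 156) (nat_lit 684) (nat_lit 0) (XT.nd (nat_lit 78) (nat_lit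 380) (nat_lit 0) (XT.lf (nat_lit 0) (nat_lit 489572600) (nat_lit 380) (nat_lit 4159559845) (nat_lit 76) (nat_lit 6207993039) (nat_lit 129) (nat_lit 5) (nat_lit 134) (nat_lit 5) (nat_lit 130) (nat_lit 5) (nat_lit 468) (nat_lit 361) (nat_lit 311)) (XT.lf (nat_lit 0) (nat_lit 3633246878) (nat_lit 380) (nat_lit 638870094) (nat_lit 456) (nat_lit 6703152328) (nat_lit 124) (nat_lit 5) (nat_lit 129) (nat_lit 5) (nat_lit 130) (nat_lit 5) (nat_lit 469) (nat_lit 361) (nat_lit 310))) (XT.nd (nat_lit 78) (nat_lit 380) (nat_lit 0) (XT.lf (nat_lit 0) (nat_lit 460175202) (nat_lit 304) (nat_lit 7682079624) (nat_lit 380) (nat_lit 2953287055) (nat_lit 120) (nat_lit 5) (nat_lit 124) (nat_lit 5) (nat_lit 125) (nat_lit 5) (nat_lit 470) (nat_lit 361) (nat_lit 309)) (XT.nd (nat_lit 78) (nat_lit 304) (nat_lit 0) (XT.lf (nat_lit 0) (nat_lit 872527437) (nat_lit 380) (nat_lit 2775970723) (nat_lit 76) (nat_lit 7569365475) (nat_lit 119) (nat_lit 5) (nat_lit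 124) (nat_lit 5) (nat_lit 120) (nat_lit 5) (nat_lit 471) (nat_lit 361) (nat_lit 308)) (XT.lf (nat_lit 0) (nat_lit 4731859319) (nat_lit 380) (nat_lit 6121180931) (nat_lit 76) (nat_lit 489274705) (nat_lit 115) (nat_lit 5) (nat_lit 120) (nat_lit 5) (nat_lit 116) (nat_lit 5) (nat_lit 472) (nat_lit 361) (nat_lit 307))))) (XT.nd (nat_lit 234) (nat_lit 684) (nat_lit 0) (XT.nd (nat_lit 78) (nat_lit 380) (nat_lit 0) (XT.lf (nat_lit 0) (nat_lit 1881944867) (nat_lit 304) (nat_lit 6801152506) (nat_lit 380) (nat_lit 2785867916) (nat_lit 111) (nat_lit 5) (nat_lit 115) (nat_lit 5) (nat_lit 116) (nat_lit 5) (nat_lit 473) (nat_lit 361) (nat_lit 306)) (XT.nd (nat_lit 78) (nat_lit 304) (nat_lit 0) (XT.lf (nat_lit 0) (nat_lit 1101621912) (nat_lit 380) (nat_lit 1542220948) (nat_lit 76) (nat_lit 8954144433) (nat_lit 110) (nat_lit 5) (nat_lit 115) (nat_lit 5) (nat_lit 111) (nat_lit 5) (nat_lit 474) (nat_lit 361) (nat_lit 305)) (XT.lf (nat_lit 0)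 (nat_lit 5043982029) (nat_lit 380) (nat_lit 5071488056) (nat_lit 76) (nat_lit 1613467022) (nat_lit 106) (nat_lit 5) (nat_lit 111) (nat_lit 5) (nat_lit 107) (nat_lit 5) (nat_lit 475) (nat_lit 361) (nat_lit 304)))) (XT.nd (nat_lit 78) (nat_lit 380) (nat_lit 0) (XT.lf (nat_lit 0) (nat_lit 3138899086) (nat_lit 304) (nat_lit 5935276183) (nat_lit 380) (nat_lit 2788154974) (nat_lit 102) (nat_lit 5) (nat_lit 106) (nat_lit 5) (nat_lit 107) (nat_lit 5) (nat_lit 476) (nat_lit 361) (nat_lit 303)) (XT.nd (nat_lit 78) (nat_lit 304) (nat_lit 0) (XT.lf (nat_lit 0) (nat_lit 1166049795) (nat_lit 380) (nat_lit 487911602) (nat_lit 76) (nat_lit 10344379035) (nat_lit 101) (nat_lit 5) (nat_lit 106) (nat_lit 5) (nat_lit 102) (nat_lit 5) (nat_lit 477) (nat_lit 361) (nat_lit 302)) (XT.lf (nat_lit 0) (nat_lit 5193016603) (nat_lit 380) (nat_lit 4219688697) (nat_lit 76) (nat_lit 2723380514) (nat_lit 97) (nat_lit 5) (nat_lit 102) (nat_lit 5) (nat_lit 98)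 (nat_lit 5) (nat_lit 478) (nat_lit 361) (nat_lit 301)))))) (XT.nd (nat_lit 468) (nat_lit 1064) (nat_lit 0) (XT.nd (nat_lit 234) (nat_lit 608) (nat_lit 0) (XT.nd (nat_lit 78) (nat_lit 380) (nat_lit 0) (XT.lf (nat_lit 0) (nat_lit 4199552626) (nat_lit 228) (nat_lit 5104213575) (nat_lit 304) (nat_lit 2972758771) (nat_lit 94) (nat_lit 5) (nat_lit 97) (nat_lit 5) (nat_lit 98) (nat_lit 5) (nat_lit 479) (nat_lit 361) (nat_lit 300)) (XT.nd (nat_lit 78) (nat_lit 0) (nat_lit 0) (XT.lf (nat_lit 0) (nat_lit 359172873) (nat_lit 304) (nat_lit 696310777) (nat_lit 380) (nat_lit 11364300005) (nat_lit 89) (nat_lit 5) (nat_lit 93) (nat_lit 5) (nat_lit 94) (nat_lit 5) (nat_lit 480) (nat_lit 361) (nat_lit 299)) (XT.lf (nat_lit 0) (nat_lit 5165742435) (nat_lit 380) (nat_lit 3599721137) (nat_lit 76) (nat_lit 3799229326) (nat_lit 89) (nat_lit 5) (nat_lit 94) (nat_lit 5) (nat_lit 90) (nat_lit 5) (nat_lit 481) (nat_lit 361) (nat_lit 298)))) (XT.nd (nat_lit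 78) (nat_lit 380) (nat_lit 0) (XT.lf (nat_lit 0) (nat_lit 5029276466) (nat_lit 228) (nat_lit 4328929332) (nat_lit 304) (nat_lit 3354297993) (nat_lit 86) (nat_lit 5) (nat_lit 89) (nat_lit 5) (nat_lit 90) (nat_lit 5) (nat_lit 482) (nat_lit 361) (nat_lit 297)) (XT.nd (nat_lit 78) (nat_lit 0) (nat_lit 0) (XT.lf (nat_lit 0) (nat_lit 755853066) (nat_lit 380) (nat_lit 11902889491) (nat_lit 76) (nat_lit 204537103) (nat_lit 81) (nat_lit 5) (nat_lit 86) (nat_lit 5) (nat_lit 82) (nat_lit 5) (nat_lit 483) (nat_lit 361) (nat_lit 296)) (XT.lf (nat_lit 0) (nat_lit 4946879609) (nat_lit 380) (nat_lit 3248945266) (nat_lit 76) (nat_lit 4819934255) (nat_lit 81) (nat_lit 5) (nat_lit 86) (nat_lit 5) (nat_lit 82) (nat_lit 5) (nat_lit 484) (nat_lit 361) (nat_lit 295))))) (XT.nd (nat_lit 234) (nat_lit 532) (nat_lit 0) (XT.nd (nat_lit 78) (nat_lit 304) (nat_lit 0) (XT.lf (nat_lit 0) (nat_lit 5589910298) (nat_lit 228) (nat_lit 3631811921) (nat_lit 304)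 (nat_lit 3949569250) (nat_lit 78) (nat_lit 5) (nat_lit 81) (nat_lit 5) (nat_lit 82) (nat_lit 5) (nat_lit 485) (nat_lit 361) (nat_lit 294)) (XT.nd (nat_lit 78) (nat_lit 0) (nat_lit 0) (XT.lf (nat_lit 0) (nat_lit 249502584) (nat_lit 304) (nat_lit 12063271779) (nat_lit 76) (nat_lit 1017116777) (nat_lit 74) (nat_lit 5) (nat_lit 78) (nat_lit 5) (nat_lit 75) (nat_lit 5) (nat_lit 486) (nat_lit 361) (nat_lit 293)) (XT.lf (nat_lit 0) (nat_lit 4518909512) (nat_lit 304) (nat_lit 3208555053) (nat_lit 76) (nat_lit 5762894344) (nat_lit 74) (nat_lit 5) (nat_lit 78) (nat_lit 5) (nat_lit 75) (nat_lit 5) (nat_lit 487) (nat_lit 361) (nat_lit 292)))) (XT.nd (nat_lit 78) (nat_lit 304) (nat_lit 0) (XT.lf (nat_lit 0) (nat_lit 5839337486) (nat_lit 228) (nat_lit 3036912534) (nat_lit 304) (nat_lit 4777738051) (nat_lit 71) (nat_lit 5) (nat_lit 74) (nat_lit 5) (nat_lit 75) (nat_lit 5) (nat_lit 488) (nat_lit 361) (nat_lit 291)) (XT.nd (nat_lit 78) (nat_lit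 76) (nat_lit 0) (XT.lf (nat_lit 0) (nat_lit 1235288286) (nat_lit 228) (nat_lit 12091261907) (nat_lit 304) (nat_lit 494226256) (nat_lit 68) (nat_lit 5) (nat_lit 71) (nat_lit 5) (nat_lit 72) (nat_lit 5) (nat_lit 489) (nat_lit 361) (nat_lit 290)) (XT.lf (nat_lit 0) (nat_lit 3861873449) (nat_lit 304) (nat_lit 3524031376) (nat_lit 76) (nat_lit 6603740603) (nat_lit 67) (nat_lit 5) (nat_lit 71) (nat_lit 5) (nat_lit 68) (nat_lit 5) (nat_lit 490) (nat_lit 361) (nat_lit 289))))))))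
noncomputable def xc45 : XT := (XT.nd (nat_lit 53976) (nat_lit 0) (nat_lit 15124) (XT.nd (nat_lit 858) (nat_lit 836) (nat_lit 0) (XT.nd (nat_lit 390) (nat_lit 912) (nat_lit 0) (XT.nd (nat_lit 156) (nat_lit 228) (nat_lit 0) (XT.nd (nat_lit 78) (nat_lit 228) (nat_lit 0) (XT.lf (nat_lit 0) (nat_lit 5731018295) (nat_lit 228) (nat_lit 2570203067) (nat_lit 304) (nat_lit 5860552930) (nat_lit 64) (nat_lit 5) (nat_lit 67) (nat_lit 5) (nat_lit 68) (nat_lit 5) (nat_lit 491) (nat_lit 361) (nat_lit 288)) (XT.lf (nat_lit 0) (nat_lit 817770165) (nat_lit 228) (nat_lit 12021562988) (nat_lit 304) (nat_lit 1497815713) (nat_lit 61) (nat_lit 5) (nat_lit 64) (nat_lit 5) (nat_lit 65) (nat_lit 5) (nat_lit 492) (nat_lit 361) (nat_lit 287))) (XT.nd (nat_lit 78) (nat_lit 152) (nat_lit 0) (XT.lf (nat_lit 0) (nat_lit 2953147182) (nat_lit 304) (nat_lit 4245639671) (nat_lit 76) (nat_lit 7316069507) (nat_lit 60) (nat_lit 5) (nat_lit 64) (nat_lit 5) (nat_lit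 61) (nat_lit 5) (nat_lit 493) (nat_lit 361) (nat_lit 286)) (XT.nd (nat_lit 78) (nat_lit 0) (nat_lit 0) (XT.lf (nat_lit 0) (nat_lit 5213476752) (nat_lit 152) (nat_lit 2259855679) (nat_lit 228) (nat_lit 7222584901) (nat_lit 58) (nat_lit 5) (nat_lit 60) (nat_lit 5) (nat_lit 61) (nat_lit 5) (nat_lit 494) (nat_lit 361) (nat_lit 285)) (XT.lf (nat_lit 0) (nat_lit 12097147018) (nat_lit 228) (nat_lit 37604079) (nat_lit 76) (nat_lit 2745586378) (nat_lit 58) (nat_lit 5) (nat_lit 61) (nat_lit 5) (nat_lit 59) (nat_lit 5) (nat_lit 495) (nat_lit 361) (nat_lit 284))))) (XT.nd (nat_lit 234) (nat_lit 456) (nat_lit 0) (XT.nd (nat_lit 78) (nat_lit 152) (nat_lit 0) (XT.lf (nat_lit 0) (nat_lit 1767189117) (nat_lit 304) (nat_lit 5428977326) (nat_lit 76) (nat_lit 7871153693) (nat_lit 54) (nat_lit 5) (nat_lit 58) (nat_lit 5) (nat_lit 55) (nat_lit 5) (nat_lit 496) (nat_lit 361) (nat_lit 283)) (XT.nd (nat_lit 78) (nat_lit 0) (nat_lit 0) (XT.lf (nat_lit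 0) (nat_lit 4229736090) (nat_lit 152) (nat_lit 2136546604) (nat_lit 228) (nat_lit 8891494676) (nat_lit 52) (nat_lit 5) (nat_lit 54) (nat_lit 5) (nat_lit 55) (nat_lit 5) (nat_lit 497) (nat_lit 361) (nat_lit 282)) (XT.lf (nat_lit 0) (nat_lit 11080999382) (nat_lit 228) (nat_lit 1373675358) (nat_lit 76) (nat_lit 2996898461) (nat_lit 52) (nat_lit 5) (nat_lit 55) (nat_lit 5) (nat_lit 53) (nat_lit 5) (nat_lit 498) (nat_lit 361) (nat_lit 281)))) (XT.nd (nat_lit 78) (nat_lit 152) (nat_lit 0) (XT.lf (nat_lit 0) (nat_lit 275259570) (nat_lit 304) (nat_lit 7135576224) (nat_lit 76) (nat_lit 8237627045) (nat_lit 48) (nat_lit 5) (nat_lit 52) (nat_lit 5) (nat_lit 49) (nat_lit 5) (nat_lit 499) (nat_lit 361) (nat_lit 280)) (XT.nd (nat_lit 78) (nat_lit 0) (nat_lit 0) (XT.lf (nat_lit 0) (nat_lit 2716697164) (nat_lit 152) (nat_lit 2233787181) (nat_lit 228) (nat_lit 10898330346) (nat_lit 46) (nat_lit 5) (nat_lit 48) (nat_lit 5) (nat_lit 49) (nat_lit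 5) (nat_lit 500) (nat_lit 361) (nat_lit 279)) (XT.lf (nat_lit 0) (nat_lit 9755322790) (nat_lit 228) (nat_lit 3266300833) (nat_lit 76) (nat_lit 3030829879) (nat_lit 46) (nat_lit 5) (nat_lit 49) (nat_lit 5) (nat_lit 47) (nat_lit 5) (nat_lit 501) (nat_lit 361) (nat_lit 278)))))) (XT.nd (nat_lit 52650) (nat_lit 0) (nat_lit 28728) (XT.nd (nat_lit 234) (nat_lit 380) (nat_lit 0) (XT.nd (nat_lit 78) (nat_lit 228) (nat_lit 0) (XT.lf (nat_lit 0) (nat_lit 6815815246) (nat_lit 228) (nat_lit 7868240539) (nat_lit 304) (nat_lit 1575555412) (nat_lit 43) (nat_lit 5) (nat_lit 46) (nat_lit 5) (nat_lit 47) (nat_lit 5) (nat_lit 502) (nat_lit 361) (nat_lit 277)) (XT.nd (nat_lit 78) (nat_lit 0) (nat_lit 0) (XT.lf (nat_lit 0) (nat_lit 604453693) (nat_lit 152) (nat_lit 2588285307) (nat_lit 228) (nat_lit 13277858511) (nat_lit 40) (nat_lit 5) (nat_lit 42) (nat_lit 5) (nat_lit 43) (nat_lit 5) (nat_lit 503) (nat_lit 361) (nat_lit 276)) (XT.lf (nat_lit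 0) (nat_lit 8086169695) (nat_lit 228) (nat_lit 5787631837) (nat_lit 76) (nat_lit 2810778334) (nat_lit 40) (nat_lit 5) (nat_lit 43) (nat_lit 5) (nat_lit 41) (nat_lit 5) (nat_lit 504) (nat_lit 361) (nat_lit 275)))) (XT.nd (nat_lit 78) (nat_lit 228) (nat_lit 0) (XT.lf (nat_lit 0) (nat_lit 4479389125) (nat_lit 152) (nat_lit 8613807048) (nat_lit 228) (nat_lit 3809333056) (nat_lit 38) (nat_lit 5) (nat_lit 40) (nat_lit 5) (nat_lit 41) (nat_lit 5) (nat_lit 505) (nat_lit 361) (nat_lit 274)) (XT.nd (nat_lit 78) (nat_lit 152) (nat_lit 0) (XT.lf (nat_lit 0) (nat_lit 1070061378) (nat_lit 228) (nat_lit 2155812850) (nat_lit 76) (nat_lit 13898652694) (nat_lit 37) (nat_lit 5) (nat_lit 40) (nat_lit 5) (nat_lit 38) (nat_lit 5) (nat_lit 506) (nat_lit 361) (nat_lit 273)) (XT.lf (nat_lit 0) (nat_lit 6035533804) (nat_lit 228) (nat_lit 9017613908) (nat_lit 76) (nat_lit 2296525119) (nat_lit 35) (nat_lit 5) (nat_lit 38) (nat_lit 5) (nat_lit 36) (nat_lit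 5) (nat_lit 507) (nat_lit 361) (nat_lit 272))))) (XT.nd (nat_lit 234) (nat_lit 2508) (nat_lit 0) (XT.nd (nat_lit 78) (nat_lit 1748) (nat_lit 0) (XT.lf (nat_lit 0) (nat_lit 62961391) (nat_lit 1748) (nat_lit 3410006776) (nat_lit 0) (nat_lit 62961391) (nat_lit 469) (nat_lit 5) (nat_lit 492) (nat_lit 4) (nat_lit 469) (nat_lit 4) (nat_lit 416) (nat_lit 362) (nat_lit 362)) (XT.nd (nat_lit 78) (nat_lit 1748) (nat_lit 0) (XT.lf (nat_lit 0) (nat_lit 3564868319) (nat_lit 1748) (nat_lit 1718800571) (nat_lit 0) (nat_lit 1823868750) (nat_lit 469) (nat_lit 5) (nat_lit 492) (nat_lit 4) (nat_lit 469) (nat_lit 4) (nat_lit 417) (nat_lit 362) (nat_lit 361)) (XT.lf (nat_lit 0) (nat_lit 3461595802) (nat_lit 1748) (nat_lit 3565562120) (nat_lit 1748) (nat_lit 117700229) (nat_lit 446) (nat_lit 4) (nat_lit 469) (nat_lit 5) (nat_lit 469) (nat_lit 4) (nat_lit 418) (nat_lit 362) (nat_lit 360)))) (XT.nd (nat_lit 78) (nat_lit 988) (nat_lit 0) (XT.lf (nat_lit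 0) (nat_lit 1515377729) (nat_lit 1444) (nat_lit 1770084673) (nat_lit 1520) (nat_lit 3897963914) (nat_lit 426) (nat_lit 5) (nat_lit 445) (nat_lit 5) (nat_lit 446) (nat_lit 4) (nat_lit 419) (nat_lit 362) (nat_lit 359)) (XT.nd (nat_lit 78) (nat_lit 988) (nat_lit 0) (XT.lf (nat_lit 0) (nat_lit 6713780042) (nat_lit 1520) (nat_lit 425289452) (nat_lit 0) (nat_lit 84526020) (nat_lit 426) (nat_lit 5) (nat_lit 446) (nat_lit 4) (nat_lit 426) (nat_lit 4) (nat_lit 420) (nat_lit 362) (nat_lit 358)) (XT.lf (nat_lit 0) (nat_lit 2885569700) (nat_lit 988) (nat_lit 2377280177) (nat_lit 76) (nat_lit 2001791274) (nat_lit 413) (nat_lit 5) (nat_lit 426) (nat_lit 5) (nat_lit 414) (nat_lit 4) (nat_lit 421) (nat_lit 362) (nat_lit 357))))))) (XT.nd (nat_lit 936) (nat_lit 6004) (nat_lit 0) (XT.nd (nat_lit 468) (nat_lit 3116) (nat_lit 0) (XT.nd (nat_lit 234) (nat_lit 2584) (nat_lit 0) (XT.nd (nat_lit 78) (nat_lit 988) (nat_lit 0) (XT.lf (nat_lit 0) (nat_lit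 2972506888) (nat_lit 912) (nat_lit 3326797890) (nat_lit 988) (nat_lit 1008007665) (nat_lit 401) (nat_lit 5) (nat_lit 413) (nat_lit 5) (nat_lit 414) (nat_lit 4) (nat_lit 422) (nat_lit 362) (nat_lit 356)) (XT.nd (nat_lit 78) (nat_lit 0) (nat_lit 0) (XT.lf (nat_lit 0) (nat_lit 1039661496) (nat_lit 912) (nat_lit 1317226886) (nat_lit 988) (nat_lit 4994484265) (nat_lit 388) (nat_lit 5) (nat_lit 400) (nat_lit 5) (nat_lit 401) (nat_lit 5) (nat_lit 423) (nat_lit 362) (nat_lit 355)) (XT.lf (nat_lit 0) (nat_lit 5745901379) (nat_lit 988) (nat_lit 896867478) (nat_lit 76) (nat_lit 754022116) (nat_lit 388) (nat_lit 5) (nat_lit 401) (nat_lit 5) (nat_lit 389) (nat_lit 4) (nat_lit 424) (nat_lit 362) (nat_lit 354)))) (XT.nd (nat_lit 78) (nat_lit 1672) (nat_lit 0) (XT.lf (nat_lit 0) (nat_lit 1712492939) (nat_lit 912) (nat_lit 2845390824) (nat_lit 76) (nat_lit 2885501415) (nat_lit 376) (nat_lit 5) (nat_lit 388) (nat_lit 5) (nat_lit 377) (nat_lit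 5) (nat_lit 425) (nat_lit 362) (nat_lit 353)) (XT.nd (nat_lit 78) (nat_lit 836) (nat_lit 0) (XT.lf (nat_lit 0) (nat_lit 2679379184) (nat_lit 836) (nat_lit 2403008527) (nat_lit 912) (nat_lit 2409093860) (nat_lit 365) (nat_lit 5) (nat_lit 376) (nat_lit 5) (nat_lit 377) (nat_lit 5) (nat_lit 426) (nat_lit 362) (nat_lit 352)) (XT.lf (nat_lit 0) (nat_lit 747080227) (nat_lit 760) (nat_lit 181516775) (nat_lit 836) (nat_lit 6612584729) (nat_lit 354) (nat_lit 5) (nat_lit 364) (nat_lit 5) (nat_lit 365) (nat_lit 5) (nat_lit 427) (nat_lit 362) (nat_lit 351))))) (XT.nd (nat_lit 234) (nat_lit 1520) (nat_lit 0) (XT.nd (nat_lit 78) (nat_lit 1596) (nat_lit 0) (XT.lf (nat_lit 0) (nat_lit 4285793557) (nat_lit 836) (nat_lit 1208274647) (nat_lit 76) (nat_lit 2097803668) (nat_lit 354) (nat_lit 5) (nat_lit 365) (nat_lit 5) (nat_lit 355) (nat_lit 5) (nat_lit 428) (nat_lit 362) (nat_lit 350)) (XT.nd (nat_lit 78) (nat_lit 760) (nat_lit 0) (XT.lf (nat_lit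 0) (nat_lit 35890231) (nat_lit 836) (nat_lit 3166265601) (nat_lit 76) (nat_lit 4442021329) (nat_lit 343) (nat_lit 5) (nat_lit 354) (nat_lit 5) (nat_lit 344) (nat_lit 5) (nat_lit 429) (nat_lit 362) (nat_lit 349)) (XT.lf (nat_lit 0) (nat_lit 2539187809) (nat_lit 760) (nat_lit 826394587) (nat_lit 836) (nat_lit 4332219852) (nat_lit 333) (nat_lit 5) (nat_lit 343) (nat_lit 5) (nat_lit 344) (nat_lit 5) (nat_lit 430) (nat_lit 362) (nat_lit 348)))) (XT.nd (nat_lit 78) (nat_lit 760) (nat_lit 0) (XT.lf (nat_lit 0) (nat_lit 576981325) (nat_lit 760) (nat_lit 6161511733) (nat_lit 836) (nat_lit 1014487823) (nat_lit 323) (nat_lit 5) (nat_lit 333) (nat_lit 5) (nat_lit 334) (nat_lit 5) (nat_lit 431) (nat_lit 362) (nat_lit 347)) (XT.nd (nat_lit 78) (nat_lit 684) (nat_lit 0) (XT.lf (nat_lit 0) (nat_lit 2320269416) (nat_lit 836) (nat_lit 1402447576) (nat_lit 76) (nat_lit 4086616442) (nat_lit 322) (nat_lit 5) (nat_lit 333) (nat_lit 5) (nat_lit 323)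 (nat_lit 5) (nat_lit 432) (nat_lit 362) (nat_lit 346)) (XT.lf (nat_lit 0) (nat_lit 4469847343) (nat_lit 684) (nat_lit 1209902029) (nat_lit 760) (nat_lit 2187510076) (nat_lit 313) (nat_lit 5) (nat_lit 322) (nat_lit 5) (nat_lit 323) (nat_lit 5) (nat_lit 433) (nat_lit 362) (nat_lit 345)))))) (XT.nd (nat_lit 468) (nat_lit 2508) (nat_lit 0) (XT.nd (nat_lit 234) (nat_lit 2052) (nat_lit 0) (XT.nd (nat_lit 78) (nat_lit 684) (nat_lit 0) (XT.lf (nat_lit 0) (nat_lit 1142162520) (nat_lit 760) (nat_lit 5427092551) (nat_lit 76) (nat_lit 1357396646) (nat_lit 303) (nat_lit 5) (nat_lit 313) (nat_lit 5) (nat_lit 304) (nat_lit 5) (nat_lit 434) (nat_lit 362) (nat_lit 344)) (XT.nd (nat_lit 78) (nat_lit 0) (nat_lit 0) (XT.lf (nat_lit 0) (nat_lit 487934138) (nat_lit 684) (nat_lit 3998831034) (nat_lit 760) (nat_lit 3500636946) (nat_lit 294) (nat_lit 5) (nat_lit 303) (nat_lit 5) (nat_lit 304) (nat_lit 5) (nat_lit 435) (nat_lit 362) (nat_lit 343)) (XT.lf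 (nat_lit 0) (nat_lit 6525723054) (nat_lit 684) (nat_lit 1353085224) (nat_lit 760) (nat_lit 170960066) (nat_lit 294) (nat_lit 5) (nat_lit 303) (nat_lit 5) (nat_lit 304) (nat_lit 5) (nat_lit 436) (nat_lit 362) (nat_lit 342)))) (XT.nd (nat_lit 78) (nat_lit 1292) (nat_lit 0) (XT.lf (nat_lit 0) (nat_lit 3166327822) (nat_lit 760) (nat_lit 3581463471) (nat_lit 76) (nat_lit 1365516752) (nat_lit 284) (nat_lit 5) (nat_lit 294) (nat_lit 5) (nat_lit 285) (nat_lit 5) (nat_lit 437) (nat_lit 362) (nat_lit 341)) (XT.nd (nat_lit 78) (nat_lit 684) (nat_lit 0) (XT.lf (nat_lit 0) (nat_lit 2505236924) (nat_lit 608) (nat_lit 4043761697) (nat_lit 684) (nat_lit 1629489898) (nat_lit 276) (nat_lit 5) (nat_lit 284) (nat_lit 5) (nat_lit 285) (nat_lit 5) (nat_lit 438) (nat_lit 362) (nat_lit 340)) (XT.lf (nat_lit 0) (nat_lit 442648372) (nat_lit 608) (nat_lit 1261419629) (nat_lit 684) (nat_lit 6541232940) (nat_lit 267) (nat_lit 5) (nat_lit 275) (nat_lit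 5) (nat_lit 276) (nat_lit 5) (nat_lit 439) (nat_lit 362) (nat_lit 339))))) (XT.nd (nat_lit 234) (nat_lit 1216) (nat_lit 0) (XT.nd (nat_lit 78) (nat_lit 1292) (nat_lit 0) (XT.lf (nat_lit 0) (nat_lit 5077236985) (nat_lit 684) (nat_lit 1646063922) (nat_lit 76) (nat_lit 1590048576) (nat_lit 267) (nat_lit 5) (nat_lit 276) (nat_lit 5) (nat_lit 268) (nat_lit 5) (nat_lit 440) (nat_lit 362) (nat_lit 338)) (XT.nd (nat_lit 78) (nat_lit 608) (nat_lit 0) (XT.lf (nat_lit 0) (nat_lit 118800361) (nat_lit 684) (nat_lit 3766474180) (nat_lit 76) (nat_lit 4497767728) (nat_lit 258) (nat_lit 5) (nat_lit 267) (nat_lit 5) (nat_lit 259) (nat_lit 5) (nat_lit 441) (nat_lit 362) (nat_lit 337)) (XT.lf (nat_lit 0) (nat_lit 2515593378) (nat_lit 608) (nat_lit 956851389) (nat_lit 684) (nat_lit 4981766896) (nat_lit 250) (nat_lit 5) (nat_lit 258) (nat_lit 5) (nat_lit 259) (nat_lit 5) (nat_lit 442) (nat_lit 362) (nat_lit 336)))) (XT.nd (nat_lit 78) (nat_lit 684)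 (nat_lit 0) (XT.lf (nat_lit 0) (nat_lit 370325109) (nat_lit 532) (nat_lit 6511817388) (nat_lit 608) (nat_lit 1644892007) (nat_lit 243) (nat_lit 5) (nat_lit 250) (nat_lit 5) (nat_lit 251) (nat_lit 5) (nat_lit 443) (nat_lit 362) (nat_lit 335)) (XT.nd (nat_lit 78) (nat_lit 608) (nat_lit 0) (XT.lf (nat_lit 0) (nat_lit 1730282684) (nat_lit 608) (nat_lit 1802074053) (nat_lit 76) (nat_lit 5068845417) (nat_lit 242) (nat_lit 5) (nat_lit 250) (nat_lit 5) (nat_lit 243) (nat_lit 5) (nat_lit 444) (nat_lit 362) (nat_lit 334)) (XT.lf (nat_lit 0) (nat_lit 4661778456) (nat_lit 608) (nat_lit 468637710) (nat_lit 684) (nat_lit 3546639038) (nat_lit 234) (nat_lit 5) (nat_lit 242) (nat_lit 5) (nat_lit 243) (nat_lit 5) (nat_lit 445) (nat_lit 362) (nat_lit 333))))))))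
noncomputable def xc46 : XT := (XT.nd (nat_lit 1794) (nat_lit 5016) (nat_lit 0) (XT.nd (nat_lit 858) (nat_lit 3724) (nat_lit 0) (XT.nd (nat_lit 390) (nat_lit 1976) (nat_lit 0) (XT.nd (nat_lit 156) (nat_lit 1064) (nat_lit 0) (XT.nd (nat_lit 78) (nat_lit 608) (nat_lit 0) (XT.lf (nat_lit 0) (nat_lit 2471666661) (nat_lit 532) (nat_lit 6121989303) (nat_lit 608) (nat_lit 160876212) (nat_lit 227) (nat_lit 5) (nat_lit 234) (nat_lit 5) (nat_lit 235) (nat_lit 5) (nat_lit 446) (nat_lit 362) (nat_lit 332)) (XT.lf (nat_lit 0) (nat_lit 219173093) (nat_lit 532) (nat_lit 3011738178) (nat_lit 608) (nat_lit 5602598596) (nat_lit 219) (nat_lit 5) (nat_lit 226) (nat_lit 5) (nat_lit 227) (nat_lit 5) (nat_lit 447) (nat_lit 362) (nat_lit 331))) (XT.nd (nat_lit 78) (nat_lit 1064) (nat_lit 0) (XT.lf (nat_lit 0) (nat_lit 6682127374) (nat_lit 608) (nat_lit 2048419087) (nat_lit 76) (nat_lit 183632859) (nat_lit 219) (nat_lit 5) (nat_lit 227) (nat_lit 5)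 (nat_lit 220) (nat_lit 5) (nat_lit 448) (nat_lit 362) (nat_lit 330)) (XT.nd (nat_lit 78) (nat_lit 532) (nat_lit 0) (XT.lf (nat_lit 0) (nat_lit 1191277804) (nat_lit 532) (nat_lit 4382667107) (nat_lit 76) (nat_lit 3422344995) (nat_lit 212) (nat_lit 5) (nat_lit 219) (nat_lit 5) (nat_lit 213) (nat_lit 5) (nat_lit 449) (nat_lit 362) (nat_lit 329)) (XT.lf (nat_lit 0) (nat_lit 2304176413) (nat_lit 532) (nat_lit 2329262888) (nat_lit 608) (nat_lit 4446711210) (nat_lit 205) (nat_lit 5) (nat_lit 212) (nat_lit 5) (nat_lit 213) (nat_lit 5) (nat_lit 450) (nat_lit 362) (nat_lit 328))))) (XT.nd (nat_lit 234) (nat_lit 988) (nat_lit 0) (XT.nd (nat_lit 78) (nat_lit 988) (nat_lit 0) (XT.lf (nat_lit 0) (nat_lit 8132227067) (nat_lit 608) (nat_lit 55963825) (nat_lit 76) (nat_lit 977749551) (nat_lit 205) (nat_lit 5) (nat_lit 213) (nat_lit 5) (nat_lit 206) (nat_lit 5) (nat_lit 451) (nat_lit 362) (nat_lit 327)) (XT.nd (nat_lit 78) (nat_lit 456) (nat_lit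 0) (XT.lf (nat_lit 0) (nat_lit 2427886167) (nat_lit 532) (nat_lit 2464034179) (nat_lit 76) (nat_lit 4360966645) (nat_lit 198) (nat_lit 5) (nat_lit 205) (nat_lit 5) (nat_lit 199) (nat_lit 5) (nat_lit 452) (nat_lit 362) (nat_lit 326)) (XT.lf (nat_lit 0) (nat_lit 4413476954) (nat_lit 456) (nat_lit 1513380156) (nat_lit 532) (nat_lit 3414946413) (nat_lit 192) (nat_lit 5) (nat_lit 198) (nat_lit 5) (nat_lit 199) (nat_lit 5) (nat_lit 453) (nat_lit 362) (nat_lit 325)))) (XT.nd (nat_lit 78) (nat_lit 456) (nat_lit 0) (XT.lf (nat_lit 0) (nat_lit 57750374) (nat_lit 532) (nat_lit 7457641011) (nat_lit 76) (nat_lit 1917200391) (nat_lit 185) (nat_lit 5) (nat_lit 192) (nat_lit 5) (nat_lit 186) (nat_lit 5) (nat_lit 454) (nat_lit 362) (nat_lit 324)) (XT.nd (nat_lit 78) (nat_lit 456) (nat_lit 0) (XT.lf (nat_lit 0) (nat_lit 3550988486) (nat_lit 532) (nat_lit 542154838) (nat_lit 76) (nat_lit 5431671649) (nat_lit 185) (nat_lit 5) (nat_lit 192) (nat_lit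 5) (nat_lit 186) (nat_lit 5) (nat_lit 455) (nat_lit 362) (nat_lit 323)) (XT.lf (nat_lit 0) (nat_lit 6530761852) (nat_lit 456) (nat_lit 580101848) (nat_lit 532) (nat_lit 2508090257) (nat_lit 179) (nat_lit 5) (nat_lit 185) (nat_lit 5) (nat_lit 186) (nat_lit 5) (nat_lit 456) (nat_lit 362) (nat_lit 322)))))) (XT.nd (nat_lit 468) (nat_lit 1596) (nat_lit 0) (XT.nd (nat_lit 234) (nat_lit 1216) (nat_lit 0) (XT.nd (nat_lit 78) (nat_lit 456) (nat_lit 0) (XT.lf (nat_lit 0) (nat_lit 1017366594) (nat_lit 456) (nat_lit 5717896715) (nat_lit 76) (nat_lit 2979508070) (nat_lit 173) (nat_lit 5) (nat_lit 179) (nat_lit 5) (nat_lit 174) (nat_lit 5) (nat_lit 457) (nat_lit 362) (nat_lit 321)) (XT.nd (nat_lit 78) (nat_lit 0) (nat_lit 0) (XT.lf (nat_lit 0) (nat_lit 1383941057) (nat_lit 456) (nat_lit 3184380960) (nat_lit 532) (nat_lit 5244086486) (nat_lit 167) (nat_lit 5) (nat_lit 173) (nat_lit 5) (nat_lit 174) (nat_lit 5) (nat_lit 458) (nat_lit 362)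 (nat_lit 320)) (XT.lf (nat_lit 0) (nat_lit 8186925627) (nat_lit 532) (nat_lit 1276353564) (nat_lit 76) (nat_lit 448792851) (nat_lit 167) (nat_lit 5) (nat_lit 174) (nat_lit 5) (nat_lit 168) (nat_lit 5) (nat_lit 459) (nat_lit 362) (nat_lit 319)))) (XT.nd (nat_lit 78) (nat_lit 760) (nat_lit 0) (XT.lf (nat_lit 0) (nat_lit 1855980636) (nat_lit 456) (nat_lit 4015109724) (nat_lit 76) (nat_lit 4142077291) (nat_lit 161) (nat_lit 5) (nat_lit 167) (nat_lit 5) (nat_lit 162) (nat_lit 5) (nat_lit 460) (nat_lit 362) (nat_lit 318)) (XT.nd (nat_lit 78) (nat_lit 380) (nat_lit 0) (XT.lf (nat_lit 0) (nat_lit 3284556952) (nat_lit 380) (nat_lit 2187227606) (nat_lit 456) (nat_lit 4644555362) (nat_lit 156) (nat_lit 5) (nat_lit 161) (nat_lit 5) (nat_lit 162) (nat_lit 5) (nat_lit 461) (nat_lit 362) (nat_lit 317)) (XT.lf (nat_lit 0) (nat_lit 493223895) (nat_lit 380) (nat_lit 8663672655) (nat_lit 456) (nat_lit 1064745023) (nat_lit 151) (nat_lit 5) (nat_lit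 156) (nat_lit 5) (nat_lit 157) (nat_lit 5) (nat_lit 462) (nat_lit 362) (nat_lit 316))))) (XT.nd (nat_lit 234) (nat_lit 760) (nat_lit 0) (XT.nd (nat_lit 78) (nat_lit 760) (nat_lit 0) (XT.lf (nat_lit 0) (nat_lit 2569976294) (nat_lit 456) (nat_lit 2368999567) (nat_lit 76) (nat_lit 5389398278) (nat_lit 150) (nat_lit 5) (nat_lit 156) (nat_lit 5) (nat_lit 151) (nat_lit 5) (nat_lit 463) (nat_lit 362) (nat_lit 315)) (XT.nd (nat_lit 78) (nat_lit 380) (nat_lit 0) (XT.lf (nat_lit 0) (nat_lit 5132554463) (nat_lit 380) (nat_lit 1121374662) (nat_lit 456) (nat_lit 4183361035) (nat_lit 145) (nat_lit 5) (nat_lit 150) (nat_lit 5) (nat_lit 151) (nat_lit 5) (nat_lit 464) (nat_lit 362) (nat_lit 314)) (XT.lf (nat_lit 0) (nat_lit 2213523467) (nat_lit 380) (nat_lit 7804135047) (nat_lit 456) (nat_lit 530609377) (nat_lit 140) (nat_lit 5) (nat_lit 145) (nat_lit 5) (nat_lit 146) (nat_lit 5) (nat_lit 465) (nat_lit 362) (nat_lit 313)))) (XT.nd (nat_lit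 78) (nat_lit 684) (nat_lit 0) (XT.lf (nat_lit 0) (nat_lit 3154396760) (nat_lit 456) (nat_lit 800825603) (nat_lit 76) (nat_lit 6705810935) (nat_lit 139) (nat_lit 5) (nat_lit 145) (nat_lit 5) (nat_lit 140) (nat_lit 5) (nat_lit 466) (nat_lit 362) (nat_lit 312)) (XT.nd (nat_lit 78) (nat_lit 304) (nat_lit 0) (XT.lf (nat_lit 0) (nat_lit 6906405119) (nat_lit 380) (nat_lit 3112604) (nat_lit 456) (nat_lit 3866400782) (nat_lit 134) (nat_lit 5) (nat_lit 139) (nat_lit 5) (nat_lit 140) (nat_lit 5) (nat_lit 467) (nat_lit 362) (nat_lit 311)) (XT.lf (nat_lit 0) (nat_lit 3845203011) (nat_lit 304) (nat_lit 6909982880) (nat_lit 380) (nat_lit 137611562) (nat_lit 130) (nat_lit 5) (nat_lit 134) (nat_lit 5) (nat_lit 135) (nat_lit 5) (nat_lit 468) (nat_lit 362) (nat_lit 310))))))) (XT.nd (nat_lit 936) (nat_lit 2280) (nat_lit 0) (XT.nd (nat_lit 468) (nat_lit 1216) (nat_lit 0) (XT.nd (nat_lit 234) (nat_lit 684) (nat_lit 0) (XT.nd (nat_lit 78) (nat_lit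 380) (nat_lit 0) (XT.lf (nat_lit 0) (nat_lit 675229225) (nat_lit 380) (nat_lit 2932021293) (nat_lit 456) (nat_lit 7404500708) (nat_lit 124) (nat_lit 5) (nat_lit 129) (nat_lit 5) (nat_lit 130) (nat_lit 5) (nat_lit 469) (nat_lit 362) (nat_lit 309)) (XT.nd (nat_lit 78) (nat_lit 380) (nat_lit 0) (XT.lf (nat_lit 0) (nat_lit 7439344547) (nat_lit 456) (nat_lit 2557669161) (nat_lit 76) (nat_lit 1135773276) (nat_lit 124) (nat_lit 5) (nat_lit 130) (nat_lit 5) (nat_lit 125) (nat_lit 5) (nat_lit 470) (nat_lit 362) (nat_lit 308)) (XT.lf (nat_lit 0) (nat_lit 105026937) (nat_lit 380) (nat_lit 5892725637) (nat_lit 76) (nat_lit 5258195535) (nat_lit 119) (nat_lit 5) (nat_lit 124) (nat_lit 5) (nat_lit 120) (nat_lit 5) (nat_lit 471) (nat_lit 362) (nat_lit 307)))) (XT.nd (nat_lit 78) (nat_lit 380) (nat_lit 0) (XT.lf (nat_lit 0) (nat_lit 2034198728) (nat_lit 304) (nat_lit 1886508375) (nat_lit 380) (nat_lit 7460567528) (nat_lit 115) (nat_lit 5) (nat_lit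 119) (nat_lit 5) (nat_lit 120) (nat_lit 5) (nat_lit 472) (nat_lit 362) (nat_lit 306)) (XT.nd (nat_lit 78) (nat_lit 380) (nat_lit 0) (XT.lf (nat_lit 0) (nat_lit 7827863646) (nat_lit 380) (nat_lit 1388114765) (nat_lit 76) (nat_lit 2292830309) (nat_lit 115) (nat_lit 5) (nat_lit 120) (nat_lit 5) (nat_lit 116) (nat_lit 5) (nat_lit 473) (nat_lit 362) (nat_lit 305)) (XT.lf (nat_lit 0) (nat_lit 189525992) (nat_lit 380) (nat_lit 4896666435) (nat_lit 76) (nat_lit 6552331726) (nat_lit 110) (nat_lit 5) (nat_lit 115) (nat_lit 5) (nat_lit 111) (nat_lit 5) (nat_lit 474) (nat_lit 362) (nat_lit 304))))) (XT.nd (nat_lit 234) (nat_lit 532) (nat_lit 0) (XT.nd (nat_lit 78) (nat_lit 380) (nat_lit 0) (XT.lf (nat_lit 0) (nat_lit 3237676696) (nat_lit 304) (nat_lit 842139352) (nat_lit 380) (nat_lit 7690701322) (nat_lit 106) (nat_lit 5) (nat_lit 110) (nat_lit 5) (nat_lit 111) (nat_lit 5) (nat_lit 475) (nat_lit 362) (nat_lit 303)) (XT.nd (nat_lit 78)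 (nat_lit 380) (nat_lit 0) (XT.lf (nat_lit 0) (nat_lit 8065077862) (nat_lit 380) (nat_lit 389413677) (nat_lit 76) (nat_lit 3450319560) (nat_lit 106) (nat_lit 5) (nat_lit 111) (nat_lit 5) (nat_lit 107) (nat_lit 5) (nat_lit 476) (nat_lit 362) (nat_lit 302)) (XT.lf (nat_lit 0) (nat_lit 106645809) (nat_lit 380) (nat_lit 4088396936) (nat_lit 76) (nat_lit 7846349328) (nat_lit 101) (nat_lit 5) (nat_lit 106) (nat_lit 5) (nat_lit 102) (nat_lit 5) (nat_lit 477) (nat_lit 362) (nat_lit 301)))) (XT.nd (nat_lit 78) (nat_lit 228) (nat_lit 0) (XT.lf (nat_lit 0) (nat_lit 4074323403) (nat_lit 380) (nat_lit 7926296358) (nat_lit 76) (nat_lit 179705328) (nat_lit 97) (nat_lit 5) (nat_lit 102) (nat_lit 5) (nat_lit 98) (nat_lit 5) (nat_lit 478) (nat_lit 362) (nat_lit 300)) (XT.nd (nat_lit 78) (nat_lit 0) (nat_lit 0) (XT.lf (nat_lit 0) (nat_lit 412489064) (nat_lit 228) (nat_lit 7729420756) (nat_lit 304) (nat_lit 4179719506) (nat_lit 94) (nat_lit 5)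 (nat_lit 97) (nat_lit 5) (nat_lit 98) (nat_lit 5) (nat_lit 479) (nat_lit 362) (nat_lit 299)) (XT.lf (nat_lit 0) (nat_lit 8963710861) (nat_lit 228) (nat_lit 3343139700) (nat_lit 304) (nat_lit 158592625) (nat_lit 94) (nat_lit 5) (nat_lit 97) (nat_lit 5) (nat_lit 98) (nat_lit 5) (nat_lit 480) (nat_lit 362) (nat_lit 298)))))) (XT.nd (nat_lit 468) (nat_lit 1064) (nat_lit 0) (XT.nd (nat_lit 234) (nat_lit 608) (nat_lit 0) (XT.nd (nat_lit 78) (nat_lit 228) (nat_lit 0) (XT.lf (nat_lit 0) (nat_lit 3894922700) (nat_lit 380) (nat_lit 7565835561) (nat_lit 76) (nat_lit 1150792940) (nat_lit 89) (nat_lit 5) (nat_lit 94) (nat_lit 5) (nat_lit 90) (nat_lit 5) (nat_lit 481) (nat_lit 362) (nat_lit 297)) (XT.nd (nat_lit 78) (nat_lit 0) (nat_lit 0) (XT.lf (nat_lit 0) (nat_lit 979737905) (nat_lit 228) (nat_lit 7063269415) (nat_lit 304) (nat_lit 4717244025) (nat_lit 86) (nat_lit 5) (nat_lit 89) (nat_lit 5) (nat_lit 90) (nat_lit 5) (nat_lit 482) (nat_lit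 362) (nat_lit 296)) (XT.lf (nat_lit 0) (nat_lit 9737948891) (nat_lit 228) (nat_lit 2550662258) (nat_lit 304) (nat_lit 623026510) (nat_lit 86) (nat_lit 5) (nat_lit 89) (nat_lit 5) (nat_lit 90) (nat_lit 5) (nat_lit 483) (nat_lit 362) (nat_lit 295)))) (XT.nd (nat_lit 78) (nat_lit 228) (nat_lit 0) (XT.lf (nat_lit 0) (nat_lit 3520623497) (nat_lit 380) (nat_lit 7483668235) (nat_lit 76) (nat_lit 2061018832) (nat_lit 81) (nat_lit 5) (nat_lit 86) (nat_lit 5) (nat_lit 82) (nat_lit 5) (nat_lit 484) (nat_lit 362) (nat_lit 294)) (XT.nd (nat_lit 78) (nat_lit 0) (nat_lit 0) (XT.lf (nat_lit 0) (nat_lit 1268674570) (nat_lit 228) (nat_lit 6481118304) (nat_lit 304) (nat_lit 5471965041) (nat_lit 78) (nat_lit 5) (nat_lit 81) (nat_lit 5) (nat_lit 82) (nat_lit 5) (nat_lit 485) (nat_lit 362) (nat_lit 293)) (XT.lf (nat_lit 0) (nat_lit 10237629142) (nat_lit 228) (nat_lit 1840858704) (nat_lit 304) (nat_lit 1302550589) (nat_lit 78) (nat_lit 5) (nat_lit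 81) (nat_lit 5) (nat_lit 82) (nat_lit 5) (nat_lit 486) (nat_lit 362) (nat_lit 292))))) (XT.nd (nat_lit 234) (nat_lit 532) (nat_lit 0) (XT.nd (nat_lit 78) (nat_lit 228) (nat_lit 0) (XT.lf (nat_lit 0) (nat_lit 2933661549) (nat_lit 304) (nat_lit 7721324536) (nat_lit 76) (nat_lit 2887696278) (nat_lit 74) (nat_lit 5) (nat_lit 78) (nat_lit 5) (nat_lit 75) (nat_lit 5) (nat_lit 487) (nat_lit 362) (nat_lit 291)) (XT.nd (nat_lit 78) (nat_lit 0) (nat_lit 0) (XT.lf (nat_lit 0) (nat_lit 1236841000) (nat_lit 228) (nat_lit 6007113284) (nat_lit 304) (nat_lit 6463299628) (nat_lit 71) (nat_lit 5) (nat_lit 74) (nat_lit 5) (nat_lit 75) (nat_lit 5) (nat_lit 488) (nat_lit 362) (nat_lit 290)) (XT.lf (nat_lit 0) (nat_lit 10419908514) (nat_lit 228) (nat_lit 1237981875) (nat_lit 304) (nat_lit 2216880584) (nat_lit 71) (nat_lit 5) (nat_lit 74) (nat_lit 5) (nat_lit 75) (nat_lit 5) (nat_lit 489) (nat_lit 362) (nat_lit 289)))) (XT.nd (nat_lit 78) (nat_lit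 228) (nat_lit 0) (XT.lf (nat_lit 0) (nat_lit 2113829084) (nat_lit 304) (nat_lit 8324640194) (nat_lit 76) (nat_lit 3606355372) (nat_lit 67) (nat_lit 5) (nat_lit 71) (nat_lit 5) (nat_lit 68) (nat_lit 5) (nat_lit 490) (nat_lit 362) (nat_lit 288)) (XT.nd (nat_lit 78) (nat_lit 0) (nat_lit 0) (XT.lf (nat_lit 0) (nat_lit 837337187) (nat_lit 228) (nat_lit 5667336124) (nat_lit 304) (nat_lit 7713251598) (nat_lit 64) (nat_lit 5) (nat_lit 67) (nat_lit 5) (nat_lit 68) (nat_lit 5) (nat_lit 491) (nat_lit 362) (nat_lit 287)) (XT.lf (nat_lit 0) (nat_lit 10237421371) (nat_lit 228) (nat_lit 768266084) (nat_lit 304) (nat_lit 3388355275) (nat_lit 64) (nat_lit 5) (nat_lit 67) (nat_lit 5) (nat_lit 68) (nat_lit 5) (nat_lit 492) (nat_lit 362) (nat_lit 286))))))))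
noncomputable def xc47 : XT := (XT.nd (nat_lit 53820) (nat_lit 0) (nat_lit 15124) (XT.nd (nat_lit 858) (nat_lit 532) (nat_lit 0) (XT.nd (nat_lit 390) (nat_lit 912) (nat_lit 0) (XT.nd (nat_lit 156) (nat_lit 304) (nat_lit 0) (XT.nd (nat_lit 78) (nat_lit 152) (nat_lit 0) (XT.lf (nat_lit 0) (nat_lit 1038248757) (nat_lit 304) (nat_lit 9344254477) (nat_lit 76) (nat_lit 4190476801) (nat_lit 60) (nat_lit 5) (nat_lit 64) (nat_lit 5) (nat_lit 61) (nat_lit 5) (nat_lit 493) (nat_lit 362) (nat_lit 285)) (XT.lf (nat_lit 0) (nat_lit 18307731) (nat_lit 152) (nat_lit 5490083790) (nat_lit 228) (nat_lit 9246651557) (nat_lit 58) (nat_lit 5) (nat_lit 60) (nat_lit 5) (nat_lit 61) (nat_lit 5) (nat_lit 494) (nat_lit 362) (nat_lit 284))) (XT.nd (nat_lit 78) (nat_lit 304) (nat_lit 0) (XT.lf (nat_lit 0) (nat_lit 9637757031) (nat_lit 152) (nat_lit 460210551) (nat_lit 228) (nat_lit 4842181607) (nat_lit 58) (nat_lit 5) (nat_lit 60) (nat_lit 5) (nat_lit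 61) (nat_lit 5) (nat_lit 495) (nat_lit 362) (nat_lit 283)) (XT.nd (nat_lit 78) (nat_lit 76) (nat_lit 0) (XT.lf (nat_lit 0) (nat_lit 4290184193) (nat_lit 228) (nat_lit 10515139351) (nat_lit 304) (nat_lit 323116481) (nat_lit 55) (nat_lit 5) (nat_lit 58) (nat_lit 5) (nat_lit 59) (nat_lit 5) (nat_lit 496) (nat_lit 362) (nat_lit 282)) (XT.lf (nat_lit 0) (nat_lit 4236844122) (nat_lit 304) (nat_lit 1260866847) (nat_lit 76) (nat_lit 9822096788) (nat_lit 54) (nat_lit 5) (nat_lit 58) (nat_lit 5) (nat_lit 55) (nat_lit 5) (nat_lit 497) (nat_lit 362) (nat_lit 281))))) (XT.nd (nat_lit 234) (nat_lit 456) (nat_lit 0) (XT.nd (nat_lit 78) (nat_lit 304) (nat_lit 0) (XT.lf (nat_lit 0) (nat_lit 8562884718) (nat_lit 152) (nat_lit 344887690) (nat_lit 228) (nat_lit 6606708054) (nat_lit 52) (nat_lit 5) (nat_lit 54) (nat_lit 5) (nat_lit 55) (nat_lit 5) (nat_lit 498) (nat_lit 362) (nat_lit 280)) (XT.nd (nat_lit 78) (nat_lit 76) (nat_lit 0) (XT.lf (nat_lit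 0) (nat_lit 2837135466) (nat_lit 228) (nat_lit 10862408524) (nat_lit 304) (nat_lit 2012956327) (nat_lit 49) (nat_lit 5) (nat_lit 52) (nat_lit 5) (nat_lit 53) (nat_lit 5) (nat_lit 499) (nat_lit 362) (nat_lit 279)) (XT.lf (nat_lit 0) (nat_lit 2655510944) (nat_lit 304) (nat_lit 3073133065) (nat_lit 76) (nat_lit 10185133747) (nat_lit 48) (nat_lit 5) (nat_lit 52) (nat_lit 5) (nat_lit 49) (nat_lit 5) (nat_lit 500) (nat_lit 362) (nat_lit 278)))) (XT.nd (nat_lit 78) (nat_lit 304) (nat_lit 0) (XT.lf (nat_lit 0) (nat_lit 6948520299) (nat_lit 152) (nat_lit 456279295) (nat_lit 228) (nat_lit 8713728989) (nat_lit 46) (nat_lit 5) (nat_lit 48) (nat_lit 5) (nat_lit 49) (nat_lit 5) (nat_lit 501) (nat_lit 362) (nat_lit 277)) (XT.nd (nat_lit 78) (nat_lit 76) (nat_lit 0) (XT.lf (nat_lit 0) (nat_lit 809301766) (nat_lit 228) (nat_lit 11467103951) (nat_lit 304) (nat_lit 4050424100) (nat_lit 43) (nat_lit 5) (nat_lit 46) (nat_lit 5) (nat_lit 47) (nat_lit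 5) (nat_lit 502) (nat_lit 362) (nat_lit 276)) (XT.lf (nat_lit 0) (nat_lit 731260700) (nat_lit 304) (nat_lit 5488154059) (nat_lit 76) (nat_lit 10319105064) (nat_lit 42) (nat_lit 5) (nat_lit 46) (nat_lit 5) (nat_lit 43) (nat_lit 5) (nat_lit 503) (nat_lit 362) (nat_lit 275)))))) (XT.nd (nat_lit 52494) (nat_lit 0) (nat_lit 28728) (XT.nd (nat_lit 234) (nat_lit 228) (nat_lit 0) (XT.nd (nat_lit 78) (nat_lit 152) (nat_lit 0) (XT.lf (nat_lit 0) (nat_lit 4723428517) (nat_lit 152) (nat_lit 831643864) (nat_lit 228) (nat_lit 11198823119) (nat_lit 40) (nat_lit 5) (nat_lit 42) (nat_lit 5) (nat_lit 43) (nat_lit 5) (nat_lit 504) (nat_lit 362) (nat_lit 274)) (XT.nd (nat_lit 78) (nat_lit 152) (nat_lit 0) (XT.lf (nat_lit 0) (nat_lit 10512814638) (nat_lit 228) (nat_lit 1843327285) (nat_lit 76) (nat_lit 4616689552) (nat_lit 40) (nat_lit 5) (nat_lit 43) (nat_lit 5) (nat_lit 41) (nat_lit 5) (nat_lit 505) (nat_lit 362) (nat_lit 273)) (XT.lf (nat_lit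 0) (nat_lit 8602323193) (nat_lit 152) (nat_lit 6999435386) (nat_lit 228) (nat_lit 1593748484) (nat_lit 38) (nat_lit 5) (nat_lit 40) (nat_lit 5) (nat_lit 41) (nat_lit 5) (nat_lit 506) (nat_lit 362) (nat_lit 272)))) (XT.nd (nat_lit 52104) (nat_lit 0) (nat_lit 34732) (XT.lf (nat_lit 0) (nat_lit 1808653808) (nat_lit 152) (nat_lit 1511918681) (nat_lit 228) (nat_lit 14101729382) (nat_lit 35) (nat_lit 5) (nat_lit 37) (nat_lit 5) (nat_lit 38) (nat_lit 5) (nat_lit 507) (nat_lit 362) (nat_lit 271)) (XT.nd (nat_lit 78) (nat_lit 1596) (nat_lit 0) (XT.lf (nat_lit 0) (nat_lit 1055153819) (nat_lit 1596) (nat_lit 1391226865) (nat_lit 0) (nat_lit 1055153819) (nat_lit 513) (nat_lit 5) (nat_lit 534) (nat_lit 4) (nat_lit 513) (nat_lit 4) (nat_lit 414) (nat_lit 363) (nat_lit 363)) (XT.lf (nat_lit 0) (nat_lit 2217724700) (nat_lit 1596) (nat_lit 3315302616) (nat_lit 1596) (nat_lit 1503966665) (nat_lit 492) (nat_lit 4) (nat_lit 513) (nat_lit 5) (nat_lit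 513) (nat_lit 4) (nat_lit 415) (nat_lit 363) (nat_lit 362))))) (XT.nd (nat_lit 234) (nat_lit 2432) (nat_lit 0) (XT.nd (nat_lit 78) (nat_lit 1824) (nat_lit 0) (XT.lf (nat_lit 0) (nat_lit 207015238) (nat_lit 1672) (nat_lit 1671287113) (nat_lit 1748) (nat_lit 5194035525) (nat_lit 469) (nat_lit 5) (nat_lit 491) (nat_lit 5) (nat_lit 492) (nat_lit 4) (nat_lit 416) (nat_lit 363) (nat_lit 361)) (XT.nd (nat_lit 78) (nat_lit 1824) (nat_lit 0) (XT.lf (nat_lit 0) (nat_lit 5272778061) (nat_lit 1748) (nat_lit 1787040888) (nat_lit 0) (nat_lit 49096609) (nat_lit 469) (nat_lit 5) (nat_lit 492) (nat_lit 4) (nat_lit 469) (nat_lit 4) (nat_lit 417) (nat_lit 363) (nat_lit 360)) (XT.lf (nat_lit 0) (nat_lit 1534135269) (nat_lit 1824) (nat_lit 3798122641) (nat_lit 76) (nat_lit 1814458400) (nat_lit 445) (nat_lit 5) (nat_lit 469) (nat_lit 5) (nat_lit 446) (nat_lit 4) (nat_lit 418) (nat_lit 363) (nat_lit 359)))) (XT.nd (nat_lit 78) (nat_lit 988) (nat_lit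 0) (XT.lf (nat_lit 0) (nat_lit 1364427011) (nat_lit 1444) (nat_lit 3537595600) (nat_lit 1520) (nat_lit 2283930413) (nat_lit 426) (nat_lit 5) (nat_lit 445) (nat_lit 5) (nat_lit 446) (nat_lit 4) (nat_lit 419) (nat_lit 363) (nat_lit 358)) (XT.nd (nat_lit 78) (nat_lit 912) (nat_lit 0) (XT.lf (nat_lit 0) (nat_lit 1056628809) (nat_lit 1520) (nat_lit 618944908) (nat_lit 76) (nat_lit 5551076104) (nat_lit 425) (nat_lit 5) (nat_lit 445) (nat_lit 5) (nat_lit 426) (nat_lit 5) (nat_lit 420) (nat_lit 363) (nat_lit 357)) (XT.lf (nat_lit 0) (nat_lit 4401032549) (nat_lit 988) (nat_lit 2603002584) (nat_lit 76) (nat_lit 264488696) (nat_lit 413) (nat_lit 5) (nat_lit 426) (nat_lit 5) (nat_lit 414) (nat_lit 4) (nat_lit 421) (nat_lit 363) (nat_lit 356))))))) (XT.nd (nat_lit 936) (nat_lit 6004) (nat_lit 0) (XT.nd (nat_lit 468) (nat_lit 3116) (nat_lit 0) (XT.nd (nat_lit 234) (nat_lit 2584) (nat_lit 0) (XT.nd (nat_lit 78) (nat_lit 912) (nat_lit 0) (XT.lf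 (nat_lit 0) (nat_lit 463531880) (nat_lit 988) (nat_lit 4604899856) (nat_lit 76) (nat_lit 2243375053) (nat_lit 400) (nat_lit 5) (nat_lit 413) (nat_lit 5) (nat_lit 401) (nat_lit 5) (nat_lit 422) (nat_lit 363) (nat_lit 355)) (XT.nd (nat_lit 78) (nat_lit 0) (nat_lit 0) (XT.lf (nat_lit 0) (nat_lit 725371068) (nat_lit 912) (nat_lit 3056481047) (nat_lit 988) (nat_lit 3574559265) (nat_lit 388) (nat_lit 5) (nat_lit 400) (nat_lit 5) (nat_lit 401) (nat_lit 5) (nat_lit 423) (nat_lit 363) (nat_lit 354)) (XT.lf (nat_lit 0) (nat_lit 6157384044) (nat_lit 912) (nat_lit 977603123) (nat_lit 988) (nat_lit 267568107) (nat_lit 388) (nat_lit 5) (nat_lit 400) (nat_lit 5) (nat_lit 401) (nat_lit 5) (nat_lit 424) (nat_lit 363) (nat_lit 353)))) (XT.nd (nat_lit 78) (nat_lit 1672) (nat_lit 0) (XT.lf (nat_lit 0) (nat_lit 3038262931) (nat_lit 912) (nat_lit 3240865497) (nat_lit 76) (nat_lit 1170637301) (nat_lit 376) (nat_lit 5) (nat_lit 388) (nat_lit 5) (nat_lit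 377) (nat_lit 5) (nat_lit 425) (nat_lit 363) (nat_lit 352)) (XT.nd (nat_lit 78) (nat_lit 836) (nat_lit 0) (XT.lf (nat_lit 0) (nat_lit 2244760290) (nat_lit 836) (nat_lit 4130423529) (nat_lit 912) (nat_lit 1123345328) (nat_lit 365) (nat_lit 5) (nat_lit 376) (nat_lit 5) (nat_lit 377) (nat_lit 5) (nat_lit 426) (nat_lit 363) (nat_lit 351)) (XT.lf (nat_lit 0) (nat_lit 257008673) (nat_lit 760) (nat_lit 1907311124) (nat_lit 836) (nat_lit 5384413063) (nat_lit 354) (nat_lit 5) (nat_lit 364) (nat_lit 5) (nat_lit 365) (nat_lit 5) (nat_lit 427) (nat_lit 363) (nat_lit 350))))) (XT.nd (nat_lit 234) (nat_lit 1520) (nat_lit 0) (XT.nd (nat_lit 78) (nat_lit 1596) (nat_lit 0) (XT.lf (nat_lit 0) (nat_lit 5480676600) (nat_lit 836) (nat_lit 1728675507) (nat_lit 76) (nat_lit 390894803) (nat_lit 354) (nat_lit 5) (nat_lit 365) (nat_lit 5) (nat_lit 355) (nat_lit 5) (nat_lit 428) (nat_lit 363) (nat_lit 349)) (XT.nd (nat_lit 78) (nat_lit 760) (nat_lit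 0) (XT.lf (nat_lit 0) (nat_lit 1173916997) (nat_lit 836) (nat_lit 3743864879) (nat_lit 76) (nat_lit 2735281486) (nat_lit 343) (nat_lit 5) (nat_lit 354) (nat_lit 5) (nat_lit 344) (nat_lit 5) (nat_lit 429) (nat_lit 363) (nat_lit 348)) (XT.lf (nat_lit 0) (nat_lit 1919979135) (nat_lit 760) (nat_lit 2550714018) (nat_lit 836) (nat_lit 3236660318) (nat_lit 333) (nat_lit 5) (nat_lit 343) (nat_lit 5) (nat_lit 344) (nat_lit 5) (nat_lit 430) (nat_lit 363) (nat_lit 347)))) (XT.nd (nat_lit 78) (nat_lit 1444) (nat_lit 0) (XT.lf (nat_lit 0) (nat_lit 36982127) (nat_lit 836) (nat_lit 82989059) (nat_lit 76) (nat_lit 7643417359) (nat_lit 332) (nat_lit 5) (nat_lit 343) (nat_lit 5) (nat_lit 333) (nat_lit 5) (nat_lit 431) (nat_lit 363) (nat_lit 346)) (XT.nd (nat_lit 78) (nat_lit 684) (nat_lit 0) (XT.lf (nat_lit 0) (nat_lit 3328678743) (nat_lit 836) (nat_lit 2113720085) (nat_lit 76) (nat_lit 2377811959) (nat_lit 322) (nat_lit 5) (nat_lit 333) (nat_lit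 5) (nat_lit 323) (nat_lit 5) (nat_lit 432) (nat_lit 363) (nat_lit 345)) (XT.lf (nat_lit 0) (nat_lit 3715369446) (nat_lit 684) (nat_lit 2940021166) (nat_lit 760) (nat_lit 1223407741) (nat_lit 313) (nat_lit 5) (nat_lit 322) (nat_lit 5) (nat_lit 323) (nat_lit 5) (nat_lit 433) (nat_lit 363) (nat_lit 344)))))) (XT.nd (nat_lit 468) (nat_lit 3116) (nat_lit 0) (XT.nd (nat_lit 234) (nat_lit 1368) (nat_lit 0) (XT.nd (nat_lit 78) (nat_lit 760) (nat_lit 0) (XT.lf (nat_lit 0) (nat_lit 1692218183) (nat_lit 684) (nat_lit 359444855) (nat_lit 760) (nat_lit 5887247493) (nat_lit 303) (nat_lit 5) (nat_lit 312) (nat_lit 5) (nat_lit 313) (nat_lit 5) (nat_lit 434) (nat_lit 363) (nat_lit 343)) (XT.nd (nat_lit 78) (nat_lit 760) (nat_lit 0) (XT.lf (nat_lit 0) (nat_lit 5363327521) (nat_lit 760) (nat_lit 369492468) (nat_lit 76) (nat_lit 2267505541) (nat_lit 303) (nat_lit 5) (nat_lit 313) (nat_lit 5) (nat_lit 304) (nat_lit 5) (nat_lit 435) (nat_lit 363)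 (nat_lit 342)) (XT.lf (nat_lit 0) (nat_lit 653845854) (nat_lit 760) (nat_lit 2437743056) (nat_lit 76) (nat_lit 4971613475) (nat_lit 293) (nat_lit 5) (nat_lit 303) (nat_lit 5) (nat_lit 294) (nat_lit 5) (nat_lit 436) (nat_lit 363) (nat_lit 341)))) (XT.nd (nat_lit 78) (nat_lit 684) (nat_lit 0) (XT.lf (nat_lit 0) (nat_lit 3580358383) (nat_lit 684) (nat_lit 366546236) (nat_lit 760) (nat_lit 4180660505) (nat_lit 284) (nat_lit 5) (nat_lit 293) (nat_lit 5) (nat_lit 294) (nat_lit 5) (nat_lit 437) (nat_lit 363) (nat_lit 340)) (XT.nd (nat_lit 78) (nat_lit 76) (nat_lit 0) (XT.lf (nat_lit 0) (nat_lit 1495109675) (nat_lit 608) (nat_lit 5799029119) (nat_lit 684) (nat_lit 899320927) (nat_lit 276) (nat_lit 5) (nat_lit 284) (nat_lit 5) (nat_lit 285) (nat_lit 5) (nat_lit 438) (nat_lit 363) (nat_lit 339)) (XT.lf (nat_lit 0) (nat_lit 2395413069) (nat_lit 684) (nat_lit 626647245) (nat_lit 76) (nat_lit 5238707147) (nat_lit 275) (nat_lit 5) (nat_lit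 284) (nat_lit 5) (nat_lit 276) (nat_lit 5) (nat_lit 439) (nat_lit 363) (nat_lit 338))))) (XT.nd (nat_lit 234) (nat_lit 1216) (nat_lit 0) (XT.nd (nat_lit 78) (nat_lit 1292) (nat_lit 0) (XT.lf (nat_lit 0) (nat_lit 5566902569) (nat_lit 608) (nat_lit 161022402) (nat_lit 684) (nat_lit 2601709253) (nat_lit 267) (nat_lit 5) (nat_lit 275) (nat_lit 5) (nat_lit 276) (nat_lit 5) (nat_lit 440) (nat_lit 363) (nat_lit 337)) (XT.nd (nat_lit 78) (nat_lit 608) (nat_lit 0) (XT.lf (nat_lit 0) (nat_lit 710438878) (nat_lit 684) (nat_lit 4951474153) (nat_lit 76) (nat_lit 2738025371) (nat_lit 258) (nat_lit 5) (nat_lit 267) (nat_lit 5) (nat_lit 259) (nat_lit 5) (nat_lit 441) (nat_lit 363) (nat_lit 336)) (XT.lf (nat_lit 0) (nat_lit 1281033506) (nat_lit 608) (nat_lit 2749540272) (nat_lit 684) (nat_lit 4441208993) (nat_lit 250) (nat_lit 5) (nat_lit 258) (nat_lit 5) (nat_lit 259) (nat_lit 5) (nat_lit 442) (nat_lit 363) (nat_lit 335)))) (XT.nd (nat_lit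 78) (nat_lit 1216) (nat_lit 0) (XT.lf (nat_lit 0) (nat_lit 7400966972) (nat_lit 684) (nat_lit 908629648) (nat_lit 76) (nat_lit 235799775) (nat_lit 250) (nat_lit 5) (nat_lit 259) (nat_lit 5) (nat_lit 251) (nat_lit 5) (nat_lit 443) (nat_lit 363) (nat_lit 334)) (XT.nd (nat_lit 78) (nat_lit 608) (nat_lit 0) (XT.lf (nat_lit 0) (nat_lit 2193011945) (nat_lit 608) (nat_lit 3148519115) (nat_lit 76) (nat_lit 3278595902) (nat_lit 242) (nat_lit 5) (nat_lit 250) (nat_lit 5) (nat_lit 243) (nat_lit 5) (nat_lit 444) (nat_lit 363) (nat_lit 333)) (XT.lf (nat_lit 0) (nat_lit 3263937816) (nat_lit 608) (nat_lit 2295472834) (nat_lit 684) (nat_lit 3137248480) (nat_lit 234) (nat_lit 5) (nat_lit 242) (nat_lit 5) (nat_lit 243) (nat_lit 5) (nat_lit 445) (nat_lit 363) (nat_lit 332))))))))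
noncomputable def xc48 : XT := (XT.nd (nat_lit 1794) (nat_lit 4788) (nat_lit 0) (XT.nd (nat_lit 858) (nat_lit 3724) (nat_lit 0) (XT.nd (nat_lit 390) (nat_lit 1976) (nat_lit 0) (XT.nd (nat_lit 156) (nat_lit 1596) (nat_lit 0) (XT.nd (nat_lit 78) (nat_lit 0) (nat_lit 0) (XT.lf (nat_lit 0) (nat_lit 199176676) (nat_lit 608) (nat_lit 7762687214) (nat_lit 76) (nat_lit 813165757) (nat_lit 226) (nat_lit 5) (nat_lit 234) (nat_lit 5) (nat_lit 227) (nat_lit 5) (nat_lit 446) (nat_lit 363) (nat_lit 331)) (XT.lf (nat_lit 0) (nat_lit 3563087808) (nat_lit 608) (nat_lit 1297958667) (nat_lit 76) (nat_lit 3993459469) (nat_lit 226) (nat_lit 5) (nat_lit 234) (nat_lit 5) (nat_lit 227) (nat_lit 5) (nat_lit 447) (nat_lit 363) (nat_lit 330))) (XT.nd (nat_lit 78) (nat_lit 1064) (nat_lit 0) (XT.lf (nat_lit 0) (nat_lit 5299440184) (nat_lit 532) (nat_lit 1681034948) (nat_lit 608) (nat_lit 1955380926) (nat_lit 219) (nat_lit 5) (nat_lit 226) (nat_lit 5) (nat_lit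 227) (nat_lit 5) (nat_lit 448) (nat_lit 363) (nat_lit 329)) (XT.nd (nat_lit 78) (nat_lit 532) (nat_lit 0) (XT.lf (nat_lit 0) (nat_lit 1418843337) (nat_lit 532) (nat_lit 6038166486) (nat_lit 76) (nat_lit 1561834358) (nat_lit 212) (nat_lit 5) (nat_lit 219) (nat_lit 5) (nat_lit 213) (nat_lit 5) (nat_lit 449) (nat_lit 363) (nat_lit 328)) (XT.lf (nat_lit 0) (nat_lit 593197517) (nat_lit 532) (nat_lit 4233124029) (nat_lit 608) (nat_lit 4277080756) (nat_lit 205) (nat_lit 5) (nat_lit 212) (nat_lit 5) (nat_lit 213) (nat_lit 5) (nat_lit 450) (nat_lit 363) (nat_lit 327))))) (XT.nd (nat_lit 234) (nat_lit 988) (nat_lit 0) (XT.nd (nat_lit 78) (nat_lit 988) (nat_lit 0) (XT.lf (nat_lit 0) (nat_lit 7372736582) (nat_lit 532) (nat_lit 922614828) (nat_lit 608) (nat_lit 894439756) (nat_lit 205) (nat_lit 5) (nat_lit 212) (nat_lit 5) (nat_lit 213) (nat_lit 5) (nat_lit 451) (nat_lit 363) (nat_lit 326)) (XT.nd (nat_lit 78) (nat_lit 456) (nat_lit 0)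 (XT.lf (nat_lit 0) (nat_lit 2524380425) (nat_lit 532) (nat_lit 4300774270) (nat_lit 76) (nat_lit 2452387616) (nat_lit 198) (nat_lit 5) (nat_lit 205) (nat_lit 5) (nat_lit 199) (nat_lit 5) (nat_lit 452) (nat_lit 363) (nat_lit 325)) (XT.lf (nat_lit 0) (nat_lit 2519221184) (nat_lit 456) (nat_lit 3468988591) (nat_lit 532) (nat_lit 3378955456) (nat_lit 192) (nat_lit 5) (nat_lit 198) (nat_lit 5) (nat_lit 199) (nat_lit 5) (nat_lit 453) (nat_lit 363) (nat_lit 324)))) (XT.nd (nat_lit 78) (nat_lit 456) (nat_lit 0) (XT.lf (nat_lit 0) (nat_lit 9252723) (nat_lit 456) (nat_lit 35798464) (nat_lit 532) (nat_lit 9413865405) (nat_lit 185) (nat_lit 5) (nat_lit 191) (nat_lit 5) (nat_lit 192) (nat_lit 5) (nat_lit 454) (nat_lit 363) (nat_lit 323)) (XT.nd (nat_lit 78) (nat_lit 456) (nat_lit 0) (XT.lf (nat_lit 0) (nat_lit 3515467912) (nat_lit 532) (nat_lit 2566881567) (nat_lit 76) (nat_lit 3469250088) (nat_lit 185) (nat_lit 5) (nat_lit 192) (nat_lit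 5) (nat_lit 186) (nat_lit 5) (nat_lit 455) (nat_lit 363) (nat_lit 322)) (XT.lf (nat_lit 0) (nat_lit 4446407959) (nat_lit 456) (nat_lit 2593256121) (nat_lit 532) (nat_lit 2606791337) (nat_lit 179) (nat_lit 5) (nat_lit 185) (nat_lit 5) (nat_lit 186) (nat_lit 5) (nat_lit 456) (nat_lit 363) (nat_lit 321)))))) (XT.nd (nat_lit 468) (nat_lit 1976) (nat_lit 0) (XT.nd (nat_lit 234) (nat_lit 836) (nat_lit 0) (XT.nd (nat_lit 78) (nat_lit 456) (nat_lit 0) (XT.lf (nat_lit 0) (nat_lit 870553732) (nat_lit 456) (nat_lit 7904978461) (nat_lit 76) (nat_lit 967744746) (nat_lit 173) (nat_lit 5) (nat_lit 179) (nat_lit 5) (nat_lit 174) (nat_lit 5) (nat_lit 457) (nat_lit 363) (nat_lit 320)) (XT.nd (nat_lit 78) (nat_lit 456) (nat_lit 0) (XT.lf (nat_lit 0) (nat_lit 4390612189) (nat_lit 456) (nat_lit 853825822) (nat_lit 76) (nat_lit 4597097088) (nat_lit 173) (nat_lit 5) (nat_lit 179) (nat_lit 5) (nat_lit 174) (nat_lit 5) (nat_lit 458) (nat_lit 363) (nat_lit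 319)) (XT.lf (nat_lit 0) (nat_lit 6357295884) (nat_lit 456) (nat_lit 1621658342) (nat_lit 532) (nat_lit 1962852678) (nat_lit 167) (nat_lit 5) (nat_lit 173) (nat_lit 5) (nat_lit 174) (nat_lit 5) (nat_lit 459) (nat_lit 363) (nat_lit 318)))) (XT.nd (nat_lit 78) (nat_lit 380) (nat_lit 0) (XT.lf (nat_lit 0) (nat_lit 1573886745) (nat_lit 456) (nat_lit 6404571586) (nat_lit 76) (nat_lit 2065428070) (nat_lit 161) (nat_lit 5) (nat_lit 167) (nat_lit 5) (nat_lit 162) (nat_lit 5) (nat_lit 460) (nat_lit 363) (nat_lit 317)) (XT.nd (nat_lit 78) (nat_lit 0) (nat_lit 0) (XT.lf (nat_lit 0) (nat_lit 830791521) (nat_lit 380) (nat_lit 4321702481) (nat_lit 456) (nat_lit 4995311462) (nat_lit 156) (nat_lit 5) (nat_lit 161) (nat_lit 5) (nat_lit 162) (nat_lit 5) (nat_lit 461) (nat_lit 363) (nat_lit 316)) (XT.lf (nat_lit 0) (nat_lit 8233218002) (nat_lit 380) (nat_lit 569901515) (nat_lit 456) (nat_lit 1450680133) (nat_lit 156) (nat_lit 5) (nat_lit 161)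 (nat_lit 5) (nat_lit 162) (nat_lit 5) (nat_lit 462) (nat_lit 363) (nat_lit 315))))) (XT.nd (nat_lit 234) (nat_lit 1140) (nat_lit 0) (XT.nd (nat_lit 78) (nat_lit 380) (nat_lit 0) (XT.lf (nat_lit 0) (nat_lit 2150960262) (nat_lit 456) (nat_lit 4968121980) (nat_lit 76) (nat_lit 3242265635) (nat_lit 150) (nat_lit 5) (nat_lit 156) (nat_lit 5) (nat_lit 151) (nat_lit 5) (nat_lit 463) (nat_lit 363) (nat_lit 314)) (XT.nd (nat_lit 78) (nat_lit 0) (nat_lit 0) (XT.lf (nat_lit 0) (nat_lit 2466769389) (nat_lit 380) (nat_lit 3330187606) (nat_lit 456) (nat_lit 4674068669) (nat_lit 145) (nat_lit 5) (nat_lit 150) (nat_lit 5) (nat_lit 151) (nat_lit 5) (nat_lit 464) (nat_lit 363) (nat_lit 313)) (XT.lf (nat_lit 0) (nat_lit 9511454280) (nat_lit 456) (nat_lit 532518481) (nat_lit 76) (nat_lit 539017865) (nat_lit 145) (nat_lit 5) (nat_lit 151) (nat_lit 5) (nat_lit 146) (nat_lit 5) (nat_lit 465) (nat_lit 363) (nat_lit 312)))) (XT.nd (nat_lit 78) (nat_lit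 684) (nat_lit 0) (XT.lf (nat_lit 0) (nat_lit 2596578105) (nat_lit 456) (nat_lit 3617098647) (nat_lit 76) (nat_lit 4482631733) (nat_lit 139) (nat_lit 5) (nat_lit 145) (nat_lit 5) (nat_lit 140) (nat_lit 5) (nat_lit 466) (nat_lit 363) (nat_lit 311)) (XT.nd (nat_lit 78) (nat_lit 304) (nat_lit 0) (XT.lf (nat_lit 0) (nat_lit 4021018477) (nat_lit 380) (nat_lit 2291888487) (nat_lit 456) (nat_lit 4499065013) (nat_lit 134) (nat_lit 5) (nat_lit 139) (nat_lit 5) (nat_lit 140) (nat_lit 5) (nat_lit 467) (nat_lit 363) (nat_lit 310)) (XT.lf (nat_lit 0) (nat_lit 868186524) (nat_lit 304) (nat_lit 9236260220) (nat_lit 380) (nat_lit 825489141) (nat_lit 130) (nat_lit 5) (nat_lit 134) (nat_lit 5) (nat_lit 135) (nat_lit 5) (nat_lit 468) (nat_lit 363) (nat_lit 309))))))) (XT.nd (nat_lit 858) (nat_lit 2280) (nat_lit 0) (XT.nd (nat_lit 390) (nat_lit 1368) (nat_lit 0) (XT.nd (nat_lit 156) (nat_lit 684) (nat_lit 0) (XT.nd (nat_lit 78) (nat_lit 380) (nat_lit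 0) (XT.lf (nat_lit 0) (nat_lit 2904126544) (nat_lit 380) (nat_lit 2374767824) (nat_lit 76) (nat_lit 5770572275) (nat_lit 129) (nat_lit 5) (nat_lit 134) (nat_lit 5) (nat_lit 130) (nat_lit 5) (nat_lit 469) (nat_lit 363) (nat_lit 308)) (XT.lf (nat_lit 0) (nat_lit 5469937383) (nat_lit 380) (nat_lit 1223490540) (nat_lit 456) (nat_lit 4477932585) (nat_lit 124) (nat_lit 5) (nat_lit 129) (nat_lit 5) (nat_lit 130) (nat_lit 5) (nat_lit 470) (nat_lit 363) (nat_lit 307))) (XT.nd (nat_lit 78) (nat_lit 380) (nat_lit 0) (XT.lf (nat_lit 0) (nat_lit 2155084589) (nat_lit 304) (nat_lit 8413221481) (nat_lit 380) (nat_lit 727194833) (nat_lit 120) (nat_lit 5) (nat_lit 124) (nat_lit 5) (nat_lit 125) (nat_lit 5) (nat_lit 471) (nat_lit 363) (nat_lit 306)) (XT.nd (nat_lit 78) (nat_lit 304) (nat_lit 0) (XT.lf (nat_lit 0) (nat_lit 3065482133) (nat_lit 380) (nat_lit 1266452715) (nat_lit 76) (nat_lit 7089639940) (nat_lit 119) (nat_lit 5) (nat_lit 124) (nat_lit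 5) (nat_lit 120) (nat_lit 5) (nat_lit 472) (nat_lit 363) (nat_lit 305)) (XT.lf (nat_lit 0) (nat_lit 6787798773) (nat_lit 304) (nat_lit 142269553) (nat_lit 380) (nat_lit 4619894042) (nat_lit 115) (nat_lit 5) (nat_lit 119) (nat_lit 5) (nat_lit 120) (nat_lit 5) (nat_lit 473) (nat_lit 363) (nat_lit 304))))) (XT.nd (nat_lit 234) (nat_lit 684) (nat_lit 0) (XT.nd (nat_lit 78) (nat_lit 380) (nat_lit 0) (XT.lf (nat_lit 0) (nat_lit 3294273121) (nat_lit 304) (nat_lit 7596356800) (nat_lit 380) (nat_lit 789918230) (nat_lit 111) (nat_lit 5) (nat_lit 115) (nat_lit 5) (nat_lit 116) (nat_lit 5) (nat_lit 474) (nat_lit 363) (nat_lit 303)) (XT.nd (nat_lit 78) (nat_lit 304) (nat_lit 0) (XT.lf (nat_lit 0) (nat_lit 3070905290) (nat_lit 380) (nat_lit 319816086) (nat_lit 76) (nat_lit 8422721059) (nat_lit 110) (nat_lit 5) (nat_lit 115) (nat_lit 5) (nat_lit 111) (nat_lit 5) (nat_lit 475) (nat_lit 363) (nat_lit 302)) (XT.lf (nat_lit 0) (nat_lit 7018792339)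 (nat_lit 380) (nat_lit 4008210466) (nat_lit 76) (nat_lit 921482778) (nat_lit 106) (nat_lit 5) (nat_lit 111) (nat_lit 5) (nat_lit 107) (nat_lit 5) (nat_lit 476) (nat_lit 363) (nat_lit 301)))) (XT.nd (nat_lit 78) (nat_lit 380) (nat_lit 0) (XT.lf (nat_lit 0) (nat_lit 4256376030) (nat_lit 304) (nat_lit 6804459243) (nat_lit 380) (nat_lit 1025094170) (nat_lit 102) (nat_lit 5) (nat_lit 106) (nat_lit 5) (nat_lit 107) (nat_lit 5) (nat_lit 477) (nat_lit 363) (nat_lit 300)) (XT.nd (nat_lit 78) (nat_lit 0) (nat_lit 0) (XT.lf (nat_lit 0) (nat_lit 440610195) (nat_lit 304) (nat_lit 2471169004) (nat_lit 380) (nat_lit 9314103158) (nat_lit 97) (nat_lit 5) (nat_lit 101) (nat_lit 5) (nat_lit 102) (nat_lit 5) (nat_lit 478) (nat_lit 363) (nat_lit 299)) (XT.lf (nat_lit 0) (nat_lit 6942432157) (nat_lit 380) (nat_lit 3466036337) (nat_lit 76) (nat_lit 1959458545) (nat_lit 97) (nat_lit 5) (nat_lit 102) (nat_lit 5) (nat_lit 98) (nat_lit 5) (nat_lit 479)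 (nat_lit 363) (nat_lit 298)))))) (XT.nd (nat_lit 468) (nat_lit 1064) (nat_lit 0) (XT.nd (nat_lit 234) (nat_lit 608) (nat_lit 0) (XT.nd (nat_lit 78) (nat_lit 380) (nat_lit 0) (XT.lf (nat_lit 0) (nat_lit 5009138043) (nat_lit 228) (nat_lit 6057383537) (nat_lit 304) (nat_lit 1446038090) (nat_lit 94) (nat_lit 5) (nat_lit 97) (nat_lit 5) (nat_lit 98) (nat_lit 5) (nat_lit 480) (nat_lit 363) (nat_lit 297)) (XT.nd (nat_lit 78) (nat_lit 0) (nat_lit 0) (XT.lf (nat_lit 0) (nat_lit 977008537) (nat_lit 304) (nat_lit 1595502458) (nat_lit 380) (nat_lit 10087362571) (nat_lit 89) (nat_lit 5) (nat_lit 93) (nat_lit 5) (nat_lit 94) (nat_lit 5) (nat_lit 481) (nat_lit 363) (nat_lit 296)) (XT.lf (nat_lit 0) (nat_lit 6686143632) (nat_lit 380) (nat_lit 3169501266) (nat_lit 76) (nat_lit 2953619495) (nat_lit 89) (nat_lit 5) (nat_lit 94) (nat_lit 5) (nat_lit 90) (nat_lit 5) (nat_lit 482) (nat_lit 363) (nat_lit 295)))) (XT.nd (nat_lit 78) (nat_lit 380)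 (nat_lit 0) (XT.lf (nat_lit 0) (nat_lit 5517064913) (nat_lit 228) (nat_lit 5376254744) (nat_lit 304) (nat_lit 2068101217) (nat_lit 86) (nat_lit 5) (nat_lit 89) (nat_lit 5) (nat_lit 90) (nat_lit 5) (nat_lit 483) (nat_lit 363) (nat_lit 294)) (XT.nd (nat_lit 78) (nat_lit 0) (nat_lit 0) (XT.lf (nat_lit 0) (nat_lit 1247993079) (nat_lit 304) (nat_lit 787375199) (nat_lit 380) (nat_lit 11081097354) (nat_lit 81) (nat_lit 5) (nat_lit 85) (nat_lit 5) (nat_lit 86) (nat_lit 5) (nat_lit 484) (nat_lit 363) (nat_lit 293)) (XT.lf (nat_lit 0) (nat_lit 6233916944) (nat_lit 380) (nat_lit 3156910377) (nat_lit 76) (nat_lit 3882699595) (nat_lit 81) (nat_lit 5) (nat_lit 86) (nat_lit 5) (nat_lit 82) (nat_lit 5) (nat_lit 485) (nat_lit 363) (nat_lit 292))))) (XT.nd (nat_lit 234) (nat_lit 532) (nat_lit 0) (XT.nd (nat_lit 78) (nat_lit 304) (nat_lit 0) (XT.lf (nat_lit 0) (nat_lit 5741029080) (nat_lit 228) (nat_lit 4783692184) (nat_lit 304) (nat_lit 2908845473)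 (nat_lit 78) (nat_lit 5) (nat_lit 81) (nat_lit 5) (nat_lit 82) (nat_lit 5) (nat_lit 486) (nat_lit 363) (nat_lit 291)) (XT.nd (nat_lit 78) (nat_lit 0) (nat_lit 0) (XT.lf (nat_lit 0) (nat_lit 1212620387) (nat_lit 228) (nat_lit 69867935) (nat_lit 304) (nat_lit 12314251260) (nat_lit 74) (nat_lit 5) (nat_lit 77) (nat_lit 5) (nat_lit 78) (nat_lit 5) (nat_lit 487) (nat_lit 363) (nat_lit 290)) (XT.lf (nat_lit 0) (nat_lit 5567468299) (nat_lit 304) (nat_lit 3470510083) (nat_lit 76) (nat_lit 4723840405) (nat_lit 74) (nat_lit 5) (nat_lit 78) (nat_lit 5) (nat_lit 75) (nat_lit 5) (nat_lit 488) (nat_lit 363) (nat_lit 289)))) (XT.nd (nat_lit 78) (nat_lit 304) (nat_lit 0) (XT.lf (nat_lit 0) (nat_lit 5637836915) (nat_lit 228) (nat_lit 4304050736) (nat_lit 304) (nat_lit 3988239907) (nat_lit 71) (nat_lit 5) (nat_lit 74) (nat_lit 5) (nat_lit 75) (nat_lit 5) (nat_lit 489) (nat_lit 363) (nat_lit 288)) (XT.nd (nat_lit 78) (nat_lit 0) (nat_lit 0) (XT.lf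 (nat_lit 0) (nat_lit 297027895) (nat_lit 304) (nat_lit 13279620567) (nat_lit 76) (nat_lit 525137582) (nat_lit 67) (nat_lit 5) (nat_lit 71) (nat_lit 5) (nat_lit 68) (nat_lit 5) (nat_lit 490) (nat_lit 363) (nat_lit 287)) (XT.lf (nat_lit 0) (nat_lit 4666032966) (nat_lit 304) (nat_lit 4156949308) (nat_lit 76) (nat_lit 5452342109) (nat_lit 67) (nat_lit 5) (nat_lit 71) (nat_lit 5) (nat_lit 68) (nat_lit 5) (nat_lit 491) (nat_lit 363) (nat_lit 286))))))))
noncomputable def xc49 : XT := (XT.nd (nat_lit 53664) (nat_lit 0) (nat_lit 16796) (XT.nd (nat_lit 858) (nat_lit 684) (nat_lit 0) (XT.nd (nat_lit 390) (nat_lit 912) (nat_lit 0) (XT.nd (nat_lit 156) (nat_lit 228) (nat_lit 0) (XT.nd (nat_lit 78) (nat_lit 228) (nat_lit 0) (XT.lf (nat_lit 0) (nat_lit 5159753255) (nat_lit 228) (nat_lit 3963681823) (nat_lit 304) (nat_lit 5328880636) (nat_lit 64) (nat_lit 5) (nat_lit 67) (nat_lit 5) (nat_lit 68) (nat_lit 5) (nat_lit 492) (nat_lit 363) (nat_lit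 285)) (XT.lf (nat_lit 0) (nat_lit 24319533) (nat_lit 228) (nat_lit 13647988457) (nat_lit 304) (nat_lit 960494943) (nat_lit 61) (nat_lit 5) (nat_lit 64) (nat_lit 5) (nat_lit 65) (nat_lit 5) (nat_lit 493) (nat_lit 363) (nat_lit 284))) (XT.nd (nat_lit 78) (nat_lit 152) (nat_lit 0) (XT.lf (nat_lit 0) (nat_lit 3506133860) (nat_lit 304) (nat_lit 5267786541) (nat_lit 76) (nat_lit 6041393715) (nat_lit 60) (nat_lit 5) (nat_lit 64) (nat_lit 5) (nat_lit 61) (nat_lit 5) (nat_lit 494) (nat_lit 363) (nat_lit 283)) (XT.nd (nat_lit 78) (nat_lit 0) (nat_lit 0) (XT.lf (nat_lit 0) (nat_lit 4253978536) (nat_lit 152) (nat_lit 3791216602) (nat_lit 228) (nat_lit 6956236557) (nat_lit 58) (nat_lit 5) (nat_lit 60) (nat_lit 5) (nat_lit 61) (nat_lit 5) (nat_lit 495) (nat_lit 363) (nat_lit 282)) (XT.lf (nat_lit 0) (nat_lit 12687446696) (nat_lit 228) (nat_lit 1216888507) (nat_lit 76) (nat_lit 1286690566) (nat_lit 58) (nat_lit 5) (nat_lit 61) (nat_lit 5)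 (nat_lit 59) (nat_lit 5) (nat_lit 496) (nat_lit 363) (nat_lit 281))))) (XT.nd (nat_lit 234) (nat_lit 456) (nat_lit 0) (XT.nd (nat_lit 78) (nat_lit 152) (nat_lit 0) (XT.lf (nat_lit 0) (nat_lit 2061323304) (nat_lit 304) (nat_lit 6860047747) (nat_lit 76) (nat_lit 6461779805) (nat_lit 54) (nat_lit 5) (nat_lit 58) (nat_lit 5) (nat_lit 55) (nat_lit 5) (nat_lit 497) (nat_lit 363) (nat_lit 280)) (XT.nd (nat_lit 78) (nat_lit 0) (nat_lit 0) (XT.lf (nat_lit 0) (nat_lit 2862073360) (nat_lit 152) (nat_lit 3817874074) (nat_lit 228) (nat_lit 8898923293) (nat_lit 52) (nat_lit 5) (nat_lit 54) (nat_lit 5) (nat_lit 55) (nat_lit 5) (nat_lit 498) (nat_lit 363) (nat_lit 279)) (XT.lf (nat_lit 0) (nat_lit 11415510552) (nat_lit 228) (nat_lit 2969642861) (nat_lit 76) (nat_lit 1392862400) (nat_lit 52) (nat_lit 5) (nat_lit 55) (nat_lit 5) (nat_lit 53) (nat_lit 5) (nat_lit 499) (nat_lit 363) (nat_lit 278)))) (XT.nd (nat_lit 78) (nat_lit 152) (nat_lit 0)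 (XT.lf (nat_lit 0) (nat_lit 301895367) (nat_lit 304) (nat_lit 8996840642) (nat_lit 76) (nat_lit 6681560990) (nat_lit 48) (nat_lit 5) (nat_lit 52) (nat_lit 5) (nat_lit 49) (nat_lit 5) (nat_lit 500) (nat_lit 363) (nat_lit 277)) (XT.nd (nat_lit 78) (nat_lit 0) (nat_lit 0) (XT.lf (nat_lit 0) (nat_lit 919324784) (nat_lit 152) (nat_lit 4077797138) (nat_lit 228) (nat_lit 11189008148) (nat_lit 46) (nat_lit 5) (nat_lit 48) (nat_lit 5) (nat_lit 49) (nat_lit 5) (nat_lit 501) (nat_lit 363) (nat_lit 276)) (XT.lf (nat_lit 0) (nat_lit 9825091466) (nat_lit 228) (nat_lit 5301058813) (nat_lit 76) (nat_lit 1269154738) (nat_lit 46) (nat_lit 5) (nat_lit 49) (nat_lit 5) (nat_lit 47) (nat_lit 5) (nat_lit 502) (nat_lit 363) (nat_lit 275)))))) (XT.nd (nat_lit 52338) (nat_lit 0) (nat_lit 31008) (XT.nd (nat_lit 234) (nat_lit 228) (nat_lit 0) (XT.nd (nat_lit 78) (nat_lit 228) (nat_lit 0) (XT.lf (nat_lit 0) (nat_lit 4848175407) (nat_lit 228) (nat_lit 9930481867)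 (nat_lit 304) (nat_lit 1829427394) (nat_lit 43) (nat_lit 5) (nat_lit 46) (nat_lit 5) (nat_lit 47) (nat_lit 5) (nat_lit 503) (nat_lit 363) (nat_lit 274)) (XT.nd (nat_lit 78) (nat_lit 152) (nat_lit 0) (XT.lf (nat_lit 0) (nat_lit 2973154517) (nat_lit 304) (nat_lit 1624364978) (nat_lit 76) (nat_lit 12227083795) (nat_lit 42) (nat_lit 5) (nat_lit 46) (nat_lit 5) (nat_lit 43) (nat_lit 5) (nat_lit 504) (nat_lit 363) (nat_lit 273)) (XT.lf (nat_lit 0) (nat_lit 7881177578) (nat_lit 228) (nat_lit 8285120524) (nat_lit 76) (nat_lit 878236453) (nat_lit 40) (nat_lit 5) (nat_lit 43) (nat_lit 5) (nat_lit 41) (nat_lit 5) (nat_lit 505) (nat_lit 363) (nat_lit 272)))) (XT.nd (nat_lit 78) (nat_lit 76) (nat_lit 0) (XT.lf (nat_lit 0) (nat_lit 2049080447) (nat_lit 152) (nat_lit 10864266358) (nat_lit 228) (nat_lit 4354999721) (nat_lit 38) (nat_lit 5) (nat_lit 40) (nat_lit 5) (nat_lit 41) (nat_lit 5) (nat_lit 506) (nat_lit 363) (nat_lit 271)) (XT.nd (nat_lit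 51948) (nat_lit 0) (nat_lit 37772) (XT.lf (nat_lit 0) (nat_lit 569586010) (nat_lit 228) (nat_lit 4848745769) (nat_lit 76) (nat_lit 12077687959) (nat_lit 37) (nat_lit 5) (nat_lit 40) (nat_lit 5) (nat_lit 38) (nat_lit 5) (nat_lit 507) (nat_lit 363) (nat_lit 270)) (XT.lf (nat_lit 0) (nat_lit 659488382) (nat_lit 1444) (nat_lit 1404904792) (nat_lit 1444) (nat_lit 1404904792) (nat_lit 534) (nat_lit 4) (nat_lit 553) (nat_lit 5) (nat_lit 553) (nat_lit 4) (nat_lit 412) (nat_lit 364) (nat_lit 364))))) (XT.nd (nat_lit 234) (nat_lit 3496) (nat_lit 0) (XT.nd (nat_lit 78) (nat_lit 3192) (nat_lit 0) (XT.lf (nat_lit 0) (nat_lit 561928108) (nat_lit 1520) (nat_lit 749419145) (nat_lit 76) (nat_lit 5659289186) (nat_lit 533) (nat_lit 5) (nat_lit 553) (nat_lit 5) (nat_lit 534) (nat_lit 4) (nat_lit 413) (nat_lit 364) (nat_lit 363)) (XT.nd (nat_lit 78) (nat_lit 1672) (nat_lit 0) (XT.lf (nat_lit 0) (nat_lit 3923569800) (nat_lit 1596) (nat_lit 2815524399)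 (nat_lit 0) (nat_lit 264671178) (nat_lit 513) (nat_lit 5) (nat_lit 534) (nat_lit 4) (nat_lit 513) (nat_lit 4) (nat_lit 414) (nat_lit 364) (nat_lit 362)) (XT.lf (nat_lit 0) (nat_lit 270257389) (nat_lit 1672) (nat_lit 4888798255) (nat_lit 76) (nat_lit 1879290482) (nat_lit 491) (nat_lit 5) (nat_lit 513) (nat_lit 5) (nat_lit 492) (nat_lit 4) (nat_lit 415) (nat_lit 364) (nat_lit 361)))) (XT.nd (nat_lit 78) (nat_lit 1824) (nat_lit 0) (XT.lf (nat_lit 0) (nat_lit 93571026) (nat_lit 1672) (nat_lit 3505086784) (nat_lit 1748) (nat_lit 3475529556) (nat_lit 469) (nat_lit 5) (nat_lit 491) (nat_lit 5) (nat_lit 492) (nat_lit 4) (nat_lit 416) (nat_lit 364) (nat_lit 360)) (XT.nd (nat_lit 78) (nat_lit 1824) (nat_lit 0) (XT.lf (nat_lit 0) (nat_lit 5176312159) (nat_lit 1672) (nat_lit 1783535480) (nat_lit 1748) (nat_lit 151592698) (nat_lit 469) (nat_lit 5) (nat_lit 491) (nat_lit 5) (nat_lit 492) (nat_lit 4) (nat_lit 417) (nat_lit 364) (nat_lit 359))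 (XT.lf (nat_lit 0) (nat_lit 3151274796) (nat_lit 1824) (nat_lit 3983419527) (nat_lit 76) (nat_lit 15243467) (nat_lit 445) (nat_lit 5) (nat_lit 469) (nat_lit 5) (nat_lit 446) (nat_lit 4) (nat_lit 418) (nat_lit 364) (nat_lit 358))))))) (XT.nd (nat_lit 936) (nat_lit 5700) (nat_lit 0) (XT.nd (nat_lit 468) (nat_lit 4104) (nat_lit 0) (XT.nd (nat_lit 234) (nat_lit 1976) (nat_lit 0) (XT.nd (nat_lit 78) (nat_lit 988) (nat_lit 0) (XT.lf (nat_lit 0) (nat_lit 1143540519) (nat_lit 1444) (nat_lit 5342078106) (nat_lit 1520) (nat_lit 704235769) (nat_lit 426) (nat_lit 5) (nat_lit 445) (nat_lit 5) (nat_lit 446) (nat_lit 4) (nat_lit 419) (nat_lit 364) (nat_lit 357)) (XT.nd (nat_lit 78) (nat_lit 912) (nat_lit 0) (XT.lf (nat_lit 0) (nat_lit 2583696233) (nat_lit 1520) (nat_lit 886899480) (nat_lit 76) (nat_lit 3760397204) (nat_lit 425) (nat_lit 5) (nat_lit 445) (nat_lit 5) (nat_lit 426) (nat_lit 5) (nat_lit 420) (nat_lit 364) (nat_lit 356)) (XT.lf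 (nat_lit 0) (nat_lit 4363086788) (nat_lit 912) (nat_lit 1530014429) (nat_lit 988) (nat_lit 1380474183) (nat_lit 413) (nat_lit 5) (nat_lit 425) (nat_lit 5) (nat_lit 426) (nat_lit 5) (nat_lit 421) (nat_lit 364) (nat_lit 355)))) (XT.nd (nat_lit 78) (nat_lit 988) (nat_lit 0) (XT.lf (nat_lit 0) (nat_lit 1887761252) (nat_lit 988) (nat_lit 4954801175) (nat_lit 76) (nat_lit 474976712) (nat_lit 400) (nat_lit 5) (nat_lit 413) (nat_lit 5) (nat_lit 401) (nat_lit 5) (nat_lit 422) (nat_lit 364) (nat_lit 354)) (XT.nd (nat_lit 78) (nat_lit 76) (nat_lit 0) (XT.lf (nat_lit 0) (nat_lit 337510836) (nat_lit 912) (nat_lit 4835351398) (nat_lit 988) (nat_lit 2189953892) (nat_lit 388) (nat_lit 5) (nat_lit 400) (nat_lit 5) (nat_lit 401) (nat_lit 5) (nat_lit 423) (nat_lit 364) (nat_lit 353)) (XT.lf (nat_lit 0) (nat_lit 1071867583) (nat_lit 988) (nat_lit 1679757837) (nat_lit 76) (nat_lit 4657807638) (nat_lit 387) (nat_lit 5) (nat_lit 400) (nat_lit 5)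 (nat_lit 388) (nat_lit 5) (nat_lit 424) (nat_lit 364) (nat_lit 352))))) (XT.nd (nat_lit 234) (nat_lit 2356) (nat_lit 0) (XT.nd (nat_lit 78) (nat_lit 912) (nat_lit 0) (XT.lf (nat_lit 0) (nat_lit 3741781955) (nat_lit 836) (nat_lit 591700943) (nat_lit 912) (nat_lit 3123947548) (nat_lit 376) (nat_lit 5) (nat_lit 387) (nat_lit 5) (nat_lit 388) (nat_lit 5) (nat_lit 425) (nat_lit 364) (nat_lit 351)) (XT.nd (nat_lit 78) (nat_lit 0) (nat_lit 0) (XT.lf (nat_lit 0) (nat_lit 125089263) (nat_lit 912) (nat_lit 5773422189) (nat_lit 76) (nat_lit 1608407683) (nat_lit 364) (nat_lit 5) (nat_lit 376) (nat_lit 5) (nat_lit 365) (nat_lit 5) (nat_lit 426) (nat_lit 364) (nat_lit 350)) (XT.lf (nat_lit 0) (nat_lit 3366959663) (nat_lit 912) (nat_lit 306279243) (nat_lit 76) (nat_lit 3884366422) (nat_lit 364) (nat_lit 5) (nat_lit 376) (nat_lit 5) (nat_lit 365) (nat_lit 5) (nat_lit 427) (nat_lit 364) (nat_lit 349)))) (XT.nd (nat_lit 78) (nat_lit 1596) (nat_lit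 0) (XT.lf (nat_lit 0) (nat_lit 5274082849) (nat_lit 760) (nat_lit 1375617444) (nat_lit 836) (nat_lit 960098381) (nat_lit 354) (nat_lit 5) (nat_lit 364) (nat_lit 5) (nat_lit 365) (nat_lit 5) (nat_lit 428) (nat_lit 364) (nat_lit 348)) (XT.nd (nat_lit 78) (nat_lit 760) (nat_lit 0) (XT.lf (nat_lit 0) (nat_lit 2276334993) (nat_lit 836) (nat_lit 4400662635) (nat_lit 76) (nat_lit 986310584) (nat_lit 343) (nat_lit 5) (nat_lit 354) (nat_lit 5) (nat_lit 344) (nat_lit 5) (nat_lit 429) (nat_lit 364) (nat_lit 347)) (XT.lf (nat_lit 0) (nat_lit 1221184839) (nat_lit 760) (nat_lit 4319060160) (nat_lit 836) (nat_lit 2178017214) (nat_lit 333) (nat_lit 5) (nat_lit 343) (nat_lit 5) (nat_lit 344) (nat_lit 5) (nat_lit 430) (nat_lit 364) (nat_lit 346)))))) (XT.nd (nat_lit 468) (nat_lit 2660) (nat_lit 0) (XT.nd (nat_lit 234) (nat_lit 1520) (nat_lit 0) (XT.nd (nat_lit 78) (nat_lit 1444) (nat_lit 0) (XT.lf (nat_lit 0) (nat_lit 1053563842) (nat_lit 836)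 (nat_lit 832562014) (nat_lit 76) (nat_lit 5888603821) (nat_lit 332) (nat_lit 5) (nat_lit 343) (nat_lit 5) (nat_lit 333) (nat_lit 5) (nat_lit 431) (nat_lit 364) (nat_lit 345)) (XT.nd (nat_lit 78) (nat_lit 684) (nat_lit 0) (XT.lf (nat_lit 0) (nat_lit 4300959836) (nat_lit 836) (nat_lit 2906504799) (nat_lit 76) (nat_lit 624979488) (nat_lit 322) (nat_lit 5) (nat_lit 333) (nat_lit 5) (nat_lit 323) (nat_lit 5) (nat_lit 432) (nat_lit 364) (nat_lit 344)) (XT.lf (nat_lit 0) (nat_lit 2878957912) (nat_lit 684) (nat_lit 4715960201) (nat_lit 760) (nat_lit 296774718) (nat_lit 313) (nat_lit 5) (nat_lit 322) (nat_lit 5) (nat_lit 323) (nat_lit 5) (nat_lit 433) (nat_lit 364) (nat_lit 343)))) (XT.nd (nat_lit 78) (nat_lit 760) (nat_lit 0) (XT.lf (nat_lit 0) (nat_lit 792283693) (nat_lit 684) (nat_lit 2140833826) (nat_lit 760) (nat_lit 5019233510) (nat_lit 303) (nat_lit 5) (nat_lit 312) (nat_lit 5) (nat_lit 313) (nat_lit 5) (nat_lit 434) (nat_lit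 364) (nat_lit 342)) (XT.nd (nat_lit 78) (nat_lit 760) (nat_lit 0) (XT.lf (nat_lit 0) (nat_lit 6206317587) (nat_lit 760) (nat_lit 1304400733) (nat_lit 76) (nat_lit 503822717) (nat_lit 303) (nat_lit 5) (nat_lit 313) (nat_lit 5) (nat_lit 304) (nat_lit 5) (nat_lit 435) (nat_lit 364) (nat_lit 341)) (XT.lf (nat_lit 0) (nat_lit 1438793328) (nat_lit 760) (nat_lit 3437997184) (nat_lit 76) (nat_lit 3201184410) (nat_lit 293) (nat_lit 5) (nat_lit 303) (nat_lit 5) (nat_lit 294) (nat_lit 5) (nat_lit 436) (nat_lit 364) (nat_lit 340))))) (XT.nd (nat_lit 234) (nat_lit 1292) (nat_lit 0) (XT.nd (nat_lit 78) (nat_lit 684) (nat_lit 0) (XT.lf (nat_lit 0) (nat_lit 2533787424) (nat_lit 684) (nat_lit 2165028347) (nat_lit 760) (nat_lit 3444188005) (nat_lit 284) (nat_lit 5) (nat_lit 293) (nat_lit 5) (nat_lit 294) (nat_lit 5) (nat_lit 437) (nat_lit 364) (nat_lit 339)) (XT.nd (nat_lit 78) (nat_lit 76) (nat_lit 0) (XT.lf (nat_lit 0) (nat_lit 397523293)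 (nat_lit 608) (nat_lit 7603744683) (nat_lit 684) (nat_lit 208531321) (nat_lit 276) (nat_lit 5) (nat_lit 284) (nat_lit 5) (nat_lit 285) (nat_lit 5) (nat_lit 438) (nat_lit 364) (nat_lit 338)) (XT.lf (nat_lit 0) (nat_lit 3051286336) (nat_lit 684) (nat_lit 1778049457) (nat_lit 76) (nat_lit 3448203753) (nat_lit 275) (nat_lit 5) (nat_lit 284) (nat_lit 5) (nat_lit 276) (nat_lit 5) (nat_lit 439) (nat_lit 364) (nat_lit 337)))) (XT.nd (nat_lit 78) (nat_lit 684) (nat_lit 0) (XT.lf (nat_lit 0) (nat_lit 4367424685) (nat_lit 608) (nat_lit 1983236227) (nat_lit 684) (nat_lit 1996413122) (nat_lit 267) (nat_lit 5) (nat_lit 275) (nat_lit 5) (nat_lit 276) (nat_lit 5) (nat_lit 440) (nat_lit 364) (nat_lit 336)) (XT.nd (nat_lit 78) (nat_lit 0) (nat_lit 0) (XT.lf (nat_lit 0) (nat_lit 1262412440) (nat_lit 684) (nat_lit 6227578341) (nat_lit 76) (nat_lit 928221298) (nat_lit 258) (nat_lit 5) (nat_lit 267) (nat_lit 5) (nat_lit 259) (nat_lit 5) (nat_lit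 441) (nat_lit 364) (nat_lit 335)) (XT.lf (nat_lit 0) (nat_lit 4549235980) (nat_lit 684) (nat_lit 44585807) (nat_lit 76) (nat_lit 3896905582) (nat_lit 258) (nat_lit 5) (nat_lit 267) (nat_lit 5) (nat_lit 259) (nat_lit 5) (nat_lit 442) (nat_lit 364) (nat_lit 334))))))))
noncomputable def xc50 : XT := (XT.nd (nat_lit 1794) (nat_lit 5624) (nat_lit 0) (XT.nd (nat_lit 858) (nat_lit 3572) (nat_lit 0) (XT.nd (nat_lit 390) (nat_lit 2584) (nat_lit 0) (XT.nd (nat_lit 156) (nat_lit 1216) (nat_lit 0) (XT.nd (nat_lit 78) (nat_lit 608) (nat_lit 0) (XT.lf (nat_lit 0) (nat_lit 6279638336) (nat_lit 608) (nat_lit 1613431226) (nat_lit 684) (nat_lit 671807222) (nat_lit 250) (nat_lit 5) (nat_lit 258) (nat_lit 5) (nat_lit 259) (nat_lit 5) (nat_lit 443) (nat_lit 364) (nat_lit 333)) (XT.lf (nat_lit 0) (nat_lit 2615184473) (nat_lit 608) (nat_lit 4588679625) (nat_lit 76) (nat_lit 1436571327) (nat_lit 242) (nat_lit 5) (nat_lit 250) (nat_lit 5) (nat_lit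 243) (nat_lit 5) (nat_lit 444) (nat_lit 364) (nat_lit 332))) (XT.nd (nat_lit 78) (nat_lit 608) (nat_lit 0) (XT.lf (nat_lit 0) (nat_lit 1771793202) (nat_lit 608) (nat_lit 4175926427) (nat_lit 684) (nat_lit 2769929570) (nat_lit 234) (nat_lit 5) (nat_lit 242) (nat_lit 5) (nat_lit 243) (nat_lit 5) (nat_lit 445) (nat_lit 364) (nat_lit 331)) (XT.nd (nat_lit 78) (nat_lit 532) (nat_lit 0) (XT.lf (nat_lit 0) (nat_lit 525646990) (nat_lit 684) (nat_lit 543594169) (nat_lit 76) (nat_lit 7727455650) (nat_lit 233) (nat_lit 5) (nat_lit 242) (nat_lit 5) (nat_lit 234) (nat_lit 5) (nat_lit 446) (nat_lit 364) (nat_lit 330)) (XT.lf (nat_lit 0) (nat_lit 3855149843) (nat_lit 608) (nat_lit 2908628456) (nat_lit 76) (nat_lit 2113087056) (nat_lit 226) (nat_lit 5) (nat_lit 234) (nat_lit 5) (nat_lit 227) (nat_lit 5) (nat_lit 447) (nat_lit 364) (nat_lit 329))))) (XT.nd (nat_lit 234) (nat_lit 1520) (nat_lit 0) (XT.nd (nat_lit 78) (nat_lit 532) (nat_lit 0)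 (XT.lf (nat_lit 0) (nat_lit 3634844487) (nat_lit 532) (nat_lit 3603486891) (nat_lit 608) (nat_lit 1720572213) (nat_lit 219) (nat_lit 5) (nat_lit 226) (nat_lit 5) (nat_lit 227) (nat_lit 5) (nat_lit 448) (nat_lit 364) (nat_lit 328)) (XT.nd (nat_lit 78) (nat_lit 0) (nat_lit 0) (XT.lf (nat_lit 0) (nat_lit 1246917803) (nat_lit 456) (nat_lit 358751181) (nat_lit 532) (nat_lit 7437094158) (nat_lit 212) (nat_lit 5) (nat_lit 218) (nat_lit 5) (nat_lit 219) (nat_lit 5) (nat_lit 449) (nat_lit 364) (nat_lit 327)) (XT.lf (nat_lit 0) (nat_lit 4983854277) (nat_lit 532) (nat_lit 1202323860) (nat_lit 76) (nat_lit 2941732757) (nat_lit 212) (nat_lit 5) (nat_lit 219) (nat_lit 5) (nat_lit 213) (nat_lit 5) (nat_lit 450) (nat_lit 364) (nat_lit 326)))) (XT.nd (nat_lit 78) (nat_lit 988) (nat_lit 0) (XT.lf (nat_lit 0) (nat_lit 5529058174) (nat_lit 532) (nat_lit 2893047963) (nat_lit 608) (nat_lit 792812882) (nat_lit 205) (nat_lit 5) (nat_lit 212) (nat_lit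 5) (nat_lit 213) (nat_lit 5) (nat_lit 451) (nat_lit 364) (nat_lit 325)) (XT.nd (nat_lit 78) (nat_lit 456) (nat_lit 0) (XT.lf (nat_lit 0) (nat_lit 2576662057) (nat_lit 532) (nat_lit 6240246953) (nat_lit 76) (nat_lit 486711762) (nat_lit 198) (nat_lit 5) (nat_lit 205) (nat_lit 5) (nat_lit 199) (nat_lit 5) (nat_lit 452) (nat_lit 364) (nat_lit 324)) (XT.lf (nat_lit 0) (nat_lit 521516705) (nat_lit 456) (nat_lit 5483609352) (nat_lit 532) (nat_lit 3388828429) (nat_lit 192) (nat_lit 5) (nat_lit 198) (nat_lit 5) (nat_lit 199) (nat_lit 5) (nat_lit 453) (nat_lit 364) (nat_lit 323)))))) (XT.nd (nat_lit 468) (nat_lit 1672) (nat_lit 0) (XT.nd (nat_lit 234) (nat_lit 912) (nat_lit 0) (XT.nd (nat_lit 78) (nat_lit 912) (nat_lit 0) (XT.lf (nat_lit 0) (nat_lit 12935066) (nat_lit 532) (nat_lit 2047418941) (nat_lit 76) (nat_lit 7425803924) (nat_lit 191) (nat_lit 5) (nat_lit 198) (nat_lit 5) (nat_lit 192) (nat_lit 5) (nat_lit 454) (nat_lit 364) (nat_lit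 322)) (XT.nd (nat_lit 78) (nat_lit 456) (nat_lit 0) (XT.lf (nat_lit 0) (nat_lit 3434501930) (nat_lit 532) (nat_lit 4697329616) (nat_lit 76) (nat_lit 1447989645) (nat_lit 185) (nat_lit 5) (nat_lit 192) (nat_lit 5) (nat_lit 186) (nat_lit 5) (nat_lit 455) (nat_lit 364) (nat_lit 321)) (XT.lf (nat_lit 0) (nat_lit 2255569326) (nat_lit 456) (nat_lit 4667192591) (nat_lit 532) (nat_lit 2752637067) (nat_lit 179) (nat_lit 5) (nat_lit 185) (nat_lit 5) (nat_lit 186) (nat_lit 5) (nat_lit 456) (nat_lit 364) (nat_lit 320)))) (XT.nd (nat_lit 78) (nat_lit 836) (nat_lit 0) (XT.lf (nat_lit 0) (nat_lit 686640731) (nat_lit 532) (nat_lit 429977195) (nat_lit 76) (nat_lit 8656424215) (nat_lit 178) (nat_lit 5) (nat_lit 185) (nat_lit 5) (nat_lit 179) (nat_lit 5) (nat_lit 457) (nat_lit 364) (nat_lit 319)) (XT.nd (nat_lit 78) (nat_lit 456) (nat_lit 0) (XT.lf (nat_lit 0) (nat_lit 4175119966) (nat_lit 456) (nat_lit 3182265455) (nat_lit 76) (nat_lit 2514549500)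 (nat_lit 173) (nat_lit 5) (nat_lit 179) (nat_lit 5) (nat_lit 174) (nat_lit 5) (nat_lit 458) (nat_lit 364) (nat_lit 318)) (XT.lf (nat_lit 0) (nat_lit 3966225793) (nat_lit 456) (nat_lit 3760651144) (nat_lit 532) (nat_lit 2246064466) (nat_lit 167) (nat_lit 5) (nat_lit 173) (nat_lit 5) (nat_lit 174) (nat_lit 5) (nat_lit 459) (nat_lit 364) (nat_lit 317))))) (XT.nd (nat_lit 234) (nat_lit 836) (nat_lit 0) (XT.nd (nat_lit 78) (nat_lit 380) (nat_lit 0) (XT.lf (nat_lit 0) (nat_lit 1168879935) (nat_lit 380) (nat_lit 74801011) (nat_lit 456) (nat_lit 8832393760) (nat_lit 161) (nat_lit 5) (nat_lit 166) (nat_lit 5) (nat_lit 167) (nat_lit 5) (nat_lit 460) (nat_lit 364) (nat_lit 316)) (XT.nd (nat_lit 78) (nat_lit 380) (nat_lit 0) (XT.lf (nat_lit 0) (nat_lit 4795560268) (nat_lit 456) (nat_lit 1713734136) (nat_lit 76) (nat_lit 3671236727) (nat_lit 161) (nat_lit 5) (nat_lit 167) (nat_lit 5) (nat_lit 162) (nat_lit 5) (nat_lit 461) (nat_lit 364)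 (nat_lit 315)) (XT.lf (nat_lit 0) (nat_lit 5634632754) (nat_lit 380) (nat_lit 2779635900) (nat_lit 456) (nat_lit 1872897754) (nat_lit 156) (nat_lit 5) (nat_lit 161) (nat_lit 5) (nat_lit 162) (nat_lit 5) (nat_lit 462) (nat_lit 364) (nat_lit 314)))) (XT.nd (nat_lit 78) (nat_lit 380) (nat_lit 0) (XT.lf (nat_lit 0) (nat_lit 1681854840) (nat_lit 456) (nat_lit 7683261671) (nat_lit 76) (nat_lit 1030704098) (nat_lit 150) (nat_lit 5) (nat_lit 156) (nat_lit 5) (nat_lit 151) (nat_lit 5) (nat_lit 463) (nat_lit 364) (nat_lit 313)) (XT.nd (nat_lit 78) (nat_lit 380) (nat_lit 0) (XT.lf (nat_lit 0) (nat_lit 5291592479) (nat_lit 456) (nat_lit 311801260) (nat_lit 76) (nat_lit 4902832429) (nat_lit 150) (nat_lit 5) (nat_lit 156) (nat_lit 5) (nat_lit 151) (nat_lit 5) (nat_lit 464) (nat_lit 364) (nat_lit 312)) (XT.lf (nat_lit 0) (nat_lit 7240500547) (nat_lit 380) (nat_lit 1739945000) (nat_lit 456) (nat_lit 1638261008) (nat_lit 145) (nat_lit 5) (nat_lit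 150) (nat_lit 5) (nat_lit 151) (nat_lit 5) (nat_lit 465) (nat_lit 364) (nat_lit 311))))))) (XT.nd (nat_lit 936) (nat_lit 2356) (nat_lit 0) (XT.nd (nat_lit 468) (nat_lit 1672) (nat_lit 0) (XT.nd (nat_lit 234) (nat_lit 760) (nat_lit 0) (XT.nd (nat_lit 78) (nat_lit 380) (nat_lit 0) (XT.lf (nat_lit 0) (nat_lit 1987085390) (nat_lit 456) (nat_lit 6552865045) (nat_lit 76) (nat_lit 2193154027) (nat_lit 139) (nat_lit 5) (nat_lit 145) (nat_lit 5) (nat_lit 140) (nat_lit 5) (nat_lit 466) (nat_lit 364) (nat_lit 310)) (XT.nd (nat_lit 78) (nat_lit 0) (nat_lit 0) (XT.lf (nat_lit 0) (nat_lit 1015171787) (nat_lit 380) (nat_lit 4649061549) (nat_lit 456) (nat_lit 5185320629) (nat_lit 134) (nat_lit 5) (nat_lit 139) (nat_lit 5) (nat_lit 140) (nat_lit 5) (nat_lit 467) (nat_lit 364) (nat_lit 309)) (XT.lf (nat_lit 0) (nat_lit 8761873289) (nat_lit 380) (nat_lit 657680348) (nat_lit 456) (nat_lit 1548690972) (nat_lit 134) (nat_lit 5) (nat_lit 139) (nat_lit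 5) (nat_lit 140) (nat_lit 5) (nat_lit 468) (nat_lit 364) (nat_lit 308)))) (XT.nd (nat_lit 78) (nat_lit 380) (nat_lit 0) (XT.lf (nat_lit 0) (nat_lit 2152033692) (nat_lit 380) (nat_lit 5539020305) (nat_lit 76) (nat_lit 3397585053) (nat_lit 129) (nat_lit 5) (nat_lit 134) (nat_lit 5) (nat_lit 130) (nat_lit 5) (nat_lit 469) (nat_lit 364) (nat_lit 307)) (XT.nd (nat_lit 78) (nat_lit 0) (nat_lit 0) (XT.lf (nat_lit 0) (nat_lit 2233000698) (nat_lit 380) (nat_lit 3668206154) (nat_lit 456) (nat_lit 5310130839) (nat_lit 124) (nat_lit 5) (nat_lit 129) (nat_lit 5) (nat_lit 130) (nat_lit 5) (nat_lit 470) (nat_lit 364) (nat_lit 306)) (XT.lf (nat_lit 0) (nat_lit 9727215850) (nat_lit 456) (nat_lit 1164561931) (nat_lit 76) (nat_lit 444679855) (nat_lit 124) (nat_lit 5) (nat_lit 130) (nat_lit 5) (nat_lit 125) (nat_lit 5) (nat_lit 471) (nat_lit 364) (nat_lit 305))))) (XT.nd (nat_lit 234) (nat_lit 988) (nat_lit 0) (XT.nd (nat_lit 78) (nat_lit 304)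 (nat_lit 0) (XT.lf (nat_lit 0) (nat_lit 2168337009) (nat_lit 380) (nat_lit 4667303452) (nat_lit 76) (nat_lit 4627541007) (nat_lit 119) (nat_lit 5) (nat_lit 124) (nat_lit 5) (nat_lit 120) (nat_lit 5) (nat_lit 472) (nat_lit 364) (nat_lit 304)) (XT.nd (nat_lit 78) (nat_lit 0) (nat_lit 0) (XT.lf (nat_lit 0) (nat_lit 3311557081) (nat_lit 304) (nat_lit 2680213659) (nat_lit 380) (nat_lit 5600623400) (nat_lit 115) (nat_lit 5) (nat_lit 119) (nat_lit 5) (nat_lit 120) (nat_lit 5) (nat_lit 473) (nat_lit 364) (nat_lit 303)) (XT.lf (nat_lit 0) (nat_lit 9895982801) (nat_lit 380) (nat_lit 281028215) (nat_lit 76) (nat_lit 1547097901) (nat_lit 115) (nat_lit 5) (nat_lit 120) (nat_lit 5) (nat_lit 116) (nat_lit 5) (nat_lit 474) (nat_lit 364) (nat_lit 302)))) (XT.nd (nat_lit 78) (nat_lit 608) (nat_lit 0) (XT.lf (nat_lit 0) (nat_lit 2026015992) (nat_lit 380) (nat_lit 3965648031) (nat_lit 76) (nat_lit 5865881871) (nat_lit 110) (nat_lit 5) (nat_lit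 115) (nat_lit 5) (nat_lit 111) (nat_lit 5) (nat_lit 475) (nat_lit 364) (nat_lit 301)) (XT.nd (nat_lit 78) (nat_lit 304) (nat_lit 0) (XT.lf (nat_lit 0) (nat_lit 4222421540) (nat_lit 304) (nat_lit 1703165115) (nat_lit 380) (nat_lit 6067970602) (nat_lit 106) (nat_lit 5) (nat_lit 110) (nat_lit 5) (nat_lit 111) (nat_lit 5) (nat_lit 476) (nat_lit 364) (nat_lit 300)) (XT.lf (nat_lit 0) (nat_lit 424799434) (nat_lit 304) (nat_lit 9488911770) (nat_lit 380) (nat_lit 2218370131) (nat_lit 102) (nat_lit 5) (nat_lit 106) (nat_lit 5) (nat_lit 107) (nat_lit 5) (nat_lit 477) (nat_lit 364) (nat_lit 299)))))) (XT.nd (nat_lit 468) (nat_lit 1140) (nat_lit 0) (XT.nd (nat_lit 234) (nat_lit 608) (nat_lit 0) (XT.nd (nat_lit 78) (nat_lit 532) (nat_lit 0) (XT.lf (nat_lit 0) (nat_lit 1713352165) (nat_lit 380) (nat_lit 3464653437) (nat_lit 76) (nat_lit 7094601397) (nat_lit 101) (nat_lit 5) (nat_lit 106) (nat_lit 5) (nat_lit 102) (nat_lit 5) (nat_lit 478)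 (nat_lit 364) (nat_lit 298)) (XT.nd (nat_lit 78) (nat_lit 228) (nat_lit 0) (XT.lf (nat_lit 0) (nat_lit 4934422751) (nat_lit 304) (nat_lit 756118530) (nat_lit 380) (nat_lit 6725181422) (nat_lit 97) (nat_lit 5) (nat_lit 101) (nat_lit 5) (nat_lit 102) (nat_lit 5) (nat_lit 479) (nat_lit 364) (nat_lit 297)) (XT.lf (nat_lit 0) (nat_lit 916090487) (nat_lit 228) (nat_lit 8849552526) (nat_lit 304) (nat_lit 2795693783) (nat_lit 94) (nat_lit 5) (nat_lit 97) (nat_lit 5) (nat_lit 98) (nat_lit 5) (nat_lit 480) (nat_lit 364) (nat_lit 296)))) (XT.nd (nat_lit 78) (nat_lit 532) (nat_lit 0) (XT.lf (nat_lit 0) (nat_lit 1216748749) (nat_lit 304) (nat_lit 3197921899) (nat_lit 76) (nat_lit 8294633096) (nat_lit 93) (nat_lit 5) (nat_lit 97) (nat_lit 5) (nat_lit 94) (nat_lit 5) (nat_lit 481) (nat_lit 364) (nat_lit 295)) (XT.nd (nat_lit 78) (nat_lit 228) (nat_lit 0) (XT.lf (nat_lit 0) (nat_lit 5273515051) (nat_lit 380) (nat_lit 7447474710) (nat_lit 76)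 (nat_lit 138843746) (nat_lit 89) (nat_lit 5) (nat_lit 94) (nat_lit 5) (nat_lit 90) (nat_lit 5) (nat_lit 482) (nat_lit 364) (nat_lit 294)) (XT.lf (nat_lit 0) (nat_lit 1153294549) (nat_lit 228) (nat_lit 8282020768) (nat_lit 304) (nat_lit 3577583766) (nat_lit 86) (nat_lit 5) (nat_lit 89) (nat_lit 5) (nat_lit 90) (nat_lit 5) (nat_lit 483) (nat_lit 364) (nat_lit 293))))) (XT.nd (nat_lit 234) (nat_lit 532) (nat_lit 0) (XT.nd (nat_lit 78) (nat_lit 532) (nat_lit 0) (XT.lf (nat_lit 0) (nat_lit 520573331) (nat_lit 304) (nat_lit 3202427470) (nat_lit 76) (nat_lit 9445642759) (nat_lit 85) (nat_lit 5) (nat_lit 89) (nat_lit 5) (nat_lit 86) (nat_lit 5) (nat_lit 484) (nat_lit 364) (nat_lit 292)) (XT.nd (nat_lit 78) (nat_lit 228) (nat_lit 0) (XT.lf (nat_lit 0) (nat_lit 4661921021) (nat_lit 380) (nat_lit 7711969537) (nat_lit 76) (nat_lit 952959793) (nat_lit 81) (nat_lit 5) (nat_lit 86) (nat_lit 5) (nat_lit 82) (nat_lit 5) (nat_lit 485) (nat_lit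 364) (nat_lit 291)) (XT.lf (nat_lit 0) (nat_lit 1096943976) (nat_lit 228) (nat_lit 7809028083) (nat_lit 304) (nat_lit 4581854639) (nat_lit 78) (nat_lit 5) (nat_lit 81) (nat_lit 5) (nat_lit 82) (nat_lit 5) (nat_lit 486) (nat_lit 364) (nat_lit 290)))) (XT.nd (nat_lit 78) (nat_lit 532) (nat_lit 0) (XT.lf (nat_lit 0) (nat_lit 10130148987) (nat_lit 228) (nat_lit 3123264062) (nat_lit 304) (nat_lit 398242232) (nat_lit 78) (nat_lit 5) (nat_lit 81) (nat_lit 5) (nat_lit 82) (nat_lit 5) (nat_lit 487) (nat_lit 364) (nat_lit 289)) (XT.nd (nat_lit 78) (nat_lit 228) (nat_lit 0) (XT.lf (nat_lit 0) (nat_lit 3832316092) (nat_lit 304) (nat_lit 8312475207) (nat_lit 76) (nat_lit 1673189167) (nat_lit 74) (nat_lit 5) (nat_lit 78) (nat_lit 5) (nat_lit 75) (nat_lit 5) (nat_lit 488) (nat_lit 364) (nat_lit 288)) (XT.lf (nat_lit 0) (nat_lit 703486131) (nat_lit 228) (nat_lit 7455036978) (nat_lit 304) (nat_lit 5828731723) (nat_lit 71) (nat_lit 5) (nat_lit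 74) (nat_lit 5) (nat_lit 75) (nat_lit 5) (nat_lit 489) (nat_lit 364) (nat_lit 287))))))))
noncomputable def xc51 : XT := (XT.nd (nat_lit 53508) (nat_lit 0) (nat_lit 18620) (XT.nd (nat_lit 858) (nat_lit 836) (nat_lit 0) (XT.nd (nat_lit 390) (nat_lit 836) (nat_lit 0) (XT.nd (nat_lit 156) (nat_lit 532) (nat_lit 0) (XT.nd (nat_lit 78) (nat_lit 304) (nat_lit 0) (XT.lf (nat_lit 0) (nat_lit 9956917275) (nat_lit 228) (nat_lit 2637724202) (nat_lit 304) (nat_lit 1564808133) (nat_lit 71) (nat_lit 5) (nat_lit 74) (nat_lit 5) (nat_lit 75) (nat_lit 5) (nat_lit 490) (nat_lit 364) (nat_lit 286)) (XT.lf (nat_lit 0) (nat_lit 2763681492) (nat_lit 304) (nat_lit 9296013282) (nat_lit 76) (nat_lit 2274718402) (nat_lit 67) (nat_lit 5) (nat_lit 71) (nat_lit 5) (nat_lit 68) (nat_lit 5) (nat_lit 491) (nat_lit 364) (nat_lit 285))) (XT.nd (nat_lit 78) (nat_lit 532) (nat_lit 0) (XT.lf (nat_lit 0) (nat_lit 7171817389) (nat_lit 304) (nat_lit 74206239) (nat_lit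 76) (nat_lit 7266367450) (nat_lit 67) (nat_lit 5) (nat_lit 71) (nat_lit 5) (nat_lit 68) (nat_lit 5) (nat_lit 492) (nat_lit 364) (nat_lit 284)) (XT.nd (nat_lit 78) (nat_lit 304) (nat_lit 0) (XT.lf (nat_lit 0) (nat_lit 9401423256) (nat_lit 228) (nat_lit 2296510801) (nat_lit 304) (nat_lit 2995400585) (nat_lit 64) (nat_lit 5) (nat_lit 67) (nat_lit 5) (nat_lit 68) (nat_lit 5) (nat_lit 493) (nat_lit 364) (nat_lit 283)) (XT.lf (nat_lit 0) (nat_lit 1432281542) (nat_lit 304) (nat_lit 10714534306) (nat_lit 76) (nat_lit 2730608085) (nat_lit 60) (nat_lit 5) (nat_lit 64) (nat_lit 5) (nat_lit 61) (nat_lit 5) (nat_lit 494) (nat_lit 364) (nat_lit 282))))) (XT.nd (nat_lit 234) (nat_lit 456) (nat_lit 0) (XT.nd (nat_lit 78) (nat_lit 380) (nat_lit 0) (XT.lf (nat_lit 0) (nat_lit 5928352007) (nat_lit 304) (nat_lit 1275340440) (nat_lit 76) (nat_lit 7860710033) (nat_lit 60) (nat_lit 5) (nat_lit 64) (nat_lit 5) (nat_lit 61) (nat_lit 5) (nat_lit 495)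 (nat_lit 364) (nat_lit 281)) (XT.nd (nat_lit 78) (nat_lit 228) (nat_lit 0) (XT.lf (nat_lit 0) (nat_lit 8409900716) (nat_lit 152) (nat_lit 2128604886) (nat_lit 228) (nat_lit 4716134038) (nat_lit 58) (nat_lit 5) (nat_lit 60) (nat_lit 5) (nat_lit 61) (nat_lit 5) (nat_lit 496) (nat_lit 364) (nat_lit 280)) (XT.lf (nat_lit 0) (nat_lit 2821639063) (nat_lit 228) (nat_lit 12435615383) (nat_lit 304) (nat_lit 191101488) (nat_lit 55) (nat_lit 5) (nat_lit 58) (nat_lit 5) (nat_lit 59) (nat_lit 5) (nat_lit 497) (nat_lit 364) (nat_lit 279)))) (XT.nd (nat_lit 78) (nat_lit 380) (nat_lit 0) (XT.lf (nat_lit 0) (nat_lit 4396455604) (nat_lit 304) (nat_lit 2967228174) (nat_lit 76) (nat_lit 8281089373) (nat_lit 54) (nat_lit 5) (nat_lit 58) (nat_lit 5) (nat_lit 55) (nat_lit 5) (nat_lit 498) (nat_lit 364) (nat_lit 278)) (XT.nd (nat_lit 78) (nat_lit 228) (nat_lit 0) (XT.lf (nat_lit 0) (nat_lit 6922822063) (nat_lit 152) (nat_lit 2165645033) (nat_lit 228)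 (nat_lit 6756323216) (nat_lit 52) (nat_lit 5) (nat_lit 54) (nat_lit 5) (nat_lit 55) (nat_lit 5) (nat_lit 499) (nat_lit 364) (nat_lit 277)) (XT.lf (nat_lit 0) (nat_lit 942086519) (nat_lit 228) (nat_lit 12949168388) (nat_lit 304) (nat_lit 2157216249) (nat_lit 49) (nat_lit 5) (nat_lit 52) (nat_lit 5) (nat_lit 53) (nat_lit 5) (nat_lit 500) (nat_lit 364) (nat_lit 276)))))) (XT.nd (nat_lit 468) (nat_lit 152) (nat_lit 0) (XT.nd (nat_lit 234) (nat_lit 456) (nat_lit 0) (XT.nd (nat_lit 78) (nat_lit 152) (nat_lit 0) (XT.lf (nat_lit 0) (nat_lit 2545709641) (nat_lit 304) (nat_lit 5214166277) (nat_lit 76) (nat_lit 8495121272) (nat_lit 48) (nat_lit 5) (nat_lit 52) (nat_lit 5) (nat_lit 49) (nat_lit 5) (nat_lit 501) (nat_lit 364) (nat_lit 275)) (XT.nd (nat_lit 78) (nat_lit 0) (nat_lit 0) (XT.lf (nat_lit 0) (nat_lit 4874252647) (nat_lit 152) (nat_lit 2442268749) (nat_lit 228) (nat_lit 9148794858) (nat_lit 46) (nat_lit 5) (nat_lit 48) (nat_lit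 5) (nat_lit 49) (nat_lit 5) (nat_lit 502) (nat_lit 364) (nat_lit 274)) (XT.lf (nat_lit 0) (nat_lit 12208461419) (nat_lit 228) (nat_lit 1514992406) (nat_lit 76) (nat_lit 2955875540) (nat_lit 46) (nat_lit 5) (nat_lit 49) (nat_lit 5) (nat_lit 47) (nat_lit 5) (nat_lit 503) (nat_lit 364) (nat_lit 273)))) (XT.nd (nat_lit 78) (nat_lit 152) (nat_lit 0) (XT.lf (nat_lit 0) (nat_lit 342053861) (nat_lit 304) (nat_lit 8087352659) (nat_lit 76) (nat_lit 8467271435) (nat_lit 42) (nat_lit 5) (nat_lit 46) (nat_lit 5) (nat_lit 43) (nat_lit 5) (nat_lit 504) (nat_lit 364) (nat_lit 272)) (XT.nd (nat_lit 78) (nat_lit 0) (nat_lit 0) (XT.lf (nat_lit 0) (nat_lit 2191139196) (nat_lit 152) (nat_lit 2996485789) (nat_lit 228) (nat_lit 11930234163) (nat_lit 40) (nat_lit 5) (nat_lit 42) (nat_lit 5) (nat_lit 43) (nat_lit 5) (nat_lit 505) (nat_lit 364) (nat_lit 271)) (XT.lf (nat_lit 0) (nat_lit 10173087291) (nat_lit 228) (nat_lit 4624940366) (nat_lit 76) (nat_lit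 2544578473) (nat_lit 40) (nat_lit 5) (nat_lit 43) (nat_lit 5) (nat_lit 41) (nat_lit 5) (nat_lit 506) (nat_lit 364) (nat_lit 270))))) (XT.nd (nat_lit 51948) (nat_lit 0) (nat_lit 36100) (XT.nd (nat_lit 51792) (nat_lit 0) (nat_lit 39140) (XT.lf (nat_lit 0) (nat_lit 5890774344) (nat_lit 152) (nat_lit 9397953556) (nat_lit 228) (nat_lit 2282512497) (nat_lit 38) (nat_lit 5) (nat_lit 40) (nat_lit 5) (nat_lit 41) (nat_lit 5) (nat_lit 507) (nat_lit 364) (nat_lit 269)) (XT.nd (nat_lit 78) (nat_lit 1444) (nat_lit 0) (XT.lf (nat_lit 0) (nat_lit 2755632536) (nat_lit 1292) (nat_lit 341746927) (nat_lit 1292) (nat_lit 341746927) (nat_lit 572) (nat_lit 4) (nat_lit 589) (nat_lit 5) (nat_lit 589) (nat_lit 4) (nat_lit 410) (nat_lit 365) (nat_lit 365)) (XT.lf (nat_lit 0) (nat_lit 2661222869) (nat_lit 1444) (nat_lit 3507797724) (nat_lit 0) (nat_lit 739018666) (nat_lit 553) (nat_lit 5) (nat_lit 572) (nat_lit 4) (nat_lit 553) (nat_lit 4) (nat_lit 411)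 (nat_lit 365) (nat_lit 364)))) (XT.nd (nat_lit 78) (nat_lit 1596) (nat_lit 0) (XT.lf (nat_lit 0) (nat_lit 1286873924) (nat_lit 1444) (nat_lit 4729570914) (nat_lit 1444) (nat_lit 922852788) (nat_lit 534) (nat_lit 4) (nat_lit 553) (nat_lit 5) (nat_lit 553) (nat_lit 4) (nat_lit 412) (nat_lit 365) (nat_lit 363)) (XT.nd (nat_lit 78) (nat_lit 1520) (nat_lit 0) (XT.lf (nat_lit 0) (nat_lit 2390034056) (nat_lit 1520) (nat_lit 826412002) (nat_lit 76) (nat_lit 3755339470) (nat_lit 533) (nat_lit 5) (nat_lit 553) (nat_lit 5) (nat_lit 534) (nat_lit 4) (nat_lit 413) (nat_lit 365) (nat_lit 362)) (XT.lf (nat_lit 0) (nat_lit 4080274176) (nat_lit 1520) (nat_lit 1635513410) (nat_lit 1596) (nat_lit 1289854802) (nat_lit 513) (nat_lit 5) (nat_lit 533) (nat_lit 5) (nat_lit 534) (nat_lit 4) (nat_lit 414) (nat_lit 365) (nat_lit 361))))))) (XT.nd (nat_lit 936) (nat_lit 6156) (nat_lit 0) (XT.nd (nat_lit 468) (nat_lit 4636) (nat_lit 0) (XT.nd (nat_lit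 234) (nat_lit 3268) (nat_lit 0) (XT.nd (nat_lit 78) (nat_lit 1748) (nat_lit 0) (XT.lf (nat_lit 0) (nat_lit 1992363996) (nat_lit 1672) (nat_lit 5035656402) (nat_lit 76) (nat_lit 12875090) (nat_lit 491) (nat_lit 5) (nat_lit 513) (nat_lit 5) (nat_lit 492) (nat_lit 4) (nat_lit 415) (nat_lit 365) (nat_lit 360)) (XT.nd (nat_lit 78) (nat_lit 1748) (nat_lit 0) (XT.lf (nat_lit 0) (nat_lit 5287404688) (nat_lit 1672) (nat_lit 86536526) (nat_lit 76) (nat_lit 1703472281) (nat_lit 491) (nat_lit 5) (nat_lit 513) (nat_lit 5) (nat_lit 492) (nat_lit 4) (nat_lit 416) (nat_lit 365) (nat_lit 359)) (XT.lf (nat_lit 0) (nat_lit 1480697395) (nat_lit 1748) (nat_lit 2161831949) (nat_lit 76) (nat_lit 3472609396) (nat_lit 468) (nat_lit 5) (nat_lit 491) (nat_lit 5) (nat_lit 469) (nat_lit 5) (nat_lit 417) (nat_lit 365) (nat_lit 358)))) (XT.nd (nat_lit 78) (nat_lit 1520) (nat_lit 0) (XT.lf (nat_lit 0) (nat_lit 2903865713) (nat_lit 1748) (nat_lit 1844002959)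 (nat_lit 1824) (nat_lit 2406431015) (nat_lit 445) (nat_lit 5) (nat_lit 468) (nat_lit 5) (nat_lit 469) (nat_lit 5) (nat_lit 418) (nat_lit 365) (nat_lit 357)) (XT.nd (nat_lit 78) (nat_lit 0) (nat_lit 0) (XT.lf (nat_lit 0) (nat_lit 830699940) (nat_lit 1520) (nat_lit 6347965457) (nat_lit 76) (nat_lit 16357256) (nat_lit 425) (nat_lit 5) (nat_lit 445) (nat_lit 5) (nat_lit 426) (nat_lit 5) (nat_lit 419) (nat_lit 365) (nat_lit 356)) (XT.lf (nat_lit 0) (nat_lit 4078112195) (nat_lit 1520) (nat_lit 1225388412) (nat_lit 76) (nat_lit 1933203293) (nat_lit 425) (nat_lit 5) (nat_lit 445) (nat_lit 5) (nat_lit 426) (nat_lit 5) (nat_lit 420) (nat_lit 365) (nat_lit 355))))) (XT.nd (nat_lit 234) (nat_lit 2736) (nat_lit 0) (XT.nd (nat_lit 78) (nat_lit 912) (nat_lit 0) (XT.lf (nat_lit 0) (nat_lit 73478691) (nat_lit 988) (nat_lit 3292393431) (nat_lit 76) (nat_lit 3914075030) (nat_lit 412) (nat_lit 5) (nat_lit 425) (nat_lit 5) (nat_lit 413) (nat_lit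 5) (nat_lit 421) (nat_lit 365) (nat_lit 354)) (XT.nd (nat_lit 78) (nat_lit 0) (nat_lit 0) (XT.lf (nat_lit 0) (nat_lit 1937602687) (nat_lit 912) (nat_lit 1349619110) (nat_lit 988) (nat_lit 4037245588) (nat_lit 400) (nat_lit 5) (nat_lit 412) (nat_lit 5) (nat_lit 413) (nat_lit 5) (nat_lit 422) (nat_lit 365) (nat_lit 353)) (XT.lf (nat_lit 0) (nat_lit 6531269783) (nat_lit 988) (nat_lit 122444086) (nat_lit 76) (nat_lit 716859413) (nat_lit 400) (nat_lit 5) (nat_lit 413) (nat_lit 5) (nat_lit 401) (nat_lit 5) (nat_lit 423) (nat_lit 365) (nat_lit 352)))) (XT.nd (nat_lit 78) (nat_lit 1748) (nat_lit 0) (XT.lf (nat_lit 0) (nat_lit 2374071951) (nat_lit 988) (nat_lit 2190297896) (nat_lit 76) (nat_lit 2853267170) (nat_lit 387) (nat_lit 5) (nat_lit 400) (nat_lit 5) (nat_lit 388) (nat_lit 5) (nat_lit 424) (nat_lit 365) (nat_lit 351)) (XT.nd (nat_lit 78) (nat_lit 912) (nat_lit 0) (XT.lf (nat_lit 0) (nat_lit 3192249713) (nat_lit 836) (nat_lit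 2410535199) (nat_lit 912) (nat_lit 1863514939) (nat_lit 376) (nat_lit 5) (nat_lit 387) (nat_lit 5) (nat_lit 388) (nat_lit 5) (nat_lit 425) (nat_lit 365) (nat_lit 350)) (XT.lf (nat_lit 0) (nat_lit 1137779974) (nat_lit 836) (nat_lit 187528373) (nat_lit 912) (nat_lit 6191197288) (nat_lit 364) (nat_lit 5) (nat_lit 375) (nat_lit 5) (nat_lit 376) (nat_lit 5) (nat_lit 426) (nat_lit 365) (nat_lit 349)))))) (XT.nd (nat_lit 468) (nat_lit 2964) (nat_lit 0) (XT.nd (nat_lit 234) (nat_lit 1596) (nat_lit 0) (XT.nd (nat_lit 78) (nat_lit 1596) (nat_lit 0) (XT.lf (nat_lit 0) (nat_lit 4537144347) (nat_lit 912) (nat_lit 942689047) (nat_lit 76) (nat_lit 2087966096) (nat_lit 364) (nat_lit 5) (nat_lit 376) (nat_lit 5) (nat_lit 365) (nat_lit 5) (nat_lit 427) (nat_lit 365) (nat_lit 348)) (XT.nd (nat_lit 78) (nat_lit 760) (nat_lit 0) (XT.lf (nat_lit 0) (nat_lit 164400366) (nat_lit 836) (nat_lit 3024629935) (nat_lit 76) (nat_lit 4431600683) (nat_lit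 353) (nat_lit 5) (nat_lit 364) (nat_lit 5) (nat_lit 354) (nat_lit 5) (nat_lit 428) (nat_lit 365) (nat_lit 347)) (XT.lf (nat_lit 0) (nat_lit 2532593444) (nat_lit 760) (nat_lit 816282945) (nat_lit 836) (nat_lit 4325933340) (nat_lit 343) (nat_lit 5) (nat_lit 353) (nat_lit 5) (nat_lit 354) (nat_lit 5) (nat_lit 429) (nat_lit 365) (nat_lit 346)))) (XT.nd (nat_lit 78) (nat_lit 836) (nat_lit 0) (XT.lf (nat_lit 0) (nat_lit 442530884) (nat_lit 760) (nat_lit 6132126484) (nat_lit 836) (nat_lit 1155875385) (nat_lit 333) (nat_lit 5) (nat_lit 343) (nat_lit 5) (nat_lit 344) (nat_lit 5) (nat_lit 430) (nat_lit 365) (nat_lit 345)) (XT.nd (nat_lit 78) (nat_lit 760) (nat_lit 0) (XT.lf (nat_lit 0) (nat_lit 2034675494) (nat_lit 836) (nat_lit 1662472446) (nat_lit 76) (nat_lit 4090278232) (nat_lit 332) (nat_lit 5) (nat_lit 343) (nat_lit 5) (nat_lit 333) (nat_lit 5) (nat_lit 431) (nat_lit 365) (nat_lit 344)) (XT.lf (nat_lit 0) (nat_lit 4057057073) (nat_lit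 760) (nat_lit 1188151173) (nat_lit 836) (nat_lit 2600675706) (nat_lit 322) (nat_lit 5) (nat_lit 332) (nat_lit 5) (nat_lit 333) (nat_lit 5) (nat_lit 432) (nat_lit 365) (nat_lit 343))))) (XT.nd (nat_lit 234) (nat_lit 1520) (nat_lit 0) (XT.nd (nat_lit 78) (nat_lit 684) (nat_lit 0) (XT.lf (nat_lit 0) (nat_lit 584978324) (nat_lit 760) (nat_lit 5949511743) (nat_lit 76) (nat_lit 1371380900) (nat_lit 312) (nat_lit 5) (nat_lit 322) (nat_lit 5) (nat_lit 313) (nat_lit 5) (nat_lit 433) (nat_lit 365) (nat_lit 342)) (XT.nd (nat_lit 78) (nat_lit 684) (nat_lit 0) (XT.lf (nat_lit 0) (nat_lit 3779184659) (nat_lit 760) (nat_lit 188976968) (nat_lit 76) (nat_lit 3998970593) (nat_lit 312) (nat_lit 5) (nat_lit 322) (nat_lit 5) (nat_lit 313) (nat_lit 5) (nat_lit 434) (nat_lit 365) (nat_lit 341)) (XT.lf (nat_lit 0) (nat_lit 5697794732) (nat_lit 684) (nat_lit 1323697553) (nat_lit 760) (nat_lit 1008453398) (nat_lit 303) (nat_lit 5) (nat_lit 312) (nat_lit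 5) (nat_lit 313) (nat_lit 5) (nat_lit 435) (nat_lit 365) (nat_lit 340)))) (XT.nd (nat_lit 78) (nat_lit 760) (nat_lit 0) (XT.lf (nat_lit 0) (nat_lit 2186432347) (nat_lit 760) (nat_lit 4524089942) (nat_lit 76) (nat_lit 1383591654) (nat_lit 293) (nat_lit 5) (nat_lit 303) (nat_lit 5) (nat_lit 294) (nat_lit 5) (nat_lit 436) (nat_lit 365) (nat_lit 339)) (XT.nd (nat_lit 78) (nat_lit 76) (nat_lit 0) (XT.lf (nat_lit 0) (nat_lit 1400884612) (nat_lit 684) (nat_lit 4012487869) (nat_lit 760) (nat_lit 2746437249) (nat_lit 284) (nat_lit 5) (nat_lit 293) (nat_lit 5) (nat_lit 294) (nat_lit 5) (nat_lit 437) (nat_lit 365) (nat_lit 338)) (XT.lf (nat_lit 0) (nat_lit 450606734) (nat_lit 760) (nat_lit 788648726) (nat_lit 76) (nat_lit 6987935274) (nat_lit 283) (nat_lit 5) (nat_lit 293) (nat_lit 5) (nat_lit 284) (nat_lit 5) (nat_lit 438) (nat_lit 365) (nat_lit 337))))))))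
noncomputable def xc52 : XT := (XT.nd (nat_lit 1794) (nat_lit 5700) (nat_lit 0) (XT.nd (nat_lit 858) (nat_lit 4332) (nat_lit 0) (XT.nd (nat_lit 390) (nat_lit 2432) (nat_lit 0) (XT.nd (nat_lit 156) (nat_lit 1292) (nat_lit 0) (XT.nd (nat_lit 78) (nat_lit 608) (nat_lit 0) (XT.lf (nat_lit 0) (nat_lit 3669071040) (nat_lit 684) (nat_lit 3017815207) (nat_lit 76) (nat_lit 1608795005) (nat_lit 275) (nat_lit 5) (nat_lit 284) (nat_lit 5) (nat_lit 276) (nat_lit 5) (nat_lit 439) (nat_lit 365) (nat_lit 336)) (XT.lf (nat_lit 0) (nat_lit 3079051589) (nat_lit 608) (nat_lit 3856176585) (nat_lit 684) (nat_lit 1430656797) (nat_lit 267) (nat_lit 5) (nat_lit 275) (nat_lit 5) (nat_lit 276) (nat_lit 5) (nat_lit 440) (nat_lit 365) (nat_lit 335))) (XT.nd (nat_lit 78) (nat_lit 608) (nat_lit 0) (XT.lf (nat_lit 0) (nat_lit 836326703) (nat_lit 608) (nat_lit 944744714) (nat_lit 684) (nat_lit 6656676372) (nat_lit 258) (nat_lit 5) (nat_lit 266) (nat_lit 5)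 (nat_lit 267) (nat_lit 5) (nat_lit 441) (nat_lit 365) (nat_lit 334)) (XT.nd (nat_lit 78) (nat_lit 608) (nat_lit 0) (XT.lf (nat_lit 0) (nat_lit 5037257085) (nat_lit 684) (nat_lit 1444367330) (nat_lit 76) (nat_lit 2029256021) (nat_lit 258) (nat_lit 5) (nat_lit 267) (nat_lit 5) (nat_lit 259) (nat_lit 5) (nat_lit 442) (nat_lit 365) (nat_lit 333)) (XT.lf (nat_lit 0) (nat_lit 4829392770) (nat_lit 608) (nat_lit 3518258448) (nat_lit 684) (nat_lit 238051933) (nat_lit 250) (nat_lit 5) (nat_lit 258) (nat_lit 5) (nat_lit 259) (nat_lit 5) (nat_lit 443) (nat_lit 365) (nat_lit 332))))) (XT.nd (nat_lit 234) (nat_lit 1140) (nat_lit 0) (XT.nd (nat_lit 78) (nat_lit 684) (nat_lit 0) (XT.lf (nat_lit 0) (nat_lit 2535942065) (nat_lit 532) (nat_lit 464036593) (nat_lit 608) (nat_lit 5662096591) (nat_lit 242) (nat_lit 5) (nat_lit 249) (nat_lit 5) (nat_lit 250) (nat_lit 5) (nat_lit 444) (nat_lit 365) (nat_lit 331)) (XT.nd (nat_lit 78) (nat_lit 76) (nat_lit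 0) (XT.lf (nat_lit 0) (nat_lit 184759458) (nat_lit 608) (nat_lit 6110735920) (nat_lit 684) (nat_lit 2444538264) (nat_lit 234) (nat_lit 5) (nat_lit 242) (nat_lit 5) (nat_lit 243) (nat_lit 5) (nat_lit 445) (nat_lit 365) (nat_lit 330)) (XT.lf (nat_lit 0) (nat_lit 823169613) (nat_lit 684) (nat_lit 2187012456) (nat_lit 76) (nat_lit 5809333038) (nat_lit 233) (nat_lit 5) (nat_lit 242) (nat_lit 5) (nat_lit 234) (nat_lit 5) (nat_lit 446) (nat_lit 365) (nat_lit 329)))) (XT.nd (nat_lit 78) (nat_lit 608) (nat_lit 0) (XT.lf (nat_lit 0) (nat_lit 4105788894) (nat_lit 608) (nat_lit 4616342403) (nat_lit 76) (nat_lit 178494032) (nat_lit 226) (nat_lit 5) (nat_lit 234) (nat_lit 5) (nat_lit 227) (nat_lit 5) (nat_lit 447) (nat_lit 365) (nat_lit 328)) (XT.nd (nat_lit 78) (nat_lit 76) (nat_lit 0) (XT.lf (nat_lit 0) (nat_lit 1872552631) (nat_lit 532) (nat_lit 5582036486) (nat_lit 608) (nat_lit 1528766000) (nat_lit 219) (nat_lit 5) (nat_lit 226) (nat_lit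 5) (nat_lit 227) (nat_lit 5) (nat_lit 448) (nat_lit 365) (nat_lit 327)) (XT.lf (nat_lit 0) (nat_lit 1764017226) (nat_lit 608) (nat_lit 588989982) (nat_lit 76) (nat_lit 6714805177) (nat_lit 218) (nat_lit 5) (nat_lit 226) (nat_lit 5) (nat_lit 219) (nat_lit 5) (nat_lit 449) (nat_lit 365) (nat_lit 326)))))) (XT.nd (nat_lit 468) (nat_lit 1824) (nat_lit 0) (XT.nd (nat_lit 234) (nat_lit 988) (nat_lit 0) (XT.nd (nat_lit 78) (nat_lit 1064) (nat_lit 0) (XT.lf (nat_lit 0) (nat_lit 5102694836) (nat_lit 532) (nat_lit 3089968807) (nat_lit 76) (nat_lit 961090347) (nat_lit 212) (nat_lit 5) (nat_lit 219) (nat_lit 5) (nat_lit 213) (nat_lit 5) (nat_lit 450) (nat_lit 365) (nat_lit 325)) (XT.nd (nat_lit 78) (nat_lit 532) (nat_lit 0) (XT.lf (nat_lit 0) (nat_lit 3584779597) (nat_lit 532) (nat_lit 4921328795) (nat_lit 608) (nat_lit 735354116) (nat_lit 205) (nat_lit 5) (nat_lit 212) (nat_lit 5) (nat_lit 213) (nat_lit 5) (nat_lit 451) (nat_lit 365)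 (nat_lit 324)) (XT.lf (nat_lit 0) (nat_lit 1037606844) (nat_lit 456) (nat_lit 1557255457) (nat_lit 532) (nat_lit 6736068084) (nat_lit 198) (nat_lit 5) (nat_lit 204) (nat_lit 5) (nat_lit 205) (nat_lit 5) (nat_lit 452) (nat_lit 365) (nat_lit 323)))) (XT.nd (nat_lit 78) (nat_lit 988) (nat_lit 0) (XT.lf (nat_lit 0) (nat_lit 5987873721) (nat_lit 532) (nat_lit 1559692406) (nat_lit 76) (nat_lit 1874410441) (nat_lit 198) (nat_lit 5) (nat_lit 205) (nat_lit 5) (nat_lit 199) (nat_lit 5) (nat_lit 453) (nat_lit 365) (nat_lit 322)) (XT.nd (nat_lit 78) (nat_lit 532) (nat_lit 0) (XT.lf (nat_lit 0) (nat_lit 5305692318) (nat_lit 456) (nat_lit 4144332957) (nat_lit 532) (nat_lit 64799574) (nat_lit 192) (nat_lit 5) (nat_lit 198) (nat_lit 5) (nat_lit 199) (nat_lit 5) (nat_lit 454) (nat_lit 365) (nat_lit 321)) (XT.lf (nat_lit 0) (nat_lit 2670909347) (nat_lit 456) (nat_lit 641313270) (nat_lit 532) (nat_lit 6297185015) (nat_lit 185) (nat_lit 5) (nat_lit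 191) (nat_lit 5) (nat_lit 192) (nat_lit 5) (nat_lit 455) (nat_lit 365) (nat_lit 320))))) (XT.nd (nat_lit 234) (nat_lit 912) (nat_lit 0) (XT.nd (nat_lit 78) (nat_lit 912) (nat_lit 0) (XT.lf (nat_lit 0) (nat_lit 6760388042) (nat_lit 532) (nat_lit 42054318) (nat_lit 76) (nat_lit 2903348116) (nat_lit 185) (nat_lit 5) (nat_lit 192) (nat_lit 5) (nat_lit 186) (nat_lit 5) (nat_lit 456) (nat_lit 365) (nat_lit 319)) (XT.nd (nat_lit 78) (nat_lit 380) (nat_lit 0) (XT.lf (nat_lit 0) (nat_lit 474913536) (nat_lit 532) (nat_lit 2788420697) (nat_lit 76) (nat_lit 6540557267) (nat_lit 178) (nat_lit 5) (nat_lit 185) (nat_lit 5) (nat_lit 179) (nat_lit 5) (nat_lit 457) (nat_lit 365) (nat_lit 318)) (XT.lf (nat_lit 0) (nat_lit 3912775381) (nat_lit 456) (nat_lit 5620441590) (nat_lit 76) (nat_lit 370582632) (nat_lit 173) (nat_lit 5) (nat_lit 179) (nat_lit 5) (nat_lit 174) (nat_lit 5) (nat_lit 458) (nat_lit 365) (nat_lit 317)))) (XT.nd (nat_lit 78) (nat_lit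 456) (nat_lit 0) (XT.lf (nat_lit 0) (nat_lit 1464582169) (nat_lit 456) (nat_lit 5963060154) (nat_lit 532) (nat_lit 2577904480) (nat_lit 167) (nat_lit 5) (nat_lit 173) (nat_lit 5) (nat_lit 174) (nat_lit 5) (nat_lit 459) (nat_lit 365) (nat_lit 316)) (XT.nd (nat_lit 78) (nat_lit 380) (nat_lit 0) (XT.lf (nat_lit 0) (nat_lit 888025155) (nat_lit 532) (nat_lit 1409277204) (nat_lit 76) (nat_lit 7811986998) (nat_lit 166) (nat_lit 5) (nat_lit 173) (nat_lit 5) (nat_lit 167) (nat_lit 5) (nat_lit 460) (nat_lit 365) (nat_lit 315)) (XT.lf (nat_lit 0) (nat_lit 4395702124) (nat_lit 456) (nat_lit 4360403215) (nat_lit 76) (nat_lit 1458527240) (nat_lit 161) (nat_lit 5) (nat_lit 167) (nat_lit 5) (nat_lit 162) (nat_lit 5) (nat_lit 461) (nat_lit 365) (nat_lit 314))))))) (XT.nd (nat_lit 858) (nat_lit 2508) (nat_lit 0) (XT.nd (nat_lit 390) (nat_lit 1520) (nat_lit 0) (XT.nd (nat_lit 156) (nat_lit 1216) (nat_lit 0) (XT.nd (nat_lit 78) (nat_lit 76) (nat_lit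 0) (XT.lf (nat_lit 0) (nat_lit 2922119302) (nat_lit 380) (nat_lit 5054641106) (nat_lit 456) (nat_lit 2345263146) (nat_lit 156) (nat_lit 5) (nat_lit 161) (nat_lit 5) (nat_lit 162) (nat_lit 5) (nat_lit 462) (nat_lit 365) (nat_lit 313)) (XT.lf (nat_lit 0) (nat_lit 1171272028) (nat_lit 456) (nat_lit 90832772) (nat_lit 76) (nat_lit 9169525135) (nat_lit 155) (nat_lit 5) (nat_lit 161) (nat_lit 5) (nat_lit 156) (nat_lit 5) (nat_lit 463) (nat_lit 365) (nat_lit 312))) (XT.nd (nat_lit 78) (nat_lit 836) (nat_lit 0) (XT.lf (nat_lit 0) (nat_lit 4752367439) (nat_lit 456) (nat_lit 3174492434) (nat_lit 76) (nat_lit 2615751005) (nat_lit 150) (nat_lit 5) (nat_lit 156) (nat_lit 5) (nat_lit 151) (nat_lit 5) (nat_lit 464) (nat_lit 365) (nat_lit 311)) (XT.nd (nat_lit 78) (nat_lit 456) (nat_lit 0) (XT.lf (nat_lit 0) (nat_lit 4309496726) (nat_lit 380) (nat_lit 4093236637) (nat_lit 456) (nat_lit 2253130135) (nat_lit 145) (nat_lit 5) (nat_lit 150) (nat_lit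 5) (nat_lit 151) (nat_lit 5) (nat_lit 465) (nat_lit 365) (nat_lit 310)) (XT.lf (nat_lit 0) (nat_lit 1161062274) (nat_lit 380) (nat_lit 165693111) (nat_lit 456) (nat_lit 9444658755) (nat_lit 139) (nat_lit 5) (nat_lit 144) (nat_lit 5) (nat_lit 145) (nat_lit 5) (nat_lit 466) (nat_lit 365) (nat_lit 309))))) (XT.nd (nat_lit 234) (nat_lit 760) (nat_lit 0) (XT.nd (nat_lit 78) (nat_lit 760) (nat_lit 0) (XT.lf (nat_lit 0) (nat_lit 4976956999) (nat_lit 456) (nat_lit 2084610339) (nat_lit 76) (nat_lit 3826837578) (nat_lit 139) (nat_lit 5) (nat_lit 145) (nat_lit 5) (nat_lit 140) (nat_lit 5) (nat_lit 467) (nat_lit 365) (nat_lit 308)) (XT.nd (nat_lit 78) (nat_lit 380) (nat_lit 0) (XT.lf (nat_lit 0) (nat_lit 5604528597) (nat_lit 380) (nat_lit 3094938947) (nat_lit 456) (nat_lit 2308286511) (nat_lit 134) (nat_lit 5) (nat_lit 139) (nat_lit 5) (nat_lit 140) (nat_lit 5) (nat_lit 468) (nat_lit 365) (nat_lit 307)) (XT.lf (nat_lit 0) (nat_lit 1346292987)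 (nat_lit 380) (nat_lit 8827624853) (nat_lit 76) (nat_lit 955453652) (nat_lit 129) (nat_lit 5) (nat_lit 134) (nat_lit 5) (nat_lit 130) (nat_lit 5) (nat_lit 469) (nat_lit 365) (nat_lit 306)))) (XT.nd (nat_lit 78) (nat_lit 760) (nat_lit 0) (XT.lf (nat_lit 0) (nat_lit 5062230891) (nat_lit 380) (nat_lit 1114528482) (nat_lit 76) (nat_lit 5075977633) (nat_lit 129) (nat_lit 5) (nat_lit 134) (nat_lit 5) (nat_lit 130) (nat_lit 5) (nat_lit 470) (nat_lit 365) (nat_lit 305)) (XT.nd (nat_lit 78) (nat_lit 380) (nat_lit 0) (XT.lf (nat_lit 0) (nat_lit 6783095625) (nat_lit 380) (nat_lit 2076325406) (nat_lit 456) (nat_lit 2519014422) (nat_lit 124) (nat_lit 5) (nat_lit 129) (nat_lit 5) (nat_lit 130) (nat_lit 5) (nat_lit 471) (nat_lit 365) (nat_lit 304)) (XT.lf (nat_lit 0) (nat_lit 1215712545) (nat_lit 380) (nat_lit 8196366031) (nat_lit 76) (nat_lit 2094296562) (nat_lit 119) (nat_lit 5) (nat_lit 124) (nat_lit 5) (nat_lit 120) (nat_lit 5) (nat_lit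 472) (nat_lit 365) (nat_lit 303)))))) (XT.nd (nat_lit 468) (nat_lit 1140) (nat_lit 0) (XT.nd (nat_lit 234) (nat_lit 684) (nat_lit 0) (XT.nd (nat_lit 78) (nat_lit 684) (nat_lit 0) (XT.lf (nat_lit 0) (nat_lit 4999427416) (nat_lit 380) (nat_lit 290152281) (nat_lit 76) (nat_lit 6346804493) (nat_lit 119) (nat_lit 5) (nat_lit 124) (nat_lit 5) (nat_lit 120) (nat_lit 5) (nat_lit 473) (nat_lit 365) (nat_lit 302)) (XT.nd (nat_lit 78) (nat_lit 380) (nat_lit 0) (XT.lf (nat_lit 0) (nat_lit 7818874297) (nat_lit 304) (nat_lit 1054628753) (nat_lit 380) (nat_lit 2895200609) (nat_lit 115) (nat_lit 5) (nat_lit 119) (nat_lit 5) (nat_lit 120) (nat_lit 5) (nat_lit 474) (nat_lit 365) (nat_lit 301)) (XT.lf (nat_lit 0) (nat_lit 923717249) (nat_lit 380) (nat_lit 7743711590) (nat_lit 76) (nat_lit 3235836628) (nat_lit 110) (nat_lit 5) (nat_lit 115) (nat_lit 5) (nat_lit 111) (nat_lit 5) (nat_lit 475) (nat_lit 365) (nat_lit 300)))) (XT.nd (nat_lit 78) (nat_lit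 380) (nat_lit 0) (XT.lf (nat_lit 0) (nat_lit 364978839) (nat_lit 304) (nat_lit 4415543332) (nat_lit 380) (nat_lit 7259611825) (nat_lit 106) (nat_lit 5) (nat_lit 110) (nat_lit 5) (nat_lit 111) (nat_lit 5) (nat_lit 476) (nat_lit 365) (nat_lit 299)) (XT.nd (nat_lit 78) (nat_lit 380) (nat_lit 0) (XT.lf (nat_lit 0) (nat_lit 8683041770) (nat_lit 304) (nat_lit 47916860) (nat_lit 380) (nat_lit 3448455021) (nat_lit 106) (nat_lit 5) (nat_lit 110) (nat_lit 5) (nat_lit 111) (nat_lit 5) (nat_lit 477) (nat_lit 365) (nat_lit 298)) (XT.lf (nat_lit 0) (nat_lit 458345576) (nat_lit 380) (nat_lit 7500557581) (nat_lit 76) (nat_lit 4362018720) (nat_lit 101) (nat_lit 5) (nat_lit 106) (nat_lit 5) (nat_lit 102) (nat_lit 5) (nat_lit 478) (nat_lit 365) (nat_lit 297))))) (XT.nd (nat_lit 234) (nat_lit 608) (nat_lit 0) (XT.nd (nat_lit 78) (nat_lit 228) (nat_lit 0) (XT.lf (nat_lit 0) (nat_lit 816148373) (nat_lit 304) (nat_lit 3575404029) (nat_lit 380) (nat_lit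 8073366535) (nat_lit 97) (nat_lit 5) (nat_lit 101) (nat_lit 5) (nat_lit 102) (nat_lit 5) (nat_lit 479) (nat_lit 365) (nat_lit 296)) (XT.nd (nat_lit 78) (nat_lit 228) (nat_lit 0) (XT.lf (nat_lit 0) (nat_lit 8425241118) (nat_lit 380) (nat_lit 3273533387) (nat_lit 76) (nat_lit 912588461) (nat_lit 97) (nat_lit 5) (nat_lit 102) (nat_lit 5) (nat_lit 98) (nat_lit 5) (nat_lit 480) (nat_lit 365) (nat_lit 295)) (XT.lf (nat_lit 0) (nat_lit 5258163341) (nat_lit 228) (nat_lit 7305273445) (nat_lit 304) (nat_lit 196825745) (nat_lit 94) (nat_lit 5) (nat_lit 97) (nat_lit 5) (nat_lit 98) (nat_lit 5) (nat_lit 481) (nat_lit 365) (nat_lit 294)))) (XT.nd (nat_lit 78) (nat_lit 228) (nat_lit 0) (XT.lf (nat_lit 0) (nat_lit 1024910013) (nat_lit 304) (nat_lit 2791420236) (nat_lit 380) (nat_lit 9095413018) (nat_lit 89) (nat_lit 5) (nat_lit 93) (nat_lit 5) (nat_lit 94) (nat_lit 5) (nat_lit 482) (nat_lit 365) (nat_lit 293)) (XT.nd (nat_lit 78) (nat_lit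 228) (nat_lit 0) (XT.lf (nat_lit 0) (nat_lit 7935809724) (nat_lit 380) (nat_lit 3311071091) (nat_lit 76) (nat_lit 1818775990) (nat_lit 89) (nat_lit 5) (nat_lit 94) (nat_lit 5) (nat_lit 90) (nat_lit 5) (nat_lit 483) (nat_lit 365) (nat_lit 292)) (XT.lf (nat_lit 0) (nat_lit 5433520440) (nat_lit 228) (nat_lit 6724832050) (nat_lit 304) (nat_lit 1063885717) (nat_lit 86) (nat_lit 5) (nat_lit 89) (nat_lit 5) (nat_lit 90) (nat_lit 5) (nat_lit 484) (nat_lit 365) (nat_lit 291))))))))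
noncomputable def xc53 : XT := (XT.nd (nat_lit 53352) (nat_lit 0) (nat_lit 22192) (XT.nd (nat_lit 858) (nat_lit 1520) (nat_lit 0) (XT.nd (nat_lit 390) (nat_lit 1064) (nat_lit 0) (XT.nd (nat_lit 156) (nat_lit 532) (nat_lit 0) (XT.nd (nat_lit 78) (nat_lit 0) (nat_lit 0) (XT.lf (nat_lit 0) (nat_lit 953175738) (nat_lit 304) (nat_lit 2085315070) (nat_lit 380) (nat_lit 10343152282) (nat_lit 81) (nat_lit 5) (nat_lit 85) (nat_lit 5) (nat_lit 86) (nat_lit 5) (nat_lit 485) (nat_lit 365) (nat_lit 290)) (XT.lf (nat_lit 0) (nat_lit 7245605214) (nat_lit 380) (nat_lit 3647967807) (nat_lit 76) (nat_lit 2649786578) (nat_lit 81) (nat_lit 5) (nat_lit 86) (nat_lit 5) (nat_lit 82) (nat_lit 5) (nat_lit 486) (nat_lit 365) (nat_lit 289))) (XT.nd (nat_lit 78) (nat_lit 304) (nat_lit 0) (XT.lf (nat_lit 0) (nat_lit 5309372390) (nat_lit 228) (nat_lit 6243540050) (nat_lit 304) (nat_lit 2155079819) (nat_lit 78) (nat_lit 5) (nat_lit 81) (nat_lit 5) (nat_lit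 82) (nat_lit 5) (nat_lit 487) (nat_lit 365) (nat_lit 288)) (XT.nd (nat_lit 78) (nat_lit 0) (nat_lit 0) (XT.lf (nat_lit 0) (nat_lit 558942663) (nat_lit 228) (nat_lit 1480456261) (nat_lit 304) (nat_lit 11836330416) (nat_lit 74) (nat_lit 5) (nat_lit 77) (nat_lit 5) (nat_lit 78) (nat_lit 5) (nat_lit 488) (nat_lit 365) (nat_lit 287)) (XT.lf (nat_lit 0) (nat_lit 6335568244) (nat_lit 304) (nat_lit 4327567781) (nat_lit 76) (nat_lit 3382469757) (nat_lit 74) (nat_lit 5) (nat_lit 78) (nat_lit 5) (nat_lit 75) (nat_lit 5) (nat_lit 489) (nat_lit 365) (nat_lit 286))))) (XT.nd (nat_lit 234) (nat_lit 532) (nat_lit 0) (XT.nd (nat_lit 78) (nat_lit 304) (nat_lit 0) (XT.lf (nat_lit 0) (nat_lit 4841402541) (nat_lit 228) (nat_lit 5886091101) (nat_lit 304) (nat_lit 3491192071) (nat_lit 71) (nat_lit 5) (nat_lit 74) (nat_lit 5) (nat_lit 75) (nat_lit 5) (nat_lit 490) (nat_lit 365) (nat_lit 285)) (XT.nd (nat_lit 78) (nat_lit 228) (nat_lit 0) (XT.lf (nat_lit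 0) (nat_lit 799268248) (nat_lit 304) (nat_lit 201487498) (nat_lit 76) (nat_lit 13394410810) (nat_lit 70) (nat_lit 5) (nat_lit 74) (nat_lit 5) (nat_lit 71) (nat_lit 5) (nat_lit 491) (nat_lit 365) (nat_lit 284)) (XT.lf (nat_lit 0) (nat_lit 5184115675) (nat_lit 304) (nat_lit 5397735455) (nat_lit 76) (nat_lit 3991760318) (nat_lit 67) (nat_lit 5) (nat_lit 71) (nat_lit 5) (nat_lit 68) (nat_lit 5) (nat_lit 492) (nat_lit 365) (nat_lit 283)))) (XT.nd (nat_lit 78) (nat_lit 304) (nat_lit 0) (XT.lf (nat_lit 0) (nat_lit 3980632119) (nat_lit 228) (nat_lit 5679251377) (nat_lit 304) (nat_lit 5095679689) (nat_lit 64) (nat_lit 5) (nat_lit 67) (nat_lit 5) (nat_lit 68) (nat_lit 5) (nat_lit 493) (nat_lit 365) (nat_lit 282)) (XT.nd (nat_lit 78) (nat_lit 304) (nat_lit 0) (XT.lf (nat_lit 0) (nat_lit 13567224632) (nat_lit 228) (nat_lit 663812932) (nat_lit 304) (nat_lit 710001345) (nat_lit 64) (nat_lit 5) (nat_lit 67) (nat_lit 5) (nat_lit 68) (nat_lit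 5) (nat_lit 494) (nat_lit 365) (nat_lit 281)) (XT.lf (nat_lit 0) (nat_lit 3766903124) (nat_lit 304) (nat_lit 6911372216) (nat_lit 76) (nat_lit 4450404996) (nat_lit 60) (nat_lit 5) (nat_lit 64) (nat_lit 5) (nat_lit 61) (nat_lit 5) (nat_lit 495) (nat_lit 365) (nat_lit 280)))))) (XT.nd (nat_lit 468) (nat_lit 608) (nat_lit 0) (XT.nd (nat_lit 234) (nat_lit 456) (nat_lit 0) (XT.nd (nat_lit 78) (nat_lit 304) (nat_lit 0) (XT.lf (nat_lit 0) (nat_lit 2672887342) (nat_lit 152) (nat_lit 5652146599) (nat_lit 228) (nat_lit 6994925117) (nat_lit 58) (nat_lit 5) (nat_lit 60) (nat_lit 5) (nat_lit 61) (nat_lit 5) (nat_lit 496) (nat_lit 365) (nat_lit 279)) (XT.nd (nat_lit 78) (nat_lit 304) (nat_lit 0) (XT.lf (nat_lit 0) (nat_lit 12490865560) (nat_lit 152) (nat_lit 500246526) (nat_lit 228) (nat_lit 2523617763) (nat_lit 58) (nat_lit 5) (nat_lit 60) (nat_lit 5) (nat_lit 61) (nat_lit 5) (nat_lit 497) (nat_lit 365) (nat_lit 278)) (XT.lf (nat_lit 0)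 (nat_lit 2056560227) (nat_lit 304) (nat_lit 8926985118) (nat_lit 76) (nat_lit 4728665057) (nat_lit 54) (nat_lit 5) (nat_lit 58) (nat_lit 5) (nat_lit 55) (nat_lit 5) (nat_lit 498) (nat_lit 365) (nat_lit 277)))) (XT.nd (nat_lit 78) (nat_lit 304) (nat_lit 0) (XT.lf (nat_lit 0) (nat_lit 858212797) (nat_lit 152) (nat_lit 5836574681) (nat_lit 228) (nat_lit 9218516791) (nat_lit 52) (nat_lit 5) (nat_lit 54) (nat_lit 5) (nat_lit 55) (nat_lit 5) (nat_lit 499) (nat_lit 365) (nat_lit 276)) (XT.nd (nat_lit 78) (nat_lit 304) (nat_lit 0) (XT.lf (nat_lit 0) (nat_lit 10909324674) (nat_lit 152) (nat_lit 547494532) (nat_lit 228) (nat_lit 4660982030) (nat_lit 52) (nat_lit 5) (nat_lit 54) (nat_lit 5) (nat_lit 55) (nat_lit 5) (nat_lit 500) (nat_lit 365) (nat_lit 275)) (XT.lf (nat_lit 0) (nat_lit 22395948) (nat_lit 304) (nat_lit 11509313211) (nat_lit 76) (nat_lit 4793991901) (nat_lit 48) (nat_lit 5) (nat_lit 52) (nat_lit 5) (nat_lit 49) (nat_lit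 5) (nat_lit 501) (nat_lit 365) (nat_lit 274))))) (XT.nd (nat_lit 234) (nat_lit 228) (nat_lit 0) (XT.nd (nat_lit 78) (nat_lit 380) (nat_lit 0) (XT.lf (nat_lit 0) (nat_lit 4747504616) (nat_lit 304) (nat_lit 1509711446) (nat_lit 76) (nat_lit 10279719068) (nat_lit 48) (nat_lit 5) (nat_lit 52) (nat_lit 5) (nat_lit 49) (nat_lit 5) (nat_lit 502) (nat_lit 365) (nat_lit 273)) (XT.nd (nat_lit 78) (nat_lit 228) (nat_lit 0) (XT.lf (nat_lit 0) (nat_lit 8755418369) (nat_lit 152) (nat_lit 840706270) (nat_lit 228) (nat_lit 7155690927) (nat_lit 46) (nat_lit 5) (nat_lit 48) (nat_lit 5) (nat_lit 49) (nat_lit 5) (nat_lit 503) (nat_lit 365) (nat_lit 272)) (XT.lf (nat_lit 0) (nat_lit 2224839999) (nat_lit 228) (nat_lit 12344185154) (nat_lit 304) (nat_lit 2401424128) (nat_lit 43) (nat_lit 5) (nat_lit 46) (nat_lit 5) (nat_lit 47) (nat_lit 5) (nat_lit 504) (nat_lit 365) (nat_lit 271)))) (XT.nd (nat_lit 78) (nat_lit 152) (nat_lit 0) (XT.lf (nat_lit 0)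 (nat_lit 2447699888) (nat_lit 304) (nat_lit 4504732762) (nat_lit 76) (nat_lit 10240069373) (nat_lit 42) (nat_lit 5) (nat_lit 46) (nat_lit 5) (nat_lit 43) (nat_lit 5) (nat_lit 505) (nat_lit 365) (nat_lit 270)) (XT.nd (nat_lit 78) (nat_lit 0) (nat_lit 0) (XT.lf (nat_lit 0) (nat_lit 5954694937) (nat_lit 152) (nat_lit 1418485433) (nat_lit 228) (nat_lit 10045269127) (nat_lit 40) (nat_lit 5) (nat_lit 42) (nat_lit 5) (nat_lit 43) (nat_lit 5) (nat_lit 506) (nat_lit 365) (nat_lit 269)) (XT.lf (nat_lit 0) (nat_lit 12427958266) (nat_lit 228) (nat_lit 1040120288) (nat_lit 76) (nat_lit 4180223301) (nat_lit 40) (nat_lit 5) (nat_lit 43) (nat_lit 5) (nat_lit 41) (nat_lit 5) (nat_lit 507) (nat_lit 365) (nat_lit 268))))))) (XT.nd (nat_lit 936) (nat_lit 7068) (nat_lit 0) (XT.nd (nat_lit 468) (nat_lit 8208) (nat_lit 0) (XT.nd (nat_lit 234) (nat_lit 2888) (nat_lit 0) (XT.nd (nat_lit 78) (nat_lit 1368) (nat_lit 0) (XT.lf (nat_lit 0) (nat_lit 740292014)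 (nat_lit 1292) (nat_lit 1930242771) (nat_lit 0) (nat_lit 740292014) (nat_lit 589) (nat_lit 5) (nat_lit 606) (nat_lit 4) (nat_lit 589) (nat_lit 4) (nat_lit 408) (nat_lit 366) (nat_lit 366)) (XT.nd (nat_lit 78) (nat_lit 76) (nat_lit 0) (XT.lf (nat_lit 0) (nat_lit 768587417) (nat_lit 1292) (nat_lit 4040424111) (nat_lit 1292) (nat_lit 2040562859) (nat_lit 572) (nat_lit 4) (nat_lit 589) (nat_lit 5) (nat_lit 589) (nat_lit 4) (nat_lit 409) (nat_lit 366) (nat_lit 365)) (XT.lf (nat_lit 0) (nat_lit 1264261521) (nat_lit 1368) (nat_lit 1406701265) (nat_lit 76) (nat_lit 4207826885) (nat_lit 571) (nat_lit 5) (nat_lit 589) (nat_lit 5) (nat_lit 572) (nat_lit 4) (nat_lit 410) (nat_lit 366) (nat_lit 364)))) (XT.nd (nat_lit 78) (nat_lit 1520) (nat_lit 0) (XT.lf (nat_lit 0) (nat_lit 3329500960) (nat_lit 1368) (nat_lit 1231001366) (nat_lit 1444) (nat_lit 2348786084) (nat_lit 553) (nat_lit 5) (nat_lit 571) (nat_lit 5) (nat_lit 572) (nat_lit 4) (nat_lit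 411) (nat_lit 366) (nat_lit 363)) (XT.nd (nat_lit 78) (nat_lit 0) (nat_lit 0) (XT.lf (nat_lit 0) (nat_lit 919815590) (nat_lit 1520) (nat_lit 5756901590) (nat_lit 76) (nat_lit 264564775) (nat_lit 533) (nat_lit 5) (nat_lit 553) (nat_lit 5) (nat_lit 534) (nat_lit 4) (nat_lit 412) (nat_lit 366) (nat_lit 362)) (XT.lf (nat_lit 0) (nat_lit 4187164673) (nat_lit 1520) (nat_lit 968192393) (nat_lit 76) (nat_lit 1818971800) (nat_lit 533) (nat_lit 5) (nat_lit 553) (nat_lit 5) (nat_lit 534) (nat_lit 4) (nat_lit 413) (nat_lit 366) (nat_lit 361))))) (XT.nd (nat_lit 234) (nat_lit 5016) (nat_lit 0) (XT.nd (nat_lit 78) (nat_lit 1596) (nat_lit 0) (XT.lf (nat_lit 0) (nat_lit 463964874) (nat_lit 1596) (nat_lit 3106421499) (nat_lit 76) (nat_lit 3438426534) (nat_lit 512) (nat_lit 5) (nat_lit 533) (nat_lit 5) (nat_lit 513) (nat_lit 5) (nat_lit 414) (nat_lit 366) (nat_lit 360)) (XT.nd (nat_lit 78) (nat_lit 0) (nat_lit 0) (XT.lf (nat_lit 0) (nat_lit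 1782031979) (nat_lit 1596) (nat_lit 1913142696) (nat_lit 1672) (nat_lit 3349415259) (nat_lit 491) (nat_lit 5) (nat_lit 512) (nat_lit 5) (nat_lit 513) (nat_lit 5) (nat_lit 415) (nat_lit 366) (nat_lit 359)) (XT.lf (nat_lit 0) (nat_lit 6748281100) (nat_lit 1596) (nat_lit 198692919) (nat_lit 1672) (nat_lit 135008133) (nat_lit 491) (nat_lit 5) (nat_lit 512) (nat_lit 5) (nat_lit 513) (nat_lit 5) (nat_lit 416) (nat_lit 366) (nat_lit 358)))) (XT.nd (nat_lit 78) (nat_lit 3268) (nat_lit 0) (XT.lf (nat_lit 0) (nat_lit 3079163753) (nat_lit 1748) (nat_lit 2457947642) (nat_lit 76) (nat_lit 1583086688) (nat_lit 468) (nat_lit 5) (nat_lit 491) (nat_lit 5) (nat_lit 469) (nat_lit 5) (nat_lit 417) (nat_lit 366) (nat_lit 357)) (XT.nd (nat_lit 78) (nat_lit 1520) (nat_lit 0) (XT.lf (nat_lit 0) (nat_lit 2572402075) (nat_lit 1748) (nat_lit 3740504611) (nat_lit 1824) (nat_lit 847129755) (nat_lit 445) (nat_lit 5) (nat_lit 468) (nat_lit 5) (nat_lit 469)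 (nat_lit 5) (nat_lit 418) (nat_lit 366) (nat_lit 356)) (XT.lf (nat_lit 0) (nat_lit 463593649) (nat_lit 1444) (nat_lit 1872283106) (nat_lit 1520) (nat_lit 4865362149) (nat_lit 425) (nat_lit 5) (nat_lit 444) (nat_lit 5) (nat_lit 445) (nat_lit 5) (nat_lit 419) (nat_lit 366) (nat_lit 355)))))) (XT.nd (nat_lit 468) (nat_lit 3344) (nat_lit 0) (XT.nd (nat_lit 234) (nat_lit 1824) (nat_lit 0) (XT.nd (nat_lit 78) (nat_lit 1900) (nat_lit 0) (XT.lf (nat_lit 0) (nat_lit 5540462742) (nat_lit 1520) (nat_lit 1634544445) (nat_lit 76) (nat_lit 68777825) (nat_lit 425) (nat_lit 5) (nat_lit 445) (nat_lit 5) (nat_lit 426) (nat_lit 5) (nat_lit 420) (nat_lit 366) (nat_lit 354)) (XT.nd (nat_lit 78) (nat_lit 912) (nat_lit 0) (XT.lf (nat_lit 0) (nat_lit 1476471002) (nat_lit 988) (nat_lit 3755389948) (nat_lit 76) (nat_lit 2055650170) (nat_lit 412) (nat_lit 5) (nat_lit 425) (nat_lit 5) (nat_lit 413) (nat_lit 5) (nat_lit 421) (nat_lit 366) (nat_lit 353))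 (XT.lf (nat_lit 0) (nat_lit 1436825326) (nat_lit 912) (nat_lit 3220253715) (nat_lit 988) (nat_lit 2675622866) (nat_lit 400) (nat_lit 5) (nat_lit 412) (nat_lit 5) (nat_lit 413) (nat_lit 5) (nat_lit 422) (nat_lit 366) (nat_lit 352)))) (XT.nd (nat_lit 78) (nat_lit 1748) (nat_lit 0) (XT.lf (nat_lit 0) (nat_lit 481019486) (nat_lit 988) (nat_lit 661509782) (nat_lit 76) (nat_lit 6236907249) (nat_lit 399) (nat_lit 5) (nat_lit 412) (nat_lit 5) (nat_lit 400) (nat_lit 5) (nat_lit 423) (nat_lit 366) (nat_lit 351)) (XT.nd (nat_lit 78) (nat_lit 836) (nat_lit 0) (XT.lf (nat_lit 0) (nat_lit 3643064867) (nat_lit 988) (nat_lit 2775254392) (nat_lit 76) (nat_lit 1008885854) (nat_lit 387) (nat_lit 5) (nat_lit 400) (nat_lit 5) (nat_lit 388) (nat_lit 5) (nat_lit 424) (nat_lit 366) (nat_lit 350)) (XT.lf (nat_lit 0) (nat_lit 2567943598) (nat_lit 836) (nat_lit 4271021580) (nat_lit 912) (nat_lit 637566276) (nat_lit 376) (nat_lit 5) (nat_lit 387) (nat_lit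 5) (nat_lit 388) (nat_lit 5) (nat_lit 425) (nat_lit 366) (nat_lit 349))))) (XT.nd (nat_lit 234) (nat_lit 1596) (nat_lit 0) (XT.nd (nat_lit 78) (nat_lit 836) (nat_lit 0) (XT.lf (nat_lit 0) (nat_lit 454983932) (nat_lit 836) (nat_lit 2047169977) (nat_lit 912) (nat_lit 5025091600) (nat_lit 364) (nat_lit 5) (nat_lit 375) (nat_lit 5) (nat_lit 376) (nat_lit 5) (nat_lit 426) (nat_lit 366) (nat_lit 348)) (XT.nd (nat_lit 78) (nat_lit 836) (nat_lit 0) (XT.lf (nat_lit 0) (nat_lit 5673664075) (nat_lit 912) (nat_lit 1655841024) (nat_lit 76) (nat_lit 249847617) (nat_lit 364) (nat_lit 5) (nat_lit 376) (nat_lit 5) (nat_lit 365) (nat_lit 5) (nat_lit 427) (nat_lit 366) (nat_lit 347)) (XT.lf (nat_lit 0) (nat_lit 1241796222) (nat_lit 836) (nat_lit 3798040866) (nat_lit 76) (nat_lit 2592863941) (nat_lit 353) (nat_lit 5) (nat_lit 364) (nat_lit 5) (nat_lit 354) (nat_lit 5) (nat_lit 428) (nat_lit 366) (nat_lit 346)))) (XT.nd (nat_lit 78) (nat_lit 836)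 (nat_lit 0) (XT.lf (nat_lit 0) (nat_lit 1717252383) (nat_lit 760) (nat_lit 2676183338) (nat_lit 836) (nat_lit 3294107227) (nat_lit 343) (nat_lit 5) (nat_lit 353) (nat_lit 5) (nat_lit 354) (nat_lit 5) (nat_lit 429) (nat_lit 366) (nat_lit 345)) (XT.nd (nat_lit 78) (nat_lit 836) (nat_lit 0) (XT.lf (nat_lit 0) (nat_lit 7331651757) (nat_lit 760) (nat_lit 246990599) (nat_lit 836) (nat_lit 165441418) (nat_lit 343) (nat_lit 5) (nat_lit 353) (nat_lit 5) (nat_lit 354) (nat_lit 5) (nat_lit 430) (nat_lit 366) (nat_lit 344)) (XT.lf (nat_lit 0) (nat_lit 2980701833) (nat_lit 836) (nat_lit 2573045808) (nat_lit 76) (nat_lit 2247735369) (nat_lit 332) (nat_lit 5) (nat_lit 343) (nat_lit 5) (nat_lit 333) (nat_lit 5) (nat_lit 431) (nat_lit 366) (nat_lit 343))))))))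
noncomputable def xc54 : XT := (XT.nd (nat_lit 1794) (nat_lit 6840) (nat_lit 0) (XT.nd (nat_lit 858) (nat_lit 5016) (nat_lit 0) (XT.nd (nat_lit 390) (nat_lit 2660) (nat_lit 0) (XT.nd (nat_lit 156) (nat_lit 1444) (nat_lit 0) (XT.nd (nat_lit 78) (nat_lit 760) (nat_lit 0) (XT.lf (nat_lit 0) (nat_lit 3102876114) (nat_lit 760) (nat_lit 3055611391) (nat_lit 836) (nat_lit 1702114178) (nat_lit 322) (nat_lit 5) (nat_lit 332) (nat_lit 5) (nat_lit 333) (nat_lit 5) (nat_lit 432) (nat_lit 366) (nat_lit 342)) (XT.lf (nat_lit 0) (nat_lit 946214750) (nat_lit 684) (nat_lit 483488476) (nat_lit 760) (nat_lit 6491615547) (nat_lit 312) (nat_lit 5) (nat_lit 321) (nat_lit 5) (nat_lit 322) (nat_lit 5) (nat_lit 433) (nat_lit 366) (nat_lit 341))) (XT.nd (nat_lit 78) (nat_lit 1444) (nat_lit 0) (XT.lf (nat_lit 0) (nat_lit 4594643355) (nat_lit 760) (nat_lit 1242965453) (nat_lit 76) (nat_lit 2145562150) (nat_lit 312) (nat_lit 5) (nat_lit 322) (nat_lit 5)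 (nat_lit 313) (nat_lit 5) (nat_lit 434) (nat_lit 366) (nat_lit 340)) (XT.nd (nat_lit 78) (nat_lit 760) (nat_lit 0) (XT.lf (nat_lit 0) (nat_lit 4598471432) (nat_lit 684) (nat_lit 3205727231) (nat_lit 760) (nat_lit 242446303) (nat_lit 303) (nat_lit 5) (nat_lit 312) (nat_lit 5) (nat_lit 313) (nat_lit 5) (nat_lit 435) (nat_lit 366) (nat_lit 339)) (XT.lf (nat_lit 0) (nat_lit 2411944880) (nat_lit 684) (nat_lit 488281472) (nat_lit 760) (nat_lit 5211336026) (nat_lit 293) (nat_lit 5) (nat_lit 302) (nat_lit 5) (nat_lit 303) (nat_lit 5) (nat_lit 436) (nat_lit 366) (nat_lit 338))))) (XT.nd (nat_lit 234) (nat_lit 1292) (nat_lit 0) (XT.nd (nat_lit 78) (nat_lit 684) (nat_lit 0) (XT.lf (nat_lit 0) (nat_lit 181205672) (nat_lit 684) (nat_lit 5909649295) (nat_lit 760) (nat_lit 2087134608) (nat_lit 284) (nat_lit 5) (nat_lit 293) (nat_lit 5) (nat_lit 294) (nat_lit 5) (nat_lit 437) (nat_lit 366) (nat_lit 337)) (XT.nd (nat_lit 78) (nat_lit 608) (nat_lit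 0) (XT.lf (nat_lit 0) (nat_lit 1076162593) (nat_lit 760) (nat_lit 2062245919) (nat_lit 76) (nat_lit 5107383431) (nat_lit 283) (nat_lit 5) (nat_lit 293) (nat_lit 5) (nat_lit 284) (nat_lit 5) (nat_lit 438) (nat_lit 366) (nat_lit 336)) (XT.lf (nat_lit 0) (nat_lit 3966888456) (nat_lit 608) (nat_lit 283964680) (nat_lit 684) (nat_lit 4064309683) (nat_lit 275) (nat_lit 5) (nat_lit 283) (nat_lit 5) (nat_lit 284) (nat_lit 5) (nat_lit 439) (nat_lit 366) (nat_lit 335)))) (XT.nd (nat_lit 78) (nat_lit 684) (nat_lit 0) (XT.lf (nat_lit 0) (nat_lit 1701278037) (nat_lit 608) (nat_lit 5780577961) (nat_lit 684) (nat_lit 904218412) (nat_lit 267) (nat_lit 5) (nat_lit 275) (nat_lit 5) (nat_lit 276) (nat_lit 5) (nat_lit 440) (nat_lit 366) (nat_lit 334)) (XT.nd (nat_lit 78) (nat_lit 608) (nat_lit 0) (XT.lf (nat_lit 0) (nat_lit 2270923391) (nat_lit 684) (nat_lit 607233554) (nat_lit 76) (nat_lit 5580310166) (nat_lit 266) (nat_lit 5) (nat_lit 275) (nat_lit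 5) (nat_lit 267) (nat_lit 5) (nat_lit 441) (nat_lit 366) (nat_lit 333)) (XT.lf (nat_lit 0) (nat_lit 5486511157) (nat_lit 684) (nat_lit 2935660982) (nat_lit 76) (nat_lit 110244087) (nat_lit 258) (nat_lit 5) (nat_lit 267) (nat_lit 5) (nat_lit 259) (nat_lit 5) (nat_lit 442) (nat_lit 366) (nat_lit 332)))))) (XT.nd (nat_lit 468) (nat_lit 2052) (nat_lit 0) (XT.nd (nat_lit 234) (nat_lit 1748) (nat_lit 0) (XT.nd (nat_lit 78) (nat_lit 532) (nat_lit 0) (XT.lf (nat_lit 0) (nat_lit 153385784) (nat_lit 684) (nat_lit 5321880142) (nat_lit 76) (nat_lit 3132628583) (nat_lit 249) (nat_lit 5) (nat_lit 258) (nat_lit 5) (nat_lit 250) (nat_lit 5) (nat_lit 443) (nat_lit 366) (nat_lit 331)) (XT.nd (nat_lit 78) (nat_lit 0) (nat_lit 0) (XT.lf (nat_lit 0) (nat_lit 916649080) (nat_lit 532) (nat_lit 2437683700) (nat_lit 608) (nat_lit 5330586394) (nat_lit 242) (nat_lit 5) (nat_lit 249) (nat_lit 5) (nat_lit 250) (nat_lit 5) (nat_lit 444) (nat_lit 366) (nat_lit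 330)) (XT.lf (nat_lit 0) (nat_lit 6612598902) (nat_lit 608) (nat_lit 1478142049) (nat_lit 76) (nat_lit 672885794) (nat_lit 242) (nat_lit 5) (nat_lit 250) (nat_lit 5) (nat_lit 243) (nat_lit 5) (nat_lit 445) (nat_lit 366) (nat_lit 329)))) (XT.nd (nat_lit 78) (nat_lit 1064) (nat_lit 0) (XT.lf (nat_lit 0) (nat_lit 1079903219) (nat_lit 684) (nat_lit 3926448754) (nat_lit 76) (nat_lit 3837380676) (nat_lit 233) (nat_lit 5) (nat_lit 242) (nat_lit 5) (nat_lit 234) (nat_lit 5) (nat_lit 446) (nat_lit 366) (nat_lit 328)) (XT.nd (nat_lit 78) (nat_lit 532) (nat_lit 0) (XT.lf (nat_lit 0) (nat_lit 2491871697) (nat_lit 532) (nat_lit 1835146543) (nat_lit 608) (nat_lit 4598538644) (nat_lit 226) (nat_lit 5) (nat_lit 233) (nat_lit 5) (nat_lit 234) (nat_lit 5) (nat_lit 447) (nat_lit 366) (nat_lit 327)) (XT.lf (nat_lit 0) (nat_lit 11873523) (nat_lit 532) (nat_lit 7617459636) (nat_lit 608) (nat_lit 1379887068) (nat_lit 219) (nat_lit 5) (nat_lit 226)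 (nat_lit 5) (nat_lit 227) (nat_lit 5) (nat_lit 448) (nat_lit 366) (nat_lit 326))))) (XT.nd (nat_lit 234) (nat_lit 988) (nat_lit 0) (XT.nd (nat_lit 78) (nat_lit 988) (nat_lit 0) (XT.lf (nat_lit 0) (nat_lit 1888544974) (nat_lit 608) (nat_lit 2507447408) (nat_lit 76) (nat_lit 4698117452) (nat_lit 218) (nat_lit 5) (nat_lit 226) (nat_lit 5) (nat_lit 219) (nat_lit 5) (nat_lit 449) (nat_lit 366) (nat_lit 325)) (XT.nd (nat_lit 78) (nat_lit 532) (nat_lit 0) (XT.lf (nat_lit 0) (nat_lit 4095538898) (nat_lit 456) (nat_lit 1090580267) (nat_lit 532) (nat_lit 3994757970) (nat_lit 212) (nat_lit 5) (nat_lit 218) (nat_lit 5) (nat_lit 219) (nat_lit 5) (nat_lit 450) (nat_lit 366) (nat_lit 324)) (XT.lf (nat_lit 0) (nat_lit 1539138389) (nat_lit 532) (nat_lit 7008252728) (nat_lit 608) (nat_lit 722040925) (nat_lit 205) (nat_lit 5) (nat_lit 212) (nat_lit 5) (nat_lit 213) (nat_lit 5) (nat_lit 451) (nat_lit 366) (nat_lit 323)))) (XT.nd (nat_lit 78) (nat_lit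 912) (nat_lit 0) (XT.lf (nat_lit 0) (nat_lit 2579568899) (nat_lit 608) (nat_lit 1080313253) (nat_lit 76) (nat_lit 5699588096) (nat_lit 204) (nat_lit 5) (nat_lit 212) (nat_lit 5) (nat_lit 205) (nat_lit 5) (nat_lit 452) (nat_lit 366) (nat_lit 322)) (XT.nd (nat_lit 78) (nat_lit 456) (nat_lit 0) (XT.lf (nat_lit 0) (nat_lit 5712172446) (nat_lit 456) (nat_lit 219501677) (nat_lit 532) (nat_lit 3519663784) (nat_lit 198) (nat_lit 5) (nat_lit 204) (nat_lit 5) (nat_lit 205) (nat_lit 5) (nat_lit 453) (nat_lit 366) (nat_lit 321)) (XT.lf (nat_lit 0) (nat_lit 3068114134) (nat_lit 456) (nat_lit 6288655309) (nat_lit 532) (nat_lit 188161154) (nat_lit 192) (nat_lit 5) (nat_lit 198) (nat_lit 5) (nat_lit 199) (nat_lit 5) (nat_lit 454) (nat_lit 366) (nat_lit 320))))))) (XT.nd (nat_lit 936) (nat_lit 3192) (nat_lit 0) (XT.nd (nat_lit 468) (nat_lit 1672) (nat_lit 0) (XT.nd (nat_lit 234) (nat_lit 912) (nat_lit 0) (XT.nd (nat_lit 78) (nat_lit 532) (nat_lit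 0) (XT.lf (nat_lit 0) (nat_lit 343230396) (nat_lit 456) (nat_lit 2811110093) (nat_lit 532) (nat_lit 6485914838) (nat_lit 185) (nat_lit 5) (nat_lit 191) (nat_lit 5) (nat_lit 192) (nat_lit 5) (nat_lit 455) (nat_lit 366) (nat_lit 319)) (XT.nd (nat_lit 78) (nat_lit 532) (nat_lit 0) (XT.lf (nat_lit 0) (nat_lit 6567549446) (nat_lit 532) (nat_lit 2416921251) (nat_lit 76) (nat_lit 752869698) (nat_lit 185) (nat_lit 5) (nat_lit 192) (nat_lit 5) (nat_lit 186) (nat_lit 5) (nat_lit 456) (nat_lit 366) (nat_lit 318)) (XT.lf (nat_lit 0) (nat_lit 216944756) (nat_lit 532) (nat_lit 5255657615) (nat_lit 76) (nat_lit 4363601624) (nat_lit 178) (nat_lit 5) (nat_lit 185) (nat_lit 5) (nat_lit 179) (nat_lit 5) (nat_lit 457) (nat_lit 366) (nat_lit 317)))) (XT.nd (nat_lit 78) (nat_lit 532) (nat_lit 0) (XT.lf (nat_lit 0) (nat_lit 1755513123) (nat_lit 380) (nat_lit 1860039034) (nat_lit 456) (nat_lit 6321347947) (nat_lit 173) (nat_lit 5) (nat_lit 178) (nat_lit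 5) (nat_lit 179) (nat_lit 5) (nat_lit 458) (nat_lit 366) (nat_lit 316)) (XT.nd (nat_lit 78) (nat_lit 532) (nat_lit 0) (XT.lf (nat_lit 0) (nat_lit 7088590612) (nat_lit 456) (nat_lit 1133551721) (nat_lit 76) (nat_lit 1817344402) (nat_lit 173) (nat_lit 5) (nat_lit 179) (nat_lit 5) (nat_lit 174) (nat_lit 5) (nat_lit 459) (nat_lit 366) (nat_lit 315)) (XT.lf (nat_lit 0) (nat_lit 492243129) (nat_lit 532) (nat_lit 4084223360) (nat_lit 76) (nat_lit 5567367629) (nat_lit 166) (nat_lit 5) (nat_lit 173) (nat_lit 5) (nat_lit 167) (nat_lit 5) (nat_lit 460) (nat_lit 366) (nat_lit 314))))) (XT.nd (nat_lit 234) (nat_lit 836) (nat_lit 0) (XT.nd (nat_lit 78) (nat_lit 456) (nat_lit 0) (XT.lf (nat_lit 0) (nat_lit 3123590320) (nat_lit 380) (nat_lit 829161860) (nat_lit 456) (nat_lit 6297371212) (nat_lit 161) (nat_lit 5) (nat_lit 166) (nat_lit 5) (nat_lit 167) (nat_lit 5) (nat_lit 461) (nat_lit 366) (nat_lit 313)) (XT.nd (nat_lit 78) (nat_lit 76) (nat_lit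 0) (XT.lf (nat_lit 0) (nat_lit 94613913) (nat_lit 380) (nat_lit 7395809292) (nat_lit 456) (nat_lit 2867961550) (nat_lit 156) (nat_lit 5) (nat_lit 161) (nat_lit 5) (nat_lit 162) (nat_lit 5) (nat_lit 462) (nat_lit 366) (nat_lit 312)) (XT.lf (nat_lit 0) (nat_lit 635845583) (nat_lit 456) (nat_lit 2981048970) (nat_lit 76) (nat_lit 6851558663) (nat_lit 155) (nat_lit 5) (nat_lit 161) (nat_lit 5) (nat_lit 156) (nat_lit 5) (nat_lit 463) (nat_lit 366) (nat_lit 311)))) (XT.nd (nat_lit 78) (nat_lit 456) (nat_lit 0) (XT.lf (nat_lit 0) (nat_lit 4163054510) (nat_lit 456) (nat_lit 6154778881) (nat_lit 76) (nat_lit 262680988) (nat_lit 150) (nat_lit 5) (nat_lit 156) (nat_lit 5) (nat_lit 151) (nat_lit 5) (nat_lit 464) (nat_lit 366) (nat_lit 310)) (XT.nd (nat_lit 78) (nat_lit 76) (nat_lit 0) (XT.lf (nat_lit 0) (nat_lit 1259928362) (nat_lit 380) (nat_lit 6514616641) (nat_lit 456) (nat_lit 2920001946) (nat_lit 145) (nat_lit 5) (nat_lit 150) (nat_lit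 5) (nat_lit 151) (nat_lit 5) (nat_lit 465) (nat_lit 366) (nat_lit 309)) (XT.lf (nat_lit 0) (nat_lit 642073393) (nat_lit 456) (nat_lit 1967435998) (nat_lit 76) (nat_lit 8201208269) (nat_lit 144) (nat_lit 5) (nat_lit 150) (nat_lit 5) (nat_lit 145) (nat_lit 5) (nat_lit 466) (nat_lit 366) (nat_lit 308)))))) (XT.nd (nat_lit 468) (nat_lit 1596) (nat_lit 0) (XT.nd (nat_lit 234) (nat_lit 760) (nat_lit 0) (XT.nd (nat_lit 78) (nat_lit 456) (nat_lit 0) (XT.lf (nat_lit 0) (nat_lit 4244477405) (nat_lit 456) (nat_lit 5292332180) (nat_lit 76) (nat_lit 1391857102) (nat_lit 139) (nat_lit 5) (nat_lit 145) (nat_lit 5) (nat_lit 140) (nat_lit 5) (nat_lit 467) (nat_lit 366) (nat_lit 307)) (XT.nd (nat_lit 78) (nat_lit 76) (nat_lit 0) (XT.lf (nat_lit 0) (nat_lit 2324904105) (nat_lit 380) (nat_lit 5602259615) (nat_lit 456) (nat_lit 3121650847) (nat_lit 134) (nat_lit 5) (nat_lit 139) (nat_lit 5) (nat_lit 140) (nat_lit 5) (nat_lit 468) (nat_lit 366)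 (nat_lit 306)) (XT.lf (nat_lit 0) (nat_lit 503846645) (nat_lit 456) (nat_lit 1066465221) (nat_lit 76) (nat_lit 9601022912) (nat_lit 133) (nat_lit 5) (nat_lit 139) (nat_lit 5) (nat_lit 134) (nat_lit 5) (nat_lit 469) (nat_lit 366) (nat_lit 305)))) (XT.nd (nat_lit 78) (nat_lit 456) (nat_lit 0) (XT.lf (nat_lit 0) (nat_lit 4184156617) (nat_lit 380) (nat_lit 4557832026) (nat_lit 76) (nat_lit 2553426332) (nat_lit 129) (nat_lit 5) (nat_lit 134) (nat_lit 5) (nat_lit 130) (nat_lit 5) (nat_lit 470) (nat_lit 366) (nat_lit 304)) (XT.nd (nat_lit 78) (nat_lit 76) (nat_lit 0) (XT.lf (nat_lit 0) (nat_lit 3265166272) (nat_lit 380) (nat_lit 4675330204) (nat_lit 456) (nat_lit 3481436035) (nat_lit 124) (nat_lit 5) (nat_lit 129) (nat_lit 5) (nat_lit 130) (nat_lit 5) (nat_lit 471) (nat_lit 366) (nat_lit 303)) (XT.lf (nat_lit 0) (nat_lit 212592649) (nat_lit 456) (nat_lit 303251273) (nat_lit 76) (nat_lit 11035221663) (nat_lit 123) (nat_lit 5) (nat_lit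 129) (nat_lit 5) (nat_lit 124) (nat_lit 5) (nat_lit 472) (nat_lit 366) (nat_lit 302))))) (XT.nd (nat_lit 234) (nat_lit 684) (nat_lit 0) (XT.nd (nat_lit 78) (nat_lit 608) (nat_lit 0) (XT.lf (nat_lit 0) (nat_lit 3973089214) (nat_lit 380) (nat_lit 3977452920) (nat_lit 76) (nat_lit 3730998832) (nat_lit 119) (nat_lit 5) (nat_lit 124) (nat_lit 5) (nat_lit 120) (nat_lit 5) (nat_lit 473) (nat_lit 366) (nat_lit 301)) (XT.nd (nat_lit 78) (nat_lit 304) (nat_lit 0) (XT.lf (nat_lit 0) (nat_lit 4054117537) (nat_lit 304) (nat_lit 3751093407) (nat_lit 380) (nat_lit 4009490495) (nat_lit 115) (nat_lit 5) (nat_lit 119) (nat_lit 5) (nat_lit 120) (nat_lit 5) (nat_lit 474) (nat_lit 366) (nat_lit 300)) (XT.lf (nat_lit 0) (nat_lit 293544206) (nat_lit 304) (nat_lit 11417478621) (nat_lit 380) (nat_lit 239565150) (nat_lit 111) (nat_lit 5) (nat_lit 115) (nat_lit 5) (nat_lit 116) (nat_lit 5) (nat_lit 475) (nat_lit 366) (nat_lit 299)))) (XT.nd (nat_lit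 78) (nat_lit 608) (nat_lit 0) (XT.lf (nat_lit 0) (nat_lit 3600638825) (nat_lit 380) (nat_lit 3579808303) (nat_lit 76) (nat_lit 4907437157) (nat_lit 110) (nat_lit 5) (nat_lit 115) (nat_lit 5) (nat_lit 111) (nat_lit 5) (nat_lit 476) (nat_lit 366) (nat_lit 298)) (XT.nd (nat_lit 78) (nat_lit 304) (nat_lit 0) (XT.lf (nat_lit 0) (nat_lit 4662642925) (nat_lit 304) (nat_lit 2847666396) (nat_lit 380) (nat_lit 4717671715) (nat_lit 106) (nat_lit 5) (nat_lit 110) (nat_lit 5) (nat_lit 111) (nat_lit 5) (nat_lit 477) (nat_lit 366) (nat_lit 297)) (XT.lf (nat_lit 0) (nat_lit 690691335) (nat_lit 304) (nat_lit 10812121971) (nat_lit 380) (nat_lit 867977137) (nat_lit 102) (nat_lit 5) (nat_lit 106) (nat_lit 5) (nat_lit 107) (nat_lit 5) (nat_lit 478) (nat_lit 366) (nat_lit 296))))))))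
noncomputable def xc55 : XT := (XT.nd (nat_lit 1794) (nat_lit 760) (nat_lit 0) (XT.nd (nat_lit 858) (nat_lit 1672) (nat_lit 0) (XT.nd (nat_lit 390) (nat_lit 1140) (nat_lit 0) (XT.nd (nat_lit 156) (nat_lit 608) (nat_lit 0) (XT.nd (nat_lit 78) (nat_lit 304) (nat_lit 0) (XT.lf (nat_lit 0) (nat_lit 3054408779) (nat_lit 380) (nat_lit 3396263883) (nat_lit 76) (nat_lit 6064673317) (nat_lit 101) (nat_lit 5) (nat_lit 106) (nat_lit 5) (nat_lit 102) (nat_lit 5) (nat_lit 479) (nat_lit 366) (nat_lit 295)) (XT.lf (nat_lit 0) (nat_lit 5058787343) (nat_lit 304) (nat_lit 1984208989) (nat_lit 380) (nat_lit 5619697343) (nat_lit 97) (nat_lit 5) (nat_lit 101) (nat_lit 5) (nat_lit 102) (nat_lit 5) (nat_lit 480) (nat_lit 366) (nat_lit 294))) (XT.nd (nat_lit 78) (nat_lit 380) (nat_lit 0) (XT.lf (nat_lit 0) (nat_lit 855593950) (nat_lit 228) (nat_lit 10267636733) (nat_lit 304) (nat_lit 1689523393) (nat_lit 94) (nat_lit 5) (nat_lit 97) (nat_lit 5) (nat_lit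 98) (nat_lit 5) (nat_lit 481) (nat_lit 366) (nat_lit 293)) (XT.nd (nat_lit 78) (nat_lit 304) (nat_lit 0) (XT.lf (nat_lit 0) (nat_lit 2320098350) (nat_lit 304) (nat_lit 3461280367) (nat_lit 76) (nat_lit 7183513698) (nat_lit 93) (nat_lit 5) (nat_lit 97) (nat_lit 5) (nat_lit 94) (nat_lit 5) (nat_lit 482) (nat_lit 366) (nat_lit 292)) (XT.lf (nat_lit 0) (nat_lit 5207402661) (nat_lit 304) (nat_lit 1181127188) (nat_lit 380) (nat_lit 6731298584) (nat_lit 89) (nat_lit 5) (nat_lit 93) (nat_lit 5) (nat_lit 94) (nat_lit 5) (nat_lit 483) (nat_lit 366) (nat_lit 291))))) (XT.nd (nat_lit 234) (nat_lit 532) (nat_lit 0) (XT.nd (nat_lit 78) (nat_lit 380) (nat_lit 0) (XT.lf (nat_lit 0) (nat_lit 751511321) (nat_lit 228) (nat_lit 9805433672) (nat_lit 304) (nat_lit 2720548881) (nat_lit 86) (nat_lit 5) (nat_lit 89) (nat_lit 5) (nat_lit 90) (nat_lit 5) (nat_lit 484) (nat_lit 366) (nat_lit 290)) (XT.nd (nat_lit 78) (nat_lit 304) (nat_lit 0) (XT.lf (nat_lit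 0) (nat_lit 1381340604) (nat_lit 304) (nat_lit 3812788985) (nat_lit 76) (nat_lit 8243430011) (nat_lit 85) (nat_lit 5) (nat_lit 89) (nat_lit 5) (nat_lit 86) (nat_lit 5) (nat_lit 485) (nat_lit 366) (nat_lit 289)) (XT.lf (nat_lit 0) (nat_lit 5069760885) (nat_lit 304) (nat_lit 460291727) (nat_lit 380) (nat_lit 8070392947) (nat_lit 81) (nat_lit 5) (nat_lit 85) (nat_lit 5) (nat_lit 86) (nat_lit 5) (nat_lit 486) (nat_lit 366) (nat_lit 288)))) (XT.nd (nat_lit 78) (nat_lit 304) (nat_lit 0) (XT.lf (nat_lit 0) (nat_lit 337946745) (nat_lit 228) (nat_lit 9448503475) (nat_lit 304) (nat_lit 3979647566) (nat_lit 78) (nat_lit 5) (nat_lit 81) (nat_lit 5) (nat_lit 82) (nat_lit 5) (nat_lit 487) (nat_lit 366) (nat_lit 287)) (XT.nd (nat_lit 78) (nat_lit 228) (nat_lit 0) (XT.lf (nat_lit 0) (nat_lit 219520184) (nat_lit 304) (nat_lit 4492603466) (nat_lit 76) (nat_lit 9222334277) (nat_lit 77) (nat_lit 5) (nat_lit 81) (nat_lit 5) (nat_lit 78) (nat_lit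 5) (nat_lit 488) (nat_lit 366) (nat_lit 286)) (XT.lf (nat_lit 0) (nat_lit 4449407881) (nat_lit 304) (nat_lit 9503556369) (nat_lit 76) (nat_lit 152697045) (nat_lit 74) (nat_lit 5) (nat_lit 78) (nat_lit 5) (nat_lit 75) (nat_lit 5) (nat_lit 489) (nat_lit 366) (nat_lit 285)))))) (XT.nd (nat_lit 468) (nat_lit 608) (nat_lit 0) (XT.nd (nat_lit 234) (nat_lit 532) (nat_lit 0) (XT.nd (nat_lit 78) (nat_lit 532) (nat_lit 0) (XT.lf (nat_lit 0) (nat_lit 8794657376) (nat_lit 304) (nat_lit 424156689) (nat_lit 76) (nat_lit 5060861949) (nat_lit 74) (nat_lit 5) (nat_lit 78) (nat_lit 5) (nat_lit 75) (nat_lit 5) (nat_lit 490) (nat_lit 366) (nat_lit 284)) (XT.nd (nat_lit 78) (nat_lit 304) (nat_lit 0) (XT.lf (nat_lit 0) (nat_lit 8901943287) (nat_lit 228) (nat_lit 4352480150) (nat_lit 304) (nat_lit 1202197875) (nat_lit 71) (nat_lit 5) (nat_lit 74) (nat_lit 5) (nat_lit 75) (nat_lit 5) (nat_lit 491) (nat_lit 366) (nat_lit 283)) (XT.lf (nat_lit 0) (nat_lit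 3126049906) (nat_lit 304) (nat_lit 10880593142) (nat_lit 76) (nat_lit 630027795) (nat_lit 67) (nat_lit 5) (nat_lit 71) (nat_lit 5) (nat_lit 68) (nat_lit 5) (nat_lit 492) (nat_lit 366) (nat_lit 282)))) (XT.nd (nat_lit 78) (nat_lit 532) (nat_lit 0) (XT.lf (nat_lit 0) (nat_lit 7561116474) (nat_lit 304) (nat_lit 1580086460) (nat_lit 76) (nat_lit 5678234844) (nat_lit 67) (nat_lit 5) (nat_lit 71) (nat_lit 5) (nat_lit 68) (nat_lit 5) (nat_lit 493) (nat_lit 366) (nat_lit 281)) (XT.nd (nat_lit 78) (nat_lit 304) (nat_lit 0) (XT.lf (nat_lit 0) (nat_lit 7960022125) (nat_lit 228) (nat_lit 4147122596) (nat_lit 304) (nat_lit 2898272448) (nat_lit 64) (nat_lit 5) (nat_lit 67) (nat_lit 5) (nat_lit 68) (nat_lit 5) (nat_lit 494) (nat_lit 366) (nat_lit 280)) (XT.lf (nat_lit 0) (nat_lit 1532381213) (nat_lit 304) (nat_lit 12712118693) (nat_lit 76) (nat_lit 950342957) (nat_lit 60) (nat_lit 5) (nat_lit 64) (nat_lit 5) (nat_lit 61) (nat_lit 5) (nat_lit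 495) (nat_lit 366) (nat_lit 279))))) (XT.nd (nat_lit 234) (nat_lit 228) (nat_lit 0) (XT.nd (nat_lit 78) (nat_lit 380) (nat_lit 0) (XT.lf (nat_lit 0) (nat_lit 6058673281) (nat_lit 304) (nat_lit 3188149471) (nat_lit 76) (nat_lit 6139936691) (nat_lit 60) (nat_lit 5) (nat_lit 64) (nat_lit 5) (nat_lit 61) (nat_lit 5) (nat_lit 496) (nat_lit 366) (nat_lit 278)) (XT.nd (nat_lit 78) (nat_lit 228) (nat_lit 0) (XT.lf (nat_lit 0) (nat_lit 6562391000) (nat_lit 152) (nat_lit 4127022416) (nat_lit 228) (nat_lit 4892824642) (nat_lit 58) (nat_lit 5) (nat_lit 60) (nat_lit 5) (nat_lit 61) (nat_lit 5) (nat_lit 497) (nat_lit 366) (nat_lit 277)) (XT.lf (nat_lit 0) (nat_lit 722098655) (nat_lit 228) (nat_lit 14695421776) (nat_lit 304) (nat_lit 364012876) (nat_lit 55) (nat_lit 5) (nat_lit 58) (nat_lit 5) (nat_lit 59) (nat_lit 5) (nat_lit 498) (nat_lit 366) (nat_lit 276)))) (XT.nd (nat_lit 78) (nat_lit 152) (nat_lit 0) (XT.lf (nat_lit 0) (nat_lit 4259290132)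 (nat_lit 304) (nat_lit 5307946468) (nat_lit 76) (nat_lit 6415832810) (nat_lit 54) (nat_lit 5) (nat_lit 58) (nat_lit 5) (nat_lit 55) (nat_lit 5) (nat_lit 499) (nat_lit 366) (nat_lit 275)) (XT.nd (nat_lit 78) (nat_lit 0) (nat_lit 0) (XT.lf (nat_lit 0) (nat_lit 4647971337) (nat_lit 152) (nat_lit 4324420487) (nat_lit 228) (nat_lit 7216154136) (nat_lit 52) (nat_lit 5) (nat_lit 54) (nat_lit 5) (nat_lit 55) (nat_lit 5) (nat_lit 500) (nat_lit 366) (nat_lit 274)) (XT.lf (nat_lit 0) (nat_lit 13794373333) (nat_lit 228) (nat_lit 1578586114) (nat_lit 76) (nat_lit 1024882183) (nat_lit 52) (nat_lit 5) (nat_lit 55) (nat_lit 5) (nat_lit 53) (nat_lit 5) (nat_lit 501) (nat_lit 366) (nat_lit 273))))))) (XT.nd (nat_lit 52416) (nat_lit 0) (nat_lit 26220) (XT.nd (nat_lit 51948) (nat_lit 0) (nat_lit 37316) (XT.nd (nat_lit 234) (nat_lit 304) (nat_lit 0) (XT.nd (nat_lit 78) (nat_lit 152) (nat_lit 0) (XT.lf (nat_lit 0) (nat_lit 2131550516) (nat_lit 304)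 (nat_lit 8005442459) (nat_lit 76) (nat_lit 6472906415) (nat_lit 48) (nat_lit 5) (nat_lit 52) (nat_lit 5) (nat_lit 49) (nat_lit 5) (nat_lit 502) (nat_lit 366) (nat_lit 272)) (XT.nd (nat_lit 78) (nat_lit 0) (nat_lit 0) (XT.lf (nat_lit 0) (nat_lit 2149120640) (nat_lit 152) (nat_lit 4774647045) (nat_lit 228) (nat_lit 9902141106) (nat_lit 46) (nat_lit 5) (nat_lit 48) (nat_lit 5) (nat_lit 49) (nat_lit 5) (nat_lit 503) (nat_lit 366) (nat_lit 271)) (XT.lf (nat_lit 0) (nat_lit 11843214217) (nat_lit 228) (nat_lit 4483156493) (nat_lit 76) (nat_lit 719241766) (nat_lit 46) (nat_lit 5) (nat_lit 49) (nat_lit 5) (nat_lit 47) (nat_lit 5) (nat_lit 504) (nat_lit 366) (nat_lit 270)))) (XT.nd (nat_lit 78) (nat_lit 76) (nat_lit 0) (XT.lf (nat_lit 0) (nat_lit 5912808902) (nat_lit 228) (nat_lit 10991580706) (nat_lit 304) (nat_lit 364455588) (nat_lit 43) (nat_lit 5) (nat_lit 46) (nat_lit 5) (nat_lit 47) (nat_lit 5) (nat_lit 505) (nat_lit 366) (nat_lit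 269)) (XT.nd (nat_lit 51558) (nat_lit 0) (nat_lit 42864) (XT.lf (nat_lit 0) (nat_lit 4513959682) (nat_lit 304) (nat_lit 995858799) (nat_lit 76) (nat_lit 11986059254) (nat_lit 42) (nat_lit 5) (nat_lit 46) (nat_lit 5) (nat_lit 43) (nat_lit 5) (nat_lit 506) (nat_lit 366) (nat_lit 268)) (XT.lf (nat_lit 0) (nat_lit 300073241) (nat_lit 1140) (nat_lit 1542248953) (nat_lit 1140) (nat_lit 1542248953) (nat_lit 606) (nat_lit 4) (nat_lit 621) (nat_lit 5) (nat_lit 621) (nat_lit 4) (nat_lit 406) (nat_lit 367) (nat_lit 367))))) (XT.nd (nat_lit 234) (nat_lit 2964) (nat_lit 0) (XT.nd (nat_lit 78) (nat_lit 2508) (nat_lit 0) (XT.lf (nat_lit 0) (nat_lit 215653706) (nat_lit 1216) (nat_lit 1645035159) (nat_lit 76) (nat_lit 4934446557) (nat_lit 605) (nat_lit 5) (nat_lit 621) (nat_lit 5) (nat_lit 606) (nat_lit 4) (nat_lit 407) (nat_lit 367) (nat_lit 366)) (XT.nd (nat_lit 78) (nat_lit 1292) (nat_lit 0) (XT.lf (nat_lit 0) (nat_lit 2927265132) (nat_lit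 1216) (nat_lit 561734499) (nat_lit 1292) (nat_lit 3333294264) (nat_lit 589) (nat_lit 5) (nat_lit 605) (nat_lit 5) (nat_lit 606) (nat_lit 4) (nat_lit 408) (nat_lit 367) (nat_lit 365)) (XT.lf (nat_lit 0) (nat_lit 706587950) (nat_lit 1292) (nat_lit 6072387500) (nat_lit 1292) (nat_lit 72019484) (nat_lit 572) (nat_lit 4) (nat_lit 589) (nat_lit 5) (nat_lit 589) (nat_lit 4) (nat_lit 409) (nat_lit 367) (nat_lit 364)))) (XT.nd (nat_lit 78) (nat_lit 2888) (nat_lit 0) (XT.lf (nat_lit 0) (nat_lit 3172828781) (nat_lit 1368) (nat_lit 1513458078) (nat_lit 76) (nat_lit 2194361681) (nat_lit 571) (nat_lit 5) (nat_lit 589) (nat_lit 5) (nat_lit 572) (nat_lit 4) (nat_lit 410) (nat_lit 367) (nat_lit 363)) (XT.nd (nat_lit 78) (nat_lit 1520) (nat_lit 0) (XT.lf (nat_lit 0) (nat_lit 3190970718) (nat_lit 1368) (nat_lit 3243710895) (nat_lit 1444) (nat_lit 477163995) (nat_lit 553) (nat_lit 5) (nat_lit 571) (nat_lit 5) (nat_lit 572) (nat_lit 4) (nat_lit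 411) (nat_lit 367) (nat_lit 362)) (XT.lf (nat_lit 0) (nat_lit 1000266933) (nat_lit 1444) (nat_lit 1730422556) (nat_lit 1520) (nat_lit 4213640816) (nat_lit 533) (nat_lit 5) (nat_lit 552) (nat_lit 5) (nat_lit 553) (nat_lit 5) (nat_lit 412) (nat_lit 367) (nat_lit 361)))))) (XT.nd (nat_lit 468) (nat_lit 4332) (nat_lit 0) (XT.nd (nat_lit 234) (nat_lit 3572) (nat_lit 0) (XT.nd (nat_lit 78) (nat_lit 3192) (nat_lit 0) (XT.lf (nat_lit 0) (nat_lit 5802441107) (nat_lit 1444) (nat_lit 152574221) (nat_lit 1520) (nat_lit 1023232312) (nat_lit 533) (nat_lit 5) (nat_lit 552) (nat_lit 5) (nat_lit 553) (nat_lit 5) (nat_lit 413) (nat_lit 367) (nat_lit 360)) (XT.nd (nat_lit 78) (nat_lit 1596) (nat_lit 0) (XT.lf (nat_lit 0) (nat_lit 2169839086) (nat_lit 1596) (nat_lit 3362130862) (nat_lit 76) (nat_lit 1481240720) (nat_lit 512) (nat_lit 5) (nat_lit 533) (nat_lit 5) (nat_lit 513) (nat_lit 5) (nat_lit 414) (nat_lit 367) (nat_lit 359)) (XT.lf (nat_lit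 0) (nat_lit 1492190815) (nat_lit 1596) (nat_lit 3875056775) (nat_lit 1672) (nat_lit 1682425516) (nat_lit 491) (nat_lit 5) (nat_lit 512) (nat_lit 5) (nat_lit 513) (nat_lit 5) (nat_lit 415) (nat_lit 367) (nat_lit 358)))) (XT.nd (nat_lit 78) (nat_lit 3496) (nat_lit 0) (XT.lf (nat_lit 0) (nat_lit 1480182564) (nat_lit 1672) (nat_lit 669133355) (nat_lit 76) (nat_lit 4938193628) (nat_lit 490) (nat_lit 5) (nat_lit 512) (nat_lit 5) (nat_lit 491) (nat_lit 5) (nat_lit 416) (nat_lit 367) (nat_lit 357)) (XT.nd (nat_lit 78) (nat_lit 1824) (nat_lit 0) (XT.lf (nat_lit 0) (nat_lit 4301735288) (nat_lit 1672) (nat_lit 346938655) (nat_lit 1748) (nat_lit 2477921044) (nat_lit 468) (nat_lit 5) (nat_lit 490) (nat_lit 5) (nat_lit 491) (nat_lit 5) (nat_lit 417) (nat_lit 367) (nat_lit 356)) (XT.lf (nat_lit 0) (nat_lit 670834940) (nat_lit 1824) (nat_lit 4999466041) (nat_lit 76) (nat_lit 1496763057) (nat_lit 444) (nat_lit 5) (nat_lit 468) (nat_lit 5) (nat_lit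 445) (nat_lit 5) (nat_lit 418) (nat_lit 367) (nat_lit 355))))) (XT.nd (nat_lit 234) (nat_lit 1900) (nat_lit 0) (XT.nd (nat_lit 78) (nat_lit 988) (nat_lit 0) (XT.lf (nat_lit 0) (nat_lit 9702841) (nat_lit 1444) (nat_lit 3799614822) (nat_lit 1520) (nat_lit 3399515440) (nat_lit 425) (nat_lit 5) (nat_lit 444) (nat_lit 5) (nat_lit 445) (nat_lit 5) (nat_lit 419) (nat_lit 367) (nat_lit 354)) (XT.nd (nat_lit 78) (nat_lit 988) (nat_lit 0) (XT.lf (nat_lit 0) (nat_lit 5125406503) (nat_lit 1444) (nat_lit 1857978065) (nat_lit 1520) (nat_lit 268613193) (nat_lit 425) (nat_lit 5) (nat_lit 444) (nat_lit 5) (nat_lit 445) (nat_lit 5) (nat_lit 420) (nat_lit 367) (nat_lit 353)) (XT.lf (nat_lit 0) (nat_lit 2847158109) (nat_lit 988) (nat_lit 4290696775) (nat_lit 76) (nat_lit 158594646) (nat_lit 412) (nat_lit 5) (nat_lit 425) (nat_lit 5) (nat_lit 413) (nat_lit 5) (nat_lit 421) (nat_lit 367) (nat_lit 352)))) (XT.nd (nat_lit 78) (nat_lit 988) (nat_lit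 0) (XT.lf (nat_lit 0) (nat_lit 863396842) (nat_lit 912) (nat_lit 5131348495) (nat_lit 988) (nat_lit 1347563095) (nat_lit 400) (nat_lit 5) (nat_lit 412) (nat_lit 5) (nat_lit 413) (nat_lit 5) (nat_lit 422) (nat_lit 367) (nat_lit 351)) (XT.nd (nat_lit 78) (nat_lit 912) (nat_lit 0) (XT.lf (nat_lit 0) (nat_lit 1762541894) (nat_lit 988) (nat_lit 1283961536) (nat_lit 76) (nat_lit 4342956950) (nat_lit 399) (nat_lit 5) (nat_lit 412) (nat_lit 5) (nat_lit 400) (nat_lit 5) (nat_lit 423) (nat_lit 367) (nat_lit 350)) (XT.lf (nat_lit 0) (nat_lit 3997405558) (nat_lit 912) (nat_lit 887701966) (nat_lit 988) (nat_lit 2552918302) (nat_lit 387) (nat_lit 5) (nat_lit 399) (nat_lit 5) (nat_lit 400) (nat_lit 5) (nat_lit 424) (nat_lit 367) (nat_lit 349))))))))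
noncomputable def xc56 : XT := (XT.nd (nat_lit 1794) (nat_lit 7372) (nat_lit 0) (XT.nd (nat_lit 858) (nat_lit 5776) (nat_lit 0) (XT.nd (nat_lit 390) (nat_lit 3116) (nat_lit 0) (XT.nd (nat_lit 156) (nat_lit 2432) (nat_lit 0) (XT.nd (nat_lit 78) (nat_lit 0) (nat_lit 0) (XT.lf (nat_lit 0) (nat_lit 547108420) (nat_lit 912) (nat_lit 5623109884) (nat_lit 76) (nat_lit 1317838975) (nat_lit 375) (nat_lit 5) (nat_lit 387) (nat_lit 5) (nat_lit 376) (nat_lit 5) (nat_lit 425) (nat_lit 367) (nat_lit 348)) (XT.lf (nat_lit 0) (nat_lit 3647481969) (nat_lit 912) (nat_lit 300373871) (nat_lit 76) (nat_lit 3591459236) (nat_lit 375) (nat_lit 5) (nat_lit 387) (nat_lit 5) (nat_lit 376) (nat_lit 5) (nat_lit 426) (nat_lit 367) (nat_lit 347))) (XT.nd (nat_lit 78) (nat_lit 1596) (nat_lit 0) (XT.lf (nat_lit 0) (nat_lit 5135311774) (nat_lit 836) (nat_lit 1652381120) (nat_lit 912) (nat_lit 804362075) (nat_lit 364) (nat_lit 5) (nat_lit 375) (nat_lit 5) (nat_lit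 376) (nat_lit 5) (nat_lit 427) (nat_lit 367) (nat_lit 346)) (XT.nd (nat_lit 78) (nat_lit 760) (nat_lit 0) (XT.lf (nat_lit 0) (nat_lit 2285103559) (nat_lit 836) (nat_lit 4650018322) (nat_lit 76) (nat_lit 711016336) (nat_lit 353) (nat_lit 5) (nat_lit 364) (nat_lit 5) (nat_lit 354) (nat_lit 5) (nat_lit 428) (nat_lit 367) (nat_lit 345)) (XT.lf (nat_lit 0) (nat_lit 822921316) (nat_lit 760) (nat_lit 4581012416) (nat_lit 836) (nat_lit 2297708906) (nat_lit 343) (nat_lit 5) (nat_lit 353) (nat_lit 5) (nat_lit 354) (nat_lit 5) (nat_lit 429) (nat_lit 367) (nat_lit 344))))) (XT.nd (nat_lit 234) (nat_lit 1520) (nat_lit 0) (XT.nd (nat_lit 78) (nat_lit 1520) (nat_lit 0) (XT.lf (nat_lit 0) (nat_lit 793205218) (nat_lit 836) (nat_lit 1357043661) (nat_lit 76) (nat_lit 5608369823) (nat_lit 342) (nat_lit 5) (nat_lit 353) (nat_lit 5) (nat_lit 343) (nat_lit 5) (nat_lit 430) (nat_lit 367) (nat_lit 343)) (XT.nd (nat_lit 78) (nat_lit 760) (nat_lit 0)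 (XT.lf (nat_lit 0) (nat_lit 3892013850) (nat_lit 836) (nat_lit 3564639189) (nat_lit 76) (nat_lit 360252663) (nat_lit 332) (nat_lit 5) (nat_lit 343) (nat_lit 5) (nat_lit 333) (nat_lit 5) (nat_lit 431) (nat_lit 367) (nat_lit 342)) (XT.lf (nat_lit 0) (nat_lit 2067216198) (nat_lit 760) (nat_lit 4969827853) (nat_lit 836) (nat_lit 839641269) (nat_lit 322) (nat_lit 5) (nat_lit 332) (nat_lit 5) (nat_lit 333) (nat_lit 5) (nat_lit 432) (nat_lit 367) (nat_lit 341)))) (XT.nd (nat_lit 78) (nat_lit 1444) (nat_lit 0) (XT.lf (nat_lit 0) (nat_lit 2248827754) (nat_lit 836) (nat_lit 154171161) (nat_lit 76) (nat_lit 5534937845) (nat_lit 321) (nat_lit 5) (nat_lit 332) (nat_lit 5) (nat_lit 322) (nat_lit 5) (nat_lit 433) (nat_lit 367) (nat_lit 340)) (XT.nd (nat_lit 78) (nat_lit 760) (nat_lit 0) (XT.lf (nat_lit 0) (nat_lit 5374669365) (nat_lit 760) (nat_lit 2380486032) (nat_lit 76) (nat_lit 245421017) (nat_lit 312) (nat_lit 5) (nat_lit 322) (nat_lit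 5) (nat_lit 313) (nat_lit 5) (nat_lit 434) (nat_lit 367) (nat_lit 339)) (XT.lf (nat_lit 0) (nat_lit 480333930) (nat_lit 760) (nat_lit 4652751604) (nat_lit 76) (nat_lit 2931562989) (nat_lit 302) (nat_lit 5) (nat_lit 312) (nat_lit 5) (nat_lit 303) (nat_lit 5) (nat_lit 435) (nat_lit 367) (nat_lit 338)))))) (XT.nd (nat_lit 468) (nat_lit 3040) (nat_lit 0) (XT.nd (nat_lit 234) (nat_lit 1292) (nat_lit 0) (XT.nd (nat_lit 78) (nat_lit 760) (nat_lit 0) (XT.lf (nat_lit 0) (nat_lit 1158910330) (nat_lit 684) (nat_lit 2427795808) (nat_lit 760) (nat_lit 4543495909) (nat_lit 293) (nat_lit 5) (nat_lit 302) (nat_lit 5) (nat_lit 303) (nat_lit 5) (nat_lit 436) (nat_lit 367) (nat_lit 337)) (XT.nd (nat_lit 78) (nat_lit 760) (nat_lit 0) (XT.lf (nat_lit 0) (nat_lit 6738837880) (nat_lit 760) (nat_lit 1110963579) (nat_lit 76) (nat_lit 347602802) (nat_lit 293) (nat_lit 5) (nat_lit 303) (nat_lit 5) (nat_lit 294) (nat_lit 5) (nat_lit 437) (nat_lit 367)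 (nat_lit 336)) (XT.lf (nat_lit 0) (nat_lit 1664521905) (nat_lit 760) (nat_lit 3423613796) (nat_lit 76) (nat_lit 3177633491) (nat_lit 283) (nat_lit 5) (nat_lit 293) (nat_lit 5) (nat_lit 284) (nat_lit 5) (nat_lit 438) (nat_lit 367) (nat_lit 335)))) (XT.nd (nat_lit 78) (nat_lit 684) (nat_lit 0) (XT.lf (nat_lit 0) (nat_lit 2556790657) (nat_lit 608) (nat_lit 2249141251) (nat_lit 684) (nat_lit 3529878557) (nat_lit 275) (nat_lit 5) (nat_lit 283) (nat_lit 5) (nat_lit 284) (nat_lit 5) (nat_lit 439) (nat_lit 367) (nat_lit 334)) (XT.nd (nat_lit 78) (nat_lit 76) (nat_lit 0) (XT.lf (nat_lit 0) (nat_lit 233563725) (nat_lit 608) (nat_lit 7757195023) (nat_lit 684) (nat_lit 416891521) (nat_lit 267) (nat_lit 5) (nat_lit 275) (nat_lit 5) (nat_lit 276) (nat_lit 5) (nat_lit 440) (nat_lit 367) (nat_lit 333)) (XT.lf (nat_lit 0) (nat_lit 2728082343) (nat_lit 684) (nat_lit 2130286504) (nat_lit 76) (nat_lit 3622090883) (nat_lit 266) (nat_lit 5) (nat_lit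 275) (nat_lit 5) (nat_lit 267) (nat_lit 5) (nat_lit 441) (nat_lit 367) (nat_lit 332))))) (XT.nd (nat_lit 234) (nat_lit 1748) (nat_lit 0) (XT.nd (nat_lit 78) (nat_lit 684) (nat_lit 0) (XT.lf (nat_lit 0) (nat_lit 4023804096) (nat_lit 608) (nat_lit 1885612926) (nat_lit 684) (nat_lit 2645681307) (nat_lit 258) (nat_lit 5) (nat_lit 266) (nat_lit 5) (nat_lit 267) (nat_lit 5) (nat_lit 442) (nat_lit 367) (nat_lit 331)) (XT.nd (nat_lit 78) (nat_lit 0) (nat_lit 0) (XT.lf (nat_lit 0) (nat_lit 502102804) (nat_lit 684) (nat_lit 6982837238) (nat_lit 76) (nat_lit 1146514005) (nat_lit 249) (nat_lit 5) (nat_lit 258) (nat_lit 5) (nat_lit 250) (nat_lit 5) (nat_lit 443) (nat_lit 367) (nat_lit 330)) (XT.lf (nat_lit 0) (nat_lit 3674110092) (nat_lit 684) (nat_lit 786663676) (nat_lit 76) (nat_lit 4248287905) (nat_lit 249) (nat_lit 5) (nat_lit 258) (nat_lit 5) (nat_lit 250) (nat_lit 5) (nat_lit 444) (nat_lit 367) (nat_lit 329)))) (XT.nd (nat_lit 78)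 (nat_lit 1216) (nat_lit 0) (XT.lf (nat_lit 0) (nat_lit 5546098933) (nat_lit 532) (nat_lit 1353941866) (nat_lit 608) (nat_lit 1888379239) (nat_lit 242) (nat_lit 5) (nat_lit 249) (nat_lit 5) (nat_lit 250) (nat_lit 5) (nat_lit 445) (nat_lit 367) (nat_lit 328)) (XT.nd (nat_lit 78) (nat_lit 532) (nat_lit 0) (XT.lf (nat_lit 0) (nat_lit 1295948489) (nat_lit 684) (nat_lit 5762585195) (nat_lit 76) (nat_lit 1810825251) (nat_lit 233) (nat_lit 5) (nat_lit 242) (nat_lit 5) (nat_lit 234) (nat_lit 5) (nat_lit 446) (nat_lit 367) (nat_lit 327)) (XT.lf (nat_lit 0) (nat_lit 600886393) (nat_lit 532) (nat_lit 3907659726) (nat_lit 608) (nat_lit 4443331248) (nat_lit 226) (nat_lit 5) (nat_lit 233) (nat_lit 5) (nat_lit 234) (nat_lit 5) (nat_lit 447) (nat_lit 367) (nat_lit 326))))))) (XT.nd (nat_lit 858) (nat_lit 3724) (nat_lit 0) (XT.nd (nat_lit 390) (nat_lit 1976) (nat_lit 0) (XT.nd (nat_lit 156) (nat_lit 1064) (nat_lit 0) (XT.nd (nat_lit 78) (nat_lit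 608) (nat_lit 0) (XT.lf (nat_lit 0) (nat_lit 7109442630) (nat_lit 532) (nat_lit 670187909) (nat_lit 608) (nat_lit 1256538555) (nat_lit 226) (nat_lit 5) (nat_lit 233) (nat_lit 5) (nat_lit 234) (nat_lit 5) (nat_lit 448) (nat_lit 367) (nat_lit 325)) (XT.lf (nat_lit 0) (nat_lit 1971205246) (nat_lit 608) (nat_lit 4525560363) (nat_lit 76) (nat_lit 2625062112) (nat_lit 218) (nat_lit 5) (nat_lit 226) (nat_lit 5) (nat_lit 219) (nat_lit 5) (nat_lit 449) (nat_lit 367) (nat_lit 324))) (XT.nd (nat_lit 78) (nat_lit 608) (nat_lit 0) (XT.lf (nat_lit 0) (nat_lit 2020466097) (nat_lit 456) (nat_lit 3213311748) (nat_lit 532) (nat_lit 3975520767) (nat_lit 212) (nat_lit 5) (nat_lit 218) (nat_lit 5) (nat_lit 219) (nat_lit 5) (nat_lit 450) (nat_lit 367) (nat_lit 323)) (XT.nd (nat_lit 78) (nat_lit 608) (nat_lit 0) (XT.lf (nat_lit 0) (nat_lit 8549922376) (nat_lit 532) (nat_lit 600684876) (nat_lit 76) (nat_lit 148152300) (nat_lit 212) (nat_lit 5) (nat_lit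 219) (nat_lit 5) (nat_lit 213) (nat_lit 5) (nat_lit 451) (nat_lit 367) (nat_lit 322)) (XT.lf (nat_lit 0) (nat_lit 2527876278) (nat_lit 608) (nat_lit 3287339934) (nat_lit 76) (nat_lit 3574093333) (nat_lit 204) (nat_lit 5) (nat_lit 212) (nat_lit 5) (nat_lit 205) (nat_lit 5) (nat_lit 452) (nat_lit 367) (nat_lit 321))))) (XT.nd (nat_lit 234) (nat_lit 988) (nat_lit 0) (XT.nd (nat_lit 78) (nat_lit 532) (nat_lit 0) (XT.lf (nat_lit 0) (nat_lit 3445998771) (nat_lit 456) (nat_lit 2398416521) (nat_lit 532) (nat_lit 3637476522) (nat_lit 198) (nat_lit 5) (nat_lit 204) (nat_lit 5) (nat_lit 205) (nat_lit 5) (nat_lit 453) (nat_lit 367) (nat_lit 320)) (XT.nd (nat_lit 78) (nat_lit 76) (nat_lit 0) (XT.lf (nat_lit 0) (nat_lit 725213759) (nat_lit 456) (nat_lit 8494248776) (nat_lit 532) (nat_lit 357026150) (nat_lit 192) (nat_lit 5) (nat_lit 198) (nat_lit 5) (nat_lit 199) (nat_lit 5) (nat_lit 454) (nat_lit 367) (nat_lit 319)) (XT.lf (nat_lit 0) (nat_lit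 2964848353) (nat_lit 532) (nat_lit 2064307757) (nat_lit 76) (nat_lit 4643139165) (nat_lit 191) (nat_lit 5) (nat_lit 198) (nat_lit 5) (nat_lit 192) (nat_lit 5) (nat_lit 455) (nat_lit 367) (nat_lit 318)))) (XT.nd (nat_lit 78) (nat_lit 532) (nat_lit 0) (XT.lf (nat_lit 0) (nat_lit 4861020261) (nat_lit 456) (nat_lit 1478102416) (nat_lit 532) (nat_lit 3431039396) (nat_lit 185) (nat_lit 5) (nat_lit 191) (nat_lit 5) (nat_lit 192) (nat_lit 5) (nat_lit 456) (nat_lit 367) (nat_lit 317)) (XT.nd (nat_lit 78) (nat_lit 76) (nat_lit 0) (XT.lf (nat_lit 0) (nat_lit 2036750532) (nat_lit 456) (nat_lit 7744702446) (nat_lit 532) (nat_lit 88527828) (nat_lit 179) (nat_lit 5) (nat_lit 185) (nat_lit 5) (nat_lit 186) (nat_lit 5) (nat_lit 457) (nat_lit 367) (nat_lit 316)) (XT.lf (nat_lit 0) (nat_lit 3279854628) (nat_lit 532) (nat_lit 873831194) (nat_lit 76) (nat_lit 5817633169) (nat_lit 178) (nat_lit 5) (nat_lit 185) (nat_lit 5) (nat_lit 179) (nat_lit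 5) (nat_lit 458) (nat_lit 367) (nat_lit 315)))))) (XT.nd (nat_lit 468) (nat_lit 1596) (nat_lit 0) (XT.nd (nat_lit 234) (nat_lit 836) (nat_lit 0) (XT.nd (nat_lit 78) (nat_lit 912) (nat_lit 0) (XT.lf (nat_lit 0) (nat_lit 6248043619) (nat_lit 380) (nat_lit 467359106) (nat_lit 456) (nat_lit 3359255507) (nat_lit 173) (nat_lit 5) (nat_lit 178) (nat_lit 5) (nat_lit 179) (nat_lit 5) (nat_lit 459) (nat_lit 367) (nat_lit 314)) (XT.nd (nat_lit 78) (nat_lit 380) (nat_lit 0) (XT.lf (nat_lit 0) (nat_lit 48590516) (nat_lit 532) (nat_lit 6872337598) (nat_lit 76) (nat_lit 3258946202) (nat_lit 166) (nat_lit 5) (nat_lit 173) (nat_lit 5) (nat_lit 167) (nat_lit 5) (nat_lit 460) (nat_lit 367) (nat_lit 313)) (XT.lf (nat_lit 0) (nat_lit 269078658) (nat_lit 380) (nat_lit 3202095686) (nat_lit 456) (nat_lit 6815750394) (nat_lit 161) (nat_lit 5) (nat_lit 166) (nat_lit 5) (nat_lit 167) (nat_lit 5) (nat_lit 461) (nat_lit 367) (nat_lit 312)))) (XT.nd (nat_lit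 78) (nat_lit 836) (nat_lit 0) (XT.lf (nat_lit 0) (nat_lit 6973563873) (nat_lit 456) (nat_lit 2811627190) (nat_lit 76) (nat_lit 610703257) (nat_lit 161) (nat_lit 5) (nat_lit 167) (nat_lit 5) (nat_lit 162) (nat_lit 5) (nat_lit 462) (nat_lit 367) (nat_lit 311)) (XT.nd (nat_lit 78) (nat_lit 380) (nat_lit 0) (XT.lf (nat_lit 0) (nat_lit 50927948) (nat_lit 456) (nat_lit 5987972918) (nat_lit 76) (nat_lit 4467892782) (nat_lit 155) (nat_lit 5) (nat_lit 161) (nat_lit 5) (nat_lit 156) (nat_lit 5) (nat_lit 463) (nat_lit 367) (nat_lit 310)) (XT.lf (nat_lit 0) (nat_lit 1351645574) (nat_lit 380) (nat_lit 2185969780) (nat_lit 456) (nat_lit 7082052327) (nat_lit 150) (nat_lit 5) (nat_lit 155) (nat_lit 5) (nat_lit 156) (nat_lit 5) (nat_lit 464) (nat_lit 367) (nat_lit 309))))) (XT.nd (nat_lit 234) (nat_lit 760) (nat_lit 0) (XT.nd (nat_lit 78) (nat_lit 836) (nat_lit 0) (XT.lf (nat_lit 0) (nat_lit 7108031212) (nat_lit 456) (nat_lit 1884358324) (nat_lit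 76) (nat_lit 1742134600) (nat_lit 150) (nat_lit 5) (nat_lit 156) (nat_lit 5) (nat_lit 151) (nat_lit 5) (nat_lit 465) (nat_lit 367) (nat_lit 308)) (XT.nd (nat_lit 78) (nat_lit 456) (nat_lit 0) (XT.lf (nat_lit 0) (nat_lit 5649738353) (nat_lit 380) (nat_lit 5114239044) (nat_lit 456) (nat_lit 87422623) (nat_lit 145) (nat_lit 5) (nat_lit 150) (nat_lit 5) (nat_lit 151) (nat_lit 5) (nat_lit 466) (nat_lit 367) (nat_lit 307)) (XT.lf (nat_lit 0) (nat_lit 2340458994) (nat_lit 380) (nat_lit 1126772901) (nat_lit 456) (nat_lit 7503108681) (nat_lit 139) (nat_lit 5) (nat_lit 144) (nat_lit 5) (nat_lit 145) (nat_lit 5) (nat_lit 467) (nat_lit 367) (nat_lit 306)))) (XT.nd (nat_lit 78) (nat_lit 760) (nat_lit 0) (XT.lf (nat_lit 0) (nat_lit 7109340249) (nat_lit 456) (nat_lit 1064144396) (nat_lit 76) (nat_lit 2917817581) (nat_lit 139) (nat_lit 5) (nat_lit 145) (nat_lit 5) (nat_lit 140) (nat_lit 5) (nat_lit 468) (nat_lit 367) (nat_lit 305)) (XT.nd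 (nat_lit 78) (nat_lit 380) (nat_lit 0) (XT.lf (nat_lit 0) (nat_lit 6676923230) (nat_lit 380) (nat_lit 4162202078) (nat_lit 456) (nat_lit 375265488) (nat_lit 134) (nat_lit 5) (nat_lit 139) (nat_lit 5) (nat_lit 140) (nat_lit 5) (nat_lit 469) (nat_lit 367) (nat_lit 304)) (XT.lf (nat_lit 0) (nat_lit 3211863357) (nat_lit 304) (nat_lit 40541431) (nat_lit 380) (nat_lit 8087268246) (nat_lit 129) (nat_lit 5) (nat_lit 133) (nat_lit 5) (nat_lit 134) (nat_lit 5) (nat_lit 470) (nat_lit 367) (nat_lit 303))))))))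
noncomputable def xc57 : XT := (XT.nd (nat_lit 1794) (nat_lit 1900) (nat_lit 0) (XT.nd (nat_lit 858) (nat_lit 2280) (nat_lit 0) (XT.nd (nat_lit 390) (nat_lit 1368) (nat_lit 0) (XT.nd (nat_lit 156) (nat_lit 684) (nat_lit 0) (XT.nd (nat_lit 78) (nat_lit 380) (nat_lit 0) (XT.lf (nat_lit 0) (nat_lit 6969625380) (nat_lit 380) (nat_lit 375300352) (nat_lit 76) (nat_lit 4122049267) (nat_lit 129) (nat_lit 5) (nat_lit 134) (nat_lit 5) (nat_lit 130) (nat_lit 5) (nat_lit 471) (nat_lit 367) (nat_lit 302)) (XT.lf (nat_lit 0) (nat_lit 7576041543) (nat_lit 380) (nat_lit 3199639374) (nat_lit 456) (nat_lit 820856320) (nat_lit 124) (nat_lit 5) (nat_lit 129) (nat_lit 5) (nat_lit 130) (nat_lit 5) (nat_lit 472) (nat_lit 367) (nat_lit 301))) (XT.nd (nat_lit 78) (nat_lit 304) (nat_lit 0) (XT.lf (nat_lit 0) (nat_lit 2890852824) (nat_lit 380) (nat_lit 7795222503) (nat_lit 76) (nat_lit 1042236869) (nat_lit 119) (nat_lit 5) (nat_lit 124) (nat_lit 5) (nat_lit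 120) (nat_lit 5) (nat_lit 473) (nat_lit 367) (nat_lit 300)) (XT.nd (nat_lit 78) (nat_lit 0) (nat_lit 0) (XT.lf (nat_lit 0) (nat_lit 157715888) (nat_lit 304) (nat_lit 6522793380) (nat_lit 380) (nat_lit 5181814592) (nat_lit 115) (nat_lit 5) (nat_lit 119) (nat_lit 5) (nat_lit 120) (nat_lit 5) (nat_lit 474) (nat_lit 367) (nat_lit 299)) (XT.lf (nat_lit 0) (nat_lit 8320134485) (nat_lit 304) (nat_lit 2243777808) (nat_lit 380) (nat_lit 1434748134) (nat_lit 115) (nat_lit 5) (nat_lit 119) (nat_lit 5) (nat_lit 120) (nat_lit 5) (nat_lit 475) (nat_lit 367) (nat_lit 298))))) (XT.nd (nat_lit 234) (nat_lit 684) (nat_lit 0) (XT.nd (nat_lit 78) (nat_lit 304) (nat_lit 0) (XT.lf (nat_lit 0) (nat_lit 2365169139) (nat_lit 380) (nat_lit 7654502516) (nat_lit 76) (nat_lit 2117561290) (nat_lit 110) (nat_lit 5) (nat_lit 115) (nat_lit 5) (nat_lit 111) (nat_lit 5) (nat_lit 476) (nat_lit 367) (nat_lit 297)) (XT.nd (nat_lit 78) (nat_lit 0) (nat_lit 0) (XT.lf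 (nat_lit 0) (nat_lit 506310001) (nat_lit 304) (nat_lit 5724845386) (nat_lit 380) (nat_lit 6047049739) (nat_lit 106) (nat_lit 5) (nat_lit 110) (nat_lit 5) (nat_lit 111) (nat_lit 5) (nat_lit 477) (nat_lit 367) (nat_lit 296)) (XT.lf (nat_lit 0) (nat_lit 8879660209) (nat_lit 304) (nat_lit 1312743713) (nat_lit 380) (nat_lit 2229237427) (nat_lit 106) (nat_lit 5) (nat_lit 110) (nat_lit 5) (nat_lit 111) (nat_lit 5) (nat_lit 478) (nat_lit 367) (nat_lit 295)))) (XT.nd (nat_lit 78) (nat_lit 304) (nat_lit 0) (XT.lf (nat_lit 0) (nat_lit 1662447504) (nat_lit 380) (nat_lit 7737065790) (nat_lit 76) (nat_lit 3167833082) (nat_lit 101) (nat_lit 5) (nat_lit 106) (nat_lit 5) (nat_lit 102) (nat_lit 5) (nat_lit 479) (nat_lit 367) (nat_lit 294)) (XT.nd (nat_lit 78) (nat_lit 0) (nat_lit 0) (XT.lf (nat_lit 0) (nat_lit 633220649) (nat_lit 304) (nat_lit 4972831549) (nat_lit 380) (nat_lit 7109543141) (nat_lit 97) (nat_lit 5) (nat_lit 101) (nat_lit 5) (nat_lit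 102) (nat_lit 5) (nat_lit 480) (nat_lit 367) (nat_lit 293)) (XT.lf (nat_lit 0) (nat_lit 9222166091) (nat_lit 304) (nat_lit 425754836) (nat_lit 380) (nat_lit 3218503705) (nat_lit 97) (nat_lit 5) (nat_lit 101) (nat_lit 5) (nat_lit 102) (nat_lit 5) (nat_lit 481) (nat_lit 367) (nat_lit 292)))))) (XT.nd (nat_lit 468) (nat_lit 1064) (nat_lit 0) (XT.nd (nat_lit 234) (nat_lit 608) (nat_lit 0) (XT.nd (nat_lit 78) (nat_lit 304) (nat_lit 0) (XT.lf (nat_lit 0) (nat_lit 768138276) (nat_lit 304) (nat_lit 8077705291) (nat_lit 76) (nat_lit 4173780119) (nat_lit 93) (nat_lit 5) (nat_lit 97) (nat_lit 5) (nat_lit 94) (nat_lit 5) (nat_lit 482) (nat_lit 367) (nat_lit 291)) (XT.nd (nat_lit 78) (nat_lit 0) (nat_lit 0) (XT.lf (nat_lit 0) (nat_lit 502962172) (nat_lit 304) (nat_lit 4287245441) (nat_lit 380) (nat_lit 8385280820) (nat_lit 89) (nat_lit 5) (nat_lit 93) (nat_lit 5) (nat_lit 94) (nat_lit 5) (nat_lit 483) (nat_lit 367) (nat_lit 290)) (XT.lf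 (nat_lit 0) (nat_lit 8917831123) (nat_lit 380) (nat_lit 4024668303) (nat_lit 76) (nat_lit 391471740) (nat_lit 89) (nat_lit 5) (nat_lit 94) (nat_lit 5) (nat_lit 90) (nat_lit 5) (nat_lit 484) (nat_lit 367) (nat_lit 289)))) (XT.nd (nat_lit 78) (nat_lit 380) (nat_lit 0) (XT.lf (nat_lit 0) (nat_lit 4778158498) (nat_lit 228) (nat_lit 8378081974) (nat_lit 304) (nat_lit 338821303) (nat_lit 86) (nat_lit 5) (nat_lit 89) (nat_lit 5) (nat_lit 90) (nat_lit 5) (nat_lit 485) (nat_lit 367) (nat_lit 288)) (XT.nd (nat_lit 78) (nat_lit 0) (nat_lit 0) (XT.lf (nat_lit 0) (nat_lit 76449947) (nat_lit 304) (nat_lit 3690061048) (nat_lit 380) (nat_lit 9892438579) (nat_lit 81) (nat_lit 5) (nat_lit 85) (nat_lit 5) (nat_lit 86) (nat_lit 5) (nat_lit 486) (nat_lit 367) (nat_lit 287)) (XT.lf (nat_lit 0) (nat_lit 7984408050) (nat_lit 380) (nat_lit 4723307257) (nat_lit 76) (nat_lit 1117657853) (nat_lit 81) (nat_lit 5) (nat_lit 86) (nat_lit 5) (nat_lit 82) (nat_lit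 5) (nat_lit 487) (nat_lit 367) (nat_lit 286))))) (XT.nd (nat_lit 234) (nat_lit 532) (nat_lit 0) (XT.nd (nat_lit 78) (nat_lit 304) (nat_lit 0) (XT.lf (nat_lit 0) (nat_lit 4293497562) (nat_lit 228) (nat_lit 8015106775) (nat_lit 304) (nat_lit 1686084725) (nat_lit 78) (nat_lit 5) (nat_lit 81) (nat_lit 5) (nat_lit 82) (nat_lit 5) (nat_lit 488) (nat_lit 367) (nat_lit 285)) (XT.nd (nat_lit 78) (nat_lit 228) (nat_lit 0) (XT.lf (nat_lit 0) (nat_lit 2520019830) (nat_lit 304) (nat_lit 680382535) (nat_lit 76) (nat_lit 10966628207) (nat_lit 77) (nat_lit 5) (nat_lit 81) (nat_lit 5) (nat_lit 78) (nat_lit 5) (nat_lit 489) (nat_lit 367) (nat_lit 284)) (XT.lf (nat_lit 0) (nat_lit 6825040908) (nat_lit 304) (nat_lit 5781899607) (nat_lit 76) (nat_lit 1734910591) (nat_lit 74) (nat_lit 5) (nat_lit 78) (nat_lit 5) (nat_lit 75) (nat_lit 5) (nat_lit 490) (nat_lit 367) (nat_lit 283)))) (XT.nd (nat_lit 78) (nat_lit 304) (nat_lit 0) (XT.lf (nat_lit 0)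 (nat_lit 3447603459) (nat_lit 228) (nat_lit 7787139889) (nat_lit 304) (nat_lit 3285055548) (nat_lit 71) (nat_lit 5) (nat_lit 74) (nat_lit 5) (nat_lit 75) (nat_lit 5) (nat_lit 491) (nat_lit 367) (nat_lit 282)) (XT.nd (nat_lit 78) (nat_lit 228) (nat_lit 0) (XT.lf (nat_lit 0) (nat_lit 1027327780) (nat_lit 304) (nat_lit 1818098555) (nat_lit 76) (nat_lit 11855557362) (nat_lit 70) (nat_lit 5) (nat_lit 74) (nat_lit 5) (nat_lit 71) (nat_lit 5) (nat_lit 492) (nat_lit 367) (nat_lit 281)) (XT.lf (nat_lit 0) (nat_lit 5417314518) (nat_lit 304) (nat_lit 7249573923) (nat_lit 76) (nat_lit 2217764938) (nat_lit 67) (nat_lit 5) (nat_lit 71) (nat_lit 5) (nat_lit 68) (nat_lit 5) (nat_lit 493) (nat_lit 367) (nat_lit 280))))))) (XT.nd (nat_lit 936) (nat_lit 304) (nat_lit 0) (XT.nd (nat_lit 468) (nat_lit 608) (nat_lit 0) (XT.nd (nat_lit 234) (nat_lit 456) (nat_lit 0) (XT.nd (nat_lit 78) (nat_lit 304) (nat_lit 0) (XT.lf (nat_lit 0) (nat_lit 2190204462)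 (nat_lit 228) (nat_lit 7721397360) (nat_lit 304) (nat_lit 5160066894) (nat_lit 64) (nat_lit 5) (nat_lit 67) (nat_lit 5) (nat_lit 68) (nat_lit 5) (nat_lit 494) (nat_lit 367) (nat_lit 279)) (XT.nd (nat_lit 78) (nat_lit 304) (nat_lit 0) (XT.lf (nat_lit 0) (nat_lit 11867566823) (nat_lit 228) (nat_lit 2648256312) (nat_lit 304) (nat_lit 746202493) (nat_lit 64) (nat_lit 5) (nat_lit 67) (nat_lit 5) (nat_lit 68) (nat_lit 5) (nat_lit 495) (nat_lit 367) (nat_lit 278)) (XT.lf (nat_lit 0) (nat_lit 3736001479) (nat_lit 304) (nat_lit 9180625588) (nat_lit 76) (nat_lit 2538490596) (nat_lit 60) (nat_lit 5) (nat_lit 64) (nat_lit 5) (nat_lit 61) (nat_lit 5) (nat_lit 496) (nat_lit 367) (nat_lit 277)))) (XT.nd (nat_lit 78) (nat_lit 304) (nat_lit 0) (XT.lf (nat_lit 0) (nat_lit 465700658) (nat_lit 152) (nat_lit 7847535061) (nat_lit 228) (nat_lit 7338431718) (nat_lit 58) (nat_lit 5) (nat_lit 60) (nat_lit 5) (nat_lit 61) (nat_lit 5) (nat_lit 497) (nat_lit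 367) (nat_lit 276)) (XT.nd (nat_lit 78) (nat_lit 304) (nat_lit 0) (XT.lf (nat_lit 0) (nat_lit 10380726393) (nat_lit 152) (nat_lit 2635007775) (nat_lit 228) (nat_lit 2835741711) (nat_lit 58) (nat_lit 5) (nat_lit 60) (nat_lit 5) (nat_lit 61) (nat_lit 5) (nat_lit 498) (nat_lit 367) (nat_lit 275)) (XT.lf (nat_lit 0) (nat_lit 1752790854) (nat_lit 304) (nat_lit 11635096633) (nat_lit 76) (nat_lit 2666790191) (nat_lit 54) (nat_lit 5) (nat_lit 58) (nat_lit 5) (nat_lit 55) (nat_lit 5) (nat_lit 499) (nat_lit 367) (nat_lit 274))))) (XT.nd (nat_lit 234) (nat_lit 228) (nat_lit 0) (XT.nd (nat_lit 78) (nat_lit 380) (nat_lit 0) (XT.lf (nat_lit 0) (nat_lit 6422137124) (nat_lit 304) (nat_lit 1763991641) (nat_lit 76) (nat_lit 8074901534) (nat_lit 54) (nat_lit 5) (nat_lit 58) (nat_lit 5) (nat_lit 55) (nat_lit 5) (nat_lit 500) (nat_lit 367) (nat_lit 273)) (XT.nd (nat_lit 78) (nat_lit 228) (nat_lit 0) (XT.lf (nat_lit 0) (nat_lit 8367030614) (nat_lit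 152) (nat_lit 2845274826) (nat_lit 228) (nat_lit 5258657735) (nat_lit 52) (nat_lit 5) (nat_lit 54) (nat_lit 5) (nat_lit 55) (nat_lit 5) (nat_lit 501) (nat_lit 367) (nat_lit 272)) (XT.lf (nat_lit 0) (nat_lit 2001671324) (nat_lit 228) (nat_lit 14111615962) (nat_lit 304) (nat_lit 571509091) (nat_lit 49) (nat_lit 5) (nat_lit 52) (nat_lit 5) (nat_lit 53) (nat_lit 5) (nat_lit 502) (nat_lit 367) (nat_lit 271)))) (XT.nd (nat_lit 78) (nat_lit 152) (nat_lit 0) (XT.lf (nat_lit 0) (nat_lit 4201004527) (nat_lit 304) (nat_lit 4576492277) (nat_lit 76) (nat_lit 8123928054) (nat_lit 48) (nat_lit 5) (nat_lit 52) (nat_lit 5) (nat_lit 49) (nat_lit 5) (nat_lit 503) (nat_lit 367) (nat_lit 270)) (XT.nd (nat_lit 78) (nat_lit 0) (nat_lit 0) (XT.lf (nat_lit 0) (nat_lit 5757549854) (nat_lit 152) (nat_lit 3314923804) (nat_lit 228) (nat_lit 8049615305) (nat_lit 46) (nat_lit 5) (nat_lit 48) (nat_lit 5) (nat_lit 49) (nat_lit 5) (nat_lit 504) (nat_lit 367)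 (nat_lit 269)) (XT.lf (nat_lit 0) (nat_lit 14060792338) (nat_lit 228) (nat_lit 1047635985) (nat_lit 76) (nat_lit 2238351348) (nat_lit 46) (nat_lit 5) (nat_lit 49) (nat_lit 5) (nat_lit 47) (nat_lit 5) (nat_lit 505) (nat_lit 367) (nat_lit 268)))))) (XT.nd (nat_lit 51792) (nat_lit 0) (nat_lit 35720) (XT.nd (nat_lit 51558) (nat_lit 0) (nat_lit 41572) (XT.nd (nat_lit 51402) (nat_lit 0) (nat_lit 44004) (XT.lf (nat_lit 0) (nat_lit 1610881578) (nat_lit 304) (nat_lit 8052342802) (nat_lit 76) (nat_lit 7911365279) (nat_lit 42) (nat_lit 5) (nat_lit 46) (nat_lit 5) (nat_lit 43) (nat_lit 5) (nat_lit 506) (nat_lit 367) (nat_lit 267)) (XT.nd (nat_lit 78) (nat_lit 1140) (nat_lit 0) (XT.lf (nat_lit 0) (nat_lit 2589120678) (nat_lit 988) (nat_lit 385606658) (nat_lit 988) (nat_lit 385606658) (nat_lit 636) (nat_lit 4) (nat_lit 649) (nat_lit 5) (nat_lit 649) (nat_lit 4) (nat_lit 404) (nat_lit 368) (nat_lit 368)) (XT.lf (nat_lit 0) (nat_lit 2498543735)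 (nat_lit 1140) (nat_lit 3869727989) (nat_lit 0) (nat_lit 376274975) (nat_lit 621) (nat_lit 5) (nat_lit 636) (nat_lit 4) (nat_lit 621) (nat_lit 4) (nat_lit 405) (nat_lit 368) (nat_lit 367)))) (XT.nd (nat_lit 78) (nat_lit 1292) (nat_lit 0) (XT.lf (nat_lit 0) (nat_lit 570282021) (nat_lit 1140) (nat_lit 5201252081) (nat_lit 1140) (nat_lit 998327674) (nat_lit 606) (nat_lit 4) (nat_lit 621) (nat_lit 5) (nat_lit 621) (nat_lit 4) (nat_lit 406) (nat_lit 368) (nat_lit 366)) (XT.nd (nat_lit 78) (nat_lit 1216) (nat_lit 0) (XT.lf (nat_lit 0) (nat_lit 2239536882) (nat_lit 1216) (nat_lit 1718918380) (nat_lit 76) (nat_lit 2837838716) (nat_lit 605) (nat_lit 5) (nat_lit 621) (nat_lit 5) (nat_lit 606) (nat_lit 4) (nat_lit 407) (nat_lit 368) (nat_lit 365)) (XT.lf (nat_lit 0) (nat_lit 2822841316) (nat_lit 1216) (nat_lit 2655121778) (nat_lit 1292) (nat_lit 1346198967) (nat_lit 589) (nat_lit 5) (nat_lit 605) (nat_lit 5) (nat_lit 606) (nat_lit 4)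 (nat_lit 408) (nat_lit 368) (nat_lit 364))))) (XT.nd (nat_lit 234) (nat_lit 3040) (nat_lit 0) (XT.nd (nat_lit 78) (nat_lit 1444) (nat_lit 0) (XT.lf (nat_lit 0) (nat_lit 561676153) (nat_lit 1292) (nat_lit 1288193005) (nat_lit 1368) (nat_lit 5003557845) (nat_lit 571) (nat_lit 5) (nat_lit 588) (nat_lit 5) (nat_lit 589) (nat_lit 5) (nat_lit 409) (nat_lit 368) (nat_lit 363)) (XT.nd (nat_lit 78) (nat_lit 1444) (nat_lit 0) (XT.lf (nat_lit 0) (nat_lit 5051920529) (nat_lit 1368) (nat_lit 1682862320) (nat_lit 76) (nat_lit 149136025) (nat_lit 571) (nat_lit 5) (nat_lit 589) (nat_lit 5) (nat_lit 572) (nat_lit 4) (nat_lit 410) (nat_lit 368) (nat_lit 362)) (XT.lf (nat_lit 0) (nat_lit 1345937834) (nat_lit 1444) (nat_lit 3935108263) (nat_lit 76) (nat_lit 1634585900) (nat_lit 552) (nat_lit 5) (nat_lit 571) (nat_lit 5) (nat_lit 553) (nat_lit 5) (nat_lit 411) (nat_lit 368) (nat_lit 361)))) (XT.nd (nat_lit 78) (nat_lit 1596) (nat_lit 0) (XT.lf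 (nat_lit 0) (nat_lit 750034452) (nat_lit 1444) (nat_lit 3763272081) (nat_lit 1520) (nat_lit 2435442691) (nat_lit 533) (nat_lit 5) (nat_lit 552) (nat_lit 5) (nat_lit 553) (nat_lit 5) (nat_lit 412) (nat_lit 368) (nat_lit 360)) (XT.nd (nat_lit 78) (nat_lit 1520) (nat_lit 0) (XT.lf (nat_lit 0) (nat_lit 712687920) (nat_lit 1520) (nat_lit 1465223847) (nat_lit 76) (nat_lit 4805313858) (nat_lit 532) (nat_lit 5) (nat_lit 552) (nat_lit 5) (nat_lit 533) (nat_lit 5) (nat_lit 413) (nat_lit 368) (nat_lit 359)) (XT.lf (nat_lit 0) (nat_lit 3331356703) (nat_lit 1520) (nat_lit 517355794) (nat_lit 1596) (nat_lit 3170225208) (nat_lit 512) (nat_lit 5) (nat_lit 532) (nat_lit 5) (nat_lit 533) (nat_lit 5) (nat_lit 414) (nat_lit 368) (nat_lit 358))))))))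
noncomputable def xc58 : XT := (XT.nd (nat_lit 1794) (nat_lit 9652) (nat_lit 0) (XT.nd (nat_lit 858) (nat_lit 6232) (nat_lit 0) (XT.nd (nat_lit 390) (nat_lit 5244) (nat_lit 0) (XT.nd (nat_lit 156) (nat_lit 3496) (nat_lit 0) (XT.nd (nat_lit 78) (nat_lit 76) (nat_lit 0) (XT.lf (nat_lit 0) (nat_lit 1135688329) (nat_lit 1596) (nat_lit 5873465421) (nat_lit 1672) (nat_lit 46994939) (nat_lit 491) (nat_lit 5) (nat_lit 512) (nat_lit 5) (nat_lit 513) (nat_lit 5) (nat_lit 415) (nat_lit 368) (nat_lit 357)) (XT.lf (nat_lit 0) (nat_lit 3063079046) (nat_lit 1672) (nat_lit 1072691809) (nat_lit 76) (nat_lit 2958632455) (nat_lit 490) (nat_lit 5) (nat_lit 512) (nat_lit 5) (nat_lit 491) (nat_lit 5) (nat_lit 416) (nat_lit 368) (nat_lit 356))) (XT.nd (nat_lit 78) (nat_lit 1824) (nat_lit 0) (XT.lf (nat_lit 0) (nat_lit 3863048789) (nat_lit 1672) (nat_lit 2335197776) (nat_lit 1748) (nat_lit 935917332) (nat_lit 468) (nat_lit 5) (nat_lit 490) (nat_lit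 5) (nat_lit 491) (nat_lit 5) (nat_lit 417) (nat_lit 368) (nat_lit 355)) (XT.nd (nat_lit 78) (nat_lit 0) (nat_lit 0) (XT.lf (nat_lit 0) (nat_lit 1685326122) (nat_lit 1748) (nat_lit 463970275) (nat_lit 1824) (nat_lit 5026011023) (nat_lit 444) (nat_lit 5) (nat_lit 467) (nat_lit 5) (nat_lit 468) (nat_lit 5) (nat_lit 418) (nat_lit 368) (nat_lit 354)) (XT.lf (nat_lit 0) (nat_lit 5254834534) (nat_lit 1824) (nat_lit 507933293) (nat_lit 76) (nat_lit 1454975718) (nat_lit 444) (nat_lit 5) (nat_lit 468) (nat_lit 5) (nat_lit 445) (nat_lit 5) (nat_lit 419) (nat_lit 368) (nat_lit 353))))) (XT.nd (nat_lit 234) (nat_lit 1900) (nat_lit 0) (XT.nd (nat_lit 78) (nat_lit 1824) (nat_lit 0) (XT.lf (nat_lit 0) (nat_lit 1119630827) (nat_lit 1520) (nat_lit 2697726994) (nat_lit 76) (nat_lit 3444067445) (nat_lit 424) (nat_lit 5) (nat_lit 444) (nat_lit 5) (nat_lit 425) (nat_lit 5) (nat_lit 420) (nat_lit 368) (nat_lit 352)) (XT.nd (nat_lit 78) (nat_lit 912)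 (nat_lit 0) (XT.lf (nat_lit 0) (nat_lit 2396311839) (nat_lit 912) (nat_lit 1801461984) (nat_lit 988) (nat_lit 3108758140) (nat_lit 412) (nat_lit 5) (nat_lit 424) (nat_lit 5) (nat_lit 425) (nat_lit 5) (nat_lit 421) (nat_lit 368) (nat_lit 351)) (XT.lf (nat_lit 0) (nat_lit 217092361) (nat_lit 912) (nat_lit 7083652898) (nat_lit 988) (nat_lit 52545468) (nat_lit 400) (nat_lit 5) (nat_lit 412) (nat_lit 5) (nat_lit 413) (nat_lit 5) (nat_lit 422) (nat_lit 368) (nat_lit 350)))) (XT.nd (nat_lit 78) (nat_lit 1824) (nat_lit 0) (XT.lf (nat_lit 0) (nat_lit 3012026486) (nat_lit 988) (nat_lit 1979846720) (nat_lit 76) (nat_lit 2408979535) (nat_lit 399) (nat_lit 5) (nat_lit 412) (nat_lit 5) (nat_lit 400) (nat_lit 5) (nat_lit 423) (nat_lit 368) (nat_lit 349)) (XT.nd (nat_lit 78) (nat_lit 912) (nat_lit 0) (XT.lf (nat_lit 0) (nat_lit 3262280752) (nat_lit 912) (nat_lit 2839549577) (nat_lit 988) (nat_lit 1348250205) (nat_lit 387) (nat_lit 5) (nat_lit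 399) (nat_lit 5) (nat_lit 400) (nat_lit 5) (nat_lit 424) (nat_lit 368) (nat_lit 348)) (XT.lf (nat_lit 0) (nat_lit 1078580279) (nat_lit 836) (nat_lit 615742928) (nat_lit 912) (nat_lit 5806472263) (nat_lit 375) (nat_lit 5) (nat_lit 386) (nat_lit 5) (nat_lit 387) (nat_lit 5) (nat_lit 425) (nat_lit 368) (nat_lit 347)))))) (XT.nd (nat_lit 468) (nat_lit 2964) (nat_lit 0) (XT.nd (nat_lit 234) (nat_lit 1596) (nat_lit 0) (XT.nd (nat_lit 78) (nat_lit 1672) (nat_lit 0) (XT.lf (nat_lit 0) (nat_lit 4763217785) (nat_lit 912) (nat_lit 1125607915) (nat_lit 76) (nat_lit 1663863850) (nat_lit 375) (nat_lit 5) (nat_lit 387) (nat_lit 5) (nat_lit 376) (nat_lit 5) (nat_lit 426) (nat_lit 368) (nat_lit 346)) (XT.nd (nat_lit 78) (nat_lit 760) (nat_lit 0) (XT.lf (nat_lit 0) (nat_lit 261303000) (nat_lit 912) (nat_lit 3338623970) (nat_lit 76) (nat_lit 4006125978) (nat_lit 363) (nat_lit 5) (nat_lit 375) (nat_lit 5) (nat_lit 364) (nat_lit 5) (nat_lit 427)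 (nat_lit 368) (nat_lit 345)) (XT.lf (nat_lit 0) (nat_lit 2071900264) (nat_lit 760) (nat_lit 1230822569) (nat_lit 836) (nat_lit 4358065158) (nat_lit 353) (nat_lit 5) (nat_lit 363) (nat_lit 5) (nat_lit 364) (nat_lit 5) (nat_lit 428) (nat_lit 368) (nat_lit 344)))) (XT.nd (nat_lit 78) (nat_lit 1596) (nat_lit 0) (XT.lf (nat_lit 0) (nat_lit 6381745468) (nat_lit 836) (nat_lit 148773356) (nat_lit 76) (nat_lit 1186575929) (nat_lit 353) (nat_lit 5) (nat_lit 364) (nat_lit 5) (nat_lit 354) (nat_lit 5) (nat_lit 429) (nat_lit 368) (nat_lit 343)) (XT.nd (nat_lit 78) (nat_lit 760) (nat_lit 0) (XT.lf (nat_lit 0) (nat_lit 1715631072) (nat_lit 836) (nat_lit 2382611060) (nat_lit 76) (nat_lit 3676255917) (nat_lit 342) (nat_lit 5) (nat_lit 353) (nat_lit 5) (nat_lit 343) (nat_lit 5) (nat_lit 430) (nat_lit 368) (nat_lit 342)) (XT.lf (nat_lit 0) (nat_lit 3185503796) (nat_lit 760) (nat_lit 1593813218) (nat_lit 836) (nat_lit 3054176323) (nat_lit 332)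 (nat_lit 5) (nat_lit 342) (nat_lit 5) (nat_lit 343) (nat_lit 5) (nat_lit 431) (nat_lit 368) (nat_lit 341))))) (XT.nd (nat_lit 234) (nat_lit 1444) (nat_lit 0) (XT.nd (nat_lit 78) (nat_lit 760) (nat_lit 0) (XT.lf (nat_lit 0) (nat_lit 949671184) (nat_lit 760) (nat_lit 6931551232) (nat_lit 836) (nat_lit 12918753) (nat_lit 322) (nat_lit 5) (nat_lit 332) (nat_lit 5) (nat_lit 333) (nat_lit 5) (nat_lit 432) (nat_lit 368) (nat_lit 340)) (XT.nd (nat_lit 78) (nat_lit 684) (nat_lit 0) (XT.lf (nat_lit 0) (nat_lit 3039321930) (nat_lit 836) (nat_lit 1324571849) (nat_lit 76) (nat_lit 3591904692) (nat_lit 321) (nat_lit 5) (nat_lit 332) (nat_lit 5) (nat_lit 322) (nat_lit 5) (nat_lit 433) (nat_lit 368) (nat_lit 339)) (XT.lf (nat_lit 0) (nat_lit 4405947977) (nat_lit 684) (nat_lit 1724819274) (nat_lit 760) (nat_lit 1888364189) (nat_lit 312) (nat_lit 5) (nat_lit 321) (nat_lit 5) (nat_lit 322) (nat_lit 5) (nat_lit 434) (nat_lit 368) (nat_lit 338))))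 (XT.nd (nat_lit 78) (nat_lit 684) (nat_lit 0) (XT.lf (nat_lit 0) (nat_lit 1163856364) (nat_lit 760) (nat_lit 5944532981) (nat_lit 76) (nat_lit 975610560) (nat_lit 302) (nat_lit 5) (nat_lit 312) (nat_lit 5) (nat_lit 303) (nat_lit 5) (nat_lit 435) (nat_lit 368) (nat_lit 337)) (XT.nd (nat_lit 78) (nat_lit 684) (nat_lit 0) (XT.lf (nat_lit 0) (nat_lit 4238208875) (nat_lit 760) (nat_lit 177921917) (nat_lit 76) (nat_lit 3734068111) (nat_lit 302) (nat_lit 5) (nat_lit 312) (nat_lit 5) (nat_lit 303) (nat_lit 5) (nat_lit 436) (nat_lit 368) (nat_lit 336)) (XT.lf (nat_lit 0) (nat_lit 5719921382) (nat_lit 684) (nat_lit 1642754310) (nat_lit 760) (nat_lit 855283703) (nat_lit 293) (nat_lit 5) (nat_lit 302) (nat_lit 5) (nat_lit 303) (nat_lit 5) (nat_lit 437) (nat_lit 368) (nat_lit 335))))))) (XT.nd (nat_lit 936) (nat_lit 3952) (nat_lit 0) (XT.nd (nat_lit 468) (nat_lit 2964) (nat_lit 0) (XT.nd (nat_lit 234) (nat_lit 1292) (nat_lit 0) (XT.nd (nat_lit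 78) (nat_lit 684) (nat_lit 0) (XT.lf (nat_lit 0) (nat_lit 2215915399) (nat_lit 760) (nat_lit 4873286226) (nat_lit 76) (nat_lit 1197928690) (nat_lit 283) (nat_lit 5) (nat_lit 293) (nat_lit 5) (nat_lit 284) (nat_lit 5) (nat_lit 438) (nat_lit 368) (nat_lit 334)) (XT.nd (nat_lit 78) (nat_lit 76) (nat_lit 0) (XT.lf (nat_lit 0) (nat_lit 1057815531) (nat_lit 608) (nat_lit 4266125325) (nat_lit 684) (nat_lit 3033903115) (nat_lit 275) (nat_lit 5) (nat_lit 283) (nat_lit 5) (nat_lit 284) (nat_lit 5) (nat_lit 439) (nat_lit 368) (nat_lit 333)) (XT.lf (nat_lit 0) (nat_lit 48683612) (nat_lit 684) (nat_lit 1316479628) (nat_lit 76) (nat_lit 7065102038) (nat_lit 274) (nat_lit 5) (nat_lit 283) (nat_lit 5) (nat_lit 275) (nat_lit 5) (nat_lit 440) (nat_lit 368) (nat_lit 332)))) (XT.nd (nat_lit 78) (nat_lit 684) (nat_lit 0) (XT.lf (nat_lit 0) (nat_lit 3147297565) (nat_lit 684) (nat_lit 3744397997) (nat_lit 76) (nat_lit 1612147310) (nat_lit 266) (nat_lit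 5) (nat_lit 275) (nat_lit 5) (nat_lit 267) (nat_lit 5) (nat_lit 441) (nat_lit 368) (nat_lit 331)) (XT.nd (nat_lit 78) (nat_lit 76) (nat_lit 0) (XT.lf (nat_lit 0) (nat_lit 2358440517) (nat_lit 608) (nat_lit 3936525797) (nat_lit 684) (nat_lit 2284192811) (nat_lit 258) (nat_lit 5) (nat_lit 266) (nat_lit 5) (nat_lit 267) (nat_lit 5) (nat_lit 442) (nat_lit 368) (nat_lit 330)) (XT.lf (nat_lit 0) (nat_lit 817804883) (nat_lit 684) (nat_lit 86707224) (nat_lit 76) (nat_lit 7751780869) (nat_lit 257) (nat_lit 5) (nat_lit 266) (nat_lit 5) (nat_lit 258) (nat_lit 5) (nat_lit 443) (nat_lit 368) (nat_lit 329))))) (XT.nd (nat_lit 234) (nat_lit 1140) (nat_lit 0) (XT.nd (nat_lit 78) (nat_lit 1216) (nat_lit 0) (XT.lf (nat_lit 0) (nat_lit 3960827794) (nat_lit 684) (nat_lit 2571852739) (nat_lit 76) (nat_lit 2201803844) (nat_lit 249) (nat_lit 5) (nat_lit 258) (nat_lit 5) (nat_lit 250) (nat_lit 5) (nat_lit 444) (nat_lit 368) (nat_lit 328)) (XT.nd (nat_lit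 78) (nat_lit 684) (nat_lit 0) (XT.lf (nat_lit 0) (nat_lit 3707642431) (nat_lit 532) (nat_lit 3445084036) (nat_lit 608) (nat_lit 1661800920) (nat_lit 242) (nat_lit 5) (nat_lit 249) (nat_lit 5) (nat_lit 250) (nat_lit 5) (nat_lit 445) (nat_lit 368) (nat_lit 327)) (XT.lf (nat_lit 0) (nat_lit 1198442769) (nat_lit 608) (nat_lit 274731112) (nat_lit 684) (nat_lit 7423194456) (nat_lit 233) (nat_lit 5) (nat_lit 241) (nat_lit 5) (nat_lit 242) (nat_lit 5) (nat_lit 446) (nat_lit 368) (nat_lit 326)))) (XT.nd (nat_lit 78) (nat_lit 1140) (nat_lit 0) (XT.lf (nat_lit 0) (nat_lit 4658282637) (nat_lit 684) (nat_lit 1370010046) (nat_lit 76) (nat_lit 2951147637) (nat_lit 233) (nat_lit 5) (nat_lit 242) (nat_lit 5) (nat_lit 234) (nat_lit 5) (nat_lit 447) (nat_lit 368) (nat_lit 325)) (XT.nd (nat_lit 78) (nat_lit 608) (nat_lit 0) (XT.lf (nat_lit 0) (nat_lit 5091074218) (nat_lit 532) (nat_lit 2807713347) (nat_lit 608) (nat_lit 1165559773) (nat_lit 226)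 (nat_lit 5) (nat_lit 233) (nat_lit 5) (nat_lit 234) (nat_lit 5) (nat_lit 448) (nat_lit 368) (nat_lit 324)) (XT.lf (nat_lit 0) (nat_lit 2012030458) (nat_lit 608) (nat_lit 6644120262) (nat_lit 76) (nat_lit 494826195) (nat_lit 218) (nat_lit 5) (nat_lit 226) (nat_lit 5) (nat_lit 219) (nat_lit 5) (nat_lit 449) (nat_lit 368) (nat_lit 323)))))) (XT.nd (nat_lit 468) (nat_lit 1900) (nat_lit 0) (XT.nd (nat_lit 234) (nat_lit 988) (nat_lit 0) (XT.nd (nat_lit 78) (nat_lit 1064) (nat_lit 0) (XT.lf (nat_lit 0) (nat_lit 5240378140) (nat_lit 608) (nat_lit 153754239) (nat_lit 76) (nat_lit 3845003410) (nat_lit 218) (nat_lit 5) (nat_lit 226) (nat_lit 5) (nat_lit 219) (nat_lit 5) (nat_lit 450) (nat_lit 368) (nat_lit 322)) (XT.nd (nat_lit 78) (nat_lit 608) (nat_lit 0) (XT.lf (nat_lit 0) (nat_lit 6493835399) (nat_lit 456) (nat_lit 2039820100) (nat_lit 532) (nat_lit 795401992) (nat_lit 212) (nat_lit 5) (nat_lit 218) (nat_lit 5) (nat_lit 219) (nat_lit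 5) (nat_lit 451) (nat_lit 368) (nat_lit 321)) (XT.lf (nat_lit 0) (nat_lit 2433027336) (nat_lit 608) (nat_lit 5597947099) (nat_lit 76) (nat_lit 1389620278) (nat_lit 204) (nat_lit 5) (nat_lit 212) (nat_lit 5) (nat_lit 205) (nat_lit 5) (nat_lit 452) (nat_lit 368) (nat_lit 320)))) (XT.nd (nat_lit 78) (nat_lit 532) (nat_lit 0) (XT.lf (nat_lit 0) (nat_lit 1075452725) (nat_lit 456) (nat_lit 4638278637) (nat_lit 532) (nat_lit 3800165542) (nat_lit 198) (nat_lit 5) (nat_lit 204) (nat_lit 5) (nat_lit 205) (nat_lit 5) (nat_lit 453) (nat_lit 368) (nat_lit 319)) (XT.nd (nat_lit 78) (nat_lit 532) (nat_lit 0) (XT.lf (nat_lit 0) (nat_lit 7900311116) (nat_lit 456) (nat_lit 1156440854) (nat_lit 532) (nat_lit 552385496) (nat_lit 198) (nat_lit 5) (nat_lit 204) (nat_lit 5) (nat_lit 205) (nat_lit 5) (nat_lit 454) (nat_lit 368) (nat_lit 318)) (XT.lf (nat_lit 0) (nat_lit 2733016897) (nat_lit 532) (nat_lit 4574172352) (nat_lit 76) (nat_lit 2398563896)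 (nat_lit 191) (nat_lit 5) (nat_lit 198) (nat_lit 5) (nat_lit 192) (nat_lit 5) (nat_lit 455) (nat_lit 368) (nat_lit 317))))) (XT.nd (nat_lit 234) (nat_lit 912) (nat_lit 0) (XT.nd (nat_lit 78) (nat_lit 532) (nat_lit 0) (XT.lf (nat_lit 0) (nat_lit 2288899594) (nat_lit 456) (nat_lit 3781878799) (nat_lit 532) (nat_lit 3733574780) (nat_lit 185) (nat_lit 5) (nat_lit 191) (nat_lit 5) (nat_lit 192) (nat_lit 5) (nat_lit 456) (nat_lit 368) (nat_lit 316)) (XT.nd (nat_lit 78) (nat_lit 532) (nat_lit 0) (XT.lf (nat_lit 0) (nat_lit 9294001198) (nat_lit 456) (nat_lit 172380074) (nat_lit 532) (nat_lit 438728101) (nat_lit 185) (nat_lit 5) (nat_lit 191) (nat_lit 5) (nat_lit 192) (nat_lit 5) (nat_lit 457) (nat_lit 368) (nat_lit 315)) (XT.lf (nat_lit 0) (nat_lit 2909484890) (nat_lit 532) (nat_lit 3590348238) (nat_lit 76) (nat_lit 3507157957) (nat_lit 178) (nat_lit 5) (nat_lit 185) (nat_lit 5) (nat_lit 179) (nat_lit 5) (nat_lit 458) (nat_lit 368)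 (nat_lit 314)))) (XT.nd (nat_lit 78) (nat_lit 532) (nat_lit 0) (XT.lf (nat_lit 0) (nat_lit 3466867006) (nat_lit 380) (nat_lit 2840896852) (nat_lit 456) (nat_lit 3803314601) (nat_lit 173) (nat_lit 5) (nat_lit 178) (nat_lit 5) (nat_lit 179) (nat_lit 5) (nat_lit 459) (nat_lit 368) (nat_lit 313)) (XT.nd (nat_lit 78) (nat_lit 76) (nat_lit 0) (XT.lf (nat_lit 0) (nat_lit 439737309) (nat_lit 456) (nat_lit 9328633155) (nat_lit 532) (nat_lit 448995319) (nat_lit 167) (nat_lit 5) (nat_lit 173) (nat_lit 5) (nat_lit 174) (nat_lit 5) (nat_lit 460) (nat_lit 368) (nat_lit 312)) (XT.lf (nat_lit 0) (nat_lit 2958718518) (nat_lit 532) (nat_lit 2665218202) (nat_lit 76) (nat_lit 4700955551) (nat_lit 166) (nat_lit 5) (nat_lit 173) (nat_lit 5) (nat_lit 167) (nat_lit 5) (nat_lit 461) (nat_lit 368) (nat_lit 311))))))))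
noncomputable def xc59 : XT := (XT.nd (nat_lit 1794) (nat_lit 3496) (nat_lit 0) (XT.nd (nat_lit 858) (nat_lit 2660) (nat_lit 0) (XT.nd (nat_lit 390) (nat_lit 1596) (nat_lit 0) (XT.nd (nat_lit 156) (nat_lit 836) (nat_lit 0) (XT.nd (nat_lit 78) (nat_lit 380) (nat_lit 0) (XT.lf (nat_lit 0) (nat_lit 4590443707) (nat_lit 380) (nat_lit 1830290265) (nat_lit 456) (nat_lit 4013937904) (nat_lit 161) (nat_lit 5) (nat_lit 166) (nat_lit 5) (nat_lit 167) (nat_lit 5) (nat_lit 462) (nat_lit 368) (nat_lit 310)) (XT.lf (nat_lit 0) (nat_lit 1429965459) (nat_lit 380) (nat_lit 8525156539) (nat_lit 456) (nat_lit 591467459) (nat_lit 156) (nat_lit 5) (nat_lit 161) (nat_lit 5) (nat_lit 162) (nat_lit 5) (nat_lit 463) (nat_lit 368) (nat_lit 309))) (XT.nd (nat_lit 78) (nat_lit 760) (nat_lit 0) (XT.lf (nat_lit 0) (nat_lit 2875747565) (nat_lit 456) (nat_lit 1818920170) (nat_lit 76) (nat_lit 5965419545) (nat_lit 155) (nat_lit 5) (nat_lit 161) (nat_lit 5)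 (nat_lit 156) (nat_lit 5) (nat_lit 464) (nat_lit 368) (nat_lit 308)) (XT.nd (nat_lit 78) (nat_lit 380) (nat_lit 0) (XT.lf (nat_lit 0) (nat_lit 5639274821) (nat_lit 380) (nat_lit 765187867) (nat_lit 456) (nat_lit 4371317408) (nat_lit 150) (nat_lit 5) (nat_lit 155) (nat_lit 5) (nat_lit 156) (nat_lit 5) (nat_lit 465) (nat_lit 368) (nat_lit 307)) (XT.lf (nat_lit 0) (nat_lit 2331442343) (nat_lit 380) (nat_lit 7684478471) (nat_lit 456) (nat_lit 877627228) (nat_lit 145) (nat_lit 5) (nat_lit 150) (nat_lit 5) (nat_lit 151) (nat_lit 5) (nat_lit 466) (nat_lit 368) (nat_lit 306))))) (XT.nd (nat_lit 234) (nat_lit 760) (nat_lit 0) (XT.nd (nat_lit 78) (nat_lit 760) (nat_lit 0) (XT.lf (nat_lit 0) (nat_lit 2654274126) (nat_lit 456) (nat_lit 1073205971) (nat_lit 76) (nat_lit 7285775659) (nat_lit 144) (nat_lit 5) (nat_lit 150) (nat_lit 5) (nat_lit 145) (nat_lit 5) (nat_lit 467) (nat_lit 368) (nat_lit 305)) (XT.nd (nat_lit 78) (nat_lit 380) (nat_lit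 0) (XT.lf (nat_lit 0) (nat_lit 6254578477) (nat_lit 456) (nat_lit 4545963782) (nat_lit 76) (nat_lit 334513395) (nat_lit 139) (nat_lit 5) (nat_lit 145) (nat_lit 5) (nat_lit 140) (nat_lit 5) (nat_lit 468) (nat_lit 368) (nat_lit 304)) (XT.lf (nat_lit 0) (nat_lit 3121247020) (nat_lit 380) (nat_lit 6822568785) (nat_lit 456) (nat_lit 1315141500) (nat_lit 134) (nat_lit 5) (nat_lit 139) (nat_lit 5) (nat_lit 140) (nat_lit 5) (nat_lit 469) (nat_lit 368) (nat_lit 303)))) (XT.nd (nat_lit 78) (nat_lit 684) (nat_lit 0) (XT.lf (nat_lit 0) (nat_lit 2286590156) (nat_lit 456) (nat_lit 451679051) (nat_lit 76) (nat_lit 8646859728) (nat_lit 133) (nat_lit 5) (nat_lit 139) (nat_lit 5) (nat_lit 134) (nat_lit 5) (nat_lit 470) (nat_lit 368) (nat_lit 302)) (XT.nd (nat_lit 78) (nat_lit 380) (nat_lit 0) (XT.lf (nat_lit 0) (nat_lit 5965993840) (nat_lit 380) (nat_lit 4100206880) (nat_lit 76) (nat_lit 1446988521) (nat_lit 129) (nat_lit 5) (nat_lit 134) (nat_lit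 5) (nat_lit 130) (nat_lit 5) (nat_lit 471) (nat_lit 368) (nat_lit 301)) (XT.lf (nat_lit 0) (nat_lit 3774431782) (nat_lit 380) (nat_lit 5955964222) (nat_lit 456) (nat_lit 1913190506) (nat_lit 124) (nat_lit 5) (nat_lit 129) (nat_lit 5) (nat_lit 130) (nat_lit 5) (nat_lit 472) (nat_lit 368) (nat_lit 300)))))) (XT.nd (nat_lit 468) (nat_lit 1292) (nat_lit 0) (XT.nd (nat_lit 234) (nat_lit 684) (nat_lit 0) (XT.nd (nat_lit 78) (nat_lit 304) (nat_lit 0) (XT.lf (nat_lit 0) (nat_lit 20212324) (nat_lit 304) (nat_lit 1743400828) (nat_lit 380) (nat_lit 10012876679) (nat_lit 119) (nat_lit 5) (nat_lit 123) (nat_lit 5) (nat_lit 124) (nat_lit 5) (nat_lit 473) (nat_lit 368) (nat_lit 299)) (XT.nd (nat_lit 78) (nat_lit 304) (nat_lit 0) (XT.lf (nat_lit 0) (nat_lit 5524095639) (nat_lit 380) (nat_lit 3821078526) (nat_lit 76) (nat_lit 2565912661) (nat_lit 119) (nat_lit 5) (nat_lit 124) (nat_lit 5) (nat_lit 120) (nat_lit 5) (nat_lit 474) (nat_lit 368)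 (nat_lit 298)) (XT.lf (nat_lit 0) (nat_lit 4263747262) (nat_lit 304) (nat_lit 5101938005) (nat_lit 380) (nat_lit 2682576206) (nat_lit 115) (nat_lit 5) (nat_lit 119) (nat_lit 5) (nat_lit 120) (nat_lit 5) (nat_lit 475) (nat_lit 368) (nat_lit 297)))) (XT.nd (nat_lit 78) (nat_lit 304) (nat_lit 0) (XT.lf (nat_lit 0) (nat_lit 317735408) (nat_lit 304) (nat_lit 758447868) (nat_lit 380) (nat_lit 11111964960) (nat_lit 110) (nat_lit 5) (nat_lit 114) (nat_lit 5) (nat_lit 115) (nat_lit 5) (nat_lit 476) (nat_lit 368) (nat_lit 296)) (XT.nd (nat_lit 78) (nat_lit 304) (nat_lit 0) (XT.lf (nat_lit 0) (nat_lit 4917586723) (nat_lit 380) (nat_lit 3737912053) (nat_lit 76) (nat_lit 3674115006) (nat_lit 110) (nat_lit 5) (nat_lit 115) (nat_lit 5) (nat_lit 111) (nat_lit 5) (nat_lit 477) (nat_lit 368) (nat_lit 295)) (XT.lf (nat_lit 0) (nat_lit 4559342501) (nat_lit 304) (nat_lit 4278679537) (nat_lit 380) (nat_lit 3635845908) (nat_lit 106) (nat_lit 5) (nat_lit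 110) (nat_lit 5) (nat_lit 111) (nat_lit 5) (nat_lit 478) (nat_lit 368) (nat_lit 294))))) (XT.nd (nat_lit 234) (nat_lit 608) (nat_lit 0) (XT.nd (nat_lit 78) (nat_lit 304) (nat_lit 0) (XT.lf (nat_lit 0) (nat_lit 209823733) (nat_lit 380) (nat_lit 12218663555) (nat_lit 76) (nat_lit 192559211) (nat_lit 101) (nat_lit 5) (nat_lit 106) (nat_lit 5) (nat_lit 102) (nat_lit 5) (nat_lit 479) (nat_lit 368) (nat_lit 293)) (XT.nd (nat_lit 78) (nat_lit 304) (nat_lit 0) (XT.lf (nat_lit 0) (nat_lit 4133386607) (nat_lit 380) (nat_lit 3882880627) (nat_lit 76) (nat_lit 4753430644) (nat_lit 101) (nat_lit 5) (nat_lit 106) (nat_lit 5) (nat_lit 102) (nat_lit 5) (nat_lit 480) (nat_lit 368) (nat_lit 292)) (XT.lf (nat_lit 0) (nat_lit 4628437024) (nat_lit 304) (nat_lit 3505485894) (nat_lit 380) (nat_lit 4787432450) (nat_lit 97) (nat_lit 5) (nat_lit 101) (nat_lit 5) (nat_lit 102) (nat_lit 5) (nat_lit 481) (nat_lit 368) (nat_lit 291)))) (XT.nd (nat_lit 78)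 (nat_lit 380) (nat_lit 0) (XT.lf (nat_lit 0) (nat_lit 230792067) (nat_lit 228) (nat_lit 11987121455) (nat_lit 304) (nat_lit 858066681) (nat_lit 94) (nat_lit 5) (nat_lit 97) (nat_lit 5) (nat_lit 98) (nat_lit 5) (nat_lit 482) (nat_lit 368) (nat_lit 290)) (XT.nd (nat_lit 78) (nat_lit 304) (nat_lit 0) (XT.lf (nat_lit 0) (nat_lit 3156483131) (nat_lit 304) (nat_lit 4291345957) (nat_lit 76) (nat_lit 5784504208) (nat_lit 93) (nat_lit 5) (nat_lit 97) (nat_lit 5) (nat_lit 94) (nat_lit 5) (nat_lit 483) (nat_lit 368) (nat_lit 289)) (XT.lf (nat_lit 0) (nat_lit 4434961740) (nat_lit 304) (nat_lit 2802966893) (nat_lit 380) (nat_lit 6153812387) (nat_lit 89) (nat_lit 5) (nat_lit 93) (nat_lit 5) (nat_lit 94) (nat_lit 5) (nat_lit 484) (nat_lit 368) (nat_lit 288))))))) (XT.nd (nat_lit 936) (nat_lit 1292) (nat_lit 0) (XT.nd (nat_lit 468) (nat_lit 1064) (nat_lit 0) (XT.nd (nat_lit 234) (nat_lit 532) (nat_lit 0) (XT.nd (nat_lit 78) (nat_lit 608) (nat_lit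 0) (XT.lf (nat_lit 0) (nat_lit 11411982354) (nat_lit 380) (nat_lit 223785323) (nat_lit 76) (nat_lit 1918352466) (nat_lit 89) (nat_lit 5) (nat_lit 94) (nat_lit 5) (nat_lit 90) (nat_lit 5) (nat_lit 485) (nat_lit 368) (nat_lit 287)) (XT.nd (nat_lit 78) (nat_lit 304) (nat_lit 0) (XT.lf (nat_lit 0) (nat_lit 1969765449) (nat_lit 304) (nat_lit 5002240575) (nat_lit 76) (nat_lit 6746579030) (nat_lit 85) (nat_lit 5) (nat_lit 89) (nat_lit 5) (nat_lit 86) (nat_lit 5) (nat_lit 486) (nat_lit 368) (nat_lit 286)) (XT.lf (nat_lit 0) (nat_lit 3939165096) (nat_lit 304) (nat_lit 2193265700) (nat_lit 380) (nat_lit 7753683800) (nat_lit 81) (nat_lit 5) (nat_lit 85) (nat_lit 5) (nat_lit 86) (nat_lit 5) (nat_lit 487) (nat_lit 368) (nat_lit 285)))) (XT.nd (nat_lit 78) (nat_lit 532) (nat_lit 0) (XT.lf (nat_lit 0) (nat_lit 10399769678) (nat_lit 380) (nat_lit 997182456) (nat_lit 76) (nat_lit 2659616807) (nat_lit 81) (nat_lit 5) (nat_lit 86) (nat_lit 5)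 (nat_lit 82) (nat_lit 5) (nat_lit 488) (nat_lit 368) (nat_lit 284)) (XT.nd (nat_lit 78) (nat_lit 228) (nat_lit 0) (XT.lf (nat_lit 0) (nat_lit 553836643) (nat_lit 304) (nat_lit 6058487442) (nat_lit 76) (nat_lit 7617269814) (nat_lit 77) (nat_lit 5) (nat_lit 81) (nat_lit 5) (nat_lit 78) (nat_lit 5) (nat_lit 489) (nat_lit 368) (nat_lit 283)) (XT.lf (nat_lit 0) (nat_lit 3097180645) (nat_lit 228) (nat_lit 1700297055) (nat_lit 304) (nat_lit 9608165553) (nat_lit 74) (nat_lit 5) (nat_lit 77) (nat_lit 5) (nat_lit 78) (nat_lit 5) (nat_lit 490) (nat_lit 368) (nat_lit 282))))) (XT.nd (nat_lit 234) (nat_lit 532) (nat_lit 0) (XT.nd (nat_lit 78) (nat_lit 532) (nat_lit 0) (XT.lf (nat_lit 0) (nat_lit 9159393390) (nat_lit 304) (nat_lit 2137706870) (nat_lit 76) (nat_lit 3287447715) (nat_lit 74) (nat_lit 5) (nat_lit 78) (nat_lit 5) (nat_lit 75) (nat_lit 5) (nat_lit 491) (nat_lit 368) (nat_lit 281)) (XT.nd (nat_lit 78) (nat_lit 304) (nat_lit 0)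 (XT.lf (nat_lit 0) (nat_lit 7251650528) (nat_lit 228) (nat_lit 6386794933) (nat_lit 304) (nat_lit 1127989739) (nat_lit 71) (nat_lit 5) (nat_lit 74) (nat_lit 5) (nat_lit 75) (nat_lit 5) (nat_lit 492) (nat_lit 368) (nat_lit 280)) (XT.lf (nat_lit 0) (nat_lit 1860551725) (nat_lit 228) (nat_lit 1350005421) (nat_lit 304) (nat_lit 11741020011) (nat_lit 67) (nat_lit 5) (nat_lit 70) (nat_lit 5) (nat_lit 71) (nat_lit 5) (nat_lit 493) (nat_lit 368) (nat_lit 279)))) (XT.nd (nat_lit 78) (nat_lit 532) (nat_lit 0) (XT.lf (nat_lit 0) (nat_lit 7667859591) (nat_lit 304) (nat_lit 3695381355) (nat_lit 76) (nat_lit 3776092351) (nat_lit 67) (nat_lit 5) (nat_lit 71) (nat_lit 5) (nat_lit 68) (nat_lit 5) (nat_lit 494) (nat_lit 368) (nat_lit 278)) (XT.nd (nat_lit 78) (nat_lit 304) (nat_lit 0) (XT.lf (nat_lit 0) (nat_lit 5908855861) (nat_lit 228) (nat_lit 6325032429) (nat_lit 304) (nat_lit 3096566855) (nat_lit 64) (nat_lit 5) (nat_lit 67) (nat_lit 5)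 (nat_lit 68) (nat_lit 5) (nat_lit 495) (nat_lit 368) (nat_lit 277)) (XT.lf (nat_lit 0) (nat_lit 175708589) (nat_lit 228) (nat_lit 1170645542) (nat_lit 304) (nat_lit 14178901461) (nat_lit 60) (nat_lit 5) (nat_lit 63) (nat_lit 5) (nat_lit 64) (nat_lit 5) (nat_lit 496) (nat_lit 368) (nat_lit 276)))))) (XT.nd (nat_lit 468) (nat_lit 684) (nat_lit 0) (XT.nd (nat_lit 234) (nat_lit 456) (nat_lit 0) (XT.nd (nat_lit 78) (nat_lit 152) (nat_lit 0) (XT.lf (nat_lit 0) (nat_lit 5899314974) (nat_lit 304) (nat_lit 5725507343) (nat_lit 76) (nat_lit 4097469539) (nat_lit 60) (nat_lit 5) (nat_lit 64) (nat_lit 5) (nat_lit 61) (nat_lit 5) (nat_lit 497) (nat_lit 368) (nat_lit 275)) (XT.nd (nat_lit 78) (nat_lit 0) (nat_lit 0) (XT.lf (nat_lit 0) (nat_lit 4089806410) (nat_lit 152) (nat_lit 6460804301) (nat_lit 228) (nat_lit 5372514642) (nat_lit 58) (nat_lit 5) (nat_lit 60) (nat_lit 5) (nat_lit 61) (nat_lit 5) (nat_lit 498) (nat_lit 368) (nat_lit 274))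 (XT.lf (nat_lit 0) (nat_lit 14132254390) (nat_lit 152) (nat_lit 1174294734) (nat_lit 228) (nat_lit 821196046) (nat_lit 58) (nat_lit 5) (nat_lit 60) (nat_lit 5) (nat_lit 61) (nat_lit 5) (nat_lit 499) (nat_lit 368) (nat_lit 273)))) (XT.nd (nat_lit 78) (nat_lit 152) (nat_lit 0) (XT.lf (nat_lit 0) (nat_lit 3824769405) (nat_lit 304) (nat_lit 8289255667) (nat_lit 76) (nat_lit 4220863316) (nat_lit 54) (nat_lit 5) (nat_lit 58) (nat_lit 5) (nat_lit 55) (nat_lit 5) (nat_lit 500) (nat_lit 368) (nat_lit 272)) (XT.nd (nat_lit 78) (nat_lit 0) (nat_lit 0) (XT.lf (nat_lit 0) (nat_lit 1731817008) (nat_lit 152) (nat_lit 6826990036) (nat_lit 228) (nat_lit 7987137761) (nat_lit 52) (nat_lit 5) (nat_lit 54) (nat_lit 5) (nat_lit 55) (nat_lit 5) (nat_lit 501) (nat_lit 368) (nat_lit 271)) (XT.lf (nat_lit 0) (nat_lit 12019665201) (nat_lit 152) (nat_lit 1397341731) (nat_lit 228) (nat_lit 3343627619) (nat_lit 52) (nat_lit 5) (nat_lit 54) (nat_lit 5) (nat_lit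 55) (nat_lit 5) (nat_lit 502) (nat_lit 368) (nat_lit 270))))) (XT.nd (nat_lit 234) (nat_lit 228) (nat_lit 0) (XT.nd (nat_lit 78) (nat_lit 152) (nat_lit 0) (XT.lf (nat_lit 0) (nat_lit 1411787453) (nat_lit 304) (nat_lit 11454317401) (nat_lit 76) (nat_lit 4112588127) (nat_lit 48) (nat_lit 5) (nat_lit 52) (nat_lit 5) (nat_lit 49) (nat_lit 5) (nat_lit 503) (nat_lit 368) (nat_lit 269)) (XT.nd (nat_lit 78) (nat_lit 152) (nat_lit 0) (XT.lf (nat_lit 0) (nat_lit 6233143611) (nat_lit 304) (nat_lit 1218330627) (nat_lit 76) (nat_lit 9748885960) (nat_lit 48) (nat_lit 5) (nat_lit 52) (nat_lit 5) (nat_lit 49) (nat_lit 5) (nat_lit 504) (nat_lit 368) (nat_lit 268)) (XT.lf (nat_lit 0) (nat_lit 9299697007) (nat_lit 152) (nat_lit 1886397037) (nat_lit 228) (nat_lit 6239665066) (nat_lit 46) (nat_lit 5) (nat_lit 48) (nat_lit 5) (nat_lit 49) (nat_lit 5) (nat_lit 505) (nat_lit 368) (nat_lit 267)))) (XT.nd (nat_lit 51246) (nat_lit 0) (nat_lit 45068)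 (XT.lf (nat_lit 0) (nat_lit 2350535450) (nat_lit 228) (nat_lit 13910534274) (nat_lit 304) (nat_lit 1394138612) (nat_lit 43) (nat_lit 5) (nat_lit 46) (nat_lit 5) (nat_lit 47) (nat_lit 5) (nat_lit 506) (nat_lit 368) (nat_lit 266)) (XT.nd (nat_lit 78) (nat_lit 988) (nat_lit 0) (XT.lf (nat_lit 0) (nat_lit 793355033) (nat_lit 988) (nat_lit 1751262784) (nat_lit 0) (nat_lit 793355033) (nat_lit 649) (nat_lit 5) (nat_lit 662) (nat_lit 4) (nat_lit 649) (nat_lit 4) (nat_lit 402) (nat_lit 369) (nat_lit 369)) (XT.lf (nat_lit 0) (nat_lit 785729224) (nat_lit 988) (nat_lit 4060116319) (nat_lit 988) (nat_lit 1852107901) (nat_lit 636) (nat_lit 4) (nat_lit 649) (nat_lit 5) (nat_lit 649) (nat_lit 4) (nat_lit 403) (nat_lit 369) (nat_lit 368))))))))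
noncomputable def xc60 : XT := (XT.nd (nat_lit 1794) (nat_lit 11932) (nat_lit 0) (XT.nd (nat_lit 858) (nat_lit 10412) (nat_lit 0) (XT.nd (nat_lit 390) (nat_lit 5776) (nat_lit 0) (XT.nd (nat_lit 156) (nat_lit 2508) (nat_lit 0) (XT.nd (nat_lit 78) (nat_lit 1064) (nat_lit 0) (XT.lf (nat_lit 0) (nat_lit 1382209451) (nat_lit 1064) (nat_lit 1580659461) (nat_lit 76) (nat_lit 3758339479) (nat_lit 635) (nat_lit 5) (nat_lit 649) (nat_lit 5) (nat_lit 636) (nat_lit 4) (nat_lit 404) (nat_lit 369) (nat_lit 367)) (XT.lf (nat_lit 0) (nat_lit 2804814975) (nat_lit 1064) (nat_lit 1799049523) (nat_lit 1140) (nat_lit 2141894109) (nat_lit 621) (nat_lit 5) (nat_lit 635) (nat_lit 5) (nat_lit 636) (nat_lit 4) (nat_lit 405) (nat_lit 369) (nat_lit 366))) (XT.nd (nat_lit 78) (nat_lit 1292) (nat_lit 0) (XT.lf (nat_lit 0) (nat_lit 469841240) (nat_lit 1140) (nat_lit 578112099) (nat_lit 1216) (nat_lit 5723854702) (nat_lit 605) (nat_lit 5) (nat_lit 620) (nat_lit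 5) (nat_lit 621) (nat_lit 5) (nat_lit 406) (nat_lit 369) (nat_lit 365)) (XT.nd (nat_lit 78) (nat_lit 1292) (nat_lit 0) (XT.lf (nat_lit 0) (nat_lit 4234729440) (nat_lit 1216) (nat_lit 1853204801) (nat_lit 76) (nat_lit 710947486) (nat_lit 605) (nat_lit 5) (nat_lit 621) (nat_lit 5) (nat_lit 606) (nat_lit 4) (nat_lit 407) (nat_lit 369) (nat_lit 364)) (XT.lf (nat_lit 0) (nat_lit 603045911) (nat_lit 1292) (nat_lit 4173629894) (nat_lit 76) (nat_lit 2050698490) (nat_lit 588) (nat_lit 5) (nat_lit 605) (nat_lit 5) (nat_lit 589) (nat_lit 5) (nat_lit 408) (nat_lit 369) (nat_lit 363))))) (XT.nd (nat_lit 234) (nat_lit 3040) (nat_lit 0) (XT.nd (nat_lit 78) (nat_lit 1444) (nat_lit 0) (XT.lf (nat_lit 0) (nat_lit 348972560) (nat_lit 1292) (nat_lit 3397778464) (nat_lit 1368) (nat_lit 3110418120) (nat_lit 571) (nat_lit 5) (nat_lit 588) (nat_lit 5) (nat_lit 589) (nat_lit 5) (nat_lit 409) (nat_lit 369) (nat_lit 362)) (XT.nd (nat_lit 78) (nat_lit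 1368) (nat_lit 0) (XT.lf (nat_lit 0) (nat_lit 26264933) (nat_lit 1368) (nat_lit 1927841718) (nat_lit 76) (nat_lit 4934238073) (nat_lit 570) (nat_lit 5) (nat_lit 588) (nat_lit 5) (nat_lit 571) (nat_lit 5) (nat_lit 410) (nat_lit 369) (nat_lit 361)) (XT.lf (nat_lit 0) (nat_lit 2701271477) (nat_lit 1368) (nat_lit 434813994) (nat_lit 1444) (nat_lit 3784626218) (nat_lit 552) (nat_lit 5) (nat_lit 570) (nat_lit 5) (nat_lit 571) (nat_lit 5) (nat_lit 411) (nat_lit 369) (nat_lit 360)))) (XT.nd (nat_lit 78) (nat_lit 1596) (nat_lit 0) (XT.lf (nat_lit 0) (nat_lit 435360161) (nat_lit 1444) (nat_lit 5831265072) (nat_lit 1520) (nat_lit 687950027) (nat_lit 533) (nat_lit 5) (nat_lit 552) (nat_lit 5) (nat_lit 553) (nat_lit 5) (nat_lit 412) (nat_lit 369) (nat_lit 359)) (XT.nd (nat_lit 78) (nat_lit 1520) (nat_lit 0) (XT.lf (nat_lit 0) (nat_lit 2405520355) (nat_lit 1520) (nat_lit 1826348656) (nat_lit 76) (nat_lit 2757599947) (nat_lit 532) (nat_lit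 5) (nat_lit 552) (nat_lit 5) (nat_lit 533) (nat_lit 5) (nat_lit 413) (nat_lit 369) (nat_lit 358)) (XT.lf (nat_lit 0) (nat_lit 2936346757) (nat_lit 1520) (nat_lit 2571514344) (nat_lit 1596) (nat_lit 1518002814) (nat_lit 512) (nat_lit 5) (nat_lit 532) (nat_lit 5) (nat_lit 533) (nat_lit 5) (nat_lit 414) (nat_lit 369) (nat_lit 357)))))) (XT.nd (nat_lit 468) (nat_lit 3724) (nat_lit 0) (XT.nd (nat_lit 234) (nat_lit 3268) (nat_lit 0) (XT.nd (nat_lit 78) (nat_lit 1748) (nat_lit 0) (XT.lf (nat_lit 0) (nat_lit 696466602) (nat_lit 1596) (nat_lit 846117644) (nat_lit 1672) (nat_lit 5521122858) (nat_lit 490) (nat_lit 5) (nat_lit 511) (nat_lit 5) (nat_lit 512) (nat_lit 5) (nat_lit 415) (nat_lit 369) (nat_lit 356)) (XT.nd (nat_lit 78) (nat_lit 1748) (nat_lit 0) (XT.lf (nat_lit 0) (nat_lit 4616072711) (nat_lit 1672) (nat_lit 1543658110) (nat_lit 76) (nat_lit 942952855) (nat_lit 490) (nat_lit 5) (nat_lit 512) (nat_lit 5) (nat_lit 491) (nat_lit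 5) (nat_lit 416) (nat_lit 369) (nat_lit 355)) (XT.lf (nat_lit 0) (nat_lit 567417484) (nat_lit 1748) (nat_lit 3790206839) (nat_lit 76) (nat_lit 2785417099) (nat_lit 467) (nat_lit 5) (nat_lit 490) (nat_lit 5) (nat_lit 468) (nat_lit 5) (nat_lit 417) (nat_lit 369) (nat_lit 354)))) (XT.nd (nat_lit 78) (nat_lit 1520) (nat_lit 0) (XT.lf (nat_lit 0) (nat_lit 1123781258) (nat_lit 1748) (nat_lit 2483247908) (nat_lit 1824) (nat_lit 3577708963) (nat_lit 444) (nat_lit 5) (nat_lit 467) (nat_lit 5) (nat_lit 468) (nat_lit 5) (nat_lit 418) (nat_lit 369) (nat_lit 353)) (XT.nd (nat_lit 78) (nat_lit 1520) (nat_lit 0) (XT.lf (nat_lit 0) (nat_lit 6129208133) (nat_lit 1748) (nat_lit 544500421) (nat_lit 1824) (nat_lit 554250885) (nat_lit 444) (nat_lit 5) (nat_lit 467) (nat_lit 5) (nat_lit 468) (nat_lit 5) (nat_lit 419) (nat_lit 369) (nat_lit 352)) (XT.lf (nat_lit 0) (nat_lit 2473267984) (nat_lit 1520) (nat_lit 3341893778) (nat_lit 76) (nat_lit 1457035101)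 (nat_lit 424) (nat_lit 5) (nat_lit 444) (nat_lit 5) (nat_lit 425) (nat_lit 5) (nat_lit 420) (nat_lit 369) (nat_lit 351))))) (XT.nd (nat_lit 234) (nat_lit 1824) (nat_lit 0) (XT.nd (nat_lit 78) (nat_lit 988) (nat_lit 0) (XT.lf (nat_lit 0) (nat_lit 1714160743) (nat_lit 912) (nat_lit 3804293606) (nat_lit 988) (nat_lit 1799515891) (nat_lit 412) (nat_lit 5) (nat_lit 424) (nat_lit 5) (nat_lit 425) (nat_lit 5) (nat_lit 421) (nat_lit 369) (nat_lit 350)) (XT.nd (nat_lit 78) (nat_lit 912) (nat_lit 0) (XT.lf (nat_lit 0) (nat_lit 1208670445) (nat_lit 988) (nat_lit 514948587) (nat_lit 76) (nat_lit 5641584931) (nat_lit 411) (nat_lit 5) (nat_lit 424) (nat_lit 5) (nat_lit 412) (nat_lit 5) (nat_lit 422) (nat_lit 369) (nat_lit 349)) (XT.lf (nat_lit 0) (nat_lit 4229963255) (nat_lit 988) (nat_lit 2749438230) (nat_lit 76) (nat_lit 434216581) (nat_lit 399) (nat_lit 5) (nat_lit 412) (nat_lit 5) (nat_lit 400) (nat_lit 5) (nat_lit 423) (nat_lit 369)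 (nat_lit 348)))) (XT.nd (nat_lit 78) (nat_lit 912) (nat_lit 0) (XT.lf (nat_lit 0) (nat_lit 2453058174) (nat_lit 912) (nat_lit 4834014847) (nat_lit 988) (nat_lit 176433693) (nat_lit 387) (nat_lit 5) (nat_lit 399) (nat_lit 5) (nat_lit 400) (nat_lit 5) (nat_lit 424) (nat_lit 369) (nat_lit 347)) (XT.nd (nat_lit 78) (nat_lit 0) (nat_lit 0) (XT.lf (nat_lit 0) (nat_lit 207705394) (nat_lit 836) (nat_lit 2610136108) (nat_lit 912) (nat_lit 4696893278) (nat_lit 375) (nat_lit 5) (nat_lit 386) (nat_lit 5) (nat_lit 387) (nat_lit 5) (nat_lit 425) (nat_lit 369) (nat_lit 346)) (XT.lf (nat_lit 0) (nat_lit 5538367995) (nat_lit 836) (nat_lit 310492771) (nat_lit 912) (nat_lit 1718532170) (nat_lit 375) (nat_lit 5) (nat_lit 386) (nat_lit 5) (nat_lit 387) (nat_lit 5) (nat_lit 426) (nat_lit 369) (nat_lit 345))))))) (XT.nd (nat_lit 858) (nat_lit 5700) (nat_lit 0) (XT.nd (nat_lit 390) (nat_lit 2964) (nat_lit 0) (XT.nd (nat_lit 156) (nat_lit 1596) (nat_lit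 0) (XT.nd (nat_lit 78) (nat_lit 760) (nat_lit 0) (XT.lf (nat_lit 0) (nat_lit 1283411126) (nat_lit 912) (nat_lit 4303470971) (nat_lit 76) (nat_lit 2034437205) (nat_lit 363) (nat_lit 5) (nat_lit 375) (nat_lit 5) (nat_lit 364) (nat_lit 5) (nat_lit 427) (nat_lit 369) (nat_lit 344)) (XT.lf (nat_lit 0) (nat_lit 1064722557) (nat_lit 760) (nat_lit 3227307289) (nat_lit 836) (nat_lit 3384686713) (nat_lit 353) (nat_lit 5) (nat_lit 363) (nat_lit 5) (nat_lit 364) (nat_lit 5) (nat_lit 428) (nat_lit 369) (nat_lit 343))) (XT.nd (nat_lit 78) (nat_lit 1596) (nat_lit 0) (XT.lf (nat_lit 0) (nat_lit 6540176439) (nat_lit 760) (nat_lit 797134881) (nat_lit 836) (nat_lit 396392895) (nat_lit 353) (nat_lit 5) (nat_lit 363) (nat_lit 5) (nat_lit 364) (nat_lit 5) (nat_lit 429) (nat_lit 369) (nat_lit 342)) (XT.nd (nat_lit 78) (nat_lit 760) (nat_lit 0) (XT.lf (nat_lit 0) (nat_lit 2604367670) (nat_lit 836) (nat_lit 3488462241) (nat_lit 76) (nat_lit 1698919612)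 (nat_lit 342) (nat_lit 5) (nat_lit 353) (nat_lit 5) (nat_lit 343) (nat_lit 5) (nat_lit 430) (nat_lit 369) (nat_lit 341)) (XT.lf (nat_lit 0) (nat_lit 2035560793) (nat_lit 760) (nat_lit 3599721942) (nat_lit 836) (nat_lit 2216123213) (nat_lit 332) (nat_lit 5) (nat_lit 342) (nat_lit 5) (nat_lit 343) (nat_lit 5) (nat_lit 431) (nat_lit 369) (nat_lit 340))))) (XT.nd (nat_lit 234) (nat_lit 1444) (nat_lit 0) (XT.nd (nat_lit 78) (nat_lit 1444) (nat_lit 0) (XT.lf (nat_lit 0) (nat_lit 776605211) (nat_lit 836) (nat_lit 258781294) (nat_lit 76) (nat_lit 6877319775) (nat_lit 331) (nat_lit 5) (nat_lit 342) (nat_lit 5) (nat_lit 332) (nat_lit 5) (nat_lit 432) (nat_lit 369) (nat_lit 339)) (XT.nd (nat_lit 78) (nat_lit 684) (nat_lit 0) (XT.lf (nat_lit 0) (nat_lit 3795352297) (nat_lit 836) (nat_lit 2577856068) (nat_lit 76) (nat_lit 1601825411) (nat_lit 321) (nat_lit 5) (nat_lit 332) (nat_lit 5) (nat_lit 322) (nat_lit 5) (nat_lit 433) (nat_lit 369)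 (nat_lit 338)) (XT.lf (nat_lit 0) (nat_lit 3106758650) (nat_lit 684) (nat_lit 3747203802) (nat_lit 760) (nat_lit 1185066281) (nat_lit 312) (nat_lit 5) (nat_lit 321) (nat_lit 5) (nat_lit 322) (nat_lit 5) (nat_lit 434) (nat_lit 369) (nat_lit 337)))) (XT.nd (nat_lit 78) (nat_lit 684) (nat_lit 0) (XT.lf (nat_lit 0) (nat_lit 775381046) (nat_lit 684) (nat_lit 1042959312) (nat_lit 760) (nat_lit 6286262395) (nat_lit 302) (nat_lit 5) (nat_lit 311) (nat_lit 5) (nat_lit 312) (nat_lit 5) (nat_lit 435) (nat_lit 369) (nat_lit 336)) (XT.nd (nat_lit 78) (nat_lit 684) (nat_lit 0) (XT.lf (nat_lit 0) (nat_lit 4861906302) (nat_lit 760) (nat_lit 1585105289) (nat_lit 76) (nat_lit 1724410871) (nat_lit 302) (nat_lit 5) (nat_lit 312) (nat_lit 5) (nat_lit 303) (nat_lit 5) (nat_lit 436) (nat_lit 369) (nat_lit 335)) (XT.lf (nat_lit 0) (nat_lit 4264963596) (nat_lit 684) (nat_lit 3688418871) (nat_lit 760) (nat_lit 286465182) (nat_lit 293) (nat_lit 5) (nat_lit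 302) (nat_lit 5) (nat_lit 303) (nat_lit 5) (nat_lit 437) (nat_lit 369) (nat_lit 334)))))) (XT.nd (nat_lit 468) (nat_lit 2964) (nat_lit 0) (XT.nd (nat_lit 234) (nat_lit 1292) (nat_lit 0) (XT.nd (nat_lit 78) (nat_lit 684) (nat_lit 0) (XT.lf (nat_lit 0) (nat_lit 1892465418) (nat_lit 684) (nat_lit 843570911) (nat_lit 760) (nat_lit 5573737818) (nat_lit 283) (nat_lit 5) (nat_lit 292) (nat_lit 5) (nat_lit 293) (nat_lit 5) (nat_lit 438) (nat_lit 369) (nat_lit 333)) (XT.nd (nat_lit 78) (nat_lit 684) (nat_lit 0) (XT.lf (nat_lit 0) (nat_lit 5808528289) (nat_lit 760) (nat_lit 523665516) (nat_lit 76) (nat_lit 2049009269) (nat_lit 283) (nat_lit 5) (nat_lit 293) (nat_lit 5) (nat_lit 284) (nat_lit 5) (nat_lit 439) (nat_lit 369) (nat_lit 332)) (XT.lf (nat_lit 0) (nat_lit 477317407) (nat_lit 684) (nat_lit 2960501742) (nat_lit 76) (nat_lit 5016280670) (nat_lit 274) (nat_lit 5) (nat_lit 283) (nat_lit 5) (nat_lit 275) (nat_lit 5) (nat_lit 440)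 (nat_lit 369) (nat_lit 331)))) (XT.nd (nat_lit 78) (nat_lit 684) (nat_lit 0) (XT.lf (nat_lit 0) (nat_lit 3075402881) (nat_lit 608) (nat_lit 456293131) (nat_lit 684) (nat_lit 4996870443) (nat_lit 266) (nat_lit 5) (nat_lit 274) (nat_lit 5) (nat_lit 275) (nat_lit 5) (nat_lit 441) (nat_lit 369) (nat_lit 330)) (XT.nd (nat_lit 78) (nat_lit 76) (nat_lit 0) (XT.lf (nat_lit 0) (nat_lit 600751219) (nat_lit 608) (nat_lit 6041833718) (nat_lit 684) (nat_lit 1962037618) (nat_lit 258) (nat_lit 5) (nat_lit 266) (nat_lit 5) (nat_lit 267) (nat_lit 5) (nat_lit 442) (nat_lit 369) (nat_lit 329)) (XT.lf (nat_lit 0) (nat_lit 1113432298) (nat_lit 684) (nat_lit 1900896243) (nat_lit 76) (nat_lit 5667836171) (nat_lit 257) (nat_lit 5) (nat_lit 266) (nat_lit 5) (nat_lit 258) (nat_lit 5) (nat_lit 443) (nat_lit 369) (nat_lit 328))))) (XT.nd (nat_lit 234) (nat_lit 1748) (nat_lit 0) (XT.nd (nat_lit 78) (nat_lit 608) (nat_lit 0) (XT.lf (nat_lit 0) (nat_lit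 4208646830) (nat_lit 684) (nat_lit 4451640199) (nat_lit 76) (nat_lit 101029255) (nat_lit 249) (nat_lit 5) (nat_lit 258) (nat_lit 5) (nat_lit 250) (nat_lit 5) (nat_lit 444) (nat_lit 369) (nat_lit 327)) (XT.nd (nat_lit 78) (nat_lit 76) (nat_lit 0) (XT.lf (nat_lit 0) (nat_lit 1773909648) (nat_lit 532) (nat_lit 5592418471) (nat_lit 608) (nat_lit 1475719449) (nat_lit 242) (nat_lit 5) (nat_lit 249) (nat_lit 5) (nat_lit 250) (nat_lit 5) (nat_lit 445) (nat_lit 369) (nat_lit 326)) (XT.lf (nat_lit 0) (nat_lit 1627466186) (nat_lit 608) (nat_lit 808422564) (nat_lit 76) (nat_lit 6488566353) (nat_lit 241) (nat_lit 5) (nat_lit 249) (nat_lit 5) (nat_lit 242) (nat_lit 5) (nat_lit 446) (nat_lit 369) (nat_lit 325)))) (XT.nd (nat_lit 78) (nat_lit 1140) (nat_lit 0) (XT.lf (nat_lit 0) (nat_lit 4771813221) (nat_lit 684) (nat_lit 3430626578) (nat_lit 76) (nat_lit 805906222) (nat_lit 233) (nat_lit 5) (nat_lit 242) (nat_lit 5) (nat_lit 234) (nat_lit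 5) (nat_lit 447) (nat_lit 369) (nat_lit 324)) (XT.nd (nat_lit 78) (nat_lit 608) (nat_lit 0) (XT.lf (nat_lit 0) (nat_lit 2974381746) (nat_lit 532) (nat_lit 5003236314) (nat_lit 608) (nat_lit 1116332608) (nat_lit 226) (nat_lit 5) (nat_lit 233) (nat_lit 5) (nat_lit 234) (nat_lit 5) (nat_lit 448) (nat_lit 369) (nat_lit 323)) (XT.lf (nat_lit 0) (nat_lit 306247154) (nat_lit 532) (nat_lit 1715930423) (nat_lit 608) (nat_lit 7159168450) (nat_lit 218) (nat_lit 5) (nat_lit 225) (nat_lit 5) (nat_lit 226) (nat_lit 5) (nat_lit 449) (nat_lit 369) (nat_lit 322))))))))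
noncomputable def xc61 : XT := (XT.nd (nat_lit 1794) (nat_lit 4940) (nat_lit 0) (XT.nd (nat_lit 858) (nat_lit 3344) (nat_lit 0) (XT.nd (nat_lit 390) (nat_lit 1900) (nat_lit 0) (XT.nd (nat_lit 156) (nat_lit 1064) (nat_lit 0) (XT.nd (nat_lit 78) (nat_lit 456) (nat_lit 0) (XT.lf (nat_lit 0) (nat_lit 5218691449) (nat_lit 608) (nat_lit 2402181755) (nat_lit 76) (nat_lit 1649271792) (nat_lit 218) (nat_lit 5) (nat_lit 226) (nat_lit 5) (nat_lit 219) (nat_lit 5) (nat_lit 450) (nat_lit 369) (nat_lit 321)) (XT.lf (nat_lit 0) (nat_lit 4187125692) (nat_lit 456) (nat_lit 4289579315) (nat_lit 532) (nat_lit 884070318) (nat_lit 212) (nat_lit 5) (nat_lit 218) (nat_lit 5) (nat_lit 219) (nat_lit 5) (nat_lit 451) (nat_lit 369) (nat_lit 320))) (XT.nd (nat_lit 78) (nat_lit 456) (nat_lit 0) (XT.lf (nat_lit 0) (nat_lit 1434561749) (nat_lit 532) (nat_lit 866046072) (nat_lit 608) (nat_lit 7152617743) (nat_lit 204) (nat_lit 5) (nat_lit 211) (nat_lit 5)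 (nat_lit 212) (nat_lit 5) (nat_lit 452) (nat_lit 369) (nat_lit 319)) (XT.nd (nat_lit 78) (nat_lit 456) (nat_lit 0) (XT.lf (nat_lit 0) (nat_lit 5548663378) (nat_lit 608) (nat_lit 1382028882) (nat_lit 76) (nat_lit 2616491620) (nat_lit 204) (nat_lit 5) (nat_lit 212) (nat_lit 5) (nat_lit 205) (nat_lit 5) (nat_lit 453) (nat_lit 369) (nat_lit 318)) (XT.lf (nat_lit 0) (nat_lit 5396366063) (nat_lit 456) (nat_lit 3466393232) (nat_lit 532) (nat_lit 780246738) (nat_lit 198) (nat_lit 5) (nat_lit 204) (nat_lit 5) (nat_lit 205) (nat_lit 5) (nat_lit 454) (nat_lit 369) (nat_lit 317))))) (XT.nd (nat_lit 234) (nat_lit 912) (nat_lit 0) (XT.nd (nat_lit 78) (nat_lit 456) (nat_lit 0) (XT.lf (nat_lit 0) (nat_lit 2456526726) (nat_lit 532) (nat_lit 7191849177) (nat_lit 76) (nat_lit 92310721) (nat_lit 191) (nat_lit 5) (nat_lit 198) (nat_lit 5) (nat_lit 192) (nat_lit 5) (nat_lit 455) (nat_lit 369) (nat_lit 316)) (XT.nd (nat_lit 78) (nat_lit 456) (nat_lit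 0) (XT.lf (nat_lit 0) (nat_lit 5760002744) (nat_lit 532) (nat_lit 386759546) (nat_lit 76) (nat_lit 3693212990) (nat_lit 191) (nat_lit 5) (nat_lit 198) (nat_lit 5) (nat_lit 192) (nat_lit 5) (nat_lit 456) (nat_lit 369) (nat_lit 315)) (XT.lf (nat_lit 0) (nat_lit 6585423206) (nat_lit 456) (nat_lit 2548414032) (nat_lit 532) (nat_lit 807332469) (nat_lit 185) (nat_lit 5) (nat_lit 191) (nat_lit 5) (nat_lit 192) (nat_lit 5) (nat_lit 457) (nat_lit 369) (nat_lit 314)))) (XT.nd (nat_lit 78) (nat_lit 380) (nat_lit 0) (XT.lf (nat_lit 0) (nat_lit 2492899746) (nat_lit 532) (nat_lit 6418127178) (nat_lit 76) (nat_lit 1133131410) (nat_lit 178) (nat_lit 5) (nat_lit 185) (nat_lit 5) (nat_lit 179) (nat_lit 5) (nat_lit 458) (nat_lit 369) (nat_lit 313)) (XT.nd (nat_lit 78) (nat_lit 0) (nat_lit 0) (XT.lf (nat_lit 0) (nat_lit 573509855) (nat_lit 380) (nat_lit 5280048082) (nat_lit 456) (nat_lit 4295442882) (nat_lit 173) (nat_lit 5) (nat_lit 178) (nat_lit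 5) (nat_lit 179) (nat_lit 5) (nat_lit 459) (nat_lit 369) (nat_lit 312)) (XT.lf (nat_lit 0) (nat_lit 7736530987) (nat_lit 380) (nat_lit 1550306261) (nat_lit 456) (nat_lit 969000083) (nat_lit 173) (nat_lit 5) (nat_lit 178) (nat_lit 5) (nat_lit 179) (nat_lit 5) (nat_lit 460) (nat_lit 369) (nat_lit 311)))))) (XT.nd (nat_lit 468) (nat_lit 1596) (nat_lit 0) (XT.nd (nat_lit 234) (nat_lit 836) (nat_lit 0) (XT.nd (nat_lit 78) (nat_lit 380) (nat_lit 0) (XT.lf (nat_lit 0) (nat_lit 2400145115) (nat_lit 532) (nat_lit 5710828989) (nat_lit 76) (nat_lit 2253367552) (nat_lit 166) (nat_lit 5) (nat_lit 173) (nat_lit 5) (nat_lit 167) (nat_lit 5) (nat_lit 461) (nat_lit 369) (nat_lit 310)) (XT.nd (nat_lit 78) (nat_lit 0) (nat_lit 0) (XT.lf (nat_lit 0) (nat_lit 1476706047) (nat_lit 380) (nat_lit 4346964708) (nat_lit 456) (nat_lit 4651222791) (nat_lit 161) (nat_lit 5) (nat_lit 166) (nat_lit 5) (nat_lit 167) (nat_lit 5) (nat_lit 462) (nat_lit 369)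 (nat_lit 309)) (XT.lf (nat_lit 0) (nat_lit 8830641159) (nat_lit 380) (nat_lit 486804438) (nat_lit 456) (nat_lit 1270180235) (nat_lit 161) (nat_lit 5) (nat_lit 166) (nat_lit 5) (nat_lit 167) (nat_lit 5) (nat_lit 463) (nat_lit 369) (nat_lit 308)))) (XT.nd (nat_lit 78) (nat_lit 380) (nat_lit 0) (XT.lf (nat_lit 0) (nat_lit 2173047947) (nat_lit 456) (nat_lit 5090321627) (nat_lit 76) (nat_lit 3438502327) (nat_lit 155) (nat_lit 5) (nat_lit 161) (nat_lit 5) (nat_lit 156) (nat_lit 5) (nat_lit 464) (nat_lit 369) (nat_lit 307)) (XT.nd (nat_lit 78) (nat_lit 0) (nat_lit 0) (XT.lf (nat_lit 0) (nat_lit 2297100715) (nat_lit 380) (nat_lit 3365225525) (nat_lit 456) (nat_lit 5156029515) (nat_lit 150) (nat_lit 5) (nat_lit 155) (nat_lit 5) (nat_lit 156) (nat_lit 5) (nat_lit 465) (nat_lit 369) (nat_lit 306)) (XT.lf (nat_lit 0) (nat_lit 9224143011) (nat_lit 456) (nat_lit 1094059531) (nat_lit 76) (nat_lit 618916240) (nat_lit 150) (nat_lit 5) (nat_lit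 156) (nat_lit 5) (nat_lit 151) (nat_lit 5) (nat_lit 466) (nat_lit 369) (nat_lit 305))))) (XT.nd (nat_lit 234) (nat_lit 760) (nat_lit 0) (XT.nd (nat_lit 78) (nat_lit 380) (nat_lit 0) (XT.lf (nat_lit 0) (nat_lit 1805066267) (nat_lit 456) (nat_lit 4578604367) (nat_lit 76) (nat_lit 4673762805) (nat_lit 144) (nat_lit 5) (nat_lit 150) (nat_lit 5) (nat_lit 145) (nat_lit 5) (nat_lit 467) (nat_lit 369) (nat_lit 304)) (XT.nd (nat_lit 78) (nat_lit 0) (nat_lit 0) (XT.lf (nat_lit 0) (nat_lit 3012418064) (nat_lit 380) (nat_lit 2350289962) (nat_lit 456) (nat_lit 5817380687) (nat_lit 139) (nat_lit 5) (nat_lit 144) (nat_lit 5) (nat_lit 145) (nat_lit 5) (nat_lit 468) (nat_lit 369) (nat_lit 303)) (XT.lf (nat_lit 0) (nat_lit 8999300973) (nat_lit 456) (nat_lit 552825618) (nat_lit 76) (nat_lit 1752918743) (nat_lit 139) (nat_lit 5) (nat_lit 145) (nat_lit 5) (nat_lit 140) (nat_lit 5) (nat_lit 469) (nat_lit 369) (nat_lit 302)))) (XT.nd (nat_lit 78)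 (nat_lit 304) (nat_lit 0) (XT.lf (nat_lit 0) (nat_lit 1288247823) (nat_lit 456) (nat_lit 4199546449) (nat_lit 76) (nat_lit 5943967957) (nat_lit 133) (nat_lit 5) (nat_lit 139) (nat_lit 5) (nat_lit 134) (nat_lit 5) (nat_lit 470) (nat_lit 369) (nat_lit 301)) (XT.nd (nat_lit 78) (nat_lit 0) (nat_lit 0) (XT.lf (nat_lit 0) (nat_lit 3598450809) (nat_lit 304) (nat_lit 1318115924) (nat_lit 380) (nat_lit 6644279460) (nat_lit 129) (nat_lit 5) (nat_lit 133) (nat_lit 5) (nat_lit 134) (nat_lit 5) (nat_lit 471) (nat_lit 369) (nat_lit 300)) (XT.lf (nat_lit 0) (nat_lit 8631266660) (nat_lit 380) (nat_lit 155019067) (nat_lit 76) (nat_lit 2905953705) (nat_lit 129) (nat_lit 5) (nat_lit 134) (nat_lit 5) (nat_lit 130) (nat_lit 5) (nat_lit 472) (nat_lit 369) (nat_lit 299))))))) (XT.nd (nat_lit 936) (nat_lit 2204) (nat_lit 0) (XT.nd (nat_lit 468) (nat_lit 988) (nat_lit 0) (XT.nd (nat_lit 234) (nat_lit 684) (nat_lit 0) (XT.nd (nat_lit 78) (nat_lit 608)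 (nat_lit 0) (XT.lf (nat_lit 0) (nat_lit 613133844) (nat_lit 456) (nat_lit 3979145422) (nat_lit 76) (nat_lit 7233369389) (nat_lit 123) (nat_lit 5) (nat_lit 129) (nat_lit 5) (nat_lit 124) (nat_lit 5) (nat_lit 473) (nat_lit 369) (nat_lit 298)) (XT.nd (nat_lit 78) (nat_lit 304) (nat_lit 0) (XT.lf (nat_lit 0) (nat_lit 4028794611) (nat_lit 304) (nat_lit 285324836) (nat_lit 380) (nat_lit 7647317953) (nat_lit 119) (nat_lit 5) (nat_lit 123) (nat_lit 5) (nat_lit 124) (nat_lit 5) (nat_lit 474) (nat_lit 369) (nat_lit 297)) (XT.lf (nat_lit 0) (nat_lit 73132664) (nat_lit 304) (nat_lit 8037338550) (nat_lit 380) (nat_lit 3989047369) (nat_lit 115) (nat_lit 5) (nat_lit 119) (nat_lit 5) (nat_lit 120) (nat_lit 5) (nat_lit 475) (nat_lit 369) (nat_lit 296)))) (XT.nd (nat_lit 78) (nat_lit 684) (nat_lit 0) (XT.lf (nat_lit 0) (nat_lit 8292579547) (nat_lit 304) (nat_lit 3712904829) (nat_lit 380) (nat_lit 234425849) (nat_lit 115) (nat_lit 5) (nat_lit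 119) (nat_lit 5) (nat_lit 120) (nat_lit 5) (nat_lit 476) (nat_lit 369) (nat_lit 295)) (XT.nd (nat_lit 78) (nat_lit 304) (nat_lit 0) (XT.lf (nat_lit 0) (nat_lit 3548678423) (nat_lit 380) (nat_lit 8112915395) (nat_lit 76) (nat_lit 721041542) (nat_lit 110) (nat_lit 5) (nat_lit 115) (nat_lit 5) (nat_lit 111) (nat_lit 5) (nat_lit 477) (nat_lit 369) (nat_lit 294)) (XT.lf (nat_lit 0) (nat_lit 100294951) (nat_lit 304) (nat_lit 7324132250) (nat_lit 380) (nat_lit 5103357697) (nat_lit 106) (nat_lit 5) (nat_lit 110) (nat_lit 5) (nat_lit 111) (nat_lit 5) (nat_lit 478) (nat_lit 369) (nat_lit 293))))) (XT.nd (nat_lit 234) (nat_lit 608) (nat_lit 0) (XT.nd (nat_lit 78) (nat_lit 380) (nat_lit 0) (XT.lf (nat_lit 0) (nat_lit 8536444672) (nat_lit 304) (nat_lit 2864192809) (nat_lit 380) (nat_lit 1274744270) (nat_lit 106) (nat_lit 5) (nat_lit 110) (nat_lit 5) (nat_lit 111) (nat_lit 5) (nat_lit 479) (nat_lit 369) (nat_lit 292)) (XT.nd (nat_lit 78)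 (nat_lit 0) (nat_lit 0) (XT.lf (nat_lit 0) (nat_lit 2603912514) (nat_lit 380) (nat_lit 8532716750) (nat_lit 76) (nat_lit 1688803435) (nat_lit 101) (nat_lit 5) (nat_lit 106) (nat_lit 5) (nat_lit 102) (nat_lit 5) (nat_lit 480) (nat_lit 369) (nat_lit 291)) (XT.lf (nat_lit 0) (nat_lit 6559086012) (nat_lit 380) (nat_lit 107283263) (nat_lit 76) (nat_lit 6311629688) (nat_lit 101) (nat_lit 5) (nat_lit 106) (nat_lit 5) (nat_lit 102) (nat_lit 5) (nat_lit 481) (nat_lit 369) (nat_lit 290)))) (XT.nd (nat_lit 78) (nat_lit 304) (nat_lit 0) (XT.lf (nat_lit 0) (nat_lit 8548910380) (nat_lit 304) (nat_lit 2069634167) (nat_lit 380) (nat_lit 2514571379) (nat_lit 97) (nat_lit 5) (nat_lit 101) (nat_lit 5) (nat_lit 102) (nat_lit 5) (nat_lit 482) (nat_lit 369) (nat_lit 289)) (XT.nd (nat_lit 78) (nat_lit 0) (nat_lit 0) (XT.lf (nat_lit 0) (nat_lit 1462703787) (nat_lit 304) (nat_lit 9225905966) (nat_lit 76) (nat_lit 2602255800) (nat_lit 93) (nat_lit 5)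 (nat_lit 97) (nat_lit 5) (nat_lit 94) (nat_lit 5) (nat_lit 483) (nat_lit 369) (nat_lit 288)) (XT.lf (nat_lit 0) (nat_lit 5500449097) (nat_lit 304) (nat_lit 582561727) (nat_lit 76) (nat_lit 7368137858) (nat_lit 93) (nat_lit 5) (nat_lit 97) (nat_lit 5) (nat_lit 94) (nat_lit 5) (nat_lit 484) (nat_lit 369) (nat_lit 287)))))) (XT.nd (nat_lit 468) (nat_lit 988) (nat_lit 0) (XT.nd (nat_lit 234) (nat_lit 608) (nat_lit 0) (XT.nd (nat_lit 78) (nat_lit 304) (nat_lit 0) (XT.lf (nat_lit 0) (nat_lit 8293307576) (nat_lit 304) (nat_lit 1349968698) (nat_lit 380) (nat_lit 3970877438) (nat_lit 89) (nat_lit 5) (nat_lit 93) (nat_lit 5) (nat_lit 94) (nat_lit 5) (nat_lit 485) (nat_lit 369) (nat_lit 286)) (XT.nd (nat_lit 78) (nat_lit 0) (nat_lit 0) (XT.lf (nat_lit 0) (nat_lit 107684403) (nat_lit 304) (nat_lit 10231784794) (nat_lit 76) (nat_lit 3440534728) (nat_lit 85) (nat_lit 5) (nat_lit 89) (nat_lit 5) (nat_lit 86) (nat_lit 5) (nat_lit 486) (nat_lit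 369) (nat_lit 285)) (XT.lf (nat_lit 0) (nat_lit 4230258993) (nat_lit 304) (nat_lit 1366455975) (nat_lit 76) (nat_lit 8351621609) (nat_lit 85) (nat_lit 5) (nat_lit 89) (nat_lit 5) (nat_lit 86) (nat_lit 5) (nat_lit 487) (nat_lit 369) (nat_lit 284)))) (XT.nd (nat_lit 78) (nat_lit 304) (nat_lit 0) (XT.lf (nat_lit 0) (nat_lit 7729199985) (nat_lit 304) (nat_lit 727522624) (nat_lit 380) (nat_lit 5662887088) (nat_lit 81) (nat_lit 5) (nat_lit 85) (nat_lit 5) (nat_lit 86) (nat_lit 5) (nat_lit 488) (nat_lit 369) (nat_lit 283)) (XT.nd (nat_lit 78) (nat_lit 76) (nat_lit 0) (XT.lf (nat_lit 0) (nat_lit 2690391607) (nat_lit 228) (nat_lit 10102924187) (nat_lit 304) (nat_lit 1500482994) (nat_lit 78) (nat_lit 5) (nat_lit 81) (nat_lit 5) (nat_lit 82) (nat_lit 5) (nat_lit 489) (nat_lit 369) (nat_lit 282)) (XT.lf (nat_lit 0) (nat_lit 2728588398) (nat_lit 304) (nat_lit 2502646651) (nat_lit 76) (nat_lit 9239494108) (nat_lit 77) (nat_lit 5) (nat_lit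 81) (nat_lit 5) (nat_lit 78) (nat_lit 5) (nat_lit 490) (nat_lit 369) (nat_lit 281))))) (XT.nd (nat_lit 234) (nat_lit 456) (nat_lit 0) (XT.nd (nat_lit 78) (nat_lit 304) (nat_lit 0) (XT.lf (nat_lit 0) (nat_lit 6811943938) (nat_lit 228) (nat_lit 226449865) (nat_lit 304) (nat_lit 7612283455) (nat_lit 74) (nat_lit 5) (nat_lit 77) (nat_lit 5) (nat_lit 78) (nat_lit 5) (nat_lit 491) (nat_lit 369) (nat_lit 280)) (XT.nd (nat_lit 78) (nat_lit 76) (nat_lit 0) (XT.lf (nat_lit 0) (nat_lit 1452419655) (nat_lit 228) (nat_lit 10012098078) (nat_lit 304) (nat_lit 3369106464) (nat_lit 71) (nat_lit 5) (nat_lit 74) (nat_lit 5) (nat_lit 75) (nat_lit 5) (nat_lit 492) (nat_lit 369) (nat_lit 279)) (XT.lf (nat_lit 0) (nat_lit 972974320) (nat_lit 304) (nat_lit 4039364372) (nat_lit 76) (nat_lit 10007236758) (nat_lit 70) (nat_lit 5) (nat_lit 74) (nat_lit 5) (nat_lit 71) (nat_lit 5) (nat_lit 493) (nat_lit 369) (nat_lit 278)))) (XT.nd (nat_lit 78) (nat_lit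 228) (nat_lit 0) (XT.lf (nat_lit 0) (nat_lit 5366022741) (nat_lit 304) (nat_lit 9717254482) (nat_lit 76) (nat_lit 125340531) (nat_lit 67) (nat_lit 5) (nat_lit 71) (nat_lit 5) (nat_lit 68) (nat_lit 5) (nat_lit 494) (nat_lit 369) (nat_lit 277)) (XT.nd (nat_lit 78) (nat_lit 228) (nat_lit 0) (XT.lf (nat_lit 0) (nat_lit 9880231376) (nat_lit 304) (nat_lit 213748761) (nat_lit 76) (nat_lit 5306796930) (nat_lit 67) (nat_lit 5) (nat_lit 71) (nat_lit 5) (nat_lit 68) (nat_lit 5) (nat_lit 495) (nat_lit 369) (nat_lit 276)) (XT.lf (nat_lit 0) (nat_lit 9559181487) (nat_lit 228) (nat_lit 4960959377) (nat_lit 304) (nat_lit 1075932471) (nat_lit 64) (nat_lit 5) (nat_lit 67) (nat_lit 5) (nat_lit 68) (nat_lit 5) (nat_lit 496) (nat_lit 369) (nat_lit 275))))))))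
noncomputable def xc62 : XT := (XT.nd (nat_lit 52806) (nat_lit 0) (nat_lit 19456) (XT.nd (nat_lit 51870) (nat_lit 0) (nat_lit 36936) (XT.nd (nat_lit 390) (nat_lit 608) (nat_lit 0) (XT.nd (nat_lit 156) (nat_lit 456) (nat_lit 0) (XT.nd (nat_lit 78) (nat_lit 0) (nat_lit 0) (XT.lf (nat_lit 0) (nat_lit 3413169247) (nat_lit 304) (nat_lit 12081402229) (nat_lit 76) (nat_lit 300238241) (nat_lit 60) (nat_lit 5) (nat_lit 64) (nat_lit 5) (nat_lit 61) (nat_lit 5) (nat_lit 497) (nat_lit 369) (nat_lit 274)) (XT.lf (nat_lit 0) (nat_lit 8024792109) (nat_lit 304) (nat_lit 2342583083) (nat_lit 76) (nat_lit 5629062463) (nat_lit 60) (nat_lit 5) (nat_lit 64) (nat_lit 5) (nat_lit 61) (nat_lit 5) (nat_lit 498) (nat_lit 369) (nat_lit 273))) (XT.nd (nat_lit 78) (nat_lit 304) (nat_lit 0) (XT.lf (nat_lit 0) (nat_lit 7646027508) (nat_lit 152) (nat_lit 5106281960) (nat_lit 228) (nat_lit 3449317386) (nat_lit 58) (nat_lit 5) (nat_lit 60) (nat_lit 5) (nat_lit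 61) (nat_lit 5) (nat_lit 499) (nat_lit 369) (nat_lit 272)) (XT.nd (nat_lit 78) (nat_lit 0) (nat_lit 0) (XT.lf (nat_lit 0) (nat_lit 1149092381) (nat_lit 304) (nat_lit 14991338646) (nat_lit 76) (nat_lit 270321720) (nat_lit 54) (nat_lit 5) (nat_lit 58) (nat_lit 5) (nat_lit 55) (nat_lit 5) (nat_lit 500) (nat_lit 369) (nat_lit 271)) (XT.lf (nat_lit 0) (nat_lit 5859091336) (nat_lit 304) (nat_lit 5015457063) (nat_lit 76) (nat_lit 5747742445) (nat_lit 54) (nat_lit 5) (nat_lit 58) (nat_lit 5) (nat_lit 55) (nat_lit 5) (nat_lit 501) (nat_lit 369) (nat_lit 270))))) (XT.nd (nat_lit 234) (nat_lit 152) (nat_lit 0) (XT.nd (nat_lit 78) (nat_lit 304) (nat_lit 0) (XT.lf (nat_lit 0) (nat_lit 5183408224) (nat_lit 152) (nat_lit 5488197884) (nat_lit 228) (nat_lit 6166289074) (nat_lit 52) (nat_lit 5) (nat_lit 54) (nat_lit 5) (nat_lit 55) (nat_lit 5) (nat_lit 502) (nat_lit 369) (nat_lit 269)) (XT.nd (nat_lit 78) (nat_lit 304) (nat_lit 0) (XT.lf (nat_lit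 0) (nat_lit 15589036052) (nat_lit 228) (nat_lit 1447765640) (nat_lit 76) (nat_lit 20838377) (nat_lit 52) (nat_lit 5) (nat_lit 55) (nat_lit 5) (nat_lit 53) (nat_lit 5) (nat_lit 503) (nat_lit 369) (nat_lit 268)) (XT.lf (nat_lit 0) (nat_lit 3349943783) (nat_lit 304) (nat_lit 8301353263) (nat_lit 76) (nat_lit 5628643169) (nat_lit 48) (nat_lit 5) (nat_lit 52) (nat_lit 5) (nat_lit 49) (nat_lit 5) (nat_lit 504) (nat_lit 369) (nat_lit 267)))) (XT.nd (nat_lit 78) (nat_lit 0) (nat_lit 0) (XT.lf (nat_lit 0) (nat_lit 2100588120) (nat_lit 152) (nat_lit 6143327932) (nat_lit 228) (nat_lit 9262603460) (nat_lit 46) (nat_lit 5) (nat_lit 48) (nat_lit 5) (nat_lit 49) (nat_lit 5) (nat_lit 505) (nat_lit 369) (nat_lit 266)) (XT.nd (nat_lit 51090) (nat_lit 0) (nat_lit 46816) (XT.lf (nat_lit 0) (nat_lit 12779612666) (nat_lit 152) (nat_lit 487345621) (nat_lit 228) (nat_lit 4470049924) (nat_lit 46) (nat_lit 5) (nat_lit 48) (nat_lit 5) (nat_lit 49) (nat_lit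 5) (nat_lit 506) (nat_lit 369) (nat_lit 265)) (XT.lf (nat_lit 0) (nat_lit 678799463) (nat_lit 836) (nat_lit 1319410631) (nat_lit 836) (nat_lit 1319410631) (nat_lit 662) (nat_lit 4) (nat_lit 673) (nat_lit 5) (nat_lit 673) (nat_lit 4) (nat_lit 400) (nat_lit 370) (nat_lit 370)))))) (XT.nd (nat_lit 468) (nat_lit 5548) (nat_lit 0) (XT.nd (nat_lit 234) (nat_lit 2280) (nat_lit 0) (XT.nd (nat_lit 78) (nat_lit 1976) (nat_lit 0) (XT.lf (nat_lit 0) (nat_lit 595540497) (nat_lit 912) (nat_lit 1094220153) (nat_lit 76) (nat_lit 4965595988) (nat_lit 661) (nat_lit 5) (nat_lit 673) (nat_lit 5) (nat_lit 662) (nat_lit 4) (nat_lit 401) (nat_lit 370) (nat_lit 369)) (XT.nd (nat_lit 78) (nat_lit 1064) (nat_lit 0) (XT.lf (nat_lit 0) (nat_lit 3141136894) (nat_lit 912) (nat_lit 666049955) (nat_lit 988) (nat_lit 2869405316) (nat_lit 649) (nat_lit 5) (nat_lit 661) (nat_lit 5) (nat_lit 662) (nat_lit 4) (nat_lit 402) (nat_lit 370) (nat_lit 368)) (XT.lf (nat_lit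 0) (nat_lit 322615331) (nat_lit 1064) (nat_lit 5973208169) (nat_lit 76) (nat_lit 403546488) (nat_lit 635) (nat_lit 5) (nat_lit 649) (nat_lit 5) (nat_lit 636) (nat_lit 4) (nat_lit 403) (nat_lit 370) (nat_lit 367)))) (XT.nd (nat_lit 78) (nat_lit 2280) (nat_lit 0) (XT.lf (nat_lit 0) (nat_lit 3497600951) (nat_lit 1064) (nat_lit 1682005976) (nat_lit 76) (nat_lit 1543490226) (nat_lit 635) (nat_lit 5) (nat_lit 649) (nat_lit 5) (nat_lit 636) (nat_lit 4) (nat_lit 404) (nat_lit 370) (nat_lit 366)) (XT.nd (nat_lit 78) (nat_lit 1216) (nat_lit 0) (XT.lf (nat_lit 0) (nat_lit 2673970596) (nat_lit 1064) (nat_lit 4010081948) (nat_lit 1140) (nat_lit 64310562) (nat_lit 621) (nat_lit 5) (nat_lit 635) (nat_lit 5) (nat_lit 636) (nat_lit 4) (nat_lit 405) (nat_lit 370) (nat_lit 365)) (XT.lf (nat_lit 0) (nat_lit 292514274) (nat_lit 1140) (nat_lit 2770528371) (nat_lit 1216) (nat_lit 3711816257) (nat_lit 605) (nat_lit 5) (nat_lit 620) (nat_lit 5) (nat_lit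 621) (nat_lit 5) (nat_lit 406) (nat_lit 370) (nat_lit 364))))) (XT.nd (nat_lit 234) (nat_lit 2964) (nat_lit 0) (XT.nd (nat_lit 78) (nat_lit 2584) (nat_lit 0) (XT.lf (nat_lit 0) (nat_lit 4745242057) (nat_lit 1140) (nat_lit 1466291889) (nat_lit 1216) (nat_lit 591175333) (nat_lit 605) (nat_lit 5) (nat_lit 620) (nat_lit 5) (nat_lit 621) (nat_lit 5) (nat_lit 407) (nat_lit 370) (nat_lit 363)) (XT.nd (nat_lit 78) (nat_lit 1292) (nat_lit 0) (XT.lf (nat_lit 0) (nat_lit 2414624964) (nat_lit 1216) (nat_lit 91919527) (nat_lit 1292) (nat_lit 4325283776) (nat_lit 588) (nat_lit 5) (nat_lit 604) (nat_lit 5) (nat_lit 605) (nat_lit 5) (nat_lit 408) (nat_lit 370) (nat_lit 362)) (XT.lf (nat_lit 0) (nat_lit 74092438) (nat_lit 1292) (nat_lit 5541102759) (nat_lit 1368) (nat_lit 1247139368) (nat_lit 571) (nat_lit 5) (nat_lit 588) (nat_lit 5) (nat_lit 589) (nat_lit 5) (nat_lit 409) (nat_lit 370) (nat_lit 361)))) (XT.nd (nat_lit 78) (nat_lit 2888) (nat_lit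 0) (XT.lf (nat_lit 0) (nat_lit 1832668303) (nat_lit 1368) (nat_lit 2248538187) (nat_lit 76) (nat_lit 2812720424) (nat_lit 570) (nat_lit 5) (nat_lit 588) (nat_lit 5) (nat_lit 571) (nat_lit 5) (nat_lit 410) (nat_lit 370) (nat_lit 360)) (XT.nd (nat_lit 78) (nat_lit 1520) (nat_lit 0) (XT.lf (nat_lit 0) (nat_lit 2347947687) (nat_lit 1368) (nat_lit 2560445036) (nat_lit 1444) (nat_lit 2018592841) (nat_lit 552) (nat_lit 5) (nat_lit 570) (nat_lit 5) (nat_lit 571) (nat_lit 5) (nat_lit 411) (nat_lit 370) (nat_lit 359)) (XT.lf (nat_lit 0) (nat_lit 42815446) (nat_lit 1444) (nat_lit 979564633) (nat_lit 1520) (nat_lit 5939169727) (nat_lit 532) (nat_lit 5) (nat_lit 551) (nat_lit 5) (nat_lit 552) (nat_lit 5) (nat_lit 412) (nat_lit 370) (nat_lit 358))))))) (XT.nd (nat_lit 936) (nat_lit 6384) (nat_lit 0) (XT.nd (nat_lit 468) (nat_lit 4408) (nat_lit 0) (XT.nd (nat_lit 234) (nat_lit 3496) (nat_lit 0) (XT.nd (nat_lit 78) (nat_lit 3192) (nat_lit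 0) (XT.lf (nat_lit 0) (nat_lit 4069348724) (nat_lit 1520) (nat_lit 2252679074) (nat_lit 76) (nat_lit 675085157) (nat_lit 532) (nat_lit 5) (nat_lit 552) (nat_lit 5) (nat_lit 533) (nat_lit 5) (nat_lit 413) (nat_lit 370) (nat_lit 357)) (XT.nd (nat_lit 78) (nat_lit 1596) (nat_lit 0) (XT.lf (nat_lit 0) (nat_lit 102639598) (nat_lit 1596) (nat_lit 4559027207) (nat_lit 76) (nat_lit 2372506601) (nat_lit 511) (nat_lit 5) (nat_lit 532) (nat_lit 5) (nat_lit 512) (nat_lit 5) (nat_lit 414) (nat_lit 370) (nat_lit 356)) (XT.lf (nat_lit 0) (nat_lit 181985277) (nat_lit 1596) (nat_lit 2927691852) (nat_lit 1672) (nat_lit 3962823832) (nat_lit 490) (nat_lit 5) (nat_lit 511) (nat_lit 5) (nat_lit 512) (nat_lit 5) (nat_lit 415) (nat_lit 370) (nat_lit 355)))) (XT.nd (nat_lit 78) (nat_lit 3496) (nat_lit 0) (XT.lf (nat_lit 0) (nat_lit 5022690703) (nat_lit 1596) (nat_lit 1124382109) (nat_lit 1672) (nat_lit 965135076) (nat_lit 490) (nat_lit 5) (nat_lit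 511) (nat_lit 5) (nat_lit 512) (nat_lit 5) (nat_lit 416) (nat_lit 370) (nat_lit 354)) (XT.nd (nat_lit 78) (nat_lit 1748) (nat_lit 0) (XT.lf (nat_lit 0) (nat_lit 2028342346) (nat_lit 1748) (nat_lit 4384482319) (nat_lit 76) (nat_lit 740363503) (nat_lit 467) (nat_lit 5) (nat_lit 490) (nat_lit 5) (nat_lit 468) (nat_lit 5) (nat_lit 417) (nat_lit 370) (nat_lit 353)) (XT.lf (nat_lit 0) (nat_lit 492787261) (nat_lit 1748) (nat_lit 4541970520) (nat_lit 1824) (nat_lit 2160799027) (nat_lit 444) (nat_lit 5) (nat_lit 467) (nat_lit 5) (nat_lit 468) (nat_lit 5) (nat_lit 418) (nat_lit 370) (nat_lit 352))))) (XT.nd (nat_lit 234) (nat_lit 1976) (nat_lit 0) (XT.nd (nat_lit 78) (nat_lit 2356) (nat_lit 0) (XT.lf (nat_lit 0) (nat_lit 822434932) (nat_lit 1824) (nat_lit 1774812630) (nat_lit 76) (nat_lit 4642004440) (nat_lit 443) (nat_lit 5) (nat_lit 467) (nat_lit 5) (nat_lit 444) (nat_lit 5) (nat_lit 419) (nat_lit 370) (nat_lit 351)) (XT.nd (nat_lit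 78) (nat_lit 912) (nat_lit 0) (XT.lf (nat_lit 0) (nat_lit 3222929127) (nat_lit 1444) (nat_lit 577170269) (nat_lit 1520) (nat_lit 3484177312) (nat_lit 424) (nat_lit 5) (nat_lit 443) (nat_lit 5) (nat_lit 444) (nat_lit 5) (nat_lit 420) (nat_lit 370) (nat_lit 350)) (XT.lf (nat_lit 0) (nat_lit 960096211) (nat_lit 912) (nat_lit 5848578005) (nat_lit 988) (nat_lit 522115499) (nat_lit 412) (nat_lit 5) (nat_lit 424) (nat_lit 5) (nat_lit 425) (nat_lit 5) (nat_lit 421) (nat_lit 370) (nat_lit 349)))) (XT.nd (nat_lit 78) (nat_lit 1900) (nat_lit 0) (XT.lf (nat_lit 0) (nat_lit 2441524028) (nat_lit 988) (nat_lit 1318783915) (nat_lit 76) (nat_lit 3618112602) (nat_lit 411) (nat_lit 5) (nat_lit 424) (nat_lit 5) (nat_lit 412) (nat_lit 5) (nat_lit 422) (nat_lit 370) (nat_lit 348)) (XT.nd (nat_lit 78) (nat_lit 988) (nat_lit 0) (XT.lf (nat_lit 0) (nat_lit 3824106728) (nat_lit 912) (nat_lit 1603131688) (nat_lit 988) (nat_lit 2000314772) (nat_lit 399)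 (nat_lit 5) (nat_lit 411) (nat_lit 5) (nat_lit 412) (nat_lit 5) (nat_lit 423) (nat_lit 370) (nat_lit 347)) (XT.lf (nat_lit 0) (nat_lit 950360973) (nat_lit 988) (nat_lit 5915141522) (nat_lit 76) (nat_lit 612682085) (nat_lit 386) (nat_lit 5) (nat_lit 399) (nat_lit 5) (nat_lit 387) (nat_lit 5) (nat_lit 424) (nat_lit 370) (nat_lit 346)))))) (XT.nd (nat_lit 468) (nat_lit 3040) (nat_lit 0) (XT.nd (nat_lit 234) (nat_lit 1596) (nat_lit 0) (XT.nd (nat_lit 78) (nat_lit 1748) (nat_lit 0) (XT.lf (nat_lit 0) (nat_lit 3914233123) (nat_lit 988) (nat_lit 729480968) (nat_lit 76) (nat_lit 2886243998) (nat_lit 386) (nat_lit 5) (nat_lit 399) (nat_lit 5) (nat_lit 387) (nat_lit 5) (nat_lit 425) (nat_lit 370) (nat_lit 345)) (XT.nd (nat_lit 78) (nat_lit 912) (nat_lit 0) (XT.lf (nat_lit 0) (nat_lit 4563051767) (nat_lit 836) (nat_lit 2351000579) (nat_lit 912) (nat_lit 669194341) (nat_lit 375) (nat_lit 5) (nat_lit 386) (nat_lit 5) (nat_lit 387) (nat_lit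 5) (nat_lit 426) (nat_lit 370) (nat_lit 344)) (XT.lf (nat_lit 0) (nat_lit 2272912483) (nat_lit 912) (nat_lit 5346440118) (nat_lit 76) (nat_lit 18611868) (nat_lit 363) (nat_lit 5) (nat_lit 375) (nat_lit 5) (nat_lit 364) (nat_lit 5) (nat_lit 427) (nat_lit 370) (nat_lit 343)))) (XT.nd (nat_lit 78) (nat_lit 1596) (nat_lit 0) (XT.lf (nat_lit 0) (nat_lit 5248871409) (nat_lit 912) (nat_lit 20760999) (nat_lit 76) (nat_lit 2424388584) (nat_lit 363) (nat_lit 5) (nat_lit 375) (nat_lit 5) (nat_lit 364) (nat_lit 5) (nat_lit 428) (nat_lit 370) (nat_lit 342)) (XT.nd (nat_lit 78) (nat_lit 760) (nat_lit 0) (XT.lf (nat_lit 0) (nat_lit 510282834) (nat_lit 836) (nat_lit 2328828550) (nat_lit 76) (nat_lit 4912347328) (nat_lit 352) (nat_lit 5) (nat_lit 363) (nat_lit 5) (nat_lit 353) (nat_lit 5) (nat_lit 429) (nat_lit 370) (nat_lit 341)) (XT.lf (nat_lit 0) (nat_lit 3133172026) (nat_lit 760) (nat_lit 328725817) (nat_lit 836) (nat_lit 4348439361) (nat_lit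 342) (nat_lit 5) (nat_lit 352) (nat_lit 5) (nat_lit 353) (nat_lit 5) (nat_lit 430) (nat_lit 370) (nat_lit 340))))) (XT.nd (nat_lit 234) (nat_lit 1444) (nat_lit 0) (XT.nd (nat_lit 78) (nat_lit 836) (nat_lit 0) (XT.lf (nat_lit 0) (nat_lit 804404034) (nat_lit 760) (nat_lit 5653472568) (nat_lit 836) (nat_lit 1412821361) (nat_lit 332) (nat_lit 5) (nat_lit 342) (nat_lit 5) (nat_lit 343) (nat_lit 5) (nat_lit 431) (nat_lit 370) (nat_lit 339)) (XT.nd (nat_lit 78) (nat_lit 760) (nat_lit 0) (XT.lf (nat_lit 0) (nat_lit 1544698383) (nat_lit 836) (nat_lit 1543033094) (nat_lit 76) (nat_lit 4844661362) (nat_lit 331) (nat_lit 5) (nat_lit 342) (nat_lit 5) (nat_lit 332) (nat_lit 5) (nat_lit 432) (nat_lit 370) (nat_lit 338)) (XT.lf (nat_lit 0) (nat_lit 4078208588) (nat_lit 760) (nat_lit 441875700) (nat_lit 836) (nat_lit 3475508554) (nat_lit 321) (nat_lit 5) (nat_lit 331) (nat_lit 5) (nat_lit 332) (nat_lit 5) (nat_lit 433) (nat_lit 370) (nat_lit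 337)))) (XT.nd (nat_lit 78) (nat_lit 760) (nat_lit 0) (XT.lf (nat_lit 0) (nat_lit 1723659818) (nat_lit 684) (nat_lit 5819264144) (nat_lit 760) (nat_lit 517384428) (nat_lit 312) (nat_lit 5) (nat_lit 321) (nat_lit 5) (nat_lit 322) (nat_lit 5) (nat_lit 434) (nat_lit 370) (nat_lit 336)) (XT.nd (nat_lit 78) (nat_lit 684) (nat_lit 0) (XT.lf (nat_lit 0) (nat_lit 2448434601) (nat_lit 760) (nat_lit 671936782) (nat_lit 76) (nat_lit 5006005924) (nat_lit 311) (nat_lit 5) (nat_lit 321) (nat_lit 5) (nat_lit 312) (nat_lit 5) (nat_lit 435) (nat_lit 370) (nat_lit 335)) (XT.lf (nat_lit 0) (nat_lit 5113393391) (nat_lit 684) (nat_lit 339328346) (nat_lit 760) (nat_lit 2741265736) (nat_lit 302) (nat_lit 5) (nat_lit 311) (nat_lit 5) (nat_lit 312) (nat_lit 5) (nat_lit 436) (nat_lit 370) (nat_lit 334))))))))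
noncomputable def xc63 : XT := (XT.nd (nat_lit 1794) (nat_lit 6156) (nat_lit 0) (XT.nd (nat_lit 858) (nat_lit 4180) (nat_lit 0) (XT.nd (nat_lit 390) (nat_lit 2508) (nat_lit 0) (XT.nd (nat_lit 156) (nat_lit 1292) (nat_lit 0) (XT.nd (nat_lit 78) (nat_lit 684) (nat_lit 0) (XT.lf (nat_lit 0) (nat_lit 242556203) (nat_lit 760) (nat_lit 5541389759) (nat_lit 76) (nat_lit 2479145468) (nat_lit 292) (nat_lit 5) (nat_lit 302) (nat_lit 5) (nat_lit 293) (nat_lit 5) (nat_lit 437) (nat_lit 370) (nat_lit 333)) (XT.lf (nat_lit 0) (nat_lit 274627008) (nat_lit 684) (nat_lit 2953202594) (nat_lit 760) (nat_lit 5105825148) (nat_lit 283) (nat_lit 5) (nat_lit 292) (nat_lit 5) (nat_lit 293) (nat_lit 5) (nat_lit 438) (nat_lit 370) (nat_lit 332))) (XT.nd (nat_lit 78) (nat_lit 1292) (nat_lit 0) (XT.lf (nat_lit 0) (nat_lit 6225380423) (nat_lit 684) (nat_lit 38761917) (nat_lit 760) (nat_lit 2141669431) (nat_lit 283) (nat_lit 5) (nat_lit 292) (nat_lit 5)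 (nat_lit 293) (nat_lit 5) (nat_lit 439) (nat_lit 370) (nat_lit 331)) (XT.nd (nat_lit 78) (nat_lit 608) (nat_lit 0) (XT.lf (nat_lit 0) (nat_lit 868821463) (nat_lit 684) (nat_lit 4695196174) (nat_lit 76) (nat_lit 2915316220) (nat_lit 274) (nat_lit 5) (nat_lit 283) (nat_lit 5) (nat_lit 275) (nat_lit 5) (nat_lit 440) (nat_lit 370) (nat_lit 330)) (XT.lf (nat_lit 0) (nat_lit 1289233656) (nat_lit 608) (nat_lit 2600188084) (nat_lit 684) (nat_lit 4665058570) (nat_lit 266) (nat_lit 5) (nat_lit 274) (nat_lit 5) (nat_lit 275) (nat_lit 5) (nat_lit 441) (nat_lit 370) (nat_lit 329))))) (XT.nd (nat_lit 234) (nat_lit 1216) (nat_lit 0) (XT.nd (nat_lit 78) (nat_lit 1292) (nat_lit 0) (XT.lf (nat_lit 0) (nat_lit 6960524736) (nat_lit 684) (nat_lit 1233559728) (nat_lit 76) (nat_lit 437251829) (nat_lit 266) (nat_lit 5) (nat_lit 275) (nat_lit 5) (nat_lit 267) (nat_lit 5) (nat_lit 442) (nat_lit 370) (nat_lit 328)) (XT.nd (nat_lit 78) (nat_lit 608) (nat_lit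 0) (XT.lf (nat_lit 0) (nat_lit 1370804259) (nat_lit 684) (nat_lit 3808690791) (nat_lit 76) (nat_lit 3529950282) (nat_lit 257) (nat_lit 5) (nat_lit 266) (nat_lit 5) (nat_lit 258) (nat_lit 5) (nat_lit 443) (nat_lit 370) (nat_lit 327)) (XT.lf (nat_lit 0) (nat_lit 2349015499) (nat_lit 608) (nat_lit 2082167698) (nat_lit 684) (nat_lit 4358114344) (nat_lit 249) (nat_lit 5) (nat_lit 257) (nat_lit 5) (nat_lit 258) (nat_lit 5) (nat_lit 444) (nat_lit 370) (nat_lit 326)))) (XT.nd (nat_lit 78) (nat_lit 1216) (nat_lit 0) (XT.lf (nat_lit 0) (nat_lit 7542590719) (nat_lit 684) (nat_lit 252502122) (nat_lit 76) (nat_lit 1075865310) (nat_lit 249) (nat_lit 5) (nat_lit 258) (nat_lit 5) (nat_lit 250) (nat_lit 5) (nat_lit 445) (nat_lit 370) (nat_lit 325)) (XT.nd (nat_lit 78) (nat_lit 608) (nat_lit 0) (XT.lf (nat_lit 0) (nat_lit 1750068761) (nat_lit 608) (nat_lit 2896203402) (nat_lit 76) (nat_lit 4307534428) (nat_lit 241) (nat_lit 5) (nat_lit 249)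 (nat_lit 5) (nat_lit 242) (nat_lit 5) (nat_lit 446) (nat_lit 370) (nat_lit 324)) (XT.lf (nat_lit 0) (nat_lit 3439662245) (nat_lit 608) (nat_lit 1414804645) (nat_lit 684) (nat_lit 4184033224) (nat_lit 233) (nat_lit 5) (nat_lit 241) (nat_lit 5) (nat_lit 242) (nat_lit 5) (nat_lit 447) (nat_lit 370) (nat_lit 323)))))) (XT.nd (nat_lit 468) (nat_lit 1976) (nat_lit 0) (XT.nd (nat_lit 234) (nat_lit 1064) (nat_lit 0) (XT.nd (nat_lit 78) (nat_lit 608) (nat_lit 0) (XT.lf (nat_lit 0) (nat_lit 758535138) (nat_lit 532) (nat_lit 7257617800) (nat_lit 608) (nat_lit 1108837753) (nat_lit 226) (nat_lit 5) (nat_lit 233) (nat_lit 5) (nat_lit 234) (nat_lit 5) (nat_lit 448) (nat_lit 370) (nat_lit 322)) (XT.nd (nat_lit 78) (nat_lit 532) (nat_lit 0) (XT.lf (nat_lit 0) (nat_lit 2007125373) (nat_lit 608) (nat_lit 1972557259) (nat_lit 76) (nat_lit 5233154839) (nat_lit 225) (nat_lit 5) (nat_lit 233) (nat_lit 5) (nat_lit 226) (nat_lit 5) (nat_lit 449) (nat_lit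 370) (nat_lit 321)) (XT.lf (nat_lit 0) (nat_lit 4546342668) (nat_lit 532) (nat_lit 613229886) (nat_lit 608) (nat_lit 4142948571) (nat_lit 218) (nat_lit 5) (nat_lit 225) (nat_lit 5) (nat_lit 226) (nat_lit 5) (nat_lit 450) (nat_lit 370) (nat_lit 320)))) (XT.nd (nat_lit 78) (nat_lit 608) (nat_lit 0) (XT.lf (nat_lit 0) (nat_lit 1778035145) (nat_lit 456) (nat_lit 6600038735) (nat_lit 532) (nat_lit 1015871105) (nat_lit 212) (nat_lit 5) (nat_lit 218) (nat_lit 5) (nat_lit 219) (nat_lit 5) (nat_lit 451) (nat_lit 370) (nat_lit 319)) (XT.nd (nat_lit 78) (nat_lit 532) (nat_lit 0) (XT.lf (nat_lit 0) (nat_lit 2141411432) (nat_lit 532) (nat_lit 1053222574) (nat_lit 76) (nat_lit 6292363974) (nat_lit 211) (nat_lit 5) (nat_lit 218) (nat_lit 5) (nat_lit 212) (nat_lit 5) (nat_lit 452) (nat_lit 370) (nat_lit 318)) (XT.lf (nat_lit 0) (nat_lit 5347723295) (nat_lit 608) (nat_lit 3930284864) (nat_lit 76) (nat_lit 303786107) (nat_lit 204) (nat_lit 5)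 (nat_lit 212) (nat_lit 5) (nat_lit 205) (nat_lit 5) (nat_lit 453) (nat_lit 370) (nat_lit 317))))) (XT.nd (nat_lit 234) (nat_lit 988) (nat_lit 0) (XT.nd (nat_lit 78) (nat_lit 532) (nat_lit 0) (XT.lf (nat_lit 0) (nat_lit 2786699013) (nat_lit 456) (nat_lit 5838911831) (nat_lit 532) (nat_lit 1052732778) (nat_lit 198) (nat_lit 5) (nat_lit 204) (nat_lit 5) (nat_lit 205) (nat_lit 5) (nat_lit 454) (nat_lit 370) (nat_lit 316)) (XT.nd (nat_lit 78) (nat_lit 456) (nat_lit 0) (XT.lf (nat_lit 0) (nat_lit 2151262860) (nat_lit 532) (nat_lit 154479091) (nat_lit 76) (nat_lit 7471047592) (nat_lit 197) (nat_lit 5) (nat_lit 204) (nat_lit 5) (nat_lit 198) (nat_lit 5) (nat_lit 455) (nat_lit 370) (nat_lit 315)) (XT.lf (nat_lit 0) (nat_lit 5419701877) (nat_lit 532) (nat_lit 3140689834) (nat_lit 76) (nat_lit 1316390088) (nat_lit 191) (nat_lit 5) (nat_lit 198) (nat_lit 5) (nat_lit 192) (nat_lit 5) (nat_lit 456) (nat_lit 370) (nat_lit 314)))) (XT.nd (nat_lit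 78) (nat_lit 532) (nat_lit 0) (XT.lf (nat_lit 0) (nat_lit 3767660301) (nat_lit 456) (nat_lit 4988911134) (nat_lit 532) (nat_lit 1222146895) (nat_lit 185) (nat_lit 5) (nat_lit 191) (nat_lit 5) (nat_lit 192) (nat_lit 5) (nat_lit 457) (nat_lit 370) (nat_lit 313)) (XT.nd (nat_lit 78) (nat_lit 0) (nat_lit 0) (XT.lf (nat_lit 0) (nat_lit 715798598) (nat_lit 456) (nat_lit 1322725240) (nat_lit 532) (nat_lit 8044139716) (nat_lit 178) (nat_lit 5) (nat_lit 184) (nat_lit 5) (nat_lit 185) (nat_lit 5) (nat_lit 458) (nat_lit 370) (nat_lit 312)) (XT.lf (nat_lit 0) (nat_lit 5368404548) (nat_lit 532) (nat_lit 2401251120) (nat_lit 76) (nat_lit 2418468563) (nat_lit 178) (nat_lit 5) (nat_lit 185) (nat_lit 5) (nat_lit 179) (nat_lit 5) (nat_lit 459) (nat_lit 370) (nat_lit 311))))))) (XT.nd (nat_lit 936) (nat_lit 2736) (nat_lit 0) (XT.nd (nat_lit 468) (nat_lit 1672) (nat_lit 0) (XT.nd (nat_lit 234) (nat_lit 836) (nat_lit 0) (XT.nd (nat_lit 78) (nat_lit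 532) (nat_lit 0) (XT.lf (nat_lit 0) (nat_lit 4702947347) (nat_lit 380) (nat_lit 4064660291) (nat_lit 456) (nat_lit 1528037220) (nat_lit 173) (nat_lit 5) (nat_lit 178) (nat_lit 5) (nat_lit 179) (nat_lit 5) (nat_lit 460) (nat_lit 370) (nat_lit 310)) (XT.nd (nat_lit 78) (nat_lit 0) (nat_lit 0) (XT.lf (nat_lit 0) (nat_lit 1531097186) (nat_lit 456) (nat_lit 264105611) (nat_lit 532) (nat_lit 8610086210) (nat_lit 166) (nat_lit 5) (nat_lit 172) (nat_lit 5) (nat_lit 173) (nat_lit 5) (nat_lit 461) (nat_lit 370) (nat_lit 309)) (XT.lf (nat_lit 0) (nat_lit 5189510872) (nat_lit 532) (nat_lit 1731063853) (nat_lit 76) (nat_lit 3595852964) (nat_lit 166) (nat_lit 5) (nat_lit 173) (nat_lit 5) (nat_lit 167) (nat_lit 5) (nat_lit 462) (nat_lit 370) (nat_lit 308)))) (XT.nd (nat_lit 78) (nat_lit 456) (nat_lit 0) (XT.lf (nat_lit 0) (nat_lit 5573287793) (nat_lit 380) (nat_lit 3080872990) (nat_lit 456) (nat_lit 1975584084) (nat_lit 161) (nat_lit 5) (nat_lit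 166) (nat_lit 5) (nat_lit 167) (nat_lit 5) (nat_lit 463) (nat_lit 370) (nat_lit 307)) (XT.nd (nat_lit 78) (nat_lit 0) (nat_lit 0) (XT.lf (nat_lit 0) (nat_lit 1420465152) (nat_lit 456) (nat_lit 8481568772) (nat_lit 76) (nat_lit 843179520) (nat_lit 155) (nat_lit 5) (nat_lit 161) (nat_lit 5) (nat_lit 156) (nat_lit 5) (nat_lit 464) (nat_lit 370) (nat_lit 306)) (XT.lf (nat_lit 0) (nat_lit 4877439712) (nat_lit 456) (nat_lit 1150684529) (nat_lit 76) (nat_lit 4834221386) (nat_lit 155) (nat_lit 5) (nat_lit 161) (nat_lit 5) (nat_lit 156) (nat_lit 5) (nat_lit 465) (nat_lit 370) (nat_lit 305))))) (XT.nd (nat_lit 234) (nat_lit 836) (nat_lit 0) (XT.nd (nat_lit 78) (nat_lit 456) (nat_lit 0) (XT.lf (nat_lit 0) (nat_lit 6357897815) (nat_lit 380) (nat_lit 2052497743) (nat_lit 456) (nat_lit 2571292526) (nat_lit 150) (nat_lit 5) (nat_lit 155) (nat_lit 5) (nat_lit 156) (nat_lit 5) (nat_lit 466) (nat_lit 370) (nat_lit 304)) (XT.nd (nat_lit 78) (nat_lit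 0) (nat_lit 0) (XT.lf (nat_lit 0) (nat_lit 904079482) (nat_lit 456) (nat_lit 8207806398) (nat_lit 76) (nat_lit 1991308982) (nat_lit 144) (nat_lit 5) (nat_lit 150) (nat_lit 5) (nat_lit 145) (nat_lit 5) (nat_lit 467) (nat_lit 370) (nat_lit 303)) (XT.lf (nat_lit 0) (nat_lit 4425275240) (nat_lit 456) (nat_lit 682353169) (nat_lit 76) (nat_lit 6118952730) (nat_lit 144) (nat_lit 5) (nat_lit 150) (nat_lit 5) (nat_lit 145) (nat_lit 5) (nat_lit 468) (nat_lit 370) (nat_lit 302)))) (XT.nd (nat_lit 78) (nat_lit 456) (nat_lit 0) (XT.lf (nat_lit 0) (nat_lit 7034254030) (nat_lit 380) (nat_lit 994868280) (nat_lit 456) (nat_lit 3323072410) (nat_lit 139) (nat_lit 5) (nat_lit 144) (nat_lit 5) (nat_lit 145) (nat_lit 5) (nat_lit 469) (nat_lit 370) (nat_lit 301)) (XT.nd (nat_lit 78) (nat_lit 0) (nat_lit 0) (XT.lf (nat_lit 0) (nat_lit 236132734) (nat_lit 456) (nat_lit 8075332754) (nat_lit 76) (nat_lit 3168542785) (nat_lit 133) (nat_lit 5) (nat_lit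 139) (nat_lit 5) (nat_lit 134) (nat_lit 5) (nat_lit 470) (nat_lit 370) (nat_lit 300)) (XT.lf (nat_lit 0) (nat_lit 3824680666) (nat_lit 456) (nat_lit 350234327) (nat_lit 76) (nat_lit 7434974588) (nat_lit 133) (nat_lit 5) (nat_lit 139) (nat_lit 5) (nat_lit 134) (nat_lit 5) (nat_lit 471) (nat_lit 370) (nat_lit 299)))))) (XT.nd (nat_lit 468) (nat_lit 1292) (nat_lit 0) (XT.nd (nat_lit 234) (nat_lit 684) (nat_lit 0) (XT.nd (nat_lit 78) (nat_lit 456) (nat_lit 0) (XT.lf (nat_lit 0) (nat_lit 7502201121) (nat_lit 380) (nat_lit 4164686645) (nat_lit 76) (nat_lit 75140529) (nat_lit 129) (nat_lit 5) (nat_lit 134) (nat_lit 5) (nat_lit 130) (nat_lit 5) (nat_lit 472) (nat_lit 370) (nat_lit 298)) (XT.nd (nat_lit 78) (nat_lit 76) (nat_lit 0) (XT.lf (nat_lit 0) (nat_lit 3762031449) (nat_lit 380) (nat_lit 7513376634) (nat_lit 456) (nat_lit 600962717) (nat_lit 124) (nat_lit 5) (nat_lit 129) (nat_lit 5) (nat_lit 130) (nat_lit 5) (nat_lit 473) (nat_lit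 370) (nat_lit 297)) (XT.lf (nat_lit 0) (nat_lit 3065798757) (nat_lit 456) (nat_lit 180679248) (nat_lit 76) (nat_lit 8766603473) (nat_lit 123) (nat_lit 5) (nat_lit 129) (nat_lit 5) (nat_lit 124) (nat_lit 5) (nat_lit 474) (nat_lit 370) (nat_lit 296)))) (XT.nd (nat_lit 78) (nat_lit 380) (nat_lit 0) (XT.lf (nat_lit 0) (nat_lit 6825393481) (nat_lit 380) (nat_lit 4197569201) (nat_lit 76) (nat_lit 1128936863) (nat_lit 119) (nat_lit 5) (nat_lit 124) (nat_lit 5) (nat_lit 120) (nat_lit 5) (nat_lit 475) (nat_lit 370) (nat_lit 295)) (XT.nd (nat_lit 78) (nat_lit 76) (nat_lit 0) (XT.lf (nat_lit 0) (nat_lit 3940828003) (nat_lit 304) (nat_lit 6736250090) (nat_lit 380) (nat_lit 1616081373) (nat_lit 115) (nat_lit 5) (nat_lit 119) (nat_lit 5) (nat_lit 120) (nat_lit 5) (nat_lit 476) (nat_lit 370) (nat_lit 294)) (XT.lf (nat_lit 0) (nat_lit 2137138058) (nat_lit 380) (nat_lit 202511750) (nat_lit 76) (nat_lit 10097375960) (nat_lit 114) (nat_lit 5)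 (nat_lit 119) (nat_lit 5) (nat_lit 115) (nat_lit 5) (nat_lit 477) (nat_lit 370) (nat_lit 293))))) (XT.nd (nat_lit 234) (nat_lit 608) (nat_lit 0) (XT.nd (nat_lit 78) (nat_lit 380) (nat_lit 0) (XT.lf (nat_lit 0) (nat_lit 5980277054) (nat_lit 380) (nat_lit 4440222860) (nat_lit 76) (nat_lit 2162329198) (nat_lit 110) (nat_lit 5) (nat_lit 115) (nat_lit 5) (nat_lit 111) (nat_lit 5) (nat_lit 478) (nat_lit 370) (nat_lit 292)) (XT.nd (nat_lit 78) (nat_lit 76) (nat_lit 0) (XT.lf (nat_lit 0) (nat_lit 3912021753) (nat_lit 304) (nat_lit 5999967523) (nat_lit 380) (nat_lit 2819328228) (nat_lit 106) (nat_lit 5) (nat_lit 110) (nat_lit 5) (nat_lit 111) (nat_lit 5) (nat_lit 479) (nat_lit 370) (nat_lit 291)) (XT.lf (nat_lit 0) (nat_lit 1025443653) (nat_lit 380) (nat_lit 447340597) (nat_lit 76) (nat_lit 11409869138) (nat_lit 105) (nat_lit 5) (nat_lit 110) (nat_lit 5) (nat_lit 106) (nat_lit 5) (nat_lit 480) (nat_lit 370) (nat_lit 290)))) (XT.nd (nat_lit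 78) (nat_lit 304) (nat_lit 0) (XT.lf (nat_lit 0) (nat_lit 4953080640) (nat_lit 380) (nat_lit 4925670127) (nat_lit 76) (nat_lit 3157021103) (nat_lit 101) (nat_lit 5) (nat_lit 106) (nat_lit 5) (nat_lit 102) (nat_lit 5) (nat_lit 481) (nat_lit 370) (nat_lit 289)) (XT.nd (nat_lit 78) (nat_lit 0) (nat_lit 0) (XT.lf (nat_lit 0) (nat_lit 3641964481) (nat_lit 304) (nat_lit 5323998198) (nat_lit 380) (nat_lit 4225859144) (nat_lit 97) (nat_lit 5) (nat_lit 101) (nat_lit 5) (nat_lit 102) (nat_lit 5) (nat_lit 482) (nat_lit 370) (nat_lit 288)) (XT.lf (nat_lit 0) (nat_lit 12399151002) (nat_lit 304) (nat_lit 663543725) (nat_lit 380) (nat_lit 288229088) (nat_lit 97) (nat_lit 5) (nat_lit 101) (nat_lit 5) (nat_lit 102) (nat_lit 5) (nat_lit 483) (nat_lit 370) (nat_lit 287))))))))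
noncomputable def xc64 : XT := (XT.nd (nat_lit 52650) (nat_lit 0) (nat_lit 28728) (XT.nd (nat_lit 858) (nat_lit 1824) (nat_lit 0) (XT.nd (nat_lit 390) (nat_lit 836) (nat_lit 0) (XT.nd (nat_lit 156) (nat_lit 608) (nat_lit 0) (XT.nd (nat_lit 78) (nat_lit 304) (nat_lit 0) (XT.lf (nat_lit 0) (nat_lit 3728071886) (nat_lit 304) (nat_lit 5690217077) (nat_lit 76) (nat_lit 4093461275) (nat_lit 93) (nat_lit 5) (nat_lit 97) (nat_lit 5) (nat_lit 94) (nat_lit 5) (nat_lit 484) (nat_lit 370) (nat_lit 286)) (XT.lf (nat_lit 0) (nat_lit 3093622222) (nat_lit 304) (nat_lit 4729190354) (nat_lit 380) (nat_lit 5852905768) (nat_lit 89) (nat_lit 5) (nat_lit 93) (nat_lit 5) (nat_lit 94) (nat_lit 5) (nat_lit 485) (nat_lit 370) (nat_lit 285))) (XT.nd (nat_lit 78) (nat_lit 608) (nat_lit 0) (XT.lf (nat_lit 0) (nat_lit 12009426593) (nat_lit 380) (nat_lit 1760815250) (nat_lit 76) (nat_lit 72527070) (nat_lit 89) (nat_lit 5) (nat_lit 94) (nat_lit 5) (nat_lit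 90) (nat_lit 5) (nat_lit 486) (nat_lit 370) (nat_lit 284)) (XT.nd (nat_lit 78) (nat_lit 304) (nat_lit 0) (XT.lf (nat_lit 0) (nat_lit 2287385380) (nat_lit 304) (nat_lit 6773842636) (nat_lit 76) (nat_lit 4950630714) (nat_lit 85) (nat_lit 5) (nat_lit 89) (nat_lit 5) (nat_lit 86) (nat_lit 5) (nat_lit 487) (nat_lit 370) (nat_lit 283)) (XT.lf (nat_lit 0) (nat_lit 2226174181) (nat_lit 304) (nat_lit 4237994074) (nat_lit 380) (nat_lit 7719958454) (nat_lit 81) (nat_lit 5) (nat_lit 85) (nat_lit 5) (nat_lit 86) (nat_lit 5) (nat_lit 488) (nat_lit 370) (nat_lit 282))))) (XT.nd (nat_lit 234) (nat_lit 304) (nat_lit 0) (XT.nd (nat_lit 78) (nat_lit 532) (nat_lit 0) (XT.lf (nat_lit 0) (nat_lit 10746610517) (nat_lit 380) (nat_lit 2913171696) (nat_lit 76) (nat_lit 699617826) (nat_lit 81) (nat_lit 5) (nat_lit 86) (nat_lit 5) (nat_lit 82) (nat_lit 5) (nat_lit 489) (nat_lit 370) (nat_lit 281)) (XT.nd (nat_lit 78) (nat_lit 228) (nat_lit 0) (XT.lf (nat_lit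 0) (nat_lit 610830053) (nat_lit 304) (nat_lit 8220626058) (nat_lit 76) (nat_lit 5705812863) (nat_lit 77) (nat_lit 5) (nat_lit 81) (nat_lit 5) (nat_lit 78) (nat_lit 5) (nat_lit 490) (nat_lit 370) (nat_lit 280)) (XT.lf (nat_lit 0) (nat_lit 994572146) (nat_lit 228) (nat_lit 3874702325) (nat_lit 304) (nat_lit 9848970974) (nat_lit 74) (nat_lit 5) (nat_lit 77) (nat_lit 5) (nat_lit 78) (nat_lit 5) (nat_lit 491) (nat_lit 370) (nat_lit 279)))) (XT.nd (nat_lit 78) (nat_lit 304) (nat_lit 0) (XT.lf (nat_lit 0) (nat_lit 9248746722) (nat_lit 304) (nat_lit 4451035849) (nat_lit 76) (nat_lit 1202343974) (nat_lit 74) (nat_lit 5) (nat_lit 78) (nat_lit 5) (nat_lit 75) (nat_lit 5) (nat_lit 492) (nat_lit 370) (nat_lit 278)) (XT.nd (nat_lit 78) (nat_lit 76) (nat_lit 0) (XT.lf (nat_lit 0) (nat_lit 5001131489) (nat_lit 228) (nat_lit 8746003795) (nat_lit 304) (nat_lit 1341925680) (nat_lit 71) (nat_lit 5) (nat_lit 74) (nat_lit 5) (nat_lit 75) (nat_lit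 5) (nat_lit 493) (nat_lit 370) (nat_lit 277)) (XT.lf (nat_lit 0) (nat_lit 3018994928) (nat_lit 304) (nat_lit 642406693) (nat_lit 76) (nat_lit 11617871511) (nat_lit 70) (nat_lit 5) (nat_lit 74) (nat_lit 5) (nat_lit 71) (nat_lit 5) (nat_lit 494) (nat_lit 370) (nat_lit 276)))))) (XT.nd (nat_lit 468) (nat_lit 912) (nat_lit 0) (XT.nd (nat_lit 234) (nat_lit 380) (nat_lit 0) (XT.nd (nat_lit 78) (nat_lit 304) (nat_lit 0) (XT.lf (nat_lit 0) (nat_lit 7491984954) (nat_lit 304) (nat_lit 6425775825) (nat_lit 76) (nat_lit 1554497079) (nat_lit 67) (nat_lit 5) (nat_lit 71) (nat_lit 5) (nat_lit 68) (nat_lit 5) (nat_lit 495) (nat_lit 370) (nat_lit 275)) (XT.nd (nat_lit 78) (nat_lit 76) (nat_lit 0) (XT.lf (nat_lit 0) (nat_lit 3241969538) (nat_lit 228) (nat_lit 8835976029) (nat_lit 304) (nat_lit 3590688559) (nat_lit 64) (nat_lit 5) (nat_lit 67) (nat_lit 5) (nat_lit 68) (nat_lit 5) (nat_lit 496) (nat_lit 370) (nat_lit 274)) (XT.lf (nat_lit 0) (nat_lit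 892386686) (nat_lit 304) (nat_lit 2729110587) (nat_lit 76) (nat_lit 12246980925) (nat_lit 63) (nat_lit 5) (nat_lit 67) (nat_lit 5) (nat_lit 64) (nat_lit 5) (nat_lit 497) (nat_lit 370) (nat_lit 273)))) (XT.nd (nat_lit 78) (nat_lit 152) (nat_lit 0) (XT.lf (nat_lit 0) (nat_lit 5449560903) (nat_lit 304) (nat_lit 8894173012) (nat_lit 76) (nat_lit 1727462155) (nat_lit 60) (nat_lit 5) (nat_lit 64) (nat_lit 5) (nat_lit 61) (nat_lit 5) (nat_lit 498) (nat_lit 370) (nat_lit 272)) (XT.nd (nat_lit 78) (nat_lit 0) (nat_lit 0) (XT.lf (nat_lit 0) (nat_lit 985109914) (nat_lit 152) (nat_lit 9136111544) (nat_lit 228) (nat_lit 6156281891) (nat_lit 58) (nat_lit 5) (nat_lit 60) (nat_lit 5) (nat_lit 61) (nat_lit 5) (nat_lit 499) (nat_lit 370) (nat_lit 271)) (XT.lf (nat_lit 0) (nat_lit 11138456872) (nat_lit 152) (nat_lit 3782284543) (nat_lit 228) (nat_lit 1566508705) (nat_lit 58) (nat_lit 5) (nat_lit 60) (nat_lit 5) (nat_lit 61) (nat_lit 5) (nat_lit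 500) (nat_lit 370) (nat_lit 270))))) (XT.nd (nat_lit 234) (nat_lit 456) (nat_lit 0) (XT.nd (nat_lit 78) (nat_lit 152) (nat_lit 0) (XT.lf (nat_lit 0) (nat_lit 3091512015) (nat_lit 304) (nat_lit 11919024521) (nat_lit 76) (nat_lit 1689906451) (nat_lit 54) (nat_lit 5) (nat_lit 58) (nat_lit 5) (nat_lit 55) (nat_lit 5) (nat_lit 501) (nat_lit 370) (nat_lit 269)) (XT.nd (nat_lit 78) (nat_lit 152) (nat_lit 0) (XT.lf (nat_lit 0) (nat_lit 7858074914) (nat_lit 304) (nat_lit 1809745716) (nat_lit 76) (nat_lit 7249146604) (nat_lit 54) (nat_lit 5) (nat_lit 58) (nat_lit 5) (nat_lit 55) (nat_lit 5) (nat_lit 502) (nat_lit 370) (nat_lit 268)) (XT.lf (nat_lit 0) (nat_lit 8571346743) (nat_lit 152) (nat_lit 4179918826) (nat_lit 228) (nat_lit 4385932192) (nat_lit 52) (nat_lit 5) (nat_lit 54) (nat_lit 5) (nat_lit 55) (nat_lit 5) (nat_lit 503) (nat_lit 370) (nat_lit 267)))) (XT.nd (nat_lit 78) (nat_lit 152) (nat_lit 0) (XT.lf (nat_lit 0) (nat_lit 384361676)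 (nat_lit 304) (nat_lit 15569807012) (nat_lit 76) (nat_lit 1407439171) (nat_lit 48) (nat_lit 5) (nat_lit 52) (nat_lit 5) (nat_lit 49) (nat_lit 5) (nat_lit 504) (nat_lit 370) (nat_lit 266)) (XT.nd (nat_lit 78) (nat_lit 152) (nat_lit 0) (XT.lf (nat_lit 0) (nat_lit 5252698697) (nat_lit 304) (nat_lit 5216658986) (nat_lit 76) (nat_lit 7119342983) (nat_lit 48) (nat_lit 5) (nat_lit 52) (nat_lit 5) (nat_lit 49) (nat_lit 5) (nat_lit 505) (nat_lit 370) (nat_lit 265)) (XT.lf (nat_lit 0) (nat_lit 5371934901) (nat_lit 152) (nat_lit 4857587279) (nat_lit 228) (nat_lit 7590592349) (nat_lit 46) (nat_lit 5) (nat_lit 48) (nat_lit 5) (nat_lit 49) (nat_lit 5) (nat_lit 506) (nat_lit 370) (nat_lit 264))))))) (XT.nd (nat_lit 858) (nat_lit 12464) (nat_lit 0) (XT.nd (nat_lit 390) (nat_lit 4636) (nat_lit 0) (XT.nd (nat_lit 156) (nat_lit 1824) (nat_lit 0) (XT.nd (nat_lit 78) (nat_lit 836) (nat_lit 0) (XT.lf (nat_lit 0) (nat_lit 3171667632) (nat_lit 684)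 (nat_lit 63843342) (nat_lit 684) (nat_lit 63843342) (nat_lit 684) (nat_lit 4) (nat_lit 693) (nat_lit 5) (nat_lit 693) (nat_lit 4) (nat_lit 398) (nat_lit 371) (nat_lit 371)) (XT.lf (nat_lit 0) (nat_lit 3087404563) (nat_lit 836) (nat_lit 2784890391) (nat_lit 0) (nat_lit 744248366) (nat_lit 673) (nat_lit 5) (nat_lit 684) (nat_lit 4) (nat_lit 673) (nat_lit 4) (nat_lit 399) (nat_lit 371) (nat_lit 370))) (XT.nd (nat_lit 78) (nat_lit 988) (nat_lit 0) (XT.lf (nat_lit 0) (nat_lit 1330096413) (nat_lit 836) (nat_lit 4973126699) (nat_lit 836) (nat_lit 332758545) (nat_lit 662) (nat_lit 4) (nat_lit 673) (nat_lit 5) (nat_lit 673) (nat_lit 4) (nat_lit 400) (nat_lit 371) (nat_lit 369)) (XT.nd (nat_lit 78) (nat_lit 912) (nat_lit 0) (XT.lf (nat_lit 0) (nat_lit 2835469580) (nat_lit 912) (nat_lit 1164888187) (nat_lit 76) (nat_lit 2656170041) (nat_lit 661) (nat_lit 5) (nat_lit 673) (nat_lit 5) (nat_lit 662) (nat_lit 4) (nat_lit 401) (nat_lit 371)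 (nat_lit 368)) (XT.lf (nat_lit 0) (nat_lit 3042257503) (nat_lit 912) (nat_lit 2969030942) (nat_lit 988) (nat_lit 667203823) (nat_lit 649) (nat_lit 5) (nat_lit 661) (nat_lit 5) (nat_lit 662) (nat_lit 4) (nat_lit 402) (nat_lit 371) (nat_lit 367))))) (XT.nd (nat_lit 234) (nat_lit 2432) (nat_lit 0) (XT.nd (nat_lit 78) (nat_lit 1140) (nat_lit 0) (XT.lf (nat_lit 0) (nat_lit 584687896) (nat_lit 988) (nat_lit 1872744863) (nat_lit 1064) (nat_lit 4244333306) (nat_lit 635) (nat_lit 5) (nat_lit 648) (nat_lit 5) (nat_lit 649) (nat_lit 5) (nat_lit 403) (nat_lit 371) (nat_lit 366)) (XT.nd (nat_lit 78) (nat_lit 1140) (nat_lit 0) (XT.lf (nat_lit 0) (nat_lit 4880232598) (nat_lit 988) (nat_lit 710284390) (nat_lit 1064) (nat_lit 1135825937) (nat_lit 635) (nat_lit 5) (nat_lit 648) (nat_lit 5) (nat_lit 649) (nat_lit 5) (nat_lit 404) (nat_lit 371) (nat_lit 365)) (XT.lf (nat_lit 0) (nat_lit 1959003289) (nat_lit 1140) (nat_lit 4280539643) (nat_lit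 76) (nat_lit 512610032) (nat_lit 620) (nat_lit 5) (nat_lit 635) (nat_lit 5) (nat_lit 621) (nat_lit 5) (nat_lit 405) (nat_lit 371) (nat_lit 364)))) (XT.nd (nat_lit 78) (nat_lit 1292) (nat_lit 0) (XT.lf (nat_lit 0) (nat_lit 55325725) (nat_lit 1140) (nat_lit 4995220837) (nat_lit 1216) (nat_lit 1728804172) (nat_lit 605) (nat_lit 5) (nat_lit 620) (nat_lit 5) (nat_lit 621) (nat_lit 5) (nat_lit 406) (nat_lit 371) (nat_lit 363)) (XT.nd (nat_lit 78) (nat_lit 1216) (nat_lit 0) (XT.lf (nat_lit 0) (nat_lit 1340405180) (nat_lit 1216) (nat_lit 2335967902) (nat_lit 76) (nat_lit 3131321411) (nat_lit 604) (nat_lit 5) (nat_lit 620) (nat_lit 5) (nat_lit 605) (nat_lit 5) (nat_lit 407) (nat_lit 371) (nat_lit 362)) (XT.lf (nat_lit 0) (nat_lit 2100933061) (nat_lit 1216) (nat_lit 2294875033) (nat_lit 1292) (nat_lit 2441630253) (nat_lit 588) (nat_lit 5) (nat_lit 604) (nat_lit 5) (nat_lit 605) (nat_lit 5) (nat_lit 408) (nat_lit 371) (nat_lit 361))))))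 (XT.nd (nat_lit 468) (nat_lit 6612) (nat_lit 0) (XT.nd (nat_lit 234) (nat_lit 3116) (nat_lit 0) (XT.nd (nat_lit 78) (nat_lit 2660) (nat_lit 0) (XT.lf (nat_lit 0) (nat_lit 586648093) (nat_lit 1292) (nat_lit 269062702) (nat_lit 76) (nat_lit 6012991516) (nat_lit 587) (nat_lit 5) (nat_lit 604) (nat_lit 5) (nat_lit 588) (nat_lit 5) (nat_lit 409) (nat_lit 371) (nat_lit 360)) (XT.nd (nat_lit 78) (nat_lit 1368) (nat_lit 0) (XT.lf (nat_lit 0) (nat_lit 3610959488) (nat_lit 1368) (nat_lit 2632195285) (nat_lit 76) (nat_lit 657770501) (nat_lit 570) (nat_lit 5) (nat_lit 588) (nat_lit 5) (nat_lit 571) (nat_lit 5) (nat_lit 410) (nat_lit 371) (nat_lit 359)) (XT.lf (nat_lit 0) (nat_lit 1931382740) (nat_lit 1368) (nat_lit 4721418020) (nat_lit 1444) (nat_lit 281870400) (nat_lit 552) (nat_lit 5) (nat_lit 570) (nat_lit 5) (nat_lit 571) (nat_lit 5) (nat_lit 411) (nat_lit 371) (nat_lit 358)))) (XT.nd (nat_lit 78) (nat_lit 3040) (nat_lit 0) (XT.lf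 (nat_lit 0) (nat_lit 2705090035) (nat_lit 1444) (nat_lit 420957155) (nat_lit 76) (nat_lit 3843596594) (nat_lit 551) (nat_lit 5) (nat_lit 570) (nat_lit 5) (nat_lit 552) (nat_lit 5) (nat_lit 412) (nat_lit 371) (nat_lit 357)) (XT.nd (nat_lit 78) (nat_lit 1596) (nat_lit 0) (XT.lf (nat_lit 0) (nat_lit 4252094720) (nat_lit 1444) (nat_lit 1462224521) (nat_lit 1520) (nat_lit 1291651500) (nat_lit 532) (nat_lit 5) (nat_lit 551) (nat_lit 5) (nat_lit 552) (nat_lit 5) (nat_lit 413) (nat_lit 371) (nat_lit 356)) (XT.lf (nat_lit 0) (nat_lit 1674181203) (nat_lit 1596) (nat_lit 5105283573) (nat_lit 76) (nat_lit 264224896) (nat_lit 511) (nat_lit 5) (nat_lit 532) (nat_lit 5) (nat_lit 512) (nat_lit 5) (nat_lit 414) (nat_lit 371) (nat_lit 355))))) (XT.nd (nat_lit 234) (nat_lit 3268) (nat_lit 0) (XT.nd (nat_lit 78) (nat_lit 3344) (nat_lit 0) (XT.lf (nat_lit 0) (nat_lit 4650330992) (nat_lit 1596) (nat_lit 394469504) (nat_lit 76) (nat_lit 2037842985)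 (nat_lit 511) (nat_lit 5) (nat_lit 532) (nat_lit 5) (nat_lit 512) (nat_lit 5) (nat_lit 415) (nat_lit 371) (nat_lit 354)) (XT.nd (nat_lit 78) (nat_lit 1672) (nat_lit 0) (XT.lf (nat_lit 0) (nat_lit 525843506) (nat_lit 1672) (nat_lit 2713091252) (nat_lit 76) (nat_lit 3883992759) (nat_lit 489) (nat_lit 5) (nat_lit 511) (nat_lit 5) (nat_lit 490) (nat_lit 5) (nat_lit 416) (nat_lit 371) (nat_lit 353)) (XT.lf (nat_lit 0) (nat_lit 2107618912) (nat_lit 1672) (nat_lit 1360921982) (nat_lit 1748) (nat_lit 3696012028) (nat_lit 467) (nat_lit 5) (nat_lit 489) (nat_lit 5) (nat_lit 490) (nat_lit 5) (nat_lit 417) (nat_lit 371) (nat_lit 352)))) (XT.nd (nat_lit 78) (nat_lit 3268) (nat_lit 0) (XT.lf (nat_lit 0) (nat_lit 6434391982) (nat_lit 1748) (nat_lit 205176628) (nat_lit 76) (nat_lit 568172092) (nat_lit 467) (nat_lit 5) (nat_lit 490) (nat_lit 5) (nat_lit 468) (nat_lit 5) (nat_lit 418) (nat_lit 371) (nat_lit 351)) (XT.nd (nat_lit 78) (nat_lit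 1444) (nat_lit 0) (XT.lf (nat_lit 0) (nat_lit 2161986469) (nat_lit 1824) (nat_lit 2524799382) (nat_lit 76) (nat_lit 2565071469) (nat_lit 443) (nat_lit 5) (nat_lit 467) (nat_lit 5) (nat_lit 444) (nat_lit 5) (nat_lit 419) (nat_lit 371) (nat_lit 350)) (XT.lf (nat_lit 0) (nat_lit 2435074249) (nat_lit 1444) (nat_lit 2671673836) (nat_lit 1520) (nat_lit 2190799399) (nat_lit 424) (nat_lit 5) (nat_lit 443) (nat_lit 5) (nat_lit 444) (nat_lit 5) (nat_lit 420) (nat_lit 371) (nat_lit 349))))))))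
noncomputable def xc65 : XT := (XT.nd (nat_lit 1794) (nat_lit 8132) (nat_lit 0) (XT.nd (nat_lit 858) (nat_lit 6460) (nat_lit 0) (XT.nd (nat_lit 390) (nat_lit 3344) (nat_lit 0) (XT.nd (nat_lit 156) (nat_lit 1900) (nat_lit 0) (XT.nd (nat_lit 78) (nat_lit 0) (nat_lit 0) (XT.lf (nat_lit 0) (nat_lit 125099716) (nat_lit 912) (nat_lit 593201059) (nat_lit 988) (nat_lit 6626523603) (nat_lit 411) (nat_lit 5) (nat_lit 423) (nat_lit 5) (nat_lit 424) (nat_lit 5) (nat_lit 421) (nat_lit 371) (nat_lit 348)) (XT.lf (nat_lit 0) (nat_lit 3643992707) (nat_lit 988) (nat_lit 2195449216) (nat_lit 76) (nat_lit 1553574459) (nat_lit 411) (nat_lit 5) (nat_lit 424) (nat_lit 5) (nat_lit 412) (nat_lit 5) (nat_lit 422) (nat_lit 371) (nat_lit 347))) (XT.nd (nat_lit 78) (nat_lit 988) (nat_lit 0) (XT.lf (nat_lit 0) (nat_lit 2907880169) (nat_lit 912) (nat_lit 3689163956) (nat_lit 988) (nat_lit 845764996) (nat_lit 399) (nat_lit 5) (nat_lit 411) (nat_lit 5) (nat_lit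 412) (nat_lit 5) (nat_lit 423) (nat_lit 371) (nat_lit 346)) (XT.nd (nat_lit 78) (nat_lit 0) (nat_lit 0) (XT.lf (nat_lit 0) (nat_lit 587605967) (nat_lit 912) (nat_lit 1465222663) (nat_lit 988) (nat_lit 5441207332) (nat_lit 386) (nat_lit 5) (nat_lit 398) (nat_lit 5) (nat_lit 399) (nat_lit 5) (nat_lit 424) (nat_lit 371) (nat_lit 345)) (XT.lf (nat_lit 0) (nat_lit 4980971380) (nat_lit 988) (nat_lit 1739318756) (nat_lit 76) (nat_lit 826240363) (nat_lit 386) (nat_lit 5) (nat_lit 399) (nat_lit 5) (nat_lit 387) (nat_lit 5) (nat_lit 425) (nat_lit 371) (nat_lit 344))))) (XT.nd (nat_lit 234) (nat_lit 1596) (nat_lit 0) (XT.nd (nat_lit 78) (nat_lit 836) (nat_lit 0) (XT.lf (nat_lit 0) (nat_lit 343226523) (nat_lit 912) (nat_lit 4090818144) (nat_lit 76) (nat_lit 3166386122) (nat_lit 374) (nat_lit 5) (nat_lit 386) (nat_lit 5) (nat_lit 375) (nat_lit 5) (nat_lit 426) (nat_lit 371) (nat_lit 343)) (XT.nd (nat_lit 78) (nat_lit 0) (nat_lit 0) (XT.lf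 (nat_lit 0) (nat_lit 1174350720) (nat_lit 836) (nat_lit 2069279525) (nat_lit 912) (nat_lit 4412096028) (nat_lit 363) (nat_lit 5) (nat_lit 374) (nat_lit 5) (nat_lit 375) (nat_lit 5) (nat_lit 427) (nat_lit 371) (nat_lit 342)) (XT.lf (nat_lit 0) (nat_lit 6180911969) (nat_lit 912) (nat_lit 1170251870) (nat_lit 76) (nat_lit 361398453) (nat_lit 363) (nat_lit 5) (nat_lit 375) (nat_lit 5) (nat_lit 364) (nat_lit 5) (nat_lit 428) (nat_lit 371) (nat_lit 341)))) (XT.nd (nat_lit 78) (nat_lit 760) (nat_lit 0) (XT.lf (nat_lit 0) (nat_lit 1379090359) (nat_lit 836) (nat_lit 3546314747) (nat_lit 76) (nat_lit 2845136226) (nat_lit 352) (nat_lit 5) (nat_lit 363) (nat_lit 5) (nat_lit 353) (nat_lit 5) (nat_lit 429) (nat_lit 371) (nat_lit 340)) (XT.nd (nat_lit 78) (nat_lit 0) (nat_lit 0) (XT.lf (nat_lit 0) (nat_lit 1871545560) (nat_lit 760) (nat_lit 2426362115) (nat_lit 836) (nat_lit 3532173710) (nat_lit 342) (nat_lit 5) (nat_lit 352) (nat_lit 5)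 (nat_lit 353) (nat_lit 5) (nat_lit 430) (nat_lit 371) (nat_lit 339)) (XT.lf (nat_lit 0) (nat_lit 7250722391) (nat_lit 836) (nat_lit 501780884) (nat_lit 76) (nat_lit 138807648) (nat_lit 342) (nat_lit 5) (nat_lit 353) (nat_lit 5) (nat_lit 343) (nat_lit 5) (nat_lit 431) (nat_lit 371) (nat_lit 338)))))) (XT.nd (nat_lit 468) (nat_lit 2660) (nat_lit 0) (XT.nd (nat_lit 234) (nat_lit 1444) (nat_lit 0) (XT.nd (nat_lit 78) (nat_lit 1520) (nat_lit 0) (XT.lf (nat_lit 0) (nat_lit 2279290743) (nat_lit 836) (nat_lit 2909584305) (nat_lit 76) (nat_lit 2764586008) (nat_lit 331) (nat_lit 5) (nat_lit 342) (nat_lit 5) (nat_lit 332) (nat_lit 5) (nat_lit 432) (nat_lit 371) (nat_lit 337)) (XT.nd (nat_lit 78) (nat_lit 760) (nat_lit 0) (XT.lf (nat_lit 0) (nat_lit 2665654100) (nat_lit 760) (nat_lit 2556136168) (nat_lit 836) (nat_lit 2795533700) (nat_lit 321) (nat_lit 5) (nat_lit 331) (nat_lit 5) (nat_lit 332) (nat_lit 5) (nat_lit 433) (nat_lit 371) (nat_lit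 336)) (XT.lf (nat_lit 0) (nat_lit 113435705) (nat_lit 760) (nat_lit 7827615953) (nat_lit 76) (nat_lit 141912171) (nat_lit 311) (nat_lit 5) (nat_lit 321) (nat_lit 5) (nat_lit 312) (nat_lit 5) (nat_lit 434) (nat_lit 371) (nat_lit 335)))) (XT.nd (nat_lit 78) (nat_lit 1444) (nat_lit 0) (XT.lf (nat_lit 0) (nat_lit 3049139188) (nat_lit 760) (nat_lit 2194140860) (nat_lit 76) (nat_lit 2906156994) (nat_lit 311) (nat_lit 5) (nat_lit 321) (nat_lit 5) (nat_lit 312) (nat_lit 5) (nat_lit 435) (nat_lit 371) (nat_lit 334)) (XT.nd (nat_lit 78) (nat_lit 760) (nat_lit 0) (XT.lf (nat_lit 0) (nat_lit 3543265931) (nat_lit 684) (nat_lit 2477093578) (nat_lit 760) (nat_lit 2197353823) (nat_lit 302) (nat_lit 5) (nat_lit 311) (nat_lit 5) (nat_lit 312) (nat_lit 5) (nat_lit 436) (nat_lit 371) (nat_lit 333)) (XT.lf (nat_lit 0) (nat_lit 731932513) (nat_lit 760) (nat_lit 7198196871) (nat_lit 76) (nat_lit 357569918) (nat_lit 292) (nat_lit 5) (nat_lit 302)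 (nat_lit 5) (nat_lit 293) (nat_lit 5) (nat_lit 437) (nat_lit 371) (nat_lit 332))))) (XT.nd (nat_lit 234) (nat_lit 1292) (nat_lit 0) (XT.nd (nat_lit 78) (nat_lit 1368) (nat_lit 0) (XT.lf (nat_lit 0) (nat_lit 3692906196) (nat_lit 760) (nat_lit 1413482416) (nat_lit 76) (nat_lit 3252364516) (nat_lit 292) (nat_lit 5) (nat_lit 302) (nat_lit 5) (nat_lit 293) (nat_lit 5) (nat_lit 438) (nat_lit 371) (nat_lit 331)) (XT.nd (nat_lit 78) (nat_lit 684) (nat_lit 0) (XT.lf (nat_lit 0) (nat_lit 4490968271) (nat_lit 684) (nat_lit 2206697614) (nat_lit 760) (nat_lit 1733879746) (nat_lit 283) (nat_lit 5) (nat_lit 292) (nat_lit 5) (nat_lit 293) (nat_lit 5) (nat_lit 439) (nat_lit 371) (nat_lit 330)) (XT.lf (nat_lit 0) (nat_lit 1223349308) (nat_lit 684) (nat_lit 6521243197) (nat_lit 76) (nat_lit 761384781) (nat_lit 274) (nat_lit 5) (nat_lit 283) (nat_lit 5) (nat_lit 275) (nat_lit 5) (nat_lit 440) (nat_lit 371) (nat_lit 329)))) (XT.nd (nat_lit 78)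 (nat_lit 1292) (nat_lit 0) (XT.lf (nat_lit 0) (nat_lit 4213832622) (nat_lit 684) (nat_lit 581220782) (nat_lit 76) (nat_lit 3786676841) (nat_lit 274) (nat_lit 5) (nat_lit 283) (nat_lit 5) (nat_lit 275) (nat_lit 5) (nat_lit 441) (nat_lit 371) (nat_lit 328)) (XT.nd (nat_lit 78) (nat_lit 684) (nat_lit 0) (XT.lf (nat_lit 0) (nat_lit 5495214229) (nat_lit 608) (nat_lit 1761523541) (nat_lit 684) (nat_lit 1402416501) (nat_lit 266) (nat_lit 5) (nat_lit 274) (nat_lit 5) (nat_lit 275) (nat_lit 5) (nat_lit 442) (nat_lit 371) (nat_lit 327)) (XT.lf (nat_lit 0) (nat_lit 1590021696) (nat_lit 684) (nat_lit 5810839022) (nat_lit 76) (nat_lit 1337284817) (nat_lit 257) (nat_lit 5) (nat_lit 266) (nat_lit 5) (nat_lit 258) (nat_lit 5) (nat_lit 443) (nat_lit 371) (nat_lit 326))))))) (XT.nd (nat_lit 936) (nat_lit 3572) (nat_lit 0) (XT.nd (nat_lit 468) (nat_lit 2128) (nat_lit 0) (XT.nd (nat_lit 234) (nat_lit 1216) (nat_lit 0) (XT.nd (nat_lit 78) (nat_lit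 608) (nat_lit 0) (XT.lf (nat_lit 0) (nat_lit 292622113) (nat_lit 608) (nat_lit 4323410762) (nat_lit 684) (nat_lit 4202656074) (nat_lit 249) (nat_lit 5) (nat_lit 257) (nat_lit 5) (nat_lit 258) (nat_lit 5) (nat_lit 444) (nat_lit 371) (nat_lit 325)) (XT.nd (nat_lit 78) (nat_lit 608) (nat_lit 0) (XT.lf (nat_lit 0) (nat_lit 6542186522) (nat_lit 608) (nat_lit 1157395684) (nat_lit 684) (nat_lit 1201328291) (nat_lit 249) (nat_lit 5) (nat_lit 257) (nat_lit 5) (nat_lit 258) (nat_lit 5) (nat_lit 445) (nat_lit 371) (nat_lit 324)) (XT.lf (nat_lit 0) (nat_lit 1833248599) (nat_lit 608) (nat_lit 5081436274) (nat_lit 76) (nat_lit 2069905057) (nat_lit 241) (nat_lit 5) (nat_lit 249) (nat_lit 5) (nat_lit 242) (nat_lit 5) (nat_lit 446) (nat_lit 371) (nat_lit 323)))) (XT.nd (nat_lit 78) (nat_lit 608) (nat_lit 0) (XT.lf (nat_lit 0) (nat_lit 1197997692) (nat_lit 608) (nat_lit 3704771042) (nat_lit 684) (nat_lit 4167215835) (nat_lit 233) (nat_lit 5)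 (nat_lit 241) (nat_lit 5) (nat_lit 242) (nat_lit 5) (nat_lit 447) (nat_lit 371) (nat_lit 322)) (XT.nd (nat_lit 78) (nat_lit 608) (nat_lit 0) (XT.lf (nat_lit 0) (nat_lit 7617655453) (nat_lit 608) (nat_lit 409521998) (nat_lit 684) (nat_lit 1130046730) (nat_lit 233) (nat_lit 5) (nat_lit 241) (nat_lit 5) (nat_lit 242) (nat_lit 5) (nat_lit 448) (nat_lit 371) (nat_lit 321)) (XT.lf (nat_lit 0) (nat_lit 1953280629) (nat_lit 608) (nat_lit 4348000083) (nat_lit 76) (nat_lit 2944454631) (nat_lit 225) (nat_lit 5) (nat_lit 233) (nat_lit 5) (nat_lit 226) (nat_lit 5) (nat_lit 449) (nat_lit 371) (nat_lit 320))))) (XT.nd (nat_lit 234) (nat_lit 1064) (nat_lit 0) (XT.nd (nat_lit 78) (nat_lit 532) (nat_lit 0) (XT.lf (nat_lit 0) (nat_lit 2112204602) (nat_lit 532) (nat_lit 2958053268) (nat_lit 608) (nat_lit 4265873812) (nat_lit 218) (nat_lit 5) (nat_lit 225) (nat_lit 5) (nat_lit 226) (nat_lit 5) (nat_lit 450) (nat_lit 371) (nat_lit 319)) (XT.nd (nat_lit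 78) (nat_lit 532) (nat_lit 0) (XT.lf (nat_lit 0) (nat_lit 8242491527) (nat_lit 608) (nat_lit 724749446) (nat_lit 76) (nat_lit 461243144) (nat_lit 218) (nat_lit 5) (nat_lit 226) (nat_lit 5) (nat_lit 219) (nat_lit 5) (nat_lit 451) (nat_lit 371) (nat_lit 318)) (XT.lf (nat_lit 0) (nat_lit 1949299821) (nat_lit 532) (nat_lit 3626161903) (nat_lit 76) (nat_lit 3946585000) (nat_lit 211) (nat_lit 5) (nat_lit 218) (nat_lit 5) (nat_lit 212) (nat_lit 5) (nat_lit 452) (nat_lit 371) (nat_lit 317)))) (XT.nd (nat_lit 78) (nat_lit 532) (nat_lit 0) (XT.lf (nat_lit 0) (nat_lit 3019568601) (nat_lit 532) (nat_lit 2097902130) (nat_lit 608) (nat_lit 4500138134) (nat_lit 204) (nat_lit 5) (nat_lit 211) (nat_lit 5) (nat_lit 212) (nat_lit 5) (nat_lit 453) (nat_lit 371) (nat_lit 316)) (XT.nd (nat_lit 78) (nat_lit 76) (nat_lit 0) (XT.lf (nat_lit 0) (nat_lit 70286567) (nat_lit 456) (nat_lit 8274927050) (nat_lit 532) (nat_lit 1369950472) (nat_lit 198) (nat_lit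 5) (nat_lit 204) (nat_lit 5) (nat_lit 205) (nat_lit 5) (nat_lit 454) (nat_lit 371) (nat_lit 315)) (XT.lf (nat_lit 0) (nat_lit 1819390379) (nat_lit 532) (nat_lit 2932381759) (nat_lit 76) (nat_lit 5062258228) (nat_lit 197) (nat_lit 5) (nat_lit 204) (nat_lit 5) (nat_lit 198) (nat_lit 5) (nat_lit 455) (nat_lit 371) (nat_lit 314)))))) (XT.nd (nat_lit 468) (nat_lit 1672) (nat_lit 0) (XT.nd (nat_lit 234) (nat_lit 912) (nat_lit 0) (XT.nd (nat_lit 78) (nat_lit 532) (nat_lit 0) (XT.lf (nat_lit 0) (nat_lit 3903552612) (nat_lit 456) (nat_lit 1138722014) (nat_lit 532) (nat_lit 4872661895) (nat_lit 191) (nat_lit 5) (nat_lit 197) (nat_lit 5) (nat_lit 198) (nat_lit 5) (nat_lit 456) (nat_lit 371) (nat_lit 313)) (XT.nd (nat_lit 78) (nat_lit 76) (nat_lit 0) (XT.lf (nat_lit 0) (nat_lit 839607478) (nat_lit 456) (nat_lit 7494828438) (nat_lit 532) (nat_lit 1683334051) (nat_lit 185) (nat_lit 5) (nat_lit 191) (nat_lit 5) (nat_lit 192) (nat_lit 5) (nat_lit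 457) (nat_lit 371) (nat_lit 312)) (XT.lf (nat_lit 0) (nat_lit 1560500046) (nat_lit 532) (nat_lit 2284121158) (nat_lit 76) (nat_lit 6277614220) (nat_lit 184) (nat_lit 5) (nat_lit 191) (nat_lit 5) (nat_lit 185) (nat_lit 5) (nat_lit 458) (nat_lit 371) (nat_lit 311)))) (XT.nd (nat_lit 78) (nat_lit 456) (nat_lit 0) (XT.lf (nat_lit 0) (nat_lit 4746579807) (nat_lit 456) (nat_lit 94812290) (nat_lit 532) (nat_lit 5387286367) (nat_lit 178) (nat_lit 5) (nat_lit 184) (nat_lit 5) (nat_lit 185) (nat_lit 5) (nat_lit 459) (nat_lit 371) (nat_lit 310)) (XT.nd (nat_lit 78) (nat_lit 76) (nat_lit 0) (XT.lf (nat_lit 0) (nat_lit 1555397104) (nat_lit 380) (nat_lit 6646397701) (nat_lit 456) (nat_lit 2135182833) (nat_lit 173) (nat_lit 5) (nat_lit 178) (nat_lit 5) (nat_lit 179) (nat_lit 5) (nat_lit 460) (nat_lit 371) (nat_lit 309)) (XT.lf (nat_lit 0) (nat_lit 1168391565) (nat_lit 456) (nat_lit 1700028260) (nat_lit 76) (nat_lit 7578835812) (nat_lit 172)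 (nat_lit 5) (nat_lit 178) (nat_lit 5) (nat_lit 173) (nat_lit 5) (nat_lit 461) (nat_lit 371) (nat_lit 308))))) (XT.nd (nat_lit 234) (nat_lit 760) (nat_lit 0) (XT.nd (nat_lit 78) (nat_lit 456) (nat_lit 0) (XT.lf (nat_lit 0) (nat_lit 4516968452) (nat_lit 532) (nat_lit 5036219050) (nat_lit 76) (nat_lit 1006123835) (nat_lit 166) (nat_lit 5) (nat_lit 173) (nat_lit 5) (nat_lit 167) (nat_lit 5) (nat_lit 462) (nat_lit 371) (nat_lit 307)) (XT.nd (nat_lit 78) (nat_lit 76) (nat_lit 0) (XT.lf (nat_lit 0) (nat_lit 2198151435) (nat_lit 380) (nat_lit 5744333905) (nat_lit 456) (nat_lit 2730928181) (nat_lit 161) (nat_lit 5) (nat_lit 166) (nat_lit 5) (nat_lit 167) (nat_lit 5) (nat_lit 463) (nat_lit 371) (nat_lit 306)) (XT.lf (nat_lit 0) (nat_lit 637583680) (nat_lit 456) (nat_lit 1200137079) (nat_lit 76) (nat_lit 8952010556) (nat_lit 160) (nat_lit 5) (nat_lit 166) (nat_lit 5) (nat_lit 161) (nat_lit 5) (nat_lit 464) (nat_lit 371) (nat_lit 305))))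 (XT.nd (nat_lit 78) (nat_lit 380) (nat_lit 0) (XT.lf (nat_lit 0) (nat_lit 4057630148) (nat_lit 456) (nat_lit 4689000608) (nat_lit 76) (nat_lit 2160973515) (nat_lit 155) (nat_lit 5) (nat_lit 161) (nat_lit 5) (nat_lit 156) (nat_lit 5) (nat_lit 465) (nat_lit 371) (nat_lit 304)) (XT.nd (nat_lit 78) (nat_lit 0) (nat_lit 0) (XT.lf (nat_lit 0) (nat_lit 2746836385) (nat_lit 380) (nat_lit 4803590025) (nat_lit 456) (nat_lit 3477325677) (nat_lit 150) (nat_lit 5) (nat_lit 155) (nat_lit 5) (nat_lit 156) (nat_lit 5) (nat_lit 466) (nat_lit 371) (nat_lit 303)) (XT.lf (nat_lit 0) (nat_lit 10344009141) (nat_lit 380) (nat_lit 767103743) (nat_lit 456) (nat_lit 39233583) (nat_lit 150) (nat_lit 5) (nat_lit 155) (nat_lit 5) (nat_lit 156) (nat_lit 5) (nat_lit 467) (nat_lit 371) (nat_lit 302))))))))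
noncomputable def xc66 : XT := (XT.nd (nat_lit 1794) (nat_lit 2280) (nat_lit 0) (XT.nd (nat_lit 858) (nat_lit 2432) (nat_lit 0) (XT.nd (nat_lit 390) (nat_lit 1444) (nat_lit 0) (XT.nd (nat_lit 156) (nat_lit 760) (nat_lit 0) (XT.nd (nat_lit 78) (nat_lit 380) (nat_lit 0) (XT.lf (nat_lit 0) (nat_lit 3455599941) (nat_lit 456) (nat_lit 4462331855) (nat_lit 76) (nat_lit 3356345622) (nat_lit 144) (nat_lit 5) (nat_lit 150) (nat_lit 5) (nat_lit 145) (nat_lit 5) (nat_lit 468) (nat_lit 371) (nat_lit 301)) (XT.lf (nat_lit 0) (nat_lit 3178659707) (nat_lit 380) (nat_lit 3839522603) (nat_lit 456) (nat_lit 4382535986) (nat_lit 139) (nat_lit 5) (nat_lit 144) (nat_lit 5) (nat_lit 145) (nat_lit 5) (nat_lit 469) (nat_lit 371) (nat_lit 300))) (XT.nd (nat_lit 78) (nat_lit 760) (nat_lit 0) (XT.lf (nat_lit 0) (nat_lit 10651652956) (nat_lit 456) (nat_lit 549212432) (nat_lit 76) (nat_lit 328833837) (nat_lit 139) (nat_lit 5) (nat_lit 145) (nat_lit 5)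 (nat_lit 140) (nat_lit 5) (nat_lit 470) (nat_lit 371) (nat_lit 299)) (XT.nd (nat_lit 78) (nat_lit 304) (nat_lit 0) (XT.lf (nat_lit 0) (nat_lit 2702294494) (nat_lit 456) (nat_lit 4380659946) (nat_lit 76) (nat_lit 4577136456) (nat_lit 133) (nat_lit 5) (nat_lit 139) (nat_lit 5) (nat_lit 134) (nat_lit 5) (nat_lit 471) (nat_lit 371) (nat_lit 298)) (XT.lf (nat_lit 0) (nat_lit 3468823328) (nat_lit 304) (nat_lit 2868048446) (nat_lit 380) (nat_lit 5456218550) (nat_lit 129) (nat_lit 5) (nat_lit 133) (nat_lit 5) (nat_lit 134) (nat_lit 5) (nat_lit 472) (nat_lit 371) (nat_lit 297))))) (XT.nd (nat_lit 234) (nat_lit 684) (nat_lit 0) (XT.nd (nat_lit 78) (nat_lit 760) (nat_lit 0) (XT.lf (nat_lit 0) (nat_lit 10051353464) (nat_lit 380) (nat_lit 453067458) (nat_lit 76) (nat_lit 1424188225) (nat_lit 129) (nat_lit 5) (nat_lit 134) (nat_lit 5) (nat_lit 130) (nat_lit 5) (nat_lit 473) (nat_lit 371) (nat_lit 296)) (XT.nd (nat_lit 78) (nat_lit 304) (nat_lit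 0) (XT.lf (nat_lit 0) (nat_lit 1787608609) (nat_lit 456) (nat_lit 4470637349) (nat_lit 76) (nat_lit 5807614062) (nat_lit 123) (nat_lit 5) (nat_lit 129) (nat_lit 5) (nat_lit 124) (nat_lit 5) (nat_lit 474) (nat_lit 371) (nat_lit 295)) (XT.lf (nat_lit 0) (nat_lit 3590253699) (nat_lit 304) (nat_lit 1905809784) (nat_lit 380) (nat_lit 6709639110) (nat_lit 119) (nat_lit 5) (nat_lit 123) (nat_lit 5) (nat_lit 124) (nat_lit 5) (nat_lit 475) (nat_lit 371) (nat_lit 294)))) (XT.nd (nat_lit 78) (nat_lit 684) (nat_lit 0) (XT.lf (nat_lit 0) (nat_lit 9294543809) (nat_lit 380) (nat_lit 540808479) (nat_lit 76) (nat_lit 2512675988) (nat_lit 119) (nat_lit 5) (nat_lit 124) (nat_lit 5) (nat_lit 120) (nat_lit 5) (nat_lit 476) (nat_lit 371) (nat_lit 293)) (XT.nd (nat_lit 78) (nat_lit 304) (nat_lit 0) (XT.lf (nat_lit 0) (nat_lit 699800803) (nat_lit 380) (nat_lit 4761407868) (nat_lit 76) (nat_lit 7031249887) (nat_lit 114) (nat_lit 5) (nat_lit 119) (nat_lit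 5) (nat_lit 115) (nat_lit 5) (nat_lit 477) (nat_lit 371) (nat_lit 292)) (XT.lf (nat_lit 0) (nat_lit 3513307536) (nat_lit 304) (nat_lit 970349401) (nat_lit 380) (nat_lit 8155792201) (nat_lit 110) (nat_lit 5) (nat_lit 114) (nat_lit 5) (nat_lit 115) (nat_lit 5) (nat_lit 478) (nat_lit 371) (nat_lit 291)))))) (XT.nd (nat_lit 468) (nat_lit 1140) (nat_lit 0) (XT.nd (nat_lit 234) (nat_lit 608) (nat_lit 0) (XT.nd (nat_lit 78) (nat_lit 684) (nat_lit 0) (XT.lf (nat_lit 0) (nat_lit 8368841709) (nat_lit 380) (nat_lit 842992289) (nat_lit 76) (nat_lit 3577035630) (nat_lit 110) (nat_lit 5) (nat_lit 115) (nat_lit 5) (nat_lit 111) (nat_lit 5) (nat_lit 479) (nat_lit 371) (nat_lit 290)) (XT.nd (nat_lit 78) (nat_lit 380) (nat_lit 0) (XT.lf (nat_lit 0) (nat_lit 7652046985) (nat_lit 304) (nat_lit 4706426532) (nat_lit 380) (nat_lit 582273209) (nat_lit 106) (nat_lit 5) (nat_lit 110) (nat_lit 5) (nat_lit 111) (nat_lit 5) (nat_lit 480) (nat_lit 371)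 (nat_lit 289)) (XT.lf (nat_lit 0) (nat_lit 3205450078) (nat_lit 304) (nat_lit 80297380) (nat_lit 380) (nat_lit 9809539878) (nat_lit 101) (nat_lit 5) (nat_lit 105) (nat_lit 5) (nat_lit 106) (nat_lit 5) (nat_lit 481) (nat_lit 371) (nat_lit 288)))) (XT.nd (nat_lit 78) (nat_lit 608) (nat_lit 0) (XT.lf (nat_lit 0) (nat_lit 7260033329) (nat_lit 380) (nat_lit 1393175303) (nat_lit 76) (nat_lit 4598902009) (nat_lit 101) (nat_lit 5) (nat_lit 106) (nat_lit 5) (nat_lit 102) (nat_lit 5) (nat_lit 482) (nat_lit 371) (nat_lit 287)) (XT.nd (nat_lit 78) (nat_lit 304) (nat_lit 0) (XT.lf (nat_lit 0) (nat_lit 7321923784) (nat_lit 304) (nat_lit 4011377058) (nat_lit 380) (nat_lit 2078382485) (nat_lit 97) (nat_lit 5) (nat_lit 101) (nat_lit 5) (nat_lit 102) (nat_lit 5) (nat_lit 483) (nat_lit 371) (nat_lit 286)) (XT.lf (nat_lit 0) (nat_lit 1891307235) (nat_lit 304) (nat_lit 10948172630) (nat_lit 76) (nat_lit 734665478) (nat_lit 93) (nat_lit 5) (nat_lit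 97) (nat_lit 5) (nat_lit 94) (nat_lit 5) (nat_lit 484) (nat_lit 371) (nat_lit 285))))) (XT.nd (nat_lit 234) (nat_lit 532) (nat_lit 0) (XT.nd (nat_lit 78) (nat_lit 608) (nat_lit 0) (XT.lf (nat_lit 0) (nat_lit 5951916314) (nat_lit 304) (nat_lit 2228274582) (nat_lit 76) (nat_lit 5558606508) (nat_lit 93) (nat_lit 5) (nat_lit 97) (nat_lit 5) (nat_lit 94) (nat_lit 5) (nat_lit 485) (nat_lit 371) (nat_lit 284)) (XT.nd (nat_lit 78) (nat_lit 304) (nat_lit 0) (XT.lf (nat_lit 0) (nat_lit 6707716853) (nat_lit 304) (nat_lit 3401755544) (nat_lit 380) (nat_lit 3796958029) (nat_lit 89) (nat_lit 5) (nat_lit 93) (nat_lit 5) (nat_lit 94) (nat_lit 5) (nat_lit 486) (nat_lit 371) (nat_lit 283)) (XT.lf (nat_lit 0) (nat_lit 277472374) (nat_lit 304) (nat_lit 12336778288) (nat_lit 76) (nat_lit 1462966819) (nat_lit 85) (nat_lit 5) (nat_lit 89) (nat_lit 5) (nat_lit 86) (nat_lit 5) (nat_lit 487) (nat_lit 371) (nat_lit 282)))) (XT.nd (nat_lit 78) (nat_lit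 532) (nat_lit 0) (XT.lf (nat_lit 0) (nat_lit 4426123562) (nat_lit 304) (nat_lit 3388963996) (nat_lit 76) (nat_lit 6434961756) (nat_lit 85) (nat_lit 5) (nat_lit 89) (nat_lit 5) (nat_lit 86) (nat_lit 5) (nat_lit 488) (nat_lit 371) (nat_lit 281)) (XT.nd (nat_lit 78) (nat_lit 228) (nat_lit 0) (XT.lf (nat_lit 0) (nat_lit 5767892924) (nat_lit 304) (nat_lit 2900216253) (nat_lit 380) (nat_lit 5758023796) (nat_lit 81) (nat_lit 5) (nat_lit 85) (nat_lit 5) (nat_lit 86) (nat_lit 5) (nat_lit 489) (nat_lit 371) (nat_lit 280)) (XT.lf (nat_lit 0) (nat_lit 495490245) (nat_lit 228) (nat_lit 12512302489) (nat_lit 304) (nat_lit 1597690778) (nat_lit 78) (nat_lit 5) (nat_lit 81) (nat_lit 5) (nat_lit 82) (nat_lit 5) (nat_lit 490) (nat_lit 371) (nat_lit 279))))))) (XT.nd (nat_lit 858) (nat_lit 684) (nat_lit 0) (XT.nd (nat_lit 390) (nat_lit 760) (nat_lit 0) (XT.nd (nat_lit 156) (nat_lit 532) (nat_lit 0) (XT.nd (nat_lit 78) (nat_lit 228) (nat_lit 0)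 (XT.lf (nat_lit 0) (nat_lit 2661925952) (nat_lit 304) (nat_lit 4920109423) (nat_lit 76) (nat_lit 7205028835) (nat_lit 77) (nat_lit 5) (nat_lit 81) (nat_lit 5) (nat_lit 78) (nat_lit 5) (nat_lit 491) (nat_lit 371) (nat_lit 278)) (XT.lf (nat_lit 0) (nat_lit 4456597158) (nat_lit 228) (nat_lit 2531312689) (nat_lit 304) (nat_lit 7984106336) (nat_lit 74) (nat_lit 5) (nat_lit 77) (nat_lit 5) (nat_lit 78) (nat_lit 5) (nat_lit 492) (nat_lit 371) (nat_lit 277))) (XT.nd (nat_lit 78) (nat_lit 532) (nat_lit 0) (XT.lf (nat_lit 0) (nat_lit 11424383623) (nat_lit 304) (nat_lit 1134662036) (nat_lit 76) (nat_lit 2601144321) (nat_lit 74) (nat_lit 5) (nat_lit 78) (nat_lit 5) (nat_lit 75) (nat_lit 5) (nat_lit 493) (nat_lit 371) (nat_lit 276)) (XT.nd (nat_lit 78) (nat_lit 228) (nat_lit 0) (XT.lf (nat_lit 0) (nat_lit 636012023) (nat_lit 304) (nat_lit 6871247250) (nat_lit 76) (nat_lit 7843864738) (nat_lit 70) (nat_lit 5) (nat_lit 74) (nat_lit 5) (nat_lit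 71) (nat_lit 5) (nat_lit 494) (nat_lit 371) (nat_lit 275)) (XT.lf (nat_lit 0) (nat_lit 2723159794) (nat_lit 228) (nat_lit 2321762875) (nat_lit 304) (nat_lit 10500468678) (nat_lit 67) (nat_lit 5) (nat_lit 70) (nat_lit 5) (nat_lit 71) (nat_lit 5) (nat_lit 495) (nat_lit 371) (nat_lit 274))))) (XT.nd (nat_lit 234) (nat_lit 228) (nat_lit 0) (XT.nd (nat_lit 78) (nat_lit 532) (nat_lit 0) (XT.lf (nat_lit 0) (nat_lit 9582080091) (nat_lit 304) (nat_lit 3203826380) (nat_lit 76) (nat_lit 2956838209) (nat_lit 67) (nat_lit 5) (nat_lit 71) (nat_lit 5) (nat_lit 68) (nat_lit 5) (nat_lit 496) (nat_lit 371) (nat_lit 273)) (XT.nd (nat_lit 78) (nat_lit 304) (nat_lit 0) (XT.lf (nat_lit 0) (nat_lit 6635231358) (nat_lit 228) (nat_lit 7608094660) (nat_lit 304) (nat_lit 1700054138) (nat_lit 64) (nat_lit 5) (nat_lit 67) (nat_lit 5) (nat_lit 68) (nat_lit 5) (nat_lit 497) (nat_lit 371) (nat_lit 272)) (XT.lf (nat_lit 0) (nat_lit 511553141) (nat_lit 228)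 (nat_lit 2300738239) (nat_lit 304) (nat_lit 13335370854) (nat_lit 60) (nat_lit 5) (nat_lit 63) (nat_lit 5) (nat_lit 64) (nat_lit 5) (nat_lit 498) (nat_lit 371) (nat_lit 271)))) (XT.nd (nat_lit 78) (nat_lit 228) (nat_lit 0) (XT.lf (nat_lit 0) (nat_lit 7450255572) (nat_lit 304) (nat_lit 5776345918) (nat_lit 76) (nat_lit 3128042876) (nat_lit 60) (nat_lit 5) (nat_lit 64) (nat_lit 5) (nat_lit 61) (nat_lit 5) (nat_lit 499) (nat_lit 371) (nat_lit 270)) (XT.nd (nat_lit 78) (nat_lit 76) (nat_lit 0) (XT.lf (nat_lit 0) (nat_lit 4278840361) (nat_lit 152) (nat_lit 7920673916) (nat_lit 228) (nat_lit 4365882990) (nat_lit 58) (nat_lit 5) (nat_lit 60) (nat_lit 5) (nat_lit 61) (nat_lit 5) (nat_lit 500) (nat_lit 371) (nat_lit 269)) (XT.lf (nat_lit 0) (nat_lit 274517379) (nat_lit 228) (nat_lit 2210825738) (nat_lit 76) (nat_lit 14294698090) (nat_lit 57) (nat_lit 5) (nat_lit 60) (nat_lit 5) (nat_lit 58) (nat_lit 5) (nat_lit 501) (nat_lit 371) (nat_lit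 268)))))) (XT.nd (nat_lit 51168) (nat_lit 0) (nat_lit 45600) (XT.nd (nat_lit 234) (nat_lit 304) (nat_lit 0) (XT.nd (nat_lit 78) (nat_lit 152) (nat_lit 0) (XT.lf (nat_lit 0) (nat_lit 4998245933) (nat_lit 304) (nat_lit 8916208453) (nat_lit 76) (nat_lit 3082968609) (nat_lit 54) (nat_lit 5) (nat_lit 58) (nat_lit 5) (nat_lit 55) (nat_lit 5) (nat_lit 502) (nat_lit 371) (nat_lit 267)) (XT.nd (nat_lit 78) (nat_lit 0) (nat_lit 0) (XT.lf (nat_lit 0) (nat_lit 1349400686) (nat_lit 152) (nat_lit 8483326026) (nat_lit 228) (nat_lit 7386101848) (nat_lit 52) (nat_lit 5) (nat_lit 54) (nat_lit 5) (nat_lit 55) (nat_lit 5) (nat_lit 503) (nat_lit 371) (nat_lit 266)) (XT.lf (nat_lit 0) (nat_lit 11899511811) (nat_lit 152) (nat_lit 2900538527) (nat_lit 228) (nat_lit 2643890491) (nat_lit 52) (nat_lit 5) (nat_lit 54) (nat_lit 5) (nat_lit 55) (nat_lit 5) (nat_lit 504) (nat_lit 371) (nat_lit 265)))) (XT.nd (nat_lit 78) (nat_lit 0) (nat_lit 0) (XT.lf (nat_lit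 0) (nat_lit 2191809730) (nat_lit 304) (nat_lit 12694221443) (nat_lit 76) (nat_lit 2786692808) (nat_lit 48) (nat_lit 5) (nat_lit 52) (nat_lit 5) (nat_lit 49) (nat_lit 5) (nat_lit 505) (nat_lit 371) (nat_lit 264)) (XT.nd (nat_lit 50778) (nat_lit 0) (nat_lit 49020) (XT.lf (nat_lit 0) (nat_lit 7122224064) (nat_lit 304) (nat_lit 2196500294) (nat_lit 76) (nat_lit 8586342444) (nat_lit 48) (nat_lit 5) (nat_lit 52) (nat_lit 5) (nat_lit 49) (nat_lit 5) (nat_lit 506) (nat_lit 371) (nat_lit 263)) (XT.lf (nat_lit 0) (nat_lit 1220113291) (nat_lit 684) (nat_lit 842565864) (nat_lit 0) (nat_lit 1220113291) (nat_lit 693) (nat_lit 5) (nat_lit 702) (nat_lit 4) (nat_lit 693) (nat_lit 4) (nat_lit 396) (nat_lit 372) (nat_lit 372))))) (XT.nd (nat_lit 234) (nat_lit 1900) (nat_lit 0) (XT.nd (nat_lit 78) (nat_lit 836) (nat_lit 0) (XT.lf (nat_lit 0) (nat_lit 2291183402) (nat_lit 684) (nat_lit 3364177596) (nat_lit 684) (nat_lit 926357889) (nat_lit 684)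 (nat_lit 4) (nat_lit 693) (nat_lit 5) (nat_lit 693) (nat_lit 4) (nat_lit 397) (nat_lit 372) (nat_lit 371)) (XT.nd (nat_lit 78) (nat_lit 760) (nat_lit 0) (XT.lf (nat_lit 0) (nat_lit 2243045884) (nat_lit 760) (nat_lit 296886341) (nat_lit 76) (nat_lit 4059225622) (nat_lit 683) (nat_lit 5) (nat_lit 693) (nat_lit 5) (nat_lit 684) (nat_lit 4) (nat_lit 398) (nat_lit 372) (nat_lit 370)) (XT.lf (nat_lit 0) (nat_lit 3767402908) (nat_lit 760) (nat_lit 1647645672) (nat_lit 836) (nat_lit 1202768789) (nat_lit 673) (nat_lit 5) (nat_lit 683) (nat_lit 5) (nat_lit 684) (nat_lit 4) (nat_lit 399) (nat_lit 372) (nat_lit 369)))) (XT.nd (nat_lit 78) (nat_lit 988) (nat_lit 0) (XT.lf (nat_lit 0) (nat_lit 1230089133) (nat_lit 836) (nat_lit 694866501) (nat_lit 912) (nat_lit 4712904009) (nat_lit 661) (nat_lit 5) (nat_lit 672) (nat_lit 5) (nat_lit 673) (nat_lit 5) (nat_lit 400) (nat_lit 372) (nat_lit 368)) (XT.nd (nat_lit 78) (nat_lit 988) (nat_lit 0)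 (XT.lf (nat_lit 0) (nat_lit 5049122541) (nat_lit 912) (nat_lit 1291336945) (nat_lit 76) (nat_lit 318709423) (nat_lit 661) (nat_lit 5) (nat_lit 673) (nat_lit 5) (nat_lit 662) (nat_lit 4) (nat_lit 401) (nat_lit 372) (nat_lit 367)) (XT.lf (nat_lit 0) (nat_lit 1487812547) (nat_lit 988) (nat_lit 3804252930) (nat_lit 76) (nat_lit 1389594288) (nat_lit 648) (nat_lit 5) (nat_lit 661) (nat_lit 5) (nat_lit 649) (nat_lit 5) (nat_lit 402) (nat_lit 372) (nat_lit 366))))))))
noncomputable def xc67 : XT := (XT.nd (nat_lit 1794) (nat_lit 12236) (nat_lit 0) (XT.nd (nat_lit 858) (nat_lit 11020) (nat_lit 0) (XT.nd (nat_lit 390) (nat_lit 5548) (nat_lit 0) (XT.nd (nat_lit 156) (nat_lit 2280) (nat_lit 0) (XT.nd (nat_lit 78) (nat_lit 76) (nat_lit 0) (XT.lf (nat_lit 0) (nat_lit 383013081) (nat_lit 988) (nat_lit 4185149908) (nat_lit 1064) (nat_lit 2137406315) (nat_lit 635) (nat_lit 5) (nat_lit 648) (nat_lit 5) (nat_lit 649) (nat_lit 5) (nat_lit 403)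 (nat_lit 372) (nat_lit 365)) (XT.lf (nat_lit 0) (nat_lit 924403023) (nat_lit 1064) (nat_lit 2084860160) (nat_lit 76) (nat_lit 3721447334) (nat_lit 634) (nat_lit 5) (nat_lit 648) (nat_lit 5) (nat_lit 635) (nat_lit 5) (nat_lit 404) (nat_lit 372) (nat_lit 364))) (XT.nd (nat_lit 78) (nat_lit 1216) (nat_lit 0) (XT.lf (nat_lit 0) (nat_lit 2198868641) (nat_lit 1064) (nat_lit 1767005494) (nat_lit 1140) (nat_lit 2791279156) (nat_lit 620) (nat_lit 5) (nat_lit 634) (nat_lit 5) (nat_lit 635) (nat_lit 5) (nat_lit 405) (nat_lit 372) (nat_lit 363)) (XT.nd (nat_lit 78) (nat_lit 1140) (nat_lit 0) (XT.lf (nat_lit 0) (nat_lit 227663606) (nat_lit 1140) (nat_lit 243210879) (nat_lit 76) (nat_lit 6314288114) (nat_lit 619) (nat_lit 5) (nat_lit 634) (nat_lit 5) (nat_lit 620) (nat_lit 5) (nat_lit 406) (nat_lit 372) (nat_lit 362)) (XT.lf (nat_lit 0) (nat_lit 3237004638) (nat_lit 1216) (nat_lit 2678976031) (nat_lit 76) (nat_lit 898055454) (nat_lit 604)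 (nat_lit 5) (nat_lit 620) (nat_lit 5) (nat_lit 605) (nat_lit 5) (nat_lit 407) (nat_lit 372) (nat_lit 361))))) (XT.nd (nat_lit 234) (nat_lit 2964) (nat_lit 0) (XT.nd (nat_lit 78) (nat_lit 1368) (nat_lit 0) (XT.lf (nat_lit 0) (nat_lit 1726306942) (nat_lit 1216) (nat_lit 4531779224) (nat_lit 1292) (nat_lit 586390395) (nat_lit 588) (nat_lit 5) (nat_lit 604) (nat_lit 5) (nat_lit 605) (nat_lit 5) (nat_lit 408) (nat_lit 372) (nat_lit 360)) (XT.nd (nat_lit 78) (nat_lit 1292) (nat_lit 0) (XT.lf (nat_lit 0) (nat_lit 2385902100) (nat_lit 1292) (nat_lit 689731925) (nat_lit 76) (nat_lit 3800508436) (nat_lit 587) (nat_lit 5) (nat_lit 604) (nat_lit 5) (nat_lit 588) (nat_lit 5) (nat_lit 409) (nat_lit 372) (nat_lit 359)) (XT.lf (nat_lit 0) (nat_lit 3820102204) (nat_lit 1292) (nat_lit 1551809028) (nat_lit 1368) (nat_lit 1537229810) (nat_lit 570) (nat_lit 5) (nat_lit 587) (nat_lit 5) (nat_lit 588) (nat_lit 5) (nat_lit 410) (nat_lit 372) (nat_lit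 358)))) (XT.nd (nat_lit 78) (nat_lit 1520) (nat_lit 0) (XT.lf (nat_lit 0) (nat_lit 1407517009) (nat_lit 1444) (nat_lit 5501618194) (nat_lit 76) (nat_lit 34451086) (nat_lit 551) (nat_lit 5) (nat_lit 570) (nat_lit 5) (nat_lit 552) (nat_lit 5) (nat_lit 411) (nat_lit 372) (nat_lit 357)) (XT.nd (nat_lit 78) (nat_lit 1520) (nat_lit 0) (XT.lf (nat_lit 0) (nat_lit 4360430595) (nat_lit 1444) (nat_lit 948258756) (nat_lit 76) (nat_lit 1670448982) (nat_lit 551) (nat_lit 5) (nat_lit 570) (nat_lit 5) (nat_lit 552) (nat_lit 5) (nat_lit 412) (nat_lit 372) (nat_lit 356)) (XT.lf (nat_lit 0) (nat_lit 315920148) (nat_lit 1520) (nat_lit 3327398155) (nat_lit 76) (nat_lit 3372782245) (nat_lit 531) (nat_lit 5) (nat_lit 551) (nat_lit 5) (nat_lit 532) (nat_lit 5) (nat_lit 413) (nat_lit 372) (nat_lit 355)))))) (XT.nd (nat_lit 468) (nat_lit 4332) (nat_lit 0) (XT.nd (nat_lit 234) (nat_lit 3496) (nat_lit 0) (XT.nd (nat_lit 78) (nat_lit 1672) (nat_lit 0)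 (XT.lf (nat_lit 0) (nat_lit 1323345273) (nat_lit 1520) (nat_lit 1906178069) (nat_lit 1596) (nat_lit 3824842696) (nat_lit 511) (nat_lit 5) (nat_lit 531) (nat_lit 5) (nat_lit 532) (nat_lit 5) (nat_lit 414) (nat_lit 372) (nat_lit 354)) (XT.nd (nat_lit 78) (nat_lit 1672) (nat_lit 0) (XT.lf (nat_lit 0) (nat_lit 6058355977) (nat_lit 1520) (nat_lit 106508809) (nat_lit 1596) (nat_lit 929279561) (nat_lit 511) (nat_lit 5) (nat_lit 531) (nat_lit 5) (nat_lit 532) (nat_lit 5) (nat_lit 415) (nat_lit 372) (nat_lit 353)) (XT.lf (nat_lit 0) (nat_lit 1975298386) (nat_lit 1672) (nat_lit 3411036747) (nat_lit 76) (nat_lit 1748583395) (nat_lit 489) (nat_lit 5) (nat_lit 511) (nat_lit 5) (nat_lit 490) (nat_lit 5) (nat_lit 416) (nat_lit 372) (nat_lit 352)))) (XT.nd (nat_lit 78) (nat_lit 1824) (nat_lit 0) (XT.lf (nat_lit 0) (nat_lit 1373099505) (nat_lit 1672) (nat_lit 3511767644) (nat_lit 1748) (nat_lit 2292347209) (nat_lit 467) (nat_lit 5) (nat_lit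 489) (nat_lit 5) (nat_lit 490) (nat_lit 5) (nat_lit 417) (nat_lit 372) (nat_lit 351)) (XT.nd (nat_lit 78) (nat_lit 1748) (nat_lit 0) (XT.lf (nat_lit 0) (nat_lit 590116450) (nat_lit 1748) (nat_lit 979832405) (nat_lit 76) (nat_lit 5651017641) (nat_lit 466) (nat_lit 5) (nat_lit 489) (nat_lit 5) (nat_lit 467) (nat_lit 5) (nat_lit 418) (nat_lit 372) (nat_lit 350)) (XT.lf (nat_lit 0) (nat_lit 3472198140) (nat_lit 1824) (nat_lit 3345407110) (nat_lit 76) (nat_lit 448247060) (nat_lit 443) (nat_lit 5) (nat_lit 467) (nat_lit 5) (nat_lit 444) (nat_lit 5) (nat_lit 419) (nat_lit 372) (nat_lit 349))))) (XT.nd (nat_lit 234) (nat_lit 1900) (nat_lit 0) (XT.nd (nat_lit 78) (nat_lit 988) (nat_lit 0) (XT.lf (nat_lit 0) (nat_lit 1576206961) (nat_lit 1444) (nat_lit 4807933741) (nat_lit 1520) (nat_lit 928065407) (nat_lit 424) (nat_lit 5) (nat_lit 443) (nat_lit 5) (nat_lit 444) (nat_lit 5) (nat_lit 420) (nat_lit 372) (nat_lit 348)) (XT.nd (nat_lit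 78) (nat_lit 912) (nat_lit 0) (XT.lf (nat_lit 0) (nat_lit 1936593838) (nat_lit 1520) (nat_lit 785449856) (nat_lit 76) (nat_lit 4637839911) (nat_lit 423) (nat_lit 5) (nat_lit 443) (nat_lit 5) (nat_lit 424) (nat_lit 5) (nat_lit 421) (nat_lit 372) (nat_lit 347)) (XT.lf (nat_lit 0) (nat_lit 4259999078) (nat_lit 912) (nat_lit 560186059) (nat_lit 988) (nat_lit 2588739321) (nat_lit 411) (nat_lit 5) (nat_lit 423) (nat_lit 5) (nat_lit 424) (nat_lit 5) (nat_lit 422) (nat_lit 372) (nat_lit 346)))) (XT.nd (nat_lit 78) (nat_lit 912) (nat_lit 0) (XT.lf (nat_lit 0) (nat_lit 273893559) (nat_lit 988) (nat_lit 5543196235) (nat_lit 76) (nat_lit 1642323149) (nat_lit 398) (nat_lit 5) (nat_lit 411) (nat_lit 5) (nat_lit 399) (nat_lit 5) (nat_lit 423) (nat_lit 372) (nat_lit 345)) (XT.nd (nat_lit 78) (nat_lit 912) (nat_lit 0) (XT.lf (nat_lit 0) (nat_lit 3131550963) (nat_lit 988) (nat_lit 461038515) (nat_lit 76) (nat_lit 3918543798) (nat_lit 398) (nat_lit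 5) (nat_lit 411) (nat_lit 5) (nat_lit 399) (nat_lit 5) (nat_lit 424) (nat_lit 372) (nat_lit 344)) (XT.lf (nat_lit 0) (nat_lit 4730984247) (nat_lit 912) (nat_lit 1294546852) (nat_lit 988) (nat_lit 1538786283) (nat_lit 386) (nat_lit 5) (nat_lit 398) (nat_lit 5) (nat_lit 399) (nat_lit 5) (nat_lit 425) (nat_lit 372) (nat_lit 343))))))) (XT.nd (nat_lit 936) (nat_lit 5776) (nat_lit 0) (XT.nd (nat_lit 468) (nat_lit 3040) (nat_lit 0) (XT.nd (nat_lit 234) (nat_lit 1672) (nat_lit 0) (XT.nd (nat_lit 78) (nat_lit 836) (nat_lit 0) (XT.lf (nat_lit 0) (nat_lit 1315333056) (nat_lit 912) (nat_lit 5243192878) (nat_lit 76) (nat_lit 1060388478) (nat_lit 374) (nat_lit 5) (nat_lit 386) (nat_lit 5) (nat_lit 375) (nat_lit 5) (nat_lit 426) (nat_lit 372) (nat_lit 342)) (XT.nd (nat_lit 78) (nat_lit 836) (nat_lit 0) (XT.lf (nat_lit 0) (nat_lit 4183063284) (nat_lit 912) (nat_lit 20560028) (nat_lit 76) (nat_lit 3471246006) (nat_lit 374) (nat_lit 5) (nat_lit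 386) (nat_lit 5) (nat_lit 375) (nat_lit 5) (nat_lit 427) (nat_lit 372) (nat_lit 341)) (XT.lf (nat_lit 0) (nat_lit 5322595935) (nat_lit 836) (nat_lit 1770503494) (nat_lit 912) (nat_lit 639156653) (nat_lit 363) (nat_lit 5) (nat_lit 374) (nat_lit 5) (nat_lit 375) (nat_lit 5) (nat_lit 428) (nat_lit 372) (nat_lit 340)))) (XT.nd (nat_lit 78) (nat_lit 836) (nat_lit 0) (XT.lf (nat_lit 0) (nat_lit 2215569153) (nat_lit 836) (nat_lit 4843890167) (nat_lit 76) (nat_lit 731551710) (nat_lit 352) (nat_lit 5) (nat_lit 363) (nat_lit 5) (nat_lit 353) (nat_lit 5) (nat_lit 429) (nat_lit 372) (nat_lit 339)) (XT.nd (nat_lit 78) (nat_lit 76) (nat_lit 0) (XT.lf (nat_lit 0) (nat_lit 529313773) (nat_lit 760) (nat_lit 4572234138) (nat_lit 836) (nat_lit 2749665441) (nat_lit 342) (nat_lit 5) (nat_lit 352) (nat_lit 5) (nat_lit 353) (nat_lit 5) (nat_lit 430) (nat_lit 372) (nat_lit 338)) (XT.lf (nat_lit 0) (nat_lit 115150702) (nat_lit 836) (nat_lit 1892345676)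 (nat_lit 76) (nat_lit 5905431523) (nat_lit 341) (nat_lit 5) (nat_lit 352) (nat_lit 5) (nat_lit 342) (nat_lit 5) (nat_lit 431) (nat_lit 372) (nat_lit 337))))) (XT.nd (nat_lit 234) (nat_lit 1444) (nat_lit 0) (XT.nd (nat_lit 78) (nat_lit 836) (nat_lit 0) (XT.lf (nat_lit 0) (nat_lit 2980670369) (nat_lit 836) (nat_lit 4358970830) (nat_lit 76) (nat_lit 636277996) (nat_lit 331) (nat_lit 5) (nat_lit 342) (nat_lit 5) (nat_lit 332) (nat_lit 5) (nat_lit 432) (nat_lit 372) (nat_lit 336)) (XT.nd (nat_lit 78) (nat_lit 76) (nat_lit 0) (XT.lf (nat_lit 0) (nat_lit 1169709392) (nat_lit 760) (nat_lit 4720497699) (nat_lit 836) (nat_lit 2150239351) (nat_lit 321) (nat_lit 5) (nat_lit 331) (nat_lit 5) (nat_lit 332) (nat_lit 5) (nat_lit 433) (nat_lit 372) (nat_lit 335)) (XT.lf (nat_lit 0) (nat_lit 724544174) (nat_lit 836) (nat_lit 1297391674) (nat_lit 76) (nat_lit 6084585999) (nat_lit 320) (nat_lit 5) (nat_lit 331) (nat_lit 5) (nat_lit 321) (nat_lit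 5) (nat_lit 434) (nat_lit 372) (nat_lit 334)))) (XT.nd (nat_lit 78) (nat_lit 760) (nat_lit 0) (XT.lf (nat_lit 0) (nat_lit 3615655403) (nat_lit 760) (nat_lit 3801997393) (nat_lit 76) (nat_lit 756238894) (nat_lit 311) (nat_lit 5) (nat_lit 321) (nat_lit 5) (nat_lit 312) (nat_lit 5) (nat_lit 435) (nat_lit 372) (nat_lit 333)) (XT.nd (nat_lit 78) (nat_lit 76) (nat_lit 0) (XT.lf (nat_lit 0) (nat_lit 1886890762) (nat_lit 684) (nat_lit 4666806650) (nat_lit 760) (nat_lit 1689138828) (nat_lit 302) (nat_lit 5) (nat_lit 311) (nat_lit 5) (nat_lit 312) (nat_lit 5) (nat_lit 436) (nat_lit 372) (nat_lit 332)) (XT.lf (nat_lit 0) (nat_lit 1201731950) (nat_lit 760) (nat_lit 634135993) (nat_lit 76) (nat_lit 6477527787) (nat_lit 301) (nat_lit 5) (nat_lit 311) (nat_lit 5) (nat_lit 302) (nat_lit 5) (nat_lit 437) (nat_lit 372) (nat_lit 331)))))) (XT.nd (nat_lit 468) (nat_lit 2432) (nat_lit 0) (XT.nd (nat_lit 234) (nat_lit 1292) (nat_lit 0) (XT.nd (nat_lit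 78) (nat_lit 1368) (nat_lit 0) (XT.lf (nat_lit 0) (nat_lit 4124511231) (nat_lit 760) (nat_lit 3186538124) (nat_lit 76) (nat_lit 1074168512) (nat_lit 292) (nat_lit 5) (nat_lit 302) (nat_lit 5) (nat_lit 293) (nat_lit 5) (nat_lit 438) (nat_lit 372) (nat_lit 330)) (XT.nd (nat_lit 78) (nat_lit 684) (nat_lit 0) (XT.lf (nat_lit 0) (nat_lit 2667370870) (nat_lit 684) (nat_lit 4428417738) (nat_lit 760) (nat_lit 1362895742) (nat_lit 283) (nat_lit 5) (nat_lit 292) (nat_lit 5) (nat_lit 293) (nat_lit 5) (nat_lit 439) (nat_lit 372) (nat_lit 329)) (XT.lf (nat_lit 0) (nat_lit 84975823) (nat_lit 608) (nat_lit 1465579667) (nat_lit 684) (nat_lit 6983294755) (nat_lit 274) (nat_lit 5) (nat_lit 282) (nat_lit 5) (nat_lit 283) (nat_lit 5) (nat_lit 440) (nat_lit 372) (nat_lit 328)))) (XT.nd (nat_lit 78) (nat_lit 1292) (nat_lit 0) (XT.lf (nat_lit 0) (nat_lit 4510203285) (nat_lit 684) (nat_lit 2526296182) (nat_lit 76) (nat_lit 1573724532) (nat_lit 274)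 (nat_lit 5) (nat_lit 283) (nat_lit 5) (nat_lit 275) (nat_lit 5) (nat_lit 441) (nat_lit 372) (nat_lit 327)) (XT.nd (nat_lit 78) (nat_lit 684) (nat_lit 0) (XT.lf (nat_lit 0) (nat_lit 3497507475) (nat_lit 608) (nat_lit 4021728555) (nat_lit 684) (nat_lit 1169093448) (nat_lit 266) (nat_lit 5) (nat_lit 274) (nat_lit 5) (nat_lit 275) (nat_lit 5) (nat_lit 442) (nat_lit 372) (nat_lit 326)) (XT.lf (nat_lit 0) (nat_lit 854037058) (nat_lit 608) (nat_lit 923127071) (nat_lit 684) (nat_lit 6990992576) (nat_lit 257) (nat_lit 5) (nat_lit 265) (nat_lit 5) (nat_lit 266) (nat_lit 5) (nat_lit 443) (nat_lit 372) (nat_lit 325))))) (XT.nd (nat_lit 234) (nat_lit 1216) (nat_lit 0) (XT.nd (nat_lit 78) (nat_lit 1216) (nat_lit 0) (XT.lf (nat_lit 0) (nat_lit 4774677654) (nat_lit 684) (nat_lit 1835243127) (nat_lit 76) (nat_lit 2239353065) (nat_lit 257) (nat_lit 5) (nat_lit 266) (nat_lit 5) (nat_lit 258) (nat_lit 5) (nat_lit 444) (nat_lit 372) (nat_lit 324))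 (XT.nd (nat_lit 78) (nat_lit 608) (nat_lit 0) (XT.lf (nat_lit 0) (nat_lit 4363367411) (nat_lit 608) (nat_lit 3462412930) (nat_lit 684) (nat_lit 1106367685) (nat_lit 249) (nat_lit 5) (nat_lit 257) (nat_lit 5) (nat_lit 258) (nat_lit 5) (nat_lit 445) (nat_lit 372) (nat_lit 323)) (XT.lf (nat_lit 0) (nat_lit 1650327855) (nat_lit 532) (nat_lit 228192039) (nat_lit 608) (nat_lit 7138267668) (nat_lit 241) (nat_lit 5) (nat_lit 248) (nat_lit 5) (nat_lit 249) (nat_lit 5) (nat_lit 446) (nat_lit 372) (nat_lit 322)))) (XT.nd (nat_lit 78) (nat_lit 1216) (nat_lit 0) (XT.lf (nat_lit 0) (nat_lit 4918855143) (nat_lit 608) (nat_lit 1127757933) (nat_lit 76) (nat_lit 3056156311) (nat_lit 241) (nat_lit 5) (nat_lit 249) (nat_lit 5) (nat_lit 242) (nat_lit 5) (nat_lit 447) (nat_lit 372) (nat_lit 321)) (XT.nd (nat_lit 78) (nat_lit 608) (nat_lit 0) (XT.lf (nat_lit 0) (nat_lit 5250585061) (nat_lit 608) (nat_lit 2765553973) (nat_lit 684) (nat_lit 1174415878)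 (nat_lit 233) (nat_lit 5) (nat_lit 241) (nat_lit 5) (nat_lit 242) (nat_lit 5) (nat_lit 448) (nat_lit 372) (nat_lit 320)) (XT.lf (nat_lit 0) (nat_lit 1858633871) (nat_lit 608) (nat_lit 6825029351) (nat_lit 76) (nat_lit 596429091) (nat_lit 225) (nat_lit 5) (nat_lit 233) (nat_lit 5) (nat_lit 226) (nat_lit 5) (nat_lit 449) (nat_lit 372) (nat_lit 319))))))))
noncomputable def xc68 : XT := (XT.nd (nat_lit 1794) (nat_lit 4788) (nat_lit 0) (XT.nd (nat_lit 858) (nat_lit 3420) (nat_lit 0) (XT.nd (nat_lit 390) (nat_lit 1976) (nat_lit 0) (XT.nd (nat_lit 156) (nat_lit 1064) (nat_lit 0) (XT.nd (nat_lit 78) (nat_lit 532) (nat_lit 0) (XT.lf (nat_lit 0) (nat_lit 4942616984) (nat_lit 608) (nat_lit 418772767) (nat_lit 76) (nat_lit 4009762004) (nat_lit 225) (nat_lit 5) (nat_lit 233) (nat_lit 5) (nat_lit 226) (nat_lit 5) (nat_lit 450) (nat_lit 372) (nat_lit 318)) (XT.lf (nat_lit 0) (nat_lit 6144213727) (nat_lit 532) (nat_lit 1945775797) (nat_lit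 608) (nat_lit 1374015044) (nat_lit 218) (nat_lit 5) (nat_lit 225) (nat_lit 5) (nat_lit 226) (nat_lit 5) (nat_lit 451) (nat_lit 372) (nat_lit 317))) (XT.nd (nat_lit 78) (nat_lit 532) (nat_lit 0) (XT.lf (nat_lit 0) (nat_lit 1714883524) (nat_lit 532) (nat_lit 6304079767) (nat_lit 76) (nat_lit 1539608532) (nat_lit 211) (nat_lit 5) (nat_lit 218) (nat_lit 5) (nat_lit 212) (nat_lit 5) (nat_lit 452) (nat_lit 372) (nat_lit 316)) (XT.nd (nat_lit 78) (nat_lit 0) (nat_lit 0) (XT.lf (nat_lit 0) (nat_lit 279742001) (nat_lit 532) (nat_lit 4566856193) (nat_lit 608) (nat_lit 4808267870) (nat_lit 204) (nat_lit 5) (nat_lit 211) (nat_lit 5) (nat_lit 212) (nat_lit 5) (nat_lit 453) (nat_lit 372) (nat_lit 315)) (XT.lf (nat_lit 0) (nat_lit 7028568524) (nat_lit 532) (nat_lit 1017374987) (nat_lit 608) (nat_lit 1707048646) (nat_lit 204) (nat_lit 5) (nat_lit 211) (nat_lit 5) (nat_lit 212) (nat_lit 5) (nat_lit 454) (nat_lit 372) (nat_lit 314))))) (XT.nd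 (nat_lit 234) (nat_lit 988) (nat_lit 0) (XT.nd (nat_lit 78) (nat_lit 456) (nat_lit 0) (XT.lf (nat_lit 0) (nat_lit 1443619065) (nat_lit 532) (nat_lit 5818777061) (nat_lit 76) (nat_lit 2590370771) (nat_lit 197) (nat_lit 5) (nat_lit 204) (nat_lit 5) (nat_lit 198) (nat_lit 5) (nat_lit 455) (nat_lit 372) (nat_lit 313)) (XT.nd (nat_lit 78) (nat_lit 0) (nat_lit 0) (XT.lf (nat_lit 0) (nat_lit 952765801) (nat_lit 456) (nat_lit 3676494507) (nat_lit 532) (nat_lit 5325160353) (nat_lit 191) (nat_lit 5) (nat_lit 197) (nat_lit 5) (nat_lit 198) (nat_lit 5) (nat_lit 456) (nat_lit 372) (nat_lit 312)) (XT.lf (nat_lit 0) (nat_lit 7881548240) (nat_lit 532) (nat_lit 2171031651) (nat_lit 76) (nat_lit 5474377) (nat_lit 191) (nat_lit 5) (nat_lit 198) (nat_lit 5) (nat_lit 192) (nat_lit 5) (nat_lit 457) (nat_lit 372) (nat_lit 311)))) (XT.nd (nat_lit 78) (nat_lit 456) (nat_lit 0) (XT.lf (nat_lit 0) (nat_lit 1041538266) (nat_lit 532) (nat_lit 5386789258)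 (nat_lit 76) (nat_lit 3734903988) (nat_lit 184) (nat_lit 5) (nat_lit 191) (nat_lit 5) (nat_lit 185) (nat_lit 5) (nat_lit 458) (nat_lit 372) (nat_lit 310)) (XT.nd (nat_lit 78) (nat_lit 0) (nat_lit 0) (XT.lf (nat_lit 0) (nat_lit 1576945571) (nat_lit 456) (nat_lit 2707375822) (nat_lit 532) (nat_lit 5986117879) (nat_lit 178) (nat_lit 5) (nat_lit 184) (nat_lit 5) (nat_lit 185) (nat_lit 5) (nat_lit 459) (nat_lit 372) (nat_lit 309)) (XT.lf (nat_lit 0) (nat_lit 7600262139) (nat_lit 532) (nat_lit 1684961818) (nat_lit 76) (nat_lit 1094406219) (nat_lit 178) (nat_lit 5) (nat_lit 185) (nat_lit 5) (nat_lit 179) (nat_lit 5) (nat_lit 460) (nat_lit 372) (nat_lit 308)))))) (XT.nd (nat_lit 468) (nat_lit 1672) (nat_lit 0) (XT.nd (nat_lit 234) (nat_lit 836) (nat_lit 0) (XT.nd (nat_lit 78) (nat_lit 456) (nat_lit 0) (XT.lf (nat_lit 0) (nat_lit 504155547) (nat_lit 456) (nat_lit 5026989754) (nat_lit 76) (nat_lit 4959418905) (nat_lit 172) (nat_lit 5)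 (nat_lit 178) (nat_lit 5) (nat_lit 173) (nat_lit 5) (nat_lit 461) (nat_lit 372) (nat_lit 307)) (XT.nd (nat_lit 78) (nat_lit 0) (nat_lit 0) (XT.lf (nat_lit 0) (nat_lit 2133245253) (nat_lit 456) (nat_lit 1673814256) (nat_lit 532) (nat_lit 6796476201) (nat_lit 166) (nat_lit 5) (nat_lit 172) (nat_lit 5) (nat_lit 173) (nat_lit 5) (nat_lit 462) (nat_lit 372) (nat_lit 306)) (XT.lf (nat_lit 0) (nat_lit 7190555266) (nat_lit 532) (nat_lit 1279093023) (nat_lit 76) (nat_lit 2248832328) (nat_lit 166) (nat_lit 5) (nat_lit 173) (nat_lit 5) (nat_lit 167) (nat_lit 5) (nat_lit 463) (nat_lit 372) (nat_lit 305)))) (XT.nd (nat_lit 78) (nat_lit 456) (nat_lit 0) (XT.lf (nat_lit 0) (nat_lit 6074584277) (nat_lit 380) (nat_lit 4584229241) (nat_lit 456) (nat_lit 176573609) (nat_lit 161) (nat_lit 5) (nat_lit 166) (nat_lit 5) (nat_lit 167) (nat_lit 5) (nat_lit 464) (nat_lit 372) (nat_lit 304)) (XT.nd (nat_lit 78) (nat_lit 0) (nat_lit 0) (XT.lf (nat_lit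 0) (nat_lit 2601176342) (nat_lit 380) (nat_lit 590318145) (nat_lit 456) (nat_lit 7762876575) (nat_lit 155) (nat_lit 5) (nat_lit 160) (nat_lit 5) (nat_lit 161) (nat_lit 5) (nat_lit 465) (nat_lit 372) (nat_lit 303)) (XT.lf (nat_lit 0) (nat_lit 6646237280) (nat_lit 456) (nat_lit 974438117) (nat_lit 76) (nat_lit 3454606677) (nat_lit 155) (nat_lit 5) (nat_lit 161) (nat_lit 5) (nat_lit 156) (nat_lit 5) (nat_lit 466) (nat_lit 372) (nat_lit 302))))) (XT.nd (nat_lit 234) (nat_lit 836) (nat_lit 0) (XT.nd (nat_lit 78) (nat_lit 456) (nat_lit 0) (XT.lf (nat_lit 0) (nat_lit 6585060730) (nat_lit 380) (nat_lit 3599226574) (nat_lit 456) (nat_lit 1014043962) (nat_lit 150) (nat_lit 5) (nat_lit 155) (nat_lit 5) (nat_lit 156) (nat_lit 5) (nat_lit 467) (nat_lit 372) (nat_lit 301)) (XT.nd (nat_lit 78) (nat_lit 0) (nat_lit 0) (XT.lf (nat_lit 0) (nat_lit 2433743250) (nat_lit 456) (nat_lit 8368508741) (nat_lit 76) (nat_lit 521335434) (nat_lit 144) (nat_lit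 5) (nat_lit 150) (nat_lit 5) (nat_lit 145) (nat_lit 5) (nat_lit 468) (nat_lit 372) (nat_lit 300)) (XT.lf (nat_lit 0) (nat_lit 5959774292) (nat_lit 456) (nat_lit 793763544) (nat_lit 76) (nat_lit 4697223457) (nat_lit 144) (nat_lit 5) (nat_lit 150) (nat_lit 5) (nat_lit 145) (nat_lit 5) (nat_lit 469) (nat_lit 372) (nat_lit 299)))) (XT.nd (nat_lit 78) (nat_lit 456) (nat_lit 0) (XT.lf (nat_lit 0) (nat_lit 6975325382) (nat_lit 380) (nat_lit 2594774317) (nat_lit 456) (nat_lit 2010107352) (nat_lit 139) (nat_lit 5) (nat_lit 144) (nat_lit 5) (nat_lit 145) (nat_lit 5) (nat_lit 470) (nat_lit 372) (nat_lit 298)) (XT.nd (nat_lit 78) (nat_lit 0) (nat_lit 0) (XT.lf (nat_lit 0) (nat_lit 1525604535) (nat_lit 456) (nat_lit 8541600937) (nat_lit 76) (nat_lit 1644731623) (nat_lit 133) (nat_lit 5) (nat_lit 139) (nat_lit 5) (nat_lit 134) (nat_lit 5) (nat_lit 471) (nat_lit 372) (nat_lit 297)) (XT.lf (nat_lit 0) (nat_lit 5122198808) (nat_lit 456) (nat_lit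 761833831) (nat_lit 76) (nat_lit 5961665358) (nat_lit 133) (nat_lit 5) (nat_lit 139) (nat_lit 5) (nat_lit 134) (nat_lit 5) (nat_lit 472) (nat_lit 372) (nat_lit 296))))))) (XT.nd (nat_lit 858) (nat_lit 2052) (nat_lit 0) (XT.nd (nat_lit 390) (nat_lit 1368) (nat_lit 0) (XT.nd (nat_lit 156) (nat_lit 608) (nat_lit 0) (XT.nd (nat_lit 78) (nat_lit 456) (nat_lit 0) (XT.lf (nat_lit 0) (nat_lit 7220254640) (nat_lit 304) (nat_lit 1586729956) (nat_lit 380) (nat_lit 3174827921) (nat_lit 129) (nat_lit 5) (nat_lit 133) (nat_lit 5) (nat_lit 134) (nat_lit 5) (nat_lit 473) (nat_lit 372) (nat_lit 295)) (XT.lf (nat_lit 0) (nat_lit 452890146) (nat_lit 456) (nat_lit 8895600392) (nat_lit 76) (nat_lit 2771826336) (nat_lit 123) (nat_lit 5) (nat_lit 129) (nat_lit 5) (nat_lit 124) (nat_lit 5) (nat_lit 474) (nat_lit 372) (nat_lit 294))) (XT.nd (nat_lit 78) (nat_lit 608) (nat_lit 0) (XT.lf (nat_lit 0) (nat_lit 4123006314) (nat_lit 456) (nat_lit 905677831)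 (nat_lit 76) (nat_lit 7232243754) (nat_lit 123) (nat_lit 5) (nat_lit 129) (nat_lit 5) (nat_lit 124) (nat_lit 5) (nat_lit 475) (nat_lit 372) (nat_lit 293)) (XT.nd (nat_lit 78) (nat_lit 304) (nat_lit 0) (XT.lf (nat_lit 0) (nat_lit 7292389116) (nat_lit 304) (nat_lit 591720594) (nat_lit 380) (nat_lit 4519893053) (nat_lit 119) (nat_lit 5) (nat_lit 123) (nat_lit 5) (nat_lit 124) (nat_lit 5) (nat_lit 476) (nat_lit 372) (nat_lit 292)) (XT.lf (nat_lit 0) (nat_lit 3084281960) (nat_lit 304) (nat_lit 8658241037) (nat_lit 380) (nat_lit 806977623) (nat_lit 115) (nat_lit 5) (nat_lit 119) (nat_lit 5) (nat_lit 120) (nat_lit 5) (nat_lit 477) (nat_lit 372) (nat_lit 291))))) (XT.nd (nat_lit 234) (nat_lit 684) (nat_lit 0) (XT.nd (nat_lit 78) (nat_lit 608) (nat_lit 0) (XT.lf (nat_lit 0) (nat_lit 2950037403) (nat_lit 380) (nat_lit 1254879298) (nat_lit 76) (nat_lit 8492429332) (nat_lit 114) (nat_lit 5) (nat_lit 119) (nat_lit 5) (nat_lit 115) (nat_lit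 5) (nat_lit 478) (nat_lit 372) (nat_lit 290)) (XT.nd (nat_lit 78) (nat_lit 304) (nat_lit 0) (XT.lf (nat_lit 0) (nat_lit 6791373641) (nat_lit 380) (nat_lit 5688478449) (nat_lit 76) (nat_lit 367792921) (nat_lit 110) (nat_lit 5) (nat_lit 115) (nat_lit 5) (nat_lit 111) (nat_lit 5) (nat_lit 479) (nat_lit 372) (nat_lit 289)) (XT.lf (nat_lit 0) (nat_lit 2718705977) (nat_lit 304) (nat_lit 8016016874) (nat_lit 380) (nat_lit 2265726397) (nat_lit 106) (nat_lit 5) (nat_lit 110) (nat_lit 5) (nat_lit 111) (nat_lit 5) (nat_lit 480) (nat_lit 372) (nat_lit 288)))) (XT.nd (nat_lit 78) (nat_lit 608) (nat_lit 0) (XT.lf (nat_lit 0) (nat_lit 1589344230) (nat_lit 380) (nat_lit 1841894648) (nat_lit 76) (nat_lit 9724671589) (nat_lit 105) (nat_lit 5) (nat_lit 110) (nat_lit 5) (nat_lit 106) (nat_lit 5) (nat_lit 481) (nat_lit 372) (nat_lit 287)) (XT.nd (nat_lit 78) (nat_lit 304) (nat_lit 0) (XT.lf (nat_lit 0) (nat_lit 5515529731) (nat_lit 380) (nat_lit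 6527290247) (nat_lit 76) (nat_lit 1270877205) (nat_lit 101) (nat_lit 5) (nat_lit 106) (nat_lit 5) (nat_lit 102) (nat_lit 5) (nat_lit 482) (nat_lit 372) (nat_lit 286)) (XT.lf (nat_lit 0) (nat_lit 2096468502) (nat_lit 304) (nat_lit 7444533132) (nat_lit 380) (nat_lit 3933225521) (nat_lit 97) (nat_lit 5) (nat_lit 101) (nat_lit 5) (nat_lit 102) (nat_lit 5) (nat_lit 483) (nat_lit 372) (nat_lit 285)))))) (XT.nd (nat_lit 468) (nat_lit 1140) (nat_lit 0) (XT.nd (nat_lit 234) (nat_lit 304) (nat_lit 0) (XT.nd (nat_lit 78) (nat_lit 532) (nat_lit 0) (XT.lf (nat_lit 0) (nat_lit 25039897) (nat_lit 380) (nat_lit 2702400992) (nat_lit 76) (nat_lit 10910205478) (nat_lit 96) (nat_lit 5) (nat_lit 101) (nat_lit 5) (nat_lit 97) (nat_lit 5) (nat_lit 484) (nat_lit 372) (nat_lit 284)) (XT.nd (nat_lit 78) (nat_lit 304) (nat_lit 0) (XT.lf (nat_lit 0) (nat_lit 4036273567) (nat_lit 304) (nat_lit 7661501929) (nat_lit 76) (nat_lit 2105511736) (nat_lit 93)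 (nat_lit 5) (nat_lit 97) (nat_lit 5) (nat_lit 94) (nat_lit 5) (nat_lit 485) (nat_lit 372) (nat_lit 283)) (XT.lf (nat_lit 0) (nat_lit 1179525848) (nat_lit 304) (nat_lit 6964910768) (nat_lit 380) (nat_lit 5827472769) (nat_lit 89) (nat_lit 5) (nat_lit 93) (nat_lit 5) (nat_lit 94) (nat_lit 5) (nat_lit 486) (nat_lit 372) (nat_lit 282)))) (XT.nd (nat_lit 78) (nat_lit 304) (nat_lit 0) (XT.lf (nat_lit 0) (nat_lit 10256156259) (nat_lit 304) (nat_lit 2102990754) (nat_lit 380) (nat_lit 1784271801) (nat_lit 89) (nat_lit 5) (nat_lit 93) (nat_lit 5) (nat_lit 94) (nat_lit 5) (nat_lit 487) (nat_lit 372) (nat_lit 281)) (XT.nd (nat_lit 78) (nat_lit 0) (nat_lit 0) (XT.lf (nat_lit 0) (nat_lit 2334973266) (nat_lit 304) (nat_lit 9132184939) (nat_lit 76) (nat_lit 2850381476) (nat_lit 85) (nat_lit 5) (nat_lit 89) (nat_lit 5) (nat_lit 86) (nat_lit 5) (nat_lit 488) (nat_lit 372) (nat_lit 280)) (XT.lf (nat_lit 0) (nat_lit 6526363136) (nat_lit 304) (nat_lit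 73087478) (nat_lit 76) (nat_lit 7895185815) (nat_lit 85) (nat_lit 5) (nat_lit 89) (nat_lit 5) (nat_lit 86) (nat_lit 5) (nat_lit 489) (nat_lit 372) (nat_lit 279))))) (XT.nd (nat_lit 234) (nat_lit 532) (nat_lit 0) (XT.nd (nat_lit 78) (nat_lit 304) (nat_lit 0) (XT.lf (nat_lit 0) (nat_lit 9244645687) (nat_lit 304) (nat_lit 1590921749) (nat_lit 380) (nat_lit 3839030268) (nat_lit 81) (nat_lit 5) (nat_lit 85) (nat_lit 5) (nat_lit 86) (nat_lit 5) (nat_lit 490) (nat_lit 372) (nat_lit 278)) (XT.nd (nat_lit 78) (nat_lit 0) (nat_lit 0) (XT.lf (nat_lit 0) (nat_lit 390629760) (nat_lit 304) (nat_lit 10984623031) (nat_lit 76) (nat_lit 3482404806) (nat_lit 77) (nat_lit 5) (nat_lit 81) (nat_lit 5) (nat_lit 78) (nat_lit 5) (nat_lit 491) (nat_lit 372) (nat_lit 277)) (XT.lf (nat_lit 0) (nat_lit 4674871601) (nat_lit 304) (nat_lit 1688129878) (nat_lit 76) (nat_lit 8680444016) (nat_lit 77) (nat_lit 5) (nat_lit 81) (nat_lit 5) (nat_lit 78) (nat_lit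 5) (nat_lit 492) (nat_lit 372) (nat_lit 276)))) (XT.nd (nat_lit 78) (nat_lit 304) (nat_lit 0) (XT.lf (nat_lit 0) (nat_lit 7854200428) (nat_lit 228) (nat_lit 1216229906) (nat_lit 304) (nat_lit 6162008322) (nat_lit 74) (nat_lit 5) (nat_lit 77) (nat_lit 5) (nat_lit 78) (nat_lit 5) (nat_lit 493) (nat_lit 372) (nat_lit 275)) (XT.nd (nat_lit 78) (nat_lit 76) (nat_lit 0) (XT.lf (nat_lit 0) (nat_lit 2143921550) (nat_lit 228) (nat_lit 11436231643) (nat_lit 304) (nat_lit 1844535533) (nat_lit 71) (nat_lit 5) (nat_lit 74) (nat_lit 5) (nat_lit 75) (nat_lit 5) (nat_lit 494) (nat_lit 372) (nat_lit 274)) (XT.lf (nat_lit 0) (nat_lit 2558406071) (nat_lit 304) (nat_lit 3731515439) (nat_lit 76) (nat_lit 9329878280) (nat_lit 70) (nat_lit 5) (nat_lit 74) (nat_lit 5) (nat_lit 71) (nat_lit 5) (nat_lit 495) (nat_lit 372) (nat_lit 273))))))))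
noncomputable def xc69 : XT := (XT.nd (nat_lit 52338) (nat_lit 0) (nat_lit 23104) (XT.nd (nat_lit 51402) (nat_lit 0) (nat_lit 43472) (XT.nd (nat_lit 390) (nat_lit 912) (nat_lit 0) (XT.nd (nat_lit 156) (nat_lit 532) (nat_lit 0) (XT.nd (nat_lit 78) (nat_lit 0) (nat_lit 0) (XT.lf (nat_lit 0) (nat_lit 6033219504) (nat_lit 228) (nat_lit 1005968333) (nat_lit 304) (nat_lit 8779093781) (nat_lit 67) (nat_lit 5) (nat_lit 70) (nat_lit 5) (nat_lit 71) (nat_lit 5) (nat_lit 496) (nat_lit 372) (nat_lit 272)) (XT.lf (nat_lit 0) (nat_lit 11638634648) (nat_lit 304) (nat_lit 47540583) (nat_lit 76) (nat_lit 4333978808) (nat_lit 67) (nat_lit 5) (nat_lit 71) (nat_lit 5) (nat_lit 68) (nat_lit 5) (nat_lit 497) (nat_lit 372) (nat_lit 271))) (XT.nd (nat_lit 78) (nat_lit 228) (nat_lit 0) (XT.lf (nat_lit 0) (nat_lit 150192733) (nat_lit 304) (nat_lit 6258997422) (nat_lit 76) (nat_lit 9815911109) (nat_lit 63) (nat_lit 5) (nat_lit 67) (nat_lit 5) (nat_lit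 64) (nat_lit 5) (nat_lit 498) (nat_lit 372) (nat_lit 270)) (XT.nd (nat_lit 78) (nat_lit 0) (nat_lit 0) (XT.lf (nat_lit 0) (nat_lit 3724629027) (nat_lit 228) (nat_lit 989708575) (nat_lit 304) (nat_lit 11719223088) (nat_lit 60) (nat_lit 5) (nat_lit 63) (nat_lit 5) (nat_lit 64) (nat_lit 5) (nat_lit 499) (nat_lit 372) (nat_lit 269)) (XT.lf (nat_lit 0) (nat_lit 9417506984) (nat_lit 304) (nat_lit 2724138739) (nat_lit 76) (nat_lit 4503590544) (nat_lit 60) (nat_lit 5) (nat_lit 64) (nat_lit 5) (nat_lit 61) (nat_lit 5) (nat_lit 500) (nat_lit 372) (nat_lit 268))))) (XT.nd (nat_lit 234) (nat_lit 456) (nat_lit 0) (XT.nd (nat_lit 78) (nat_lit 304) (nat_lit 0) (XT.lf (nat_lit 0) (nat_lit 7511310910) (nat_lit 152) (nat_lit 6735219786) (nat_lit 228) (nat_lit 2613980601) (nat_lit 58) (nat_lit 5) (nat_lit 60) (nat_lit 5) (nat_lit 61) (nat_lit 5) (nat_lit 501) (nat_lit 372) (nat_lit 267)) (XT.nd (nat_lit 78) (nat_lit 0) (nat_lit 0) (XT.lf (nat_lit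 0) (nat_lit 865272837) (nat_lit 228) (nat_lit 1199860997) (nat_lit 304) (nat_lit 15014677462) (nat_lit 54) (nat_lit 5) (nat_lit 57) (nat_lit 5) (nat_lit 58) (nat_lit 5) (nat_lit 502) (nat_lit 372) (nat_lit 266)) (XT.lf (nat_lit 0) (nat_lit 6871474671) (nat_lit 304) (nat_lit 5979195677) (nat_lit 76) (nat_lit 4451110132) (nat_lit 54) (nat_lit 5) (nat_lit 58) (nat_lit 5) (nat_lit 55) (nat_lit 5) (nat_lit 503) (nat_lit 372) (nat_lit 265)))) (XT.nd (nat_lit 78) (nat_lit 304) (nat_lit 0) (XT.lf (nat_lit 0) (nat_lit 4471230007) (nat_lit 152) (nat_lit 7316738942) (nat_lit 228) (nat_lit 5739941194) (nat_lit 52) (nat_lit 5) (nat_lit 54) (nat_lit 5) (nat_lit 55) (nat_lit 5) (nat_lit 504) (nat_lit 372) (nat_lit 264)) (XT.nd (nat_lit 78) (nat_lit 304) (nat_lit 0) (XT.lf (nat_lit 0) (nat_lit 15171660192) (nat_lit 152) (nat_lit 1648496744) (nat_lit 228) (nat_lit 938059780) (nat_lit 52) (nat_lit 5) (nat_lit 54) (nat_lit 5) (nat_lit 55) (nat_lit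 5) (nat_lit 505) (nat_lit 372) (nat_lit 263)) (XT.lf (nat_lit 0) (nat_lit 3965519840) (nat_lit 304) (nat_lit 9884878547) (nat_lit 76) (nat_lit 4141066470) (nat_lit 48) (nat_lit 5) (nat_lit 52) (nat_lit 5) (nat_lit 49) (nat_lit 5) (nat_lit 506) (nat_lit 372) (nat_lit 262)))))) (XT.nd (nat_lit 468) (nat_lit 3952) (nat_lit 0) (XT.nd (nat_lit 234) (nat_lit 1596) (nat_lit 0) (XT.nd (nat_lit 78) (nat_lit 684) (nat_lit 0) (XT.lf (nat_lit 0) (nat_lit 1808723516) (nat_lit 532) (nat_lit 729797332) (nat_lit 532) (nat_lit 729797332) (nat_lit 702) (nat_lit 4) (nat_lit 709) (nat_lit 5) (nat_lit 709) (nat_lit 4) (nat_lit 394) (nat_lit 373) (nat_lit 373)) (XT.nd (nat_lit 78) (nat_lit 0) (nat_lit 0) (XT.lf (nat_lit 0) (nat_lit 939925854) (nat_lit 608) (nat_lit 780981807) (nat_lit 684) (nat_lit 4829963254) (nat_lit 693) (nat_lit 5) (nat_lit 701) (nat_lit 5) (nat_lit 702) (nat_lit 4) (nat_lit 395) (nat_lit 373) (nat_lit 372)) (XT.lf (nat_lit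 0) (nat_lit 4854792195) (nat_lit 608) (nat_lit 35146378) (nat_lit 684) (nat_lit 1676397546) (nat_lit 693) (nat_lit 5) (nat_lit 701) (nat_lit 5) (nat_lit 702) (nat_lit 4) (nat_lit 396) (nat_lit 373) (nat_lit 371)))) (XT.nd (nat_lit 78) (nat_lit 836) (nat_lit 0) (XT.lf (nat_lit 0) (nat_lit 1465441229) (nat_lit 760) (nat_lit 4354223846) (nat_lit 76) (nat_lit 763364576) (nat_lit 683) (nat_lit 5) (nat_lit 693) (nat_lit 5) (nat_lit 684) (nat_lit 4) (nat_lit 397) (nat_lit 373) (nat_lit 370)) (XT.nd (nat_lit 78) (nat_lit 836) (nat_lit 0) (XT.lf (nat_lit 0) (nat_lit 4586627685) (nat_lit 760) (nat_lit 392583401) (nat_lit 76) (nat_lit 1621871733) (nat_lit 683) (nat_lit 5) (nat_lit 693) (nat_lit 5) (nat_lit 684) (nat_lit 4) (nat_lit 398) (nat_lit 373) (nat_lit 369)) (XT.lf (nat_lit 0) (nat_lit 1087541146) (nat_lit 836) (nat_lit 2983022333) (nat_lit 76) (nat_lit 2549771807) (nat_lit 672) (nat_lit 5) (nat_lit 683) (nat_lit 5) (nat_lit 673)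 (nat_lit 5) (nat_lit 399) (nat_lit 373) (nat_lit 368))))) (XT.nd (nat_lit 234) (nat_lit 2128) (nat_lit 0) (XT.nd (nat_lit 78) (nat_lit 988) (nat_lit 0) (XT.lf (nat_lit 0) (nat_lit 1061667884) (nat_lit 836) (nat_lit 3101654739) (nat_lit 912) (nat_lit 2477634506) (nat_lit 661) (nat_lit 5) (nat_lit 672) (nat_lit 5) (nat_lit 673) (nat_lit 5) (nat_lit 400) (nat_lit 373) (nat_lit 367)) (XT.nd (nat_lit 78) (nat_lit 912) (nat_lit 0) (XT.lf (nat_lit 0) (nat_lit 580118198) (nat_lit 912) (nat_lit 1490904308) (nat_lit 76) (nat_lit 4591912702) (nat_lit 660) (nat_lit 5) (nat_lit 672) (nat_lit 5) (nat_lit 661) (nat_lit 5) (nat_lit 401) (nat_lit 373) (nat_lit 366)) (XT.lf (nat_lit 0) (nat_lit 2645852904) (nat_lit 912) (nat_lit 968300686) (nat_lit 988) (nat_lit 3071929223) (nat_lit 648) (nat_lit 5) (nat_lit 660) (nat_lit 5) (nat_lit 661) (nat_lit 5) (nat_lit 402) (nat_lit 373) (nat_lit 365)))) (XT.nd (nat_lit 78) (nat_lit 1140) (nat_lit 0)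 (XT.lf (nat_lit 0) (nat_lit 123766296) (nat_lit 988) (nat_lit 6529212551) (nat_lit 1064) (nat_lit 57855447) (nat_lit 635) (nat_lit 5) (nat_lit 648) (nat_lit 5) (nat_lit 649) (nat_lit 5) (nat_lit 403) (nat_lit 373) (nat_lit 364)) (XT.nd (nat_lit 78) (nat_lit 1064) (nat_lit 0) (XT.lf (nat_lit 0) (nat_lit 2943384261) (nat_lit 1064) (nat_lit 2389311746) (nat_lit 76) (nat_lit 1403686379) (nat_lit 634) (nat_lit 5) (nat_lit 648) (nat_lit 5) (nat_lit 635) (nat_lit 5) (nat_lit 404) (nat_lit 373) (nat_lit 363)) (XT.lf (nat_lit 0) (nat_lit 1864107002) (nat_lit 1064) (nat_lit 4085931792) (nat_lit 1140) (nat_lit 813493476) (nat_lit 620) (nat_lit 5) (nat_lit 634) (nat_lit 5) (nat_lit 635) (nat_lit 5) (nat_lit 405) (nat_lit 373) (nat_lit 362))))))) (XT.nd (nat_lit 936) (nat_lit 8740) (nat_lit 0) (XT.nd (nat_lit 468) (nat_lit 6384) (nat_lit 0) (XT.nd (nat_lit 234) (nat_lit 2736) (nat_lit 0) (XT.nd (nat_lit 78) (nat_lit 2432) (nat_lit 0) (XT.lf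 (nat_lit 0) (nat_lit 2147116590) (nat_lit 1140) (nat_lit 623382521) (nat_lit 76) (nat_lit 4021443881) (nat_lit 619) (nat_lit 5) (nat_lit 634) (nat_lit 5) (nat_lit 620) (nat_lit 5) (nat_lit 406) (nat_lit 373) (nat_lit 361)) (XT.nd (nat_lit 78) (nat_lit 1292) (nat_lit 0) (XT.lf (nat_lit 0) (nat_lit 3729844970) (nat_lit 1140) (nat_lit 1386275828) (nat_lit 1216) (nat_lit 1705512611) (nat_lit 604) (nat_lit 5) (nat_lit 619) (nat_lit 5) (nat_lit 620) (nat_lit 5) (nat_lit 407) (nat_lit 373) (nat_lit 360)) (XT.lf (nat_lit 0) (nat_lit 1224885261) (nat_lit 1292) (nat_lit 5570404434) (nat_lit 76) (nat_lit 57494810) (nat_lit 587) (nat_lit 5) (nat_lit 604) (nat_lit 5) (nat_lit 588) (nat_lit 5) (nat_lit 408) (nat_lit 373) (nat_lit 359)))) (XT.nd (nat_lit 78) (nat_lit 2736) (nat_lit 0) (XT.lf (nat_lit 0) (nat_lit 4158453764) (nat_lit 1292) (nat_lit 1172204799) (nat_lit 76) (nat_lit 1554345936) (nat_lit 587) (nat_lit 5) (nat_lit 604) (nat_lit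 5) (nat_lit 588) (nat_lit 5) (nat_lit 409) (nat_lit 373) (nat_lit 358)) (XT.nd (nat_lit 78) (nat_lit 1368) (nat_lit 0) (XT.lf (nat_lit 0) (nat_lit 189487331) (nat_lit 1368) (nat_lit 3614973901) (nat_lit 76) (nat_lit 3114201690) (nat_lit 569) (nat_lit 5) (nat_lit 587) (nat_lit 5) (nat_lit 570) (nat_lit 5) (nat_lit 410) (nat_lit 373) (nat_lit 357)) (XT.lf (nat_lit 0) (nat_lit 872661411) (nat_lit 1368) (nat_lit 2207284051) (nat_lit 1444) (nat_lit 3873654666) (nat_lit 551) (nat_lit 5) (nat_lit 569) (nat_lit 5) (nat_lit 570) (nat_lit 5) (nat_lit 411) (nat_lit 373) (nat_lit 356))))) (XT.nd (nat_lit 234) (nat_lit 3344) (nat_lit 0) (XT.nd (nat_lit 78) (nat_lit 3040) (nat_lit 0) (XT.lf (nat_lit 0) (nat_lit 5446570855) (nat_lit 1368) (nat_lit 545745411) (nat_lit 1444) (nat_lit 997655605) (nat_lit 551) (nat_lit 5) (nat_lit 569) (nat_lit 5) (nat_lit 570) (nat_lit 5) (nat_lit 412) (nat_lit 373) (nat_lit 355)) (XT.nd (nat_lit 78) (nat_lit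 1520) (nat_lit 0) (XT.lf (nat_lit 0) (nat_lit 1878681160) (nat_lit 1520) (nat_lit 3975152698) (nat_lit 76) (nat_lit 1173638843) (nat_lit 531) (nat_lit 5) (nat_lit 551) (nat_lit 5) (nat_lit 532) (nat_lit 5) (nat_lit 413) (nat_lit 373) (nat_lit 354)) (XT.lf (nat_lit 0) (nat_lit 640323329) (nat_lit 1520) (nat_lit 4118559677) (nat_lit 1596) (nat_lit 2307531546) (nat_lit 511) (nat_lit 5) (nat_lit 531) (nat_lit 5) (nat_lit 532) (nat_lit 5) (nat_lit 414) (nat_lit 373) (nat_lit 353)))) (XT.nd (nat_lit 78) (nat_lit 3268) (nat_lit 0) (XT.lf (nat_lit 0) (nat_lit 551553754) (nat_lit 1596) (nat_lit 1761203368) (nat_lit 76) (nat_lit 4793942704) (nat_lit 510) (nat_lit 5) (nat_lit 531) (nat_lit 5) (nat_lit 511) (nat_lit 5) (nat_lit 415) (nat_lit 373) (nat_lit 352)) (XT.nd (nat_lit 78) (nat_lit 1672) (nat_lit 0) (XT.lf (nat_lit 0) (nat_lit 2968094504) (nat_lit 1596) (nat_lit 431160773) (nat_lit 1672) (nat_lit 3748999687) (nat_lit 489) (nat_lit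 5) (nat_lit 510) (nat_lit 5) (nat_lit 511) (nat_lit 5) (nat_lit 416) (nat_lit 373) (nat_lit 351)) (XT.lf (nat_lit 0) (nat_lit 569827809) (nat_lit 1672) (nat_lit 5703177912) (nat_lit 1748) (nat_lit 918269138) (nat_lit 467) (nat_lit 5) (nat_lit 489) (nat_lit 5) (nat_lit 490) (nat_lit 5) (nat_lit 417) (nat_lit 373) (nat_lit 350)))))) (XT.nd (nat_lit 468) (nat_lit 3496) (nat_lit 0) (XT.nd (nat_lit 234) (nat_lit 1900) (nat_lit 0) (XT.nd (nat_lit 78) (nat_lit 3268) (nat_lit 0) (XT.lf (nat_lit 0) (nat_lit 1918555388) (nat_lit 1748) (nat_lit 1832699000) (nat_lit 76) (nat_lit 3484153937) (nat_lit 466) (nat_lit 5) (nat_lit 489) (nat_lit 5) (nat_lit 467) (nat_lit 5) (nat_lit 418) (nat_lit 373) (nat_lit 349)) (XT.nd (nat_lit 78) (nat_lit 1520) (nat_lit 0) (XT.lf (nat_lit 0) (nat_lit 3032814544) (nat_lit 1748) (nat_lit 1732014598) (nat_lit 1824) (nat_lit 2516188410) (nat_lit 443) (nat_lit 5) (nat_lit 466) (nat_lit 5) (nat_lit 467) (nat_lit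 5) (nat_lit 419) (nat_lit 373) (nat_lit 348)) (XT.lf (nat_lit 0) (nat_lit 300526020) (nat_lit 1520) (nat_lit 6684245025) (nat_lit 76) (nat_lit 343447745) (nat_lit 423) (nat_lit 5) (nat_lit 443) (nat_lit 5) (nat_lit 424) (nat_lit 5) (nat_lit 420) (nat_lit 373) (nat_lit 347)))) (XT.nd (nat_lit 78) (nat_lit 1900) (nat_lit 0) (XT.lf (nat_lit 0) (nat_lit 3126476545) (nat_lit 1520) (nat_lit 1766372769) (nat_lit 76) (nat_lit 2483464036) (nat_lit 423) (nat_lit 5) (nat_lit 443) (nat_lit 5) (nat_lit 424) (nat_lit 5) (nat_lit 421) (nat_lit 373) (nat_lit 346)) (XT.nd (nat_lit 78) (nat_lit 988) (nat_lit 0) (XT.lf (nat_lit 0) (nat_lit 3239564135) (nat_lit 912) (nat_lit 2737861725) (nat_lit 988) (nat_lit 1448587884) (nat_lit 411) (nat_lit 5) (nat_lit 423) (nat_lit 5) (nat_lit 424) (nat_lit 5) (nat_lit 422) (nat_lit 373) (nat_lit 345)) (XT.lf (nat_lit 0) (nat_lit 841767641) (nat_lit 912) (nat_lit 513620155) (nat_lit 988) (nat_lit 6121846901)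 (nat_lit 398) (nat_lit 5) (nat_lit 410) (nat_lit 5) (nat_lit 411) (nat_lit 5) (nat_lit 423) (nat_lit 373) (nat_lit 344))))) (XT.nd (nat_lit 234) (nat_lit 1672) (nat_lit 0) (XT.nd (nat_lit 78) (nat_lit 1824) (nat_lit 0) (XT.lf (nat_lit 0) (nat_lit 4184192070) (nat_lit 988) (nat_lit 1576621019) (nat_lit 76) (nat_lit 1768725319) (nat_lit 398) (nat_lit 5) (nat_lit 411) (nat_lit 5) (nat_lit 399) (nat_lit 5) (nat_lit 424) (nat_lit 373) (nat_lit 343)) (XT.nd (nat_lit 78) (nat_lit 912) (nat_lit 0) (XT.lf (nat_lit 0) (nat_lit 3574105099) (nat_lit 912) (nat_lit 3471537873) (nat_lit 988) (nat_lit 537736318) (nat_lit 386) (nat_lit 5) (nat_lit 398) (nat_lit 5) (nat_lit 399) (nat_lit 5) (nat_lit 425) (nat_lit 373) (nat_lit 342)) (XT.lf (nat_lit 0) (nat_lit 1158044891) (nat_lit 836) (nat_lit 1105415277) (nat_lit 912) (nat_lit 5375187991) (nat_lit 374) (nat_lit 5) (nat_lit 385) (nat_lit 5) (nat_lit 386) (nat_lit 5) (nat_lit 426) (nat_lit 373)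 (nat_lit 341)))) (XT.nd (nat_lit 78) (nat_lit 1672) (nat_lit 0) (XT.lf (nat_lit 0) (nat_lit 5099455629) (nat_lit 912) (nat_lit 1277395481) (nat_lit 76) (nat_lit 1318392485) (nat_lit 374) (nat_lit 5) (nat_lit 386) (nat_lit 5) (nat_lit 375) (nat_lit 5) (nat_lit 427) (nat_lit 373) (nat_lit 340)) (XT.nd (nat_lit 78) (nat_lit 760) (nat_lit 0) (XT.lf (nat_lit 0) (nat_lit 220755254) (nat_lit 912) (nat_lit 3732108082) (nat_lit 76) (nat_lit 3800394024) (nat_lit 362) (nat_lit 5) (nat_lit 374) (nat_lit 5) (nat_lit 363) (nat_lit 5) (nat_lit 428) (nat_lit 373) (nat_lit 339)) (XT.lf (nat_lit 0) (nat_lit 1581221251) (nat_lit 760) (nat_lit 1448228857) (nat_lit 836) (nat_lit 4783237668) (nat_lit 352) (nat_lit 5) (nat_lit 362) (nat_lit 5) (nat_lit 363) (nat_lit 5) (nat_lit 429) (nat_lit 373) (nat_lit 338))))))))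
noncomputable def xc70 : XT := (XT.nd (nat_lit 1794) (nat_lit 6992) (nat_lit 0) (XT.nd (nat_lit 858) (nat_lit 5396) (nat_lit 0) (XT.nd (nat_lit 390) (nat_lit 2888) (nat_lit 0) (XT.nd (nat_lit 156) (nat_lit 1596) (nat_lit 0) (XT.nd (nat_lit 78) (nat_lit 836) (nat_lit 0) (XT.lf (nat_lit 0) (nat_lit 5878938465) (nat_lit 836) (nat_lit 882324078) (nat_lit 76) (nat_lit 1112362752) (nat_lit 352) (nat_lit 5) (nat_lit 363) (nat_lit 5) (nat_lit 353) (nat_lit 5) (nat_lit 430) (nat_lit 373) (nat_lit 337)) (XT.lf (nat_lit 0) (nat_lit 830866315) (nat_lit 836) (nat_lit 3369766114) (nat_lit 76) (nat_lit 3735201786) (nat_lit 341) (nat_lit 5) (nat_lit 352) (nat_lit 5) (nat_lit 342) (nat_lit 5) (nat_lit 431) (nat_lit 373) (nat_lit 336))) (XT.nd (nat_lit 78) (nat_lit 836) (nat_lit 0) (XT.lf (nat_lit 0) (nat_lit 2097673434) (nat_lit 760) (nat_lit 1561577673) (nat_lit 836) (nat_lit 4340322179) (nat_lit 331) (nat_lit 5) (nat_lit 341) (nat_lit 5)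 (nat_lit 342) (nat_lit 5) (nat_lit 432) (nat_lit 373) (nat_lit 335)) (XT.nd (nat_lit 78) (nat_lit 836) (nat_lit 0) (XT.lf (nat_lit 0) (nat_lit 6528260251) (nat_lit 836) (nat_lit 404832173) (nat_lit 76) (nat_lit 1131823642) (nat_lit 331) (nat_lit 5) (nat_lit 342) (nat_lit 5) (nat_lit 332) (nat_lit 5) (nat_lit 433) (nat_lit 373) (nat_lit 334)) (XT.lf (nat_lit 0) (nat_lit 1304727851) (nat_lit 836) (nat_lit 2932345008) (nat_lit 76) (nat_lit 3894350773) (nat_lit 320) (nat_lit 5) (nat_lit 331) (nat_lit 5) (nat_lit 321) (nat_lit 5) (nat_lit 434) (nat_lit 373) (nat_lit 333))))) (XT.nd (nat_lit 234) (nat_lit 1444) (nat_lit 0) (XT.nd (nat_lit 78) (nat_lit 760) (nat_lit 0) (XT.lf (nat_lit 0) (nat_lit 2693919960) (nat_lit 684) (nat_lit 1463789341) (nat_lit 760) (nat_lit 4041851463) (nat_lit 311) (nat_lit 5) (nat_lit 320) (nat_lit 5) (nat_lit 321) (nat_lit 5) (nat_lit 435) (nat_lit 373) (nat_lit 332)) (XT.nd (nat_lit 78) (nat_lit 76) (nat_lit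 0) (XT.lf (nat_lit 0) (nat_lit 143618325) (nat_lit 684) (nat_lit 6909326273) (nat_lit 760) (nat_lit 1216421449) (nat_lit 302) (nat_lit 5) (nat_lit 311) (nat_lit 5) (nat_lit 312) (nat_lit 5) (nat_lit 436) (nat_lit 373) (nat_lit 331)) (XT.lf (nat_lit 0) (nat_lit 1646378534) (nat_lit 760) (nat_lit 2433399268) (nat_lit 76) (nat_lit 4260528194) (nat_lit 301) (nat_lit 5) (nat_lit 311) (nat_lit 5) (nat_lit 302) (nat_lit 5) (nat_lit 437) (nat_lit 373) (nat_lit 330)))) (XT.nd (nat_lit 78) (nat_lit 760) (nat_lit 0) (XT.lf (nat_lit 0) (nat_lit 3356495236) (nat_lit 684) (nat_lit 1172146018) (nat_lit 760) (nat_lit 3884301545) (nat_lit 292) (nat_lit 5) (nat_lit 301) (nat_lit 5) (nat_lit 302) (nat_lit 5) (nat_lit 438) (nat_lit 373) (nat_lit 329)) (XT.nd (nat_lit 78) (nat_lit 76) (nat_lit 0) (XT.lf (nat_lit 0) (nat_lit 753873085) (nat_lit 684) (nat_lit 6704793552) (nat_lit 760) (nat_lit 1028571936) (nat_lit 283) (nat_lit 5) (nat_lit 292) (nat_lit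 5) (nat_lit 293) (nat_lit 5) (nat_lit 439) (nat_lit 373) (nat_lit 328)) (XT.lf (nat_lit 0) (nat_lit 1858829599) (nat_lit 760) (nat_lit 1886577077) (nat_lit 76) (nat_lit 4817391762) (nat_lit 282) (nat_lit 5) (nat_lit 292) (nat_lit 5) (nat_lit 283) (nat_lit 5) (nat_lit 440) (nat_lit 373) (nat_lit 327)))))) (XT.nd (nat_lit 468) (nat_lit 2812) (nat_lit 0) (XT.nd (nat_lit 234) (nat_lit 1292) (nat_lit 0) (XT.nd (nat_lit 78) (nat_lit 684) (nat_lit 0) (XT.lf (nat_lit 0) (nat_lit 4071820523) (nat_lit 608) (nat_lit 703023362) (nat_lit 684) (nat_lit 3865204982) (nat_lit 274) (nat_lit 5) (nat_lit 282) (nat_lit 5) (nat_lit 283) (nat_lit 5) (nat_lit 441) (nat_lit 373) (nat_lit 326)) (XT.nd (nat_lit 78) (nat_lit 76) (nat_lit 0) (XT.lf (nat_lit 0) (nat_lit 1406807082) (nat_lit 608) (nat_lit 6338438720) (nat_lit 684) (nat_lit 973685088) (nat_lit 266) (nat_lit 5) (nat_lit 274) (nat_lit 5) (nat_lit 275) (nat_lit 5) (nat_lit 442) (nat_lit 373)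 (nat_lit 325)) (XT.lf (nat_lit 0) (nat_lit 1944069293) (nat_lit 684) (nat_lit 1305751469) (nat_lit 76) (nat_lit 5549434563) (nat_lit 265) (nat_lit 5) (nat_lit 274) (nat_lit 5) (nat_lit 266) (nat_lit 5) (nat_lit 443) (nat_lit 373) (nat_lit 324)))) (XT.nd (nat_lit 78) (nat_lit 684) (nat_lit 0) (XT.lf (nat_lit 0) (nat_lit 4826070693) (nat_lit 608) (nat_lit 72025762) (nat_lit 684) (nat_lit 3983149438) (nat_lit 257) (nat_lit 5) (nat_lit 265) (nat_lit 5) (nat_lit 266) (nat_lit 5) (nat_lit 444) (nat_lit 373) (nat_lit 323)) (XT.nd (nat_lit 78) (nat_lit 76) (nat_lit 0) (XT.lf (nat_lit 0) (nat_lit 2088363879) (nat_lit 608) (nat_lit 5825792672) (nat_lit 684) (nat_lit 1050668000) (nat_lit 249) (nat_lit 5) (nat_lit 257) (nat_lit 5) (nat_lit 258) (nat_lit 5) (nat_lit 445) (nat_lit 373) (nat_lit 322)) (XT.lf (nat_lit 0) (nat_lit 1903059277) (nat_lit 684) (nat_lit 705156597) (nat_lit 76) (nat_lit 6441853064) (nat_lit 248) (nat_lit 5) (nat_lit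 257) (nat_lit 5) (nat_lit 249) (nat_lit 5) (nat_lit 446) (nat_lit 373) (nat_lit 321))))) (XT.nd (nat_lit 234) (nat_lit 1596) (nat_lit 0) (XT.nd (nat_lit 78) (nat_lit 684) (nat_lit 0) (XT.lf (nat_lit 0) (nat_lit 4903737491) (nat_lit 608) (nat_lit 3536486455) (nat_lit 76) (nat_lit 696623374) (nat_lit 241) (nat_lit 5) (nat_lit 249) (nat_lit 5) (nat_lit 242) (nat_lit 5) (nat_lit 447) (nat_lit 373) (nat_lit 320)) (XT.nd (nat_lit 78) (nat_lit 76) (nat_lit 0) (XT.lf (nat_lit 0) (nat_lit 2784034572) (nat_lit 608) (nat_lit 5181820926) (nat_lit 684) (nat_lit 1259484016) (nat_lit 233) (nat_lit 5) (nat_lit 241) (nat_lit 5) (nat_lit 242) (nat_lit 5) (nat_lit 448) (nat_lit 373) (nat_lit 319)) (XT.lf (nat_lit 0) (nat_lit 1735722802) (nat_lit 684) (nat_lit 99530305) (nat_lit 76) (nat_lit 7480417248) (nat_lit 232) (nat_lit 5) (nat_lit 241) (nat_lit 5) (nat_lit 233) (nat_lit 5) (nat_lit 449) (nat_lit 373) (nat_lit 318)))) (XT.nd (nat_lit 78)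 (nat_lit 1064) (nat_lit 0) (XT.lf (nat_lit 0) (nat_lit 4788228844) (nat_lit 608) (nat_lit 3024091392) (nat_lit 76) (nat_lit 1595042261) (nat_lit 225) (nat_lit 5) (nat_lit 233) (nat_lit 5) (nat_lit 226) (nat_lit 5) (nat_lit 450) (nat_lit 373) (nat_lit 317)) (XT.nd (nat_lit 78) (nat_lit 532) (nat_lit 0) (XT.lf (nat_lit 0) (nat_lit 3478709547) (nat_lit 532) (nat_lit 4421053999) (nat_lit 608) (nat_lit 1601171617) (nat_lit 218) (nat_lit 5) (nat_lit 225) (nat_lit 5) (nat_lit 226) (nat_lit 5) (nat_lit 451) (nat_lit 373) (nat_lit 316)) (XT.lf (nat_lit 0) (nat_lit 502323774) (nat_lit 456) (nat_lit 941862033) (nat_lit 532) (nat_lit 8152279490) (nat_lit 211) (nat_lit 5) (nat_lit 217) (nat_lit 5) (nat_lit 218) (nat_lit 5) (nat_lit 452) (nat_lit 373) (nat_lit 315))))))) (XT.nd (nat_lit 936) (nat_lit 3192) (nat_lit 0) (XT.nd (nat_lit 468) (nat_lit 1748) (nat_lit 0) (XT.nd (nat_lit 234) (nat_lit 988) (nat_lit 0) (XT.nd (nat_lit 78) (nat_lit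 1064) (nat_lit 0) (XT.lf (nat_lit 0) (nat_lit 4549667574) (nat_lit 532) (nat_lit 2533339522) (nat_lit 76) (nat_lit 2610280017) (nat_lit 211) (nat_lit 5) (nat_lit 218) (nat_lit 5) (nat_lit 212) (nat_lit 5) (nat_lit 453) (nat_lit 373) (nat_lit 314)) (XT.nd (nat_lit 78) (nat_lit 532) (nat_lit 0) (XT.lf (nat_lit 0) (nat_lit 4156521696) (nat_lit 532) (nat_lit 3557717644) (nat_lit 608) (nat_lit 2077872198) (nat_lit 204) (nat_lit 5) (nat_lit 211) (nat_lit 5) (nat_lit 212) (nat_lit 5) (nat_lit 454) (nat_lit 373) (nat_lit 313)) (XT.lf (nat_lit 0) (nat_lit 1023801556) (nat_lit 532) (nat_lit 8814796916) (nat_lit 76) (nat_lit 54415855) (nat_lit 197) (nat_lit 5) (nat_lit 204) (nat_lit 5) (nat_lit 198) (nat_lit 5) (nat_lit 455) (nat_lit 373) (nat_lit 312)))) (XT.nd (nat_lit 78) (nat_lit 988) (nat_lit 0) (XT.lf (nat_lit 0) (nat_lit 4185526872) (nat_lit 532) (nat_lit 2080937404) (nat_lit 76) (nat_lit 3728684829) (nat_lit 197) (nat_lit 5) (nat_lit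 204) (nat_lit 5) (nat_lit 198) (nat_lit 5) (nat_lit 456) (nat_lit 373) (nat_lit 311)) (XT.nd (nat_lit 78) (nat_lit 532) (nat_lit 0) (XT.lf (nat_lit 0) (nat_lit 4800679637) (nat_lit 456) (nat_lit 2605864020) (nat_lit 532) (nat_lit 2692867121) (nat_lit 191) (nat_lit 5) (nat_lit 197) (nat_lit 5) (nat_lit 198) (nat_lit 5) (nat_lit 457) (nat_lit 373) (nat_lit 310)) (XT.lf (nat_lit 0) (nat_lit 476787546) (nat_lit 532) (nat_lit 8602810262) (nat_lit 76) (nat_lit 1126163040) (nat_lit 184) (nat_lit 5) (nat_lit 191) (nat_lit 5) (nat_lit 185) (nat_lit 5) (nat_lit 458) (nat_lit 373) (nat_lit 309))))) (XT.nd (nat_lit 234) (nat_lit 912) (nat_lit 0) (XT.nd (nat_lit 78) (nat_lit 836) (nat_lit 0) (XT.lf (nat_lit 0) (nat_lit 3692146257) (nat_lit 532) (nat_lit 1684655212) (nat_lit 76) (nat_lit 4936718117) (nat_lit 184) (nat_lit 5) (nat_lit 191) (nat_lit 5) (nat_lit 185) (nat_lit 5) (nat_lit 459) (nat_lit 373) (nat_lit 308)) (XT.nd (nat_lit 78)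 (nat_lit 380) (nat_lit 0) (XT.lf (nat_lit 0) (nat_lit 5393289381) (nat_lit 456) (nat_lit 1579504869) (nat_lit 532) (nat_lit 3450624535) (nat_lit 178) (nat_lit 5) (nat_lit 184) (nat_lit 5) (nat_lit 185) (nat_lit 5) (nat_lit 460) (nat_lit 373) (nat_lit 307)) (XT.lf (nat_lit 0) (nat_lit 2062864094) (nat_lit 380) (nat_lit 8262072139) (nat_lit 456) (nat_lit 210466950) (nat_lit 173) (nat_lit 5) (nat_lit 178) (nat_lit 5) (nat_lit 179) (nat_lit 5) (nat_lit 461) (nat_lit 373) (nat_lit 306)))) (XT.nd (nat_lit 78) (nat_lit 836) (nat_lit 0) (XT.lf (nat_lit 0) (nat_lit 3064679512) (nat_lit 456) (nat_lit 1363513682) (nat_lit 76) (nat_lit 6220821482) (nat_lit 172) (nat_lit 5) (nat_lit 178) (nat_lit 5) (nat_lit 173) (nat_lit 5) (nat_lit 462) (nat_lit 373) (nat_lit 305)) (XT.nd (nat_lit 78) (nat_lit 380) (nat_lit 0) (XT.lf (nat_lit 0) (nat_lit 5915162763) (nat_lit 456) (nat_lit 492747855) (nat_lit 532) (nat_lit 4356856513) (nat_lit 166) (nat_lit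 5) (nat_lit 172) (nat_lit 5) (nat_lit 173) (nat_lit 5) (nat_lit 463) (nat_lit 373) (nat_lit 304)) (XT.lf (nat_lit 0) (nat_lit 2435310018) (nat_lit 380) (nat_lit 7397804799) (nat_lit 456) (nat_lit 1049422115) (nat_lit 161) (nat_lit 5) (nat_lit 166) (nat_lit 5) (nat_lit 167) (nat_lit 5) (nat_lit 464) (nat_lit 373) (nat_lit 303)))))) (XT.nd (nat_lit 468) (nat_lit 1520) (nat_lit 0) (XT.nd (nat_lit 234) (nat_lit 836) (nat_lit 0) (XT.nd (nat_lit 78) (nat_lit 760) (nat_lit 0) (XT.lf (nat_lit 0) (nat_lit 2297032099) (nat_lit 456) (nat_lit 1137985558) (nat_lit 76) (nat_lit 7567279907) (nat_lit 160) (nat_lit 5) (nat_lit 166) (nat_lit 5) (nat_lit 161) (nat_lit 5) (nat_lit 465) (nat_lit 373) (nat_lit 302)) (XT.nd (nat_lit 78) (nat_lit 380) (nat_lit 0) (XT.lf (nat_lit 0) (nat_lit 5709703740) (nat_lit 456) (nat_lit 4782680104) (nat_lit 76) (nat_lit 631668238) (nat_lit 155) (nat_lit 5) (nat_lit 161) (nat_lit 5) (nat_lit 156) (nat_lit 5) (nat_lit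 466) (nat_lit 373) (nat_lit 301)) (XT.lf (nat_lit 0) (nat_lit 2701969861) (nat_lit 380) (nat_lit 6504822158) (nat_lit 456) (nat_lit 2041130533) (nat_lit 150) (nat_lit 5) (nat_lit 155) (nat_lit 5) (nat_lit 156) (nat_lit 5) (nat_lit 467) (nat_lit 373) (nat_lit 300)))) (XT.nd (nat_lit 78) (nat_lit 760) (nat_lit 0) (XT.lf (nat_lit 0) (nat_lit 1381787353) (nat_lit 456) (nat_lit 1030213467) (nat_lit 76) (nat_lit 8962080019) (nat_lit 149) (nat_lit 5) (nat_lit 155) (nat_lit 5) (nat_lit 150) (nat_lit 5) (nat_lit 468) (nat_lit 373) (nat_lit 299)) (XT.nd (nat_lit 78) (nat_lit 380) (nat_lit 0) (XT.lf (nat_lit 0) (nat_lit 4869734146) (nat_lit 456) (nat_lit 4851746614) (nat_lit 76) (nat_lit 1780537557) (nat_lit 144) (nat_lit 5) (nat_lit 150) (nat_lit 5) (nat_lit 145) (nat_lit 5) (nat_lit 469) (nat_lit 373) (nat_lit 298)) (XT.lf (nat_lit 0) (nat_lit 2839496100) (nat_lit 380) (nat_lit 5598415482) (nat_lit 456) (nat_lit 3194397340) (nat_lit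 139) (nat_lit 5) (nat_lit 144) (nat_lit 5) (nat_lit 145) (nat_lit 5) (nat_lit 470) (nat_lit 373) (nat_lit 297))))) (XT.nd (nat_lit 234) (nat_lit 760) (nat_lit 0) (XT.nd (nat_lit 78) (nat_lit 684) (nat_lit 0) (XT.lf (nat_lit 0) (nat_lit 310120634) (nat_lit 456) (nat_lit 1064246319) (nat_lit 76) (nat_lit 10390762133) (nat_lit 138) (nat_lit 5) (nat_lit 144) (nat_lit 5) (nat_lit 139) (nat_lit 5) (nat_lit 471) (nat_lit 373) (nat_lit 296)) (XT.nd (nat_lit 78) (nat_lit 304) (nat_lit 0) (XT.lf (nat_lit 0) (nat_lit 3875585669) (nat_lit 456) (nat_lit 5078668922) (nat_lit 76) (nat_lit 2945259759) (nat_lit 133) (nat_lit 5) (nat_lit 139) (nat_lit 5) (nat_lit 134) (nat_lit 5) (nat_lit 472) (nat_lit 373) (nat_lit 295)) (XT.lf (nat_lit 0) (nat_lit 2822460325) (nat_lit 304) (nat_lit 4694497002) (nat_lit 380) (nat_lit 4519541569) (nat_lit 129) (nat_lit 5) (nat_lit 133) (nat_lit 5) (nat_lit 134) (nat_lit 5) (nat_lit 473) (nat_lit 373) (nat_lit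 294)))) (XT.nd (nat_lit 78) (nat_lit 760) (nat_lit 0) (XT.lf (nat_lit 0) (nat_lit 10903735900) (nat_lit 304) (nat_lit 331767651) (nat_lit 380) (nat_lit 940636091) (nat_lit 129) (nat_lit 5) (nat_lit 133) (nat_lit 5) (nat_lit 134) (nat_lit 5) (nat_lit 474) (nat_lit 373) (nat_lit 293)) (XT.nd (nat_lit 78) (nat_lit 304) (nat_lit 0) (XT.lf (nat_lit 0) (nat_lit 2716502393) (nat_lit 456) (nat_lit 5490794493) (nat_lit 76) (nat_lit 4110083854) (nat_lit 123) (nat_lit 5) (nat_lit 129) (nat_lit 5) (nat_lit 124) (nat_lit 5) (nat_lit 475) (nat_lit 373) (nat_lit 292)) (XT.lf (nat_lit 0) (nat_lit 2623079305) (nat_lit 304) (nat_lit 3809765399) (nat_lit 380) (nat_lit 6028507732) (nat_lit 119) (nat_lit 5) (nat_lit 123) (nat_lit 5) (nat_lit 124) (nat_lit 5) (nat_lit 476) (nat_lit 373) (nat_lit 291))))))))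
noncomputable def xc71 : XT := (XT.nd (nat_lit 1794) (nat_lit 1140) (nat_lit 0) (XT.nd (nat_lit 858) (nat_lit 1976) (nat_lit 0) (XT.nd (nat_lit 390) (nat_lit 1292) (nat_lit 0) (XT.nd (nat_lit 156) (nat_lit 608) (nat_lit 0) (XT.nd (nat_lit 78) (nat_lit 380) (nat_lit 0) (XT.lf (nat_lit 0) (nat_lit 10235974311) (nat_lit 380) (nat_lit 1684970676) (nat_lit 76) (nat_lit 687012561) (nat_lit 119) (nat_lit 5) (nat_lit 124) (nat_lit 5) (nat_lit 120) (nat_lit 5) (nat_lit 477) (nat_lit 373) (nat_lit 290)) (XT.lf (nat_lit 0) (nat_lit 1380070882) (nat_lit 380) (nat_lit 6118044766) (nat_lit 76) (nat_lit 5258401776) (nat_lit 114) (nat_lit 5) (nat_lit 119) (nat_lit 5) (nat_lit 115) (nat_lit 5) (nat_lit 478) (nat_lit 373) (nat_lit 289))) (XT.nd (nat_lit 78) (nat_lit 304) (nat_lit 0) (XT.lf (nat_lit 0) (nat_lit 2210915797) (nat_lit 304) (nat_lit 2961881722) (nat_lit 380) (nat_lit 7734992562) (nat_lit 110) (nat_lit 5) (nat_lit 114) (nat_lit 5)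 (nat_lit 115) (nat_lit 5) (nat_lit 479) (nat_lit 373) (nat_lit 288)) (XT.nd (nat_lit 78) (nat_lit 304) (nat_lit 0) (XT.lf (nat_lit 0) (nat_lit 9065291963) (nat_lit 380) (nat_lit 2328814885) (nat_lit 76) (nat_lit 1667506024) (nat_lit 110) (nat_lit 5) (nat_lit 115) (nat_lit 5) (nat_lit 111) (nat_lit 5) (nat_lit 480) (nat_lit 373) (nat_lit 287)) (XT.lf (nat_lit 0) (nat_lit 6223661695) (nat_lit 304) (nat_lit 6844326577) (nat_lit 380) (nat_lit 149879698) (nat_lit 106) (nat_lit 5) (nat_lit 110) (nat_lit 5) (nat_lit 111) (nat_lit 5) (nat_lit 481) (nat_lit 373) (nat_lit 286))))) (XT.nd (nat_lit 234) (nat_lit 608) (nat_lit 0) (XT.nd (nat_lit 78) (nat_lit 304) (nat_lit 0) (XT.lf (nat_lit 0) (nat_lit 1552551181) (nat_lit 304) (nat_lit 2169657388) (nat_lit 380) (nat_lit 9654588211) (nat_lit 101) (nat_lit 5) (nat_lit 105) (nat_lit 5) (nat_lit 106) (nat_lit 5) (nat_lit 482) (nat_lit 373) (nat_lit 285)) (XT.nd (nat_lit 78) (nat_lit 304) (nat_lit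 0) (XT.lf (nat_lit 0) (nat_lit 7706385398) (nat_lit 380) (nat_lit 3236255903) (nat_lit 76) (nat_lit 2595512701) (nat_lit 101) (nat_lit 5) (nat_lit 106) (nat_lit 5) (nat_lit 102) (nat_lit 5) (nat_lit 483) (nat_lit 373) (nat_lit 284)) (XT.lf (nat_lit 0) (nat_lit 5537467624) (nat_lit 304) (nat_lit 6256173129) (nat_lit 380) (nat_lit 1908632384) (nat_lit 97) (nat_lit 5) (nat_lit 101) (nat_lit 5) (nat_lit 102) (nat_lit 5) (nat_lit 484) (nat_lit 373) (nat_lit 283)))) (XT.nd (nat_lit 78) (nat_lit 304) (nat_lit 0) (XT.lf (nat_lit 0) (nat_lit 611226717) (nat_lit 228) (nat_lit 1453256041) (nat_lit 304) (nat_lit 11804943369) (nat_lit 93) (nat_lit 5) (nat_lit 96) (nat_lit 5) (nat_lit 97) (nat_lit 5) (nat_lit 485) (nat_lit 373) (nat_lit 282)) (XT.nd (nat_lit 78) (nat_lit 304) (nat_lit 0) (XT.lf (nat_lit 0) (nat_lit 6142316403) (nat_lit 304) (nat_lit 4445225861) (nat_lit 76) (nat_lit 3451113848) (nat_lit 93) (nat_lit 5) (nat_lit 97) (nat_lit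 5) (nat_lit 94) (nat_lit 5) (nat_lit 486) (nat_lit 373) (nat_lit 281)) (XT.lf (nat_lit 0) (nat_lit 4550454669) (nat_lit 304) (nat_lit 5764209080) (nat_lit 380) (nat_lit 3896350274) (nat_lit 89) (nat_lit 5) (nat_lit 93) (nat_lit 5) (nat_lit 94) (nat_lit 5) (nat_lit 487) (nat_lit 373) (nat_lit 280)))))) (XT.nd (nat_lit 468) (nat_lit 836) (nat_lit 0) (XT.nd (nat_lit 234) (nat_lit 532) (nat_lit 0) (XT.nd (nat_lit 78) (nat_lit 532) (nat_lit 0) (XT.lf (nat_lit 0) (nat_lit 185104342) (nat_lit 380) (nat_lit 644978683) (nat_lit 76) (nat_lit 13556637113) (nat_lit 88) (nat_lit 5) (nat_lit 93) (nat_lit 5) (nat_lit 89) (nat_lit 5) (nat_lit 488) (nat_lit 373) (nat_lit 279)) (XT.nd (nat_lit 78) (nat_lit 304) (nat_lit 0) (XT.lf (nat_lit 0) (nat_lit 4353944401) (nat_lit 304) (nat_lit 5997519032) (nat_lit 76) (nat_lit 4212805600) (nat_lit 85) (nat_lit 5) (nat_lit 89) (nat_lit 5) (nat_lit 86) (nat_lit 5) (nat_lit 489) (nat_lit 373) (nat_lit 278))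 (XT.lf (nat_lit 0) (nat_lit 3219945252) (nat_lit 304) (nat_lit 5391450843) (nat_lit 380) (nat_lit 6133870392) (nat_lit 81) (nat_lit 5) (nat_lit 85) (nat_lit 5) (nat_lit 86) (nat_lit 5) (nat_lit 490) (nat_lit 373) (nat_lit 277)))) (XT.nd (nat_lit 78) (nat_lit 532) (nat_lit 0) (XT.lf (nat_lit 0) (nat_lit 12660406444) (nat_lit 304) (nat_lit 308535234) (nat_lit 380) (nat_lit 1960645547) (nat_lit 81) (nat_lit 5) (nat_lit 85) (nat_lit 5) (nat_lit 86) (nat_lit 5) (nat_lit 491) (nat_lit 373) (nat_lit 276)) (XT.nd (nat_lit 78) (nat_lit 228) (nat_lit 0) (XT.lf (nat_lit 0) (nat_lit 2319723855) (nat_lit 304) (nat_lit 7939235361) (nat_lit 76) (nat_lit 4857263299) (nat_lit 77) (nat_lit 5) (nat_lit 81) (nat_lit 5) (nat_lit 78) (nat_lit 5) (nat_lit 492) (nat_lit 373) (nat_lit 275)) (XT.lf (nat_lit 0) (nat_lit 1498823819) (nat_lit 228) (nat_lit 5162885886) (nat_lit 304) (nat_lit 8644578471) (nat_lit 74) (nat_lit 5) (nat_lit 77) (nat_lit 5)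 (nat_lit 78) (nat_lit 5) (nat_lit 493) (nat_lit 373) (nat_lit 274))))) (XT.nd (nat_lit 234) (nat_lit 532) (nat_lit 0) (XT.nd (nat_lit 78) (nat_lit 304) (nat_lit 0) (XT.lf (nat_lit 0) (nat_lit 11119629670) (nat_lit 304) (nat_lit 4308769166) (nat_lit 76) (nat_lit 71176488) (nat_lit 74) (nat_lit 5) (nat_lit 78) (nat_lit 5) (nat_lit 75) (nat_lit 5) (nat_lit 494) (nat_lit 373) (nat_lit 273)) (XT.nd (nat_lit 78) (nat_lit 0) (nat_lit 0) (XT.lf (nat_lit 0) (nat_lit 15478222) (nat_lit 304) (nat_lit 10321268272) (nat_lit 76) (nat_lit 5359085510) (nat_lit 70) (nat_lit 5) (nat_lit 74) (nat_lit 5) (nat_lit 71) (nat_lit 5) (nat_lit 495) (nat_lit 373) (nat_lit 272)) (XT.lf (nat_lit 0) (nat_lit 4445093038) (nat_lit 304) (nat_lit 656244983) (nat_lit 76) (nat_lit 10794000112) (nat_lit 70) (nat_lit 5) (nat_lit 74) (nat_lit 5) (nat_lit 71) (nat_lit 5) (nat_lit 496) (nat_lit 373) (nat_lit 271)))) (XT.nd (nat_lit 78) (nat_lit 304) (nat_lit 0) (XT.lf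 (nat_lit 0) (nat_lit 9001655587) (nat_lit 304) (nat_lit 6816883350) (nat_lit 76) (nat_lit 279530246) (nat_lit 67) (nat_lit 5) (nat_lit 71) (nat_lit 5) (nat_lit 68) (nat_lit 5) (nat_lit 497) (nat_lit 373) (nat_lit 270)) (XT.nd (nat_lit 78) (nat_lit 76) (nat_lit 0) (XT.lf (nat_lit 0) (nat_lit 3087310973) (nat_lit 228) (nat_lit 10596637350) (nat_lit 304) (nat_lit 2620216420) (nat_lit 64) (nat_lit 5) (nat_lit 67) (nat_lit 5) (nat_lit 68) (nat_lit 5) (nat_lit 498) (nat_lit 373) (nat_lit 269)) (XT.lf (nat_lit 0) (nat_lit 1942417569) (nat_lit 304) (nat_lit 3285315668) (nat_lit 76) (nat_lit 11285949573) (nat_lit 63) (nat_lit 5) (nat_lit 67) (nat_lit 5) (nat_lit 64) (nat_lit 5) (nat_lit 499) (nat_lit 373) (nat_lit 268))))))) (XT.nd (nat_lit 51324) (nat_lit 0) (nat_lit 40964) (XT.nd (nat_lit 468) (nat_lit 304) (nat_lit 0) (XT.nd (nat_lit 234) (nat_lit 456) (nat_lit 0) (XT.nd (nat_lit 78) (nat_lit 152) (nat_lit 0) (XT.lf (nat_lit 0) (nat_lit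 6584664405) (nat_lit 304) (nat_lit 9850934271) (nat_lit 76) (nat_lit 290979033) (nat_lit 60) (nat_lit 5) (nat_lit 64) (nat_lit 5) (nat_lit 61) (nat_lit 5) (nat_lit 500) (nat_lit 373) (nat_lit 267)) (XT.nd (nat_lit 78) (nat_lit 0) (nat_lit 0) (XT.lf (nat_lit 0) (nat_lit 269642011) (nat_lit 152) (nat_lit 11085607388) (nat_lit 228) (nat_lit 5587772971) (nat_lit 58) (nat_lit 5) (nat_lit 60) (nat_lit 5) (nat_lit 61) (nat_lit 5) (nat_lit 501) (nat_lit 373) (nat_lit 266)) (XT.lf (nat_lit 0) (nat_lit 10686233151) (nat_lit 152) (nat_lit 5578240591) (nat_lit 228) (nat_lit 898459321) (nat_lit 58) (nat_lit 5) (nat_lit 60) (nat_lit 5) (nat_lit 61) (nat_lit 5) (nat_lit 502) (nat_lit 373) (nat_lit 265)))) (XT.nd (nat_lit 78) (nat_lit 152) (nat_lit 0) (XT.lf (nat_lit 0) (nat_lit 3836984353) (nat_lit 304) (nat_lit 13476631223) (nat_lit 76) (nat_lit 73057756) (nat_lit 54) (nat_lit 5) (nat_lit 58) (nat_lit 5) (nat_lit 55) (nat_lit 5) (nat_lit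 503) (nat_lit 373) (nat_lit 264)) (XT.nd (nat_lit 78) (nat_lit 152) (nat_lit 0) (XT.lf (nat_lit 0) (nat_lit 8713309989) (nat_lit 304) (nat_lit 3104414976) (nat_lit 76) (nat_lit 5795882192) (nat_lit 54) (nat_lit 5) (nat_lit 58) (nat_lit 5) (nat_lit 55) (nat_lit 5) (nat_lit 504) (nat_lit 373) (nat_lit 263)) (XT.lf (nat_lit 0) (nat_lit 7535319455) (nat_lit 152) (nat_lit 6178708473) (nat_lit 228) (nat_lit 4130515978) (nat_lit 52) (nat_lit 5) (nat_lit 54) (nat_lit 5) (nat_lit 55) (nat_lit 5) (nat_lit 505) (nat_lit 373) (nat_lit 262))))) (XT.nd (nat_lit 50622) (nat_lit 0) (nat_lit 48944) (XT.nd (nat_lit 50466) (nat_lit 0) (nat_lit 50236) (XT.lf (nat_lit 0) (nat_lit 310620546) (nat_lit 228) (nat_lit 415369730) (nat_lit 304) (nat_lit 17353995925) (nat_lit 48) (nat_lit 5) (nat_lit 51) (nat_lit 5) (nat_lit 52) (nat_lit 5) (nat_lit 506) (nat_lit 373) (nat_lit 261)) (XT.nd (nat_lit 78) (nat_lit 0) (nat_lit 0) (XT.lf (nat_lit 0) (nat_lit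 634936244) (nat_lit 532) (nat_lit 1985908788) (nat_lit 0) (nat_lit 634936244) (nat_lit 709) (nat_lit 5) (nat_lit 716) (nat_lit 4) (nat_lit 709) (nat_lit 4) (nat_lit 392) (nat_lit 374) (nat_lit 374)) (XT.lf (nat_lit 0) (nat_lit 4442536935) (nat_lit 532) (nat_lit 225783561) (nat_lit 0) (nat_lit 1855503159) (nat_lit 709) (nat_lit 5) (nat_lit 716) (nat_lit 4) (nat_lit 709) (nat_lit 4) (nat_lit 393) (nat_lit 374) (nat_lit 373)))) (XT.nd (nat_lit 78) (nat_lit 684) (nat_lit 0) (XT.lf (nat_lit 0) (nat_lit 1074908002) (nat_lit 608) (nat_lit 2952027233) (nat_lit 76) (nat_lit 2510323840) (nat_lit 701) (nat_lit 5) (nat_lit 709) (nat_lit 5) (nat_lit 702) (nat_lit 4) (nat_lit 394) (nat_lit 374) (nat_lit 372)) (XT.nd (nat_lit 78) (nat_lit 76) (nat_lit 0) (XT.lf (nat_lit 0) (nat_lit 871699016) (nat_lit 608) (nat_lit 3327121041) (nat_lit 684) (nat_lit 2353246931) (nat_lit 693) (nat_lit 5) (nat_lit 701) (nat_lit 5) (nat_lit 702) (nat_lit 4)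 (nat_lit 395) (nat_lit 374) (nat_lit 371)) (XT.lf (nat_lit 0) (nat_lit 753127397) (nat_lit 684) (nat_lit 1811516980) (nat_lit 76) (nat_lit 4003531195) (nat_lit 692) (nat_lit 5) (nat_lit 701) (nat_lit 5) (nat_lit 693) (nat_lit 5) (nat_lit 396) (nat_lit 374) (nat_lit 370)))))) (XT.nd (nat_lit 468) (nat_lit 4636) (nat_lit 0) (XT.nd (nat_lit 234) (nat_lit 1824) (nat_lit 0) (XT.nd (nat_lit 78) (nat_lit 836) (nat_lit 0) (XT.lf (nat_lit 0) (nat_lit 2096410666) (nat_lit 684) (nat_lit 1734678716) (nat_lit 760) (nat_lit 2754412987) (nat_lit 683) (nat_lit 5) (nat_lit 692) (nat_lit 5) (nat_lit 693) (nat_lit 5) (nat_lit 397) (nat_lit 374) (nat_lit 369)) (XT.nd (nat_lit 78) (nat_lit 760) (nat_lit 0) (XT.lf (nat_lit 0) (nat_lit 302783474) (nat_lit 760) (nat_lit 549209950) (nat_lit 76) (nat_lit 5752356728) (nat_lit 682) (nat_lit 5) (nat_lit 692) (nat_lit 5) (nat_lit 683) (nat_lit 5) (nat_lit 398) (nat_lit 374) (nat_lit 368)) (XT.lf (nat_lit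 0) (nat_lit 3336715930) (nat_lit 836) (nat_lit 3178354284) (nat_lit 76) (nat_lit 109116080) (nat_lit 672) (nat_lit 5) (nat_lit 683) (nat_lit 5) (nat_lit 673) (nat_lit 5) (nat_lit 399) (nat_lit 374) (nat_lit 367)))) (XT.nd (nat_lit 78) (nat_lit 988) (nat_lit 0) (XT.lf (nat_lit 0) (nat_lit 838114450) (nat_lit 836) (nat_lit 5538544326) (nat_lit 912) (nat_lit 268878273) (nat_lit 661) (nat_lit 5) (nat_lit 672) (nat_lit 5) (nat_lit 673) (nat_lit 5) (nat_lit 400) (nat_lit 374) (nat_lit 366)) (XT.nd (nat_lit 78) (nat_lit 912) (nat_lit 0) (XT.lf (nat_lit 0) (nat_lit 2725794076) (nat_lit 912) (nat_lit 1758966533) (nat_lit 76) (nat_lit 2183161617) (nat_lit 660) (nat_lit 5) (nat_lit 672) (nat_lit 5) (nat_lit 661) (nat_lit 5) (nat_lit 401) (nat_lit 374) (nat_lit 365)) (XT.lf (nat_lit 0) (nat_lit 2348808456) (nat_lit 912) (nat_lit 3375649146) (nat_lit 988) (nat_lit 967331105) (nat_lit 648) (nat_lit 5) (nat_lit 660) (nat_lit 5) (nat_lit 661)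 (nat_lit 5) (nat_lit 402) (nat_lit 374) (nat_lit 364))))) (XT.nd (nat_lit 234) (nat_lit 2432) (nat_lit 0) (XT.nd (nat_lit 78) (nat_lit 2128) (nat_lit 0) (XT.lf (nat_lit 0) (nat_lit 1984714318) (nat_lit 988) (nat_lit 218066591) (nat_lit 76) (nat_lit 4514208197) (nat_lit 647) (nat_lit 5) (nat_lit 660) (nat_lit 5) (nat_lit 648) (nat_lit 5) (nat_lit 403) (nat_lit 374) (nat_lit 363)) (XT.nd (nat_lit 78) (nat_lit 1140) (nat_lit 0) (XT.lf (nat_lit 0) (nat_lit 3984953450) (nat_lit 988) (nat_lit 958073090) (nat_lit 1064) (nat_lit 1800357298) (nat_lit 634) (nat_lit 5) (nat_lit 647) (nat_lit 5) (nat_lit 648) (nat_lit 5) (nat_lit 404) (nat_lit 374) (nat_lit 362)) (XT.lf (nat_lit 0) (nat_lit 1122623999) (nat_lit 1140) (nat_lit 5308108531) (nat_lit 76) (nat_lit 340479611) (nat_lit 619) (nat_lit 5) (nat_lit 634) (nat_lit 5) (nat_lit 620) (nat_lit 5) (nat_lit 405) (nat_lit 374) (nat_lit 361)))) (XT.nd (nat_lit 78) (nat_lit 2432) (nat_lit 0)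 (XT.lf (nat_lit 0) (nat_lit 4040806442) (nat_lit 1140) (nat_lit 1063023920) (nat_lit 76) (nat_lit 1696332193) (nat_lit 619) (nat_lit 5) (nat_lit 634) (nat_lit 5) (nat_lit 620) (nat_lit 5) (nat_lit 406) (nat_lit 374) (nat_lit 360)) (XT.nd (nat_lit 78) (nat_lit 1216) (nat_lit 0) (XT.lf (nat_lit 0) (nat_lit 143167438) (nat_lit 1216) (nat_lit 3572635206) (nat_lit 76) (nat_lit 3114725326) (nat_lit 603) (nat_lit 5) (nat_lit 619) (nat_lit 5) (nat_lit 604) (nat_lit 5) (nat_lit 407) (nat_lit 374) (nat_lit 359)) (XT.lf (nat_lit 0) (nat_lit 758542977) (nat_lit 1216) (nat_lit 2257971853) (nat_lit 1292) (nat_lit 3845645988) (nat_lit 587) (nat_lit 5) (nat_lit 603) (nat_lit 5) (nat_lit 604) (nat_lit 5) (nat_lit 408) (nat_lit 374) (nat_lit 358))))))))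
noncomputable def xc72 : XT := (XT.nd (nat_lit 1794) (nat_lit 10412) (nat_lit 0) (XT.nd (nat_lit 858) (nat_lit 7752) (nat_lit 0) (XT.nd (nat_lit 390) (nat_lit 6688) (nat_lit 0) (XT.nd (nat_lit 156) (nat_lit 2888) (nat_lit 0) (XT.nd (nat_lit 78) (nat_lit 1368) (nat_lit 0) (XT.lf (nat_lit 0) (nat_lit 5173747000) (nat_lit 1216) (nat_lit 736029996) (nat_lit 1292) (nat_lit 985419327) (nat_lit 587) (nat_lit 5) (nat_lit 603) (nat_lit 5) (nat_lit 604) (nat_lit 5) (nat_lit 409) (nat_lit 374) (nat_lit 357)) (XT.lf (nat_lit 0) (nat_lit 1869164138) (nat_lit 1368) (nat_lit 4214436045) (nat_lit 76) (nat_lit 845809879) (nat_lit 569) (nat_lit 5) (nat_lit 587) (nat_lit 5) (nat_lit 570) (nat_lit 5) (nat_lit 410) (nat_lit 374) (nat_lit 356))) (XT.nd (nat_lit 78) (nat_lit 1520) (nat_lit 0) (XT.lf (nat_lit 0) (nat_lit 239252286) (nat_lit 1368) (nat_lit 4486646516) (nat_lit 1444) (nat_lit 2239131779) (nat_lit 551) (nat_lit 5) (nat_lit 569) (nat_lit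 5) (nat_lit 570) (nat_lit 5) (nat_lit 411) (nat_lit 374) (nat_lit 355)) (XT.nd (nat_lit 78) (nat_lit 1444) (nat_lit 0) (XT.lf (nat_lit 0) (nat_lit 599117025) (nat_lit 1444) (nat_lit 2218245760) (nat_lit 76) (nat_lit 4184553291) (nat_lit 550) (nat_lit 5) (nat_lit 569) (nat_lit 5) (nat_lit 551) (nat_lit 5) (nat_lit 412) (nat_lit 374) (nat_lit 354)) (XT.lf (nat_lit 0) (nat_lit 2344119135) (nat_lit 1444) (nat_lit 1077058466) (nat_lit 1520) (nat_lit 3618941924) (nat_lit 531) (nat_lit 5) (nat_lit 550) (nat_lit 5) (nat_lit 551) (nat_lit 5) (nat_lit 413) (nat_lit 374) (nat_lit 353))))) (XT.nd (nat_lit 234) (nat_lit 3496) (nat_lit 0) (XT.nd (nat_lit 78) (nat_lit 3192) (nat_lit 0) (XT.lf (nat_lit 0) (nat_lit 6261830324) (nat_lit 1520) (nat_lit 107722916) (nat_lit 76) (nat_lit 710307288) (nat_lit 531) (nat_lit 5) (nat_lit 551) (nat_lit 5) (nat_lit 532) (nat_lit 5) (nat_lit 414) (nat_lit 374) (nat_lit 352)) (XT.nd (nat_lit 78) (nat_lit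 1596) (nat_lit 0) (XT.lf (nat_lit 0) (nat_lit 1992604959) (nat_lit 1596) (nat_lit 2559814000) (nat_lit 76) (nat_lit 2568119580) (nat_lit 510) (nat_lit 5) (nat_lit 531) (nat_lit 5) (nat_lit 511) (nat_lit 5) (nat_lit 415) (nat_lit 374) (nat_lit 351)) (XT.lf (nat_lit 0) (nat_lit 2133035335) (nat_lit 1596) (nat_lit 2674200703) (nat_lit 1672) (nat_lit 2355526747) (nat_lit 489) (nat_lit 5) (nat_lit 510) (nat_lit 5) (nat_lit 511) (nat_lit 5) (nat_lit 416) (nat_lit 374) (nat_lit 350)))) (XT.nd (nat_lit 78) (nat_lit 3420) (nat_lit 0) (XT.lf (nat_lit 0) (nat_lit 427957711) (nat_lit 1672) (nat_lit 306144128) (nat_lit 76) (nat_lit 6472446808) (nat_lit 488) (nat_lit 5) (nat_lit 510) (nat_lit 5) (nat_lit 489) (nat_lit 5) (nat_lit 417) (nat_lit 374) (nat_lit 349)) (XT.nd (nat_lit 78) (nat_lit 1748) (nat_lit 0) (XT.lf (nat_lit 0) (nat_lit 3218868928) (nat_lit 1748) (nat_lit 2755327049) (nat_lit 76) (nat_lit 1277051551) (nat_lit 466) (nat_lit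 5) (nat_lit 489) (nat_lit 5) (nat_lit 467) (nat_lit 5) (nat_lit 418) (nat_lit 374) (nat_lit 348)) (XT.lf (nat_lit 0) (nat_lit 2072005756) (nat_lit 1748) (nat_lit 3960353300) (nat_lit 1824) (nat_lit 1265160483) (nat_lit 443) (nat_lit 5) (nat_lit 466) (nat_lit 5) (nat_lit 467) (nat_lit 5) (nat_lit 419) (nat_lit 374) (nat_lit 347)))))) (XT.nd (nat_lit 468) (nat_lit 3344) (nat_lit 0) (XT.nd (nat_lit 234) (nat_lit 1976) (nat_lit 0) (XT.nd (nat_lit 78) (nat_lit 2356) (nat_lit 0) (XT.lf (nat_lit 0) (nat_lit 1502320668) (nat_lit 1824) (nat_lit 373399409) (nat_lit 76) (nat_lit 5469501603) (nat_lit 442) (nat_lit 5) (nat_lit 466) (nat_lit 5) (nat_lit 443) (nat_lit 5) (nat_lit 420) (nat_lit 374) (nat_lit 346)) (XT.nd (nat_lit 78) (nat_lit 912) (nat_lit 0) (XT.lf (nat_lit 0) (nat_lit 4287603287) (nat_lit 1520) (nat_lit 2819694402) (nat_lit 76) (nat_lit 286838611) (nat_lit 423) (nat_lit 5) (nat_lit 443) (nat_lit 5) (nat_lit 424) (nat_lit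 5) (nat_lit 421) (nat_lit 374) (nat_lit 345)) (XT.lf (nat_lit 0) (nat_lit 2146287469) (nat_lit 912) (nat_lit 4959660343) (nat_lit 988) (nat_lit 338547548) (nat_lit 411) (nat_lit 5) (nat_lit 423) (nat_lit 5) (nat_lit 424) (nat_lit 5) (nat_lit 422) (nat_lit 374) (nat_lit 344)))) (XT.nd (nat_lit 78) (nat_lit 1900) (nat_lit 0) (XT.lf (nat_lit 0) (nat_lit 2420059772) (nat_lit 988) (nat_lit 314028808) (nat_lit 76) (nat_lit 4762106105) (nat_lit 410) (nat_lit 5) (nat_lit 423) (nat_lit 5) (nat_lit 411) (nat_lit 5) (nat_lit 423) (nat_lit 374) (nat_lit 343)) (XT.nd (nat_lit 78) (nat_lit 988) (nat_lit 0) (XT.lf (nat_lit 0) (nat_lit 4779195303) (nat_lit 912) (nat_lit 430952348) (nat_lit 988) (nat_lit 2339131265) (nat_lit 398) (nat_lit 5) (nat_lit 410) (nat_lit 5) (nat_lit 411) (nat_lit 5) (nat_lit 424) (nat_lit 374) (nat_lit 342)) (XT.lf (nat_lit 0) (nat_lit 426767320) (nat_lit 988) (nat_lit 5264974966) (nat_lit 76) (nat_lit 1912033974)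 (nat_lit 385) (nat_lit 5) (nat_lit 398) (nat_lit 5) (nat_lit 386) (nat_lit 5) (nat_lit 425) (nat_lit 374) (nat_lit 341))))) (XT.nd (nat_lit 234) (nat_lit 1596) (nat_lit 0) (XT.nd (nat_lit 78) (nat_lit 1748) (nat_lit 0) (XT.lf (nat_lit 0) (nat_lit 3189014567) (nat_lit 988) (nat_lit 142108228) (nat_lit 76) (nat_lit 4328496277) (nat_lit 385) (nat_lit 5) (nat_lit 398) (nat_lit 5) (nat_lit 386) (nat_lit 5) (nat_lit 426) (nat_lit 374) (nat_lit 340)) (XT.nd (nat_lit 78) (nat_lit 912) (nat_lit 0) (XT.lf (nat_lit 0) (nat_lit 5099050080) (nat_lit 836) (nat_lit 892285215) (nat_lit 912) (nat_lit 1725558427) (nat_lit 374) (nat_lit 5) (nat_lit 385) (nat_lit 5) (nat_lit 386) (nat_lit 5) (nat_lit 427) (nat_lit 374) (nat_lit 339)) (XT.lf (nat_lit 0) (nat_lit 1040965870) (nat_lit 912) (nat_lit 5138227539) (nat_lit 76) (nat_lit 1596378689) (nat_lit 362) (nat_lit 5) (nat_lit 374) (nat_lit 5) (nat_lit 363) (nat_lit 5) (nat_lit 428) (nat_lit 374)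 (nat_lit 338)))) (XT.nd (nat_lit 78) (nat_lit 836) (nat_lit 0) (XT.lf (nat_lit 0) (nat_lit 130355246) (nat_lit 760) (nat_lit 3686419553) (nat_lit 836) (nat_lit 4018890823) (nat_lit 352) (nat_lit 5) (nat_lit 362) (nat_lit 5) (nat_lit 363) (nat_lit 5) (nat_lit 429) (nat_lit 374) (nat_lit 337)) (XT.nd (nat_lit 78) (nat_lit 836) (nat_lit 0) (XT.lf (nat_lit 0) (nat_lit 5522350771) (nat_lit 760) (nat_lit 1113422505) (nat_lit 836) (nat_lit 1261444947) (nat_lit 352) (nat_lit 5) (nat_lit 362) (nat_lit 5) (nat_lit 363) (nat_lit 5) (nat_lit 430) (nat_lit 374) (nat_lit 336)) (XT.lf (nat_lit 0) (nat_lit 1514321156) (nat_lit 836) (nat_lit 4929543198) (nat_lit 76) (nat_lit 1516276063) (nat_lit 341) (nat_lit 5) (nat_lit 352) (nat_lit 5) (nat_lit 342) (nat_lit 5) (nat_lit 431) (nat_lit 374) (nat_lit 335))))))) (XT.nd (nat_lit 858) (nat_lit 5320) (nat_lit 0) (XT.nd (nat_lit 390) (nat_lit 2812) (nat_lit 0) (XT.nd (nat_lit 156) (nat_lit 1520)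 (nat_lit 0) (XT.nd (nat_lit 78) (nat_lit 0) (nat_lit 0) (XT.lf (nat_lit 0) (nat_lit 491197033) (nat_lit 760) (nat_lit 3818473730) (nat_lit 836) (nat_lit 3714874409) (nat_lit 331) (nat_lit 5) (nat_lit 341) (nat_lit 5) (nat_lit 342) (nat_lit 5) (nat_lit 432) (nat_lit 374) (nat_lit 334)) (XT.lf (nat_lit 0) (nat_lit 6035741154) (nat_lit 760) (nat_lit 1113165590) (nat_lit 836) (nat_lit 941581553) (nat_lit 331) (nat_lit 5) (nat_lit 341) (nat_lit 5) (nat_lit 342) (nat_lit 5) (nat_lit 433) (nat_lit 374) (nat_lit 333))) (XT.nd (nat_lit 78) (nat_lit 684) (nat_lit 0) (XT.lf (nat_lit 0) (nat_lit 1851616556) (nat_lit 836) (nat_lit 4652562400) (nat_lit 76) (nat_lit 1653551947) (nat_lit 320) (nat_lit 5) (nat_lit 331) (nat_lit 5) (nat_lit 321) (nat_lit 5) (nat_lit 434) (nat_lit 374) (nat_lit 332)) (XT.nd (nat_lit 78) (nat_lit 0) (nat_lit 0) (XT.lf (nat_lit 0) (nat_lit 924990711) (nat_lit 684) (nat_lit 3746331006) (nat_lit 760) (nat_lit 3555216445)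 (nat_lit 311) (nat_lit 5) (nat_lit 320) (nat_lit 5) (nat_lit 321) (nat_lit 5) (nat_lit 435) (nat_lit 374) (nat_lit 331)) (XT.lf (nat_lit 0) (nat_lit 6625966328) (nat_lit 684) (nat_lit 909188225) (nat_lit 760) (nat_lit 761821452) (nat_lit 311) (nat_lit 5) (nat_lit 320) (nat_lit 5) (nat_lit 321) (nat_lit 5) (nat_lit 436) (nat_lit 374) (nat_lit 330))))) (XT.nd (nat_lit 234) (nat_lit 1368) (nat_lit 0) (XT.nd (nat_lit 78) (nat_lit 684) (nat_lit 0) (XT.lf (nat_lit 0) (nat_lit 2056604850) (nat_lit 760) (nat_lit 4320913994) (nat_lit 76) (nat_lit 1991110643) (nat_lit 301) (nat_lit 5) (nat_lit 311) (nat_lit 5) (nat_lit 302) (nat_lit 5) (nat_lit 437) (nat_lit 374) (nat_lit 329)) (XT.nd (nat_lit 78) (nat_lit 0) (nat_lit 0) (XT.lf (nat_lit 0) (nat_lit 1418192309) (nat_lit 684) (nat_lit 3487068769) (nat_lit 760) (nat_lit 3536681592) (nat_lit 292) (nat_lit 5) (nat_lit 301) (nat_lit 5) (nat_lit 302) (nat_lit 5) (nat_lit 438) (nat_lit 374)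 (nat_lit 328)) (XT.lf (nat_lit 0) (nat_lit 7279747622) (nat_lit 684) (nat_lit 518176616) (nat_lit 760) (nat_lit 719065617) (nat_lit 292) (nat_lit 5) (nat_lit 301) (nat_lit 5) (nat_lit 302) (nat_lit 5) (nat_lit 439) (nat_lit 374) (nat_lit 327)))) (XT.nd (nat_lit 78) (nat_lit 608) (nat_lit 0) (XT.lf (nat_lit 0) (nat_lit 2132019409) (nat_lit 760) (nat_lit 3948341776) (nat_lit 76) (nat_lit 2512797497) (nat_lit 282) (nat_lit 5) (nat_lit 292) (nat_lit 5) (nat_lit 283) (nat_lit 5) (nat_lit 440) (nat_lit 374) (nat_lit 326)) (XT.nd (nat_lit 78) (nat_lit 0) (nat_lit 0) (XT.lf (nat_lit 0) (nat_lit 1957123414) (nat_lit 608) (nat_lit 3056886858) (nat_lit 684) (nat_lit 3657083234) (nat_lit 274) (nat_lit 5) (nat_lit 282) (nat_lit 5) (nat_lit 283) (nat_lit 5) (nat_lit 441) (nat_lit 374) (nat_lit 325)) (XT.lf (nat_lit 0) (nat_lit 7939905105) (nat_lit 684) (nat_lit 767507068) (nat_lit 76) (nat_lit 43457346) (nat_lit 274) (nat_lit 5) (nat_lit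 283) (nat_lit 5) (nat_lit 275) (nat_lit 5) (nat_lit 442) (nat_lit 374) (nat_lit 324)))))) (XT.nd (nat_lit 468) (nat_lit 2204) (nat_lit 0) (XT.nd (nat_lit 234) (nat_lit 1824) (nat_lit 0) (XT.nd (nat_lit 78) (nat_lit 608) (nat_lit 0) (XT.lf (nat_lit 0) (nat_lit 2079577530) (nat_lit 684) (nat_lit 3548835065) (nat_lit 76) (nat_lit 3203265495) (nat_lit 265) (nat_lit 5) (nat_lit 274) (nat_lit 5) (nat_lit 266) (nat_lit 5) (nat_lit 443) (nat_lit 374) (nat_lit 323)) (XT.nd (nat_lit 78) (nat_lit 0) (nat_lit 0) (XT.lf (nat_lit 0) (nat_lit 2527838493) (nat_lit 608) (nat_lit 2471241123) (nat_lit 684) (nat_lit 3915283171) (nat_lit 257) (nat_lit 5) (nat_lit 265) (nat_lit 5) (nat_lit 266) (nat_lit 5) (nat_lit 444) (nat_lit 374) (nat_lit 322)) (XT.lf (nat_lit 0) (nat_lit 7966587570) (nat_lit 684) (nat_lit 279995240) (nat_lit 76) (nat_lit 752333236) (nat_lit 257) (nat_lit 5) (nat_lit 266) (nat_lit 5) (nat_lit 258) (nat_lit 5) (nat_lit 445) (nat_lit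 374) (nat_lit 321)))) (XT.nd (nat_lit 78) (nat_lit 1140) (nat_lit 0) (XT.lf (nat_lit 0) (nat_lit 1899975797) (nat_lit 684) (nat_lit 3136764473) (nat_lit 76) (nat_lit 4047844847) (nat_lit 248) (nat_lit 5) (nat_lit 257) (nat_lit 5) (nat_lit 249) (nat_lit 5) (nat_lit 446) (nat_lit 374) (nat_lit 320)) (XT.nd (nat_lit 78) (nat_lit 608) (nat_lit 0) (XT.lf (nat_lit 0) (nat_lit 3115986749) (nat_lit 532) (nat_lit 1744974437) (nat_lit 608) (nat_lit 4311199522) (nat_lit 241) (nat_lit 5) (nat_lit 248) (nat_lit 5) (nat_lit 249) (nat_lit 5) (nat_lit 447) (nat_lit 374) (nat_lit 319)) (XT.lf (nat_lit 0) (nat_lit 217036713) (nat_lit 608) (nat_lit 7659270413) (nat_lit 684) (nat_lit 1385284503) (nat_lit 233) (nat_lit 5) (nat_lit 241) (nat_lit 5) (nat_lit 242) (nat_lit 5) (nat_lit 448) (nat_lit 374) (nat_lit 318))))) (XT.nd (nat_lit 234) (nat_lit 1064) (nat_lit 0) (XT.nd (nat_lit 78) (nat_lit 1064) (nat_lit 0) (XT.lf (nat_lit 0) (nat_lit 1592877255)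 (nat_lit 684) (nat_lit 2727024054) (nat_lit 76) (nat_lit 5032414554) (nat_lit 232) (nat_lit 5) (nat_lit 241) (nat_lit 5) (nat_lit 233) (nat_lit 5) (nat_lit 449) (nat_lit 374) (nat_lit 317)) (XT.nd (nat_lit 78) (nat_lit 532) (nat_lit 0) (XT.lf (nat_lit 0) (nat_lit 3706667238) (nat_lit 532) (nat_lit 892446187) (nat_lit 608) (nat_lit 4845823071) (nat_lit 225) (nat_lit 5) (nat_lit 232) (nat_lit 5) (nat_lit 233) (nat_lit 5) (nat_lit 450) (nat_lit 374) (nat_lit 316)) (XT.lf (nat_lit 0) (nat_lit 709272019) (nat_lit 532) (nat_lit 6959432479) (nat_lit 608) (nat_lit 1870646574) (nat_lit 218) (nat_lit 5) (nat_lit 225) (nat_lit 5) (nat_lit 226) (nat_lit 5) (nat_lit 451) (nat_lit 374) (nat_lit 315)))) (XT.nd (nat_lit 78) (nat_lit 988) (nat_lit 0) (XT.lf (nat_lit 0) (nat_lit 1156890156) (nat_lit 608) (nat_lit 2335181118) (nat_lit 76) (nat_lit 6143274939) (nat_lit 217) (nat_lit 5) (nat_lit 225) (nat_lit 5) (nat_lit 218) (nat_lit 5) (nat_lit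 452) (nat_lit 374) (nat_lit 314)) (XT.nd (nat_lit 78) (nat_lit 532) (nat_lit 0) (XT.lf (nat_lit 0) (nat_lit 4212406909) (nat_lit 532) (nat_lit 5449373288) (nat_lit 76) (nat_lit 71389994) (nat_lit 211) (nat_lit 5) (nat_lit 218) (nat_lit 5) (nat_lit 212) (nat_lit 5) (nat_lit 453) (nat_lit 374) (nat_lit 313)) (XT.lf (nat_lit 0) (nat_lit 1176932871) (nat_lit 532) (nat_lit 6163109563) (nat_lit 608) (nat_lit 2492693709) (nat_lit 204) (nat_lit 5) (nat_lit 211) (nat_lit 5) (nat_lit 212) (nat_lit 5) (nat_lit 454) (nat_lit 374) (nat_lit 312))))))))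
noncomputable def xc73 : XT := (XT.nd (nat_lit 1794) (nat_lit 4484) (nat_lit 0) (XT.nd (nat_lit 858) (nat_lit 3116) (nat_lit 0) (XT.nd (nat_lit 390) (nat_lit 1824) (nat_lit 0) (XT.nd (nat_lit 156) (nat_lit 988) (nat_lit 0) (XT.nd (nat_lit 78) (nat_lit 456) (nat_lit 0) (XT.lf (nat_lit 0) (nat_lit 589537929) (nat_lit 608) (nat_lit 1977635097) (nat_lit 76) (nat_lit 7367020119) (nat_lit 203) (nat_lit 5) (nat_lit 211) (nat_lit 5) (nat_lit 204) (nat_lit 5) (nat_lit 455) (nat_lit 374) (nat_lit 311)) (XT.lf (nat_lit 0) (nat_lit 3704116240) (nat_lit 532) (nat_lit 5212450503) (nat_lit 76) (nat_lit 1120706763) (nat_lit 197) (nat_lit 5) (nat_lit 204) (nat_lit 5) (nat_lit 198) (nat_lit 5) (nat_lit 456) (nat_lit 374) (nat_lit 310))) (XT.nd (nat_lit 78) (nat_lit 532) (nat_lit 0) (XT.lf (nat_lit 0) (nat_lit 1603019055) (nat_lit 456) (nat_lit 5284311171) (nat_lit 532) (nat_lit 3254963599) (nat_lit 191) (nat_lit 5) (nat_lit 197) (nat_lit 5)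 (nat_lit 198) (nat_lit 5) (nat_lit 457) (nat_lit 374) (nat_lit 309)) (XT.nd (nat_lit 78) (nat_lit 532) (nat_lit 0) (XT.lf (nat_lit 0) (nat_lit 8576872506) (nat_lit 456) (nat_lit 1558250065) (nat_lit 532) (nat_lit 114278827) (nat_lit 191) (nat_lit 5) (nat_lit 197) (nat_lit 5) (nat_lit 198) (nat_lit 5) (nat_lit 458) (nat_lit 374) (nat_lit 308)) (XT.lf (nat_lit 0) (nat_lit 3064536263) (nat_lit 532) (nat_lit 5039699966) (nat_lit 76) (nat_lit 2253702035) (nat_lit 184) (nat_lit 5) (nat_lit 191) (nat_lit 5) (nat_lit 185) (nat_lit 5) (nat_lit 459) (nat_lit 374) (nat_lit 307))))) (XT.nd (nat_lit 234) (nat_lit 912) (nat_lit 0) (XT.nd (nat_lit 78) (nat_lit 456) (nat_lit 0) (XT.lf (nat_lit 0) (nat_lit 1969408776) (nat_lit 456) (nat_lit 4337026884) (nat_lit 532) (nat_lit 4162179169) (nat_lit 178) (nat_lit 5) (nat_lit 184) (nat_lit 5) (nat_lit 185) (nat_lit 5) (nat_lit 460) (nat_lit 374) (nat_lit 306)) (XT.nd (nat_lit 78) (nat_lit 456) (nat_lit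 0) (XT.lf (nat_lit 0) (nat_lit 9138991480) (nat_lit 456) (nat_lit 474975716) (nat_lit 532) (nat_lit 967526586) (nat_lit 178) (nat_lit 5) (nat_lit 184) (nat_lit 5) (nat_lit 185) (nat_lit 5) (nat_lit 461) (nat_lit 374) (nat_lit 305)) (XT.lf (nat_lit 0) (nat_lit 2288571438) (nat_lit 456) (nat_lit 4950384417) (nat_lit 76) (nat_lit 3456829530) (nat_lit 172) (nat_lit 5) (nat_lit 178) (nat_lit 5) (nat_lit 173) (nat_lit 5) (nat_lit 462) (nat_lit 374) (nat_lit 304)))) (XT.nd (nat_lit 78) (nat_lit 456) (nat_lit 0) (XT.lf (nat_lit 0) (nat_lit 2256667183) (nat_lit 456) (nat_lit 3335361826) (nat_lit 532) (nat_lit 5220306513) (nat_lit 166) (nat_lit 5) (nat_lit 172) (nat_lit 5) (nat_lit 173) (nat_lit 5) (nat_lit 463) (nat_lit 374) (nat_lit 303)) (XT.nd (nat_lit 78) (nat_lit 456) (nat_lit 0) (XT.lf (nat_lit 0) (nat_lit 8967057363) (nat_lit 532) (nat_lit 1307994622) (nat_lit 76) (nat_lit 656059022) (nat_lit 166) (nat_lit 5) (nat_lit 173) (nat_lit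 5) (nat_lit 167) (nat_lit 5) (nat_lit 464) (nat_lit 374) (nat_lit 302)) (XT.lf (nat_lit 0) (nat_lit 1369878138) (nat_lit 456) (nat_lit 4965237335) (nat_lit 76) (nat_lit 4716367377) (nat_lit 160) (nat_lit 5) (nat_lit 166) (nat_lit 5) (nat_lit 161) (nat_lit 5) (nat_lit 465) (nat_lit 374) (nat_lit 301)))))) (XT.nd (nat_lit 468) (nat_lit 1520) (nat_lit 0) (XT.nd (nat_lit 234) (nat_lit 760) (nat_lit 0) (XT.nd (nat_lit 78) (nat_lit 456) (nat_lit 0) (XT.lf (nat_lit 0) (nat_lit 2443839758) (nat_lit 380) (nat_lit 2293676550) (nat_lit 456) (nat_lit 6436623773) (nat_lit 155) (nat_lit 5) (nat_lit 160) (nat_lit 5) (nat_lit 161) (nat_lit 5) (nat_lit 466) (nat_lit 374) (nat_lit 300)) (XT.nd (nat_lit 78) (nat_lit 456) (nat_lit 0) (XT.lf (nat_lit 0) (nat_lit 8186728220) (nat_lit 456) (nat_lit 1289647508) (nat_lit 76) (nat_lit 1822594352) (nat_lit 155) (nat_lit 5) (nat_lit 161) (nat_lit 5) (nat_lit 156) (nat_lit 5) (nat_lit 467) (nat_lit 374)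 (nat_lit 299)) (XT.lf (nat_lit 0) (nat_lit 300790123) (nat_lit 456) (nat_lit 5106680836) (nat_lit 76) (nat_lit 6018277095) (nat_lit 149) (nat_lit 5) (nat_lit 155) (nat_lit 5) (nat_lit 150) (nat_lit 5) (nat_lit 468) (nat_lit 374) (nat_lit 298)))) (XT.nd (nat_lit 78) (nat_lit 380) (nat_lit 0) (XT.lf (nat_lit 0) (nat_lit 2508228611) (nat_lit 380) (nat_lit 1226732590) (nat_lit 456) (nat_lit 7819801733) (nat_lit 144) (nat_lit 5) (nat_lit 149) (nat_lit 5) (nat_lit 150) (nat_lit 5) (nat_lit 469) (nat_lit 374) (nat_lit 297)) (XT.nd (nat_lit 78) (nat_lit 380) (nat_lit 0) (XT.lf (nat_lit 0) (nat_lit 7261742469) (nat_lit 456) (nat_lit 1407708592) (nat_lit 76) (nat_lit 3016432251) (nat_lit 144) (nat_lit 5) (nat_lit 150) (nat_lit 5) (nat_lit 145) (nat_lit 5) (nat_lit 470) (nat_lit 374) (nat_lit 296)) (XT.lf (nat_lit 0) (nat_lit 6414062443) (nat_lit 380) (nat_lit 4465068323) (nat_lit 456) (nat_lit 940097567) (nat_lit 139) (nat_lit 5) (nat_lit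 144) (nat_lit 5) (nat_lit 145) (nat_lit 5) (nat_lit 471) (nat_lit 374) (nat_lit 295))))) (XT.nd (nat_lit 234) (nat_lit 760) (nat_lit 0) (XT.nd (nat_lit 78) (nat_lit 304) (nat_lit 0) (XT.lf (nat_lit 0) (nat_lit 2425149512) (nat_lit 380) (nat_lit 149844968) (nat_lit 456) (nat_lit 9379996987) (nat_lit 133) (nat_lit 5) (nat_lit 138) (nat_lit 5) (nat_lit 139) (nat_lit 5) (nat_lit 472) (nat_lit 374) (nat_lit 294)) (XT.nd (nat_lit 78) (nat_lit 304) (nat_lit 0) (XT.lf (nat_lit 0) (nat_lit 6182498617) (nat_lit 456) (nat_lit 1687581753) (nat_lit 76) (nat_lit 4222574704) (nat_lit 133) (nat_lit 5) (nat_lit 139) (nat_lit 5) (nat_lit 134) (nat_lit 5) (nat_lit 473) (nat_lit 374) (nat_lit 293)) (XT.lf (nat_lit 0) (nat_lit 6348592049) (nat_lit 304) (nat_lit 3526919389) (nat_lit 380) (nat_lit 2357296726) (nat_lit 129) (nat_lit 5) (nat_lit 133) (nat_lit 5) (nat_lit 134) (nat_lit 5) (nat_lit 474) (nat_lit 374) (nat_lit 292)))) (XT.nd (nat_lit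 78) (nat_lit 304) (nat_lit 0) (XT.lf (nat_lit 0) (nat_lit 1252689842) (nat_lit 456) (nat_lit 10213981195) (nat_lit 76) (nat_lit 908878426) (nat_lit 123) (nat_lit 5) (nat_lit 129) (nat_lit 5) (nat_lit 124) (nat_lit 5) (nat_lit 475) (nat_lit 374) (nat_lit 291)) (XT.nd (nat_lit 78) (nat_lit 304) (nat_lit 0) (XT.lf (nat_lit 0) (nat_lit 4937839788) (nat_lit 456) (nat_lit 2157013779) (nat_lit 76) (nat_lit 5425293019) (nat_lit 123) (nat_lit 5) (nat_lit 129) (nat_lit 5) (nat_lit 124) (nat_lit 5) (nat_lit 476) (nat_lit 374) (nat_lit 290)) (XT.lf (nat_lit 0) (nat_lit 6096482254) (nat_lit 304) (nat_lit 2611747371) (nat_lit 380) (nat_lit 3959178415) (nat_lit 119) (nat_lit 5) (nat_lit 123) (nat_lit 5) (nat_lit 124) (nat_lit 5) (nat_lit 477) (nat_lit 374) (nat_lit 289))))))) (XT.nd (nat_lit 936) (nat_lit 1900) (nat_lit 0) (XT.nd (nat_lit 468) (nat_lit 1216) (nat_lit 0) (XT.nd (nat_lit 234) (nat_lit 684) (nat_lit 0) (XT.nd (nat_lit 78) (nat_lit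 380) (nat_lit 0) (XT.lf (nat_lit 0) (nat_lit 1691593671) (nat_lit 304) (nat_lit 10872829217) (nat_lit 380) (nat_lit 252986990) (nat_lit 115) (nat_lit 5) (nat_lit 119) (nat_lit 5) (nat_lit 120) (nat_lit 5) (nat_lit 478) (nat_lit 374) (nat_lit 288)) (XT.nd (nat_lit 78) (nat_lit 304) (nat_lit 0) (XT.lf (nat_lit 0) (nat_lit 3514931747) (nat_lit 380) (nat_lit 2846389853) (nat_lit 76) (nat_lit 6607957762) (nat_lit 114) (nat_lit 5) (nat_lit 119) (nat_lit 5) (nat_lit 115) (nat_lit 5) (nat_lit 479) (nat_lit 374) (nat_lit 287)) (XT.lf (nat_lit 0) (nat_lit 5626820869) (nat_lit 304) (nat_lit 1737264462) (nat_lit 380) (nat_lit 5759885070) (nat_lit 110) (nat_lit 5) (nat_lit 114) (nat_lit 5) (nat_lit 115) (nat_lit 5) (nat_lit 480) (nat_lit 374) (nat_lit 286)))) (XT.nd (nat_lit 78) (nat_lit 380) (nat_lit 0) (XT.lf (nat_lit 0) (nat_lit 975964253) (nat_lit 304) (nat_lit 10332036332) (nat_lit 380) (nat_lit 1973401937) (nat_lit 106) (nat_lit 5)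 (nat_lit 110) (nat_lit 5) (nat_lit 111) (nat_lit 5) (nat_lit 481) (nat_lit 374) (nat_lit 285)) (XT.nd (nat_lit 78) (nat_lit 304) (nat_lit 0) (XT.lf (nat_lit 0) (nat_lit 1899125037) (nat_lit 380) (nat_lit 3789056903) (nat_lit 76) (nat_lit 7752857072) (nat_lit 105) (nat_lit 5) (nat_lit 110) (nat_lit 5) (nat_lit 106) (nat_lit 5) (nat_lit 482) (nat_lit 374) (nat_lit 284)) (XT.lf (nat_lit 0) (nat_lit 4905642853) (nat_lit 304) (nat_lit 922380071) (nat_lit 380) (nat_lit 7775480211) (nat_lit 101) (nat_lit 5) (nat_lit 105) (nat_lit 5) (nat_lit 106) (nat_lit 5) (nat_lit 483) (nat_lit 374) (nat_lit 283))))) (XT.nd (nat_lit 234) (nat_lit 608) (nat_lit 0) (XT.nd (nat_lit 78) (nat_lit 608) (nat_lit 0) (XT.lf (nat_lit 0) (nat_lit 9860268079) (nat_lit 380) (nat_lit 12265001) (nat_lit 76) (nat_lit 3896190690) (nat_lit 101) (nat_lit 5) (nat_lit 106) (nat_lit 5) (nat_lit 102) (nat_lit 5) (nat_lit 484) (nat_lit 374) (nat_lit 282)) (XT.nd (nat_lit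 78) (nat_lit 228) (nat_lit 0) (XT.lf (nat_lit 0) (nat_lit 73799796) (nat_lit 380) (nat_lit 5021677968) (nat_lit 76) (nat_lit 8841001676) (nat_lit 96) (nat_lit 5) (nat_lit 101) (nat_lit 5) (nat_lit 97) (nat_lit 5) (nat_lit 485) (nat_lit 374) (nat_lit 281)) (XT.lf (nat_lit 0) (nat_lit 3895565328) (nat_lit 228) (nat_lit 187404889) (nat_lit 304) (nat_lit 10024113694) (nat_lit 93) (nat_lit 5) (nat_lit 96) (nat_lit 5) (nat_lit 97) (nat_lit 5) (nat_lit 486) (nat_lit 374) (nat_lit 280)))) (XT.nd (nat_lit 78) (nat_lit 608) (nat_lit 0) (XT.lf (nat_lit 0) (nat_lit 8211834554) (nat_lit 304) (nat_lit 1295466300) (nat_lit 76) (nat_lit 4773011824) (nat_lit 93) (nat_lit 5) (nat_lit 97) (nat_lit 5) (nat_lit 94) (nat_lit 5) (nat_lit 487) (nat_lit 374) (nat_lit 279)) (XT.nd (nat_lit 78) (nat_lit 304) (nat_lit 0) (XT.lf (nat_lit 0) (nat_lit 7858820840) (nat_lit 304) (nat_lit 4591527188) (nat_lit 380) (nat_lit 2006118927) (nat_lit 89) (nat_lit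 5) (nat_lit 93) (nat_lit 5) (nat_lit 94) (nat_lit 5) (nat_lit 488) (nat_lit 374) (nat_lit 278)) (XT.lf (nat_lit 0) (nat_lit 2112552057) (nat_lit 304) (nat_lit 12083371997) (nat_lit 76) (nat_lit 439883017) (nat_lit 85) (nat_lit 5) (nat_lit 89) (nat_lit 5) (nat_lit 86) (nat_lit 5) (nat_lit 489) (nat_lit 374) (nat_lit 277)))))) (XT.nd (nat_lit 468) (nat_lit 1064) (nat_lit 0) (XT.nd (nat_lit 234) (nat_lit 304) (nat_lit 0) (XT.nd (nat_lit 78) (nat_lit 532) (nat_lit 0) (XT.lf (nat_lit 0) (nat_lit 6336709246) (nat_lit 304) (nat_lit 2928974982) (nat_lit 76) (nat_lit 5551787293) (nat_lit 85) (nat_lit 5) (nat_lit 89) (nat_lit 5) (nat_lit 86) (nat_lit 5) (nat_lit 490) (nat_lit 374) (nat_lit 276)) (XT.nd (nat_lit 78) (nat_lit 228) (nat_lit 0) (XT.lf (nat_lit 0) (nat_lit 6451861651) (nat_lit 304) (nat_lit 4210843634) (nat_lit 380) (nat_lit 4339719049) (nat_lit 81) (nat_lit 5) (nat_lit 85) (nat_lit 5) (nat_lit 86) (nat_lit 5) (nat_lit 491)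 (nat_lit 374) (nat_lit 275)) (XT.lf (nat_lit 0) (nat_lit 832614052) (nat_lit 228) (nat_lit 14249506956) (nat_lit 304) (nat_lit 108819347) (nat_lit 78) (nat_lit 5) (nat_lit 81) (nat_lit 5) (nat_lit 82) (nat_lit 5) (nat_lit 492) (nat_lit 374) (nat_lit 274)))) (XT.nd (nat_lit 78) (nat_lit 228) (nat_lit 0) (XT.lf (nat_lit 0) (nat_lit 4212794130) (nat_lit 304) (nat_lit 4959726978) (nat_lit 76) (nat_lit 6208936051) (nat_lit 77) (nat_lit 5) (nat_lit 81) (nat_lit 5) (nat_lit 78) (nat_lit 5) (nat_lit 493) (nat_lit 374) (nat_lit 273)) (XT.nd (nat_lit 78) (nat_lit 0) (nat_lit 0) (XT.lf (nat_lit 0) (nat_lit 4646446720) (nat_lit 228) (nat_lit 3979205475) (nat_lit 304) (nat_lit 6949994351) (nat_lit 74) (nat_lit 5) (nat_lit 77) (nat_lit 5) (nat_lit 78) (nat_lit 5) (nat_lit 494) (nat_lit 374) (nat_lit 272)) (XT.lf (nat_lit 0) (nat_lit 13145026139) (nat_lit 304) (nat_lit 1310573803) (nat_lit 76) (nat_lit 1317756589) (nat_lit 74) (nat_lit 5)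 (nat_lit 78) (nat_lit 5) (nat_lit 75) (nat_lit 5) (nat_lit 495) (nat_lit 374) (nat_lit 271))))) (XT.nd (nat_lit 234) (nat_lit 532) (nat_lit 0) (XT.nd (nat_lit 78) (nat_lit 228) (nat_lit 0) (XT.lf (nat_lit 0) (nat_lit 1815316066) (nat_lit 304) (nat_lit 7439555633) (nat_lit 76) (nat_lit 6718741991) (nat_lit 70) (nat_lit 5) (nat_lit 74) (nat_lit 5) (nat_lit 71) (nat_lit 5) (nat_lit 496) (nat_lit 374) (nat_lit 270)) (XT.nd (nat_lit 78) (nat_lit 0) (nat_lit 0) (XT.lf (nat_lit 0) (nat_lit 2389555851) (nat_lit 228) (nat_lit 3924197041) (nat_lit 304) (nat_lit 9863755287) (nat_lit 67) (nat_lit 5) (nat_lit 70) (nat_lit 5) (nat_lit 71) (nat_lit 5) (nat_lit 497) (nat_lit 374) (nat_lit 269)) (XT.lf (nat_lit 0) (nat_lit 10939037828) (nat_lit 304) (nat_lit 3918601674) (nat_lit 76) (nat_lit 1527105300) (nat_lit 67) (nat_lit 5) (nat_lit 71) (nat_lit 5) (nat_lit 68) (nat_lit 5) (nat_lit 498) (nat_lit 374) (nat_lit 268)))) (XT.nd (nat_lit 78)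 (nat_lit 304) (nat_lit 0) (XT.lf (nat_lit 0) (nat_lit 6163711935) (nat_lit 228) (nat_lit 9536379796) (nat_lit 304) (nat_lit 895170958) (nat_lit 64) (nat_lit 5) (nat_lit 67) (nat_lit 5) (nat_lit 68) (nat_lit 5) (nat_lit 499) (nat_lit 374) (nat_lit 267)) (XT.nd (nat_lit 78) (nat_lit 228) (nat_lit 0) (XT.lf (nat_lit 0) (nat_lit 3701009271) (nat_lit 304) (nat_lit 372492855) (nat_lit 76) (nat_lit 12735928697) (nat_lit 63) (nat_lit 5) (nat_lit 67) (nat_lit 5) (nat_lit 64) (nat_lit 5) (nat_lit 500) (nat_lit 374) (nat_lit 266)) (XT.lf (nat_lit 0) (nat_lit 8429731792) (nat_lit 304) (nat_lit 7062926367) (nat_lit 76) (nat_lit 1534055411) (nat_lit 60) (nat_lit 5) (nat_lit 64) (nat_lit 5) (nat_lit 61) (nat_lit 5) (nat_lit 501) (nat_lit 374) (nat_lit 265))))))))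
noncomputable def xc74 : XT := (XT.nd (nat_lit 52026) (nat_lit 0) (nat_lit 21964) (XT.nd (nat_lit 51090) (nat_lit 0) (nat_lit 41876) (XT.nd (nat_lit 50622) (nat_lit 0) (nat_lit 48640) (XT.nd (nat_lit 156) (nat_lit 380) (nat_lit 0) (XT.nd (nat_lit 78) (nat_lit 76) (nat_lit 0) (XT.lf (nat_lit 0) (nat_lit 3240423108) (nat_lit 152) (nat_lit 10040963074) (nat_lit 228) (nat_lit 3966390301) (nat_lit 58) (nat_lit 5) (nat_lit 60) (nat_lit 5) (nat_lit 61) (nat_lit 5) (nat_lit 502) (nat_lit 374) (nat_lit 264)) (XT.lf (nat_lit 0) (nat_lit 772460922) (nat_lit 228) (nat_lit 3670634918) (nat_lit 76) (nat_lit 13029556661) (nat_lit 57) (nat_lit 5) (nat_lit 60) (nat_lit 5) (nat_lit 58) (nat_lit 5) (nat_lit 503) (nat_lit 374) (nat_lit 263))) (XT.nd (nat_lit 78) (nat_lit 152) (nat_lit 0) (XT.lf (nat_lit 0) (nat_lit 5584710142) (nat_lit 304) (nat_lit 10810512264) (nat_lit 76) (nat_lit 1305646222) (nat_lit 54) (nat_lit 5) (nat_lit 58) (nat_lit 5)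 (nat_lit 55) (nat_lit 5) (nat_lit 504) (nat_lit 374) (nat_lit 262)) (XT.nd (nat_lit 78) (nat_lit 152) (nat_lit 0) (XT.lf (nat_lit 0) (nat_lit 10525797857) (nat_lit 304) (nat_lit 288413488) (nat_lit 76) (nat_lit 7118787395) (nat_lit 54) (nat_lit 5) (nat_lit 58) (nat_lit 5) (nat_lit 55) (nat_lit 5) (nat_lit 505) (nat_lit 374) (nat_lit 261)) (XT.lf (nat_lit 0) (nat_lit 10545180830) (nat_lit 152) (nat_lit 5067790862) (nat_lit 228) (nat_lit 2555855978) (nat_lit 52) (nat_lit 5) (nat_lit 54) (nat_lit 5) (nat_lit 55) (nat_lit 5) (nat_lit 506) (nat_lit 374) (nat_lit 260))))) (XT.nd (nat_lit 234) (nat_lit 1292) (nat_lit 0) (XT.nd (nat_lit 78) (nat_lit 532) (nat_lit 0) (XT.lf (nat_lit 0) (nat_lit 822562845) (nat_lit 380) (nat_lit 1211295074) (nat_lit 380) (nat_lit 1211295074) (nat_lit 716) (nat_lit 4) (nat_lit 721) (nat_lit 5) (nat_lit 721) (nat_lit 4) (nat_lit 390) (nat_lit 375) (nat_lit 375)) (XT.nd (nat_lit 78) (nat_lit 456) (nat_lit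 0) (XT.lf (nat_lit 0) (nat_lit 743241206) (nat_lit 456) (nat_lit 1190202703) (nat_lit 76) (nat_lit 4567226267) (nat_lit 715) (nat_lit 5) (nat_lit 721) (nat_lit 5) (nat_lit 716) (nat_lit 4) (nat_lit 391) (nat_lit 375) (nat_lit 374)) (XT.lf (nat_lit 0) (nat_lit 2506259239) (nat_lit 456) (nat_lit 1373237607) (nat_lit 532) (nat_lit 2632663506) (nat_lit 709) (nat_lit 5) (nat_lit 715) (nat_lit 5) (nat_lit 716) (nat_lit 4) (nat_lit 392) (nat_lit 375) (nat_lit 373)))) (XT.nd (nat_lit 78) (nat_lit 1216) (nat_lit 0) (XT.lf (nat_lit 0) (nat_lit 479270164) (nat_lit 532) (nat_lit 283753245) (nat_lit 76) (nat_lit 5762174706) (nat_lit 708) (nat_lit 5) (nat_lit 715) (nat_lit 5) (nat_lit 709) (nat_lit 5) (nat_lit 393) (nat_lit 375) (nat_lit 372)) (XT.nd (nat_lit 78) (nat_lit 684) (nat_lit 0) (XT.lf (nat_lit 0) (nat_lit 3493015349) (nat_lit 532) (nat_lit 73286502) (nat_lit 608) (nat_lit 2972912699) (nat_lit 701) (nat_lit 5) (nat_lit 708) (nat_lit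 5) (nat_lit 709) (nat_lit 5) (nat_lit 394) (nat_lit 375) (nat_lit 371)) (XT.lf (nat_lit 0) (nat_lit 96610733) (nat_lit 684) (nat_lit 5803517564) (nat_lit 76) (nat_lit 654645775) (nat_lit 692) (nat_lit 5) (nat_lit 701) (nat_lit 5) (nat_lit 693) (nat_lit 5) (nat_lit 395) (nat_lit 375) (nat_lit 370)))))) (XT.nd (nat_lit 468) (nat_lit 4332) (nat_lit 0) (XT.nd (nat_lit 234) (nat_lit 1672) (nat_lit 0) (XT.nd (nat_lit 78) (nat_lit 760) (nat_lit 0) (XT.lf (nat_lit 0) (nat_lit 3136146262) (nat_lit 684) (nat_lit 1974802218) (nat_lit 76) (nat_lit 1460361249) (nat_lit 692) (nat_lit 5) (nat_lit 701) (nat_lit 5) (nat_lit 693) (nat_lit 5) (nat_lit 396) (nat_lit 375) (nat_lit 369)) (XT.nd (nat_lit 78) (nat_lit 76) (nat_lit 0) (XT.lf (nat_lit 0) (nat_lit 1906262177) (nat_lit 684) (nat_lit 4271341360) (nat_lit 760) (nat_lit 411775967) (nat_lit 683) (nat_lit 5) (nat_lit 692) (nat_lit 5) (nat_lit 693) (nat_lit 5) (nat_lit 397) (nat_lit 375) (nat_lit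 368)) (XT.lf (nat_lit 0) (nat_lit 2579718135) (nat_lit 760) (nat_lit 783131846) (nat_lit 76) (nat_lit 3245785053) (nat_lit 682) (nat_lit 5) (nat_lit 692) (nat_lit 5) (nat_lit 683) (nat_lit 5) (nat_lit 398) (nat_lit 375) (nat_lit 367)))) (XT.nd (nat_lit 78) (nat_lit 912) (nat_lit 0) (XT.lf (nat_lit 0) (nat_lit 3185009733) (nat_lit 760) (nat_lit 2391932399) (nat_lit 836) (nat_lit 1052275355) (nat_lit 672) (nat_lit 5) (nat_lit 682) (nat_lit 5) (nat_lit 683) (nat_lit 5) (nat_lit 399) (nat_lit 375) (nat_lit 366)) (XT.nd (nat_lit 78) (nat_lit 0) (nat_lit 0) (XT.lf (nat_lit 0) (nat_lit 537655517) (nat_lit 836) (nat_lit 1360301851) (nat_lit 912) (nat_lit 4753218624) (nat_lit 660) (nat_lit 5) (nat_lit 671) (nat_lit 5) (nat_lit 672) (nat_lit 5) (nat_lit 400) (nat_lit 375) (nat_lit 365)) (XT.lf (nat_lit 0) (nat_lit 4589604000) (nat_lit 836) (nat_lit 258905076) (nat_lit 912) (nat_lit 1825840502) (nat_lit 660) (nat_lit 5) (nat_lit 671)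 (nat_lit 5) (nat_lit 672) (nat_lit 5) (nat_lit 401) (nat_lit 375) (nat_lit 364))))) (XT.nd (nat_lit 234) (nat_lit 2280) (nat_lit 0) (XT.nd (nat_lit 78) (nat_lit 1064) (nat_lit 0) (XT.lf (nat_lit 0) (nat_lit 1096870723) (nat_lit 988) (nat_lit 4710696869) (nat_lit 76) (nat_lit 891250609) (nat_lit 647) (nat_lit 5) (nat_lit 660) (nat_lit 5) (nat_lit 648) (nat_lit 5) (nat_lit 402) (nat_lit 375) (nat_lit 363)) (XT.nd (nat_lit 78) (nat_lit 1064) (nat_lit 0) (XT.lf (nat_lit 0) (nat_lit 4003701398) (nat_lit 988) (nat_lit 616939559) (nat_lit 76) (nat_lit 2103913372) (nat_lit 647) (nat_lit 5) (nat_lit 660) (nat_lit 5) (nat_lit 648) (nat_lit 5) (nat_lit 403) (nat_lit 375) (nat_lit 362)) (XT.lf (nat_lit 0) (nat_lit 173381511) (nat_lit 1064) (nat_lit 3196726262) (nat_lit 76) (nat_lit 3381522540) (nat_lit 633) (nat_lit 5) (nat_lit 647) (nat_lit 5) (nat_lit 634) (nat_lit 5) (nat_lit 404) (nat_lit 375) (nat_lit 361)))) (XT.nd (nat_lit 78) (nat_lit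 1216) (nat_lit 0) (XT.lf (nat_lit 0) (nat_lit 984437432) (nat_lit 1064) (nat_lit 2051310171) (nat_lit 1140) (nat_lit 3744227452) (nat_lit 619) (nat_lit 5) (nat_lit 633) (nat_lit 5) (nat_lit 634) (nat_lit 5) (nat_lit 405) (nat_lit 375) (nat_lit 360)) (XT.nd (nat_lit 78) (nat_lit 1216) (nat_lit 0) (XT.lf (nat_lit 0) (nat_lit 5243074936) (nat_lit 1064) (nat_lit 670755841) (nat_lit 1140) (nat_lit 895906636) (nat_lit 619) (nat_lit 5) (nat_lit 633) (nat_lit 5) (nat_lit 634) (nat_lit 5) (nat_lit 406) (nat_lit 375) (nat_lit 359)) (XT.lf (nat_lit 0) (nat_lit 1943586577) (nat_lit 1216) (nat_lit 4125757347) (nat_lit 76) (nat_lit 771298318) (nat_lit 603) (nat_lit 5) (nat_lit 619) (nat_lit 5) (nat_lit 604) (nat_lit 5) (nat_lit 407) (nat_lit 375) (nat_lit 358))))))) (XT.nd (nat_lit 936) (nat_lit 7752) (nat_lit 0) (XT.nd (nat_lit 468) (nat_lit 6688) (nat_lit 0) (XT.nd (nat_lit 234) (nat_lit 2888) (nat_lit 0) (XT.nd (nat_lit 78) (nat_lit 1368)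 (nat_lit 0) (XT.lf (nat_lit 0) (nat_lit 172809869) (nat_lit 1216) (nat_lit 4610026506) (nat_lit 1292) (nat_lit 2090130051) (nat_lit 587) (nat_lit 5) (nat_lit 603) (nat_lit 5) (nat_lit 604) (nat_lit 5) (nat_lit 408) (nat_lit 375) (nat_lit 357)) (XT.nd (nat_lit 78) (nat_lit 1292) (nat_lit 0) (XT.lf (nat_lit 0) (nat_lit 729928412) (nat_lit 1292) (nat_lit 2348161596) (nat_lit 76) (nat_lit 3828422309) (nat_lit 586) (nat_lit 5) (nat_lit 603) (nat_lit 5) (nat_lit 587) (nat_lit 5) (nat_lit 409) (nat_lit 375) (nat_lit 356)) (XT.lf (nat_lit 0) (nat_lit 2054117915) (nat_lit 1292) (nat_lit 1478099237) (nat_lit 1368) (nat_lit 3409177202) (nat_lit 569) (nat_lit 5) (nat_lit 586) (nat_lit 5) (nat_lit 587) (nat_lit 5) (nat_lit 410) (nat_lit 375) (nat_lit 355)))) (XT.nd (nat_lit 78) (nat_lit 2888) (nat_lit 0) (XT.lf (nat_lit 0) (nat_lit 6348771284) (nat_lit 1368) (nat_lit 452266110) (nat_lit 76) (nat_lit 176789759) (nat_lit 569) (nat_lit 5)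 (nat_lit 587) (nat_lit 5) (nat_lit 570) (nat_lit 5) (nat_lit 411) (nat_lit 375) (nat_lit 354)) (XT.nd (nat_lit 78) (nat_lit 1444) (nat_lit 0) (XT.lf (nat_lit 0) (nat_lit 2156260155) (nat_lit 1444) (nat_lit 2964427536) (nat_lit 76) (nat_lit 1894460543) (nat_lit 550) (nat_lit 5) (nat_lit 569) (nat_lit 5) (nat_lit 551) (nat_lit 5) (nat_lit 412) (nat_lit 375) (nat_lit 353)) (XT.lf (nat_lit 0) (nat_lit 1562824914) (nat_lit 1444) (nat_lit 3382167055) (nat_lit 1520) (nat_lit 2109034460) (nat_lit 531) (nat_lit 5) (nat_lit 550) (nat_lit 5) (nat_lit 551) (nat_lit 5) (nat_lit 413) (nat_lit 375) (nat_lit 352))))) (XT.nd (nat_lit 234) (nat_lit 3496) (nat_lit 0) (XT.nd (nat_lit 78) (nat_lit 3116) (nat_lit 0) (XT.lf (nat_lit 0) (nat_lit 650044295) (nat_lit 1520) (nat_lit 927794873) (nat_lit 76) (nat_lit 5516501450) (nat_lit 530) (nat_lit 5) (nat_lit 550) (nat_lit 5) (nat_lit 531) (nat_lit 5) (nat_lit 414) (nat_lit 375) (nat_lit 351)) (XT.nd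 (nat_lit 78) (nat_lit 1596) (nat_lit 0) (XT.lf (nat_lit 0) (nat_lit 3406626841) (nat_lit 1596) (nat_lit 3425899950) (nat_lit 76) (nat_lit 303259794) (nat_lit 510) (nat_lit 5) (nat_lit 531) (nat_lit 5) (nat_lit 511) (nat_lit 5) (nat_lit 415) (nat_lit 375) (nat_lit 350)) (XT.lf (nat_lit 0) (nat_lit 1230110713) (nat_lit 1596) (nat_lit 4958178264) (nat_lit 1672) (nat_lit 990388780) (nat_lit 489) (nat_lit 5) (nat_lit 510) (nat_lit 5) (nat_lit 511) (nat_lit 5) (nat_lit 416) (nat_lit 375) (nat_lit 349)))) (XT.nd (nat_lit 78) (nat_lit 3420) (nat_lit 0) (XT.lf (nat_lit 0) (nat_lit 1748271003) (nat_lit 1672) (nat_lit 1259044319) (nat_lit 76) (nat_lit 4215516697) (nat_lit 488) (nat_lit 5) (nat_lit 510) (nat_lit 5) (nat_lit 489) (nat_lit 5) (nat_lit 417) (nat_lit 375) (nat_lit 348)) (XT.nd (nat_lit 78) (nat_lit 1748) (nat_lit 0) (XT.lf (nat_lit 0) (nat_lit 3513894987) (nat_lit 1672) (nat_lit 984061185) (nat_lit 1748) (nat_lit 2770406360)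 (nat_lit 466) (nat_lit 5) (nat_lit 488) (nat_lit 5) (nat_lit 489) (nat_lit 5) (nat_lit 418) (nat_lit 375) (nat_lit 347)) (XT.lf (nat_lit 0) (nat_lit 1040650024) (nat_lit 1748) (nat_lit 6231685935) (nat_lit 1824) (nat_lit 43087763) (nat_lit 443) (nat_lit 5) (nat_lit 466) (nat_lit 5) (nat_lit 467) (nat_lit 5) (nat_lit 419) (nat_lit 375) (nat_lit 346)))))) (XT.nd (nat_lit 468) (nat_lit 3344) (nat_lit 0) (XT.nd (nat_lit 234) (nat_lit 1900) (nat_lit 0) (XT.nd (nat_lit 78) (nat_lit 2432) (nat_lit 0) (XT.lf (nat_lit 0) (nat_lit 2682512517) (nat_lit 1824) (nat_lit 1455857120) (nat_lit 76) (nat_lit 3225121302) (nat_lit 442) (nat_lit 5) (nat_lit 466) (nat_lit 5) (nat_lit 443) (nat_lit 5) (nat_lit 420) (nat_lit 375) (nat_lit 345)) (XT.nd (nat_lit 78) (nat_lit 988) (nat_lit 0) (XT.lf (nat_lit 0) (nat_lit 3454426649) (nat_lit 1444) (nat_lit 1978850770) (nat_lit 1520) (nat_lit 1979825065) (nat_lit 423) (nat_lit 5) (nat_lit 442) (nat_lit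 5) (nat_lit 443) (nat_lit 5) (nat_lit 421) (nat_lit 375) (nat_lit 344)) (XT.lf (nat_lit 0) (nat_lit 732087931) (nat_lit 988) (nat_lit 6489452578) (nat_lit 76) (nat_lit 242739717) (nat_lit 410) (nat_lit 5) (nat_lit 423) (nat_lit 5) (nat_lit 411) (nat_lit 5) (nat_lit 422) (nat_lit 375) (nat_lit 343)))) (XT.nd (nat_lit 78) (nat_lit 1900) (nat_lit 0) (XT.lf (nat_lit 0) (nat_lit 3461407428) (nat_lit 988) (nat_lit 1532756977) (nat_lit 76) (nat_lit 2522274331) (nat_lit 410) (nat_lit 5) (nat_lit 423) (nat_lit 5) (nat_lit 411) (nat_lit 5) (nat_lit 423) (nat_lit 375) (nat_lit 342)) (XT.nd (nat_lit 78) (nat_lit 988) (nat_lit 0) (XT.lf (nat_lit 0) (nat_lit 3519151822) (nat_lit 912) (nat_lit 2699801944) (nat_lit 988) (nat_lit 1351226102) (nat_lit 398) (nat_lit 5) (nat_lit 410) (nat_lit 5) (nat_lit 411) (nat_lit 5) (nat_lit 424) (nat_lit 375) (nat_lit 341)) (XT.lf (nat_lit 0) (nat_lit 1021879468) (nat_lit 912) (nat_lit 334415821) (nat_lit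 988) (nat_lit 6269167888) (nat_lit 385) (nat_lit 5) (nat_lit 397) (nat_lit 5) (nat_lit 398) (nat_lit 5) (nat_lit 425) (nat_lit 375) (nat_lit 340))))) (XT.nd (nat_lit 234) (nat_lit 1596) (nat_lit 0) (XT.nd (nat_lit 78) (nat_lit 1748) (nat_lit 0) (XT.lf (nat_lit 0) (nat_lit 4092471347) (nat_lit 988) (nat_lit 1503813407) (nat_lit 76) (nat_lit 2085548378) (nat_lit 385) (nat_lit 5) (nat_lit 398) (nat_lit 5) (nat_lit 386) (nat_lit 5) (nat_lit 426) (nat_lit 375) (nat_lit 339)) (XT.nd (nat_lit 78) (nat_lit 912) (nat_lit 0) (XT.lf (nat_lit 0) (nat_lit 3694147107) (nat_lit 836) (nat_lit 3168092094) (nat_lit 912) (nat_lit 877525247) (nat_lit 374) (nat_lit 5) (nat_lit 385) (nat_lit 5) (nat_lit 386) (nat_lit 5) (nat_lit 427) (nat_lit 375) (nat_lit 338)) (XT.lf (nat_lit 0) (nat_lit 1170474477) (nat_lit 836) (nat_lit 664016257) (nat_lit 912) (nat_lit 5964715084) (nat_lit 362) (nat_lit 5) (nat_lit 373) (nat_lit 5) (nat_lit 374) (nat_lit 5)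 (nat_lit 428) (nat_lit 375) (nat_lit 337)))) (XT.nd (nat_lit 78) (nat_lit 1596) (nat_lit 0) (XT.lf (nat_lit 0) (nat_lit 4582136254) (nat_lit 912) (nat_lit 1382760856) (nat_lit 76) (nat_lit 1894970784) (nat_lit 362) (nat_lit 5) (nat_lit 374) (nat_lit 5) (nat_lit 363) (nat_lit 5) (nat_lit 429) (nat_lit 375) (nat_lit 336)) (XT.nd (nat_lit 78) (nat_lit 836) (nat_lit 0) (XT.lf (nat_lit 0) (nat_lit 3965810484) (nat_lit 760) (nat_lit 3403509779) (nat_lit 836) (nat_lit 552741703) (nat_lit 352) (nat_lit 5) (nat_lit 362) (nat_lit 5) (nat_lit 363) (nat_lit 5) (nat_lit 430) (nat_lit 375) (nat_lit 335)) (XT.lf (nat_lit 0) (nat_lit 1408519671) (nat_lit 760) (nat_lit 762212364) (nat_lit 836) (nat_lit 5815025029) (nat_lit 341) (nat_lit 5) (nat_lit 351) (nat_lit 5) (nat_lit 352) (nat_lit 5) (nat_lit 431) (nat_lit 375) (nat_lit 334))))))))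
noncomputable def xc75 : XT := (XT.nd (nat_lit 1794) (nat_lit 6992) (nat_lit 0) (XT.nd (nat_lit 858) (nat_lit 4788) (nat_lit 0) (XT.nd (nat_lit 390) (nat_lit 2812) (nat_lit 0) (XT.nd (nat_lit 156) (nat_lit 1520) (nat_lit 0) (XT.nd (nat_lit 78) (nat_lit 760) (nat_lit 0) (XT.lf (nat_lit 0) (nat_lit 4935782036) (nat_lit 836) (nat_lit 1183118049) (nat_lit 76) (nat_lit 1931872608) (nat_lit 341) (nat_lit 5) (nat_lit 352) (nat_lit 5) (nat_lit 342) (nat_lit 5) (nat_lit 432) (nat_lit 375) (nat_lit 333)) (XT.lf (nat_lit 0) (nat_lit 4320740828) (nat_lit 760) (nat_lit 3424604345) (nat_lit 836) (nat_lit 371968887) (nat_lit 331) (nat_lit 5) (nat_lit 341) (nat_lit 5) (nat_lit 342) (nat_lit 5) (nat_lit 433) (nat_lit 375) (nat_lit 332))) (XT.nd (nat_lit 78) (nat_lit 684) (nat_lit 0) (XT.lf (nat_lit 0) (nat_lit 1722449594) (nat_lit 760) (nat_lit 647177064) (nat_lit 836) (nat_lit 5815743283) (nat_lit 320) (nat_lit 5) (nat_lit 330) (nat_lit 5)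 (nat_lit 331) (nat_lit 5) (nat_lit 434) (nat_lit 375) (nat_lit 331)) (XT.nd (nat_lit 78) (nat_lit 684) (nat_lit 0) (XT.lf (nat_lit 0) (nat_lit 5157760315) (nat_lit 836) (nat_lit 918308550) (nat_lit 76) (nat_lit 2178744276) (nat_lit 320) (nat_lit 5) (nat_lit 331) (nat_lit 5) (nat_lit 321) (nat_lit 5) (nat_lit 435) (nat_lit 375) (nat_lit 330)) (XT.lf (nat_lit 0) (nat_lit 4745615984) (nat_lit 684) (nat_lit 3248829290) (nat_lit 760) (nat_lit 331353088) (nat_lit 311) (nat_lit 5) (nat_lit 320) (nat_lit 5) (nat_lit 321) (nat_lit 5) (nat_lit 436) (nat_lit 375) (nat_lit 329))))) (XT.nd (nat_lit 234) (nat_lit 1368) (nat_lit 0) (XT.nd (nat_lit 78) (nat_lit 684) (nat_lit 0) (XT.lf (nat_lit 0) (nat_lit 2098731631) (nat_lit 684) (nat_lit 336021817) (nat_lit 760) (nat_lit 5963580233) (nat_lit 301) (nat_lit 5) (nat_lit 310) (nat_lit 5) (nat_lit 311) (nat_lit 5) (nat_lit 437) (nat_lit 375) (nat_lit 328)) (XT.nd (nat_lit 78) (nat_lit 684) (nat_lit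 0) (XT.lf (nat_lit 0) (nat_lit 5251410603) (nat_lit 760) (nat_lit 601783533) (nat_lit 76) (nat_lit 2619096875) (nat_lit 301) (nat_lit 5) (nat_lit 311) (nat_lit 5) (nat_lit 302) (nat_lit 5) (nat_lit 438) (nat_lit 375) (nat_lit 327)) (XT.lf (nat_lit 0) (nat_lit 5227068392) (nat_lit 684) (nat_lit 2892680417) (nat_lit 760) (nat_lit 428079971) (nat_lit 292) (nat_lit 5) (nat_lit 301) (nat_lit 5) (nat_lit 302) (nat_lit 5) (nat_lit 439) (nat_lit 375) (nat_lit 326)))) (XT.nd (nat_lit 78) (nat_lit 608) (nat_lit 0) (XT.lf (nat_lit 0) (nat_lit 2369680332) (nat_lit 760) (nat_lit 6102241280) (nat_lit 76) (nat_lit 153032303) (nat_lit 282) (nat_lit 5) (nat_lit 292) (nat_lit 5) (nat_lit 283) (nat_lit 5) (nat_lit 440) (nat_lit 375) (nat_lit 325)) (XT.nd (nat_lit 78) (nat_lit 608) (nat_lit 0) (XT.lf (nat_lit 0) (nat_lit 5219068755) (nat_lit 760) (nat_lit 247147819) (nat_lit 76) (nat_lit 3237328063) (nat_lit 282) (nat_lit 5) (nat_lit 292) (nat_lit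 5) (nat_lit 283) (nat_lit 5) (nat_lit 441) (nat_lit 375) (nat_lit 324)) (XT.lf (nat_lit 0) (nat_lit 5751557195) (nat_lit 608) (nat_lit 2371829789) (nat_lit 684) (nat_lit 660368972) (nat_lit 274) (nat_lit 5) (nat_lit 282) (nat_lit 5) (nat_lit 283) (nat_lit 5) (nat_lit 442) (nat_lit 375) (nat_lit 323)))))) (XT.nd (nat_lit 468) (nat_lit 2280) (nat_lit 0) (XT.nd (nat_lit 234) (nat_lit 1216) (nat_lit 0) (XT.nd (nat_lit 78) (nat_lit 608) (nat_lit 0) (XT.lf (nat_lit 0) (nat_lit 2178197008) (nat_lit 684) (nat_lit 5887294219) (nat_lit 76) (nat_lit 800057389) (nat_lit 265) (nat_lit 5) (nat_lit 274) (nat_lit 5) (nat_lit 266) (nat_lit 5) (nat_lit 443) (nat_lit 375) (nat_lit 322)) (XT.nd (nat_lit 78) (nat_lit 0) (nat_lit 0) (XT.lf (nat_lit 0) (nat_lit 133460092) (nat_lit 608) (nat_lit 4929474063) (nat_lit 684) (nat_lit 3885998015) (nat_lit 257) (nat_lit 5) (nat_lit 265) (nat_lit 5) (nat_lit 266) (nat_lit 5) (nat_lit 444) (nat_lit 375) (nat_lit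 321)) (XT.lf (nat_lit 0) (nat_lit 6305235706) (nat_lit 608) (nat_lit 1701256507) (nat_lit 684) (nat_lit 1027475698) (nat_lit 257) (nat_lit 5) (nat_lit 265) (nat_lit 5) (nat_lit 266) (nat_lit 5) (nat_lit 445) (nat_lit 375) (nat_lit 320)))) (XT.nd (nat_lit 78) (nat_lit 532) (nat_lit 0) (XT.lf (nat_lit 0) (nat_lit 1858553223) (nat_lit 684) (nat_lit 5667093693) (nat_lit 76) (nat_lit 1594917023) (nat_lit 248) (nat_lit 5) (nat_lit 257) (nat_lit 5) (nat_lit 249) (nat_lit 5) (nat_lit 446) (nat_lit 375) (nat_lit 319)) (XT.nd (nat_lit 78) (nat_lit 0) (nat_lit 0) (XT.lf (nat_lit 0) (nat_lit 527397295) (nat_lit 532) (nat_lit 4256756810) (nat_lit 608) (nat_lit 4424696400) (nat_lit 241) (nat_lit 5) (nat_lit 248) (nat_lit 5) (nat_lit 249) (nat_lit 5) (nat_lit 447) (nat_lit 375) (nat_lit 318)) (XT.lf (nat_lit 0) (nat_lit 6873813079) (nat_lit 532) (nat_lit 895375304) (nat_lit 608) (nat_lit 1529702498) (nat_lit 241) (nat_lit 5) (nat_lit 248)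 (nat_lit 5) (nat_lit 249) (nat_lit 5) (nat_lit 448) (nat_lit 375) (nat_lit 317))))) (XT.nd (nat_lit 234) (nat_lit 1064) (nat_lit 0) (XT.nd (nat_lit 78) (nat_lit 532) (nat_lit 0) (XT.lf (nat_lit 0) (nat_lit 1410151451) (nat_lit 684) (nat_lit 5456697403) (nat_lit 76) (nat_lit 2523592147) (nat_lit 232) (nat_lit 5) (nat_lit 241) (nat_lit 5) (nat_lit 233) (nat_lit 5) (nat_lit 449) (nat_lit 375) (nat_lit 316)) (XT.nd (nat_lit 78) (nat_lit 0) (nat_lit 0) (XT.lf (nat_lit 0) (nat_lit 916310436) (nat_lit 532) (nat_lit 3463991331) (nat_lit 608) (nat_lit 5103484621) (nat_lit 225) (nat_lit 5) (nat_lit 232) (nat_lit 5) (nat_lit 233) (nat_lit 5) (nat_lit 450) (nat_lit 375) (nat_lit 315)) (XT.lf (nat_lit 0) (nat_lit 7410779585) (nat_lit 608) (nat_lit 2136788121) (nat_lit 76) (nat_lit 31418496) (nat_lit 225) (nat_lit 5) (nat_lit 233) (nat_lit 5) (nat_lit 226) (nat_lit 5) (nat_lit 451) (nat_lit 375) (nat_lit 314)))) (XT.nd (nat_lit 78) (nat_lit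 456) (nat_lit 0) (XT.lf (nat_lit 0) (nat_lit 831343037) (nat_lit 608) (nat_lit 5271855751) (nat_lit 76) (nat_lit 3572461848) (nat_lit 217) (nat_lit 5) (nat_lit 225) (nat_lit 5) (nat_lit 218) (nat_lit 5) (nat_lit 452) (nat_lit 375) (nat_lit 313)) (XT.nd (nat_lit 78) (nat_lit 0) (nat_lit 0) (XT.lf (nat_lit 0) (nat_lit 1284408046) (nat_lit 456) (nat_lit 2565114044) (nat_lit 532) (nat_lit 5924712082) (nat_lit 211) (nat_lit 5) (nat_lit 217) (nat_lit 5) (nat_lit 218) (nat_lit 5) (nat_lit 453) (nat_lit 375) (nat_lit 312)) (XT.lf (nat_lit 0) (nat_lit 6935615910) (nat_lit 532) (nat_lit 1886298500) (nat_lit 76) (nat_lit 1052719297) (nat_lit 211) (nat_lit 5) (nat_lit 218) (nat_lit 5) (nat_lit 212) (nat_lit 5) (nat_lit 454) (nat_lit 375) (nat_lit 311))))))) (XT.nd (nat_lit 936) (nat_lit 3116) (nat_lit 0) (XT.nd (nat_lit 468) (nat_lit 1824) (nat_lit 0) (XT.nd (nat_lit 234) (nat_lit 988) (nat_lit 0) (XT.nd (nat_lit 78) (nat_lit 456) (nat_lit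 0) (XT.lf (nat_lit 0) (nat_lit 119397278) (nat_lit 608) (nat_lit 5129170453) (nat_lit 76) (nat_lit 4728176981) (nat_lit 203) (nat_lit 5) (nat_lit 211) (nat_lit 5) (nat_lit 204) (nat_lit 5) (nat_lit 455) (nat_lit 375) (nat_lit 310)) (XT.nd (nat_lit 78) (nat_lit 0) (nat_lit 0) (XT.lf (nat_lit 0) (nat_lit 1615013967) (nat_lit 456) (nat_lit 1573858200) (nat_lit 532) (nat_lit 6891857565) (nat_lit 197) (nat_lit 5) (nat_lit 203) (nat_lit 5) (nat_lit 204) (nat_lit 5) (nat_lit 456) (nat_lit 375) (nat_lit 309)) (XT.lf (nat_lit 0) (nat_lit 6334752441) (nat_lit 532) (nat_lit 1684786450) (nat_lit 76) (nat_lit 2166960374) (nat_lit 197) (nat_lit 5) (nat_lit 204) (nat_lit 5) (nat_lit 198) (nat_lit 5) (nat_lit 457) (nat_lit 375) (nat_lit 308)))) (XT.nd (nat_lit 78) (nat_lit 532) (nat_lit 0) (XT.lf (nat_lit 0) (nat_lit 5243098334) (nat_lit 456) (nat_lit 4311829517) (nat_lit 532) (nat_lit 739233816) (nat_lit 191) (nat_lit 5) (nat_lit 197) (nat_lit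 5) (nat_lit 198) (nat_lit 5) (nat_lit 458) (nat_lit 375) (nat_lit 307)) (XT.nd (nat_lit 78) (nat_lit 0) (nat_lit 0) (XT.lf (nat_lit 0) (nat_lit 1890394199) (nat_lit 456) (nat_lit 503884065) (nat_lit 532) (nat_lit 8009573803) (nat_lit 184) (nat_lit 5) (nat_lit 190) (nat_lit 5) (nat_lit 191) (nat_lit 5) (nat_lit 459) (nat_lit 375) (nat_lit 306)) (XT.lf (nat_lit 0) (nat_lit 5603924803) (nat_lit 532) (nat_lit 1550368531) (nat_lit 76) (nat_lit 3360882701) (nat_lit 184) (nat_lit 5) (nat_lit 191) (nat_lit 5) (nat_lit 185) (nat_lit 5) (nat_lit 460) (nat_lit 375) (nat_lit 305))))) (XT.nd (nat_lit 234) (nat_lit 912) (nat_lit 0) (XT.nd (nat_lit 78) (nat_lit 456) (nat_lit 0) (XT.lf (nat_lit 0) (nat_lit 5575303139) (nat_lit 456) (nat_lit 3309925019) (nat_lit 532) (nat_lit 1743353694) (nat_lit 178) (nat_lit 5) (nat_lit 184) (nat_lit 5) (nat_lit 185) (nat_lit 5) (nat_lit 461) (nat_lit 375) (nat_lit 304)) (XT.nd (nat_lit 78) (nat_lit 0) (nat_lit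 0) (XT.lf (nat_lit 0) (nat_lit 1464580489) (nat_lit 456) (nat_lit 8656751462) (nat_lit 76) (nat_lit 622811237) (nat_lit 172) (nat_lit 5) (nat_lit 178) (nat_lit 5) (nat_lit 173) (nat_lit 5) (nat_lit 462) (nat_lit 375) (nat_lit 303)) (XT.lf (nat_lit 0) (nat_lit 4737680246) (nat_lit 456) (nat_lit 1502475886) (nat_lit 76) (nat_lit 4621146517) (nat_lit 172) (nat_lit 5) (nat_lit 178) (nat_lit 5) (nat_lit 173) (nat_lit 5) (nat_lit 463) (nat_lit 375) (nat_lit 302)))) (XT.nd (nat_lit 78) (nat_lit 456) (nat_lit 0) (XT.lf (nat_lit 0) (nat_lit 5825381770) (nat_lit 456) (nat_lit 2257578362) (nat_lit 532) (nat_lit 2897715097) (nat_lit 166) (nat_lit 5) (nat_lit 172) (nat_lit 5) (nat_lit 173) (nat_lit 5) (nat_lit 464) (nat_lit 375) (nat_lit 301)) (XT.nd (nat_lit 78) (nat_lit 0) (nat_lit 0) (XT.lf (nat_lit 0) (nat_lit 392780454) (nat_lit 456) (nat_lit 8916194767) (nat_lit 76) (nat_lit 1793308761) (nat_lit 160) (nat_lit 5) (nat_lit 166) (nat_lit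 5) (nat_lit 161) (nat_lit 5) (nat_lit 465) (nat_lit 375) (nat_lit 300)) (XT.lf (nat_lit 0) (nat_lit 3729311523) (nat_lit 456) (nat_lit 1562058131) (nat_lit 76) (nat_lit 5934195702) (nat_lit 160) (nat_lit 5) (nat_lit 166) (nat_lit 5) (nat_lit 161) (nat_lit 5) (nat_lit 466) (nat_lit 375) (nat_lit 299)))))) (XT.nd (nat_lit 468) (nat_lit 1444) (nat_lit 0) (XT.nd (nat_lit 234) (nat_lit 836) (nat_lit 0) (XT.nd (nat_lit 78) (nat_lit 456) (nat_lit 0) (XT.lf (nat_lit 0) (nat_lit 5972157846) (nat_lit 380) (nat_lit 1169009258) (nat_lit 456) (nat_lit 4209977342) (nat_lit 155) (nat_lit 5) (nat_lit 160) (nat_lit 5) (nat_lit 161) (nat_lit 5) (nat_lit 467) (nat_lit 375) (nat_lit 298)) (XT.nd (nat_lit 78) (nat_lit 76) (nat_lit 0) (XT.lf (nat_lit 0) (nat_lit 2162250990) (nat_lit 380) (nat_lit 8473329383) (nat_lit 456) (nat_lit 843372221) (nat_lit 150) (nat_lit 5) (nat_lit 155) (nat_lit 5) (nat_lit 156) (nat_lit 5) (nat_lit 468) (nat_lit 375)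 (nat_lit 297)) (XT.lf (nat_lit 0) (nat_lit 2570779472) (nat_lit 456) (nat_lit 1751804180) (nat_lit 76) (nat_lit 7286116794) (nat_lit 149) (nat_lit 5) (nat_lit 155) (nat_lit 5) (nat_lit 150) (nat_lit 5) (nat_lit 469) (nat_lit 375) (nat_lit 296)))) (XT.nd (nat_lit 78) (nat_lit 456) (nat_lit 0) (XT.lf (nat_lit 0) (nat_lit 5992659967) (nat_lit 380) (nat_lit 58879903) (nat_lit 456) (nat_lit 5689203185) (nat_lit 144) (nat_lit 5) (nat_lit 149) (nat_lit 5) (nat_lit 150) (nat_lit 5) (nat_lit 470) (nat_lit 375) (nat_lit 295)) (XT.nd (nat_lit 78) (nat_lit 76) (nat_lit 0) (XT.lf (nat_lit 0) (nat_lit 1993855788) (nat_lit 380) (nat_lit 7631577959) (nat_lit 456) (nat_lit 2249525997) (nat_lit 139) (nat_lit 5) (nat_lit 144) (nat_lit 5) (nat_lit 145) (nat_lit 5) (nat_lit 471) (nat_lit 375) (nat_lit 294)) (XT.lf (nat_lit 0) (nat_lit 1252623439) (nat_lit 456) (nat_lit 2096382136) (nat_lit 76) (nat_lit 8662491366) (nat_lit 138) (nat_lit 5) (nat_lit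 144) (nat_lit 5) (nat_lit 139) (nat_lit 5) (nat_lit 472) (nat_lit 375) (nat_lit 293))))) (XT.nd (nat_lit 234) (nat_lit 760) (nat_lit 0) (XT.nd (nat_lit 78) (nat_lit 304) (nat_lit 0) (XT.lf (nat_lit 0) (nat_lit 4811189505) (nat_lit 456) (nat_lit 6295269437) (nat_lit 76) (nat_lit 1043682042) (nat_lit 133) (nat_lit 5) (nat_lit 139) (nat_lit 5) (nat_lit 134) (nat_lit 5) (nat_lit 473) (nat_lit 375) (nat_lit 292)) (XT.nd (nat_lit 78) (nat_lit 0) (nat_lit 0) (XT.lf (nat_lit 0) (nat_lit 1657440523) (nat_lit 304) (nat_lit 6802300136) (nat_lit 380) (nat_lit 3831444291) (nat_lit 129) (nat_lit 5) (nat_lit 133) (nat_lit 5) (nat_lit 134) (nat_lit 5) (nat_lit 474) (nat_lit 375) (nat_lit 291)) (XT.lf (nat_lit 0) (nat_lit 9810514406) (nat_lit 304) (nat_lit 2384974547) (nat_lit 380) (nat_lit 239279574) (nat_lit 129) (nat_lit 5) (nat_lit 133) (nat_lit 5) (nat_lit 134) (nat_lit 5) (nat_lit 475) (nat_lit 375) (nat_lit 290)))) (XT.nd (nat_lit 78)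 (nat_lit 304) (nat_lit 0) (XT.lf (nat_lit 0) (nat_lit 3402260645) (nat_lit 456) (nat_lit 7042185717) (nat_lit 76) (nat_lit 2135886865) (nat_lit 123) (nat_lit 5) (nat_lit 129) (nat_lit 5) (nat_lit 124) (nat_lit 5) (nat_lit 476) (nat_lit 375) (nat_lit 289)) (XT.nd (nat_lit 78) (nat_lit 0) (nat_lit 0) (XT.lf (nat_lit 0) (nat_lit 1124471137) (nat_lit 304) (nat_lit 6002286069) (nat_lit 380) (nat_lit 5601756860) (nat_lit 119) (nat_lit 5) (nat_lit 123) (nat_lit 5) (nat_lit 124) (nat_lit 5) (nat_lit 477) (nat_lit 375) (nat_lit 288)) (XT.lf (nat_lit 0) (nat_lit 9506513940) (nat_lit 304) (nat_lit 1439248240) (nat_lit 380) (nat_lit 1933498977) (nat_lit 119) (nat_lit 5) (nat_lit 123) (nat_lit 5) (nat_lit 124) (nat_lit 5) (nat_lit 478) (nat_lit 375) (nat_lit 287))))))))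
noncomputable def xc76 : XT := (XT.nd (nat_lit 1794) (nat_lit 608) (nat_lit 0) (XT.nd (nat_lit 858) (nat_lit 2204) (nat_lit 0) (XT.nd (nat_lit 390) (nat_lit 1216) (nat_lit 0) (XT.nd (nat_lit 156) (nat_lit 380) (nat_lit 0) (XT.nd (nat_lit 78) (nat_lit 304) (nat_lit 0) (XT.lf (nat_lit 0) (nat_lit 1811278234) (nat_lit 380) (nat_lit 8019190642) (nat_lit 76) (nat_lit 3201785050) (nat_lit 114) (nat_lit 5) (nat_lit 119) (nat_lit 5) (nat_lit 115) (nat_lit 5) (nat_lit 479) (nat_lit 375) (nat_lit 286)) (XT.lf (nat_lit 0) (nat_lit 363674037) (nat_lit 304) (nat_lit 5249349553) (nat_lit 380) (nat_lit 7574870942) (nat_lit 110) (nat_lit 5) (nat_lit 114) (nat_lit 5) (nat_lit 115) (nat_lit 5) (nat_lit 480) (nat_lit 375) (nat_lit 285))) (XT.nd (nat_lit 78) (nat_lit 380) (nat_lit 0) (XT.lf (nat_lit 0) (nat_lit 8980117337) (nat_lit 304) (nat_lit 538008506) (nat_lit 380) (nat_lit 3827978444) (nat_lit 110) (nat_lit 5) (nat_lit 114) (nat_lit 5) (nat_lit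 115) (nat_lit 5) (nat_lit 481) (nat_lit 375) (nat_lit 284)) (XT.nd (nat_lit 78) (nat_lit 0) (nat_lit 0) (XT.lf (nat_lit 0) (nat_lit 23330467) (nat_lit 380) (nat_lit 9260006660) (nat_lit 76) (nat_lit 4223556619) (nat_lit 105) (nat_lit 5) (nat_lit 110) (nat_lit 5) (nat_lit 106) (nat_lit 5) (nat_lit 482) (nat_lit 375) (nat_lit 283)) (XT.lf (nat_lit 0) (nat_lit 3907500961) (nat_lit 380) (nat_lit 650650309) (nat_lit 76) (nat_lit 9112102441) (nat_lit 105) (nat_lit 5) (nat_lit 110) (nat_lit 5) (nat_lit 106) (nat_lit 5) (nat_lit 483) (nat_lit 375) (nat_lit 282))))) (XT.nd (nat_lit 234) (nat_lit 532) (nat_lit 0) (XT.nd (nat_lit 78) (nat_lit 380) (nat_lit 0) (XT.lf (nat_lit 0) (nat_lit 7899018996) (nat_lit 380) (nat_lit 5641477618) (nat_lit 76) (nat_lit 295793543) (nat_lit 101) (nat_lit 5) (nat_lit 106) (nat_lit 5) (nat_lit 102) (nat_lit 5) (nat_lit 484) (nat_lit 375) (nat_lit 281)) (XT.nd (nat_lit 78) (nat_lit 76) (nat_lit 0) (XT.lf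 (nat_lit 0) (nat_lit 3190342787) (nat_lit 304) (nat_lit 8809946524) (nat_lit 380) (nat_lit 2004762099) (nat_lit 97) (nat_lit 5) (nat_lit 101) (nat_lit 5) (nat_lit 102) (nat_lit 5) (nat_lit 485) (nat_lit 375) (nat_lit 280)) (XT.lf (nat_lit 0) (nat_lit 1992876840) (nat_lit 380) (nat_lit 1956229456) (nat_lit 76) (nat_lit 10227567592) (nat_lit 96) (nat_lit 5) (nat_lit 101) (nat_lit 5) (nat_lit 97) (nat_lit 5) (nat_lit 486) (nat_lit 375) (nat_lit 279)))) (XT.nd (nat_lit 78) (nat_lit 304) (nat_lit 0) (XT.lf (nat_lit 0) (nat_lit 6071890317) (nat_lit 304) (nat_lit 7239347002) (nat_lit 76) (nat_lit 1039663527) (nat_lit 93) (nat_lit 5) (nat_lit 97) (nat_lit 5) (nat_lit 94) (nat_lit 5) (nat_lit 487) (nat_lit 375) (nat_lit 278)) (XT.nd (nat_lit 78) (nat_lit 0) (nat_lit 0) (XT.lf (nat_lit 0) (nat_lit 1815335631) (nat_lit 304) (nat_lit 8443602161) (nat_lit 380) (nat_lit 4269147801) (nat_lit 89) (nat_lit 5) (nat_lit 93) (nat_lit 5) (nat_lit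 94) (nat_lit 5) (nat_lit 488) (nat_lit 375) (nat_lit 277)) (XT.lf (nat_lit 0) (nat_lit 11108420437) (nat_lit 304) (nat_lit 3445404950) (nat_lit 380) (nat_lit 154508941) (nat_lit 89) (nat_lit 5) (nat_lit 93) (nat_lit 5) (nat_lit 94) (nat_lit 5) (nat_lit 489) (nat_lit 375) (nat_lit 276)))))) (XT.nd (nat_lit 468) (nat_lit 1064) (nat_lit 0) (XT.nd (nat_lit 234) (nat_lit 532) (nat_lit 0) (XT.nd (nat_lit 78) (nat_lit 304) (nat_lit 0) (XT.lf (nat_lit 0) (nat_lit 4013318742) (nat_lit 304) (nat_lit 9199064505) (nat_lit 76) (nat_lit 1678803796) (nat_lit 85) (nat_lit 5) (nat_lit 89) (nat_lit 5) (nat_lit 86) (nat_lit 5) (nat_lit 490) (nat_lit 375) (nat_lit 275)) (XT.nd (nat_lit 78) (nat_lit 0) (nat_lit 0) (XT.lf (nat_lit 0) (nat_lit 78151798) (nat_lit 304) (nat_lit 8207873206) (nat_lit 380) (nat_lit 6791181711) (nat_lit 81) (nat_lit 5) (nat_lit 85) (nat_lit 5) (nat_lit 86) (nat_lit 5) (nat_lit 491) (nat_lit 375) (nat_lit 274)) (XT.lf (nat_lit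 0) (nat_lit 9625417813) (nat_lit 304) (nat_lit 3056655831) (nat_lit 380) (nat_lit 2584117476) (nat_lit 81) (nat_lit 5) (nat_lit 85) (nat_lit 5) (nat_lit 86) (nat_lit 5) (nat_lit 492) (nat_lit 375) (nat_lit 273)))) (XT.nd (nat_lit 78) (nat_lit 228) (nat_lit 0) (XT.lf (nat_lit 0) (nat_lit 1700926462) (nat_lit 304) (nat_lit 11568014241) (nat_lit 76) (nat_lit 2189470318) (nat_lit 77) (nat_lit 5) (nat_lit 81) (nat_lit 5) (nat_lit 78) (nat_lit 5) (nat_lit 493) (nat_lit 375) (nat_lit 272)) (XT.nd (nat_lit 78) (nat_lit 228) (nat_lit 0) (XT.lf (nat_lit 0) (nat_lit 6072017138) (nat_lit 304) (nat_lit 2042492173) (nat_lit 76) (nat_lit 7538927427) (nat_lit 77) (nat_lit 5) (nat_lit 81) (nat_lit 5) (nat_lit 78) (nat_lit 5) (nat_lit 494) (nat_lit 375) (nat_lit 271)) (XT.lf (nat_lit 0) (nat_lit 7735960069) (nat_lit 228) (nat_lit 2821824833) (nat_lit 304) (nat_lit 5294034907) (nat_lit 74) (nat_lit 5) (nat_lit 77) (nat_lit 5) (nat_lit 78) (nat_lit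 5) (nat_lit 495) (nat_lit 375) (nat_lit 270))))) (XT.nd (nat_lit 234) (nat_lit 532) (nat_lit 0) (XT.nd (nat_lit 78) (nat_lit 304) (nat_lit 0) (XT.lf (nat_lit 0) (nat_lit 1649448403) (nat_lit 228) (nat_lit 13502178609) (nat_lit 304) (nat_lit 902178255) (nat_lit 71) (nat_lit 5) (nat_lit 74) (nat_lit 5) (nat_lit 75) (nat_lit 5) (nat_lit 496) (nat_lit 375) (nat_lit 269)) (XT.nd (nat_lit 78) (nat_lit 228) (nat_lit 0) (XT.lf (nat_lit 0) (nat_lit 3581272791) (nat_lit 304) (nat_lit 4620124903) (nat_lit 76) (nat_lit 8056956480) (nat_lit 70) (nat_lit 5) (nat_lit 74) (nat_lit 5) (nat_lit 71) (nat_lit 5) (nat_lit 497) (nat_lit 375) (nat_lit 268)) (XT.lf (nat_lit 0) (nat_lit 5386041035) (nat_lit 228) (nat_lit 2768867482) (nat_lit 304) (nat_lit 8311716153) (nat_lit 67) (nat_lit 5) (nat_lit 70) (nat_lit 5) (nat_lit 71) (nat_lit 5) (nat_lit 498) (nat_lit 375) (nat_lit 267)))) (XT.nd (nat_lit 78) (nat_lit 532) (nat_lit 0) (XT.lf (nat_lit 0)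 (nat_lit 12846927706) (nat_lit 304) (nat_lit 1080192331) (nat_lit 76) (nat_lit 2751404086) (nat_lit 67) (nat_lit 5) (nat_lit 71) (nat_lit 5) (nat_lit 68) (nat_lit 5) (nat_lit 499) (nat_lit 375) (nat_lit 266)) (XT.nd (nat_lit 78) (nat_lit 228) (nat_lit 0) (XT.lf (nat_lit 0) (nat_lit 784923649) (nat_lit 304) (nat_lit 7714126891) (nat_lit 76) (nat_lit 8394387298) (nat_lit 63) (nat_lit 5) (nat_lit 67) (nat_lit 5) (nat_lit 64) (nat_lit 5) (nat_lit 500) (nat_lit 375) (nat_lit 265)) (XT.lf (nat_lit 0) (nat_lit 2515923283) (nat_lit 228) (nat_lit 2928404836) (nat_lit 304) (nat_lit 11667779649) (nat_lit 60) (nat_lit 5) (nat_lit 63) (nat_lit 5) (nat_lit 64) (nat_lit 5) (nat_lit 501) (nat_lit 375) (nat_lit 264))))))) (XT.nd (nat_lit 50934) (nat_lit 0) (nat_lit 43092) (XT.nd (nat_lit 50466) (nat_lit 0) (nat_lit 49856) (XT.nd (nat_lit 156) (nat_lit 456) (nat_lit 0) (XT.nd (nat_lit 78) (nat_lit 152) (nat_lit 0) (XT.lf (nat_lit 0) (nat_lit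 10245168122) (nat_lit 304) (nat_lit 4335070525) (nat_lit 76) (nat_lit 2753949126) (nat_lit 60) (nat_lit 5) (nat_lit 64) (nat_lit 5) (nat_lit 61) (nat_lit 5) (nat_lit 502) (nat_lit 375) (nat_lit 263)) (XT.lf (nat_lit 0) (nat_lit 6155470187) (nat_lit 152) (nat_lit 9024600039) (nat_lit 228) (nat_lit 2379879842) (nat_lit 58) (nat_lit 5) (nat_lit 60) (nat_lit 5) (nat_lit 61) (nat_lit 5) (nat_lit 503) (nat_lit 375) (nat_lit 262))) (XT.nd (nat_lit 78) (nat_lit 380) (nat_lit 0) (XT.lf (nat_lit 0) (nat_lit 2399665529) (nat_lit 228) (nat_lit 928160524) (nat_lit 76) (nat_lit 14461928264) (nat_lit 57) (nat_lit 5) (nat_lit 60) (nat_lit 5) (nat_lit 58) (nat_lit 5) (nat_lit 504) (nat_lit 375) (nat_lit 261)) (XT.nd (nat_lit 78) (nat_lit 152) (nat_lit 0) (XT.lf (nat_lit 0) (nat_lit 7302504020) (nat_lit 304) (nat_lit 8205065855) (nat_lit 76) (nat_lit 2515080283) (nat_lit 54) (nat_lit 5) (nat_lit 58) (nat_lit 5) (nat_lit 55) (nat_lit 5) (nat_lit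 505) (nat_lit 375) (nat_lit 260)) (XT.lf (nat_lit 0) (nat_lit 2505001844) (nat_lit 152) (nat_lit 9822183628) (nat_lit 228) (nat_lit 5932544193) (nat_lit 52) (nat_lit 5) (nat_lit 54) (nat_lit 5) (nat_lit 55) (nat_lit 5) (nat_lit 506) (nat_lit 375) (nat_lit 259))))) (XT.nd (nat_lit 234) (nat_lit 532) (nat_lit 0) (XT.nd (nat_lit 78) (nat_lit 456) (nat_lit 0) (XT.lf (nat_lit 0) (nat_lit 236933417) (nat_lit 380) (nat_lit 2762698615) (nat_lit 0) (nat_lit 236933417) (nat_lit 721) (nat_lit 5) (nat_lit 726) (nat_lit 4) (nat_lit 721) (nat_lit 4) (nat_lit 388) (nat_lit 376) (nat_lit 376)) (XT.nd (nat_lit 78) (nat_lit 456) (nat_lit 0) (XT.lf (nat_lit 0) (nat_lit 3626167883) (nat_lit 380) (nat_lit 1974389447) (nat_lit 0) (nat_lit 880786944) (nat_lit 721) (nat_lit 5) (nat_lit 726) (nat_lit 4) (nat_lit 721) (nat_lit 4) (nat_lit 389) (nat_lit 376) (nat_lit 375)) (XT.lf (nat_lit 0) (nat_lit 279799108) (nat_lit 456) (nat_lit 4871736680) (nat_lit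 76) (nat_lit 1339518543) (nat_lit 715) (nat_lit 5) (nat_lit 721) (nat_lit 5) (nat_lit 716) (nat_lit 4) (nat_lit 390) (nat_lit 376) (nat_lit 374)))) (XT.nd (nat_lit 78) (nat_lit 532) (nat_lit 0) (XT.lf (nat_lit 0) (nat_lit 3375859501) (nat_lit 456) (nat_lit 1256469138) (nat_lit 76) (nat_lit 1869550063) (nat_lit 715) (nat_lit 5) (nat_lit 721) (nat_lit 5) (nat_lit 716) (nat_lit 4) (nat_lit 391) (nat_lit 376) (nat_lit 373)) (XT.nd (nat_lit 78) (nat_lit 76) (nat_lit 0) (XT.lf (nat_lit 0) (nat_lit 2415288938) (nat_lit 456) (nat_lit 4058982371) (nat_lit 532) (nat_lit 39868953) (nat_lit 709) (nat_lit 5) (nat_lit 715) (nat_lit 5) (nat_lit 716) (nat_lit 4) (nat_lit 392) (nat_lit 376) (nat_lit 372)) (XT.lf (nat_lit 0) (nat_lit 3001128454) (nat_lit 532) (nat_lit 417398438) (nat_lit 76) (nat_lit 3109067020) (nat_lit 708) (nat_lit 5) (nat_lit 715) (nat_lit 5) (nat_lit 709) (nat_lit 5) (nat_lit 393) (nat_lit 376) (nat_lit 371)))))) (XT.nd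 (nat_lit 468) (nat_lit 3952) (nat_lit 0) (XT.nd (nat_lit 234) (nat_lit 1596) (nat_lit 0) (XT.nd (nat_lit 78) (nat_lit 684) (nat_lit 0) (XT.lf (nat_lit 0) (nat_lit 3333890220) (nat_lit 532) (nat_lit 2717029623) (nat_lit 608) (nat_lit 491448981) (nat_lit 701) (nat_lit 5) (nat_lit 708) (nat_lit 5) (nat_lit 709) (nat_lit 5) (nat_lit 394) (nat_lit 376) (nat_lit 370)) (XT.nd (nat_lit 78) (nat_lit 0) (nat_lit 0) (XT.lf (nat_lit 0) (nat_lit 550843468) (nat_lit 608) (nat_lit 1953152123) (nat_lit 684) (nat_lit 4054454350) (nat_lit 692) (nat_lit 5) (nat_lit 700) (nat_lit 5) (nat_lit 701) (nat_lit 5) (nat_lit 395) (nat_lit 376) (nat_lit 369)) (XT.lf (nat_lit 0) (nat_lit 4377928083) (nat_lit 608) (nat_lit 1124955697) (nat_lit 684) (nat_lit 1072927649) (nat_lit 692) (nat_lit 5) (nat_lit 700) (nat_lit 5) (nat_lit 701) (nat_lit 5) (nat_lit 396) (nat_lit 376) (nat_lit 368)))) (XT.nd (nat_lit 78) (nat_lit 836) (nat_lit 0) (XT.lf (nat_lit 0)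 (nat_lit 1649239379) (nat_lit 684) (nat_lit 233395629) (nat_lit 760) (nat_lit 4711850188) (nat_lit 682) (nat_lit 5) (nat_lit 691) (nat_lit 5) (nat_lit 692) (nat_lit 5) (nat_lit 397) (nat_lit 376) (nat_lit 367)) (XT.nd (nat_lit 78) (nat_lit 836) (nat_lit 0) (XT.lf (nat_lit 0) (nat_lit 4832920832) (nat_lit 760) (nat_lit 1070620773) (nat_lit 76) (nat_lit 710873946) (nat_lit 682) (nat_lit 5) (nat_lit 692) (nat_lit 5) (nat_lit 683) (nat_lit 5) (nat_lit 398) (nat_lit 376) (nat_lit 366)) (XT.lf (nat_lit 0) (nat_lit 1143556822) (nat_lit 836) (nat_lit 3773589474) (nat_lit 76) (nat_lit 1718426491) (nat_lit 671) (nat_lit 5) (nat_lit 682) (nat_lit 5) (nat_lit 672) (nat_lit 5) (nat_lit 399) (nat_lit 376) (nat_lit 365))))) (XT.nd (nat_lit 234) (nat_lit 2128) (nat_lit 0) (XT.nd (nat_lit 78) (nat_lit 988) (nat_lit 0) (XT.lf (nat_lit 0) (nat_lit 172628141) (nat_lit 836) (nat_lit 3871645981) (nat_lit 912) (nat_lit 2613846260) (nat_lit 660) (nat_lit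 5) (nat_lit 671) (nat_lit 5) (nat_lit 672) (nat_lit 5) (nat_lit 400) (nat_lit 376) (nat_lit 364)) (XT.nd (nat_lit 78) (nat_lit 912) (nat_lit 0) (XT.lf (nat_lit 0) (nat_lit 276345449) (nat_lit 912) (nat_lit 2483071659) (nat_lit 76) (nat_lit 3922508630) (nat_lit 659) (nat_lit 5) (nat_lit 671) (nat_lit 5) (nat_lit 660) (nat_lit 5) (nat_lit 401) (nat_lit 376) (nat_lit 363)) (XT.lf (nat_lit 0) (nat_lit 1554311693) (nat_lit 912) (nat_lit 1579653986) (nat_lit 988) (nat_lit 3573025265) (nat_lit 647) (nat_lit 5) (nat_lit 659) (nat_lit 5) (nat_lit 660) (nat_lit 5) (nat_lit 402) (nat_lit 376) (nat_lit 362)))) (XT.nd (nat_lit 78) (nat_lit 2128) (nat_lit 0) (XT.lf (nat_lit 0) (nat_lit 5658257770) (nat_lit 912) (nat_lit 342616695) (nat_lit 988) (nat_lit 732661614) (nat_lit 647) (nat_lit 5) (nat_lit 659) (nat_lit 5) (nat_lit 660) (nat_lit 5) (nat_lit 403) (nat_lit 376) (nat_lit 361)) (XT.nd (nat_lit 78) (nat_lit 1064) (nat_lit 0) (XT.lf (nat_lit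 0) (nat_lit 2098596946) (nat_lit 1064) (nat_lit 3705520574) (nat_lit 76) (nat_lit 956984535) (nat_lit 633) (nat_lit 5) (nat_lit 647) (nat_lit 5) (nat_lit 634) (nat_lit 5) (nat_lit 404) (nat_lit 376) (nat_lit 360)) (XT.lf (nat_lit 0) (nat_lit 444385506) (nat_lit 1064) (nat_lit 4482051015) (nat_lit 1140) (nat_lit 1863710765) (nat_lit 619) (nat_lit 5) (nat_lit 633) (nat_lit 5) (nat_lit 634) (nat_lit 5) (nat_lit 405) (nat_lit 376) (nat_lit 359))))))))
noncomputable def xc77 : XT := (XT.nd (nat_lit 1794) (nat_lit 11856) (nat_lit 0) (XT.nd (nat_lit 858) (nat_lit 8740) (nat_lit 0) (XT.nd (nat_lit 390) (nat_lit 6156) (nat_lit 0) (XT.nd (nat_lit 156) (nat_lit 2584) (nat_lit 0) (XT.nd (nat_lit 78) (nat_lit 1140) (nat_lit 0) (XT.lf (nat_lit 0) (nat_lit 940916810) (nat_lit 1140) (nat_lit 2147713689) (nat_lit 76) (nat_lit 3731776460) (nat_lit 618) (nat_lit 5) (nat_lit 633) (nat_lit 5) (nat_lit 619) (nat_lit 5) (nat_lit 406) (nat_lit 376)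 (nat_lit 358)) (XT.lf (nat_lit 0) (nat_lit 2101119953) (nat_lit 1140) (nat_lit 1628270815) (nat_lit 1216) (nat_lit 3122599454) (nat_lit 603) (nat_lit 5) (nat_lit 618) (nat_lit 5) (nat_lit 619) (nat_lit 5) (nat_lit 407) (nat_lit 376) (nat_lit 357))) (XT.nd (nat_lit 78) (nat_lit 2584) (nat_lit 0) (XT.lf (nat_lit 0) (nat_lit 6415971925) (nat_lit 1140) (nat_lit 112001406) (nat_lit 1216) (nat_lit 357163621) (nat_lit 603) (nat_lit 5) (nat_lit 618) (nat_lit 5) (nat_lit 619) (nat_lit 5) (nat_lit 408) (nat_lit 376) (nat_lit 356)) (XT.nd (nat_lit 78) (nat_lit 1292) (nat_lit 0) (XT.lf (nat_lit 0) (nat_lit 2406853767) (nat_lit 1292) (nat_lit 3043787623) (nat_lit 76) (nat_lit 1468491522) (nat_lit 586) (nat_lit 5) (nat_lit 603) (nat_lit 5) (nat_lit 587) (nat_lit 5) (nat_lit 409) (nat_lit 376) (nat_lit 355)) (XT.lf (nat_lit 0) (nat_lit 1324729775) (nat_lit 1292) (nat_lit 3850776406) (nat_lit 1368) (nat_lit 1779190164) (nat_lit 569) (nat_lit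 5) (nat_lit 586) (nat_lit 5) (nat_lit 587) (nat_lit 5) (nat_lit 410) (nat_lit 376) (nat_lit 354))))) (XT.nd (nat_lit 234) (nat_lit 3268) (nat_lit 0) (XT.nd (nat_lit 78) (nat_lit 2812) (nat_lit 0) (XT.lf (nat_lit 0) (nat_lit 957945879) (nat_lit 1368) (nat_lit 1224710599) (nat_lit 76) (nat_lit 4808948183) (nat_lit 568) (nat_lit 5) (nat_lit 586) (nat_lit 5) (nat_lit 569) (nat_lit 5) (nat_lit 411) (nat_lit 376) (nat_lit 353)) (XT.nd (nat_lit 78) (nat_lit 1444) (nat_lit 0) (XT.lf (nat_lit 0) (nat_lit 3251133038) (nat_lit 1368) (nat_lit 439187319) (nat_lit 1444) (nat_lit 3339425698) (nat_lit 550) (nat_lit 5) (nat_lit 568) (nat_lit 5) (nat_lit 569) (nat_lit 5) (nat_lit 412) (nat_lit 376) (nat_lit 352)) (XT.lf (nat_lit 0) (nat_lit 716006684) (nat_lit 1444) (nat_lit 5726993844) (nat_lit 1520) (nat_lit 626352763) (nat_lit 531) (nat_lit 5) (nat_lit 550) (nat_lit 5) (nat_lit 551) (nat_lit 5) (nat_lit 413) (nat_lit 376) (nat_lit 351))))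 (XT.nd (nat_lit 78) (nat_lit 3192) (nat_lit 0) (XT.lf (nat_lit 0) (nat_lit 2085775603) (nat_lit 1520) (nat_lit 1824157428) (nat_lit 76) (nat_lit 3200099713) (nat_lit 530) (nat_lit 5) (nat_lit 550) (nat_lit 5) (nat_lit 531) (nat_lit 5) (nat_lit 414) (nat_lit 376) (nat_lit 350)) (XT.nd (nat_lit 78) (nat_lit 1672) (nat_lit 0) (XT.lf (nat_lit 0) (nat_lit 2779217800) (nat_lit 1520) (nat_lit 2028124042) (nat_lit 1596) (nat_lit 2344844741) (nat_lit 510) (nat_lit 5) (nat_lit 530) (nat_lit 5) (nat_lit 531) (nat_lit 5) (nat_lit 415) (nat_lit 376) (nat_lit 349)) (XT.lf (nat_lit 0) (nat_lit 256093577) (nat_lit 1596) (nat_lit 86869696) (nat_lit 1672) (nat_lit 6852986515) (nat_lit 488) (nat_lit 5) (nat_lit 509) (nat_lit 5) (nat_lit 510) (nat_lit 5) (nat_lit 416) (nat_lit 376) (nat_lit 348)))))) (XT.nd (nat_lit 468) (nat_lit 3724) (nat_lit 0) (XT.nd (nat_lit 234) (nat_lit 3268) (nat_lit 0) (XT.nd (nat_lit 78) (nat_lit 1748) (nat_lit 0) (XT.lf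 (nat_lit 0) (nat_lit 3041677124) (nat_lit 1672) (nat_lit 2280902885) (nat_lit 76) (nat_lit 1917941683) (nat_lit 488) (nat_lit 5) (nat_lit 510) (nat_lit 5) (nat_lit 489) (nat_lit 5) (nat_lit 417) (nat_lit 376) (nat_lit 347)) (XT.nd (nat_lit 78) (nat_lit 76) (nat_lit 0) (XT.lf (nat_lit 0) (nat_lit 2453915825) (nat_lit 1672) (nat_lit 3304689096) (nat_lit 1748) (nat_lit 1528109405) (nat_lit 466) (nat_lit 5) (nat_lit 488) (nat_lit 5) (nat_lit 489) (nat_lit 5) (nat_lit 418) (nat_lit 376) (nat_lit 346)) (XT.lf (nat_lit 0) (nat_lit 1143847768) (nat_lit 1748) (nat_lit 76345918) (nat_lit 76) (nat_lit 6114225483) (nat_lit 465) (nat_lit 5) (nat_lit 488) (nat_lit 5) (nat_lit 466) (nat_lit 5) (nat_lit 419) (nat_lit 376) (nat_lit 345)))) (XT.nd (nat_lit 78) (nat_lit 1520) (nat_lit 0) (XT.lf (nat_lit 0) (nat_lit 3835108795) (nat_lit 1824) (nat_lit 2609995204) (nat_lit 76) (nat_lit 938058845) (nat_lit 442) (nat_lit 5) (nat_lit 466) (nat_lit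 5) (nat_lit 443) (nat_lit 5) (nat_lit 420) (nat_lit 376) (nat_lit 344)) (XT.nd (nat_lit 78) (nat_lit 76) (nat_lit 0) (XT.lf (nat_lit 0) (nat_lit 2260345695) (nat_lit 1444) (nat_lit 4292925980) (nat_lit 1520) (nat_lit 880161197) (nat_lit 423) (nat_lit 5) (nat_lit 442) (nat_lit 5) (nat_lit 443) (nat_lit 5) (nat_lit 421) (nat_lit 376) (nat_lit 343)) (XT.lf (nat_lit 0) (nat_lit 1784705491) (nat_lit 1520) (nat_lit 282357735) (nat_lit 76) (nat_lit 5418063263) (nat_lit 422) (nat_lit 5) (nat_lit 442) (nat_lit 5) (nat_lit 423) (nat_lit 5) (nat_lit 422) (nat_lit 376) (nat_lit 342))))) (XT.nd (nat_lit 234) (nat_lit 1824) (nat_lit 0) (XT.nd (nat_lit 78) (nat_lit 988) (nat_lit 0) (XT.lf (nat_lit 0) (nat_lit 4474373821) (nat_lit 988) (nat_lit 2825934731) (nat_lit 76) (nat_lit 237775541) (nat_lit 410) (nat_lit 5) (nat_lit 423) (nat_lit 5) (nat_lit 411) (nat_lit 5) (nat_lit 423) (nat_lit 376) (nat_lit 341)) (XT.nd (nat_lit 78) (nat_lit 76)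 (nat_lit 0) (XT.lf (nat_lit 0) (nat_lit 2184161890) (nat_lit 912) (nat_lit 5015207783) (nat_lit 988) (nat_lit 393112513) (nat_lit 398) (nat_lit 5) (nat_lit 410) (nat_lit 5) (nat_lit 411) (nat_lit 5) (nat_lit 424) (nat_lit 376) (nat_lit 340)) (XT.lf (nat_lit 0) (nat_lit 2271475156) (nat_lit 988) (nat_lit 379500397) (nat_lit 76) (nat_lit 4997278606) (nat_lit 397) (nat_lit 5) (nat_lit 410) (nat_lit 5) (nat_lit 398) (nat_lit 5) (nat_lit 425) (nat_lit 376) (nat_lit 339)))) (XT.nd (nat_lit 78) (nat_lit 912) (nat_lit 0) (XT.lf (nat_lit 0) (nat_lit 4761287805) (nat_lit 912) (nat_lit 206720371) (nat_lit 988) (nat_lit 2737414406) (nat_lit 385) (nat_lit 5) (nat_lit 397) (nat_lit 5) (nat_lit 398) (nat_lit 5) (nat_lit 426) (nat_lit 376) (nat_lit 338)) (XT.nd (nat_lit 78) (nat_lit 76) (nat_lit 0) (XT.lf (nat_lit 0) (nat_lit 2211435360) (nat_lit 836) (nat_lit 5492399881) (nat_lit 912) (nat_lit 60202971) (nat_lit 374) (nat_lit 5) (nat_lit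 385) (nat_lit 5) (nat_lit 386) (nat_lit 5) (nat_lit 427) (nat_lit 376) (nat_lit 337)) (XT.lf (nat_lit 0) (nat_lit 2610660586) (nat_lit 912) (nat_lit 381604076) (nat_lit 76) (nat_lit 4831722735) (nat_lit 373) (nat_lit 5) (nat_lit 385) (nat_lit 5) (nat_lit 374) (nat_lit 5) (nat_lit 428) (nat_lit 376) (nat_lit 336))))))) (XT.nd (nat_lit 936) (nat_lit 4940) (nat_lit 0) (XT.nd (nat_lit 468) (nat_lit 3648) (nat_lit 0) (XT.nd (nat_lit 234) (nat_lit 1596) (nat_lit 0) (XT.nd (nat_lit 78) (nat_lit 836) (nat_lit 0) (XT.lf (nat_lit 0) (nat_lit 4908398718) (nat_lit 836) (nat_lit 412386432) (nat_lit 912) (nat_lit 2564619922) (nat_lit 362) (nat_lit 5) (nat_lit 373) (nat_lit 5) (nat_lit 374) (nat_lit 5) (nat_lit 429) (nat_lit 376) (nat_lit 335)) (XT.nd (nat_lit 78) (nat_lit 0) (nat_lit 0) (XT.lf (nat_lit 0) (nat_lit 122606902) (nat_lit 836) (nat_lit 5620584767) (nat_lit 76) (nat_lit 2205104828) (nat_lit 351) (nat_lit 5) (nat_lit 362) (nat_lit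 5) (nat_lit 352) (nat_lit 5) (nat_lit 430) (nat_lit 376) (nat_lit 334)) (XT.lf (nat_lit 0) (nat_lit 2807701558) (nat_lit 836) (nat_lit 302247790) (nat_lit 76) (nat_lit 4902597949) (nat_lit 351) (nat_lit 5) (nat_lit 362) (nat_lit 5) (nat_lit 352) (nat_lit 5) (nat_lit 431) (nat_lit 376) (nat_lit 333)))) (XT.nd (nat_lit 78) (nat_lit 836) (nat_lit 0) (XT.lf (nat_lit 0) (nat_lit 5141622271) (nat_lit 760) (nat_lit 394720265) (nat_lit 836) (nat_lit 2541953355) (nat_lit 341) (nat_lit 5) (nat_lit 351) (nat_lit 5) (nat_lit 352) (nat_lit 5) (nat_lit 432) (nat_lit 376) (nat_lit 332)) (XT.nd (nat_lit 78) (nat_lit 0) (nat_lit 0) (XT.lf (nat_lit 0) (nat_lit 162648907) (nat_lit 836) (nat_lit 5624617361) (nat_lit 76) (nat_lit 2358265131) (nat_lit 330) (nat_lit 5) (nat_lit 341) (nat_lit 5) (nat_lit 331) (nat_lit 5) (nat_lit 433) (nat_lit 376) (nat_lit 331)) (XT.lf (nat_lit 0) (nat_lit 2866999670) (nat_lit 836) (nat_lit 154878773) (nat_lit 76)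 (nat_lit 5192312375) (nat_lit 330) (nat_lit 5) (nat_lit 341) (nat_lit 5) (nat_lit 331) (nat_lit 5) (nat_lit 434) (nat_lit 376) (nat_lit 330))))) (XT.nd (nat_lit 234) (nat_lit 1444) (nat_lit 0) (XT.nd (nat_lit 78) (nat_lit 1444) (nat_lit 0) (XT.lf (nat_lit 0) (nat_lit 5447619282) (nat_lit 760) (nat_lit 171236956) (nat_lit 836) (nat_lit 2665507742) (nat_lit 320) (nat_lit 5) (nat_lit 330) (nat_lit 5) (nat_lit 331) (nat_lit 5) (nat_lit 435) (nat_lit 376) (nat_lit 329)) (XT.nd (nat_lit 78) (nat_lit 684) (nat_lit 0) (XT.lf (nat_lit 0) (nat_lit 64227464) (nat_lit 760) (nat_lit 5578013108) (nat_lit 76) (nat_lit 2713792879) (nat_lit 310) (nat_lit 5) (nat_lit 320) (nat_lit 5) (nat_lit 311) (nat_lit 5) (nat_lit 436) (nat_lit 376) (nat_lit 328)) (XT.lf (nat_lit 0) (nat_lit 47691776) (nat_lit 684) (nat_lit 2744554427) (nat_lit 760) (nat_lit 5636958546) (nat_lit 301) (nat_lit 5) (nat_lit 310) (nat_lit 5) (nat_lit 311) (nat_lit 5) (nat_lit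 437) (nat_lit 376) (nat_lit 327)))) (XT.nd (nat_lit 78) (nat_lit 1444) (nat_lit 0) (XT.lf (nat_lit 0) (nat_lit 5573060124) (nat_lit 760) (nat_lit 2692438642) (nat_lit 76) (nat_lit 238384263) (nat_lit 301) (nat_lit 5) (nat_lit 311) (nat_lit 5) (nat_lit 302) (nat_lit 5) (nat_lit 438) (nat_lit 376) (nat_lit 326)) (XT.nd (nat_lit 78) (nat_lit 760) (nat_lit 0) (XT.lf (nat_lit 0) (nat_lit 3084408008) (nat_lit 684) (nat_lit 5323269493) (nat_lit 760) (nat_lit 172421720) (nat_lit 292) (nat_lit 5) (nat_lit 301) (nat_lit 5) (nat_lit 302) (nat_lit 5) (nat_lit 439) (nat_lit 376) (nat_lit 325)) (XT.lf (nat_lit 0) (nat_lit 293891575) (nat_lit 684) (nat_lit 2292901028) (nat_lit 760) (nat_lit 6071106262) (nat_lit 282) (nat_lit 5) (nat_lit 291) (nat_lit 5) (nat_lit 292) (nat_lit 5) (nat_lit 440) (nat_lit 376) (nat_lit 324)))))) (XT.nd (nat_lit 468) (nat_lit 2356) (nat_lit 0) (XT.nd (nat_lit 234) (nat_lit 1292) (nat_lit 0) (XT.nd (nat_lit 78)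 (nat_lit 1292) (nat_lit 0) (XT.lf (nat_lit 0) (nat_lit 5401788604) (nat_lit 760) (nat_lit 2518246113) (nat_lit 76) (nat_lit 817146493) (nat_lit 282) (nat_lit 5) (nat_lit 292) (nat_lit 5) (nat_lit 283) (nat_lit 5) (nat_lit 441) (nat_lit 376) (nat_lit 323)) (XT.nd (nat_lit 78) (nat_lit 684) (nat_lit 0) (XT.lf (nat_lit 0) (nat_lit 3426217220) (nat_lit 608) (nat_lit 4845669033) (nat_lit 684) (nat_lit 546194389) (nat_lit 274) (nat_lit 5) (nat_lit 282) (nat_lit 5) (nat_lit 283) (nat_lit 5) (nat_lit 442) (nat_lit 376) (nat_lit 322)) (XT.lf (nat_lit 0) (nat_lit 567687142) (nat_lit 608) (nat_lit 1683207760) (nat_lit 684) (nat_lit 6649766716) (nat_lit 265) (nat_lit 5) (nat_lit 273) (nat_lit 5) (nat_lit 274) (nat_lit 5) (nat_lit 443) (nat_lit 376) (nat_lit 321)))) (XT.nd (nat_lit 78) (nat_lit 1292) (nat_lit 0) (XT.lf (nat_lit 0) (nat_lit 5104994834) (nat_lit 684) (nat_lit 2327077843) (nat_lit 76) (nat_lit 1552588724) (nat_lit 265) (nat_lit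 5) (nat_lit 274) (nat_lit 5) (nat_lit 266) (nat_lit 5) (nat_lit 444) (nat_lit 376) (nat_lit 320)) (XT.nd (nat_lit 78) (nat_lit 684) (nat_lit 0) (XT.lf (nat_lit 0) (nat_lit 3789894434) (nat_lit 608) (nat_lit 4224720958) (nat_lit 684) (nat_lit 1055763920) (nat_lit 257) (nat_lit 5) (nat_lit 265) (nat_lit 5) (nat_lit 266) (nat_lit 5) (nat_lit 445) (nat_lit 376) (nat_lit 319)) (XT.lf (nat_lit 0) (nat_lit 854723430) (nat_lit 608) (nat_lit 930090644) (nat_lit 684) (nat_lit 7373084661) (nat_lit 248) (nat_lit 5) (nat_lit 256) (nat_lit 5) (nat_lit 257) (nat_lit 5) (nat_lit 446) (nat_lit 376) (nat_lit 318))))) (XT.nd (nat_lit 234) (nat_lit 1140) (nat_lit 0) (XT.nd (nat_lit 78) (nat_lit 1216) (nat_lit 0) (XT.lf (nat_lit 0) (nat_lit 4682738581) (nat_lit 684) (nat_lit 2133396205) (nat_lit 76) (nat_lit 2430607265) (nat_lit 248) (nat_lit 5) (nat_lit 257) (nat_lit 5) (nat_lit 249) (nat_lit 5) (nat_lit 447) (nat_lit 376) (nat_lit 317)) (XT.nd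 (nat_lit 78) (nat_lit 684) (nat_lit 0) (XT.lf (nat_lit 0) (nat_lit 4160990923) (nat_lit 532) (nat_lit 3474736434) (nat_lit 608) (nat_lit 1701699137) (nat_lit 241) (nat_lit 5) (nat_lit 248) (nat_lit 5) (nat_lit 249) (nat_lit 5) (nat_lit 448) (nat_lit 376) (nat_lit 316)) (XT.lf (nat_lit 0) (nat_lit 1140124288) (nat_lit 608) (nat_lit 47658880) (nat_lit 684) (nat_lit 8242271365) (nat_lit 232) (nat_lit 5) (nat_lit 240) (nat_lit 5) (nat_lit 241) (nat_lit 5) (nat_lit 449) (nat_lit 376) (nat_lit 315)))) (XT.nd (nat_lit 78) (nat_lit 1140) (nat_lit 0) (XT.lf (nat_lit 0) (nat_lit 4134058080) (nat_lit 684) (nat_lit 1952245669) (nat_lit 76) (nat_lit 3437576653) (nat_lit 232) (nat_lit 5) (nat_lit 241) (nat_lit 5) (nat_lit 233) (nat_lit 5) (nat_lit 450) (nat_lit 376) (nat_lit 314)) (XT.nd (nat_lit 78) (nat_lit 608) (nat_lit 0) (XT.lf (nat_lit 0) (nat_lit 4524448736) (nat_lit 532) (nat_lit 2609613173) (nat_lit 608) (nat_lit 2485630706) (nat_lit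 225) (nat_lit 5) (nat_lit 232) (nat_lit 5) (nat_lit 233) (nat_lit 5) (nat_lit 451) (nat_lit 376) (nat_lit 313)) (XT.lf (nat_lit 0) (nat_lit 464155366) (nat_lit 608) (nat_lit 8315439828) (nat_lit 76) (nat_lit 937894411) (nat_lit 217) (nat_lit 5) (nat_lit 225) (nat_lit 5) (nat_lit 218) (nat_lit 5) (nat_lit 452) (nat_lit 376) (nat_lit 312))))))))
noncomputable def xc78 : XT := (XT.nd (nat_lit 1794) (nat_lit 4712) (nat_lit 0) (XT.nd (nat_lit 858) (nat_lit 3268) (nat_lit 0) (XT.nd (nat_lit 390) (nat_lit 1900) (nat_lit 0) (XT.nd (nat_lit 156) (nat_lit 1064) (nat_lit 0) (XT.nd (nat_lit 78) (nat_lit 456) (nat_lit 0) (XT.lf (nat_lit 0) (nat_lit 3456945292) (nat_lit 608) (nat_lit 1799403116) (nat_lit 76) (nat_lit 4560225264) (nat_lit 217) (nat_lit 5) (nat_lit 225) (nat_lit 5) (nat_lit 218) (nat_lit 5) (nat_lit 453) (nat_lit 376) (nat_lit 311)) (XT.lf (nat_lit 0) (nat_lit 4864447209) (nat_lit 456) (nat_lit 1642961541) (nat_lit 532) (nat_lit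 3410279760) (nat_lit 211) (nat_lit 5) (nat_lit 217) (nat_lit 5) (nat_lit 218) (nat_lit 5) (nat_lit 454) (nat_lit 376) (nat_lit 310))) (XT.nd (nat_lit 78) (nat_lit 532) (nat_lit 0) (XT.lf (nat_lit 0) (nat_lit 1626782677) (nat_lit 532) (nat_lit 7994594499) (nat_lit 608) (nat_lit 399403892) (nat_lit 204) (nat_lit 5) (nat_lit 211) (nat_lit 5) (nat_lit 212) (nat_lit 5) (nat_lit 455) (nat_lit 376) (nat_lit 309)) (XT.nd (nat_lit 78) (nat_lit 456) (nat_lit 0) (XT.lf (nat_lit 0) (nat_lit 2648312417) (nat_lit 608) (nat_lit 1691537619) (nat_lit 76) (nat_lit 5785510393) (nat_lit 203) (nat_lit 5) (nat_lit 211) (nat_lit 5) (nat_lit 204) (nat_lit 5) (nat_lit 456) (nat_lit 376) (nat_lit 308)) (XT.lf (nat_lit 0) (nat_lit 5164239593) (nat_lit 456) (nat_lit 588231674) (nat_lit 532) (nat_lit 4479495613) (nat_lit 197) (nat_lit 5) (nat_lit 203) (nat_lit 5) (nat_lit 204) (nat_lit 5) (nat_lit 457) (nat_lit 376) (nat_lit 307))))) (XT.nd (nat_lit 234)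 (nat_lit 912) (nat_lit 0) (XT.nd (nat_lit 78) (nat_lit 532) (nat_lit 0) (XT.lf (nat_lit 0) (nat_lit 1795953526) (nat_lit 456) (nat_lit 7134434258) (nat_lit 532) (nat_lit 1410089117) (nat_lit 191) (nat_lit 5) (nat_lit 197) (nat_lit 5) (nat_lit 198) (nat_lit 5) (nat_lit 458) (nat_lit 376) (nat_lit 306)) (XT.nd (nat_lit 78) (nat_lit 456) (nat_lit 0) (XT.lf (nat_lit 0) (nat_lit 1703949235) (nat_lit 532) (nat_lit 1646381171) (nat_lit 76) (nat_lit 7100491796) (nat_lit 190) (nat_lit 5) (nat_lit 197) (nat_lit 5) (nat_lit 191) (nat_lit 5) (nat_lit 459) (nat_lit 376) (nat_lit 305)) (XT.lf (nat_lit 0) (nat_lit 4868334510) (nat_lit 532) (nat_lit 5160659227) (nat_lit 76) (nat_lit 534059960) (nat_lit 184) (nat_lit 5) (nat_lit 191) (nat_lit 5) (nat_lit 185) (nat_lit 5) (nat_lit 460) (nat_lit 376) (nat_lit 304)))) (XT.nd (nat_lit 78) (nat_lit 456) (nat_lit 0) (XT.lf (nat_lit 0) (nat_lit 1894183138) (nat_lit 456) (nat_lit 6215988710) (nat_lit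 532) (nat_lit 2567079242) (nat_lit 178) (nat_lit 5) (nat_lit 184) (nat_lit 5) (nat_lit 185) (nat_lit 5) (nat_lit 461) (nat_lit 376) (nat_lit 303)) (XT.nd (nat_lit 78) (nat_lit 380) (nat_lit 0) (XT.lf (nat_lit 0) (nat_lit 618470747) (nat_lit 532) (nat_lit 1682911963) (nat_lit 76) (nat_lit 8492202596) (nat_lit 177) (nat_lit 5) (nat_lit 184) (nat_lit 5) (nat_lit 178) (nat_lit 5) (nat_lit 462) (nat_lit 376) (nat_lit 302)) (XT.lf (nat_lit 0) (nat_lit 3850085216) (nat_lit 456) (nat_lit 5352517649) (nat_lit 76) (nat_lit 1708973733) (nat_lit 172) (nat_lit 5) (nat_lit 178) (nat_lit 5) (nat_lit 173) (nat_lit 5) (nat_lit 463) (nat_lit 376) (nat_lit 301)))))) (XT.nd (nat_lit 468) (nat_lit 1520) (nat_lit 0) (XT.nd (nat_lit 234) (nat_lit 836) (nat_lit 0) (XT.nd (nat_lit 78) (nat_lit 456) (nat_lit 0) (XT.lf (nat_lit 0) (nat_lit 1901599555) (nat_lit 456) (nat_lit 5253193601) (nat_lit 532) (nat_lit 3876969545) (nat_lit 166) (nat_lit 5) (nat_lit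 172) (nat_lit 5) (nat_lit 173) (nat_lit 5) (nat_lit 464) (nat_lit 376) (nat_lit 300)) (XT.nd (nat_lit 78) (nat_lit 456) (nat_lit 0) (XT.lf (nat_lit 0) (nat_lit 9328645695) (nat_lit 456) (nat_lit 1202681198) (nat_lit 532) (nat_lit 622915126) (nat_lit 166) (nat_lit 5) (nat_lit 172) (nat_lit 5) (nat_lit 173) (nat_lit 5) (nat_lit 465) (nat_lit 376) (nat_lit 299)) (XT.lf (nat_lit 0) (nat_lit 2686945693) (nat_lit 456) (nat_lit 5660710867) (nat_lit 76) (nat_lit 2930646483) (nat_lit 160) (nat_lit 5) (nat_lit 166) (nat_lit 5) (nat_lit 161) (nat_lit 5) (nat_lit 466) (nat_lit 376) (nat_lit 298)))) (XT.nd (nat_lit 78) (nat_lit 456) (nat_lit 0) (XT.lf (nat_lit 0) (nat_lit 1796743551) (nat_lit 380) (nat_lit 4260299883) (nat_lit 456) (nat_lit 5347675781) (nat_lit 155) (nat_lit 5) (nat_lit 160) (nat_lit 5) (nat_lit 161) (nat_lit 5) (nat_lit 467) (nat_lit 376) (nat_lit 297)) (XT.nd (nat_lit 78) (nat_lit 456) (nat_lit 0) (XT.lf (nat_lit 0) (nat_lit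 9435931350) (nat_lit 380) (nat_lit 67302147) (nat_lit 456) (nat_lit 2030260216) (nat_lit 155) (nat_lit 5) (nat_lit 160) (nat_lit 5) (nat_lit 161) (nat_lit 5) (nat_lit 468) (nat_lit 376) (nat_lit 296)) (XT.lf (nat_lit 0) (nat_lit 1370624439) (nat_lit 456) (nat_lit 6108224633) (nat_lit 76) (nat_lit 4185125094) (nat_lit 149) (nat_lit 5) (nat_lit 155) (nat_lit 5) (nat_lit 150) (nat_lit 5) (nat_lit 469) (nat_lit 376) (nat_lit 295))))) (XT.nd (nat_lit 234) (nat_lit 760) (nat_lit 0) (XT.nd (nat_lit 78) (nat_lit 380) (nat_lit 0) (XT.lf (nat_lit 0) (nat_lit 1556341789) (nat_lit 380) (nat_lit 3252018769) (nat_lit 456) (nat_lit 6988518481) (nat_lit 144) (nat_lit 5) (nat_lit 149) (nat_lit 5) (nat_lit 150) (nat_lit 5) (nat_lit 470) (nat_lit 376) (nat_lit 294)) (XT.nd (nat_lit 78) (nat_lit 380) (nat_lit 0) (XT.lf (nat_lit 0) (nat_lit 8334446417) (nat_lit 456) (nat_lit 2525822684) (nat_lit 76) (nat_lit 1071784530) (nat_lit 144) (nat_lit 5)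 (nat_lit 150) (nat_lit 5) (nat_lit 145) (nat_lit 5) (nat_lit 471) (nat_lit 376) (nat_lit 293)) (XT.lf (nat_lit 0) (nat_lit 5348612194) (nat_lit 380) (nat_lit 6610720938) (nat_lit 456) (nat_lit 110036453) (nat_lit 139) (nat_lit 5) (nat_lit 144) (nat_lit 5) (nat_lit 145) (nat_lit 5) (nat_lit 472) (nat_lit 376) (nat_lit 292)))) (XT.nd (nat_lit 78) (nat_lit 304) (nat_lit 0) (XT.lf (nat_lit 0) (nat_lit 1155060170) (nat_lit 380) (nat_lit 2243674189) (nat_lit 456) (nat_lit 8810319969) (nat_lit 133) (nat_lit 5) (nat_lit 138) (nat_lit 5) (nat_lit 139) (nat_lit 5) (nat_lit 473) (nat_lit 376) (nat_lit 291)) (XT.nd (nat_lit 78) (nat_lit 304) (nat_lit 0) (XT.lf (nat_lit 0) (nat_lit 7008227870) (nat_lit 456) (nat_lit 3129962785) (nat_lit 76) (nat_lit 2212690402) (nat_lit 133) (nat_lit 5) (nat_lit 139) (nat_lit 5) (nat_lit 134) (nat_lit 5) (nat_lit 474) (nat_lit 376) (nat_lit 290)) (XT.lf (nat_lit 0) (nat_lit 4960148663) (nat_lit 304) (nat_lit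 5749637089) (nat_lit 380) (nat_lit 1785364269) (nat_lit 129) (nat_lit 5) (nat_lit 133) (nat_lit 5) (nat_lit 134) (nat_lit 5) (nat_lit 475) (nat_lit 376) (nat_lit 289))))))) (XT.nd (nat_lit 936) (nat_lit 1976) (nat_lit 0) (XT.nd (nat_lit 468) (nat_lit 1292) (nat_lit 0) (XT.nd (nat_lit 234) (nat_lit 684) (nat_lit 0) (XT.nd (nat_lit 78) (nat_lit 304) (nat_lit 0) (XT.lf (nat_lit 0) (nat_lit 565234982) (nat_lit 380) (nat_lit 1251364022) (nat_lit 456) (nat_lit 10825515082) (nat_lit 123) (nat_lit 5) (nat_lit 128) (nat_lit 5) (nat_lit 129) (nat_lit 5) (nat_lit 476) (nat_lit 376) (nat_lit 288)) (XT.nd (nat_lit 78) (nat_lit 304) (nat_lit 0) (XT.lf (nat_lit 0) (nat_lit 5512325280) (nat_lit 456) (nat_lit 3938051441) (nat_lit 76) (nat_lit 3340495097) (nat_lit 123) (nat_lit 5) (nat_lit 129) (nat_lit 5) (nat_lit 124) (nat_lit 5) (nat_lit 477) (nat_lit 376) (nat_lit 287)) (XT.lf (nat_lit 0) (nat_lit 4370590011) (nat_lit 304) (nat_lit 4921612105)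 (nat_lit 380) (nat_lit 3650200814) (nat_lit 119) (nat_lit 5) (nat_lit 123) (nat_lit 5) (nat_lit 124) (nat_lit 5) (nat_lit 478) (nat_lit 376) (nat_lit 286)))) (XT.nd (nat_lit 78) (nat_lit 608) (nat_lit 0) (XT.lf (nat_lit 0) (nat_lit 50291309) (nat_lit 380) (nat_lit 240228252) (nat_lit 76) (nat_lit 12806436460) (nat_lit 118) (nat_lit 5) (nat_lit 123) (nat_lit 5) (nat_lit 119) (nat_lit 5) (nat_lit 479) (nat_lit 376) (nat_lit 285)) (XT.nd (nat_lit 78) (nat_lit 304) (nat_lit 0) (XT.lf (nat_lit 0) (nat_lit 3833221440) (nat_lit 380) (nat_lit 4981317556) (nat_lit 76) (nat_lit 4438435309) (nat_lit 114) (nat_lit 5) (nat_lit 119) (nat_lit 5) (nat_lit 115) (nat_lit 5) (nat_lit 480) (nat_lit 376) (nat_lit 284)) (XT.lf (nat_lit 0) (nat_lit 3548163253) (nat_lit 304) (nat_lit 4144531402) (nat_lit 380) (nat_lit 5719403333) (nat_lit 110) (nat_lit 5) (nat_lit 114) (nat_lit 5) (nat_lit 115) (nat_lit 5) (nat_lit 481) (nat_lit 376) (nat_lit 283)))))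 (XT.nd (nat_lit 234) (nat_lit 608) (nat_lit 0) (XT.nd (nat_lit 78) (nat_lit 684) (nat_lit 0) (XT.lf (nat_lit 0) (nat_lit 11641460147) (nat_lit 380) (nat_lit 1303748315) (nat_lit 76) (nat_lit 628956297) (nat_lit 110) (nat_lit 5) (nat_lit 115) (nat_lit 5) (nat_lit 111) (nat_lit 5) (nat_lit 482) (nat_lit 376) (nat_lit 282)) (XT.nd (nat_lit 78) (nat_lit 304) (nat_lit 0) (XT.lf (nat_lit 0) (nat_lit 1955555334) (nat_lit 380) (nat_lit 6294042349) (nat_lit 76) (nat_lit 5488604444) (nat_lit 105) (nat_lit 5) (nat_lit 110) (nat_lit 5) (nat_lit 106) (nat_lit 5) (nat_lit 483) (nat_lit 376) (nat_lit 281)) (XT.lf (nat_lit 0) (nat_lit 2457950047) (nat_lit 304) (nat_lit 3437540220) (nat_lit 380) (nat_lit 8009781215) (nat_lit 101) (nat_lit 5) (nat_lit 105) (nat_lit 5) (nat_lit 106) (nat_lit 5) (nat_lit 484) (nat_lit 376) (nat_lit 280)))) (XT.nd (nat_lit 78) (nat_lit 608) (nat_lit 0) (XT.lf (nat_lit 0) (nat_lit 9941413150) (nat_lit 380) (nat_lit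 2655276612) (nat_lit 76) (nat_lit 1478451142) (nat_lit 101) (nat_lit 5) (nat_lit 106) (nat_lit 5) (nat_lit 102) (nat_lit 5) (nat_lit 485) (nat_lit 376) (nat_lit 279)) (XT.nd (nat_lit 78) (nat_lit 304) (nat_lit 0) (XT.lf (nat_lit 0) (nat_lit 6332791842) (nat_lit 304) (nat_lit 7774956326) (nat_lit 380) (nat_lit 139872089) (nat_lit 97) (nat_lit 5) (nat_lit 101) (nat_lit 5) (nat_lit 102) (nat_lit 5) (nat_lit 486) (nat_lit 376) (nat_lit 278)) (XT.lf (nat_lit 0) (nat_lit 1061514925) (nat_lit 228) (nat_lit 2821249774) (nat_lit 304) (nat_lit 10540266053) (nat_lit 93) (nat_lit 5) (nat_lit 96) (nat_lit 5) (nat_lit 97) (nat_lit 5) (nat_lit 487) (nat_lit 376) (nat_lit 277)))))) (XT.nd (nat_lit 468) (nat_lit 1064) (nat_lit 0) (XT.nd (nat_lit 234) (nat_lit 532) (nat_lit 0) (XT.nd (nat_lit 78) (nat_lit 380) (nat_lit 0) (XT.lf (nat_lit 0) (nat_lit 8027720461) (nat_lit 304) (nat_lit 4332268448) (nat_lit 76) (nat_lit 2241069551) (nat_lit 93)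 (nat_lit 5) (nat_lit 97) (nat_lit 5) (nat_lit 94) (nat_lit 5) (nat_lit 488) (nat_lit 376) (nat_lit 276)) (XT.nd (nat_lit 78) (nat_lit 76) (nat_lit 0) (XT.lf (nat_lit 0) (nat_lit 4883429776) (nat_lit 304) (nat_lit 7398795007) (nat_lit 380) (nat_lit 2499891184) (nat_lit 89) (nat_lit 5) (nat_lit 93) (nat_lit 5) (nat_lit 94) (nat_lit 5) (nat_lit 489) (nat_lit 376) (nat_lit 275)) (XT.lf (nat_lit 0) (nat_lit 1638894920) (nat_lit 380) (nat_lit 674538715) (nat_lit 76) (nat_lit 12653036698) (nat_lit 88) (nat_lit 5) (nat_lit 93) (nat_lit 5) (nat_lit 89) (nat_lit 5) (nat_lit 490) (nat_lit 376) (nat_lit 274)))) (XT.nd (nat_lit 78) (nat_lit 304) (nat_lit 0) (XT.lf (nat_lit 0) (nat_lit 5879932334) (nat_lit 304) (nat_lit 6378456279) (nat_lit 76) (nat_lit 2894735811) (nat_lit 85) (nat_lit 5) (nat_lit 89) (nat_lit 5) (nat_lit 86) (nat_lit 5) (nat_lit 491) (nat_lit 376) (nat_lit 273)) (XT.nd (nat_lit 78) (nat_lit 0) (nat_lit 0) (XT.lf (nat_lit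 0) (nat_lit 3064537314) (nat_lit 304) (nat_lit 7157908439) (nat_lit 380) (nat_lit 5120734801) (nat_lit 81) (nat_lit 5) (nat_lit 85) (nat_lit 5) (nat_lit 86) (nat_lit 5) (nat_lit 492) (nat_lit 376) (nat_lit 272)) (XT.lf (nat_lit 0) (nat_lit 12744222718) (nat_lit 304) (nat_lit 1927473034) (nat_lit 380) (nat_lit 864946352) (nat_lit 81) (nat_lit 5) (nat_lit 85) (nat_lit 5) (nat_lit 86) (nat_lit 5) (nat_lit 493) (nat_lit 376) (nat_lit 271))))) (XT.nd (nat_lit 234) (nat_lit 532) (nat_lit 0) (XT.nd (nat_lit 78) (nat_lit 228) (nat_lit 0) (XT.lf (nat_lit 0) (nat_lit 3475108840) (nat_lit 304) (nat_lit 8842090854) (nat_lit 76) (nat_lit 3415428994) (nat_lit 77) (nat_lit 5) (nat_lit 81) (nat_lit 5) (nat_lit 78) (nat_lit 5) (nat_lit 494) (nat_lit 376) (nat_lit 270)) (XT.nd (nat_lit 78) (nat_lit 0) (nat_lit 0) (XT.lf (nat_lit 0) (nat_lit 826799321) (nat_lit 228) (nat_lit 7078069278) (nat_lit 304) (nat_lit 8027264263) (nat_lit 74) (nat_lit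 5) (nat_lit 77) (nat_lit 5) (nat_lit 78) (nat_lit 5) (nat_lit 495) (nat_lit 376) (nat_lit 269)) (XT.lf (nat_lit 0) (nat_lit 10770902660) (nat_lit 228) (nat_lit 1689329426) (nat_lit 304) (nat_lit 3674656732) (nat_lit 74) (nat_lit 5) (nat_lit 77) (nat_lit 5) (nat_lit 78) (nat_lit 5) (nat_lit 496) (nat_lit 376) (nat_lit 268)))) (XT.nd (nat_lit 78) (nat_lit 228) (nat_lit 0) (XT.lf (nat_lit 0) (nat_lit 787582743) (nat_lit 304) (nat_lit 11776447897) (nat_lit 76) (nat_lit 3776919452) (nat_lit 70) (nat_lit 5) (nat_lit 74) (nat_lit 5) (nat_lit 71) (nat_lit 5) (nat_lit 497) (nat_lit 376) (nat_lit 267)) (XT.nd (nat_lit 78) (nat_lit 228) (nat_lit 0) (XT.lf (nat_lit 0) (nat_lit 5315384218) (nat_lit 304) (nat_lit 1859565230) (nat_lit 76) (nat_lit 9375188698) (nat_lit 70) (nat_lit 5) (nat_lit 74) (nat_lit 5) (nat_lit 71) (nat_lit 5) (nat_lit 498) (nat_lit 376) (nat_lit 266)) (XT.lf (nat_lit 0) (nat_lit 8327954539) (nat_lit 228) (nat_lit 1638341815)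 (nat_lit 304) (nat_lit 6796564241) (nat_lit 67) (nat_lit 5) (nat_lit 70) (nat_lit 5) (nat_lit 71) (nat_lit 5) (nat_lit 499) (nat_lit 376) (nat_lit 265))))))))
noncomputable def xc79 : XT := (XT.nd (nat_lit 51714) (nat_lit 0) (nat_lit 26068) (XT.nd (nat_lit 50778) (nat_lit 0) (nat_lit 45980) (XT.nd (nat_lit 390) (nat_lit 304) (nat_lit 0) (XT.nd (nat_lit 156) (nat_lit 380) (nat_lit 0) (XT.nd (nat_lit 78) (nat_lit 76) (nat_lit 0) (XT.lf (nat_lit 0) (nat_lit 1724338024) (nat_lit 228) (nat_lit 13014242736) (nat_lit 304) (nat_lit 2240691343) (nat_lit 64) (nat_lit 5) (nat_lit 67) (nat_lit 5) (nat_lit 68) (nat_lit 5) (nat_lit 500) (nat_lit 376) (nat_lit 264)) (XT.lf (nat_lit 0) (nat_lit 2421174691) (nat_lit 304) (nat_lit 5061674909) (nat_lit 76) (nat_lit 9715922710) (nat_lit 63) (nat_lit 5) (nat_lit 67) (nat_lit 5) (nat_lit 64) (nat_lit 5) (nat_lit 501) (nat_lit 376) (nat_lit 263))) (XT.nd (nat_lit 78) (nat_lit 152) (nat_lit 0) (XT.lf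 (nat_lit 0) (nat_lit 5354510909) (nat_lit 228) (nat_lit 1805584092) (nat_lit 304) (nat_lit 10261996498) (nat_lit 60) (nat_lit 5) (nat_lit 63) (nat_lit 5) (nat_lit 64) (nat_lit 5) (nat_lit 502) (nat_lit 376) (nat_lit 262)) (XT.nd (nat_lit 78) (nat_lit 152) (nat_lit 0) (XT.lf (nat_lit 0) (nat_lit 12032964309) (nat_lit 304) (nat_lit 1664068774) (nat_lit 76) (nat_lit 3952062141) (nat_lit 60) (nat_lit 5) (nat_lit 64) (nat_lit 5) (nat_lit 61) (nat_lit 5) (nat_lit 503) (nat_lit 376) (nat_lit 261)) (XT.lf (nat_lit 0) (nat_lit 9018139969) (nat_lit 152) (nat_lit 8035174415) (nat_lit 228) (nat_lit 826325705) (nat_lit 58) (nat_lit 5) (nat_lit 60) (nat_lit 5) (nat_lit 61) (nat_lit 5) (nat_lit 504) (nat_lit 376) (nat_lit 260))))) (XT.nd (nat_lit 50154) (nat_lit 0) (nat_lit 50692) (XT.nd (nat_lit 78) (nat_lit 0) (nat_lit 0) (XT.lf (nat_lit 0) (nat_lit 1783206098) (nat_lit 228) (nat_lit 2225199460) (nat_lit 304) (nat_lit 14105817295) (nat_lit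 54) (nat_lit 5) (nat_lit 57) (nat_lit 5) (nat_lit 58) (nat_lit 5) (nat_lit 505) (nat_lit 376) (nat_lit 259)) (XT.nd (nat_lit 49998) (nat_lit 0) (nat_lit 51072) (XT.lf (nat_lit 0) (nat_lit 8992286968) (nat_lit 304) (nat_lit 5657078885) (nat_lit 76) (nat_lit 3702753223) (nat_lit 54) (nat_lit 5) (nat_lit 58) (nat_lit 5) (nat_lit 55) (nat_lit 5) (nat_lit 506) (nat_lit 376) (nat_lit 258)) (XT.lf (nat_lit 0) (nat_lit 211079918) (nat_lit 228) (nat_lit 1509341717) (nat_lit 228) (nat_lit 1509341717) (nat_lit 726) (nat_lit 4) (nat_lit 729) (nat_lit 5) (nat_lit 729) (nat_lit 4) (nat_lit 386) (nat_lit 377) (nat_lit 377)))) (XT.nd (nat_lit 78) (nat_lit 304) (nat_lit 0) (XT.lf (nat_lit 0) (nat_lit 140875284) (nat_lit 304) (nat_lit 2571726254) (nat_lit 76) (nat_lit 3753363906) (nat_lit 725) (nat_lit 5) (nat_lit 729) (nat_lit 5) (nat_lit 726) (nat_lit 4) (nat_lit 387) (nat_lit 377) (nat_lit 376)) (XT.nd (nat_lit 78) (nat_lit 0) (nat_lit 0)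 (XT.lf (nat_lit 0) (nat_lit 908937008) (nat_lit 304) (nat_lit 2341320365) (nat_lit 380) (nat_lit 3223367189) (nat_lit 721) (nat_lit 5) (nat_lit 725) (nat_lit 5) (nat_lit 726) (nat_lit 4) (nat_lit 388) (nat_lit 377) (nat_lit 375)) (XT.lf (nat_lit 0) (nat_lit 4448158282) (nat_lit 304) (nat_lit 1913288306) (nat_lit 380) (nat_lit 121228985) (nat_lit 721) (nat_lit 5) (nat_lit 725) (nat_lit 5) (nat_lit 726) (nat_lit 4) (nat_lit 389) (nat_lit 377) (nat_lit 374)))))) (XT.nd (nat_lit 468) (nat_lit 2508) (nat_lit 0) (XT.nd (nat_lit 234) (nat_lit 1216) (nat_lit 0) (XT.nd (nat_lit 78) (nat_lit 532) (nat_lit 0) (XT.lf (nat_lit 0) (nat_lit 1520375610) (nat_lit 380) (nat_lit 1415888790) (nat_lit 456) (nat_lit 3556613531) (nat_lit 715) (nat_lit 5) (nat_lit 720) (nat_lit 5) (nat_lit 721) (nat_lit 5) (nat_lit 390) (nat_lit 377) (nat_lit 373)) (XT.nd (nat_lit 78) (nat_lit 532) (nat_lit 0) (XT.lf (nat_lit 0) (nat_lit 5127370427) (nat_lit 380)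 (nat_lit 864118716) (nat_lit 456) (nat_lit 513044381) (nat_lit 715) (nat_lit 5) (nat_lit 720) (nat_lit 5) (nat_lit 721) (nat_lit 5) (nat_lit 391) (nat_lit 377) (nat_lit 372)) (XT.lf (nat_lit 0) (nat_lit 2256976917) (nat_lit 456) (nat_lit 240603334) (nat_lit 532) (nat_lit 4019730228) (nat_lit 708) (nat_lit 5) (nat_lit 714) (nat_lit 5) (nat_lit 715) (nat_lit 5) (nat_lit 392) (nat_lit 377) (nat_lit 371)))) (XT.nd (nat_lit 78) (nat_lit 1216) (nat_lit 0) (XT.lf (nat_lit 0) (nat_lit 5500285463) (nat_lit 532) (nat_lit 600970357) (nat_lit 76) (nat_lit 430272191) (nat_lit 708) (nat_lit 5) (nat_lit 715) (nat_lit 5) (nat_lit 709) (nat_lit 5) (nat_lit 393) (nat_lit 377) (nat_lit 370)) (XT.nd (nat_lit 78) (nat_lit 608) (nat_lit 0) (XT.lf (nat_lit 0) (nat_lit 1940380965) (nat_lit 608) (nat_lit 3435179459) (nat_lit 76) (nat_lit 1171237704) (nat_lit 700) (nat_lit 5) (nat_lit 708) (nat_lit 5) (nat_lit 701) (nat_lit 5) (nat_lit 394) (nat_lit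 377) (nat_lit 369)) (XT.lf (nat_lit 0) (nat_lit 294323497) (nat_lit 608) (nat_lit 4598197573) (nat_lit 684) (nat_lit 1671044422) (nat_lit 692) (nat_lit 5) (nat_lit 700) (nat_lit 5) (nat_lit 701) (nat_lit 5) (nat_lit 395) (nat_lit 377) (nat_lit 368))))) (XT.nd (nat_lit 234) (nat_lit 1672) (nat_lit 0) (XT.nd (nat_lit 78) (nat_lit 760) (nat_lit 0) (XT.lf (nat_lit 0) (nat_lit 1258399598) (nat_lit 684) (nat_lit 2491614459) (nat_lit 76) (nat_lit 2831453044) (nat_lit 691) (nat_lit 5) (nat_lit 700) (nat_lit 5) (nat_lit 692) (nat_lit 5) (nat_lit 396) (nat_lit 377) (nat_lit 367)) (XT.nd (nat_lit 78) (nat_lit 76) (nat_lit 0) (XT.lf (nat_lit 0) (nat_lit 1321114109) (nat_lit 684) (nat_lit 2842434858) (nat_lit 760) (nat_lit 2437191551) (nat_lit 682) (nat_lit 5) (nat_lit 691) (nat_lit 5) (nat_lit 692) (nat_lit 5) (nat_lit 397) (nat_lit 377) (nat_lit 366)) (XT.lf (nat_lit 0) (nat_lit 448063765) (nat_lit 760) (nat_lit 1426930488) (nat_lit 76)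 (nat_lit 4746396894) (nat_lit 681) (nat_lit 5) (nat_lit 691) (nat_lit 5) (nat_lit 682) (nat_lit 5) (nat_lit 398) (nat_lit 377) (nat_lit 365)))) (XT.nd (nat_lit 78) (nat_lit 912) (nat_lit 0) (XT.lf (nat_lit 0) (nat_lit 2472698506) (nat_lit 760) (nat_lit 834592891) (nat_lit 836) (nat_lit 3335886278) (nat_lit 671) (nat_lit 5) (nat_lit 681) (nat_lit 5) (nat_lit 682) (nat_lit 5) (nat_lit 399) (nat_lit 377) (nat_lit 364)) (XT.nd (nat_lit 78) (nat_lit 912) (nat_lit 0) (XT.lf (nat_lit 0) (nat_lit 6168778325) (nat_lit 836) (nat_lit 244661958) (nat_lit 76) (nat_lit 253080811) (nat_lit 671) (nat_lit 5) (nat_lit 682) (nat_lit 5) (nat_lit 672) (nat_lit 5) (nat_lit 400) (nat_lit 377) (nat_lit 363)) (XT.lf (nat_lit 0) (nat_lit 2330649717) (nat_lit 912) (nat_lit 2949616400) (nat_lit 76) (nat_lit 1410477252) (nat_lit 659) (nat_lit 5) (nat_lit 671) (nat_lit 5) (nat_lit 660) (nat_lit 5) (nat_lit 401) (nat_lit 377) (nat_lit 362))))))) (XT.nd (nat_lit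 936) (nat_lit 11552) (nat_lit 0) (XT.nd (nat_lit 468) (nat_lit 4104) (nat_lit 0) (XT.nd (nat_lit 234) (nat_lit 2280) (nat_lit 0) (XT.nd (nat_lit 78) (nat_lit 1064) (nat_lit 0) (XT.lf (nat_lit 0) (nat_lit 1057881852) (nat_lit 912) (nat_lit 4095374877) (nat_lit 988) (nat_lit 1563262678) (nat_lit 647) (nat_lit 5) (nat_lit 659) (nat_lit 5) (nat_lit 660) (nat_lit 5) (nat_lit 402) (nat_lit 377) (nat_lit 361)) (XT.nd (nat_lit 78) (nat_lit 988) (nat_lit 0) (XT.lf (nat_lit 0) (nat_lit 1228816444) (nat_lit 988) (nat_lit 1613178199) (nat_lit 76) (nat_lit 3901544924) (nat_lit 646) (nat_lit 5) (nat_lit 659) (nat_lit 5) (nat_lit 647) (nat_lit 5) (nat_lit 403) (nat_lit 377) (nat_lit 360)) (XT.lf (nat_lit 0) (nat_lit 2488640706) (nat_lit 988) (nat_lit 1520889923) (nat_lit 1064) (nat_lit 2762308442) (nat_lit 633) (nat_lit 5) (nat_lit 646) (nat_lit 5) (nat_lit 647) (nat_lit 5) (nat_lit 404) (nat_lit 377) (nat_lit 359)))) (XT.nd (nat_lit 78)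 (nat_lit 2280) (nat_lit 0) (XT.lf (nat_lit 0) (nat_lit 6647835299) (nat_lit 988) (nat_lit 147319626) (nat_lit 1064) (nat_lit 6583445) (nat_lit 633) (nat_lit 5) (nat_lit 646) (nat_lit 5) (nat_lit 647) (nat_lit 5) (nat_lit 405) (nat_lit 377) (nat_lit 358)) (XT.nd (nat_lit 78) (nat_lit 1140) (nat_lit 0) (XT.lf (nat_lit 0) (nat_lit 2741535476) (nat_lit 1140) (nat_lit 2794708603) (nat_lit 76) (nat_lit 1296165238) (nat_lit 618) (nat_lit 5) (nat_lit 633) (nat_lit 5) (nat_lit 619) (nat_lit 5) (nat_lit 406) (nat_lit 377) (nat_lit 357)) (XT.lf (nat_lit 0) (nat_lit 1421729210) (nat_lit 1140) (nat_lit 4074284488) (nat_lit 1216) (nat_lit 1368667996) (nat_lit 603) (nat_lit 5) (nat_lit 618) (nat_lit 5) (nat_lit 619) (nat_lit 5) (nat_lit 407) (nat_lit 377) (nat_lit 356))))) (XT.nd (nat_lit 234) (nat_lit 1520) (nat_lit 0) (XT.nd (nat_lit 78) (nat_lit 2508) (nat_lit 0) (XT.lf (nat_lit 0) (nat_lit 1349090918) (nat_lit 1216) (nat_lit 1194045970)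 (nat_lit 76) (nat_lit 4355106165) (nat_lit 602) (nat_lit 5) (nat_lit 618) (nat_lit 5) (nat_lit 603) (nat_lit 5) (nat_lit 408) (nat_lit 377) (nat_lit 355)) (XT.nd (nat_lit 78) (nat_lit 1292) (nat_lit 0) (XT.lf (nat_lit 0) (nat_lit 3124761785) (nat_lit 1216) (nat_lit 940281453) (nat_lit 1292) (nat_lit 2868025682) (nat_lit 586) (nat_lit 5) (nat_lit 602) (nat_lit 5) (nat_lit 603) (nat_lit 5) (nat_lit 409) (nat_lit 377) (nat_lit 354)) (XT.lf (nat_lit 0) (nat_lit 532199391) (nat_lit 1292) (nat_lit 6261911723) (nat_lit 1368) (nat_lit 175321431) (nat_lit 569) (nat_lit 5) (nat_lit 586) (nat_lit 5) (nat_lit 587) (nat_lit 5) (nat_lit 410) (nat_lit 377) (nat_lit 353)))) (XT.nd (nat_lit 78) (nat_lit 1444) (nat_lit 0) (XT.lf (nat_lit 0) (nat_lit 2512654976) (nat_lit 1368) (nat_lit 2066338052) (nat_lit 76) (nat_lit 2427710225) (nat_lit 568) (nat_lit 5) (nat_lit 586) (nat_lit 5) (nat_lit 569) (nat_lit 5) (nat_lit 411) (nat_lit 377) (nat_lit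 352)) (XT.nd (nat_lit 78) (nat_lit 76) (nat_lit 0) (XT.lf (nat_lit 0) (nat_lit 2374530856) (nat_lit 1368) (nat_lit 2837233967) (nat_lit 1444) (nat_lit 1833753126) (nat_lit 550) (nat_lit 5) (nat_lit 568) (nat_lit 5) (nat_lit 569) (nat_lit 5) (nat_lit 412) (nat_lit 377) (nat_lit 351)) (XT.lf (nat_lit 0) (nat_lit 826877078) (nat_lit 1444) (nat_lit 206272203) (nat_lit 76) (nat_lit 6052687626) (nat_lit 549) (nat_lit 5) (nat_lit 568) (nat_lit 5) (nat_lit 550) (nat_lit 5) (nat_lit 413) (nat_lit 377) (nat_lit 350)))))) (XT.nd (nat_lit 468) (nat_lit 5168) (nat_lit 0) (XT.nd (nat_lit 234) (nat_lit 3344) (nat_lit 0) (XT.nd (nat_lit 78) (nat_lit 1596) (nat_lit 0) (XT.lf (nat_lit 0) (nat_lit 3495751341) (nat_lit 1520) (nat_lit 2787146878) (nat_lit 76) (nat_lit 844245142) (nat_lit 530) (nat_lit 5) (nat_lit 550) (nat_lit 5) (nat_lit 531) (nat_lit 5) (nat_lit 414) (nat_lit 377) (nat_lit 349)) (XT.nd (nat_lit 78) (nat_lit 76) (nat_lit 0) (XT.lf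 (nat_lit 0) (nat_lit 1779480602) (nat_lit 1520) (nat_lit 4404909313) (nat_lit 1596) (nat_lit 985573239) (nat_lit 510) (nat_lit 5) (nat_lit 530) (nat_lit 5) (nat_lit 531) (nat_lit 5) (nat_lit 415) (nat_lit 377) (nat_lit 348)) (XT.lf (nat_lit 0) (nat_lit 1656494349) (nat_lit 1596) (nat_lit 797440679) (nat_lit 76) (nat_lit 4760180203) (nat_lit 509) (nat_lit 5) (nat_lit 530) (nat_lit 5) (nat_lit 510) (nat_lit 5) (nat_lit 416) (nat_lit 377) (nat_lit 347)))) (XT.nd (nat_lit 78) (nat_lit 1748) (nat_lit 0) (XT.lf (nat_lit 0) (nat_lit 3884677717) (nat_lit 1596) (nat_lit 426776491) (nat_lit 1672) (nat_lit 2948114980) (nat_lit 488) (nat_lit 5) (nat_lit 509) (nat_lit 5) (nat_lit 510) (nat_lit 5) (nat_lit 417) (nat_lit 377) (nat_lit 346)) (XT.nd (nat_lit 78) (nat_lit 76) (nat_lit 0) (XT.lf (nat_lit 0) (nat_lit 1324137002) (nat_lit 1672) (nat_lit 5668770888) (nat_lit 1748) (nat_lit 313570250) (nat_lit 466) (nat_lit 5) (nat_lit 488) (nat_lit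 5) (nat_lit 489) (nat_lit 5) (nat_lit 418) (nat_lit 377) (nat_lit 345)) (XT.lf (nat_lit 0) (nat_lit 2317262027) (nat_lit 1748) (nat_lit 1257703252) (nat_lit 76) (nat_lit 3779570483) (nat_lit 465) (nat_lit 5) (nat_lit 488) (nat_lit 5) (nat_lit 466) (nat_lit 5) (nat_lit 419) (nat_lit 377) (nat_lit 344))))) (XT.nd (nat_lit 234) (nat_lit 1900) (nat_lit 0) (XT.nd (nat_lit 78) (nat_lit 1520) (nat_lit 0) (XT.lf (nat_lit 0) (nat_lit 3558633884) (nat_lit 1748) (nat_lit 1411089344) (nat_lit 1824) (nat_lit 2434338647) (nat_lit 442) (nat_lit 5) (nat_lit 465) (nat_lit 5) (nat_lit 466) (nat_lit 5) (nat_lit 420) (nat_lit 377) (nat_lit 343)) (XT.nd (nat_lit 78) (nat_lit 0) (nat_lit 0) (XT.lf (nat_lit 0) (nat_lit 188460454) (nat_lit 1520) (nat_lit 6462757442) (nat_lit 76) (nat_lit 803930483) (nat_lit 422) (nat_lit 5) (nat_lit 442) (nat_lit 5) (nat_lit 423) (nat_lit 5) (nat_lit 421) (nat_lit 377) (nat_lit 342)) (XT.lf (nat_lit 0) (nat_lit 2817580491)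 (nat_lit 1520) (nat_lit 1601719850) (nat_lit 76) (nat_lit 3087917499) (nat_lit 422) (nat_lit 5) (nat_lit 442) (nat_lit 5) (nat_lit 423) (nat_lit 5) (nat_lit 422) (nat_lit 377) (nat_lit 341)))) (XT.nd (nat_lit 78) (nat_lit 988) (nat_lit 0) (XT.lf (nat_lit 0) (nat_lit 3353029705) (nat_lit 912) (nat_lit 2120091529) (nat_lit 988) (nat_lit 2087742712) (nat_lit 410) (nat_lit 5) (nat_lit 422) (nat_lit 5) (nat_lit 423) (nat_lit 5) (nat_lit 423) (nat_lit 377) (nat_lit 340)) (XT.nd (nat_lit 78) (nat_lit 0) (nat_lit 0) (XT.lf (nat_lit 0) (nat_lit 528560935) (nat_lit 988) (nat_lit 6845970011) (nat_lit 76) (nat_lit 241594124) (nat_lit 397) (nat_lit 5) (nat_lit 410) (nat_lit 5) (nat_lit 398) (nat_lit 5) (nat_lit 424) (nat_lit 377) (nat_lit 339)) (XT.lf (nat_lit 0) (nat_lit 3164725049) (nat_lit 988) (nat_lit 1843687531) (nat_lit 76) (nat_lit 2663904380) (nat_lit 397) (nat_lit 5) (nat_lit 410) (nat_lit 5) (nat_lit 398) (nat_lit 5) (nat_lit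 425) (nat_lit 377) (nat_lit 338))))))))
noncomputable def xc80 : XT := (XT.nd (nat_lit 1794) (nat_lit 7372) (nat_lit 0) (XT.nd (nat_lit 858) (nat_lit 5244) (nat_lit 0) (XT.nd (nat_lit 390) (nat_lit 3116) (nat_lit 0) (XT.nd (nat_lit 156) (nat_lit 1672) (nat_lit 0) (XT.nd (nat_lit 78) (nat_lit 912) (nat_lit 0) (XT.lf (nat_lit 0) (nat_lit 3253815118) (nat_lit 912) (nat_lit 2574843855) (nat_lit 988) (nat_lit 1901483890) (nat_lit 385) (nat_lit 5) (nat_lit 397) (nat_lit 5) (nat_lit 398) (nat_lit 5) (nat_lit 426) (nat_lit 377) (nat_lit 337)) (XT.lf (nat_lit 0) (nat_lit 645039619) (nat_lit 836) (nat_lit 72629678) (nat_lit 912) (nat_lit 7071951439) (nat_lit 373) (nat_lit 5) (nat_lit 384) (nat_lit 5) (nat_lit 385) (nat_lit 5) (nat_lit 427) (nat_lit 377) (nat_lit 336))) (XT.nd (nat_lit 78) (nat_lit 1672) (nat_lit 0) (XT.lf (nat_lit 0) (nat_lit 3364885842) (nat_lit 912) (nat_lit 1997457991) (nat_lit 76) (nat_lit 2487680598) (nat_lit 373)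 (nat_lit 5) (nat_lit 385) (nat_lit 5) (nat_lit 374) (nat_lit 5) (nat_lit 428) (nat_lit 377) (nat_lit 335)) (XT.nd (nat_lit 78) (nat_lit 836) (nat_lit 0) (XT.lf (nat_lit 0) (nat_lit 3247272228) (nat_lit 836) (nat_lit 2795006102) (nat_lit 912) (nat_lit 1869823499) (nat_lit 362) (nat_lit 5) (nat_lit 373) (nat_lit 5) (nat_lit 374) (nat_lit 5) (nat_lit 429) (nat_lit 377) (nat_lit 334)) (XT.lf (nat_lit 0) (nat_lit 603743700) (nat_lit 760) (nat_lit 156934248) (nat_lit 836) (nat_lit 7215182225) (nat_lit 351) (nat_lit 5) (nat_lit 361) (nat_lit 5) (nat_lit 362) (nat_lit 5) (nat_lit 430) (nat_lit 377) (nat_lit 333))))) (XT.nd (nat_lit 234) (nat_lit 1520) (nat_lit 0) (XT.nd (nat_lit 78) (nat_lit 1596) (nat_lit 0) (XT.lf (nat_lit 0) (nat_lit 3423200024) (nat_lit 836) (nat_lit 2076655108) (nat_lit 76) (nat_lit 2540712079) (nat_lit 351) (nat_lit 5) (nat_lit 362) (nat_lit 5) (nat_lit 352) (nat_lit 5) (nat_lit 431) (nat_lit 377) (nat_lit 332))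 (XT.nd (nat_lit 78) (nat_lit 836) (nat_lit 0) (XT.lf (nat_lit 0) (nat_lit 3319896682) (nat_lit 760) (nat_lit 2798985431) (nat_lit 836) (nat_lit 1988097564) (nat_lit 341) (nat_lit 5) (nat_lit 351) (nat_lit 5) (nat_lit 352) (nat_lit 5) (nat_lit 432) (nat_lit 377) (nat_lit 331)) (XT.lf (nat_lit 0) (nat_lit 634226446) (nat_lit 760) (nat_lit 26136518) (nat_lit 836) (nat_lit 7514762367) (nat_lit 330) (nat_lit 5) (nat_lit 340) (nat_lit 5) (nat_lit 341) (nat_lit 5) (nat_lit 433) (nat_lit 377) (nat_lit 330)))) (XT.nd (nat_lit 78) (nat_lit 1520) (nat_lit 0) (XT.lf (nat_lit 0) (nat_lit 3343776325) (nat_lit 836) (nat_lit 2094793479) (nat_lit 76) (nat_lit 2805638115) (nat_lit 330) (nat_lit 5) (nat_lit 341) (nat_lit 5) (nat_lit 331) (nat_lit 5) (nat_lit 434) (nat_lit 377) (nat_lit 329)) (XT.nd (nat_lit 78) (nat_lit 760) (nat_lit 0) (XT.lf (nat_lit 0) (nat_lit 3458277851) (nat_lit 760) (nat_lit 2604078421) (nat_lit 836) (nat_lit 2252694676)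 (nat_lit 320) (nat_lit 5) (nat_lit 330) (nat_lit 5) (nat_lit 331) (nat_lit 5) (nat_lit 435) (nat_lit 377) (nat_lit 328)) (XT.lf (nat_lit 0) (nat_lit 422027790) (nat_lit 760) (nat_lit 7666794013) (nat_lit 76) (nat_lit 298841151) (nat_lit 310) (nat_lit 5) (nat_lit 320) (nat_lit 5) (nat_lit 311) (nat_lit 5) (nat_lit 436) (nat_lit 377) (nat_lit 327)))))) (XT.nd (nat_lit 468) (nat_lit 2508) (nat_lit 0) (XT.nd (nat_lit 234) (nat_lit 1292) (nat_lit 0) (XT.nd (nat_lit 78) (nat_lit 1444) (nat_lit 0) (XT.lf (nat_lit 0) (nat_lit 3129712049) (nat_lit 760) (nat_lit 2065398933) (nat_lit 76) (nat_lit 3266134044) (nat_lit 310) (nat_lit 5) (nat_lit 320) (nat_lit 5) (nat_lit 311) (nat_lit 5) (nat_lit 437) (nat_lit 377) (nat_lit 326)) (XT.nd (nat_lit 78) (nat_lit 760) (nat_lit 0) (XT.lf (nat_lit 0) (nat_lit 3648976796) (nat_lit 684) (nat_lit 2226607752) (nat_lit 760) (nat_lit 2661041591) (nat_lit 301) (nat_lit 5) (nat_lit 310) (nat_lit 5) (nat_lit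 311) (nat_lit 5) (nat_lit 438) (nat_lit 377) (nat_lit 325)) (XT.lf (nat_lit 0) (nat_lit 47379740) (nat_lit 760) (nat_lit 7763199332) (nat_lit 76) (nat_lit 803228526) (nat_lit 291) (nat_lit 5) (nat_lit 301) (nat_lit 5) (nat_lit 292) (nat_lit 5) (nat_lit 439) (nat_lit 377) (nat_lit 324)))) (XT.nd (nat_lit 78) (nat_lit 1292) (nat_lit 0) (XT.lf (nat_lit 0) (nat_lit 2783102495) (nat_lit 760) (nat_lit 2002132030) (nat_lit 76) (nat_lit 3906778707) (nat_lit 291) (nat_lit 5) (nat_lit 301) (nat_lit 5) (nat_lit 292) (nat_lit 5) (nat_lit 440) (nat_lit 377) (nat_lit 323)) (XT.nd (nat_lit 78) (nat_lit 608) (nat_lit 0) (XT.lf (nat_lit 0) (nat_lit 3878401002) (nat_lit 684) (nat_lit 1682054541) (nat_lit 760) (nat_lit 3211596593) (nat_lit 282) (nat_lit 5) (nat_lit 291) (nat_lit 5) (nat_lit 292) (nat_lit 5) (nat_lit 441) (nat_lit 377) (nat_lit 322)) (XT.lf (nat_lit 0) (nat_lit 1006722249) (nat_lit 608) (nat_lit 7378452992) (nat_lit 684) (nat_lit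 468687512) (nat_lit 274) (nat_lit 5) (nat_lit 282) (nat_lit 5) (nat_lit 283) (nat_lit 5) (nat_lit 442) (nat_lit 377) (nat_lit 321))))) (XT.nd (nat_lit 234) (nat_lit 1216) (nat_lit 0) (XT.nd (nat_lit 78) (nat_lit 1216) (nat_lit 0) (XT.lf (nat_lit 0) (nat_lit 2305042721) (nat_lit 684) (nat_lit 1918915611) (nat_lit 76) (nat_lit 4712925670) (nat_lit 273) (nat_lit 5) (nat_lit 282) (nat_lit 5) (nat_lit 274) (nat_lit 5) (nat_lit 443) (nat_lit 377) (nat_lit 320)) (XT.nd (nat_lit 78) (nat_lit 608) (nat_lit 0) (XT.lf (nat_lit 0) (nat_lit 4132674784) (nat_lit 608) (nat_lit 985187321) (nat_lit 684) (nat_lit 3903850709) (nat_lit 265) (nat_lit 5) (nat_lit 273) (nat_lit 5) (nat_lit 274) (nat_lit 5) (nat_lit 444) (nat_lit 377) (nat_lit 319)) (XT.lf (nat_lit 0) (nat_lit 1176959133) (nat_lit 608) (nat_lit 6809051595) (nat_lit 684) (nat_lit 1122252787) (nat_lit 257) (nat_lit 5) (nat_lit 265) (nat_lit 5) (nat_lit 266) (nat_lit 5) (nat_lit 445)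 (nat_lit 377) (nat_lit 318)))) (XT.nd (nat_lit 78) (nat_lit 1140) (nat_lit 0) (XT.lf (nat_lit 0) (nat_lit 1695621538) (nat_lit 684) (nat_lit 1830067511) (nat_lit 76) (nat_lit 5670577259) (nat_lit 256) (nat_lit 5) (nat_lit 265) (nat_lit 5) (nat_lit 257) (nat_lit 5) (nat_lit 446) (nat_lit 377) (nat_lit 317)) (XT.nd (nat_lit 78) (nat_lit 532) (nat_lit 0) (XT.lf (nat_lit 0) (nat_lit 4397504233) (nat_lit 608) (nat_lit 150188661) (nat_lit 684) (nat_lit 4738336948) (nat_lit 248) (nat_lit 5) (nat_lit 256) (nat_lit 5) (nat_lit 257) (nat_lit 5) (nat_lit 447) (nat_lit 377) (nat_lit 316)) (XT.lf (nat_lit 0) (nat_lit 1347022693) (nat_lit 532) (nat_lit 6116907555) (nat_lit 608) (nat_lit 1913522163) (nat_lit 241) (nat_lit 5) (nat_lit 248) (nat_lit 5) (nat_lit 249) (nat_lit 5) (nat_lit 448) (nat_lit 377) (nat_lit 315))))))) (XT.nd (nat_lit 858) (nat_lit 3496) (nat_lit 0) (XT.nd (nat_lit 390) (nat_lit 2052) (nat_lit 0) (XT.nd (nat_lit 156)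 (nat_lit 1140) (nat_lit 0) (XT.nd (nat_lit 78) (nat_lit 608) (nat_lit 0) (XT.lf (nat_lit 0) (nat_lit 953907511) (nat_lit 608) (nat_lit 1750439624) (nat_lit 76) (nat_lit 6766260411) (nat_lit 240) (nat_lit 5) (nat_lit 248) (nat_lit 5) (nat_lit 241) (nat_lit 5) (nat_lit 449) (nat_lit 377) (nat_lit 314)) (XT.lf (nat_lit 0) (nat_lit 3854069876) (nat_lit 684) (nat_lit 4912682168) (nat_lit 76) (nat_lit 798606541) (nat_lit 232) (nat_lit 5) (nat_lit 241) (nat_lit 5) (nat_lit 233) (nat_lit 5) (nat_lit 450) (nat_lit 377) (nat_lit 313))) (XT.nd (nat_lit 78) (nat_lit 608) (nat_lit 0) (XT.lf (nat_lit 0) (nat_lit 1501669832) (nat_lit 532) (nat_lit 5315845389) (nat_lit 608) (nat_lit 2844389605) (nat_lit 225) (nat_lit 5) (nat_lit 232) (nat_lit 5) (nat_lit 233) (nat_lit 5) (nat_lit 451) (nat_lit 377) (nat_lit 312)) (XT.nd (nat_lit 78) (nat_lit 532) (nat_lit 0) (XT.lf (nat_lit 0) (nat_lit 77926733) (nat_lit 608) (nat_lit 1695564555) (nat_lit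 76) (nat_lit 7986903361) (nat_lit 224) (nat_lit 5) (nat_lit 232) (nat_lit 5) (nat_lit 225) (nat_lit 5) (nat_lit 452) (nat_lit 377) (nat_lit 311)) (XT.lf (nat_lit 0) (nat_lit 3031257487) (nat_lit 608) (nat_lit 4974013575) (nat_lit 76) (nat_lit 1854999533) (nat_lit 217) (nat_lit 5) (nat_lit 225) (nat_lit 5) (nat_lit 218) (nat_lit 5) (nat_lit 453) (nat_lit 377) (nat_lit 310))))) (XT.nd (nat_lit 234) (nat_lit 988) (nat_lit 0) (XT.nd (nat_lit 78) (nat_lit 608) (nat_lit 0) (XT.lf (nat_lit 0) (nat_lit 1624875283) (nat_lit 456) (nat_lit 4419424383) (nat_lit 532) (nat_lit 3917836836) (nat_lit 211) (nat_lit 5) (nat_lit 217) (nat_lit 5) (nat_lit 218) (nat_lit 5) (nat_lit 454) (nat_lit 377) (nat_lit 309)) (XT.nd (nat_lit 78) (nat_lit 608) (nat_lit 0) (XT.lf (nat_lit 0) (nat_lit 8378067373) (nat_lit 456) (nat_lit 740166424) (nat_lit 532) (nat_lit 947798539) (nat_lit 211) (nat_lit 5) (nat_lit 217) (nat_lit 5) (nat_lit 218) (nat_lit 5) (nat_lit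 455) (nat_lit 377) (nat_lit 308)) (XT.lf (nat_lit 0) (nat_lit 2074938493) (nat_lit 608) (nat_lit 5088433062) (nat_lit 76) (nat_lit 3007957273) (nat_lit 203) (nat_lit 5) (nat_lit 211) (nat_lit 5) (nat_lit 204) (nat_lit 5) (nat_lit 456) (nat_lit 377) (nat_lit 307)))) (XT.nd (nat_lit 78) (nat_lit 532) (nat_lit 0) (XT.lf (nat_lit 0) (nat_lit 1699668416) (nat_lit 456) (nat_lit 3441064687) (nat_lit 532) (nat_lit 5137971903) (nat_lit 197) (nat_lit 5) (nat_lit 203) (nat_lit 5) (nat_lit 204) (nat_lit 5) (nat_lit 457) (nat_lit 377) (nat_lit 306)) (XT.nd (nat_lit 78) (nat_lit 532) (nat_lit 0) (XT.lf (nat_lit 0) (nat_lit 8272722936) (nat_lit 532) (nat_lit 1742753463) (nat_lit 76) (nat_lit 372659556) (nat_lit 197) (nat_lit 5) (nat_lit 204) (nat_lit 5) (nat_lit 198) (nat_lit 5) (nat_lit 458) (nat_lit 377) (nat_lit 305)) (XT.lf (nat_lit 0) (nat_lit 980649641) (nat_lit 532) (nat_lit 5273910955) (nat_lit 76) (nat_lit 4244559071) (nat_lit 190)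 (nat_lit 5) (nat_lit 197) (nat_lit 5) (nat_lit 191) (nat_lit 5) (nat_lit 459) (nat_lit 377) (nat_lit 304)))))) (XT.nd (nat_lit 468) (nat_lit 1672) (nat_lit 0) (XT.nd (nat_lit 234) (nat_lit 912) (nat_lit 0) (XT.nd (nat_lit 78) (nat_lit 456) (nat_lit 0) (XT.lf (nat_lit 0) (nat_lit 1707958595) (nat_lit 456) (nat_lit 2394175588) (nat_lit 532) (nat_lit 6510077249) (nat_lit 184) (nat_lit 5) (nat_lit 190) (nat_lit 5) (nat_lit 191) (nat_lit 5) (nat_lit 460) (nat_lit 377) (nat_lit 303)) (XT.nd (nat_lit 78) (nat_lit 456) (nat_lit 0) (XT.lf (nat_lit 0) (nat_lit 7300868118) (nat_lit 532) (nat_lit 1880817031) (nat_lit 76) (nat_lit 1545587954) (nat_lit 184) (nat_lit 5) (nat_lit 191) (nat_lit 5) (nat_lit 185) (nat_lit 5) (nat_lit 461) (nat_lit 377) (nat_lit 302)) (XT.lf (nat_lit 0) (nat_lit 5292865238) (nat_lit 456) (nat_lit 5290709911) (nat_lit 532) (nat_lit 260665270) (nat_lit 178) (nat_lit 5) (nat_lit 184) (nat_lit 5) (nat_lit 185) (nat_lit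 5) (nat_lit 462) (nat_lit 377) (nat_lit 301)))) (XT.nd (nat_lit 78) (nat_lit 456) (nat_lit 0) (XT.lf (nat_lit 0) (nat_lit 1630347407) (nat_lit 380) (nat_lit 1292287040) (nat_lit 456) (nat_lit 8040667865) (nat_lit 172) (nat_lit 5) (nat_lit 177) (nat_lit 5) (nat_lit 178) (nat_lit 5) (nat_lit 463) (nat_lit 377) (nat_lit 300)) (XT.nd (nat_lit 78) (nat_lit 456) (nat_lit 0) (XT.lf (nat_lit 0) (nat_lit 6191805410) (nat_lit 456) (nat_lit 2117229630) (nat_lit 76) (nat_lit 2775166156) (nat_lit 172) (nat_lit 5) (nat_lit 178) (nat_lit 5) (nat_lit 173) (nat_lit 5) (nat_lit 464) (nat_lit 377) (nat_lit 299)) (XT.lf (nat_lit 0) (nat_lit 5259980849) (nat_lit 456) (nat_lit 4279778325) (nat_lit 532) (nat_lit 1667494943) (nat_lit 166) (nat_lit 5) (nat_lit 172) (nat_lit 5) (nat_lit 173) (nat_lit 5) (nat_lit 465) (nat_lit 377) (nat_lit 298))))) (XT.nd (nat_lit 234) (nat_lit 836) (nat_lit 0) (XT.nd (nat_lit 78) (nat_lit 380) (nat_lit 0) (XT.lf (nat_lit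 0) (nat_lit 1445926015) (nat_lit 380) (nat_lit 149185614) (nat_lit 456) (nat_lit 9737560160) (nat_lit 160) (nat_lit 5) (nat_lit 165) (nat_lit 5) (nat_lit 166) (nat_lit 5) (nat_lit 466) (nat_lit 377) (nat_lit 297)) (XT.nd (nat_lit 78) (nat_lit 380) (nat_lit 0) (XT.lf (nat_lit 0) (nat_lit 4938214047) (nat_lit 456) (nat_lit 2473456231) (nat_lit 76) (nat_lit 4047959476) (nat_lit 160) (nat_lit 5) (nat_lit 166) (nat_lit 5) (nat_lit 161) (nat_lit 5) (nat_lit 467) (nat_lit 377) (nat_lit 296)) (XT.lf (nat_lit 0) (nat_lit 5111433664) (nat_lit 380) (nat_lit 3242479120) (nat_lit 456) (nat_lit 3235103147) (nat_lit 155) (nat_lit 5) (nat_lit 160) (nat_lit 5) (nat_lit 161) (nat_lit 5) (nat_lit 468) (nat_lit 377) (nat_lit 295)))) (XT.nd (nat_lit 78) (nat_lit 380) (nat_lit 0) (XT.lf (nat_lit 0) (nat_lit 117740371) (nat_lit 456) (nat_lit 10595637016) (nat_lit 76) (nat_lit 1007554083) (nat_lit 149) (nat_lit 5) (nat_lit 155) (nat_lit 5) (nat_lit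 150) (nat_lit 5) (nat_lit 469) (nat_lit 377) (nat_lit 294)) (XT.nd (nat_lit 78) (nat_lit 380) (nat_lit 0) (XT.lf (nat_lit 0) (nat_lit 3531429765) (nat_lit 456) (nat_lit 2972771135) (nat_lit 76) (nat_lit 5350118122) (nat_lit 149) (nat_lit 5) (nat_lit 155) (nat_lit 5) (nat_lit 150) (nat_lit 5) (nat_lit 470) (nat_lit 377) (nat_lit 293)) (XT.lf (nat_lit 0) (nat_lit 4823654918) (nat_lit 380) (nat_lit 2193445924) (nat_lit 456) (nat_lit 4973202777) (nat_lit 144) (nat_lit 5) (nat_lit 149) (nat_lit 5) (nat_lit 150) (nat_lit 5) (nat_lit 471) (nat_lit 377) (nat_lit 292))))))))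
noncomputable def xc81 : XT := (XT.nd (nat_lit 1794) (nat_lit 1976) (nat_lit 0) (XT.nd (nat_lit 858) (nat_lit 2280) (nat_lit 0) (XT.nd (nat_lit 390) (nat_lit 1368) (nat_lit 0) (XT.nd (nat_lit 156) (nat_lit 760) (nat_lit 0) (XT.nd (nat_lit 78) (nat_lit 76) (nat_lit 0) (XT.lf (nat_lit 0) (nat_lit 639304327) (nat_lit 380) (nat_lit 9944284076) (nat_lit 456) (nat_lit 1545200829) (nat_lit 139) (nat_lit 5) (nat_lit 144) (nat_lit 5) (nat_lit 145) (nat_lit 5) (nat_lit 472) (nat_lit 377) (nat_lit 291)) (XT.lf (nat_lit 0) (nat_lit 1961351529) (nat_lit 456) (nat_lit 3640501539) (nat_lit 76) (nat_lit 6667229695) (nat_lit 138) (nat_lit 5) (nat_lit 144) (nat_lit 5) (nat_lit 139) (nat_lit 5) (nat_lit 473) (nat_lit 377) (nat_lit 290))) (XT.nd (nat_lit 78) (nat_lit 380) (nat_lit 0) (XT.lf (nat_lit 0) (nat_lit 4370959298) (nat_lit 380) (nat_lit 1147966471) (nat_lit 456) (nat_lit 6893023689) (nat_lit 133) (nat_lit 5) (nat_lit 138) (nat_lit 5)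 (nat_lit 139) (nat_lit 5) (nat_lit 474) (nat_lit 377) (nat_lit 289)) (XT.nd (nat_lit 78) (nat_lit 380) (nat_lit 0) (XT.lf (nat_lit 0) (nat_lit 9167629813) (nat_lit 456) (nat_lit 29151775) (nat_lit 76) (nat_lit 3360495460) (nat_lit 133) (nat_lit 5) (nat_lit 139) (nat_lit 5) (nat_lit 134) (nat_lit 5) (nat_lit 475) (nat_lit 377) (nat_lit 288)) (XT.lf (nat_lit 0) (nat_lit 216335000) (nat_lit 380) (nat_lit 4504293080) (nat_lit 76) (nat_lit 7984163271) (nat_lit 128) (nat_lit 5) (nat_lit 133) (nat_lit 5) (nat_lit 129) (nat_lit 5) (nat_lit 476) (nat_lit 377) (nat_lit 287))))) (XT.nd (nat_lit 234) (nat_lit 684) (nat_lit 0) (XT.nd (nat_lit 78) (nat_lit 304) (nat_lit 0) (XT.lf (nat_lit 0) (nat_lit 3725271852) (nat_lit 380) (nat_lit 122144824) (nat_lit 456) (nat_lit 9007426757) (nat_lit 123) (nat_lit 5) (nat_lit 128) (nat_lit 5) (nat_lit 129) (nat_lit 5) (nat_lit 477) (nat_lit 377) (nat_lit 286)) (XT.nd (nat_lit 78) (nat_lit 304) (nat_lit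 0) (XT.lf (nat_lit 0) (nat_lit 7585297105) (nat_lit 456) (nat_lit 897840928) (nat_lit 76) (nat_lit 4524077870) (nat_lit 123) (nat_lit 5) (nat_lit 129) (nat_lit 5) (nat_lit 124) (nat_lit 5) (nat_lit 478) (nat_lit 377) (nat_lit 285)) (XT.lf (nat_lit 0) (nat_lit 7556453803) (nat_lit 304) (nat_lit 3865950070) (nat_lit 380) (nat_lit 1739745408) (nat_lit 119) (nat_lit 5) (nat_lit 123) (nat_lit 5) (nat_lit 124) (nat_lit 5) (nat_lit 479) (nat_lit 377) (nat_lit 284)))) (XT.nd (nat_lit 78) (nat_lit 304) (nat_lit 0) (XT.lf (nat_lit 0) (nat_lit 1994532432) (nat_lit 380) (nat_lit 10469735931) (nat_lit 76) (nat_lit 855555849) (nat_lit 114) (nat_lit 5) (nat_lit 119) (nat_lit 5) (nat_lit 115) (nat_lit 5) (nat_lit 480) (nat_lit 377) (nat_lit 283)) (XT.nd (nat_lit 78) (nat_lit 304) (nat_lit 0) (XT.lf (nat_lit 0) (nat_lit 5818495675) (nat_lit 380) (nat_lit 2006879221) (nat_lit 76) (nat_lit 5654284521) (nat_lit 114) (nat_lit 5) (nat_lit 119) (nat_lit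 5) (nat_lit 115) (nat_lit 5) (nat_lit 481) (nat_lit 377) (nat_lit 282)) (XT.lf (nat_lit 0) (nat_lit 6672967094) (nat_lit 304) (nat_lit 3064595097) (nat_lit 380) (nat_lit 3904759270) (nat_lit 110) (nat_lit 5) (nat_lit 114) (nat_lit 5) (nat_lit 115) (nat_lit 5) (nat_lit 482) (nat_lit 377) (nat_lit 281)))))) (XT.nd (nat_lit 468) (nat_lit 988) (nat_lit 0) (XT.nd (nat_lit 234) (nat_lit 608) (nat_lit 0) (XT.nd (nat_lit 78) (nat_lit 380) (nat_lit 0) (XT.lf (nat_lit 0) (nat_lit 1716521777) (nat_lit 304) (nat_lit 12030249121) (nat_lit 380) (nat_lit 61233197) (nat_lit 106) (nat_lit 5) (nat_lit 110) (nat_lit 5) (nat_lit 111) (nat_lit 5) (nat_lit 483) (nat_lit 377) (nat_lit 280)) (XT.nd (nat_lit 78) (nat_lit 304) (nat_lit 0) (XT.lf (nat_lit 0) (nat_lit 3851412171) (nat_lit 380) (nat_lit 3391122308) (nat_lit 76) (nat_lit 6733109994) (nat_lit 105) (nat_lit 5) (nat_lit 110) (nat_lit 5) (nat_lit 106) (nat_lit 5) (nat_lit 484) (nat_lit 377)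 (nat_lit 279)) (XT.lf (nat_lit 0) (nat_lit 5515983614) (nat_lit 304) (nat_lit 2337291019) (nat_lit 380) (nat_lit 6293121668) (nat_lit 101) (nat_lit 5) (nat_lit 105) (nat_lit 5) (nat_lit 106) (nat_lit 5) (nat_lit 485) (nat_lit 377) (nat_lit 278)))) (XT.nd (nat_lit 78) (nat_lit 304) (nat_lit 0) (XT.lf (nat_lit 0) (nat_lit 273901548) (nat_lit 304) (nat_lit 11679357906) (nat_lit 380) (nat_lit 2366944379) (nat_lit 97) (nat_lit 5) (nat_lit 101) (nat_lit 5) (nat_lit 102) (nat_lit 5) (nat_lit 486) (nat_lit 377) (nat_lit 277)) (XT.nd (nat_lit 78) (nat_lit 228) (nat_lit 0) (XT.lf (nat_lit 0) (nat_lit 1666199901) (nat_lit 380) (nat_lit 5088917295) (nat_lit 76) (nat_lit 7741161470) (nat_lit 96) (nat_lit 5) (nat_lit 101) (nat_lit 5) (nat_lit 97) (nat_lit 5) (nat_lit 487) (nat_lit 377) (nat_lit 276)) (XT.lf (nat_lit 0) (nat_lit 4046399756) (nat_lit 228) (nat_lit 1704829205) (nat_lit 304) (nat_lit 8924277052) (nat_lit 93) (nat_lit 5) (nat_lit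 96) (nat_lit 5) (nat_lit 97) (nat_lit 5) (nat_lit 488) (nat_lit 377) (nat_lit 275))))) (XT.nd (nat_lit 234) (nat_lit 380) (nat_lit 0) (XT.nd (nat_lit 78) (nat_lit 608) (nat_lit 0) (XT.lf (nat_lit 0) (nat_lit 9951435517) (nat_lit 304) (nat_lit 1485555978) (nat_lit 76) (nat_lit 3420659064) (nat_lit 93) (nat_lit 5) (nat_lit 97) (nat_lit 5) (nat_lit 94) (nat_lit 5) (nat_lit 489) (nat_lit 377) (nat_lit 274)) (XT.nd (nat_lit 78) (nat_lit 304) (nat_lit 0) (XT.lf (nat_lit 0) (nat_lit 7895157803) (nat_lit 304) (nat_lit 6380220352) (nat_lit 380) (nat_lit 767267349) (nat_lit 89) (nat_lit 5) (nat_lit 93) (nat_lit 5) (nat_lit 94) (nat_lit 5) (nat_lit 490) (nat_lit 377) (nat_lit 273)) (XT.lf (nat_lit 0) (nat_lit 2221098907) (nat_lit 228) (nat_lit 1189742067) (nat_lit 304) (nat_lit 11820019113) (nat_lit 85) (nat_lit 5) (nat_lit 88) (nat_lit 5) (nat_lit 89) (nat_lit 5) (nat_lit 491) (nat_lit 377) (nat_lit 272)))) (XT.nd (nat_lit 78) (nat_lit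 380) (nat_lit 0) (XT.lf (nat_lit 0) (nat_lit 7714512157) (nat_lit 304) (nat_lit 3618107761) (nat_lit 76) (nat_lit 4089074144) (nat_lit 85) (nat_lit 5) (nat_lit 89) (nat_lit 5) (nat_lit 86) (nat_lit 5) (nat_lit 492) (nat_lit 377) (nat_lit 271)) (XT.nd (nat_lit 78) (nat_lit 76) (nat_lit 0) (XT.lf (nat_lit 0) (nat_lit 5994746245) (nat_lit 304) (nat_lit 6134090222) (nat_lit 380) (nat_lit 3487018641) (nat_lit 81) (nat_lit 5) (nat_lit 85) (nat_lit 5) (nat_lit 86) (nat_lit 5) (nat_lit 493) (nat_lit 377) (nat_lit 270)) (XT.lf (nat_lit 0) (nat_lit 809091396) (nat_lit 380) (nat_lit 7407173) (nat_lit 76) (nat_lit 14997251233) (nat_lit 80) (nat_lit 5) (nat_lit 85) (nat_lit 5) (nat_lit 81) (nat_lit 5) (nat_lit 494) (nat_lit 377) (nat_lit 269))))))) (XT.nd (nat_lit 50700) (nat_lit 0) (nat_lit 49020) (XT.nd (nat_lit 468) (nat_lit 988) (nat_lit 0) (XT.nd (nat_lit 234) (nat_lit 532) (nat_lit 0) (XT.nd (nat_lit 78) (nat_lit 228) (nat_lit 0)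 (XT.lf (nat_lit 0) (nat_lit 5217202182) (nat_lit 304) (nat_lit 6176483930) (nat_lit 76) (nat_lit 4620001769) (nat_lit 77) (nat_lit 5) (nat_lit 81) (nat_lit 5) (nat_lit 78) (nat_lit 5) (nat_lit 495) (nat_lit 377) (nat_lit 268)) (XT.nd (nat_lit 78) (nat_lit 0) (nat_lit 0) (XT.lf (nat_lit 0) (nat_lit 3667083729) (nat_lit 228) (nat_lit 6054011151) (nat_lit 304) (nat_lit 6496379281) (nat_lit 74) (nat_lit 5) (nat_lit 77) (nat_lit 5) (nat_lit 78) (nat_lit 5) (nat_lit 496) (nat_lit 377) (nat_lit 267)) (XT.lf (nat_lit 0) (nat_lit 13754701519) (nat_lit 228) (nat_lit 580351786) (nat_lit 304) (nat_lit 2089884898) (nat_lit 74) (nat_lit 5) (nat_lit 77) (nat_lit 5) (nat_lit 78) (nat_lit 5) (nat_lit 497) (nat_lit 377) (nat_lit 266)))) (XT.nd (nat_lit 78) (nat_lit 228) (nat_lit 0) (XT.lf (nat_lit 0) (nat_lit 2433222605) (nat_lit 304) (nat_lit 9214955119) (nat_lit 76) (nat_lit 4986862829) (nat_lit 70) (nat_lit 5) (nat_lit 74) (nat_lit 5) (nat_lit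 71) (nat_lit 5) (nat_lit 498) (nat_lit 377) (nat_lit 265)) (XT.nd (nat_lit 78) (nat_lit 0) (nat_lit 0) (XT.lf (nat_lit 0) (nat_lit 856656846) (nat_lit 228) (nat_lit 6168526654) (nat_lit 304) (nat_lit 9823759364) (nat_lit 67) (nat_lit 5) (nat_lit 70) (nat_lit 5) (nat_lit 71) (nat_lit 5) (nat_lit 499) (nat_lit 377) (nat_lit 264)) (XT.lf (nat_lit 0) (nat_lit 11218651157) (nat_lit 228) (nat_lit 531255693) (nat_lit 304) (nat_lit 5316399567) (nat_lit 67) (nat_lit 5) (nat_lit 70) (nat_lit 5) (nat_lit 71) (nat_lit 5) (nat_lit 500) (nat_lit 377) (nat_lit 263))))) (XT.nd (nat_lit 234) (nat_lit 456) (nat_lit 0) (XT.nd (nat_lit 78) (nat_lit 304) (nat_lit 0) (XT.lf (nat_lit 0) (nat_lit 4489290466) (nat_lit 228) (nat_lit 12122265640) (nat_lit 304) (nat_lit 675614131) (nat_lit 64) (nat_lit 5) (nat_lit 67) (nat_lit 5) (nat_lit 68) (nat_lit 5) (nat_lit 501) (nat_lit 377) (nat_lit 262)) (XT.nd (nat_lit 78) (nat_lit 228) (nat_lit 0) (XT.lf (nat_lit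 0) (nat_lit 4027222722) (nat_lit 304) (nat_lit 2465162810) (nat_lit 76) (nat_lit 11019091285) (nat_lit 63) (nat_lit 5) (nat_lit 67) (nat_lit 5) (nat_lit 64) (nat_lit 5) (nat_lit 502) (nat_lit 377) (nat_lit 261)) (XT.lf (nat_lit 0) (nat_lit 8141598399) (nat_lit 228) (nat_lit 706181702) (nat_lit 304) (nat_lit 8891747438) (nat_lit 60) (nat_lit 5) (nat_lit 63) (nat_lit 5) (nat_lit 64) (nat_lit 5) (nat_lit 503) (nat_lit 377) (nat_lit 260)))) (XT.nd (nat_lit 78) (nat_lit 304) (nat_lit 0) (XT.lf (nat_lit 0) (nat_lit 965936467) (nat_lit 152) (nat_lit 12835385794) (nat_lit 228) (nat_lit 4170087044) (nat_lit 58) (nat_lit 5) (nat_lit 60) (nat_lit 5) (nat_lit 61) (nat_lit 5) (nat_lit 504) (nat_lit 377) (nat_lit 259)) (XT.nd (nat_lit 78) (nat_lit 228) (nat_lit 0) (XT.lf (nat_lit 0) (nat_lit 686995038) (nat_lit 228) (nat_lit 6379784468) (nat_lit 76) (nat_lit 11140077540) (nat_lit 57) (nat_lit 5) (nat_lit 60) (nat_lit 5) (nat_lit 58) (nat_lit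 5) (nat_lit 505) (nat_lit 377) (nat_lit 258)) (XT.lf (nat_lit 0) (nat_lit 4454886457) (nat_lit 228) (nat_lit 1139814821) (nat_lit 304) (nat_lit 12851576197) (nat_lit 54) (nat_lit 5) (nat_lit 57) (nat_lit 5) (nat_lit 58) (nat_lit 5) (nat_lit 506) (nat_lit 377) (nat_lit 257)))))) (XT.nd (nat_lit 468) (nat_lit 1596) (nat_lit 0) (XT.nd (nat_lit 234) (nat_lit 456) (nat_lit 0) (XT.nd (nat_lit 78) (nat_lit 228) (nat_lit 0) (XT.lf (nat_lit 0) (nat_lit 25345771) (nat_lit 228) (nat_lit 3174372664) (nat_lit 0) (nat_lit 25345771) (nat_lit 729) (nat_lit 5) (nat_lit 732) (nat_lit 4) (nat_lit 729) (nat_lit 4) (nat_lit 384) (nat_lit 378) (nat_lit 378)) (XT.nd (nat_lit 78) (nat_lit 228) (nat_lit 0) (XT.lf (nat_lit 0) (nat_lit 3189813837) (nat_lit 228) (nat_lit 2988194482) (nat_lit 0) (nat_lit 276393622) (nat_lit 729) (nat_lit 5) (nat_lit 732) (nat_lit 4) (nat_lit 729) (nat_lit 4) (nat_lit 385) (nat_lit 378) (nat_lit 377)) (XT.lf (nat_lit 0)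 (nat_lit 399366536) (nat_lit 228) (nat_lit 5915341085) (nat_lit 228) (nat_lit 145626541) (nat_lit 726) (nat_lit 4) (nat_lit 729) (nat_lit 5) (nat_lit 729) (nat_lit 4) (nat_lit 386) (nat_lit 378) (nat_lit 376)))) (XT.nd (nat_lit 78) (nat_lit 380) (nat_lit 0) (XT.lf (nat_lit 0) (nat_lit 2937198630) (nat_lit 304) (nat_lit 2636861868) (nat_lit 76) (nat_lit 893136088) (nat_lit 725) (nat_lit 5) (nat_lit 729) (nat_lit 5) (nat_lit 726) (nat_lit 4) (nat_lit 387) (nat_lit 378) (nat_lit 375)) (XT.nd (nat_lit 78) (nat_lit 76) (nat_lit 0) (XT.lf (nat_lit 0) (nat_lit 820205241) (nat_lit 304) (nat_lit 5187512225) (nat_lit 380) (nat_lit 467930899) (nat_lit 721) (nat_lit 5) (nat_lit 725) (nat_lit 5) (nat_lit 726) (nat_lit 4) (nat_lit 388) (nat_lit 378) (nat_lit 374)) (XT.lf (nat_lit 0) (nat_lit 2561713655) (nat_lit 380) (nat_lit 2165179795) (nat_lit 76) (nat_lit 1758237574) (nat_lit 720) (nat_lit 5) (nat_lit 725) (nat_lit 5) (nat_lit 721) (nat_lit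 5) (nat_lit 389) (nat_lit 378) (nat_lit 373))))) (XT.nd (nat_lit 234) (nat_lit 684) (nat_lit 0) (XT.nd (nat_lit 78) (nat_lit 532) (nat_lit 0) (XT.lf (nat_lit 0) (nat_lit 1364525225) (nat_lit 380) (nat_lit 4214878475) (nat_lit 456) (nat_lit 916692717) (nat_lit 715) (nat_lit 5) (nat_lit 720) (nat_lit 5) (nat_lit 721) (nat_lit 5) (nat_lit 390) (nat_lit 378) (nat_lit 372)) (XT.nd (nat_lit 78) (nat_lit 456) (nat_lit 0) (XT.lf (nat_lit 0) (nat_lit 2062109261) (nat_lit 456) (nat_lit 1572754719) (nat_lit 76) (nat_lit 2873363248) (nat_lit 714) (nat_lit 5) (nat_lit 720) (nat_lit 5) (nat_lit 715) (nat_lit 5) (nat_lit 391) (nat_lit 378) (nat_lit 371)) (XT.lf (nat_lit 0) (nat_lit 2032846468) (nat_lit 456) (nat_lit 2995553744) (nat_lit 532) (nat_lit 1493303122) (nat_lit 708) (nat_lit 5) (nat_lit 714) (nat_lit 5) (nat_lit 715) (nat_lit 5) (nat_lit 392) (nat_lit 378) (nat_lit 370)))) (XT.nd (nat_lit 78) (nat_lit 608) (nat_lit 0) (XT.lf (nat_lit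 0) (nat_lit 1436891953) (nat_lit 532) (nat_lit 858963045) (nat_lit 76) (nat_lit 4240658514) (nat_lit 707) (nat_lit 5) (nat_lit 714) (nat_lit 5) (nat_lit 708) (nat_lit 5) (nat_lit 393) (nat_lit 378) (nat_lit 369)) (XT.nd (nat_lit 78) (nat_lit 76) (nat_lit 0) (XT.lf (nat_lit 0) (nat_lit 2825922792) (nat_lit 532) (nat_lit 1527174874) (nat_lit 608) (nat_lit 2199402794) (nat_lit 700) (nat_lit 5) (nat_lit 707) (nat_lit 5) (nat_lit 708) (nat_lit 5) (nat_lit 394) (nat_lit 378) (nat_lit 368)) (XT.lf (nat_lit 0) (nat_lit 684320953) (nat_lit 608) (nat_lit 22951232) (nat_lit 76) (nat_lit 5862752384) (nat_lit 699) (nat_lit 5) (nat_lit 707) (nat_lit 5) (nat_lit 700) (nat_lit 5) (nat_lit 395) (nat_lit 378) (nat_lit 367))))))))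
noncomputable def xc82 : XT := (XT.nd (nat_lit 1794) (nat_lit 13908) (nat_lit 0) (XT.nd (nat_lit 858) (nat_lit 11628) (nat_lit 0) (XT.nd (nat_lit 390) (nat_lit 3952) (nat_lit 0) (XT.nd (nat_lit 156) (nat_lit 912) (nat_lit 0) (XT.nd (nat_lit 78) (nat_lit 684) (nat_lit 0) (XT.lf (nat_lit 0) (nat_lit 3552893607) (nat_lit 684) (nat_lit 2845037323) (nat_lit 76) (nat_lit 190569504) (nat_lit 691) (nat_lit 5) (nat_lit 700) (nat_lit 5) (nat_lit 692) (nat_lit 5) (nat_lit 396) (nat_lit 378) (nat_lit 366)) (XT.lf (nat_lit 0) (nat_lit 940021998) (nat_lit 684) (nat_lit 5482006240) (nat_lit 760) (nat_lit 186477809) (nat_lit 682) (nat_lit 5) (nat_lit 691) (nat_lit 5) (nat_lit 692) (nat_lit 5) (nat_lit 397) (nat_lit 378) (nat_lit 365))) (XT.nd (nat_lit 78) (nat_lit 836) (nat_lit 0) (XT.lf (nat_lit 0) (nat_lit 2635999734) (nat_lit 760) (nat_lit 1853376694) (nat_lit 76) (nat_lit 2140164609) (nat_lit 681) (nat_lit 5) (nat_lit 691) (nat_lit 5)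 (nat_lit 682) (nat_lit 5) (nat_lit 398) (nat_lit 378) (nat_lit 364)) (XT.nd (nat_lit 78) (nat_lit 76) (nat_lit 0) (XT.lf (nat_lit 0) (nat_lit 2017760768) (nat_lit 760) (nat_lit 3441905725) (nat_lit 836) (nat_lit 1192383505) (nat_lit 671) (nat_lit 5) (nat_lit 681) (nat_lit 5) (nat_lit 682) (nat_lit 5) (nat_lit 399) (nat_lit 378) (nat_lit 363)) (XT.lf (nat_lit 0) (nat_lit 1590162967) (nat_lit 836) (nat_lit 740298621) (nat_lit 76) (nat_lit 4345409154) (nat_lit 670) (nat_lit 5) (nat_lit 681) (nat_lit 5) (nat_lit 671) (nat_lit 5) (nat_lit 400) (nat_lit 378) (nat_lit 362))))) (XT.nd (nat_lit 234) (nat_lit 2128) (nat_lit 0) (XT.nd (nat_lit 78) (nat_lit 988) (nat_lit 0) (XT.lf (nat_lit 0) (nat_lit 3220728519) (nat_lit 836) (nat_lit 1148552785) (nat_lit 912) (nat_lit 2331612571) (nat_lit 659) (nat_lit 5) (nat_lit 670) (nat_lit 5) (nat_lit 671) (nat_lit 5) (nat_lit 401) (nat_lit 378) (nat_lit 361)) (XT.nd (nat_lit 78) (nat_lit 0) (nat_lit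 0) (XT.lf (nat_lit 0) (nat_lit 416611123) (nat_lit 988) (nat_lit 6225647567) (nat_lit 76) (nat_lit 85211088) (nat_lit 646) (nat_lit 5) (nat_lit 659) (nat_lit 5) (nat_lit 647) (nat_lit 5) (nat_lit 402) (nat_lit 378) (nat_lit 360)) (XT.lf (nat_lit 0) (nat_lit 3157270989) (nat_lit 988) (nat_lit 2213524026) (nat_lit 76) (nat_lit 1384120222) (nat_lit 646) (nat_lit 5) (nat_lit 659) (nat_lit 5) (nat_lit 647) (nat_lit 5) (nat_lit 403) (nat_lit 378) (nat_lit 359)))) (XT.nd (nat_lit 78) (nat_lit 1140) (nat_lit 0) (XT.lf (nat_lit 0) (nat_lit 1857283061) (nat_lit 988) (nat_lit 4046292347) (nat_lit 1064) (nat_lit 880337292) (nat_lit 633) (nat_lit 5) (nat_lit 646) (nat_lit 5) (nat_lit 647) (nat_lit 5) (nat_lit 404) (nat_lit 378) (nat_lit 358)) (XT.nd (nat_lit 78) (nat_lit 1064) (nat_lit 0) (XT.lf (nat_lit 0) (nat_lit 1820721578) (nat_lit 1064) (nat_lit 832501506) (nat_lit 76) (nat_lit 4160956176) (nat_lit 632) (nat_lit 5) (nat_lit 646) (nat_lit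 5) (nat_lit 633) (nat_lit 5) (nat_lit 405) (nat_lit 378) (nat_lit 357)) (XT.lf (nat_lit 0) (nat_lit 3335899060) (nat_lit 1064) (nat_lit 1190234190) (nat_lit 1140) (nat_lit 2319577720) (nat_lit 618) (nat_lit 5) (nat_lit 632) (nat_lit 5) (nat_lit 633) (nat_lit 5) (nat_lit 406) (nat_lit 378) (nat_lit 356)))))) (XT.nd (nat_lit 468) (nat_lit 6460) (nat_lit 0) (XT.nd (nat_lit 234) (nat_lit 2736) (nat_lit 0) (XT.nd (nat_lit 78) (nat_lit 1216) (nat_lit 0) (XT.lf (nat_lit 0) (nat_lit 355525954) (nat_lit 1216) (nat_lit 6199540052) (nat_lit 76) (nat_lit 323710335) (nat_lit 602) (nat_lit 5) (nat_lit 618) (nat_lit 5) (nat_lit 603) (nat_lit 5) (nat_lit 407) (nat_lit 378) (nat_lit 355)) (XT.nd (nat_lit 78) (nat_lit 1216) (nat_lit 0) (XT.lf (nat_lit 0) (nat_lit 3026552133) (nat_lit 1216) (nat_lit 1982784529) (nat_lit 76) (nat_lit 1903407630) (nat_lit 602) (nat_lit 5) (nat_lit 618) (nat_lit 5) (nat_lit 603) (nat_lit 5) (nat_lit 408) (nat_lit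 378) (nat_lit 354)) (XT.lf (nat_lit 0) (nat_lit 2302429672) (nat_lit 1216) (nat_lit 3406517608) (nat_lit 1292) (nat_lit 1239302522) (nat_lit 586) (nat_lit 5) (nat_lit 602) (nat_lit 5) (nat_lit 603) (nat_lit 5) (nat_lit 409) (nat_lit 378) (nat_lit 353)))) (XT.nd (nat_lit 78) (nat_lit 2660) (nat_lit 0) (XT.lf (nat_lit 0) (nat_lit 1398194869) (nat_lit 1292) (nat_lit 340083169) (nat_lit 76) (nat_lit 5246877733) (nat_lit 585) (nat_lit 5) (nat_lit 602) (nat_lit 5) (nat_lit 586) (nat_lit 5) (nat_lit 410) (nat_lit 378) (nat_lit 352)) (XT.nd (nat_lit 78) (nat_lit 1368) (nat_lit 0) (XT.lf (nat_lit 0) (nat_lit 4042760497) (nat_lit 1368) (nat_lit 2972223479) (nat_lit 76) (nat_lit 8249976) (nat_lit 568) (nat_lit 5) (nat_lit 586) (nat_lit 5) (nat_lit 569) (nat_lit 5) (nat_lit 411) (nat_lit 378) (nat_lit 351)) (XT.lf (nat_lit 0) (nat_lit 1433283216) (nat_lit 1368) (nat_lit 5275443427) (nat_lit 1444) (nat_lit 353992731) (nat_lit 550) (nat_lit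 5) (nat_lit 568) (nat_lit 5) (nat_lit 569) (nat_lit 5) (nat_lit 412) (nat_lit 378) (nat_lit 350))))) (XT.nd (nat_lit 234) (nat_lit 3344) (nat_lit 0) (XT.nd (nat_lit 78) (nat_lit 3040) (nat_lit 0) (XT.lf (nat_lit 0) (nat_lit 2260395145) (nat_lit 1444) (nat_lit 1197559175) (nat_lit 76) (nat_lit 3645436109) (nat_lit 549) (nat_lit 5) (nat_lit 568) (nat_lit 5) (nat_lit 550) (nat_lit 5) (nat_lit 413) (nat_lit 378) (nat_lit 349)) (XT.nd (nat_lit 78) (nat_lit 1596) (nat_lit 0) (XT.lf (nat_lit 0) (nat_lit 3318123670) (nat_lit 1444) (nat_lit 1572611206) (nat_lit 1520) (nat_lit 2254740095) (nat_lit 530) (nat_lit 5) (nat_lit 549) (nat_lit 5) (nat_lit 550) (nat_lit 5) (nat_lit 414) (nat_lit 378) (nat_lit 348)) (XT.lf (nat_lit 0) (nat_lit 342599804) (nat_lit 1596) (nat_lit 6479099095) (nat_lit 76) (nat_lit 367419190) (nat_lit 509) (nat_lit 5) (nat_lit 530) (nat_lit 5) (nat_lit 510) (nat_lit 5) (nat_lit 415) (nat_lit 378) (nat_lit 347))))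 (XT.nd (nat_lit 78) (nat_lit 3344) (nat_lit 0) (XT.lf (nat_lit 0) (nat_lit 2946005534) (nat_lit 1596) (nat_lit 1915825319) (nat_lit 76) (nat_lit 2371833025) (nat_lit 509) (nat_lit 5) (nat_lit 530) (nat_lit 5) (nat_lit 510) (nat_lit 5) (nat_lit 416) (nat_lit 378) (nat_lit 346)) (XT.nd (nat_lit 78) (nat_lit 1748) (nat_lit 0) (XT.lf (nat_lit 0) (nat_lit 2728214977) (nat_lit 1596) (nat_lit 2840010630) (nat_lit 1672) (nat_lit 1711553861) (nat_lit 488) (nat_lit 5) (nat_lit 509) (nat_lit 5) (nat_lit 510) (nat_lit 5) (nat_lit 417) (nat_lit 378) (nat_lit 345)) (XT.lf (nat_lit 0) (nat_lit 113337502) (nat_lit 1672) (nat_lit 753785400) (nat_lit 1748) (nat_lit 6460327490) (nat_lit 465) (nat_lit 5) (nat_lit 487) (nat_lit 5) (nat_lit 488) (nat_lit 5) (nat_lit 418) (nat_lit 378) (nat_lit 344))))))) (XT.nd (nat_lit 936) (nat_lit 6004) (nat_lit 0) (XT.nd (nat_lit 468) (nat_lit 3648) (nat_lit 0) (XT.nd (nat_lit 234) (nat_lit 2432) (nat_lit 0)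 (XT.nd (nat_lit 78) (nat_lit 1824) (nat_lit 0) (XT.lf (nat_lit 0) (nat_lit 3464246618) (nat_lit 1748) (nat_lit 2510076739) (nat_lit 76) (nat_lit 1401742300) (nat_lit 465) (nat_lit 5) (nat_lit 488) (nat_lit 5) (nat_lit 466) (nat_lit 5) (nat_lit 419) (nat_lit 378) (nat_lit 343)) (XT.nd (nat_lit 78) (nat_lit 76) (nat_lit 0) (XT.lf (nat_lit 0) (nat_lit 2266311449) (nat_lit 1748) (nat_lit 3817788150) (nat_lit 1824) (nat_lit 1342150651) (nat_lit 442) (nat_lit 5) (nat_lit 465) (nat_lit 5) (nat_lit 466) (nat_lit 5) (nat_lit 420) (nat_lit 378) (nat_lit 342)) (XT.lf (nat_lit 0) (nat_lit 1230501477) (nat_lit 1824) (nat_lit 360076769) (nat_lit 76) (nat_lit 5887339208) (nat_lit 441) (nat_lit 5) (nat_lit 465) (nat_lit 5) (nat_lit 442) (nat_lit 5) (nat_lit 421) (nat_lit 378) (nat_lit 341)))) (XT.nd (nat_lit 78) (nat_lit 988) (nat_lit 0) (XT.lf (nat_lit 0) (nat_lit 3823181203) (nat_lit 1520) (nat_lit 2994953582) (nat_lit 76) (nat_lit 712586888)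 (nat_lit 422) (nat_lit 5) (nat_lit 442) (nat_lit 5) (nat_lit 423) (nat_lit 5) (nat_lit 422) (nat_lit 378) (nat_lit 340)) (XT.nd (nat_lit 78) (nat_lit 76) (nat_lit 0) (XT.lf (nat_lit 0) (nat_lit 1917928165) (nat_lit 912) (nat_lit 4528212809) (nat_lit 988) (nat_lit 1138884259) (nat_lit 410) (nat_lit 5) (nat_lit 422) (nat_lit 5) (nat_lit 423) (nat_lit 5) (nat_lit 423) (nat_lit 378) (nat_lit 339)) (XT.lf (nat_lit 0) (nat_lit 1435261106) (nat_lit 988) (nat_lit 726976494) (nat_lit 76) (nat_lit 5478525430) (nat_lit 409) (nat_lit 5) (nat_lit 422) (nat_lit 5) (nat_lit 410) (nat_lit 5) (nat_lit 424) (nat_lit 378) (nat_lit 338))))) (XT.nd (nat_lit 234) (nat_lit 1748) (nat_lit 0) (XT.nd (nat_lit 78) (nat_lit 988) (nat_lit 0) (XT.lf (nat_lit 0) (nat_lit 4029760542) (nat_lit 988) (nat_lit 3384658257) (nat_lit 76) (nat_lit 283374912) (nat_lit 397) (nat_lit 5) (nat_lit 410) (nat_lit 5) (nat_lit 398) (nat_lit 5) (nat_lit 425) (nat_lit 378)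 (nat_lit 337)) (XT.nd (nat_lit 78) (nat_lit 76) (nat_lit 0) (XT.lf (nat_lit 0) (nat_lit 1669005628) (nat_lit 912) (nat_lit 4992034908) (nat_lit 988) (nat_lit 1095237547) (nat_lit 385) (nat_lit 5) (nat_lit 397) (nat_lit 5) (nat_lit 398) (nat_lit 5) (nat_lit 426) (nat_lit 378) (nat_lit 336)) (XT.lf (nat_lit 0) (nat_lit 1486927670) (nat_lit 988) (nat_lit 1002802171) (nat_lit 76) (nat_lit 5326454880) (nat_lit 384) (nat_lit 5) (nat_lit 397) (nat_lit 5) (nat_lit 385) (nat_lit 5) (nat_lit 427) (nat_lit 378) (nat_lit 335)))) (XT.nd (nat_lit 78) (nat_lit 912) (nat_lit 0) (XT.lf (nat_lit 0) (nat_lit 4089862780) (nat_lit 912) (nat_lit 3693071922) (nat_lit 76) (nat_lit 94544423) (nat_lit 373) (nat_lit 5) (nat_lit 385) (nat_lit 5) (nat_lit 374) (nat_lit 5) (nat_lit 428) (nat_lit 378) (nat_lit 334)) (XT.nd (nat_lit 78) (nat_lit 76) (nat_lit 0) (XT.lf (nat_lit 0) (nat_lit 1505792396) (nat_lit 836) (nat_lit 5228639420) (nat_lit 912) (nat_lit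 1205786155) (nat_lit 362) (nat_lit 5) (nat_lit 373) (nat_lit 5) (nat_lit 374) (nat_lit 5) (nat_lit 429) (nat_lit 378) (nat_lit 333)) (XT.lf (nat_lit 0) (nat_lit 1390697685) (nat_lit 912) (nat_lit 1201245475) (nat_lit 76) (nat_lit 5412457887) (nat_lit 361) (nat_lit 5) (nat_lit 373) (nat_lit 5) (nat_lit 362) (nat_lit 5) (nat_lit 430) (nat_lit 378) (nat_lit 332)))))) (XT.nd (nat_lit 468) (nat_lit 2812) (nat_lit 0) (XT.nd (nat_lit 234) (nat_lit 1596) (nat_lit 0) (XT.nd (nat_lit 78) (nat_lit 836) (nat_lit 0) (XT.lf (nat_lit 0) (nat_lit 4008323760) (nat_lit 836) (nat_lit 3933871117) (nat_lit 76) (nat_lit 127815819) (nat_lit 351) (nat_lit 5) (nat_lit 362) (nat_lit 5) (nat_lit 352) (nat_lit 5) (nat_lit 431) (nat_lit 378) (nat_lit 331)) (XT.nd (nat_lit 78) (nat_lit 76) (nat_lit 0) (XT.lf (nat_lit 0) (nat_lit 1414727356) (nat_lit 760) (nat_lit 5256192166) (nat_lit 836) (nat_lit 1466169967) (nat_lit 341) (nat_lit 5) (nat_lit 351) (nat_lit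 5) (nat_lit 352) (nat_lit 5) (nat_lit 432) (nat_lit 378) (nat_lit 330)) (XT.lf (nat_lit 0) (nat_lit 1150729001) (nat_lit 836) (nat_lit 1335853134) (nat_lit 76) (nat_lit 5719083984) (nat_lit 340) (nat_lit 5) (nat_lit 351) (nat_lit 5) (nat_lit 341) (nat_lit 5) (nat_lit 433) (nat_lit 378) (nat_lit 329)))) (XT.nd (nat_lit 78) (nat_lit 836) (nat_lit 0) (XT.lf (nat_lit 0) (nat_lit 3788960310) (nat_lit 836) (nat_lit 4120645509) (nat_lit 76) (nat_lit 366050863) (nat_lit 330) (nat_lit 5) (nat_lit 341) (nat_lit 5) (nat_lit 331) (nat_lit 5) (nat_lit 434) (nat_lit 378) (nat_lit 328)) (XT.nd (nat_lit 78) (nat_lit 76) (nat_lit 0) (XT.lf (nat_lit 0) (nat_lit 1382320687) (nat_lit 760) (nat_lit 5091779809) (nat_lit 836) (nat_lit 1873072262) (nat_lit 320) (nat_lit 5) (nat_lit 330) (nat_lit 5) (nat_lit 331) (nat_lit 5) (nat_lit 435) (nat_lit 378) (nat_lit 327)) (XT.lf (nat_lit 0) (nat_lit 770159817) (nat_lit 836) (nat_lit 1420146012) (nat_lit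 76) (nat_lit 6229963955) (nat_lit 319) (nat_lit 5) (nat_lit 330) (nat_lit 5) (nat_lit 320) (nat_lit 5) (nat_lit 436) (nat_lit 378) (nat_lit 326))))) (XT.nd (nat_lit 234) (nat_lit 1368) (nat_lit 0) (XT.nd (nat_lit 78) (nat_lit 760) (nat_lit 0) (XT.lf (nat_lit 0) (nat_lit 3434586028) (nat_lit 760) (nat_lit 4267017699) (nat_lit 76) (nat_lit 793117295) (nat_lit 310) (nat_lit 5) (nat_lit 320) (nat_lit 5) (nat_lit 311) (nat_lit 5) (nat_lit 437) (nat_lit 378) (nat_lit 325)) (XT.nd (nat_lit 78) (nat_lit 76) (nat_lit 0) (XT.lf (nat_lit 0) (nat_lit 1395032517) (nat_lit 684) (nat_lit 4751544664) (nat_lit 760) (nat_lit 2424206508) (nat_lit 301) (nat_lit 5) (nat_lit 310) (nat_lit 5) (nat_lit 311) (nat_lit 5) (nat_lit 438) (nat_lit 378) (nat_lit 324)) (XT.lf (nat_lit 0) (nat_lit 251120165) (nat_lit 760) (nat_lit 1467740818) (nat_lit 76) (nat_lit 6929676955) (nat_lit 300) (nat_lit 5) (nat_lit 310) (nat_lit 5) (nat_lit 301) (nat_lit 5) (nat_lit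 439) (nat_lit 378) (nat_lit 323)))) (XT.nd (nat_lit 78) (nat_lit 684) (nat_lit 0) (XT.lf (nat_lit 0) (nat_lit 2947019572) (nat_lit 760) (nat_lit 4386766120) (nat_lit 76) (nat_lit 1393758047) (nat_lit 291) (nat_lit 5) (nat_lit 301) (nat_lit 5) (nat_lit 292) (nat_lit 5) (nat_lit 440) (nat_lit 378) (nat_lit 322)) (XT.nd (nat_lit 78) (nat_lit 0) (nat_lit 0) (XT.lf (nat_lit 0) (nat_lit 1439148250) (nat_lit 684) (nat_lit 4250815334) (nat_lit 760) (nat_lit 3118310867) (nat_lit 282) (nat_lit 5) (nat_lit 291) (nat_lit 5) (nat_lit 292) (nat_lit 5) (nat_lit 441) (nat_lit 378) (nat_lit 321)) (XT.lf (nat_lit 0) (nat_lit 7395637991) (nat_lit 684) (nat_lit 1084491760) (nat_lit 760) (nat_lit 410649945) (nat_lit 282) (nat_lit 5) (nat_lit 291) (nat_lit 5) (nat_lit 292) (nat_lit 5) (nat_lit 442) (nat_lit 378) (nat_lit 320))))))))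
noncomputable def xc83 : XT := (XT.nd (nat_lit 1794) (nat_lit 5548) (nat_lit 0) (XT.nd (nat_lit 858) (nat_lit 3876) (nat_lit 0) (XT.nd (nat_lit 390) (nat_lit 2356) (nat_lit 0) (XT.nd (nat_lit 156) (nat_lit 1292) (nat_lit 0) (XT.nd (nat_lit 78) (nat_lit 608) (nat_lit 0) (XT.lf (nat_lit 0) (nat_lit 2327085354) (nat_lit 684) (nat_lit 4493952072) (nat_lit 76) (nat_lit 2153464075) (nat_lit 273) (nat_lit 5) (nat_lit 282) (nat_lit 5) (nat_lit 274) (nat_lit 5) (nat_lit 443) (nat_lit 378) (nat_lit 319)) (XT.lf (nat_lit 0) (nat_lit 1500649473) (nat_lit 608) (nat_lit 3604234135) (nat_lit 684) (nat_lit 3955150479) (nat_lit 265) (nat_lit 5) (nat_lit 273) (nat_lit 5) (nat_lit 274) (nat_lit 5) (nat_lit 444) (nat_lit 378) (nat_lit 318))) (XT.nd (nat_lit 78) (nat_lit 1292) (nat_lit 0) (XT.lf (nat_lit 0) (nat_lit 7630970244) (nat_lit 608) (nat_lit 301618679) (nat_lit 684) (nat_lit 1214808017) (nat_lit 265) (nat_lit 5) (nat_lit 273) (nat_lit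 5) (nat_lit 274) (nat_lit 5) (nat_lit 445) (nat_lit 378) (nat_lit 317)) (XT.nd (nat_lit 78) (nat_lit 608) (nat_lit 0) (XT.lf (nat_lit 0) (nat_lit 1574606519) (nat_lit 684) (nat_lit 4603052008) (nat_lit 76) (nat_lit 3058349855) (nat_lit 256) (nat_lit 5) (nat_lit 265) (nat_lit 5) (nat_lit 257) (nat_lit 5) (nat_lit 446) (nat_lit 378) (nat_lit 316)) (XT.lf (nat_lit 0) (nat_lit 1565079320) (nat_lit 608) (nat_lit 2825882302) (nat_lit 684) (nat_lit 4935527716) (nat_lit 248) (nat_lit 5) (nat_lit 256) (nat_lit 5) (nat_lit 257) (nat_lit 5) (nat_lit 447) (nat_lit 378) (nat_lit 315))))) (XT.nd (nat_lit 234) (nat_lit 1140) (nat_lit 0) (XT.nd (nat_lit 78) (nat_lit 1216) (nat_lit 0) (XT.lf (nat_lit 0) (nat_lit 7263917942) (nat_lit 684) (nat_lit 1548614850) (nat_lit 76) (nat_lit 606247772) (nat_lit 248) (nat_lit 5) (nat_lit 257) (nat_lit 5) (nat_lit 249) (nat_lit 5) (nat_lit 448) (nat_lit 378) (nat_lit 314)) (XT.nd (nat_lit 78) (nat_lit 608)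 (nat_lit 0) (XT.lf (nat_lit 0) (nat_lit 688389994) (nat_lit 608) (nat_lit 4729096247) (nat_lit 76) (nat_lit 4095030558) (nat_lit 240) (nat_lit 5) (nat_lit 248) (nat_lit 5) (nat_lit 241) (nat_lit 5) (nat_lit 449) (nat_lit 378) (nat_lit 313)) (XT.lf (nat_lit 0) (nat_lit 1617401084) (nat_lit 608) (nat_lit 1929403946) (nat_lit 684) (nat_lit 6061300615) (nat_lit 232) (nat_lit 5) (nat_lit 240) (nat_lit 5) (nat_lit 241) (nat_lit 5) (nat_lit 450) (nat_lit 378) (nat_lit 312)))) (XT.nd (nat_lit 78) (nat_lit 1140) (nat_lit 0) (XT.lf (nat_lit 0) (nat_lit 6471372983) (nat_lit 684) (nat_lit 1605773315) (nat_lit 76) (nat_lit 1628285941) (nat_lit 232) (nat_lit 5) (nat_lit 241) (nat_lit 5) (nat_lit 233) (nat_lit 5) (nat_lit 451) (nat_lit 378) (nat_lit 311)) (XT.nd (nat_lit 78) (nat_lit 608) (nat_lit 0) (XT.lf (nat_lit 0) (nat_lit 4914463340) (nat_lit 532) (nat_lit 4551778749) (nat_lit 608) (nat_lit 338232633) (nat_lit 225) (nat_lit 5) (nat_lit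 232) (nat_lit 5) (nat_lit 233) (nat_lit 5) (nat_lit 452) (nat_lit 378) (nat_lit 310)) (XT.lf (nat_lit 0) (nat_lit 1641848790) (nat_lit 532) (nat_lit 928129753) (nat_lit 608) (nat_lit 7335409799) (nat_lit 217) (nat_lit 5) (nat_lit 224) (nat_lit 5) (nat_lit 225) (nat_lit 5) (nat_lit 453) (nat_lit 378) (nat_lit 309)))))) (XT.nd (nat_lit 468) (nat_lit 1824) (nat_lit 0) (XT.nd (nat_lit 234) (nat_lit 988) (nat_lit 0) (XT.nd (nat_lit 78) (nat_lit 1064) (nat_lit 0) (XT.lf (nat_lit 0) (nat_lit 5550378421) (nat_lit 608) (nat_lit 1701968425) (nat_lit 76) (nat_lit 2755562839) (nat_lit 217) (nat_lit 5) (nat_lit 225) (nat_lit 5) (nat_lit 218) (nat_lit 5) (nat_lit 454) (nat_lit 378) (nat_lit 308)) (XT.nd (nat_lit 78) (nat_lit 608) (nat_lit 0) (XT.lf (nat_lit 0) (nat_lit 5006717122) (nat_lit 456) (nat_lit 3590504686) (nat_lit 532) (nat_lit 1515128066) (nat_lit 211) (nat_lit 5) (nat_lit 217) (nat_lit 5) (nat_lit 218) (nat_lit 5) (nat_lit 455)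 (nat_lit 378) (nat_lit 307)) (XT.lf (nat_lit 0) (nat_lit 1458039801) (nat_lit 608) (nat_lit 8598185677) (nat_lit 76) (nat_lit 162637196) (nat_lit 203) (nat_lit 5) (nat_lit 211) (nat_lit 5) (nat_lit 204) (nat_lit 5) (nat_lit 456) (nat_lit 378) (nat_lit 306)))) (XT.nd (nat_lit 78) (nat_lit 988) (nat_lit 0) (XT.lf (nat_lit 0) (nat_lit 4497240267) (nat_lit 608) (nat_lit 1854176889) (nat_lit 76) (nat_lit 3975355972) (nat_lit 203) (nat_lit 5) (nat_lit 211) (nat_lit 5) (nat_lit 204) (nat_lit 5) (nat_lit 457) (nat_lit 378) (nat_lit 305)) (XT.nd (nat_lit 78) (nat_lit 532) (nat_lit 0) (XT.lf (nat_lit 0) (nat_lit 5047739088) (nat_lit 456) (nat_lit 2551446457) (nat_lit 532) (nat_lit 2837621768) (nat_lit 197) (nat_lit 5) (nat_lit 203) (nat_lit 5) (nat_lit 204) (nat_lit 5) (nat_lit 458) (nat_lit 378) (nat_lit 304)) (XT.lf (nat_lit 0) (nat_lit 211822143) (nat_lit 532) (nat_lit 9018410572) (nat_lit 76) (nat_lit 1318776159) (nat_lit 190) (nat_lit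 5) (nat_lit 197) (nat_lit 5) (nat_lit 191) (nat_lit 5) (nat_lit 459) (nat_lit 378) (nat_lit 303))))) (XT.nd (nat_lit 234) (nat_lit 912) (nat_lit 0) (XT.nd (nat_lit 78) (nat_lit 912) (nat_lit 0) (XT.lf (nat_lit 0) (nat_lit 3307141814) (nat_lit 532) (nat_lit 2080499756) (nat_lit 76) (nat_lit 5274984578) (nat_lit 190) (nat_lit 5) (nat_lit 197) (nat_lit 5) (nat_lit 191) (nat_lit 5) (nat_lit 460) (nat_lit 378) (nat_lit 302)) (XT.nd (nat_lit 78) (nat_lit 456) (nat_lit 0) (XT.lf (nat_lit 0) (nat_lit 5019303965) (nat_lit 456) (nat_lit 1447796822) (nat_lit 532) (nat_lit 4311364700) (nat_lit 184) (nat_lit 5) (nat_lit 190) (nat_lit 5) (nat_lit 191) (nat_lit 5) (nat_lit 461) (nat_lit 378) (nat_lit 301)) (XT.lf (nat_lit 0) (nat_lit 1350972086) (nat_lit 456) (nat_lit 8349174341) (nat_lit 532) (nat_lit 1196281728) (nat_lit 178) (nat_lit 5) (nat_lit 184) (nat_lit 5) (nat_lit 185) (nat_lit 5) (nat_lit 462) (nat_lit 378) (nat_lit 300)))) (XT.nd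 (nat_lit 78) (nat_lit 836) (nat_lit 0) (XT.lf (nat_lit 0) (nat_lit 1974087869) (nat_lit 532) (nat_lit 2400347690) (nat_lit 76) (nat_lit 6641682043) (nat_lit 177) (nat_lit 5) (nat_lit 184) (nat_lit 5) (nat_lit 178) (nat_lit 5) (nat_lit 463) (nat_lit 378) (nat_lit 299)) (XT.nd (nat_lit 78) (nat_lit 456) (nat_lit 0) (XT.lf (nat_lit 0) (nat_lit 4901833559) (nat_lit 380) (nat_lit 292909391) (nat_lit 456) (nat_lit 5943245856) (nat_lit 172) (nat_lit 5) (nat_lit 177) (nat_lit 5) (nat_lit 178) (nat_lit 5) (nat_lit 464) (nat_lit 378) (nat_lit 298)) (XT.lf (nat_lit 0) (nat_lit 1066970587) (nat_lit 456) (nat_lit 7432375123) (nat_lit 532) (nat_lit 2762565001) (nat_lit 166) (nat_lit 5) (nat_lit 172) (nat_lit 5) (nat_lit 173) (nat_lit 5) (nat_lit 465) (nat_lit 378) (nat_lit 297))))))) (XT.nd (nat_lit 936) (nat_lit 2660) (nat_lit 0) (XT.nd (nat_lit 468) (nat_lit 1216) (nat_lit 0) (XT.nd (nat_lit 234) (nat_lit 836) (nat_lit 0) (XT.nd (nat_lit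 78) (nat_lit 760) (nat_lit 0) (XT.lf (nat_lit 0) (nat_lit 490838623) (nat_lit 532) (nat_lit 2834640994) (nat_lit 76) (nat_lit 8062464151) (nat_lit 165) (nat_lit 5) (nat_lit 172) (nat_lit 5) (nat_lit 166) (nat_lit 5) (nat_lit 466) (nat_lit 378) (nat_lit 296)) (XT.nd (nat_lit 78) (nat_lit 380) (nat_lit 0) (XT.lf (nat_lit 0) (nat_lit 3780466505) (nat_lit 456) (nat_lit 6847738928) (nat_lit 76) (nat_lit 887767640) (nat_lit 160) (nat_lit 5) (nat_lit 166) (nat_lit 5) (nat_lit 161) (nat_lit 5) (nat_lit 467) (nat_lit 378) (nat_lit 295)) (XT.lf (nat_lit 0) (nat_lit 658012217) (nat_lit 380) (nat_lit 6495435056) (nat_lit 456) (nat_lit 4492768150) (nat_lit 155) (nat_lit 5) (nat_lit 160) (nat_lit 5) (nat_lit 161) (nat_lit 5) (nat_lit 468) (nat_lit 378) (nat_lit 294)))) (XT.nd (nat_lit 78) (nat_lit 836) (nat_lit 0) (XT.lf (nat_lit 0) (nat_lit 8365099517) (nat_lit 380) (nat_lit 2247133815) (nat_lit 456) (nat_lit 1166465966) (nat_lit 155) (nat_lit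 5) (nat_lit 160) (nat_lit 5) (nat_lit 161) (nat_lit 5) (nat_lit 469) (nat_lit 378) (nat_lit 293)) (XT.nd (nat_lit 78) (nat_lit 380) (nat_lit 0) (XT.lf (nat_lit 0) (nat_lit 2211656784) (nat_lit 456) (nat_lit 7613806628) (nat_lit 76) (nat_lit 2087793917) (nat_lit 149) (nat_lit 5) (nat_lit 155) (nat_lit 5) (nat_lit 150) (nat_lit 5) (nat_lit 470) (nat_lit 378) (nat_lit 292)) (XT.lf (nat_lit 0) (nat_lit 100208407) (nat_lit 380) (nat_lit 5553051166) (nat_lit 456) (nat_lit 6396865394) (nat_lit 144) (nat_lit 5) (nat_lit 149) (nat_lit 5) (nat_lit 150) (nat_lit 5) (nat_lit 471) (nat_lit 378) (nat_lit 291))))) (XT.nd (nat_lit 234) (nat_lit 760) (nat_lit 0) (XT.nd (nat_lit 78) (nat_lit 456) (nat_lit 0) (XT.lf (nat_lit 0) (nat_lit 8030649252) (nat_lit 380) (nat_lit 1157332893) (nat_lit 456) (nat_lit 3001265378) (nat_lit 144) (nat_lit 5) (nat_lit 149) (nat_lit 5) (nat_lit 150) (nat_lit 5) (nat_lit 472) (nat_lit 378) (nat_lit 290)) (XT.nd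 (nat_lit 78) (nat_lit 0) (nat_lit 0) (XT.lf (nat_lit 0) (nat_lit 476053013) (nat_lit 456) (nat_lit 8558117680) (nat_lit 76) (nat_lit 3296527625) (nat_lit 138) (nat_lit 5) (nat_lit 144) (nat_lit 5) (nat_lit 139) (nat_lit 5) (nat_lit 473) (nat_lit 378) (nat_lit 289)) (XT.lf (nat_lit 0) (nat_lit 3992232443) (nat_lit 456) (nat_lit 624170584) (nat_lit 76) (nat_lit 7857991430) (nat_lit 138) (nat_lit 5) (nat_lit 144) (nat_lit 5) (nat_lit 139) (nat_lit 5) (nat_lit 474) (nat_lit 378) (nat_lit 288)))) (XT.nd (nat_lit 78) (nat_lit 380) (nat_lit 0) (XT.lf (nat_lit 0) (nat_lit 7527196174) (nat_lit 380) (nat_lit 74634757) (nat_lit 456) (nat_lit 5018674744) (nat_lit 133) (nat_lit 5) (nat_lit 138) (nat_lit 5) (nat_lit 139) (nat_lit 5) (nat_lit 475) (nat_lit 378) (nat_lit 287)) (XT.nd (nat_lit 78) (nat_lit 76) (nat_lit 0) (XT.lf (nat_lit 0) (nat_lit 3050848810) (nat_lit 304) (nat_lit 8260769669) (nat_lit 380) (nat_lit 1457363702) (nat_lit 129)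 (nat_lit 5) (nat_lit 133) (nat_lit 5) (nat_lit 134) (nat_lit 5) (nat_lit 476) (nat_lit 378) (nat_lit 286)) (XT.lf (nat_lit 0) (nat_lit 2155997028) (nat_lit 380) (nat_lit 1547873077) (nat_lit 76) (nat_lit 9216091522) (nat_lit 128) (nat_lit 5) (nat_lit 133) (nat_lit 5) (nat_lit 129) (nat_lit 5) (nat_lit 477) (nat_lit 378) (nat_lit 285)))))) (XT.nd (nat_lit 468) (nat_lit 1292) (nat_lit 0) (XT.nd (nat_lit 234) (nat_lit 608) (nat_lit 0) (XT.nd (nat_lit 78) (nat_lit 380) (nat_lit 0) (XT.lf (nat_lit 0) (nat_lit 5847796613) (nat_lit 456) (nat_lit 6253538871) (nat_lit 76) (nat_lit 971921632) (nat_lit 123) (nat_lit 5) (nat_lit 129) (nat_lit 5) (nat_lit 124) (nat_lit 5) (nat_lit 478) (nat_lit 378) (nat_lit 284)) (XT.nd (nat_lit 78) (nat_lit 76) (nat_lit 0) (XT.lf (nat_lit 0) (nat_lit 2109729813) (nat_lit 304) (nat_lit 7527481303) (nat_lit 380) (nat_lit 3591934599) (nat_lit 119) (nat_lit 5) (nat_lit 123) (nat_lit 5) (nat_lit 124) (nat_lit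 5) (nat_lit 479) (nat_lit 378) (nat_lit 283)) (XT.lf (nat_lit 0) (nat_lit 130169080) (nat_lit 380) (nat_lit 2702947099) (nat_lit 76) (nat_lit 10554675620) (nat_lit 118) (nat_lit 5) (nat_lit 123) (nat_lit 5) (nat_lit 119) (nat_lit 5) (nat_lit 480) (nat_lit 378) (nat_lit 282)))) (XT.nd (nat_lit 78) (nat_lit 304) (nat_lit 0) (XT.lf (nat_lit 0) (nat_lit 3905609165) (nat_lit 380) (nat_lit 7665341742) (nat_lit 76) (nat_lit 1977647854) (nat_lit 114) (nat_lit 5) (nat_lit 119) (nat_lit 5) (nat_lit 115) (nat_lit 5) (nat_lit 481) (nat_lit 378) (nat_lit 281)) (XT.nd (nat_lit 78) (nat_lit 0) (nat_lit 0) (XT.lf (nat_lit 0) (nat_lit 919740767) (nat_lit 304) (nat_lit 6855592549) (nat_lit 380) (nat_lit 5936915607) (nat_lit 110) (nat_lit 5) (nat_lit 114) (nat_lit 5) (nat_lit 115) (nat_lit 5) (nat_lit 482) (nat_lit 378) (nat_lit 280)) (XT.lf (nat_lit 0) (nat_lit 9741682661) (nat_lit 304) (nat_lit 2008214052) (nat_lit 380) (nat_lit 2128728995)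 (nat_lit 110) (nat_lit 5) (nat_lit 114) (nat_lit 5) (nat_lit 115) (nat_lit 5) (nat_lit 483) (nat_lit 378) (nat_lit 279))))) (XT.nd (nat_lit 234) (nat_lit 608) (nat_lit 0) (XT.nd (nat_lit 78) (nat_lit 304) (nat_lit 0) (XT.lf (nat_lit 0) (nat_lit 1758700236) (nat_lit 380) (nat_lit 9363493812) (nat_lit 76) (nat_lit 2925388342) (nat_lit 105) (nat_lit 5) (nat_lit 110) (nat_lit 5) (nat_lit 106) (nat_lit 5) (nat_lit 484) (nat_lit 378) (nat_lit 278)) (XT.nd (nat_lit 78) (nat_lit 304) (nat_lit 0) (XT.lf (nat_lit 0) (nat_lit 5713086446) (nat_lit 380) (nat_lit 547755896) (nat_lit 76) (nat_lit 7958442572) (nat_lit 105) (nat_lit 5) (nat_lit 110) (nat_lit 5) (nat_lit 106) (nat_lit 5) (nat_lit 485) (nat_lit 378) (nat_lit 277)) (XT.lf (nat_lit 0) (nat_lit 8518339586) (nat_lit 304) (nat_lit 1260430529) (nat_lit 380) (nat_lit 4615009503) (nat_lit 101) (nat_lit 5) (nat_lit 105) (nat_lit 5) (nat_lit 106) (nat_lit 5) (nat_lit 486) (nat_lit 378)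 (nat_lit 276)))) (XT.nd (nat_lit 78) (nat_lit 304) (nat_lit 0) (XT.lf (nat_lit 0) (nat_lit 3180452883) (nat_lit 304) (nat_lit 10771614497) (nat_lit 380) (nat_lit 619173116) (nat_lit 97) (nat_lit 5) (nat_lit 101) (nat_lit 5) (nat_lit 102) (nat_lit 5) (nat_lit 487) (nat_lit 378) (nat_lit 275)) (XT.nd (nat_lit 78) (nat_lit 228) (nat_lit 0) (XT.lf (nat_lit 0) (nat_lit 3436354250) (nat_lit 380) (nat_lit 2323258708) (nat_lit 76) (nat_lit 8991688817) (nat_lit 96) (nat_lit 5) (nat_lit 101) (nat_lit 5) (nat_lit 97) (nat_lit 5) (nat_lit 488) (nat_lit 378) (nat_lit 274)) (XT.lf (nat_lit 0) (nat_lit 6975899967) (nat_lit 228) (nat_lit 611623247) (nat_lit 304) (nat_lit 7346904922) (nat_lit 93) (nat_lit 5) (nat_lit 96) (nat_lit 5) (nat_lit 97) (nat_lit 5) (nat_lit 489) (nat_lit 378) (nat_lit 273))))))))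
noncomputable def xc84 : XT := (XT.nd (nat_lit 51402) (nat_lit 0) (nat_lit 40128) (XT.nd (nat_lit 858) (nat_lit 760) (nat_lit 0) (XT.nd (nat_lit 390) (nat_lit 1064) (nat_lit 0) (XT.nd (nat_lit 156) (nat_lit 532) (nat_lit 0) (XT.nd (nat_lit 78) (nat_lit 76) (nat_lit 0) (XT.lf (nat_lit 0) (nat_lit 1321516810) (nat_lit 304) (nat_lit 10532222551) (nat_lit 380) (nat_lit 3266839291) (nat_lit 89) (nat_lit 5) (nat_lit 93) (nat_lit 5) (nat_lit 94) (nat_lit 5) (nat_lit 490) (nat_lit 378) (nat_lit 272)) (XT.lf (nat_lit 0) (nat_lit 918580143) (nat_lit 380) (nat_lit 4461828484) (nat_lit 76) (nat_lit 9929219611) (nat_lit 88) (nat_lit 5) (nat_lit 93) (nat_lit 5) (nat_lit 89) (nat_lit 5) (nat_lit 491) (nat_lit 378) (nat_lit 271))) (XT.nd (nat_lit 78) (nat_lit 304) (nat_lit 0) (XT.lf (nat_lit 0) (nat_lit 5070472775) (nat_lit 228) (nat_lit 84569895) (nat_lit 304) (nat_lit 10346764699) (nat_lit 85) (nat_lit 5) (nat_lit 88) (nat_lit 5) (nat_lit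 89) (nat_lit 5) (nat_lit 492) (nat_lit 378) (nat_lit 270)) (XT.nd (nat_lit 78) (nat_lit 304) (nat_lit 0) (XT.lf (nat_lit 0) (nat_lit 9519111106) (nat_lit 304) (nat_lit 914693635) (nat_lit 76) (nat_lit 5263169753) (nat_lit 85) (nat_lit 5) (nat_lit 89) (nat_lit 5) (nat_lit 86) (nat_lit 5) (nat_lit 493) (nat_lit 378) (nat_lit 269)) (XT.lf (nat_lit 0) (nat_lit 8872155765) (nat_lit 304) (nat_lit 5135110756) (nat_lit 380) (nat_lit 1888044234) (nat_lit 81) (nat_lit 5) (nat_lit 85) (nat_lit 5) (nat_lit 86) (nat_lit 5) (nat_lit 494) (nat_lit 378) (nat_lit 268))))) (XT.nd (nat_lit 234) (nat_lit 532) (nat_lit 0) (XT.nd (nat_lit 78) (nat_lit 228) (nat_lit 0) (XT.lf (nat_lit 0) (nat_lit 2459611174) (nat_lit 304) (nat_lit 13345559459) (nat_lit 76) (nat_lit 292028624) (nat_lit 77) (nat_lit 5) (nat_lit 81) (nat_lit 5) (nat_lit 78) (nat_lit 5) (nat_lit 495) (nat_lit 378) (nat_lit 267)) (XT.nd (nat_lit 78) (nat_lit 228) (nat_lit 0) (XT.lf (nat_lit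 0) (nat_lit 6929188638) (nat_lit 304) (nat_lit 3567940615) (nat_lit 76) (nat_lit 5804543477) (nat_lit 77) (nat_lit 5) (nat_lit 81) (nat_lit 5) (nat_lit 78) (nat_lit 5) (nat_lit 496) (nat_lit 378) (nat_lit 266)) (XT.lf (nat_lit 0) (nat_lit 6454524232) (nat_lit 228) (nat_lit 5054734287) (nat_lit 304) (nat_lit 5000556897) (nat_lit 74) (nat_lit 5) (nat_lit 77) (nat_lit 5) (nat_lit 78) (nat_lit 5) (nat_lit 497) (nat_lit 378) (nat_lit 265)))) (XT.nd (nat_lit 78) (nat_lit 532) (nat_lit 0) (XT.lf (nat_lit 0) (nat_lit 16187534358) (nat_lit 304) (nat_lit 34667681) (nat_lit 76) (nat_lit 499788551) (nat_lit 74) (nat_lit 5) (nat_lit 78) (nat_lit 5) (nat_lit 75) (nat_lit 5) (nat_lit 498) (nat_lit 378) (nat_lit 264)) (XT.nd (nat_lit 78) (nat_lit 228) (nat_lit 0) (XT.lf (nat_lit 0) (nat_lit 4048484718) (nat_lit 304) (nat_lit 6710844248) (nat_lit 76) (nat_lit 6176954746) (nat_lit 70) (nat_lit 5) (nat_lit 74) (nat_lit 5) (nat_lit 71) (nat_lit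 5) (nat_lit 499) (nat_lit 378) (nat_lit 263)) (XT.lf (nat_lit 0) (nat_lit 3544513049) (nat_lit 228) (nat_lit 5174394287) (nat_lit 304) (nat_lit 8435826748) (nat_lit 67) (nat_lit 5) (nat_lit 70) (nat_lit 5) (nat_lit 71) (nat_lit 5) (nat_lit 500) (nat_lit 378) (nat_lit 262)))))) (XT.nd (nat_lit 50076) (nat_lit 0) (nat_lit 50768) (XT.nd (nat_lit 234) (nat_lit 228) (nat_lit 0) (XT.nd (nat_lit 78) (nat_lit 532) (nat_lit 0) (XT.lf (nat_lit 0) (nat_lit 13511264909) (nat_lit 304) (nat_lit 3319271358) (nat_lit 76) (nat_lit 546448261) (nat_lit 67) (nat_lit 5) (nat_lit 71) (nat_lit 5) (nat_lit 68) (nat_lit 5) (nat_lit 501) (nat_lit 378) (nat_lit 261)) (XT.nd (nat_lit 78) (nat_lit 228) (nat_lit 0) (XT.lf (nat_lit 0) (nat_lit 846994482) (nat_lit 304) (nat_lit 10404514476) (nat_lit 76) (nat_lit 6350836386) (nat_lit 63) (nat_lit 5) (nat_lit 67) (nat_lit 5) (nat_lit 64) (nat_lit 5) (nat_lit 502) (nat_lit 378) (nat_lit 260)) (XT.lf (nat_lit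 0) (nat_lit 79566307) (nat_lit 228) (nat_lit 5525857544) (nat_lit 304) (nat_lit 12226215519) (nat_lit 60) (nat_lit 5) (nat_lit 63) (nat_lit 5) (nat_lit 64) (nat_lit 5) (nat_lit 503) (nat_lit 378) (nat_lit 259)))) (XT.nd (nat_lit 78) (nat_lit 228) (nat_lit 0) (XT.lf (nat_lit 0) (nat_lit 10511654265) (nat_lit 304) (nat_lit 7186565742) (nat_lit 76) (nat_lit 366248095) (nat_lit 60) (nat_lit 5) (nat_lit 64) (nat_lit 5) (nat_lit 61) (nat_lit 5) (nat_lit 504) (nat_lit 378) (nat_lit 258)) (XT.nd (nat_lit 78) (nat_lit 76) (nat_lit 0) (XT.lf (nat_lit 0) (nat_lit 3566804127) (nat_lit 152) (nat_lit 11989654003) (nat_lit 228) (nat_lit 2744687745) (nat_lit 58) (nat_lit 5) (nat_lit 60) (nat_lit 5) (nat_lit 61) (nat_lit 5) (nat_lit 505) (nat_lit 378) (nat_lit 257)) (XT.lf (nat_lit 0) (nat_lit 2160551452) (nat_lit 228) (nat_lit 3956944461) (nat_lit 76) (nat_lit 12424196766) (nat_lit 57) (nat_lit 5) (nat_lit 60) (nat_lit 5) (nat_lit 58) (nat_lit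 5) (nat_lit 506) (nat_lit 378) (nat_lit 256))))) (XT.nd (nat_lit 234) (nat_lit 304) (nat_lit 0) (XT.nd (nat_lit 78) (nat_lit 304) (nat_lit 0) (XT.lf (nat_lit 0) (nat_lit 1597883348) (nat_lit 76) (nat_lit 26312674) (nat_lit 0) (nat_lit 1597883348) (nat_lit 733) (nat_lit 5) (nat_lit 734) (nat_lit 0) (nat_lit 733) (nat_lit 4) (nat_lit 382) (nat_lit 379) (nat_lit 379)) (XT.nd (nat_lit 78) (nat_lit 228) (nat_lit 0) (XT.lf (nat_lit 0) (nat_lit 3226765482) (nat_lit 76) (nat_lit 3125538033) (nat_lit 76) (nat_lit 94415641) (nat_lit 732) (nat_lit 4) (nat_lit 733) (nat_lit 5) (nat_lit 733) (nat_lit 4) (nat_lit 383) (nat_lit 379) (nat_lit 378)) (XT.lf (nat_lit 0) (nat_lit 59779268) (nat_lit 152) (nat_lit 2941503048) (nat_lit 228) (nat_lit 3449284718) (nat_lit 729) (nat_lit 5) (nat_lit 731) (nat_lit 5) (nat_lit 732) (nat_lit 4) (nat_lit 384) (nat_lit 379) (nat_lit 377)))) (XT.nd (nat_lit 78) (nat_lit 304) (nat_lit 0) (XT.lf (nat_lit 0)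 (nat_lit 3404547256) (nat_lit 152) (nat_lit 2694848032) (nat_lit 228) (nat_lit 356281799) (nat_lit 729) (nat_lit 5) (nat_lit 731) (nat_lit 5) (nat_lit 732) (nat_lit 4) (nat_lit 385) (nat_lit 379) (nat_lit 376)) (XT.nd (nat_lit 78) (nat_lit 0) (nat_lit 0) (XT.lf (nat_lit 0) (nat_lit 297251289) (nat_lit 228) (nat_lit 2387731748) (nat_lit 304) (nat_lit 3777112507) (nat_lit 725) (nat_lit 5) (nat_lit 728) (nat_lit 5) (nat_lit 729) (nat_lit 5) (nat_lit 386) (nat_lit 379) (nat_lit 375)) (XT.lf (nat_lit 0) (nat_lit 3708057979) (nat_lit 228) (nat_lit 2017147082) (nat_lit 304) (nat_lit 744563257) (nat_lit 725) (nat_lit 5) (nat_lit 728) (nat_lit 5) (nat_lit 729) (nat_lit 5) (nat_lit 387) (nat_lit 379) (nat_lit 374))))))) (XT.nd (nat_lit 858) (nat_lit 7296) (nat_lit 0) (XT.nd (nat_lit 390) (nat_lit 1976) (nat_lit 0) (XT.nd (nat_lit 156) (nat_lit 988) (nat_lit 0) (XT.nd (nat_lit 78) (nat_lit 0) (nat_lit 0) (XT.lf (nat_lit 0) (nat_lit 659178118)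 (nat_lit 304) (nat_lit 1586361900) (nat_lit 380) (nat_lit 4233225327) (nat_lit 720) (nat_lit 5) (nat_lit 724) (nat_lit 5) (nat_lit 725) (nat_lit 5) (nat_lit 388) (nat_lit 379) (nat_lit 373)) (XT.lf (nat_lit 0) (nat_lit 4137506710) (nat_lit 304) (nat_lit 1091123935) (nat_lit 380) (nat_lit 1260379444) (nat_lit 720) (nat_lit 5) (nat_lit 724) (nat_lit 5) (nat_lit 725) (nat_lit 5) (nat_lit 389) (nat_lit 379) (nat_lit 372))) (XT.nd (nat_lit 78) (nat_lit 532) (nat_lit 0) (XT.lf (nat_lit 0) (nat_lit 1145883659) (nat_lit 380) (nat_lit 535845948) (nat_lit 456) (nat_lit 4818867290) (nat_lit 714) (nat_lit 5) (nat_lit 719) (nat_lit 5) (nat_lit 720) (nat_lit 5) (nat_lit 390) (nat_lit 379) (nat_lit 371)) (XT.nd (nat_lit 78) (nat_lit 532) (nat_lit 0) (XT.lf (nat_lit 0) (nat_lit 4608880122) (nat_lit 456) (nat_lit 1820637767) (nat_lit 76) (nat_lit 83897033) (nat_lit 714) (nat_lit 5) (nat_lit 720) (nat_lit 5) (nat_lit 715) (nat_lit 5) (nat_lit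 391) (nat_lit 379) (nat_lit 370)) (XT.lf (nat_lit 0) (nat_lit 997056548) (nat_lit 532) (nat_lit 4774660928) (nat_lit 76) (nat_lit 755800072) (nat_lit 707) (nat_lit 5) (nat_lit 714) (nat_lit 5) (nat_lit 708) (nat_lit 5) (nat_lit 392) (nat_lit 379) (nat_lit 369))))) (XT.nd (nat_lit 234) (nat_lit 1368) (nat_lit 0) (XT.nd (nat_lit 78) (nat_lit 608) (nat_lit 0) (XT.lf (nat_lit 0) (nat_lit 3872535798) (nat_lit 532) (nat_lit 1176630403) (nat_lit 76) (nat_lit 1493683114) (nat_lit 707) (nat_lit 5) (nat_lit 714) (nat_lit 5) (nat_lit 708) (nat_lit 5) (nat_lit 393) (nat_lit 379) (nat_lit 368)) (XT.nd (nat_lit 78) (nat_lit 0) (nat_lit 0) (XT.lf (nat_lit 0) (nat_lit 189959709) (nat_lit 608) (nat_lit 4078820269) (nat_lit 76) (nat_lit 2290777419) (nat_lit 699) (nat_lit 5) (nat_lit 707) (nat_lit 5) (nat_lit 700) (nat_lit 5) (nat_lit 394) (nat_lit 379) (nat_lit 367)) (XT.lf (nat_lit 0) (nat_lit 3010694236) (nat_lit 608) (nat_lit 411529845) (nat_lit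 76) (nat_lit 3155266840) (nat_lit 699) (nat_lit 5) (nat_lit 707) (nat_lit 5) (nat_lit 700) (nat_lit 5) (nat_lit 395) (nat_lit 379) (nat_lit 366)))) (XT.nd (nat_lit 78) (nat_lit 760) (nat_lit 0) (XT.lf (nat_lit 0) (nat_lit 3329088390) (nat_lit 608) (nat_lit 2512751879) (nat_lit 684) (nat_lit 754886950) (nat_lit 691) (nat_lit 5) (nat_lit 699) (nat_lit 5) (nat_lit 700) (nat_lit 5) (nat_lit 396) (nat_lit 379) (nat_lit 365)) (XT.nd (nat_lit 78) (nat_lit 0) (nat_lit 0) (XT.lf (nat_lit 0) (nat_lit 482081751) (nat_lit 684) (nat_lit 1542335424) (nat_lit 760) (nat_lit 4592902323) (nat_lit 681) (nat_lit 5) (nat_lit 690) (nat_lit 5) (nat_lit 691) (nat_lit 5) (nat_lit 397) (nat_lit 379) (nat_lit 364)) (XT.lf (nat_lit 0) (nat_lit 4302010017) (nat_lit 684) (nat_lit 503084389) (nat_lit 760) (nat_lit 1834034175) (nat_lit 681) (nat_lit 5) (nat_lit 690) (nat_lit 5) (nat_lit 691) (nat_lit 5) (nat_lit 398) (nat_lit 379) (nat_lit 363)))))) (XT.nd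 (nat_lit 468) (nat_lit 3572) (nat_lit 0) (XT.nd (nat_lit 234) (nat_lit 2052) (nat_lit 0) (XT.nd (nat_lit 78) (nat_lit 836) (nat_lit 0) (XT.lf (nat_lit 0) (nat_lit 915633111) (nat_lit 836) (nat_lit 5159920012) (nat_lit 76) (nat_lit 586745746) (nat_lit 670) (nat_lit 5) (nat_lit 681) (nat_lit 5) (nat_lit 671) (nat_lit 5) (nat_lit 399) (nat_lit 379) (nat_lit 362)) (XT.nd (nat_lit 78) (nat_lit 836) (nat_lit 0) (XT.lf (nat_lit 0) (nat_lit 3650838745) (nat_lit 836) (nat_lit 1296041015) (nat_lit 76) (nat_lit 1739729635) (nat_lit 670) (nat_lit 5) (nat_lit 681) (nat_lit 5) (nat_lit 671) (nat_lit 5) (nat_lit 400) (nat_lit 379) (nat_lit 361)) (XT.lf (nat_lit 0) (nat_lit 2635377901) (nat_lit 836) (nat_lit 3759697799) (nat_lit 912) (nat_lit 317264816) (nat_lit 659) (nat_lit 5) (nat_lit 670) (nat_lit 5) (nat_lit 671) (nat_lit 5) (nat_lit 401) (nat_lit 379) (nat_lit 360)))) (XT.nd (nat_lit 78) (nat_lit 1976) (nat_lit 0) (XT.lf (nat_lit 0)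 (nat_lit 2369892188) (nat_lit 912) (nat_lit 136277282) (nat_lit 76) (nat_lit 4233188303) (nat_lit 658) (nat_lit 5) (nat_lit 670) (nat_lit 5) (nat_lit 659) (nat_lit 5) (nat_lit 402) (nat_lit 379) (nat_lit 359)) (XT.nd (nat_lit 78) (nat_lit 1064) (nat_lit 0) (XT.lf (nat_lit 0) (nat_lit 3888136548) (nat_lit 912) (nat_lit 1182609001) (nat_lit 988) (nat_lit 1696863575) (nat_lit 646) (nat_lit 5) (nat_lit 658) (nat_lit 5) (nat_lit 659) (nat_lit 5) (nat_lit 403) (nat_lit 379) (nat_lit 358)) (XT.lf (nat_lit 0) (nat_lit 964901466) (nat_lit 1064) (nat_lit 5636118806) (nat_lit 76) (nat_lit 196306365) (nat_lit 632) (nat_lit 5) (nat_lit 646) (nat_lit 5) (nat_lit 633) (nat_lit 5) (nat_lit 404) (nat_lit 379) (nat_lit 357))))) (XT.nd (nat_lit 234) (nat_lit 2432) (nat_lit 0) (XT.nd (nat_lit 78) (nat_lit 1140) (nat_lit 0) (XT.lf (nat_lit 0) (nat_lit 3624934085) (nat_lit 1064) (nat_lit 1570246504) (nat_lit 76) (nat_lit 1632897103) (nat_lit 632)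 (nat_lit 5) (nat_lit 646) (nat_lit 5) (nat_lit 633) (nat_lit 5) (nat_lit 405) (nat_lit 379) (nat_lit 356)) (XT.nd (nat_lit 78) (nat_lit 76) (nat_lit 0) (XT.lf (nat_lit 0) (nat_lit 2565958012) (nat_lit 1064) (nat_lit 3730486355) (nat_lit 1140) (nat_lit 563852082) (nat_lit 618) (nat_lit 5) (nat_lit 632) (nat_lit 5) (nat_lit 633) (nat_lit 5) (nat_lit 406) (nat_lit 379) (nat_lit 355)) (XT.lf (nat_lit 0) (nat_lit 2052995542) (nat_lit 1140) (nat_lit 145796606) (nat_lit 76) (nat_lit 4695054942) (nat_lit 617) (nat_lit 5) (nat_lit 632) (nat_lit 5) (nat_lit 618) (nat_lit 5) (nat_lit 407) (nat_lit 379) (nat_lit 354)))) (XT.nd (nat_lit 78) (nat_lit 1292) (nat_lit 0) (XT.lf (nat_lit 0) (nat_lit 4091394392) (nat_lit 1140) (nat_lit 593017990) (nat_lit 1216) (nat_lit 2244203346) (nat_lit 602) (nat_lit 5) (nat_lit 617) (nat_lit 5) (nat_lit 618) (nat_lit 5) (nat_lit 408) (nat_lit 379) (nat_lit 353)) (XT.nd (nat_lit 78) (nat_lit 0) (nat_lit 0)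 (XT.lf (nat_lit 0) (nat_lit 359891924) (nat_lit 1292) (nat_lit 5549361625) (nat_lit 76) (nat_lit 1055573830) (nat_lit 585) (nat_lit 5) (nat_lit 602) (nat_lit 5) (nat_lit 586) (nat_lit 5) (nat_lit 409) (nat_lit 379) (nat_lit 352)) (XT.lf (nat_lit 0) (nat_lit 2953680469) (nat_lit 1292) (nat_lit 1274258092) (nat_lit 76) (nat_lit 2774190972) (nat_lit 585) (nat_lit 5) (nat_lit 602) (nat_lit 5) (nat_lit 586) (nat_lit 5) (nat_lit 410) (nat_lit 379) (nat_lit 351))))))))
noncomputable def xc85 : XT := (XT.nd (nat_lit 1794) (nat_lit 10412) (nat_lit 0) (XT.nd (nat_lit 858) (nat_lit 7676) (nat_lit 0) (XT.nd (nat_lit 390) (nat_lit 6688) (nat_lit 0) (XT.nd (nat_lit 156) (nat_lit 1520) (nat_lit 0) (XT.nd (nat_lit 78) (nat_lit 1444) (nat_lit 0) (XT.lf (nat_lit 0) (nat_lit 3082037763) (nat_lit 1292) (nat_lit 2482945650) (nat_lit 1368) (nat_lit 1475897408) (nat_lit 568) (nat_lit 5) (nat_lit 585) (nat_lit 5) (nat_lit 586) (nat_lit 5) (nat_lit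 411) (nat_lit 379) (nat_lit 350)) (XT.lf (nat_lit 0) (nat_lit 415262325) (nat_lit 1368) (nat_lit 675124400) (nat_lit 1444) (nat_lit 5990739788) (nat_lit 549) (nat_lit 5) (nat_lit 567) (nat_lit 5) (nat_lit 568) (nat_lit 5) (nat_lit 412) (nat_lit 379) (nat_lit 349))) (XT.nd (nat_lit 78) (nat_lit 1520) (nat_lit 0) (XT.lf (nat_lit 0) (nat_lit 3669439742) (nat_lit 1444) (nat_lit 2254677029) (nat_lit 76) (nat_lit 1198256073) (nat_lit 549) (nat_lit 5) (nat_lit 568) (nat_lit 5) (nat_lit 550) (nat_lit 5) (nat_lit 413) (nat_lit 379) (nat_lit 348)) (XT.nd (nat_lit 78) (nat_lit 76) (nat_lit 0) (XT.lf (nat_lit 0) (nat_lit 2224332286) (nat_lit 1444) (nat_lit 4042552599) (nat_lit 1520) (nat_lit 898237647) (nat_lit 530) (nat_lit 5) (nat_lit 549) (nat_lit 5) (nat_lit 550) (nat_lit 5) (nat_lit 414) (nat_lit 379) (nat_lit 347)) (XT.lf (nat_lit 0) (nat_lit 1648661647) (nat_lit 1520) (nat_lit 441634684) (nat_lit 76) (nat_lit 5118953143) (nat_lit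 529) (nat_lit 5) (nat_lit 549) (nat_lit 5) (nat_lit 530) (nat_lit 5) (nat_lit 415) (nat_lit 379) (nat_lit 346))))) (XT.nd (nat_lit 234) (nat_lit 3496) (nat_lit 0) (XT.nd (nat_lit 78) (nat_lit 1672) (nat_lit 0) (XT.lf (nat_lit 0) (nat_lit 4151386040) (nat_lit 1520) (nat_lit 59339018) (nat_lit 1596) (nat_lit 3043903887) (nat_lit 509) (nat_lit 5) (nat_lit 529) (nat_lit 5) (nat_lit 530) (nat_lit 5) (nat_lit 416) (nat_lit 379) (nat_lit 345)) (XT.nd (nat_lit 78) (nat_lit 76) (nat_lit 0) (XT.lf (nat_lit 0) (nat_lit 1502647470) (nat_lit 1596) (nat_lit 5297218662) (nat_lit 1672) (nat_lit 501546683) (nat_lit 488) (nat_lit 5) (nat_lit 509) (nat_lit 5) (nat_lit 510) (nat_lit 5) (nat_lit 417) (nat_lit 379) (nat_lit 344)) (XT.lf (nat_lit 0) (nat_lit 2035960326) (nat_lit 1672) (nat_lit 1165852730) (nat_lit 76) (nat_lit 4147626008) (nat_lit 487) (nat_lit 5) (nat_lit 509) (nat_lit 5) (nat_lit 488) (nat_lit 5) (nat_lit 418) (nat_lit 379) (nat_lit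 343)))) (XT.nd (nat_lit 78) (nat_lit 1824) (nat_lit 0) (XT.lf (nat_lit 0) (nat_lit 3558213770) (nat_lit 1672) (nat_lit 1033749354) (nat_lit 1748) (nat_lit 2806919939) (nat_lit 465) (nat_lit 5) (nat_lit 487) (nat_lit 5) (nat_lit 488) (nat_lit 5) (nat_lit 419) (nat_lit 379) (nat_lit 342)) (XT.nd (nat_lit 78) (nat_lit 76) (nat_lit 0) (XT.lf (nat_lit 0) (nat_lit 901988411) (nat_lit 1748) (nat_lit 6270515069) (nat_lit 1824) (nat_lit 277356621) (nat_lit 442) (nat_lit 5) (nat_lit 465) (nat_lit 5) (nat_lit 466) (nat_lit 5) (nat_lit 420) (nat_lit 379) (nat_lit 341)) (XT.lf (nat_lit 0) (nat_lit 2257746789) (nat_lit 1824) (nat_lit 1777642953) (nat_lit 76) (nat_lit 3466476922) (nat_lit 441) (nat_lit 5) (nat_lit 465) (nat_lit 5) (nat_lit 442) (nat_lit 5) (nat_lit 421) (nat_lit 379) (nat_lit 340)))))) (XT.nd (nat_lit 468) (nat_lit 3344) (nat_lit 0) (XT.nd (nat_lit 234) (nat_lit 1900) (nat_lit 0) (XT.nd (nat_lit 78) (nat_lit 988) (nat_lit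 0) (XT.lf (nat_lit 0) (nat_lit 3081574559) (nat_lit 1444) (nat_lit 1731569922) (nat_lit 1520) (nat_lit 2742277877) (nat_lit 422) (nat_lit 5) (nat_lit 441) (nat_lit 5) (nat_lit 442) (nat_lit 5) (nat_lit 422) (nat_lit 379) (nat_lit 339)) (XT.nd (nat_lit 78) (nat_lit 76) (nat_lit 0) (XT.lf (nat_lit 0) (nat_lit 407877556) (nat_lit 912) (nat_lit 6984372748) (nat_lit 988) (nat_lit 218358412) (nat_lit 410) (nat_lit 5) (nat_lit 422) (nat_lit 5) (nat_lit 423) (nat_lit 5) (nat_lit 423) (nat_lit 379) (nat_lit 338)) (XT.lf (nat_lit 0) (nat_lit 2321053783) (nat_lit 988) (nat_lit 2291339552) (nat_lit 76) (nat_lit 3054292349) (nat_lit 409) (nat_lit 5) (nat_lit 422) (nat_lit 5) (nat_lit 410) (nat_lit 5) (nat_lit 424) (nat_lit 379) (nat_lit 337)))) (XT.nd (nat_lit 78) (nat_lit 988) (nat_lit 0) (XT.lf (nat_lit 0) (nat_lit 2707281814) (nat_lit 912) (nat_lit 2173752495) (nat_lit 988) (nat_lit 2843377825) (nat_lit 397) (nat_lit 5) (nat_lit 409)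 (nat_lit 5) (nat_lit 410) (nat_lit 5) (nat_lit 425) (nat_lit 379) (nat_lit 336)) (XT.nd (nat_lit 78) (nat_lit 76) (nat_lit 0) (XT.lf (nat_lit 0) (nat_lit 6237840) (nat_lit 912) (nat_lit 7459241447) (nat_lit 988) (nat_lit 318359203) (nat_lit 385) (nat_lit 5) (nat_lit 397) (nat_lit 5) (nat_lit 398) (nat_lit 5) (nat_lit 426) (nat_lit 379) (nat_lit 335)) (XT.lf (nat_lit 0) (nat_lit 2231827036) (nat_lit 988) (nat_lit 2720922008) (nat_lit 76) (nat_lit 2891336085) (nat_lit 384) (nat_lit 5) (nat_lit 397) (nat_lit 5) (nat_lit 385) (nat_lit 5) (nat_lit 427) (nat_lit 379) (nat_lit 334))))) (XT.nd (nat_lit 234) (nat_lit 1596) (nat_lit 0) (XT.nd (nat_lit 78) (nat_lit 912) (nat_lit 0) (XT.lf (nat_lit 0) (nat_lit 2421490924) (nat_lit 836) (nat_lit 2379836256) (nat_lit 912) (nat_lit 3104726032) (nat_lit 373) (nat_lit 5) (nat_lit 384) (nat_lit 5) (nat_lit 385) (nat_lit 5) (nat_lit 428) (nat_lit 379) (nat_lit 333)) (XT.nd (nat_lit 78) (nat_lit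 912) (nat_lit 0) (XT.lf (nat_lit 0) (nat_lit 7399573422) (nat_lit 912) (nat_lit 312569820) (nat_lit 76) (nat_lit 257580153) (nat_lit 373) (nat_lit 5) (nat_lit 385) (nat_lit 5) (nat_lit 374) (nat_lit 5) (nat_lit 429) (nat_lit 379) (nat_lit 332)) (XT.lf (nat_lit 0) (nat_lit 1994958037) (nat_lit 912) (nat_lit 3080130922) (nat_lit 76) (nat_lit 2959200452) (nat_lit 361) (nat_lit 5) (nat_lit 373) (nat_lit 5) (nat_lit 362) (nat_lit 5) (nat_lit 430) (nat_lit 379) (nat_lit 331)))) (XT.nd (nat_lit 78) (nat_lit 836) (nat_lit 0) (XT.lf (nat_lit 0) (nat_lit 2210582414) (nat_lit 760) (nat_lit 2368095058) (nat_lit 836) (nat_lit 3521904323) (nat_lit 351) (nat_lit 5) (nat_lit 361) (nat_lit 5) (nat_lit 362) (nat_lit 5) (nat_lit 431) (nat_lit 379) (nat_lit 330)) (XT.nd (nat_lit 78) (nat_lit 836) (nat_lit 0) (XT.lf (nat_lit 0) (nat_lit 7196402147) (nat_lit 836) (nat_lit 567096419) (nat_lit 76) (nat_lit 405063954) (nat_lit 351) (nat_lit 5) (nat_lit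 362) (nat_lit 5) (nat_lit 352) (nat_lit 5) (nat_lit 432) (nat_lit 379) (nat_lit 329)) (XT.lf (nat_lit 0) (nat_lit 1614309292) (nat_lit 836) (nat_lit 3382584630) (nat_lit 76) (nat_lit 3240664419) (nat_lit 340) (nat_lit 5) (nat_lit 351) (nat_lit 5) (nat_lit 341) (nat_lit 5) (nat_lit 433) (nat_lit 379) (nat_lit 328))))))) (XT.nd (nat_lit 936) (nat_lit 4712) (nat_lit 0) (XT.nd (nat_lit 468) (nat_lit 2660) (nat_lit 0) (XT.nd (nat_lit 234) (nat_lit 1444) (nat_lit 0) (XT.nd (nat_lit 78) (nat_lit 836) (nat_lit 0) (XT.lf (nat_lit 0) (nat_lit 2061044111) (nat_lit 760) (nat_lit 2155678188) (nat_lit 836) (nat_lit 4091547221) (nat_lit 330) (nat_lit 5) (nat_lit 340) (nat_lit 5) (nat_lit 341) (nat_lit 5) (nat_lit 434) (nat_lit 379) (nat_lit 327)) (XT.nd (nat_lit 78) (nat_lit 836) (nat_lit 0) (XT.lf (nat_lit 0) (nat_lit 6859321577) (nat_lit 836) (nat_lit 770822487) (nat_lit 76) (nat_lit 750496516) (nat_lit 330) (nat_lit 5) (nat_lit 341) (nat_lit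 5) (nat_lit 331) (nat_lit 5) (nat_lit 435) (nat_lit 379) (nat_lit 326)) (XT.lf (nat_lit 0) (nat_lit 1092732110) (nat_lit 836) (nat_lit 3641897563) (nat_lit 76) (nat_lit 3719557615) (nat_lit 319) (nat_lit 5) (nat_lit 330) (nat_lit 5) (nat_lit 320) (nat_lit 5) (nat_lit 436) (nat_lit 379) (nat_lit 325)))) (XT.nd (nat_lit 78) (nat_lit 760) (nat_lit 0) (XT.lf (nat_lit 0) (nat_lit 1959351348) (nat_lit 684) (nat_lit 1758745647) (nat_lit 760) (nat_lit 4811326686) (nat_lit 310) (nat_lit 5) (nat_lit 319) (nat_lit 5) (nat_lit 320) (nat_lit 5) (nat_lit 437) (nat_lit 379) (nat_lit 324)) (XT.nd (nat_lit 78) (nat_lit 760) (nat_lit 0) (XT.lf (nat_lit 0) (nat_lit 6390741881) (nat_lit 760) (nat_lit 937217537) (nat_lit 76) (nat_lit 1278317704) (nat_lit 310) (nat_lit 5) (nat_lit 320) (nat_lit 5) (nat_lit 311) (nat_lit 5) (nat_lit 438) (nat_lit 379) (nat_lit 323)) (XT.lf (nat_lit 0) (nat_lit 432076936) (nat_lit 760) (nat_lit 3871801338) (nat_lit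 76) (nat_lit 4380629254) (nat_lit 300) (nat_lit 5) (nat_lit 310) (nat_lit 5) (nat_lit 301) (nat_lit 5) (nat_lit 439) (nat_lit 379) (nat_lit 322))))) (XT.nd (nat_lit 234) (nat_lit 1292) (nat_lit 0) (XT.nd (nat_lit 78) (nat_lit 684) (nat_lit 0) (XT.lf (nat_lit 0) (nat_lit 1891844192) (nat_lit 684) (nat_lit 1192598927) (nat_lit 760) (nat_lit 5679944502) (nat_lit 291) (nat_lit 5) (nat_lit 300) (nat_lit 5) (nat_lit 301) (nat_lit 5) (nat_lit 440) (nat_lit 379) (nat_lit 321)) (XT.nd (nat_lit 78) (nat_lit 684) (nat_lit 0) (XT.lf (nat_lit 0) (nat_lit 5792092448) (nat_lit 760) (nat_lit 1079944351) (nat_lit 76) (nat_lit 1973790984) (nat_lit 291) (nat_lit 5) (nat_lit 301) (nat_lit 5) (nat_lit 292) (nat_lit 5) (nat_lit 441) (nat_lit 379) (nat_lit 320)) (XT.lf (nat_lit 0) (nat_lit 4840155694) (nat_lit 684) (nat_lit 3717004315) (nat_lit 760) (nat_lit 371678477) (nat_lit 282) (nat_lit 5) (nat_lit 291) (nat_lit 5) (nat_lit 292) (nat_lit 5)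 (nat_lit 442) (nat_lit 379) (nat_lit 319)))) (XT.nd (nat_lit 78) (nat_lit 608) (nat_lit 0) (XT.lf (nat_lit 0) (nat_lit 1844600648) (nat_lit 608) (nat_lit 471808286) (nat_lit 684) (nat_lit 6697132384) (nat_lit 273) (nat_lit 5) (nat_lit 281) (nat_lit 5) (nat_lit 282) (nat_lit 5) (nat_lit 443) (nat_lit 379) (nat_lit 318)) (XT.nd (nat_lit 78) (nat_lit 608) (nat_lit 0) (XT.lf (nat_lit 0) (nat_lit 5063820023) (nat_lit 684) (nat_lit 1212985908) (nat_lit 76) (nat_lit 2822879002) (nat_lit 273) (nat_lit 5) (nat_lit 282) (nat_lit 5) (nat_lit 274) (nat_lit 5) (nat_lit 444) (nat_lit 379) (nat_lit 317)) (XT.lf (nat_lit 0) (nat_lit 4879331055) (nat_lit 608) (nat_lit 2986836083) (nat_lit 684) (nat_lit 1321391033) (nat_lit 265) (nat_lit 5) (nat_lit 273) (nat_lit 5) (nat_lit 274) (nat_lit 5) (nat_lit 445) (nat_lit 379) (nat_lit 316)))))) (XT.nd (nat_lit 468) (nat_lit 2204) (nat_lit 0) (XT.nd (nat_lit 234) (nat_lit 1216) (nat_lit 0) (XT.nd (nat_lit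 78) (nat_lit 608) (nat_lit 0) (XT.lf (nat_lit 0) (nat_lit 1416172130) (nat_lit 684) (nat_lit 7476527356) (nat_lit 76) (nat_lit 384552048) (nat_lit 256) (nat_lit 5) (nat_lit 265) (nat_lit 5) (nat_lit 257) (nat_lit 5) (nat_lit 446) (nat_lit 379) (nat_lit 315)) (XT.nd (nat_lit 78) (nat_lit 608) (nat_lit 0) (XT.lf (nat_lit 0) (nat_lit 4205379160) (nat_lit 684) (nat_lit 1350777866) (nat_lit 76) (nat_lit 3812121461) (nat_lit 256) (nat_lit 5) (nat_lit 265) (nat_lit 5) (nat_lit 257) (nat_lit 5) (nat_lit 447) (nat_lit 379) (nat_lit 314)) (XT.lf (nat_lit 0) (nat_lit 4918713884) (nat_lit 608) (nat_lit 2129951987) (nat_lit 684) (nat_lit 2412500208) (nat_lit 248) (nat_lit 5) (nat_lit 256) (nat_lit 5) (nat_lit 257) (nat_lit 5) (nat_lit 448) (nat_lit 379) (nat_lit 313)))) (XT.nd (nat_lit 78) (nat_lit 608) (nat_lit 0) (XT.lf (nat_lit 0) (nat_lit 383724049) (nat_lit 608) (nat_lit 7811966616) (nat_lit 76) (nat_lit 1360256111) (nat_lit 240) (nat_lit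 5) (nat_lit 248) (nat_lit 5) (nat_lit 241) (nat_lit 5) (nat_lit 449) (nat_lit 379) (nat_lit 312)) (XT.nd (nat_lit 78) (nat_lit 608) (nat_lit 0) (XT.lf (nat_lit 0) (nat_lit 3215214782) (nat_lit 608) (nat_lit 1508347785) (nat_lit 76) (nat_lit 4928514345) (nat_lit 240) (nat_lit 5) (nat_lit 248) (nat_lit 5) (nat_lit 241) (nat_lit 5) (nat_lit 450) (nat_lit 379) (nat_lit 311)) (XT.lf (nat_lit 0) (nat_lit 4943268108) (nat_lit 608) (nat_lit 1159638093) (nat_lit 684) (nat_lit 3647237586) (nat_lit 232) (nat_lit 5) (nat_lit 240) (nat_lit 5) (nat_lit 241) (nat_lit 5) (nat_lit 451) (nat_lit 379) (nat_lit 310))))) (XT.nd (nat_lit 234) (nat_lit 1064) (nat_lit 0) (XT.nd (nat_lit 78) (nat_lit 608) (nat_lit 0) (XT.lf (nat_lit 0) (nat_lit 1656776019) (nat_lit 532) (nat_lit 7396363117) (nat_lit 608) (nat_lit 796942553) (nat_lit 225) (nat_lit 5) (nat_lit 232) (nat_lit 5) (nat_lit 233) (nat_lit 5) (nat_lit 452) (nat_lit 379) (nat_lit 309)) (XT.nd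 (nat_lit 78) (nat_lit 532) (nat_lit 0) (XT.lf (nat_lit 0) (nat_lit 2090736537) (nat_lit 608) (nat_lit 1701462350) (nat_lit 76) (nat_lit 6159389540) (nat_lit 224) (nat_lit 5) (nat_lit 232) (nat_lit 5) (nat_lit 225) (nat_lit 5) (nat_lit 453) (nat_lit 379) (nat_lit 308)) (XT.lf (nat_lit 0) (nat_lit 4937189093) (nat_lit 532) (nat_lit 88909712) (nat_lit 608) (nat_lit 5028914257) (nat_lit 217) (nat_lit 5) (nat_lit 224) (nat_lit 5) (nat_lit 225) (nat_lit 5) (nat_lit 454) (nat_lit 379) (nat_lit 307)))) (XT.nd (nat_lit 78) (nat_lit 608) (nat_lit 0) (XT.lf (nat_lit 0) (nat_lit 1524592491) (nat_lit 456) (nat_lit 6509721560) (nat_lit 532) (nat_lit 2125914253) (nat_lit 211) (nat_lit 5) (nat_lit 217) (nat_lit 5) (nat_lit 218) (nat_lit 5) (nat_lit 455) (nat_lit 379) (nat_lit 306)) (XT.nd (nat_lit 78) (nat_lit 532) (nat_lit 0) (XT.lf (nat_lit 0) (nat_lit 828284614) (nat_lit 532) (nat_lit 1946783951) (nat_lit 76) (nat_lit 7492293836) (nat_lit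 210) (nat_lit 5) (nat_lit 217) (nat_lit 5) (nat_lit 211) (nat_lit 5) (nat_lit 456) (nat_lit 379) (nat_lit 305)) (XT.lf (nat_lit 0) (nat_lit 3821321189) (nat_lit 608) (nat_lit 5499536808) (nat_lit 76) (nat_lit 1055340482) (nat_lit 203) (nat_lit 5) (nat_lit 211) (nat_lit 5) (nat_lit 204) (nat_lit 5) (nat_lit 457) (nat_lit 379) (nat_lit 304))))))))
noncomputable def xc86 : XT := (XT.nd (nat_lit 1794) (nat_lit 4484) (nat_lit 0) (XT.nd (nat_lit 858) (nat_lit 3116) (nat_lit 0) (XT.nd (nat_lit 390) (nat_lit 1824) (nat_lit 0) (XT.nd (nat_lit 156) (nat_lit 988) (nat_lit 0) (XT.nd (nat_lit 78) (nat_lit 0) (nat_lit 0) (XT.lf (nat_lit 0) (nat_lit 1332701112) (nat_lit 456) (nat_lit 5551490260) (nat_lit 532) (nat_lit 3602825094) (nat_lit 197) (nat_lit 5) (nat_lit 203) (nat_lit 5) (nat_lit 204) (nat_lit 5) (nat_lit 458) (nat_lit 379) (nat_lit 303)) (XT.lf (nat_lit 0) (nat_lit 8334081513) (nat_lit 456) (nat_lit 1681253238) (nat_lit 532) (nat_lit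 584580304) (nat_lit 197) (nat_lit 5) (nat_lit 203) (nat_lit 5) (nat_lit 204) (nat_lit 5) (nat_lit 459) (nat_lit 379) (nat_lit 302))) (XT.nd (nat_lit 78) (nat_lit 456) (nat_lit 0) (XT.lf (nat_lit 0) (nat_lit 2477704841) (nat_lit 532) (nat_lit 5964573472) (nat_lit 76) (nat_lit 2272146120) (nat_lit 190) (nat_lit 5) (nat_lit 197) (nat_lit 5) (nat_lit 191) (nat_lit 5) (nat_lit 460) (nat_lit 379) (nat_lit 301)) (XT.nd (nat_lit 78) (nat_lit 0) (nat_lit 0) (XT.lf (nat_lit 0) (nat_lit 1062616171) (nat_lit 456) (nat_lit 4534867937) (nat_lit 532) (nat_lit 5233585383) (nat_lit 184) (nat_lit 5) (nat_lit 190) (nat_lit 5) (nat_lit 191) (nat_lit 5) (nat_lit 461) (nat_lit 379) (nat_lit 300)) (XT.lf (nat_lit 0) (nat_lit 8269619108) (nat_lit 456) (nat_lit 521098898) (nat_lit 532) (nat_lit 2159112472) (nat_lit 184) (nat_lit 5) (nat_lit 190) (nat_lit 5) (nat_lit 191) (nat_lit 5) (nat_lit 462) (nat_lit 379) (nat_lit 299))))) (XT.nd (nat_lit 234)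 (nat_lit 912) (nat_lit 0) (XT.nd (nat_lit 78) (nat_lit 380) (nat_lit 0) (XT.lf (nat_lit 0) (nat_lit 988422738) (nat_lit 532) (nat_lit 6532042075) (nat_lit 76) (nat_lit 3549891382) (nat_lit 177) (nat_lit 5) (nat_lit 184) (nat_lit 5) (nat_lit 178) (nat_lit 5) (nat_lit 463) (nat_lit 379) (nat_lit 298)) (XT.nd (nat_lit 78) (nat_lit 0) (nat_lit 0) (XT.lf (nat_lit 0) (nat_lit 694479780) (nat_lit 380) (nat_lit 3473233049) (nat_lit 456) (nat_lit 7025343835) (nat_lit 172) (nat_lit 5) (nat_lit 177) (nat_lit 5) (nat_lit 178) (nat_lit 5) (nat_lit 464) (nat_lit 379) (nat_lit 297)) (XT.lf (nat_lit 0) (nat_lit 7430792828) (nat_lit 456) (nat_lit 3209378458) (nat_lit 76) (nat_lit 677639661) (nat_lit 172) (nat_lit 5) (nat_lit 178) (nat_lit 5) (nat_lit 173) (nat_lit 5) (nat_lit 465) (nat_lit 379) (nat_lit 296)))) (XT.nd (nat_lit 78) (nat_lit 456) (nat_lit 0) (XT.lf (nat_lit 0) (nat_lit 4217149306) (nat_lit 456) (nat_lit 6564747637) (nat_lit 532)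 (nat_lit 662711935) (nat_lit 166) (nat_lit 5) (nat_lit 172) (nat_lit 5) (nat_lit 173) (nat_lit 5) (nat_lit 466) (nat_lit 379) (nat_lit 295)) (XT.nd (nat_lit 78) (nat_lit 0) (nat_lit 0) (XT.lf (nat_lit 0) (nat_lit 206856585) (nat_lit 380) (nat_lit 2380278903) (nat_lit 456) (nat_lit 8986560005) (nat_lit 160) (nat_lit 5) (nat_lit 165) (nat_lit 5) (nat_lit 166) (nat_lit 5) (nat_lit 467) (nat_lit 379) (nat_lit 294)) (XT.lf (nat_lit 0) (nat_lit 5926856908) (nat_lit 456) (nat_lit 3874588192) (nat_lit 76) (nat_lit 1903159708) (nat_lit 160) (nat_lit 5) (nat_lit 166) (nat_lit 5) (nat_lit 161) (nat_lit 5) (nat_lit 468) (nat_lit 379) (nat_lit 293)))))) (XT.nd (nat_lit 468) (nat_lit 1444) (nat_lit 0) (XT.nd (nat_lit 234) (nat_lit 836) (nat_lit 0) (XT.nd (nat_lit 78) (nat_lit 456) (nat_lit 0) (XT.lf (nat_lit 0) (nat_lit 3760816755) (nat_lit 380) (nat_lit 5585937005) (nat_lit 456) (nat_lit 2491114450) (nat_lit 155) (nat_lit 5) (nat_lit 160)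 (nat_lit 5) (nat_lit 161) (nat_lit 5) (nat_lit 469) (nat_lit 379) (nat_lit 292)) (XT.nd (nat_lit 78) (nat_lit 380) (nat_lit 0) (XT.lf (nat_lit 0) (nat_lit 849415510) (nat_lit 456) (nat_lit 417934728) (nat_lit 76) (nat_lit 10706349006) (nat_lit 154) (nat_lit 5) (nat_lit 160) (nat_lit 5) (nat_lit 155) (nat_lit 5) (nat_lit 470) (nat_lit 379) (nat_lit 291)) (XT.lf (nat_lit 0) (nat_lit 4266233638) (nat_lit 456) (nat_lit 4696356571) (nat_lit 76) (nat_lit 3148474009) (nat_lit 149) (nat_lit 5) (nat_lit 155) (nat_lit 5) (nat_lit 150) (nat_lit 5) (nat_lit 471) (nat_lit 379) (nat_lit 290)))) (XT.nd (nat_lit 78) (nat_lit 456) (nat_lit 0) (XT.lf (nat_lit 0) (nat_lit 3151743199) (nat_lit 380) (nat_lit 4605306356) (nat_lit 456) (nat_lit 4494016962) (nat_lit 144) (nat_lit 5) (nat_lit 149) (nat_lit 5) (nat_lit 150) (nat_lit 5) (nat_lit 472) (nat_lit 379) (nat_lit 289)) (XT.nd (nat_lit 78) (nat_lit 456) (nat_lit 0) (XT.lf (nat_lit 0) (nat_lit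 11180998142) (nat_lit 380) (nat_lit 142434616) (nat_lit 456) (nat_lit 1070324273) (nat_lit 144) (nat_lit 5) (nat_lit 149) (nat_lit 5) (nat_lit 150) (nat_lit 5) (nat_lit 473) (nat_lit 379) (nat_lit 288)) (XT.lf (nat_lit 0) (nat_lit 2438175920) (nat_lit 456) (nat_lit 5700710440) (nat_lit 76) (nat_lit 4399141649) (nat_lit 138) (nat_lit 5) (nat_lit 144) (nat_lit 5) (nat_lit 139) (nat_lit 5) (nat_lit 474) (nat_lit 379) (nat_lit 287))))) (XT.nd (nat_lit 234) (nat_lit 684) (nat_lit 0) (XT.nd (nat_lit 78) (nat_lit 380) (nat_lit 0) (XT.lf (nat_lit 0) (nat_lit 2363530001) (nat_lit 380) (nat_lit 3638208231) (nat_lit 456) (nat_lit 6683323206) (nat_lit 133) (nat_lit 5) (nat_lit 138) (nat_lit 5) (nat_lit 139) (nat_lit 5) (nat_lit 475) (nat_lit 379) (nat_lit 286)) (XT.nd (nat_lit 78) (nat_lit 380) (nat_lit 0) (XT.lf (nat_lit 0) (nat_lit 9656145767) (nat_lit 456) (nat_lit 2213729274) (nat_lit 76) (nat_lit 964771961) (nat_lit 133) (nat_lit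 5) (nat_lit 139) (nat_lit 5) (nat_lit 134) (nat_lit 5) (nat_lit 476) (nat_lit 379) (nat_lit 285)) (XT.lf (nat_lit 0) (nat_lit 430372458) (nat_lit 380) (nat_lit 6916074168) (nat_lit 76) (nat_lit 5639945921) (nat_lit 128) (nat_lit 5) (nat_lit 133) (nat_lit 5) (nat_lit 129) (nat_lit 5) (nat_lit 477) (nat_lit 379) (nat_lit 284)))) (XT.nd (nat_lit 78) (nat_lit 304) (nat_lit 0) (XT.lf (nat_lit 0) (nat_lit 1367308283) (nat_lit 380) (nat_lit 2700870055) (nat_lit 456) (nat_lit 9072590948) (nat_lit 123) (nat_lit 5) (nat_lit 128) (nat_lit 5) (nat_lit 129) (nat_lit 5) (nat_lit 478) (nat_lit 379) (nat_lit 283)) (XT.nd (nat_lit 78) (nat_lit 304) (nat_lit 0) (XT.lf (nat_lit 0) (nat_lit 7814272451) (nat_lit 456) (nat_lit 3439533105) (nat_lit 76) (nat_lit 2043720084) (nat_lit 123) (nat_lit 5) (nat_lit 129) (nat_lit 5) (nat_lit 124) (nat_lit 5) (nat_lit 479) (nat_lit 379) (nat_lit 282)) (XT.lf (nat_lit 0) (nat_lit 5071664923) (nat_lit 304) (nat_lit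 6590502116) (nat_lit 380) (nat_lit 1794715178) (nat_lit 119) (nat_lit 5) (nat_lit 123) (nat_lit 5) (nat_lit 124) (nat_lit 5) (nat_lit 480) (nat_lit 379) (nat_lit 281))))))) (XT.nd (nat_lit 936) (nat_lit 2128) (nat_lit 0) (XT.nd (nat_lit 468) (nat_lit 988) (nat_lit 0) (XT.nd (nat_lit 234) (nat_lit 684) (nat_lit 0) (XT.nd (nat_lit 78) (nat_lit 304) (nat_lit 0) (XT.lf (nat_lit 0) (nat_lit 131435166) (nat_lit 304) (nat_lit 1810568188) (nat_lit 380) (nat_lit 11677165335) (nat_lit 114) (nat_lit 5) (nat_lit 118) (nat_lit 5) (nat_lit 119) (nat_lit 5) (nat_lit 481) (nat_lit 379) (nat_lit 280)) (XT.nd (nat_lit 78) (nat_lit 304) (nat_lit 0) (XT.lf (nat_lit 0) (nat_lit 5782246996) (nat_lit 380) (nat_lit 4921888765) (nat_lit 76) (nat_lit 3079273945) (nat_lit 114) (nat_lit 5) (nat_lit 119) (nat_lit 5) (nat_lit 115) (nat_lit 5) (nat_lit 482) (nat_lit 379) (nat_lit 279)) (XT.lf (nat_lit 0) (nat_lit 3815837764) (nat_lit 304) (nat_lit 5896946609)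 (nat_lit 380) (nat_lit 4237883859) (nat_lit 110) (nat_lit 5) (nat_lit 114) (nat_lit 5) (nat_lit 115) (nat_lit 5) (nat_lit 483) (nat_lit 379) (nat_lit 278)))) (XT.nd (nat_lit 78) (nat_lit 684) (nat_lit 0) (XT.lf (nat_lit 0) (nat_lit 12757792963) (nat_lit 304) (nat_lit 974105989) (nat_lit 380) (nat_lit 389176065) (nat_lit 110) (nat_lit 5) (nat_lit 114) (nat_lit 5) (nat_lit 115) (nat_lit 5) (nat_lit 484) (nat_lit 379) (nat_lit 277)) (XT.nd (nat_lit 78) (nat_lit 304) (nat_lit 0) (XT.lf (nat_lit 0) (nat_lit 3543527212) (nat_lit 380) (nat_lit 6696656964) (nat_lit 76) (nat_lit 4053180793) (nat_lit 105) (nat_lit 5) (nat_lit 110) (nat_lit 5) (nat_lit 106) (nat_lit 5) (nat_lit 485) (nat_lit 379) (nat_lit 276)) (XT.lf (nat_lit 0) (nat_lit 2269193715) (nat_lit 304) (nat_lit 5288233620) (nat_lit 380) (nat_lit 6911469137) (nat_lit 101) (nat_lit 5) (nat_lit 105) (nat_lit 5) (nat_lit 106) (nat_lit 5) (nat_lit 486) (nat_lit 379) (nat_lit 275)))))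 (XT.nd (nat_lit 234) (nat_lit 380) (nat_lit 0) (XT.nd (nat_lit 78) (nat_lit 608) (nat_lit 0) (XT.lf (nat_lit 0) (nat_lit 11468441383) (nat_lit 304) (nat_lit 205663832) (nat_lit 380) (nat_lit 2973385628) (nat_lit 101) (nat_lit 5) (nat_lit 105) (nat_lit 5) (nat_lit 106) (nat_lit 5) (nat_lit 487) (nat_lit 379) (nat_lit 274)) (XT.nd (nat_lit 78) (nat_lit 228) (nat_lit 0) (XT.lf (nat_lit 0) (nat_lit 1079501252) (nat_lit 380) (nat_lit 8803290204) (nat_lit 76) (nat_lit 4945737759) (nat_lit 96) (nat_lit 5) (nat_lit 101) (nat_lit 5) (nat_lit 97) (nat_lit 5) (nat_lit 488) (nat_lit 379) (nat_lit 273)) (XT.lf (nat_lit 0) (nat_lit 391501592) (nat_lit 228) (nat_lit 4785508742) (nat_lit 304) (nat_lit 9835719481) (nat_lit 93) (nat_lit 5) (nat_lit 96) (nat_lit 5) (nat_lit 97) (nat_lit 5) (nat_lit 489) (nat_lit 379) (nat_lit 272)))) (XT.nd (nat_lit 78) (nat_lit 380) (nat_lit 0) (XT.lf (nat_lit 0) (nat_lit 9396688851) (nat_lit 304) (nat_lit 5349479641)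 (nat_lit 76) (nat_lit 453643613) (nat_lit 93) (nat_lit 5) (nat_lit 97) (nat_lit 5) (nat_lit 94) (nat_lit 5) (nat_lit 490) (nat_lit 379) (nat_lit 271)) (XT.nd (nat_lit 78) (nat_lit 76) (nat_lit 0) (XT.lf (nat_lit 0) (nat_lit 4093930432) (nat_lit 304) (nat_lit 9643600359) (nat_lit 380) (nat_lit 1652371874) (nat_lit 89) (nat_lit 5) (nat_lit 93) (nat_lit 5) (nat_lit 94) (nat_lit 5) (nat_lit 491) (nat_lit 379) (nat_lit 270)) (XT.lf (nat_lit 0) (nat_lit 2562219656) (nat_lit 380) (nat_lit 1837178345) (nat_lit 76) (nat_lit 11183770167) (nat_lit 88) (nat_lit 5) (nat_lit 93) (nat_lit 5) (nat_lit 89) (nat_lit 5) (nat_lit 492) (nat_lit 379) (nat_lit 269)))))) (XT.nd (nat_lit 468) (nat_lit 1064) (nat_lit 0) (XT.nd (nat_lit 234) (nat_lit 532) (nat_lit 0) (XT.nd (nat_lit 78) (nat_lit 304) (nat_lit 0) (XT.lf (nat_lit 0) (nat_lit 6875533169) (nat_lit 304) (nat_lit 7918051925) (nat_lit 76) (nat_lit 985766241) (nat_lit 85) (nat_lit 5) (nat_lit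 89) (nat_lit 5) (nat_lit 86) (nat_lit 5) (nat_lit 493) (nat_lit 379) (nat_lit 268)) (XT.nd (nat_lit 78) (nat_lit 0) (nat_lit 0) (XT.lf (nat_lit 0) (nat_lit 1758059259) (nat_lit 304) (nat_lit 9549073762) (nat_lit 380) (nat_lit 4671686612) (nat_lit 81) (nat_lit 5) (nat_lit 85) (nat_lit 5) (nat_lit 86) (nat_lit 5) (nat_lit 494) (nat_lit 379) (nat_lit 267)) (XT.lf (nat_lit 0) (nat_lit 11700035823) (nat_lit 304) (nat_lit 4159707175) (nat_lit 380) (nat_lit 321888568) (nat_lit 81) (nat_lit 5) (nat_lit 85) (nat_lit 5) (nat_lit 86) (nat_lit 5) (nat_lit 495) (nat_lit 379) (nat_lit 266)))) (XT.nd (nat_lit 78) (nat_lit 228) (nat_lit 0) (XT.lf (nat_lit 0) (nat_lit 4084923410) (nat_lit 304) (nat_lit 10933967714) (nat_lit 76) (nat_lit 1368596327) (nat_lit 77) (nat_lit 5) (nat_lit 81) (nat_lit 5) (nat_lit 78) (nat_lit 5) (nat_lit 496) (nat_lit 379) (nat_lit 265)) (XT.nd (nat_lit 78) (nat_lit 228) (nat_lit 0) (XT.lf (nat_lit 0) (nat_lit 8612988109)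 (nat_lit 304) (nat_lit 1013316159) (nat_lit 76) (nat_lit 6970366827) (nat_lit 77) (nat_lit 5) (nat_lit 81) (nat_lit 5) (nat_lit 78) (nat_lit 5) (nat_lit 497) (nat_lit 379) (nat_lit 264)) (XT.lf (nat_lit 0) (nat_lit 9192321780) (nat_lit 228) (nat_lit 4078976717) (nat_lit 304) (nat_lit 3537947919) (nat_lit 74) (nat_lit 5) (nat_lit 77) (nat_lit 5) (nat_lit 78) (nat_lit 5) (nat_lit 498) (nat_lit 379) (nat_lit 263))))) (XT.nd (nat_lit 234) (nat_lit 532) (nat_lit 0) (XT.nd (nat_lit 78) (nat_lit 228) (nat_lit 0) (XT.lf (nat_lit 0) (nat_lit 997650201) (nat_lit 304) (nat_lit 14453028983) (nat_lit 76) (nat_lit 1574985855) (nat_lit 70) (nat_lit 5) (nat_lit 74) (nat_lit 5) (nat_lit 71) (nat_lit 5) (nat_lit 499) (nat_lit 379) (nat_lit 262)) (XT.nd (nat_lit 78) (nat_lit 228) (nat_lit 0) (XT.lf (nat_lit 0) (nat_lit 5635219177) (nat_lit 304) (nat_lit 4261045396) (nat_lit 76) (nat_lit 7348508701) (nat_lit 70) (nat_lit 5) (nat_lit 74) (nat_lit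 5) (nat_lit 71) (nat_lit 5) (nat_lit 500) (nat_lit 379) (nat_lit 261)) (XT.lf (nat_lit 0) (nat_lit 6182418944) (nat_lit 228) (nat_lit 4203773273) (nat_lit 304) (nat_lit 7081659966) (nat_lit 67) (nat_lit 5) (nat_lit 70) (nat_lit 5) (nat_lit 71) (nat_lit 5) (nat_lit 501) (nat_lit 379) (nat_lit 260)))) (XT.nd (nat_lit 78) (nat_lit 532) (nat_lit 0) (XT.lf (nat_lit 0) (nat_lit 15251961346) (nat_lit 304) (nat_lit 846423070) (nat_lit 76) (nat_lit 1596614255) (nat_lit 67) (nat_lit 5) (nat_lit 71) (nat_lit 5) (nat_lit 68) (nat_lit 5) (nat_lit 502) (nat_lit 379) (nat_lit 259)) (XT.nd (nat_lit 78) (nat_lit 228) (nat_lit 0) (XT.lf (nat_lit 0) (nat_lit 2331718761) (nat_lit 304) (nat_lit 8070458836) (nat_lit 76) (nat_lit 7522747348) (nat_lit 63) (nat_lit 5) (nat_lit 67) (nat_lit 5) (nat_lit 64) (nat_lit 5) (nat_lit 503) (nat_lit 379) (nat_lit 258)) (XT.lf (nat_lit 0) (nat_lit 2606578918) (nat_lit 228) (nat_lit 4566354423) (nat_lit 304) (nat_lit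 10986121367) (nat_lit 60) (nat_lit 5) (nat_lit 63) (nat_lit 5) (nat_lit 64) (nat_lit 5) (nat_lit 504) (nat_lit 379) (nat_lit 257))))))))
noncomputable def xc87 : XT := (XT.nd (nat_lit 51246) (nat_lit 0) (nat_lit 26676) (XT.nd (nat_lit 50310) (nat_lit 0) (nat_lit 46512) (XT.nd (nat_lit 49842) (nat_lit 0) (nat_lit 50312) (XT.nd (nat_lit 49608) (nat_lit 0) (nat_lit 51300) (XT.nd (nat_lit 78) (nat_lit 152) (nat_lit 0) (XT.lf (nat_lit 0) (nat_lit 12155562150) (nat_lit 304) (nat_lit 4832560339) (nat_lit 76) (nat_lit 1408854196) (nat_lit 60) (nat_lit 5) (nat_lit 64) (nat_lit 5) (nat_lit 61) (nat_lit 5) (nat_lit 505) (nat_lit 379) (nat_lit 256)) (XT.lf (nat_lit 0) (nat_lit 6119444449) (nat_lit 152) (nat_lit 11169816645) (nat_lit 228) (nat_lit 1349369043) (nat_lit 58) (nat_lit 5) (nat_lit 60) (nat_lit 5) (nat_lit 61) (nat_lit 5) (nat_lit 506) (nat_lit 379) (nat_lit 255))) (XT.nd (nat_lit 78) (nat_lit 76) (nat_lit 0) (XT.lf (nat_lit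 0) (nat_lit 1073741823) (nat_lit 0) (nat_lit 0) (nat_lit 0) (nat_lit 0) (nat_lit 734) (nat_lit 0) (nat_lit 1) (nat_lit 0) (nat_lit 1) (nat_lit 0) (nat_lit 380) (nat_lit 380) (nat_lit 380)) (XT.nd (nat_lit 78) (nat_lit 0) (nat_lit 0) (XT.lf (nat_lit 0) (nat_lit 3133104605) (nat_lit 76) (nat_lit 3268413760) (nat_lit 0) (nat_lit 41359765) (nat_lit 733) (nat_lit 5) (nat_lit 734) (nat_lit 0) (nat_lit 733) (nat_lit 4) (nat_lit 381) (nat_lit 380) (nat_lit 379)) (XT.lf (nat_lit 0) (nat_lit 6246962748) (nat_lit 76) (nat_lit 73928793) (nat_lit 0) (nat_lit 124095515) (nat_lit 733) (nat_lit 5) (nat_lit 734) (nat_lit 0) (nat_lit 733) (nat_lit 4) (nat_lit 382) (nat_lit 380) (nat_lit 378))))) (XT.nd (nat_lit 234) (nat_lit 608) (nat_lit 0) (XT.nd (nat_lit 78) (nat_lit 228) (nat_lit 0) (XT.lf (nat_lit 0) (nat_lit 2876871093) (nat_lit 152) (nat_lit 3283276244) (nat_lit 76) (nat_lit 287839221) (nat_lit 731) (nat_lit 5) (nat_lit 733) (nat_lit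 5) (nat_lit 732) (nat_lit 4) (nat_lit 383) (nat_lit 380) (nat_lit 377)) (XT.nd (nat_lit 78) (nat_lit 228) (nat_lit 0) (XT.lf (nat_lit 0) (nat_lit 5931558258) (nat_lit 152) (nat_lit 26228387) (nat_lit 76) (nat_lit 494847321) (nat_lit 731) (nat_lit 5) (nat_lit 733) (nat_lit 5) (nat_lit 732) (nat_lit 4) (nat_lit 384) (nat_lit 380) (nat_lit 376)) (XT.lf (nat_lit 0) (nat_lit 2499000344) (nat_lit 228) (nat_lit 3177936238) (nat_lit 76) (nat_lit 781273078) (nat_lit 728) (nat_lit 5) (nat_lit 731) (nat_lit 5) (nat_lit 729) (nat_lit 5) (nat_lit 385) (nat_lit 380) (nat_lit 375)))) (XT.nd (nat_lit 78) (nat_lit 380) (nat_lit 0) (XT.lf (nat_lit 0) (nat_lit 144876087) (nat_lit 228) (nat_lit 5351470328) (nat_lit 304) (nat_lit 969035754) (nat_lit 725) (nat_lit 5) (nat_lit 728) (nat_lit 5) (nat_lit 729) (nat_lit 5) (nat_lit 386) (nat_lit 380) (nat_lit 374)) (XT.nd (nat_lit 78) (nat_lit 304) (nat_lit 0) (XT.lf (nat_lit 0) (nat_lit 1998542232)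 (nat_lit 304) (nat_lit 2952405739) (nat_lit 76) (nat_lit 1522611975) (nat_lit 724) (nat_lit 5) (nat_lit 728) (nat_lit 5) (nat_lit 725) (nat_lit 5) (nat_lit 387) (nat_lit 380) (nat_lit 373)) (XT.lf (nat_lit 0) (nat_lit 439556502) (nat_lit 304) (nat_lit 4500733376) (nat_lit 380) (nat_lit 1542956731) (nat_lit 720) (nat_lit 5) (nat_lit 724) (nat_lit 5) (nat_lit 725) (nat_lit 5) (nat_lit 388) (nat_lit 380) (nat_lit 372)))))) (XT.nd (nat_lit 468) (nat_lit 2204) (nat_lit 0) (XT.nd (nat_lit 234) (nat_lit 1064) (nat_lit 0) (XT.nd (nat_lit 78) (nat_lit 456) (nat_lit 0) (XT.lf (nat_lit 0) (nat_lit 1374306942) (nat_lit 380) (nat_lit 2606465520) (nat_lit 76) (nat_lit 2513283738) (nat_lit 719) (nat_lit 5) (nat_lit 724) (nat_lit 5) (nat_lit 720) (nat_lit 5) (nat_lit 389) (nat_lit 380) (nat_lit 371)) (XT.nd (nat_lit 78) (nat_lit 76) (nat_lit 0) (XT.lf (nat_lit 0) (nat_lit 857807706) (nat_lit 380) (nat_lit 3404100985) (nat_lit 456) (nat_lit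 2244343869) (nat_lit 714) (nat_lit 5) (nat_lit 719) (nat_lit 5) (nat_lit 720) (nat_lit 5) (nat_lit 390) (nat_lit 380) (nat_lit 370)) (XT.lf (nat_lit 0) (nat_lit 624862154) (nat_lit 456) (nat_lit 2139665735) (nat_lit 76) (nat_lit 3755195623) (nat_lit 713) (nat_lit 5) (nat_lit 719) (nat_lit 5) (nat_lit 714) (nat_lit 5) (nat_lit 391) (nat_lit 380) (nat_lit 369)))) (XT.nd (nat_lit 78) (nat_lit 608) (nat_lit 0) (XT.lf (nat_lit 0) (nat_lit 1400207435) (nat_lit 456) (nat_lit 2059446239) (nat_lit 532) (nat_lit 3074774469) (nat_lit 707) (nat_lit 5) (nat_lit 713) (nat_lit 5) (nat_lit 714) (nat_lit 5) (nat_lit 392) (nat_lit 380) (nat_lit 368)) (XT.nd (nat_lit 78) (nat_lit 608) (nat_lit 0) (XT.lf (nat_lit 0) (nat_lit 4997579651) (nat_lit 456) (nat_lit 1298168506) (nat_lit 532) (nat_lit 254812078) (nat_lit 707) (nat_lit 5) (nat_lit 713) (nat_lit 5) (nat_lit 714) (nat_lit 5) (nat_lit 393) (nat_lit 380) (nat_lit 367)) (XT.lf (nat_lit 0) (nat_lit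 2067567678) (nat_lit 532) (nat_lit 464162772) (nat_lit 608) (nat_lit 4036077364) (nat_lit 699) (nat_lit 5) (nat_lit 706) (nat_lit 5) (nat_lit 707) (nat_lit 5) (nat_lit 394) (nat_lit 380) (nat_lit 366))))) (XT.nd (nat_lit 234) (nat_lit 1520) (nat_lit 0) (XT.nd (nat_lit 78) (nat_lit 684) (nat_lit 0) (XT.lf (nat_lit 0) (nat_lit 5315977150) (nat_lit 608) (nat_lit 851559620) (nat_lit 76) (nat_lit 418946226) (nat_lit 699) (nat_lit 5) (nat_lit 707) (nat_lit 5) (nat_lit 700) (nat_lit 5) (nat_lit 395) (nat_lit 380) (nat_lit 365)) (XT.nd (nat_lit 78) (nat_lit 0) (nat_lit 0) (XT.lf (nat_lit 0) (nat_lit 1485086929) (nat_lit 684) (nat_lit 3754488765) (nat_lit 76) (nat_lit 1366676907) (nat_lit 690) (nat_lit 5) (nat_lit 699) (nat_lit 5) (nat_lit 691) (nat_lit 5) (nat_lit 396) (nat_lit 380) (nat_lit 364)) (XT.lf (nat_lit 0) (nat_lit 4218824244) (nat_lit 684) (nat_lit 37495703) (nat_lit 76) (nat_lit 2371151450) (nat_lit 690) (nat_lit 5) (nat_lit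 699) (nat_lit 5) (nat_lit 691) (nat_lit 5) (nat_lit 397) (nat_lit 380) (nat_lit 363)))) (XT.nd (nat_lit 78) (nat_lit 760) (nat_lit 0) (XT.lf (nat_lit 0) (nat_lit 313119381) (nat_lit 760) (nat_lit 2891425115) (nat_lit 76) (nat_lit 3445351456) (nat_lit 680) (nat_lit 5) (nat_lit 690) (nat_lit 5) (nat_lit 681) (nat_lit 5) (nat_lit 398) (nat_lit 380) (nat_lit 362)) (XT.nd (nat_lit 78) (nat_lit 0) (nat_lit 0) (XT.lf (nat_lit 0) (nat_lit 910918925) (nat_lit 760) (nat_lit 2088460636) (nat_lit 836) (nat_lit 3674246159) (nat_lit 670) (nat_lit 5) (nat_lit 680) (nat_lit 5) (nat_lit 681) (nat_lit 5) (nat_lit 399) (nat_lit 380) (nat_lit 361)) (XT.lf (nat_lit 0) (nat_lit 4785611951) (nat_lit 760) (nat_lit 910242574) (nat_lit 836) (nat_lit 1002866696) (nat_lit 670) (nat_lit 5) (nat_lit 680) (nat_lit 5) (nat_lit 681) (nat_lit 5) (nat_lit 400) (nat_lit 380) (nat_lit 360))))))) (XT.nd (nat_lit 936) (nat_lit 12008) (nat_lit 0) (XT.nd (nat_lit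 468) (nat_lit 3800) (nat_lit 0) (XT.nd (nat_lit 234) (nat_lit 2128) (nat_lit 0) (XT.nd (nat_lit 78) (nat_lit 988) (nat_lit 0) (XT.lf (nat_lit 0) (nat_lit 1652316096) (nat_lit 912) (nat_lit 4741833262) (nat_lit 76) (nat_lit 330906605) (nat_lit 658) (nat_lit 5) (nat_lit 670) (nat_lit 5) (nat_lit 659) (nat_lit 5) (nat_lit 401) (nat_lit 380) (nat_lit 359)) (XT.nd (nat_lit 78) (nat_lit 988) (nat_lit 0) (XT.lf (nat_lit 0) (nat_lit 4305090858) (nat_lit 912) (nat_lit 824978974) (nat_lit 76) (nat_lit 1622576376) (nat_lit 658) (nat_lit 5) (nat_lit 670) (nat_lit 5) (nat_lit 659) (nat_lit 5) (nat_lit 402) (nat_lit 380) (nat_lit 358)) (XT.lf (nat_lit 0) (nat_lit 187558493) (nat_lit 988) (nat_lit 3614172620) (nat_lit 76) (nat_lit 2979837342) (nat_lit 645) (nat_lit 5) (nat_lit 658) (nat_lit 5) (nat_lit 646) (nat_lit 5) (nat_lit 403) (nat_lit 380) (nat_lit 357)))) (XT.nd (nat_lit 78) (nat_lit 1140) (nat_lit 0) (XT.lf (nat_lit 0) (nat_lit 385007058)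 (nat_lit 988) (nat_lit 2406334213) (nat_lit 1064) (nat_lit 4020448105) (nat_lit 632) (nat_lit 5) (nat_lit 645) (nat_lit 5) (nat_lit 646) (nat_lit 5) (nat_lit 404) (nat_lit 380) (nat_lit 356)) (XT.nd (nat_lit 78) (nat_lit 1140) (nat_lit 0) (XT.lf (nat_lit 0) (nat_lit 4469809229) (nat_lit 988) (nat_lit 943162358) (nat_lit 1064) (nat_lit 1430345911) (nat_lit 632) (nat_lit 5) (nat_lit 645) (nat_lit 5) (nat_lit 646) (nat_lit 5) (nat_lit 405) (nat_lit 380) (nat_lit 355)) (XT.lf (nat_lit 0) (nat_lit 1152971262) (nat_lit 1140) (nat_lit 5147653775) (nat_lit 76) (nat_lit 575565278) (nat_lit 617) (nat_lit 5) (nat_lit 632) (nat_lit 5) (nat_lit 618) (nat_lit 5) (nat_lit 406) (nat_lit 380) (nat_lit 354))))) (XT.nd (nat_lit 234) (nat_lit 1368) (nat_lit 0) (XT.nd (nat_lit 78) (nat_lit 2432) (nat_lit 0) (XT.lf (nat_lit 0) (nat_lit 3734310567) (nat_lit 1140) (nat_lit 1024677262) (nat_lit 76) (nat_lit 2151250674) (nat_lit 617) (nat_lit 5) (nat_lit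 632) (nat_lit 5) (nat_lit 618) (nat_lit 5) (nat_lit 407) (nat_lit 380) (nat_lit 353)) (XT.nd (nat_lit 78) (nat_lit 1292) (nat_lit 0) (XT.lf (nat_lit 0) (nat_lit 3179073566) (nat_lit 1140) (nat_lit 3153168393) (nat_lit 1216) (nat_lit 613443224) (nat_lit 602) (nat_lit 5) (nat_lit 617) (nat_lit 5) (nat_lit 618) (nat_lit 5) (nat_lit 408) (nat_lit 380) (nat_lit 352)) (XT.lf (nat_lit 0) (nat_lit 448085601) (nat_lit 1216) (nat_lit 1480559237) (nat_lit 1292) (nat_lit 5053860637) (nat_lit 585) (nat_lit 5) (nat_lit 601) (nat_lit 5) (nat_lit 602) (nat_lit 5) (nat_lit 409) (nat_lit 380) (nat_lit 351)))) (XT.nd (nat_lit 78) (nat_lit 1368) (nat_lit 0) (XT.lf (nat_lit 0) (nat_lit 4485903776) (nat_lit 1292) (nat_lit 2271847740) (nat_lit 76) (nat_lit 262794557) (nat_lit 585) (nat_lit 5) (nat_lit 602) (nat_lit 5) (nat_lit 586) (nat_lit 5) (nat_lit 410) (nat_lit 380) (nat_lit 350)) (XT.nd (nat_lit 78) (nat_lit 0) (nat_lit 0) (XT.lf (nat_lit 0)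 (nat_lit 4090429) (nat_lit 1368) (nat_lit 5010801682) (nat_lit 76) (nat_lit 2045074309) (nat_lit 567) (nat_lit 5) (nat_lit 585) (nat_lit 5) (nat_lit 568) (nat_lit 5) (nat_lit 411) (nat_lit 380) (nat_lit 349)) (XT.lf (nat_lit 0) (nat_lit 2522130384) (nat_lit 1368) (nat_lit 673647656) (nat_lit 76) (nat_lit 3904827572) (nat_lit 567) (nat_lit 5) (nat_lit 585) (nat_lit 5) (nat_lit 568) (nat_lit 5) (nat_lit 412) (nat_lit 380) (nat_lit 348)))))) (XT.nd (nat_lit 468) (nat_lit 5928) (nat_lit 0) (XT.nd (nat_lit 234) (nat_lit 3192) (nat_lit 0) (XT.nd (nat_lit 78) (nat_lit 1520) (nat_lit 0) (XT.lf (nat_lit 0) (nat_lit 3756095955) (nat_lit 1368) (nat_lit 1306953085) (nat_lit 1444) (nat_lit 2079572844) (nat_lit 549) (nat_lit 5) (nat_lit 567) (nat_lit 5) (nat_lit 568) (nat_lit 5) (nat_lit 413) (nat_lit 380) (nat_lit 347)) (XT.nd (nat_lit 78) (nat_lit 0) (nat_lit 0) (XT.lf (nat_lit 0) (nat_lit 427303319) (nat_lit 1520) (nat_lit 6125157317)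 (nat_lit 76) (nat_lit 633687974) (nat_lit 529) (nat_lit 5) (nat_lit 549) (nat_lit 5) (nat_lit 530) (nat_lit 5) (nat_lit 414) (nat_lit 380) (nat_lit 346)) (XT.lf (nat_lit 0) (nat_lit 2937317481) (nat_lit 1520) (nat_lit 1653920604) (nat_lit 76) (nat_lit 2639429754) (nat_lit 529) (nat_lit 5) (nat_lit 549) (nat_lit 5) (nat_lit 530) (nat_lit 5) (nat_lit 415) (nat_lit 380) (nat_lit 345)))) (XT.nd (nat_lit 78) (nat_lit 1672) (nat_lit 0) (XT.lf (nat_lit 0) (nat_lit 2901047890) (nat_lit 1520) (nat_lit 2565602638) (nat_lit 1596) (nat_lit 1810058092) (nat_lit 509) (nat_lit 5) (nat_lit 529) (nat_lit 5) (nat_lit 530) (nat_lit 5) (nat_lit 416) (nat_lit 380) (nat_lit 344)) (XT.nd (nat_lit 78) (nat_lit 0) (nat_lit 0) (XT.lf (nat_lit 0) (nat_lit 199818494) (nat_lit 1596) (nat_lit 476708124) (nat_lit 1672) (nat_lit 6647800588) (nat_lit 487) (nat_lit 5) (nat_lit 508) (nat_lit 5) (nat_lit 509) (nat_lit 5) (nat_lit 417) (nat_lit 380) (nat_lit 343))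 (XT.lf (nat_lit 0) (nat_lit 3180277875) (nat_lit 1672) (nat_lit 2513960077) (nat_lit 76) (nat_lit 1678600249) (nat_lit 487) (nat_lit 5) (nat_lit 509) (nat_lit 5) (nat_lit 488) (nat_lit 5) (nat_lit 418) (nat_lit 380) (nat_lit 342))))) (XT.nd (nat_lit 234) (nat_lit 2432) (nat_lit 0) (XT.nd (nat_lit 78) (nat_lit 1824) (nat_lit 0) (XT.lf (nat_lit 0) (nat_lit 2170134145) (nat_lit 1672) (nat_lit 3533523632) (nat_lit 1748) (nat_lit 1719283072) (nat_lit 465) (nat_lit 5) (nat_lit 487) (nat_lit 5) (nat_lit 488) (nat_lit 5) (nat_lit 419) (nat_lit 380) (nat_lit 341)) (XT.nd (nat_lit 78) (nat_lit 1748) (nat_lit 0) (XT.lf (nat_lit 0) (nat_lit 762538511) (nat_lit 1748) (nat_lit 541371108) (nat_lit 76) (nat_lit 6170651295) (nat_lit 464) (nat_lit 5) (nat_lit 487) (nat_lit 5) (nat_lit 465) (nat_lit 5) (nat_lit 420) (nat_lit 380) (nat_lit 340)) (XT.lf (nat_lit 0) (nat_lit 3258831928) (nat_lit 1824) (nat_lit 3268554865) (nat_lit 76) (nat_lit 999853952)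 (nat_lit 441) (nat_lit 5) (nat_lit 465) (nat_lit 5) (nat_lit 442) (nat_lit 5) (nat_lit 421) (nat_lit 380) (nat_lit 339)))) (XT.nd (nat_lit 78) (nat_lit 988) (nat_lit 0) (XT.lf (nat_lit 0) (nat_lit 1548721298) (nat_lit 1444) (nat_lit 4232888055) (nat_lit 1520) (nat_lit 1799845211) (nat_lit 422) (nat_lit 5) (nat_lit 441) (nat_lit 5) (nat_lit 442) (nat_lit 5) (nat_lit 422) (nat_lit 380) (nat_lit 338)) (XT.nd (nat_lit 78) (nat_lit 912) (nat_lit 0) (XT.lf (nat_lit 0) (nat_lit 685264427) (nat_lit 1520) (nat_lit 1178909994) (nat_lit 76) (nat_lit 5772964245) (nat_lit 421) (nat_lit 5) (nat_lit 441) (nat_lit 5) (nat_lit 422) (nat_lit 5) (nat_lit 423) (nat_lit 380) (nat_lit 337)) (XT.lf (nat_lit 0) (nat_lit 3179686017) (nat_lit 988) (nat_lit 3932048351) (nat_lit 76) (nat_lit 582300837) (nat_lit 409) (nat_lit 5) (nat_lit 422) (nat_lit 5) (nat_lit 410) (nat_lit 5) (nat_lit 424) (nat_lit 380) (nat_lit 336))))))))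
noncomputable def xc88 : XT := (XT.nd (nat_lit 1794) (nat_lit 7676) (nat_lit 0) (XT.nd (nat_lit 858) (nat_lit 5624) (nat_lit 0) (XT.nd (nat_lit 390) (nat_lit 3192) (nat_lit 0) (XT.nd (nat_lit 156) (nat_lit 1824) (nat_lit 0) (XT.nd (nat_lit 78) (nat_lit 76) (nat_lit 0) (XT.lf (nat_lit 0) (nat_lit 1022609432) (nat_lit 912) (nat_lit 4684338720) (nat_lit 988) (nat_lit 2045473155) (nat_lit 397) (nat_lit 5) (nat_lit 409) (nat_lit 5) (nat_lit 410) (nat_lit 5) (nat_lit 425) (nat_lit 380) (nat_lit 335)) (XT.lf (nat_lit 0) (nat_lit 449424164) (nat_lit 988) (nat_lit 1729507019) (nat_lit 76) (nat_lit 5633335929) (nat_lit 396) (nat_lit 5) (nat_lit 409) (nat_lit 5) (nat_lit 397) (nat_lit 5) (nat_lit 426) (nat_lit 380) (nat_lit 334))) (XT.nd (nat_lit 78) (nat_lit 912) (nat_lit 0) (XT.lf (nat_lit 0) (nat_lit 2948471489) (nat_lit 988) (nat_lit 4518453475) (nat_lit 76) (nat_lit 406491699) (nat_lit 384) (nat_lit 5) (nat_lit 397) (nat_lit 5) (nat_lit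 385) (nat_lit 5) (nat_lit 427) (nat_lit 380) (nat_lit 333)) (XT.nd (nat_lit 78) (nat_lit 76) (nat_lit 0) (XT.lf (nat_lit 0) (nat_lit 577916331) (nat_lit 836) (nat_lit 4907141649) (nat_lit 912) (nat_lit 2450989919) (nat_lit 373) (nat_lit 5) (nat_lit 384) (nat_lit 5) (nat_lit 385) (nat_lit 5) (nat_lit 428) (nat_lit 380) (nat_lit 332)) (XT.lf (nat_lit 0) (nat_lit 59968121) (nat_lit 912) (nat_lit 2206977764) (nat_lit 76) (nat_lit 5733216473) (nat_lit 372) (nat_lit 5) (nat_lit 384) (nat_lit 5) (nat_lit 373) (nat_lit 5) (nat_lit 429) (nat_lit 380) (nat_lit 331))))) (XT.nd (nat_lit 234) (nat_lit 1596) (nat_lit 0) (XT.nd (nat_lit 78) (nat_lit 760) (nat_lit 0) (XT.lf (nat_lit 0) (nat_lit 2569776065) (nat_lit 912) (nat_lit 5041567667) (nat_lit 76) (nat_lit 454271655) (nat_lit 361) (nat_lit 5) (nat_lit 373) (nat_lit 5) (nat_lit 362) (nat_lit 5) (nat_lit 430) (nat_lit 380) (nat_lit 330)) (XT.nd (nat_lit 78) (nat_lit 0) (nat_lit 0) (XT.lf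 (nat_lit 0) (nat_lit 200961530) (nat_lit 760) (nat_lit 4919331097) (nat_lit 836) (nat_lit 3012283712) (nat_lit 351) (nat_lit 5) (nat_lit 361) (nat_lit 5) (nat_lit 362) (nat_lit 5) (nat_lit 431) (nat_lit 380) (nat_lit 329)) (XT.lf (nat_lit 0) (nat_lit 5572879412) (nat_lit 760) (nat_lit 2142572324) (nat_lit 836) (nat_lit 485561060) (nat_lit 351) (nat_lit 5) (nat_lit 361) (nat_lit 5) (nat_lit 362) (nat_lit 5) (nat_lit 432) (nat_lit 380) (nat_lit 328)))) (XT.nd (nat_lit 78) (nat_lit 760) (nat_lit 0) (XT.lf (nat_lit 0) (nat_lit 2047167814) (nat_lit 836) (nat_lit 5515088675) (nat_lit 76) (nat_lit 708640370) (nat_lit 340) (nat_lit 5) (nat_lit 351) (nat_lit 5) (nat_lit 341) (nat_lit 5) (nat_lit 433) (nat_lit 380) (nat_lit 327)) (XT.nd (nat_lit 78) (nat_lit 760) (nat_lit 0) (XT.lf (nat_lit 0) (nat_lit 4616788667) (nat_lit 836) (nat_lit 120252651) (nat_lit 76) (nat_lit 3605226730) (nat_lit 340) (nat_lit 5) (nat_lit 351) (nat_lit 5) (nat_lit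 341) (nat_lit 5) (nat_lit 434) (nat_lit 380) (nat_lit 326)) (XT.lf (nat_lit 0) (nat_lit 5410340877) (nat_lit 760) (nat_lit 1824148199) (nat_lit 836) (nat_lit 1180652095) (nat_lit 330) (nat_lit 5) (nat_lit 340) (nat_lit 5) (nat_lit 341) (nat_lit 5) (nat_lit 435) (nat_lit 380) (nat_lit 325)))))) (XT.nd (nat_lit 468) (nat_lit 2660) (nat_lit 0) (XT.nd (nat_lit 234) (nat_lit 1444) (nat_lit 0) (XT.nd (nat_lit 78) (nat_lit 684) (nat_lit 0) (XT.lf (nat_lit 0) (nat_lit 1383211728) (nat_lit 836) (nat_lit 5952732232) (nat_lit 76) (nat_lit 1153617998) (nat_lit 319) (nat_lit 5) (nat_lit 330) (nat_lit 5) (nat_lit 320) (nat_lit 5) (nat_lit 436) (nat_lit 380) (nat_lit 324)) (XT.nd (nat_lit 78) (nat_lit 684) (nat_lit 0) (XT.lf (nat_lit 0) (nat_lit 3977148099) (nat_lit 836) (nat_lit 398850185) (nat_lit 76) (nat_lit 4189432485) (nat_lit 319) (nat_lit 5) (nat_lit 330) (nat_lit 5) (nat_lit 320) (nat_lit 5) (nat_lit 437) (nat_lit 380) (nat_lit 323))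 (XT.lf (nat_lit 0) (nat_lit 5292608670) (nat_lit 684) (nat_lit 1327670247) (nat_lit 760) (nat_lit 2022599349) (nat_lit 310) (nat_lit 5) (nat_lit 319) (nat_lit 5) (nat_lit 320) (nat_lit 5) (nat_lit 438) (nat_lit 380) (nat_lit 322)))) (XT.nd (nat_lit 78) (nat_lit 684) (nat_lit 0) (XT.lf (nat_lit 0) (nat_lit 579478910) (nat_lit 760) (nat_lit 6368352548) (nat_lit 76) (nat_lit 1774115859) (nat_lit 300) (nat_lit 5) (nat_lit 310) (nat_lit 5) (nat_lit 301) (nat_lit 5) (nat_lit 439) (nat_lit 380) (nat_lit 321)) (XT.nd (nat_lit 78) (nat_lit 684) (nat_lit 0) (XT.lf (nat_lit 0) (nat_lit 3201519891) (nat_lit 760) (nat_lit 651072707) (nat_lit 76) (nat_lit 4949844872) (nat_lit 300) (nat_lit 5) (nat_lit 310) (nat_lit 5) (nat_lit 301) (nat_lit 5) (nat_lit 440) (nat_lit 380) (nat_lit 320)) (XT.lf (nat_lit 0) (nat_lit 5206147282) (nat_lit 684) (nat_lit 667925747) (nat_lit 760) (nat_lit 3010510013) (nat_lit 291) (nat_lit 5) (nat_lit 300) (nat_lit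 5) (nat_lit 301) (nat_lit 5) (nat_lit 441) (nat_lit 380) (nat_lit 319))))) (XT.nd (nat_lit 234) (nat_lit 1292) (nat_lit 0) (XT.nd (nat_lit 78) (nat_lit 684) (nat_lit 0) (XT.lf (nat_lit 0) (nat_lit 2189920262) (nat_lit 684) (nat_lit 6410176015) (nat_lit 760) (nat_lit 368281773) (nat_lit 282) (nat_lit 5) (nat_lit 291) (nat_lit 5) (nat_lit 292) (nat_lit 5) (nat_lit 442) (nat_lit 380) (nat_lit 318)) (XT.nd (nat_lit 78) (nat_lit 608) (nat_lit 0) (XT.lf (nat_lit 0) (nat_lit 2290371884) (nat_lit 760) (nat_lit 890805410) (nat_lit 76) (nat_lit 5872494215) (nat_lit 281) (nat_lit 5) (nat_lit 291) (nat_lit 5) (nat_lit 282) (nat_lit 5) (nat_lit 443) (nat_lit 380) (nat_lit 317)) (XT.lf (nat_lit 0) (nat_lit 4997056635) (nat_lit 684) (nat_lit 4004444724) (nat_lit 76) (nat_lit 139131513) (nat_lit 273) (nat_lit 5) (nat_lit 282) (nat_lit 5) (nat_lit 274) (nat_lit 5) (nat_lit 444) (nat_lit 380) (nat_lit 316)))) (XT.nd (nat_lit 78) (nat_lit 684)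 (nat_lit 0) (XT.lf (nat_lit 0) (nat_lit 2029320453) (nat_lit 608) (nat_lit 5734681154) (nat_lit 684) (nat_lit 1465215704) (nat_lit 265) (nat_lit 5) (nat_lit 273) (nat_lit 5) (nat_lit 274) (nat_lit 5) (nat_lit 445) (nat_lit 380) (nat_lit 315)) (XT.nd (nat_lit 78) (nat_lit 608) (nat_lit 0) (XT.lf (nat_lit 0) (nat_lit 1243178657) (nat_lit 684) (nat_lit 1132342485) (nat_lit 76) (nat_lit 6944032346) (nat_lit 264) (nat_lit 5) (nat_lit 273) (nat_lit 5) (nat_lit 265) (nat_lit 5) (nat_lit 446) (nat_lit 380) (nat_lit 314)) (XT.lf (nat_lit 0) (nat_lit 3992809799) (nat_lit 684) (nat_lit 4347297920) (nat_lit 76) (nat_lit 1071267214) (nat_lit 256) (nat_lit 5) (nat_lit 265) (nat_lit 5) (nat_lit 257) (nat_lit 5) (nat_lit 447) (nat_lit 380) (nat_lit 313))))))) (XT.nd (nat_lit 858) (nat_lit 3648) (nat_lit 0) (XT.nd (nat_lit 390) (nat_lit 2204) (nat_lit 0) (XT.nd (nat_lit 156) (nat_lit 1140) (nat_lit 0) (XT.nd (nat_lit 78) (nat_lit 76) (nat_lit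 0) (XT.lf (nat_lit 0) (nat_lit 1861085620) (nat_lit 608) (nat_lit 4938831806) (nat_lit 684) (nat_lit 2705071599) (nat_lit 248) (nat_lit 5) (nat_lit 256) (nat_lit 5) (nat_lit 257) (nat_lit 5) (nat_lit 448) (nat_lit 380) (nat_lit 312)) (XT.lf (nat_lit 0) (nat_lit 58406375) (nat_lit 684) (nat_lit 1390523223) (nat_lit 76) (nat_lit 8151612588) (nat_lit 247) (nat_lit 5) (nat_lit 256) (nat_lit 5) (nat_lit 248) (nat_lit 5) (nat_lit 449) (nat_lit 380) (nat_lit 311))) (XT.nd (nat_lit 78) (nat_lit 608) (nat_lit 0) (XT.lf (nat_lit 0) (nat_lit 2855179891) (nat_lit 608) (nat_lit 4717882039) (nat_lit 76) (nat_lit 2124307485) (nat_lit 240) (nat_lit 5) (nat_lit 248) (nat_lit 5) (nat_lit 241) (nat_lit 5) (nat_lit 450) (nat_lit 380) (nat_lit 310)) (XT.nd (nat_lit 78) (nat_lit 0) (nat_lit 0) (XT.lf (nat_lit 0) (nat_lit 1669979406) (nat_lit 608) (nat_lit 4035854207) (nat_lit 684) (nat_lit 4090346125) (nat_lit 232) (nat_lit 5) (nat_lit 240) (nat_lit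 5) (nat_lit 241) (nat_lit 5) (nat_lit 451) (nat_lit 380) (nat_lit 309)) (XT.lf (nat_lit 0) (nat_lit 8207761116) (nat_lit 608) (nat_lit 405866291) (nat_lit 684) (nat_lit 1283341659) (nat_lit 232) (nat_lit 5) (nat_lit 240) (nat_lit 5) (nat_lit 241) (nat_lit 5) (nat_lit 452) (nat_lit 380) (nat_lit 308))))) (XT.nd (nat_lit 234) (nat_lit 1064) (nat_lit 0) (XT.nd (nat_lit 78) (nat_lit 532) (nat_lit 0) (XT.lf (nat_lit 0) (nat_lit 1581318036) (nat_lit 608) (nat_lit 5132179009) (nat_lit 76) (nat_lit 3285632432) (nat_lit 224) (nat_lit 5) (nat_lit 232) (nat_lit 5) (nat_lit 225) (nat_lit 5) (nat_lit 453) (nat_lit 380) (nat_lit 307)) (XT.nd (nat_lit 78) (nat_lit 0) (nat_lit 0) (XT.lf (nat_lit 0) (nat_lit 1439977305) (nat_lit 532) (nat_lit 3038725559) (nat_lit 608) (nat_lit 5624613286) (nat_lit 217) (nat_lit 5) (nat_lit 224) (nat_lit 5) (nat_lit 225) (nat_lit 5) (nat_lit 454) (nat_lit 380) (nat_lit 306)) (XT.lf (nat_lit 0) (nat_lit 7442727463)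 (nat_lit 608) (nat_lit 2042527936) (nat_lit 76) (nat_lit 724162248) (nat_lit 217) (nat_lit 5) (nat_lit 225) (nat_lit 5) (nat_lit 218) (nat_lit 5) (nat_lit 455) (nat_lit 380) (nat_lit 305)))) (XT.nd (nat_lit 78) (nat_lit 532) (nat_lit 0) (XT.lf (nat_lit 0) (nat_lit 167307473) (nat_lit 532) (nat_lit 5607085808) (nat_lit 76) (nat_lit 4542816118) (nat_lit 210) (nat_lit 5) (nat_lit 217) (nat_lit 5) (nat_lit 211) (nat_lit 5) (nat_lit 456) (nat_lit 380) (nat_lit 304)) (XT.nd (nat_lit 78) (nat_lit 0) (nat_lit 0) (XT.lf (nat_lit 0) (nat_lit 1154106705) (nat_lit 532) (nat_lit 1960296266) (nat_lit 608) (nat_lit 7312563626) (nat_lit 203) (nat_lit 5) (nat_lit 210) (nat_lit 5) (nat_lit 211) (nat_lit 5) (nat_lit 457) (nat_lit 380) (nat_lit 303)) (XT.lf (nat_lit 0) (nat_lit 6141231457) (nat_lit 608) (nat_lit 2465916833) (nat_lit 76) (nat_lit 1931359385) (nat_lit 203) (nat_lit 5) (nat_lit 211) (nat_lit 5) (nat_lit 204) (nat_lit 5) (nat_lit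 458) (nat_lit 380) (nat_lit 302)))))) (XT.nd (nat_lit 468) (nat_lit 1672) (nat_lit 0) (XT.nd (nat_lit 234) (nat_lit 988) (nat_lit 0) (XT.nd (nat_lit 78) (nat_lit 532) (nat_lit 0) (XT.lf (nat_lit 0) (nat_lit 4482284196) (nat_lit 456) (nat_lit 4759361096) (nat_lit 532) (nat_lit 1410377773) (nat_lit 197) (nat_lit 5) (nat_lit 203) (nat_lit 5) (nat_lit 204) (nat_lit 5) (nat_lit 459) (nat_lit 380) (nat_lit 301)) (XT.nd (nat_lit 78) (nat_lit 0) (nat_lit 0) (XT.lf (nat_lit 0) (nat_lit 794275630) (nat_lit 456) (nat_lit 813414389) (nat_lit 532) (nat_lit 9160052738) (nat_lit 190) (nat_lit 5) (nat_lit 196) (nat_lit 5) (nat_lit 197) (nat_lit 5) (nat_lit 460) (nat_lit 380) (nat_lit 300)) (XT.lf (nat_lit 0) (nat_lit 4701082711) (nat_lit 532) (nat_lit 2975247764) (nat_lit 76) (nat_lit 3208587155) (nat_lit 190) (nat_lit 5) (nat_lit 197) (nat_lit 5) (nat_lit 191) (nat_lit 5) (nat_lit 461) (nat_lit 380) (nat_lit 299)))) (XT.nd (nat_lit 78) (nat_lit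 532) (nat_lit 0) (XT.lf (nat_lit 0) (nat_lit 4172034243) (nat_lit 456) (nat_lit 3688649746) (nat_lit 532) (nat_lit 3143669324) (nat_lit 184) (nat_lit 5) (nat_lit 190) (nat_lit 5) (nat_lit 191) (nat_lit 5) (nat_lit 462) (nat_lit 380) (nat_lit 298)) (XT.nd (nat_lit 78) (nat_lit 76) (nat_lit 0) (XT.lf (nat_lit 0) (nat_lit 338208543) (nat_lit 456) (nat_lit 10742101335) (nat_lit 532) (nat_lit 45935225) (nat_lit 178) (nat_lit 5) (nat_lit 184) (nat_lit 5) (nat_lit 185) (nat_lit 5) (nat_lit 463) (nat_lit 380) (nat_lit 297)) (XT.lf (nat_lit 0) (nat_lit 3115675682) (nat_lit 532) (nat_lit 3590402331) (nat_lit 76) (nat_lit 4543241080) (nat_lit 177) (nat_lit 5) (nat_lit 184) (nat_lit 5) (nat_lit 178) (nat_lit 5) (nat_lit 464) (nat_lit 380) (nat_lit 296))))) (XT.nd (nat_lit 234) (nat_lit 760) (nat_lit 0) (XT.nd (nat_lit 78) (nat_lit 532) (nat_lit 0) (XT.lf (nat_lit 0) (nat_lit 3760437588) (nat_lit 380) (nat_lit 2576606812) (nat_lit 456)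 (nat_lit 5037865089) (nat_lit 172) (nat_lit 5) (nat_lit 177) (nat_lit 5) (nat_lit 178) (nat_lit 5) (nat_lit 465) (nat_lit 380) (nat_lit 295)) (XT.nd (nat_lit 78) (nat_lit 532) (nat_lit 0) (XT.lf (nat_lit 0) (nat_lit 9630633996) (nat_lit 456) (nat_lit 246307187) (nat_lit 76) (nat_lit 1625918378) (nat_lit 172) (nat_lit 5) (nat_lit 178) (nat_lit 5) (nat_lit 173) (nat_lit 5) (nat_lit 466) (nat_lit 380) (nat_lit 294)) (XT.lf (nat_lit 0) (nat_lit 1377151246) (nat_lit 532) (nat_lit 4332838141) (nat_lit 76) (nat_lit 5922442300) (nat_lit 165) (nat_lit 5) (nat_lit 172) (nat_lit 5) (nat_lit 166) (nat_lit 5) (nat_lit 467) (nat_lit 380) (nat_lit 293)))) (XT.nd (nat_lit 78) (nat_lit 380) (nat_lit 0) (XT.lf (nat_lit 0) (nat_lit 3225809849) (nat_lit 380) (nat_lit 1436811165) (nat_lit 456) (nat_lit 7101806763) (nat_lit 160) (nat_lit 5) (nat_lit 165) (nat_lit 5) (nat_lit 166) (nat_lit 5) (nat_lit 468) (nat_lit 380) (nat_lit 292)) (XT.nd (nat_lit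 78) (nat_lit 380) (nat_lit 0) (XT.lf (nat_lit 0) (nat_lit 8035764165) (nat_lit 456) (nat_lit 962743629) (nat_lit 76) (nat_lit 2900120168) (nat_lit 160) (nat_lit 5) (nat_lit 166) (nat_lit 5) (nat_lit 161) (nat_lit 5) (nat_lit 469) (nat_lit 380) (nat_lit 291)) (XT.lf (nat_lit 0) (nat_lit 6805702731) (nat_lit 380) (nat_lit 4698610424) (nat_lit 456) (nat_lit 530643522) (nat_lit 155) (nat_lit 5) (nat_lit 160) (nat_lit 5) (nat_lit 161) (nat_lit 5) (nat_lit 470) (nat_lit 380) (nat_lit 290))))))))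
noncomputable def xc89 : XT := (XT.nd (nat_lit 1794) (nat_lit 1900) (nat_lit 0) (XT.nd (nat_lit 858) (nat_lit 2584) (nat_lit 0) (XT.nd (nat_lit 390) (nat_lit 1444) (nat_lit 0) (XT.nd (nat_lit 156) (nat_lit 836) (nat_lit 0) (XT.nd (nat_lit 78) (nat_lit 0) (nat_lit 0) (XT.lf (nat_lit 0) (nat_lit 2544615333) (nat_lit 380) (nat_lit 283337131) (nat_lit 456) (nat_lit 9345743337) (nat_lit 149) (nat_lit 5) (nat_lit 154) (nat_lit 5) (nat_lit 155) (nat_lit 5) (nat_lit 471) (nat_lit 380) (nat_lit 289)) (XT.lf (nat_lit 0) (nat_lit 6283837933) (nat_lit 456) (nat_lit 1839758721) (nat_lit 76) (nat_lit 4190801633) (nat_lit 149) (nat_lit 5) (nat_lit 155) (nat_lit 5) (nat_lit 150) (nat_lit 5) (nat_lit 472) (nat_lit 380) (nat_lit 288))) (XT.nd (nat_lit 78) (nat_lit 456) (nat_lit 0) (XT.lf (nat_lit 0) (nat_lit 6145891695) (nat_lit 380) (nat_lit 3679721371) (nat_lit 456) (nat_lit 2631969446) (nat_lit 144) (nat_lit 5) (nat_lit 149) (nat_lit 5) (nat_lit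 150) (nat_lit 5) (nat_lit 473) (nat_lit 380) (nat_lit 287)) (XT.nd (nat_lit 78) (nat_lit 0) (nat_lit 0) (XT.lf (nat_lit 0) (nat_lit 827767600) (nat_lit 456) (nat_lit 10917976984) (nat_lit 76) (nat_lit 857698065) (nat_lit 138) (nat_lit 5) (nat_lit 144) (nat_lit 5) (nat_lit 139) (nat_lit 5) (nat_lit 474) (nat_lit 380) (nat_lit 286)) (XT.lf (nat_lit 0) (nat_lit 4363719375) (nat_lit 456) (nat_lit 2903758103) (nat_lit 76) (nat_lit 5483552270) (nat_lit 138) (nat_lit 5) (nat_lit 144) (nat_lit 5) (nat_lit 139) (nat_lit 5) (nat_lit 475) (nat_lit 380) (nat_lit 285))))) (XT.nd (nat_lit 234) (nat_lit 684) (nat_lit 0) (XT.nd (nat_lit 78) (nat_lit 380) (nat_lit 0) (XT.lf (nat_lit 0) (nat_lit 5302616051) (nat_lit 380) (nat_lit 2677912860) (nat_lit 456) (nat_lit 4920839793) (nat_lit 133) (nat_lit 5) (nat_lit 138) (nat_lit 5) (nat_lit 139) (nat_lit 5) (nat_lit 476) (nat_lit 380) (nat_lit 284)) (XT.nd (nat_lit 78) (nat_lit 76) (nat_lit 0) (XT.lf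 (nat_lit 0) (nat_lit 615263574) (nat_lit 304) (nat_lit 11066885319) (nat_lit 380) (nat_lit 1372318892) (nat_lit 129) (nat_lit 5) (nat_lit 133) (nat_lit 5) (nat_lit 134) (nat_lit 5) (nat_lit 477) (nat_lit 380) (nat_lit 283)) (XT.lf (nat_lit 0) (nat_lit 2262689611) (nat_lit 380) (nat_lit 4183605133) (nat_lit 76) (nat_lit 6763145238) (nat_lit 128) (nat_lit 5) (nat_lit 133) (nat_lit 5) (nat_lit 129) (nat_lit 5) (nat_lit 478) (nat_lit 380) (nat_lit 282)))) (XT.nd (nat_lit 78) (nat_lit 304) (nat_lit 0) (XT.lf (nat_lit 0) (nat_lit 4246558187) (nat_lit 380) (nat_lit 1709450859) (nat_lit 456) (nat_lit 7411244104) (nat_lit 123) (nat_lit 5) (nat_lit 128) (nat_lit 5) (nat_lit 129) (nat_lit 5) (nat_lit 479) (nat_lit 380) (nat_lit 281)) (XT.nd (nat_lit 78) (nat_lit 304) (nat_lit 0) (XT.lf (nat_lit 0) (nat_lit 9748258693) (nat_lit 456) (nat_lit 683375147) (nat_lit 76) (nat_lit 3096090082) (nat_lit 123) (nat_lit 5) (nat_lit 129) (nat_lit 5)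 (nat_lit 124) (nat_lit 5) (nat_lit 480) (nat_lit 380) (nat_lit 280)) (XT.lf (nat_lit 0) (nat_lit 7979461653) (nat_lit 304) (nat_lit 5677013414) (nat_lit 380) (nat_lit 34129173) (nat_lit 119) (nat_lit 5) (nat_lit 123) (nat_lit 5) (nat_lit 124) (nat_lit 5) (nat_lit 481) (nat_lit 380) (nat_lit 279)))))) (XT.nd (nat_lit 468) (nat_lit 1216) (nat_lit 0) (XT.nd (nat_lit 234) (nat_lit 684) (nat_lit 0) (XT.nd (nat_lit 78) (nat_lit 304) (nat_lit 0) (XT.lf (nat_lit 0) (nat_lit 2945559802) (nat_lit 304) (nat_lit 791693741) (nat_lit 380) (nat_lit 10118983536) (nat_lit 114) (nat_lit 5) (nat_lit 118) (nat_lit 5) (nat_lit 119) (nat_lit 5) (nat_lit 482) (nat_lit 380) (nat_lit 278)) (XT.nd (nat_lit 78) (nat_lit 304) (nat_lit 0) (XT.lf (nat_lit 0) (nat_lit 7626578641) (nat_lit 380) (nat_lit 2236051443) (nat_lit 76) (nat_lit 4161690963) (nat_lit 114) (nat_lit 5) (nat_lit 119) (nat_lit 5) (nat_lit 115) (nat_lit 5) (nat_lit 483) (nat_lit 380) (nat_lit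 277)) (XT.lf (nat_lit 0) (nat_lit 6658112017) (nat_lit 304) (nat_lit 4961677361) (nat_lit 380) (nat_lit 2575457704) (nat_lit 110) (nat_lit 5) (nat_lit 114) (nat_lit 5) (nat_lit 115) (nat_lit 5) (nat_lit 484) (nat_lit 380) (nat_lit 276)))) (XT.nd (nat_lit 78) (nat_lit 304) (nat_lit 0) (XT.lf (nat_lit 0) (nat_lit 1307932701) (nat_lit 380) (nat_lit 13005474039) (nat_lit 76) (nat_lit 55975044) (nat_lit 105) (nat_lit 5) (nat_lit 110) (nat_lit 5) (nat_lit 106) (nat_lit 5) (nat_lit 485) (nat_lit 380) (nat_lit 275)) (XT.nd (nat_lit 78) (nat_lit 304) (nat_lit 0) (XT.lf (nat_lit 0) (nat_lit 5296109570) (nat_lit 380) (nat_lit 4087311822) (nat_lit 76) (nat_lit 5162007466) (nat_lit 105) (nat_lit 5) (nat_lit 110) (nat_lit 5) (nat_lit 106) (nat_lit 5) (nat_lit 486) (nat_lit 380) (nat_lit 274)) (XT.lf (nat_lit 0) (nat_lit 5039807987) (nat_lit 304) (nat_lit 4335198971) (nat_lit 380) (nat_lit 5349772966) (nat_lit 101) (nat_lit 5) (nat_lit 105)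 (nat_lit 5) (nat_lit 106) (nat_lit 5) (nat_lit 487) (nat_lit 380) (nat_lit 273))))) (XT.nd (nat_lit 234) (nat_lit 608) (nat_lit 0) (XT.nd (nat_lit 78) (nat_lit 608) (nat_lit 0) (XT.lf (nat_lit 0) (nat_lit 13546720900) (nat_lit 380) (nat_lit 543375841) (nat_lit 76) (nat_lit 817398643) (nat_lit 101) (nat_lit 5) (nat_lit 106) (nat_lit 5) (nat_lit 102) (nat_lit 5) (nat_lit 488) (nat_lit 380) (nat_lit 272)) (XT.nd (nat_lit 78) (nat_lit 228) (nat_lit 0) (XT.lf (nat_lit 0) (nat_lit 2737745308) (nat_lit 380) (nat_lit 6277306144) (nat_lit 76) (nat_lit 6077158977) (nat_lit 96) (nat_lit 5) (nat_lit 101) (nat_lit 5) (nat_lit 97) (nat_lit 5) (nat_lit 489) (nat_lit 380) (nat_lit 271)) (XT.lf (nat_lit 0) (nat_lit 3083604844) (nat_lit 228) (nat_lit 3818936554) (nat_lit 304) (nat_lit 8377849970) (nat_lit 93) (nat_lit 5) (nat_lit 96) (nat_lit 5) (nat_lit 97) (nat_lit 5) (nat_lit 490) (nat_lit 380) (nat_lit 270)))) (XT.nd (nat_lit 78) (nat_lit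 608) (nat_lit 0) (XT.lf (nat_lit 0) (nat_lit 11181571548) (nat_lit 304) (nat_lit 2799636664) (nat_lit 76) (nat_lit 1490510934) (nat_lit 93) (nat_lit 5) (nat_lit 97) (nat_lit 5) (nat_lit 94) (nat_lit 5) (nat_lit 491) (nat_lit 380) (nat_lit 269)) (XT.nd (nat_lit 78) (nat_lit 304) (nat_lit 0) (XT.lf (nat_lit 0) (nat_lit 6815162450) (nat_lit 304) (nat_lit 8779891588) (nat_lit 380) (nat_lit 70843953) (nat_lit 89) (nat_lit 5) (nat_lit 93) (nat_lit 5) (nat_lit 94) (nat_lit 5) (nat_lit 492) (nat_lit 380) (nat_lit 268)) (XT.lf (nat_lit 0) (nat_lit 744343465) (nat_lit 228) (nat_lit 3436110132) (nat_lit 304) (nat_lit 11682896587) (nat_lit 85) (nat_lit 5) (nat_lit 88) (nat_lit 5) (nat_lit 89) (nat_lit 5) (nat_lit 493) (nat_lit 380) (nat_lit 267))))))) (XT.nd (nat_lit 936) (nat_lit 0) (nat_lit 0) (XT.nd (nat_lit 468) (nat_lit 1064) (nat_lit 0) (XT.nd (nat_lit 234) (nat_lit 456) (nat_lit 0) (XT.nd (nat_lit 78) (nat_lit 380) (nat_lit 0) (XT.lf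 (nat_lit 0) (nat_lit 8568166585) (nat_lit 304) (nat_lit 5460736978) (nat_lit 76) (nat_lit 2034793563) (nat_lit 85) (nat_lit 5) (nat_lit 89) (nat_lit 5) (nat_lit 86) (nat_lit 5) (nat_lit 494) (nat_lit 380) (nat_lit 266)) (XT.nd (nat_lit 78) (nat_lit 76) (nat_lit 0) (XT.lf (nat_lit 0) (nat_lit 4391688036) (nat_lit 304) (nat_lit 8683088770) (nat_lit 380) (nat_lit 3192653137) (nat_lit 81) (nat_lit 5) (nat_lit 85) (nat_lit 5) (nat_lit 86) (nat_lit 5) (nat_lit 495) (nat_lit 380) (nat_lit 265)) (XT.lf (nat_lit 0) (nat_lit 1197395421) (nat_lit 380) (nat_lit 2001229109) (nat_lit 76) (nat_lit 13276123210) (nat_lit 80) (nat_lit 5) (nat_lit 85) (nat_lit 5) (nat_lit 81) (nat_lit 5) (nat_lit 496) (nat_lit 380) (nat_lit 264)))) (XT.nd (nat_lit 78) (nat_lit 228) (nat_lit 0) (XT.lf (nat_lit 0) (nat_lit 5681539229) (nat_lit 304) (nat_lit 8578153668) (nat_lit 76) (nat_lit 2425117743) (nat_lit 77) (nat_lit 5) (nat_lit 81) (nat_lit 5) (nat_lit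 78) (nat_lit 5) (nat_lit 497) (nat_lit 380) (nat_lit 263)) (XT.nd (nat_lit 78) (nat_lit 0) (nat_lit 0) (XT.lf (nat_lit 0) (nat_lit 1510237694) (nat_lit 228) (nat_lit 8770028730) (nat_lit 304) (nat_lit 6618312022) (nat_lit 74) (nat_lit 5) (nat_lit 77) (nat_lit 5) (nat_lit 78) (nat_lit 5) (nat_lit 498) (nat_lit 380) (nat_lit 262)) (XT.lf (nat_lit 0) (nat_lit 11883576004) (nat_lit 228) (nat_lit 3125519481) (nat_lit 304) (nat_lit 2106765205) (nat_lit 74) (nat_lit 5) (nat_lit 77) (nat_lit 5) (nat_lit 78) (nat_lit 5) (nat_lit 499) (nat_lit 380) (nat_lit 261))))) (XT.nd (nat_lit 234) (nat_lit 532) (nat_lit 0) (XT.nd (nat_lit 78) (nat_lit 228) (nat_lit 0) (XT.lf (nat_lit 0) (nat_lit 2493843171) (nat_lit 304) (nat_lit 12208740800) (nat_lit 76) (nat_lit 2633951122) (nat_lit 70) (nat_lit 5) (nat_lit 74) (nat_lit 5) (nat_lit 71) (nat_lit 5) (nat_lit 500) (nat_lit 380) (nat_lit 260)) (XT.nd (nat_lit 78) (nat_lit 228) (nat_lit 0) (XT.lf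 (nat_lit 0) (nat_lit 7195217644) (nat_lit 304) (nat_lit 1862591046) (nat_lit 76) (nat_lit 8502798041) (nat_lit 70) (nat_lit 5) (nat_lit 74) (nat_lit 5) (nat_lit 71) (nat_lit 5) (nat_lit 501) (nat_lit 380) (nat_lit 259)) (XT.lf (nat_lit 0) (nat_lit 8773402611) (nat_lit 228) (nat_lit 3255448795) (nat_lit 304) (nat_lit 5759545264) (nat_lit 67) (nat_lit 5) (nat_lit 70) (nat_lit 5) (nat_lit 71) (nat_lit 5) (nat_lit 502) (nat_lit 380) (nat_lit 258)))) (XT.nd (nat_lit 78) (nat_lit 304) (nat_lit 0) (XT.lf (nat_lit 0) (nat_lit 1598241873) (nat_lit 228) (nat_lit 15382506497) (nat_lit 304) (nat_lit 1039563701) (nat_lit 64) (nat_lit 5) (nat_lit 67) (nat_lit 5) (nat_lit 68) (nat_lit 5) (nat_lit 503) (nat_lit 380) (nat_lit 257)) (XT.nd (nat_lit 78) (nat_lit 228) (nat_lit 0) (XT.lf (nat_lit 0) (nat_lit 3789141670) (nat_lit 304) (nat_lit 5788436708) (nat_lit 76) (nat_lit 8677522013) (nat_lit 63) (nat_lit 5) (nat_lit 67) (nat_lit 5) (nat_lit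 64) (nat_lit 5) (nat_lit 504) (nat_lit 380) (nat_lit 256)) (XT.lf (nat_lit 0) (nat_lit 5086066596) (nat_lit 228) (nat_lit 3629211432) (nat_lit 304) (nat_lit 9778874876) (nat_lit 60) (nat_lit 5) (nat_lit 63) (nat_lit 5) (nat_lit 64) (nat_lit 5) (nat_lit 505) (nat_lit 380) (nat_lit 255)))))) (XT.nd (nat_lit 49998) (nat_lit 0) (nat_lit 49628) (XT.nd (nat_lit 49764) (nat_lit 0) (nat_lit 50692) (XT.nd (nat_lit 49608) (nat_lit 0) (nat_lit 50920) (XT.lf (nat_lit 0) (nat_lit 13776676852) (nat_lit 304) (nat_lit 2528464989) (nat_lit 76) (nat_lit 2432111192) (nat_lit 60) (nat_lit 5) (nat_lit 64) (nat_lit 5) (nat_lit 61) (nat_lit 5) (nat_lit 506) (nat_lit 380) (nat_lit 254)) (XT.nd (nat_lit 78) (nat_lit 228) (nat_lit 0) (XT.lf (nat_lit 0) (nat_lit 1556246037) (nat_lit 0) (nat_lit 1556246037) (nat_lit 76) (nat_lit 109581504) (nat_lit 733) (nat_lit 5) (nat_lit 733) (nat_lit 3) (nat_lit 734) (nat_lit 0) (nat_lit 381) (nat_lit 381) (nat_lit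 378)) (XT.lf (nat_lit 0) (nat_lit 2813937409) (nat_lit 228) (nat_lit 175894805) (nat_lit 228) (nat_lit 3456879164) (nat_lit 730) (nat_lit 3) (nat_lit 733) (nat_lit 3) (nat_lit 733) (nat_lit 5) (nat_lit 382) (nat_lit 381) (nat_lit 377)))) (XT.nd (nat_lit 78) (nat_lit 228) (nat_lit 0) (XT.lf (nat_lit 76) (nat_lit 3040828039) (nat_lit 0) (nat_lit 2804142365) (nat_lit 228) (nat_lit 605556404) (nat_lit 731) (nat_lit 5) (nat_lit 730) (nat_lit 3) (nat_lit 733) (nat_lit 5) (nat_lit 383) (nat_lit 381) (nat_lit 376)) (XT.nd (nat_lit 78) (nat_lit 0) (nat_lit 0) (XT.lf (nat_lit 0) (nat_lit 2372046222) (nat_lit 228) (nat_lit 187643326) (nat_lit 304) (nat_lit 3895990494) (nat_lit 727) (nat_lit 5) (nat_lit 730) (nat_lit 3) (nat_lit 731) (nat_lit 5) (nat_lit 384) (nat_lit 381) (nat_lit 375)) (XT.lf (nat_lit 76) (nat_lit 3094849997) (nat_lit 0) (nat_lit 2249095978) (nat_lit 304) (nat_lit 1118084340) (nat_lit 728) (nat_lit 5) (nat_lit 727) (nat_lit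 5) (nat_lit 731) (nat_lit 5) (nat_lit 385) (nat_lit 381) (nat_lit 374))))) (XT.nd (nat_lit 234) (nat_lit 380) (nat_lit 0) (XT.nd (nat_lit 78) (nat_lit 380) (nat_lit 0) (XT.lf (nat_lit 0) (nat_lit 1806507561) (nat_lit 304) (nat_lit 76696423) (nat_lit 380) (nat_lit 4586591120) (nat_lit 723) (nat_lit 5) (nat_lit 727) (nat_lit 5) (nat_lit 728) (nat_lit 5) (nat_lit 386) (nat_lit 381) (nat_lit 373)) (XT.nd (nat_lit 78) (nat_lit 380) (nat_lit 0) (XT.lf (nat_lit 76) (nat_lit 3274588096) (nat_lit 0) (nat_lit 1446279022) (nat_lit 380) (nat_lit 1757804624) (nat_lit 724) (nat_lit 5) (nat_lit 723) (nat_lit 5) (nat_lit 728) (nat_lit 5) (nat_lit 387) (nat_lit 381) (nat_lit 372)) (XT.lf (nat_lit 76) (nat_lit 159177183) (nat_lit 0) (nat_lit 958012747) (nat_lit 456) (nat_lit 5371863256) (nat_lit 719) (nat_lit 5) (nat_lit 718) (nat_lit 5) (nat_lit 724) (nat_lit 5) (nat_lit 388) (nat_lit 381) (nat_lit 371)))) (XT.nd (nat_lit 78) (nat_lit 380)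 (nat_lit 0) (XT.lf (nat_lit 76) (nat_lit 3580310752) (nat_lit 0) (nat_lit 394138834) (nat_lit 456) (nat_lit 2526021862) (nat_lit 719) (nat_lit 5) (nat_lit 718) (nat_lit 5) (nat_lit 724) (nat_lit 5) (nat_lit 389) (nat_lit 381) (nat_lit 370)) (XT.nd (nat_lit 78) (nat_lit 0) (nat_lit 0) (XT.lf (nat_lit 0) (nat_lit 304381001) (nat_lit 456) (nat_lit 5993963100) (nat_lit 76) (nat_lit 215099883) (nat_lit 713) (nat_lit 5) (nat_lit 719) (nat_lit 5) (nat_lit 714) (nat_lit 5) (nat_lit 390) (nat_lit 381) (nat_lit 369)) (XT.lf (nat_lit 0) (nat_lit 3109069860) (nat_lit 456) (nat_lit 2520836096) (nat_lit 76) (nat_lit 897432072) (nat_lit 713) (nat_lit 5) (nat_lit 719) (nat_lit 5) (nat_lit 714) (nat_lit 5) (nat_lit 391) (nat_lit 381) (nat_lit 368))))))))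
noncomputable def xc90 : XT := (XT.nd (nat_lit 1794) (nat_lit 18088) (nat_lit 0) (XT.nd (nat_lit 858) (nat_lit 8360) (nat_lit 0) (XT.nd (nat_lit 390) (nat_lit 2432) (nat_lit 0) (XT.nd (nat_lit 156) (nat_lit 1216) (nat_lit 0) (XT.nd (nat_lit 78) (nat_lit 76) (nat_lit 0) (XT.lf (nat_lit 0) (nat_lit 993029862) (nat_lit 456) (nat_lit 4913793546) (nat_lit 532) (nat_lit 635972640) (nat_lit 707) (nat_lit 5) (nat_lit 713) (nat_lit 5) (nat_lit 714) (nat_lit 5) (nat_lit 392) (nat_lit 381) (nat_lit 367)) (XT.lf (nat_lit 0) (nat_lit 2121256710) (nat_lit 532) (nat_lit 2003702184) (nat_lit 76) (nat_lit 2434379581) (nat_lit 706) (nat_lit 5) (nat_lit 713) (nat_lit 5) (nat_lit 707) (nat_lit 5) (nat_lit 393) (nat_lit 381) (nat_lit 366))) (XT.nd (nat_lit 78) (nat_lit 684) (nat_lit 0) (XT.lf (nat_lit 0) (nat_lit 1588321752) (nat_lit 532) (nat_lit 3279602800) (nat_lit 608) (nat_lit 1709370971) (nat_lit 699) (nat_lit 5) (nat_lit 706) (nat_lit 5)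 (nat_lit 707) (nat_lit 5) (nat_lit 394) (nat_lit 381) (nat_lit 365)) (XT.nd (nat_lit 78) (nat_lit 608) (nat_lit 0) (XT.lf (nat_lit 0) (nat_lit 1006445771) (nat_lit 608) (nat_lit 1365277120) (nat_lit 76) (nat_lit 4224840153) (nat_lit 698) (nat_lit 5) (nat_lit 706) (nat_lit 5) (nat_lit 699) (nat_lit 5) (nat_lit 395) (nat_lit 381) (nat_lit 364)) (XT.lf (nat_lit 0) (nat_lit 2308457198) (nat_lit 608) (nat_lit 1394636100) (nat_lit 684) (nat_lit 2913931233) (nat_lit 690) (nat_lit 5) (nat_lit 698) (nat_lit 5) (nat_lit 699) (nat_lit 5) (nat_lit 396) (nat_lit 381) (nat_lit 363))))) (XT.nd (nat_lit 234) (nat_lit 912) (nat_lit 0) (XT.nd (nat_lit 78) (nat_lit 1520) (nat_lit 0) (XT.lf (nat_lit 0) (nat_lit 6033053447) (nat_lit 608) (nat_lit 365194981) (nat_lit 684) (nat_lit 240777538) (nat_lit 690) (nat_lit 5) (nat_lit 698) (nat_lit 5) (nat_lit 699) (nat_lit 5) (nat_lit 397) (nat_lit 381) (nat_lit 362)) (XT.nd (nat_lit 78) (nat_lit 760) (nat_lit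 0) (XT.lf (nat_lit 0) (nat_lit 2414793626) (nat_lit 760) (nat_lit 3512139694) (nat_lit 76) (nat_lit 735001530) (nat_lit 680) (nat_lit 5) (nat_lit 690) (nat_lit 5) (nat_lit 681) (nat_lit 5) (nat_lit 398) (nat_lit 381) (nat_lit 361)) (XT.lf (nat_lit 0) (nat_lit 260721750) (nat_lit 760) (nat_lit 4805103158) (nat_lit 836) (nat_lit 1620554650) (nat_lit 670) (nat_lit 5) (nat_lit 680) (nat_lit 5) (nat_lit 681) (nat_lit 5) (nat_lit 399) (nat_lit 381) (nat_lit 360)))) (XT.nd (nat_lit 78) (nat_lit 836) (nat_lit 0) (XT.lf (nat_lit 0) (nat_lit 1006296257) (nat_lit 836) (nat_lit 2604118783) (nat_lit 76) (nat_lit 3101548461) (nat_lit 669) (nat_lit 5) (nat_lit 680) (nat_lit 5) (nat_lit 670) (nat_lit 5) (nat_lit 400) (nat_lit 381) (nat_lit 359)) (XT.nd (nat_lit 78) (nat_lit 0) (nat_lit 0) (XT.lf (nat_lit 0) (nat_lit 1257556648) (nat_lit 836) (nat_lit 2353722763) (nat_lit 912) (nat_lit 3127639306) (nat_lit 658) (nat_lit 5) (nat_lit 669) (nat_lit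 5) (nat_lit 670) (nat_lit 5) (nat_lit 401) (nat_lit 381) (nat_lit 358)) (XT.lf (nat_lit 0) (nat_lit 5189986478) (nat_lit 836) (nat_lit 1035882721) (nat_lit 912) (nat_lit 541413036) (nat_lit 658) (nat_lit 5) (nat_lit 669) (nat_lit 5) (nat_lit 670) (nat_lit 5) (nat_lit 402) (nat_lit 381) (nat_lit 357)))))) (XT.nd (nat_lit 468) (nat_lit 4028) (nat_lit 0) (XT.nd (nat_lit 234) (nat_lit 2280) (nat_lit 0) (XT.nd (nat_lit 78) (nat_lit 1064) (nat_lit 0) (XT.lf (nat_lit 0) (nat_lit 2027605600) (nat_lit 988) (nat_lit 4418443434) (nat_lit 76) (nat_lit 350739045) (nat_lit 645) (nat_lit 5) (nat_lit 658) (nat_lit 5) (nat_lit 646) (nat_lit 5) (nat_lit 403) (nat_lit 381) (nat_lit 356)) (XT.nd (nat_lit 78) (nat_lit 1064) (nat_lit 0) (XT.lf (nat_lit 0) (nat_lit 4600076950) (nat_lit 988) (nat_lit 445493187) (nat_lit 76) (nat_lit 1782074111) (nat_lit 645) (nat_lit 5) (nat_lit 658) (nat_lit 5) (nat_lit 646) (nat_lit 5) (nat_lit 404) (nat_lit 381)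 (nat_lit 355)) (XT.lf (nat_lit 0) (nat_lit 326249821) (nat_lit 1064) (nat_lit 3249605920) (nat_lit 76) (nat_lit 3283908830) (nat_lit 631) (nat_lit 5) (nat_lit 645) (nat_lit 5) (nat_lit 632) (nat_lit 5) (nat_lit 405) (nat_lit 381) (nat_lit 354)))) (XT.nd (nat_lit 78) (nat_lit 1216) (nat_lit 0) (XT.lf (nat_lit 0) (nat_lit 813960032) (nat_lit 1064) (nat_lit 2039078306) (nat_lit 1140) (nat_lit 4040177203) (nat_lit 617) (nat_lit 5) (nat_lit 631) (nat_lit 5) (nat_lit 632) (nat_lit 5) (nat_lit 406) (nat_lit 381) (nat_lit 353)) (XT.nd (nat_lit 78) (nat_lit 1216) (nat_lit 0) (XT.lf (nat_lit 0) (nat_lit 4960687671) (nat_lit 1064) (nat_lit 435717837) (nat_lit 1140) (nat_lit 1531625998) (nat_lit 617) (nat_lit 5) (nat_lit 631) (nat_lit 5) (nat_lit 632) (nat_lit 5) (nat_lit 407) (nat_lit 381) (nat_lit 352)) (XT.lf (nat_lit 0) (nat_lit 980918956) (nat_lit 1216) (nat_lit 4765250835) (nat_lit 76) (nat_lit 1217910941) (nat_lit 601) (nat_lit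 5) (nat_lit 617) (nat_lit 5) (nat_lit 602) (nat_lit 5) (nat_lit 408) (nat_lit 381) (nat_lit 351))))) (XT.nd (nat_lit 234) (nat_lit 1444) (nat_lit 0) (XT.nd (nat_lit 78) (nat_lit 2584) (nat_lit 0) (XT.lf (nat_lit 0) (nat_lit 3485240502) (nat_lit 1216) (nat_lit 581692716) (nat_lit 76) (nat_lit 2934490422) (nat_lit 601) (nat_lit 5) (nat_lit 617) (nat_lit 5) (nat_lit 602) (nat_lit 5) (nat_lit 409) (nat_lit 381) (nat_lit 350)) (XT.nd (nat_lit 78) (nat_lit 1368) (nat_lit 0) (XT.lf (nat_lit 0) (nat_lit 3691813615) (nat_lit 1216) (nat_lit 2318706627) (nat_lit 1292) (nat_lit 1029591279) (nat_lit 585) (nat_lit 5) (nat_lit 601) (nat_lit 5) (nat_lit 602) (nat_lit 5) (nat_lit 410) (nat_lit 381) (nat_lit 349)) (XT.lf (nat_lit 0) (nat_lit 939108325) (nat_lit 1292) (nat_lit 505199447) (nat_lit 1368) (nat_lit 5635937953) (nat_lit 567) (nat_lit 5) (nat_lit 584) (nat_lit 5) (nat_lit 585) (nat_lit 5) (nat_lit 411) (nat_lit 381) (nat_lit 348))))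 (XT.nd (nat_lit 78) (nat_lit 1444) (nat_lit 0) (XT.lf (nat_lit 0) (nat_lit 3933389833) (nat_lit 1368) (nat_lit 1822196041) (nat_lit 76) (nat_lit 1365885455) (nat_lit 567) (nat_lit 5) (nat_lit 585) (nat_lit 5) (nat_lit 568) (nat_lit 5) (nat_lit 412) (nat_lit 381) (nat_lit 347)) (XT.nd (nat_lit 78) (nat_lit 76) (nat_lit 0) (XT.lf (nat_lit 0) (nat_lit 2570932610) (nat_lit 1368) (nat_lit 3870506695) (nat_lit 1444) (nat_lit 722712792) (nat_lit 549) (nat_lit 5) (nat_lit 567) (nat_lit 5) (nat_lit 568) (nat_lit 5) (nat_lit 413) (nat_lit 381) (nat_lit 346)) (XT.lf (nat_lit 0) (nat_lit 1730294797) (nat_lit 1444) (nat_lit 185501997) (nat_lit 76) (nat_lit 5292434134) (nat_lit 548) (nat_lit 5) (nat_lit 567) (nat_lit 5) (nat_lit 549) (nat_lit 5) (nat_lit 414) (nat_lit 381) (nat_lit 345))))))) (XT.nd (nat_lit 936) (nat_lit 6536) (nat_lit 0) (XT.nd (nat_lit 468) (nat_lit 5168) (nat_lit 0) (XT.nd (nat_lit 234) (nat_lit 3344) (nat_lit 0) (XT.nd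 (nat_lit 78) (nat_lit 1596) (nat_lit 0) (XT.lf (nat_lit 0) (nat_lit 4202029506) (nat_lit 1520) (nat_lit 2934192959) (nat_lit 76) (nat_lit 117299983) (nat_lit 529) (nat_lit 5) (nat_lit 549) (nat_lit 5) (nat_lit 530) (nat_lit 5) (nat_lit 415) (nat_lit 381) (nat_lit 344)) (XT.nd (nat_lit 78) (nat_lit 76) (nat_lit 0) (XT.lf (nat_lit 0) (nat_lit 1582250029) (nat_lit 1520) (nat_lit 5116420270) (nat_lit 1596) (nat_lit 601553346) (nat_lit 509) (nat_lit 5) (nat_lit 529) (nat_lit 5) (nat_lit 530) (nat_lit 5) (nat_lit 416) (nat_lit 381) (nat_lit 343)) (XT.lf (nat_lit 0) (nat_lit 1843926783) (nat_lit 1596) (nat_lit 1174375727) (nat_lit 76) (nat_lit 4329894203) (nat_lit 508) (nat_lit 5) (nat_lit 529) (nat_lit 5) (nat_lit 509) (nat_lit 5) (nat_lit 417) (nat_lit 381) (nat_lit 342)))) (XT.nd (nat_lit 78) (nat_lit 1748) (nat_lit 0) (XT.lf (nat_lit 0) (nat_lit 3459067974) (nat_lit 1596) (nat_lit 846214650) (nat_lit 1672) (nat_lit 3092279184)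 (nat_lit 487) (nat_lit 5) (nat_lit 508) (nat_lit 5) (nat_lit 509) (nat_lit 5) (nat_lit 418) (nat_lit 381) (nat_lit 341)) (XT.nd (nat_lit 78) (nat_lit 76) (nat_lit 0) (XT.lf (nat_lit 0) (nat_lit 710612125) (nat_lit 1672) (nat_lit 6079932419) (nat_lit 1748) (nat_lit 657888342) (nat_lit 465) (nat_lit 5) (nat_lit 487) (nat_lit 5) (nat_lit 488) (nat_lit 5) (nat_lit 419) (nat_lit 381) (nat_lit 340)) (XT.lf (nat_lit 0) (nat_lit 1787024402) (nat_lit 1748) (nat_lit 2054787939) (nat_lit 76) (nat_lit 3658568389) (nat_lit 464) (nat_lit 5) (nat_lit 487) (nat_lit 5) (nat_lit 465) (nat_lit 5) (nat_lit 420) (nat_lit 381) (nat_lit 339))))) (XT.nd (nat_lit 234) (nat_lit 1900) (nat_lit 0) (XT.nd (nat_lit 78) (nat_lit 1520) (nat_lit 0) (XT.lf (nat_lit 0) (nat_lit 2710496112) (nat_lit 1748) (nat_lit 1533610582) (nat_lit 1824) (nat_lit 3309743810) (nat_lit 441) (nat_lit 5) (nat_lit 464) (nat_lit 5) (nat_lit 465) (nat_lit 5) (nat_lit 421) (nat_lit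 381) (nat_lit 338)) (XT.nd (nat_lit 78) (nat_lit 1520) (nat_lit 0) (XT.lf (nat_lit 0) (nat_lit 6724648079) (nat_lit 1824) (nat_lit 57842283) (nat_lit 76) (nat_lit 826424290) (nat_lit 441) (nat_lit 5) (nat_lit 465) (nat_lit 5) (nat_lit 442) (nat_lit 5) (nat_lit 422) (nat_lit 381) (nat_lit 337)) (XT.lf (nat_lit 0) (nat_lit 1566375564) (nat_lit 1520) (nat_lit 2841219427) (nat_lit 76) (nat_lit 3257339453) (nat_lit 421) (nat_lit 5) (nat_lit 441) (nat_lit 5) (nat_lit 422) (nat_lit 5) (nat_lit 423) (nat_lit 381) (nat_lit 336)))) (XT.nd (nat_lit 78) (nat_lit 988) (nat_lit 0) (XT.lf (nat_lit 0) (nat_lit 2060068205) (nat_lit 912) (nat_lit 1964179075) (nat_lit 988) (nat_lit 3698319984) (nat_lit 409) (nat_lit 5) (nat_lit 421) (nat_lit 5) (nat_lit 422) (nat_lit 5) (nat_lit 424) (nat_lit 381) (nat_lit 335)) (XT.nd (nat_lit 78) (nat_lit 988) (nat_lit 0) (XT.lf (nat_lit 0) (nat_lit 6510763890) (nat_lit 988) (nat_lit 729940230) (nat_lit 76)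 (nat_lit 541069337) (nat_lit 409) (nat_lit 5) (nat_lit 422) (nat_lit 5) (nat_lit 410) (nat_lit 5) (nat_lit 425) (nat_lit 381) (nat_lit 334)) (XT.lf (nat_lit 0) (nat_lit 1187679004) (nat_lit 988) (nat_lit 3547787825) (nat_lit 76) (nat_lit 3106577877) (nat_lit 396) (nat_lit 5) (nat_lit 409) (nat_lit 5) (nat_lit 397) (nat_lit 5) (nat_lit 426) (nat_lit 381) (nat_lit 333)))))) (XT.nd (nat_lit 468) (nat_lit 3116) (nat_lit 0) (XT.nd (nat_lit 234) (nat_lit 1596) (nat_lit 0) (XT.nd (nat_lit 78) (nat_lit 912) (nat_lit 0) (XT.lf (nat_lit 0) (nat_lit 1493802275) (nat_lit 912) (nat_lit 2157346716) (nat_lit 988) (nat_lit 4252761693) (nat_lit 384) (nat_lit 5) (nat_lit 396) (nat_lit 5) (nat_lit 397) (nat_lit 5) (nat_lit 427) (nat_lit 381) (nat_lit 332)) (XT.nd (nat_lit 78) (nat_lit 912) (nat_lit 0) (XT.lf (nat_lit 0) (nat_lit 6149443064) (nat_lit 988) (nat_lit 1328746756) (nat_lit 76) (nat_lit 489122737) (nat_lit 384) (nat_lit 5) (nat_lit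 397) (nat_lit 5) (nat_lit 385) (nat_lit 5) (nat_lit 428) (nat_lit 381) (nat_lit 331)) (XT.lf (nat_lit 0) (nat_lit 655577626) (nat_lit 912) (nat_lit 4188361821) (nat_lit 76) (nat_lit 3187994103) (nat_lit 372) (nat_lit 5) (nat_lit 384) (nat_lit 5) (nat_lit 373) (nat_lit 5) (nat_lit 429) (nat_lit 381) (nat_lit 330)))) (XT.nd (nat_lit 78) (nat_lit 760) (nat_lit 0) (XT.lf (nat_lit 0) (nat_lit 997952037) (nat_lit 836) (nat_lit 2131262722) (nat_lit 912) (nat_lit 4968899747) (nat_lit 361) (nat_lit 5) (nat_lit 372) (nat_lit 5) (nat_lit 373) (nat_lit 5) (nat_lit 430) (nat_lit 381) (nat_lit 329)) (XT.nd (nat_lit 78) (nat_lit 760) (nat_lit 0) (XT.lf (nat_lit 0) (nat_lit 5644829090) (nat_lit 912) (nat_lit 1867830956) (nat_lit 76) (nat_lit 653117878) (nat_lit 361) (nat_lit 5) (nat_lit 373) (nat_lit 5) (nat_lit 362) (nat_lit 5) (nat_lit 431) (nat_lit 381) (nat_lit 328)) (XT.lf (nat_lit 0) (nat_lit 3458005613) (nat_lit 760) (nat_lit 4750183762)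 (nat_lit 836) (nat_lit 26665318) (nat_lit 351) (nat_lit 5) (nat_lit 361) (nat_lit 5) (nat_lit 362) (nat_lit 5) (nat_lit 432) (nat_lit 381) (nat_lit 327))))) (XT.nd (nat_lit 234) (nat_lit 1520) (nat_lit 0) (XT.nd (nat_lit 78) (nat_lit 760) (nat_lit 0) (XT.lf (nat_lit 0) (nat_lit 558890964) (nat_lit 760) (nat_lit 1902938492) (nat_lit 836) (nat_lit 5843618190) (nat_lit 340) (nat_lit 5) (nat_lit 350) (nat_lit 5) (nat_lit 351) (nat_lit 5) (nat_lit 433) (nat_lit 381) (nat_lit 326)) (XT.nd (nat_lit 78) (nat_lit 760) (nat_lit 0) (XT.lf (nat_lit 0) (nat_lit 5000065279) (nat_lit 836) (nat_lit 2360700574) (nat_lit 76) (nat_lit 1016684769) (nat_lit 340) (nat_lit 5) (nat_lit 351) (nat_lit 5) (nat_lit 341) (nat_lit 5) (nat_lit 434) (nat_lit 381) (nat_lit 325)) (XT.lf (nat_lit 0) (nat_lit 3118923889) (nat_lit 760) (nat_lit 4465307642) (nat_lit 836) (nat_lit 866766901) (nat_lit 330) (nat_lit 5) (nat_lit 340) (nat_lit 5) (nat_lit 341) (nat_lit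 5) (nat_lit 435) (nat_lit 381) (nat_lit 324)))) (XT.nd (nat_lit 78) (nat_lit 684) (nat_lit 0) (XT.lf (nat_lit 0) (nat_lit 162994605) (nat_lit 760) (nat_lit 1488381539) (nat_lit 836) (nat_lit 6874838247) (nat_lit 319) (nat_lit 5) (nat_lit 329) (nat_lit 5) (nat_lit 330) (nat_lit 5) (nat_lit 436) (nat_lit 381) (nat_lit 323)) (XT.nd (nat_lit 78) (nat_lit 684) (nat_lit 0) (XT.lf (nat_lit 0) (nat_lit 4217308655) (nat_lit 836) (nat_lit 2820918906) (nat_lit 76) (nat_lit 1564419492) (nat_lit 319) (nat_lit 5) (nat_lit 330) (nat_lit 5) (nat_lit 320) (nat_lit 5) (nat_lit 437) (nat_lit 381) (nat_lit 322)) (XT.lf (nat_lit 0) (nat_lit 2817246972) (nat_lit 684) (nat_lit 4009140125) (nat_lit 760) (nat_lit 1854392201) (nat_lit 310) (nat_lit 5) (nat_lit 319) (nat_lit 5) (nat_lit 320) (nat_lit 5) (nat_lit 438) (nat_lit 381) (nat_lit 321))))))))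
noncomputable def xc91 : XT := (XT.nd (nat_lit 1794) (nat_lit 6080) (nat_lit 0) (XT.nd (nat_lit 858) (nat_lit 4408) (nat_lit 0) (XT.nd (nat_lit 390) (nat_lit 2508) (nat_lit 0) (XT.nd (nat_lit 156) (nat_lit 1444) (nat_lit 0) (XT.nd (nat_lit 78) (nat_lit 684) (nat_lit 0) (XT.lf (nat_lit 0) (nat_lit 700566104) (nat_lit 760) (nat_lit 200811135) (nat_lit 76) (nat_lit 7859351101) (nat_lit 309) (nat_lit 5) (nat_lit 319) (nat_lit 5) (nat_lit 310) (nat_lit 5) (nat_lit 439) (nat_lit 381) (nat_lit 320)) (XT.lf (nat_lit 0) (nat_lit 3297736543) (nat_lit 760) (nat_lit 3262224836) (nat_lit 76) (nat_lit 2281758012) (nat_lit 300) (nat_lit 5) (nat_lit 310) (nat_lit 5) (nat_lit 301) (nat_lit 5) (nat_lit 440) (nat_lit 381) (nat_lit 319))) (XT.nd (nat_lit 78) (nat_lit 760) (nat_lit 0) (XT.lf (nat_lit 0) (nat_lit 2539302147) (nat_lit 684) (nat_lit 3396331108) (nat_lit 760) (nat_lit 2988928256) (nat_lit 291) (nat_lit 5) (nat_lit 300) (nat_lit 5)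 (nat_lit 301) (nat_lit 5) (nat_lit 441) (nat_lit 381) (nat_lit 318)) (XT.nd (nat_lit 78) (nat_lit 760) (nat_lit 0) (XT.lf (nat_lit 0) (nat_lit 8459507258) (nat_lit 684) (nat_lit 154059003) (nat_lit 760) (nat_lit 395755413) (nat_lit 291) (nat_lit 5) (nat_lit 300) (nat_lit 5) (nat_lit 301) (nat_lit 5) (nat_lit 442) (nat_lit 381) (nat_lit 317)) (XT.lf (nat_lit 0) (nat_lit 2241545753) (nat_lit 760) (nat_lit 3698657020) (nat_lit 76) (nat_lit 3154853406) (nat_lit 281) (nat_lit 5) (nat_lit 291) (nat_lit 5) (nat_lit 282) (nat_lit 5) (nat_lit 443) (nat_lit 381) (nat_lit 316))))) (XT.nd (nat_lit 234) (nat_lit 1216) (nat_lit 0) (XT.nd (nat_lit 78) (nat_lit 684) (nat_lit 0) (XT.lf (nat_lit 0) (nat_lit 2271096647) (nat_lit 608) (nat_lit 2640873708) (nat_lit 684) (nat_lit 4270775547) (nat_lit 273) (nat_lit 5) (nat_lit 281) (nat_lit 5) (nat_lit 282) (nat_lit 5) (nat_lit 444) (nat_lit 381) (nat_lit 315)) (XT.nd (nat_lit 78) (nat_lit 684) (nat_lit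 0) (XT.lf (nat_lit 0) (nat_lit 7632026680) (nat_lit 684) (nat_lit 908110895) (nat_lit 76) (nat_lit 732133635) (nat_lit 273) (nat_lit 5) (nat_lit 282) (nat_lit 5) (nat_lit 274) (nat_lit 5) (nat_lit 445) (nat_lit 381) (nat_lit 314)) (XT.lf (nat_lit 0) (nat_lit 1047944237) (nat_lit 684) (nat_lit 4144683302) (nat_lit 76) (nat_lit 4170455573) (nat_lit 264) (nat_lit 5) (nat_lit 273) (nat_lit 5) (nat_lit 265) (nat_lit 5) (nat_lit 446) (nat_lit 381) (nat_lit 313)))) (XT.nd (nat_lit 78) (nat_lit 608) (nat_lit 0) (XT.lf (nat_lit 0) (nat_lit 1998185936) (nat_lit 608) (nat_lit 1756225290) (nat_lit 684) (nat_lit 5701359534) (nat_lit 256) (nat_lit 5) (nat_lit 264) (nat_lit 5) (nat_lit 265) (nat_lit 5) (nat_lit 447) (nat_lit 381) (nat_lit 312)) (XT.nd (nat_lit 78) (nat_lit 608) (nat_lit 0) (XT.lf (nat_lit 0) (nat_lit 6522026075) (nat_lit 684) (nat_lit 1282802142) (nat_lit 76) (nat_lit 1745349350) (nat_lit 256) (nat_lit 5) (nat_lit 265) (nat_lit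 5) (nat_lit 257) (nat_lit 5) (nat_lit 448) (nat_lit 381) (nat_lit 311)) (XT.lf (nat_lit 0) (nat_lit 5029015900) (nat_lit 608) (nat_lit 4328559923) (nat_lit 684) (nat_lit 288650699) (nat_lit 248) (nat_lit 5) (nat_lit 256) (nat_lit 5) (nat_lit 257) (nat_lit 5) (nat_lit 449) (nat_lit 381) (nat_lit 310)))))) (XT.nd (nat_lit 468) (nat_lit 2052) (nat_lit 0) (XT.nd (nat_lit 234) (nat_lit 1140) (nat_lit 0) (XT.nd (nat_lit 78) (nat_lit 608) (nat_lit 0) (XT.lf (nat_lit 0) (nat_lit 1705535284) (nat_lit 532) (nat_lit 755427378) (nat_lit 608) (nat_lit 7283150184) (nat_lit 240) (nat_lit 5) (nat_lit 247) (nat_lit 5) (nat_lit 248) (nat_lit 5) (nat_lit 450) (nat_lit 381) (nat_lit 309)) (XT.nd (nat_lit 78) (nat_lit 608) (nat_lit 0) (XT.lf (nat_lit 0) (nat_lit 5280393217) (nat_lit 608) (nat_lit 1688129810) (nat_lit 76) (nat_lit 2875027247) (nat_lit 240) (nat_lit 5) (nat_lit 248) (nat_lit 5) (nat_lit 241) (nat_lit 5) (nat_lit 451) (nat_lit 381)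 (nat_lit 308)) (XT.lf (nat_lit 0) (nat_lit 4806935510) (nat_lit 608) (nat_lit 3354841327) (nat_lit 684) (nat_lit 1783093559) (nat_lit 232) (nat_lit 5) (nat_lit 240) (nat_lit 5) (nat_lit 241) (nat_lit 5) (nat_lit 452) (nat_lit 381) (nat_lit 307)))) (XT.nd (nat_lit 78) (nat_lit 532) (nat_lit 0) (XT.lf (nat_lit 0) (nat_lit 1030863298) (nat_lit 608) (nat_lit 8673179707) (nat_lit 76) (nat_lit 344200330) (nat_lit 224) (nat_lit 5) (nat_lit 232) (nat_lit 5) (nat_lit 225) (nat_lit 5) (nat_lit 453) (nat_lit 381) (nat_lit 306)) (XT.nd (nat_lit 78) (nat_lit 532) (nat_lit 0) (XT.lf (nat_lit 0) (nat_lit 3903927053) (nat_lit 608) (nat_lit 2140133038) (nat_lit 76) (nat_lit 4108858780) (nat_lit 224) (nat_lit 5) (nat_lit 232) (nat_lit 5) (nat_lit 225) (nat_lit 5) (nat_lit 454) (nat_lit 381) (nat_lit 305)) (XT.lf (nat_lit 0) (nat_lit 4543106603) (nat_lit 532) (nat_lit 2291192334) (nat_lit 608) (nat_lit 3425396878) (nat_lit 217) (nat_lit 5) (nat_lit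 224) (nat_lit 5) (nat_lit 225) (nat_lit 5) (nat_lit 455) (nat_lit 381) (nat_lit 304))))) (XT.nd (nat_lit 234) (nat_lit 988) (nat_lit 0) (XT.nd (nat_lit 78) (nat_lit 608) (nat_lit 0) (XT.lf (nat_lit 0) (nat_lit 983210943) (nat_lit 456) (nat_lit 8841490103) (nat_lit 532) (nat_lit 543883535) (nat_lit 211) (nat_lit 5) (nat_lit 217) (nat_lit 5) (nat_lit 218) (nat_lit 5) (nat_lit 456) (nat_lit 381) (nat_lit 303)) (XT.nd (nat_lit 78) (nat_lit 532) (nat_lit 0) (XT.lf (nat_lit 0) (nat_lit 2388358956) (nat_lit 532) (nat_lit 2655805936) (nat_lit 76) (nat_lit 5434689493) (nat_lit 210) (nat_lit 5) (nat_lit 217) (nat_lit 5) (nat_lit 211) (nat_lit 5) (nat_lit 457) (nat_lit 381) (nat_lit 302)) (XT.lf (nat_lit 0) (nat_lit 4220456338) (nat_lit 532) (nat_lit 1150214520) (nat_lit 608) (nat_lit 5220617147) (nat_lit 203) (nat_lit 5) (nat_lit 210) (nat_lit 5) (nat_lit 211) (nat_lit 5) (nat_lit 458) (nat_lit 381) (nat_lit 301)))) (XT.nd (nat_lit 78)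 (nat_lit 532) (nat_lit 0) (XT.lf (nat_lit 0) (nat_lit 513033836) (nat_lit 456) (nat_lit 7910719838) (nat_lit 532) (nat_lit 2281998508) (nat_lit 197) (nat_lit 5) (nat_lit 203) (nat_lit 5) (nat_lit 204) (nat_lit 5) (nat_lit 459) (nat_lit 381) (nat_lit 300)) (XT.nd (nat_lit 78) (nat_lit 456) (nat_lit 0) (XT.lf (nat_lit 0) (nat_lit 728306244) (nat_lit 532) (nat_lit 3253266550) (nat_lit 76) (nat_lit 6840398237) (nat_lit 196) (nat_lit 5) (nat_lit 203) (nat_lit 5) (nat_lit 197) (nat_lit 5) (nat_lit 460) (nat_lit 381) (nat_lit 299)) (XT.lf (nat_lit 0) (nat_lit 3765656748) (nat_lit 532) (nat_lit 7119885721) (nat_lit 76) (nat_lit 54726322) (nat_lit 190) (nat_lit 5) (nat_lit 197) (nat_lit 5) (nat_lit 191) (nat_lit 5) (nat_lit 461) (nat_lit 381) (nat_lit 298))))))) (XT.nd (nat_lit 936) (nat_lit 2584) (nat_lit 0) (XT.nd (nat_lit 468) (nat_lit 1596) (nat_lit 0) (XT.nd (nat_lit 234) (nat_lit 912) (nat_lit 0) (XT.nd (nat_lit 78) (nat_lit 988)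 (nat_lit 0) (XT.lf (nat_lit 0) (nat_lit 6884515913) (nat_lit 532) (nat_lit 46846935) (nat_lit 76) (nat_lit 4129158469) (nat_lit 190) (nat_lit 5) (nat_lit 197) (nat_lit 5) (nat_lit 191) (nat_lit 5) (nat_lit 462) (nat_lit 381) (nat_lit 297)) (XT.nd (nat_lit 78) (nat_lit 532) (nat_lit 0) (XT.lf (nat_lit 0) (nat_lit 7223723437) (nat_lit 456) (nat_lit 2861888763) (nat_lit 532) (nat_lit 1097173462) (nat_lit 184) (nat_lit 5) (nat_lit 190) (nat_lit 5) (nat_lit 191) (nat_lit 5) (nat_lit 463) (nat_lit 381) (nat_lit 296)) (XT.lf (nat_lit 0) (nat_lit 2019921832) (nat_lit 532) (nat_lit 7991453295) (nat_lit 76) (nat_lit 1295788976) (nat_lit 177) (nat_lit 5) (nat_lit 184) (nat_lit 5) (nat_lit 178) (nat_lit 5) (nat_lit 464) (nat_lit 381) (nat_lit 295)))) (XT.nd (nat_lit 78) (nat_lit 912) (nat_lit 0) (XT.lf (nat_lit 0) (nat_lit 5203637494) (nat_lit 532) (nat_lit 709230191) (nat_lit 76) (nat_lit 5520641725) (nat_lit 177) (nat_lit 5) (nat_lit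 184) (nat_lit 5) (nat_lit 178) (nat_lit 5) (nat_lit 465) (nat_lit 381) (nat_lit 294)) (XT.nd (nat_lit 78) (nat_lit 532) (nat_lit 0) (XT.lf (nat_lit 0) (nat_lit 6769199025) (nat_lit 380) (nat_lit 1699562537) (nat_lit 456) (nat_lit 3093269044) (nat_lit 172) (nat_lit 5) (nat_lit 177) (nat_lit 5) (nat_lit 178) (nat_lit 5) (nat_lit 466) (nat_lit 381) (nat_lit 293)) (XT.lf (nat_lit 0) (nat_lit 117880423) (nat_lit 532) (nat_lit 8999835832) (nat_lit 76) (nat_lit 2575131607) (nat_lit 165) (nat_lit 5) (nat_lit 172) (nat_lit 5) (nat_lit 166) (nat_lit 5) (nat_lit 467) (nat_lit 381) (nat_lit 292))))) (XT.nd (nat_lit 234) (nat_lit 836) (nat_lit 0) (XT.nd (nat_lit 78) (nat_lit 760) (nat_lit 0) (XT.lf (nat_lit 0) (nat_lit 3369565477) (nat_lit 532) (nat_lit 1502557377) (nat_lit 76) (nat_lit 6953398502) (nat_lit 165) (nat_lit 5) (nat_lit 172) (nat_lit 5) (nat_lit 166) (nat_lit 5) (nat_lit 468) (nat_lit 381) (nat_lit 291)) (XT.nd (nat_lit 78)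 (nat_lit 380) (nat_lit 0) (XT.lf (nat_lit 0) (nat_lit 6188073194) (nat_lit 380) (nat_lit 512958657) (nat_lit 456) (nat_lit 5259524902) (nat_lit 160) (nat_lit 5) (nat_lit 165) (nat_lit 5) (nat_lit 166) (nat_lit 5) (nat_lit 469) (nat_lit 381) (nat_lit 290)) (XT.lf (nat_lit 0) (nat_lit 1916392078) (nat_lit 380) (nat_lit 8205611480) (nat_lit 456) (nat_lit 1975835098) (nat_lit 155) (nat_lit 5) (nat_lit 160) (nat_lit 5) (nat_lit 161) (nat_lit 5) (nat_lit 470) (nat_lit 381) (nat_lit 289)))) (XT.nd (nat_lit 78) (nat_lit 760) (nat_lit 0) (XT.lf (nat_lit 0) (nat_lit 1372731804) (nat_lit 456) (nat_lit 2450387901) (nat_lit 76) (nat_lit 8414226977) (nat_lit 154) (nat_lit 5) (nat_lit 160) (nat_lit 5) (nat_lit 155) (nat_lit 5) (nat_lit 471) (nat_lit 381) (nat_lit 288)) (XT.nd (nat_lit 78) (nat_lit 380) (nat_lit 0) (XT.lf (nat_lit 0) (nat_lit 4777026895) (nat_lit 456) (nat_lit 6927114123) (nat_lit 76) (nat_lit 674941507) (nat_lit 149) (nat_lit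 5) (nat_lit 155) (nat_lit 5) (nat_lit 150) (nat_lit 5) (nat_lit 472) (nat_lit 381) (nat_lit 287)) (XT.lf (nat_lit 0) (nat_lit 972148506) (nat_lit 380) (nat_lit 7300924868) (nat_lit 456) (nat_lit 4250109467) (nat_lit 144) (nat_lit 5) (nat_lit 149) (nat_lit 5) (nat_lit 150) (nat_lit 5) (nat_lit 473) (nat_lit 381) (nat_lit 286)))))) (XT.nd (nat_lit 468) (nat_lit 1368) (nat_lit 0) (XT.nd (nat_lit 234) (nat_lit 760) (nat_lit 0) (XT.nd (nat_lit 78) (nat_lit 456) (nat_lit 0) (XT.lf (nat_lit 0) (nat_lit 9086104447) (nat_lit 380) (nat_lit 2775142873) (nat_lit 456) (nat_lit 808476718) (nat_lit 144) (nat_lit 5) (nat_lit 149) (nat_lit 5) (nat_lit 150) (nat_lit 5) (nat_lit 474) (nat_lit 381) (nat_lit 285)) (XT.nd (nat_lit 78) (nat_lit 0) (nat_lit 0) (XT.lf (nat_lit 0) (nat_lit 2684303282) (nat_lit 456) (nat_lit 8282447754) (nat_lit 76) (nat_lit 1851742015) (nat_lit 138) (nat_lit 5) (nat_lit 144) (nat_lit 5) (nat_lit 139) (nat_lit 5) (nat_lit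 475) (nat_lit 381) (nat_lit 284)) (XT.lf (nat_lit 0) (nat_lit 6254896048) (nat_lit 456) (nat_lit 163903098) (nat_lit 76) (nat_lit 6550958599) (nat_lit 138) (nat_lit 5) (nat_lit 144) (nat_lit 5) (nat_lit 139) (nat_lit 5) (nat_lit 476) (nat_lit 381) (nat_lit 283)))) (XT.nd (nat_lit 78) (nat_lit 380) (nat_lit 0) (XT.lf (nat_lit 0) (nat_lit 8188191103) (nat_lit 380) (nat_lit 1738526542) (nat_lit 456) (nat_lit 3196736522) (nat_lit 133) (nat_lit 5) (nat_lit 138) (nat_lit 5) (nat_lit 139) (nat_lit 5) (nat_lit 477) (nat_lit 381) (nat_lit 282)) (XT.nd (nat_lit 78) (nat_lit 0) (nat_lit 0) (XT.lf (nat_lit 0) (nat_lit 406543593) (nat_lit 380) (nat_lit 9864399583) (nat_lit 76) (nat_lit 3008834537) (nat_lit 128) (nat_lit 5) (nat_lit 133) (nat_lit 5) (nat_lit 129) (nat_lit 5) (nat_lit 478) (nat_lit 381) (nat_lit 281)) (XT.lf (nat_lit 0) (nat_lit 4060836237) (nat_lit 380) (nat_lit 1507963012) (nat_lit 76) (nat_lit 7869573462) (nat_lit 128)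 (nat_lit 5) (nat_lit 133) (nat_lit 5) (nat_lit 129) (nat_lit 5) (nat_lit 479) (nat_lit 381) (nat_lit 280))))) (XT.nd (nat_lit 234) (nat_lit 608) (nat_lit 0) (XT.nd (nat_lit 78) (nat_lit 380) (nat_lit 0) (XT.lf (nat_lit 0) (nat_lit 7072650192) (nat_lit 380) (nat_lit 738798856) (nat_lit 456) (nat_lit 5788228442) (nat_lit 123) (nat_lit 5) (nat_lit 128) (nat_lit 5) (nat_lit 129) (nat_lit 5) (nat_lit 480) (nat_lit 381) (nat_lit 279)) (XT.nd (nat_lit 78) (nat_lit 76) (nat_lit 0) (XT.lf (nat_lit 0) (nat_lit 2045030716) (nat_lit 304) (nat_lit 9620141350) (nat_lit 380) (nat_lit 2098476853) (nat_lit 119) (nat_lit 5) (nat_lit 123) (nat_lit 5) (nat_lit 124) (nat_lit 5) (nat_lit 481) (nat_lit 381) (nat_lit 278)) (XT.lf (nat_lit 0) (nat_lit 1669719341) (nat_lit 380) (nat_lit 3104921126) (nat_lit 76) (nat_lit 9155515768) (nat_lit 118) (nat_lit 5) (nat_lit 123) (nat_lit 5) (nat_lit 119) (nat_lit 5) (nat_lit 482) (nat_lit 381) (nat_lit 277))))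 (XT.nd (nat_lit 78) (nat_lit 304) (nat_lit 0) (XT.lf (nat_lit 0) (nat_lit 5501546498) (nat_lit 380) (nat_lit 8393966350) (nat_lit 76) (nat_lit 203878487) (nat_lit 114) (nat_lit 5) (nat_lit 119) (nat_lit 5) (nat_lit 115) (nat_lit 5) (nat_lit 483) (nat_lit 381) (nat_lit 276)) (XT.nd (nat_lit 78) (nat_lit 0) (nat_lit 0) (XT.lf (nat_lit 0) (nat_lit 400640299) (nat_lit 304) (nat_lit 9042630831) (nat_lit 380) (nat_lit 4828077112) (nat_lit 110) (nat_lit 5) (nat_lit 114) (nat_lit 5) (nat_lit 115) (nat_lit 5) (nat_lit 484) (nat_lit 381) (nat_lit 275)) (XT.lf (nat_lit 0) (nat_lit 9449826255) (nat_lit 304) (nat_lit 4048600085) (nat_lit 380) (nat_lit 947628302) (nat_lit 110) (nat_lit 5) (nat_lit 114) (nat_lit 5) (nat_lit 115) (nat_lit 5) (nat_lit 485) (nat_lit 381) (nat_lit 274))))))))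
noncomputable def xc92 : XT := (XT.nd (nat_lit 51402) (nat_lit 0) (nat_lit 43396) (XT.nd (nat_lit 858) (nat_lit 1596) (nat_lit 0) (XT.nd (nat_lit 390) (nat_lit 1140) (nat_lit 0) (XT.nd (nat_lit 156) (nat_lit 684) (nat_lit 0) (XT.nd (nat_lit 78) (nat_lit 0) (nat_lit 0) (XT.lf (nat_lit 0) (nat_lit 2982828428) (nat_lit 380) (nat_lit 10576095009) (nat_lit 76) (nat_lit 1064705385) (nat_lit 105) (nat_lit 5) (nat_lit 110) (nat_lit 5) (nat_lit 106) (nat_lit 5) (nat_lit 486) (nat_lit 381) (nat_lit 273)) (XT.lf (nat_lit 0) (nat_lit 7018440657) (nat_lit 380) (nat_lit 1532304617) (nat_lit 76) (nat_lit 6253101380) (nat_lit 105) (nat_lit 5) (nat_lit 110) (nat_lit 5) (nat_lit 106) (nat_lit 5) (nat_lit 487) (nat_lit 381) (nat_lit 272))) (XT.nd (nat_lit 78) (nat_lit 380) (nat_lit 0) (XT.lf (nat_lit 0) (nat_lit 7760010526) (nat_lit 304) (nat_lit 3404218097) (nat_lit 380) (nat_lit 3822853052) (nat_lit 101) (nat_lit 5) (nat_lit 105) (nat_lit 5)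 (nat_lit 106) (nat_lit 5) (nat_lit 488) (nat_lit 381) (nat_lit 271)) (XT.nd (nat_lit 78) (nat_lit 0) (nat_lit 0) (XT.lf (nat_lit 0) (nat_lit 231106052) (nat_lit 380) (nat_lit 13109222787) (nat_lit 76) (nat_lit 1833325616) (nat_lit 96) (nat_lit 5) (nat_lit 101) (nat_lit 5) (nat_lit 97) (nat_lit 5) (nat_lit 489) (nat_lit 381) (nat_lit 270)) (XT.lf (nat_lit 0) (nat_lit 4365600974) (nat_lit 380) (nat_lit 3805726292) (nat_lit 76) (nat_lit 7191115134) (nat_lit 96) (nat_lit 5) (nat_lit 101) (nat_lit 5) (nat_lit 97) (nat_lit 5) (nat_lit 490) (nat_lit 381) (nat_lit 269))))) (XT.nd (nat_lit 234) (nat_lit 532) (nat_lit 0) (XT.nd (nat_lit 78) (nat_lit 380) (nat_lit 0) (XT.lf (nat_lit 0) (nat_lit 5725316560) (nat_lit 228) (nat_lit 2874282641) (nat_lit 304) (nat_lit 6955072579) (nat_lit 93) (nat_lit 5) (nat_lit 96) (nat_lit 5) (nat_lit 97) (nat_lit 5) (nat_lit 491) (nat_lit 381) (nat_lit 268)) (XT.nd (nat_lit 78) (nat_lit 380) (nat_lit 0)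 (XT.lf (nat_lit 0) (nat_lit 12940140427) (nat_lit 304) (nat_lit 301964874) (nat_lit 76) (nat_lit 2508205092) (nat_lit 93) (nat_lit 5) (nat_lit 97) (nat_lit 5) (nat_lit 94) (nat_lit 5) (nat_lit 492) (nat_lit 381) (nat_lit 267)) (XT.lf (nat_lit 0) (nat_lit 1460213132) (nat_lit 380) (nat_lit 6469925029) (nat_lit 76) (nat_lit 8018317866) (nat_lit 88) (nat_lit 5) (nat_lit 93) (nat_lit 5) (nat_lit 89) (nat_lit 5) (nat_lit 493) (nat_lit 381) (nat_lit 266)))) (XT.nd (nat_lit 78) (nat_lit 304) (nat_lit 0) (XT.lf (nat_lit 0) (nat_lit 3299761681) (nat_lit 228) (nat_lit 2482292127) (nat_lit 304) (nat_lit 10368067496) (nat_lit 85) (nat_lit 5) (nat_lit 88) (nat_lit 5) (nat_lit 89) (nat_lit 5) (nat_lit 494) (nat_lit 381) (nat_lit 265)) (XT.nd (nat_lit 78) (nat_lit 304) (nat_lit 0) (XT.lf (nat_lit 0) (nat_lit 10234265356) (nat_lit 304) (nat_lit 3055845619) (nat_lit 76) (nat_lit 3064831992) (nat_lit 85) (nat_lit 5) (nat_lit 89) (nat_lit 5)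 (nat_lit 86) (nat_lit 5) (nat_lit 495) (nat_lit 381) (nat_lit 264)) (XT.lf (nat_lit 0) (nat_lit 6977087724) (nat_lit 304) (nat_lit 7840827375) (nat_lit 380) (nat_lit 1745099811) (nat_lit 81) (nat_lit 5) (nat_lit 85) (nat_lit 5) (nat_lit 86) (nat_lit 5) (nat_lit 496) (nat_lit 381) (nat_lit 263)))))) (XT.nd (nat_lit 468) (nat_lit 532) (nat_lit 0) (XT.nd (nat_lit 234) (nat_lit 532) (nat_lit 0) (XT.nd (nat_lit 78) (nat_lit 228) (nat_lit 0) (XT.lf (nat_lit 0) (nat_lit 432573019) (nat_lit 228) (nat_lit 2253916138) (nat_lit 304) (nat_lit 14088324924) (nat_lit 77) (nat_lit 5) (nat_lit 80) (nat_lit 5) (nat_lit 81) (nat_lit 5) (nat_lit 497) (nat_lit 381) (nat_lit 262)) (XT.nd (nat_lit 78) (nat_lit 228) (nat_lit 0) (XT.lf (nat_lit 0) (nat_lit 7251261277) (nat_lit 304) (nat_lit 6275194057) (nat_lit 76) (nat_lit 3462806460) (nat_lit 77) (nat_lit 5) (nat_lit 81) (nat_lit 5) (nat_lit 78) (nat_lit 5) (nat_lit 498) (nat_lit 381) (nat_lit 261))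 (XT.lf (nat_lit 0) (nat_lit 3998685378) (nat_lit 228) (nat_lit 7930687374) (nat_lit 304) (nat_lit 5278186426) (nat_lit 74) (nat_lit 5) (nat_lit 77) (nat_lit 5) (nat_lit 78) (nat_lit 5) (nat_lit 499) (nat_lit 381) (nat_lit 260)))) (XT.nd (nat_lit 78) (nat_lit 532) (nat_lit 0) (XT.lf (nat_lit 0) (nat_lit 14531289612) (nat_lit 228) (nat_lit 2193184840) (nat_lit 304) (nat_lit 705281062) (nat_lit 74) (nat_lit 5) (nat_lit 77) (nat_lit 5) (nat_lit 78) (nat_lit 5) (nat_lit 500) (nat_lit 381) (nat_lit 259)) (XT.nd (nat_lit 78) (nat_lit 228) (nat_lit 0) (XT.lf (nat_lit 0) (nat_lit 3962635802) (nat_lit 304) (nat_lit 10017939874) (nat_lit 76) (nat_lit 3674197954) (nat_lit 70) (nat_lit 5) (nat_lit 74) (nat_lit 5) (nat_lit 71) (nat_lit 5) (nat_lit 501) (nat_lit 381) (nat_lit 258)) (XT.lf (nat_lit 0) (nat_lit 493865385) (nat_lit 228) (nat_lit 8239557003) (nat_lit 304) (nat_lit 9150398853) (nat_lit 67) (nat_lit 5) (nat_lit 70) (nat_lit 5)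 (nat_lit 71) (nat_lit 5) (nat_lit 502) (nat_lit 381) (nat_lit 257))))) (XT.nd (nat_lit 234) (nat_lit 228) (nat_lit 0) (XT.nd (nat_lit 78) (nat_lit 304) (nat_lit 0) (XT.lf (nat_lit 0) (nat_lit 11320396315) (nat_lit 228) (nat_lit 2328247176) (nat_lit 304) (nat_lit 4467827383) (nat_lit 67) (nat_lit 5) (nat_lit 70) (nat_lit 5) (nat_lit 71) (nat_lit 5) (nat_lit 503) (nat_lit 381) (nat_lit 256)) (XT.nd (nat_lit 78) (nat_lit 0) (nat_lit 0) (XT.lf (nat_lit 0) (nat_lit 336677784) (nat_lit 304) (nat_lit 14348106187) (nat_lit 76) (nat_lit 3668304333) (nat_lit 63) (nat_lit 5) (nat_lit 67) (nat_lit 5) (nat_lit 64) (nat_lit 5) (nat_lit 504) (nat_lit 381) (nat_lit 255)) (XT.lf (nat_lit 0) (nat_lit 5220930399) (nat_lit 304) (nat_lit 3555655553) (nat_lit 76) (nat_lit 9816393213) (nat_lit 63) (nat_lit 5) (nat_lit 67) (nat_lit 5) (nat_lit 64) (nat_lit 5) (nat_lit 505) (nat_lit 381) (nat_lit 254)))) (XT.nd (nat_lit 49686) (nat_lit 0) (nat_lit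 50692) (XT.lf (nat_lit 0) (nat_lit 7520886830) (nat_lit 228) (nat_lit 2713262328) (nat_lit 304) (nat_lit 8602894397) (nat_lit 60) (nat_lit 5) (nat_lit 63) (nat_lit 5) (nat_lit 64) (nat_lit 5) (nat_lit 506) (nat_lit 381) (nat_lit 253)) (XT.nd (nat_lit 78) (nat_lit 228) (nat_lit 0) (XT.lf (nat_lit 0) (nat_lit 2902393451) (nat_lit 228) (nat_lit 161316026) (nat_lit 228) (nat_lit 161316026) (nat_lit 730) (nat_lit 3) (nat_lit 733) (nat_lit 3) (nat_lit 733) (nat_lit 5) (nat_lit 382) (nat_lit 382) (nat_lit 376)) (XT.lf (nat_lit 0) (nat_lit 2310735564) (nat_lit 228) (nat_lit 3597695965) (nat_lit 304) (nat_lit 545940872) (nat_lit 727) (nat_lit 5) (nat_lit 730) (nat_lit 3) (nat_lit 731) (nat_lit 5) (nat_lit 383) (nat_lit 382) (nat_lit 375))))))) (XT.nd (nat_lit 858) (nat_lit 5092) (nat_lit 0) (XT.nd (nat_lit 390) (nat_lit 1520) (nat_lit 0) (XT.nd (nat_lit 156) (nat_lit 380) (nat_lit 0) (XT.nd (nat_lit 78) (nat_lit 304) (nat_lit 0) (XT.lf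 (nat_lit 0) (nat_lit 5242154664) (nat_lit 228) (nat_lit 399662510) (nat_lit 304) (nat_lit 818410055) (nat_lit 727) (nat_lit 5) (nat_lit 730) (nat_lit 3) (nat_lit 731) (nat_lit 5) (nat_lit 384) (nat_lit 382) (nat_lit 374)) (XT.lf (nat_lit 0) (nat_lit 1685269003) (nat_lit 304) (nat_lit 3618405167) (nat_lit 380) (nat_lit 1163477004) (nat_lit 723) (nat_lit 5) (nat_lit 727) (nat_lit 5) (nat_lit 728) (nat_lit 5) (nat_lit 385) (nat_lit 382) (nat_lit 373))) (XT.nd (nat_lit 78) (nat_lit 380) (nat_lit 0) (XT.lf (nat_lit 0) (nat_lit 4558054540) (nat_lit 304) (nat_lit 355255533) (nat_lit 380) (nat_lit 1562218058) (nat_lit 723) (nat_lit 5) (nat_lit 727) (nat_lit 5) (nat_lit 728) (nat_lit 5) (nat_lit 386) (nat_lit 382) (nat_lit 372)) (XT.nd (nat_lit 78) (nat_lit 0) (nat_lit 0) (XT.lf (nat_lit 0) (nat_lit 936406910) (nat_lit 380) (nat_lit 3518962857) (nat_lit 456) (nat_lit 2029693542) (nat_lit 718) (nat_lit 5) (nat_lit 723) (nat_lit 5) (nat_lit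 724) (nat_lit 5) (nat_lit 387) (nat_lit 382) (nat_lit 371)) (XT.lf (nat_lit 0) (nat_lit 3751235888) (nat_lit 380) (nat_lit 189247438) (nat_lit 456) (nat_lit 2555489074) (nat_lit 718) (nat_lit 5) (nat_lit 723) (nat_lit 5) (nat_lit 724) (nat_lit 5) (nat_lit 388) (nat_lit 382) (nat_lit 370))))) (XT.nd (nat_lit 234) (nat_lit 1064) (nat_lit 0) (XT.nd (nat_lit 78) (nat_lit 0) (nat_lit 0) (XT.lf (nat_lit 0) (nat_lit 62777206) (nat_lit 456) (nat_lit 3299093909) (nat_lit 532) (nat_lit 3146259591) (nat_lit 712) (nat_lit 5) (nat_lit 718) (nat_lit 5) (nat_lit 719) (nat_lit 5) (nat_lit 389) (nat_lit 382) (nat_lit 369)) (XT.nd (nat_lit 78) (nat_lit 0) (nat_lit 0) (XT.lf (nat_lit 76) (nat_lit 100069653) (nat_lit 0) (nat_lit 2720786165) (nat_lit 532) (nat_lit 3700716196) (nat_lit 713) (nat_lit 5) (nat_lit 712) (nat_lit 5) (nat_lit 719) (nat_lit 5) (nat_lit 390) (nat_lit 382) (nat_lit 368)) (XT.lf (nat_lit 76) (nat_lit 3571799839) (nat_lit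 0) (nat_lit 2014766586) (nat_lit 532) (nat_lit 949691829) (nat_lit 713) (nat_lit 5) (nat_lit 712) (nat_lit 5) (nat_lit 719) (nat_lit 5) (nat_lit 391) (nat_lit 382) (nat_lit 367)))) (XT.nd (nat_lit 78) (nat_lit 532) (nat_lit 0) (XT.lf (nat_lit 76) (nat_lit 516154896) (nat_lit 0) (nat_lit 1250423736) (nat_lit 608) (nat_lit 4785751614) (nat_lit 706) (nat_lit 5) (nat_lit 705) (nat_lit 5) (nat_lit 713) (nat_lit 5) (nat_lit 392) (nat_lit 382) (nat_lit 366)) (XT.nd (nat_lit 78) (nat_lit 532) (nat_lit 0) (XT.lf (nat_lit 76) (nat_lit 4060168310) (nat_lit 0) (nat_lit 416462953) (nat_lit 608) (nat_lit 2092947444) (nat_lit 706) (nat_lit 5) (nat_lit 705) (nat_lit 5) (nat_lit 713) (nat_lit 5) (nat_lit 393) (nat_lit 382) (nat_lit 365)) (XT.lf (nat_lit 0) (nat_lit 588244147) (nat_lit 608) (nat_lit 5534011955) (nat_lit 76) (nat_lit 465992159) (nat_lit 698) (nat_lit 5) (nat_lit 706) (nat_lit 5) (nat_lit 699) (nat_lit 5) (nat_lit 394) (nat_lit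 382) (nat_lit 364)))))) (XT.nd (nat_lit 468) (nat_lit 2888) (nat_lit 0) (XT.nd (nat_lit 234) (nat_lit 1520) (nat_lit 0) (XT.nd (nat_lit 78) (nat_lit 684) (nat_lit 0) (XT.lf (nat_lit 0) (nat_lit 3249163715) (nat_lit 608) (nat_lit 1941904644) (nat_lit 76) (nat_lit 1416886239) (nat_lit 698) (nat_lit 5) (nat_lit 706) (nat_lit 5) (nat_lit 699) (nat_lit 5) (nat_lit 395) (nat_lit 382) (nat_lit 363)) (XT.nd (nat_lit 78) (nat_lit 76) (nat_lit 0) (XT.lf (nat_lit 0) (nat_lit 1703810436) (nat_lit 608) (nat_lit 4206233404) (nat_lit 684) (nat_lit 719098589) (nat_lit 690) (nat_lit 5) (nat_lit 698) (nat_lit 5) (nat_lit 699) (nat_lit 5) (nat_lit 396) (nat_lit 382) (nat_lit 362)) (XT.lf (nat_lit 0) (nat_lit 1896862225) (nat_lit 684) (nat_lit 1255811273) (nat_lit 76) (nat_lit 3498858496) (nat_lit 689) (nat_lit 5) (nat_lit 698) (nat_lit 5) (nat_lit 690) (nat_lit 5) (nat_lit 397) (nat_lit 382) (nat_lit 361)))) (XT.nd (nat_lit 78) (nat_lit 836)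 (nat_lit 0) (XT.lf (nat_lit 0) (nat_lit 2474415626) (nat_lit 684) (nat_lit 2034661179) (nat_lit 760) (nat_lit 2166147144) (nat_lit 680) (nat_lit 5) (nat_lit 689) (nat_lit 5) (nat_lit 690) (nat_lit 5) (nat_lit 398) (nat_lit 382) (nat_lit 360)) (XT.nd (nat_lit 78) (nat_lit 760) (nat_lit 0) (XT.lf (nat_lit 0) (nat_lit 414436578) (nat_lit 760) (nat_lit 447038057) (nat_lit 76) (nat_lit 5838943472) (nat_lit 679) (nat_lit 5) (nat_lit 689) (nat_lit 5) (nat_lit 680) (nat_lit 5) (nat_lit 399) (nat_lit 382) (nat_lit 359)) (XT.lf (nat_lit 0) (nat_lit 2981335918) (nat_lit 836) (nat_lit 3357645293) (nat_lit 76) (nat_lit 387594122) (nat_lit 669) (nat_lit 5) (nat_lit 680) (nat_lit 5) (nat_lit 670) (nat_lit 5) (nat_lit 400) (nat_lit 382) (nat_lit 358))))) (XT.nd (nat_lit 234) (nat_lit 1064) (nat_lit 0) (XT.nd (nat_lit 78) (nat_lit 988) (nat_lit 0) (XT.lf (nat_lit 0) (nat_lit 473333679) (nat_lit 836) (nat_lit 5078340834) (nat_lit 912) (nat_lit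 1202558500) (nat_lit 658) (nat_lit 5) (nat_lit 669) (nat_lit 5) (nat_lit 670) (nat_lit 5) (nat_lit 401) (nat_lit 382) (nat_lit 357)) (XT.nd (nat_lit 78) (nat_lit 912) (nat_lit 0) (XT.lf (nat_lit 0) (nat_lit 1336213661) (nat_lit 912) (nat_lit 2406492336) (nat_lit 76) (nat_lit 3040306201) (nat_lit 657) (nat_lit 5) (nat_lit 669) (nat_lit 5) (nat_lit 658) (nat_lit 5) (nat_lit 402) (nat_lit 382) (nat_lit 356)) (XT.lf (nat_lit 0) (nat_lit 1516380596) (nat_lit 912) (nat_lit 2345099346) (nat_lit 988) (nat_lit 2951709849) (nat_lit 645) (nat_lit 5) (nat_lit 657) (nat_lit 5) (nat_lit 658) (nat_lit 5) (nat_lit 403) (nat_lit 382) (nat_lit 355)))) (XT.nd (nat_lit 78) (nat_lit 1064) (nat_lit 0) (XT.lf (nat_lit 0) (nat_lit 5509655160) (nat_lit 912) (nat_lit 886579685) (nat_lit 988) (nat_lit 448574287) (nat_lit 645) (nat_lit 5) (nat_lit 657) (nat_lit 5) (nat_lit 658) (nat_lit 5) (nat_lit 404) (nat_lit 382) (nat_lit 354)) (XT.nd (nat_lit 78)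 (nat_lit 0) (nat_lit 0) (XT.lf (nat_lit 0) (nat_lit 2042243279) (nat_lit 1064) (nat_lit 4195136108) (nat_lit 76) (nat_lit 640120913) (nat_lit 631) (nat_lit 5) (nat_lit 645) (nat_lit 5) (nat_lit 632) (nat_lit 5) (nat_lit 405) (nat_lit 382) (nat_lit 353)) (XT.lf (nat_lit 0) (nat_lit 4536276751) (nat_lit 1064) (nat_lit 162842405) (nat_lit 76) (nat_lit 2212495549) (nat_lit 631) (nat_lit 5) (nat_lit 645) (nat_lit 5) (nat_lit 632) (nat_lit 5) (nat_lit 406) (nat_lit 382) (nat_lit 352))))))))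
noncomputable def xc93 : XT := (XT.nd (nat_lit 1794) (nat_lit 10716) (nat_lit 0) (XT.nd (nat_lit 858) (nat_lit 10336) (nat_lit 0) (XT.nd (nat_lit 390) (nat_lit 5776) (nat_lit 0) (XT.nd (nat_lit 156) (nat_lit 1292) (nat_lit 0) (XT.nd (nat_lit 78) (nat_lit 1140) (nat_lit 0) (XT.lf (nat_lit 0) (nat_lit 103135915) (nat_lit 1140) (nat_lit 2986420450) (nat_lit 76) (nat_lit 3857431621) (nat_lit 616) (nat_lit 5) (nat_lit 631) (nat_lit 5) (nat_lit 617) (nat_lit 5) (nat_lit 407) (nat_lit 382) (nat_lit 351)) (XT.lf (nat_lit 0) (nat_lit 1143611995) (nat_lit 1140) (nat_lit 1410347069) (nat_lit 1216) (nat_lit 4429719797) (nat_lit 601) (nat_lit 5) (nat_lit 616) (nat_lit 5) (nat_lit 617) (nat_lit 5) (nat_lit 408) (nat_lit 382) (nat_lit 350))) (XT.nd (nat_lit 78) (nat_lit 1292) (nat_lit 0) (XT.lf (nat_lit 0) (nat_lit 5022837594) (nat_lit 1216) (nat_lit 1668214091) (nat_lit 76) (nat_lit 330686643) (nat_lit 601) (nat_lit 5) (nat_lit 617) (nat_lit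 5) (nat_lit 602) (nat_lit 5) (nat_lit 409) (nat_lit 382) (nat_lit 349)) (XT.nd (nat_lit 78) (nat_lit 0) (nat_lit 0) (XT.lf (nat_lit 0) (nat_lit 448015200) (nat_lit 1292) (nat_lit 4493914352) (nat_lit 76) (nat_lit 2119106324) (nat_lit 584) (nat_lit 5) (nat_lit 601) (nat_lit 5) (nat_lit 585) (nat_lit 5) (nat_lit 410) (nat_lit 382) (nat_lit 348)) (XT.lf (nat_lit 0) (nat_lit 2876740858) (nat_lit 1292) (nat_lit 246175215) (nat_lit 76) (nat_lit 3978760968) (nat_lit 584) (nat_lit 5) (nat_lit 601) (nat_lit 5) (nat_lit 585) (nat_lit 5) (nat_lit 411) (nat_lit 382) (nat_lit 347))))) (XT.nd (nat_lit 234) (nat_lit 3040) (nat_lit 0) (XT.nd (nat_lit 78) (nat_lit 1444) (nat_lit 0) (XT.lf (nat_lit 0) (nat_lit 4099356247) (nat_lit 1292) (nat_lit 1230656339) (nat_lit 1368) (nat_lit 1813613378) (nat_lit 567) (nat_lit 5) (nat_lit 584) (nat_lit 5) (nat_lit 585) (nat_lit 5) (nat_lit 412) (nat_lit 382) (nat_lit 346)) (XT.nd (nat_lit 78) (nat_lit 0)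 (nat_lit 0) (XT.lf (nat_lit 0) (nat_lit 602136154) (nat_lit 1444) (nat_lit 5871309076) (nat_lit 76) (nat_lit 713605131) (nat_lit 548) (nat_lit 5) (nat_lit 567) (nat_lit 5) (nat_lit 549) (nat_lit 5) (nat_lit 413) (nat_lit 382) (nat_lit 345)) (XT.lf (nat_lit 0) (nat_lit 3021167351) (nat_lit 1444) (nat_lit 1489138439) (nat_lit 76) (nat_lit 2721226214) (nat_lit 548) (nat_lit 5) (nat_lit 567) (nat_lit 5) (nat_lit 549) (nat_lit 5) (nat_lit 414) (nat_lit 382) (nat_lit 344)))) (XT.nd (nat_lit 78) (nat_lit 1596) (nat_lit 0) (XT.lf (nat_lit 0) (nat_lit 2978438226) (nat_lit 1444) (nat_lit 2480963523) (nat_lit 1520) (nat_lit 1818098353) (nat_lit 529) (nat_lit 5) (nat_lit 548) (nat_lit 5) (nat_lit 549) (nat_lit 5) (nat_lit 415) (nat_lit 382) (nat_lit 343)) (XT.nd (nat_lit 78) (nat_lit 0) (nat_lit 0) (XT.lf (nat_lit 0) (nat_lit 188044719) (nat_lit 1520) (nat_lit 388930610) (nat_lit 1596) (nat_lit 6748081823) (nat_lit 508) (nat_lit 5) (nat_lit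 528) (nat_lit 5) (nat_lit 529) (nat_lit 5) (nat_lit 416) (nat_lit 382) (nat_lit 342)) (XT.lf (nat_lit 0) (nat_lit 2988553068) (nat_lit 1596) (nat_lit 2615789411) (nat_lit 76) (nat_lit 1769136078) (nat_lit 508) (nat_lit 5) (nat_lit 529) (nat_lit 5) (nat_lit 509) (nat_lit 5) (nat_lit 417) (nat_lit 382) (nat_lit 341)))))) (XT.nd (nat_lit 468) (nat_lit 3724) (nat_lit 0) (XT.nd (nat_lit 234) (nat_lit 3268) (nat_lit 0) (XT.nd (nat_lit 78) (nat_lit 1748) (nat_lit 0) (XT.lf (nat_lit 0) (nat_lit 1977642403) (nat_lit 1596) (nat_lit 3439620937) (nat_lit 1672) (nat_lit 2006239293) (nat_lit 487) (nat_lit 5) (nat_lit 508) (nat_lit 5) (nat_lit 509) (nat_lit 5) (nat_lit 418) (nat_lit 382) (nat_lit 340)) (XT.nd (nat_lit 78) (nat_lit 1672) (nat_lit 0) (XT.lf (nat_lit 0) (nat_lit 385994904) (nat_lit 1672) (nat_lit 820548008) (nat_lit 76) (nat_lit 6268511864) (nat_lit 486) (nat_lit 5) (nat_lit 508) (nat_lit 5) (nat_lit 487) (nat_lit 5) (nat_lit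 419) (nat_lit 382) (nat_lit 339)) (XT.lf (nat_lit 0) (nat_lit 2786473855) (nat_lit 1748) (nat_lit 3641074301) (nat_lit 76) (nat_lit 1100090864) (nat_lit 464) (nat_lit 5) (nat_lit 487) (nat_lit 5) (nat_lit 465) (nat_lit 5) (nat_lit 420) (nat_lit 382) (nat_lit 338)))) (XT.nd (nat_lit 78) (nat_lit 1520) (nat_lit 0) (XT.lf (nat_lit 0) (nat_lit 1082177886) (nat_lit 1748) (nat_lit 4128710352) (nat_lit 1824) (nat_lit 2370879521) (nat_lit 441) (nat_lit 5) (nat_lit 464) (nat_lit 5) (nat_lit 465) (nat_lit 5) (nat_lit 421) (nat_lit 382) (nat_lit 337)) (XT.nd (nat_lit 78) (nat_lit 1444) (nat_lit 0) (XT.lf (nat_lit 0) (nat_lit 26462983) (nat_lit 1824) (nat_lit 1729796427) (nat_lit 76) (nat_lit 5881119171) (nat_lit 440) (nat_lit 5) (nat_lit 464) (nat_lit 5) (nat_lit 441) (nat_lit 5) (nat_lit 422) (nat_lit 382) (nat_lit 336)) (XT.lf (nat_lit 0) (nat_lit 2421388869) (nat_lit 1520) (nat_lit 4579487028) (nat_lit 76) (nat_lit 693295314) (nat_lit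 421) (nat_lit 5) (nat_lit 441) (nat_lit 5) (nat_lit 422) (nat_lit 5) (nat_lit 423) (nat_lit 382) (nat_lit 335))))) (XT.nd (nat_lit 234) (nat_lit 1824) (nat_lit 0) (XT.nd (nat_lit 78) (nat_lit 988) (nat_lit 0) (XT.lf (nat_lit 0) (nat_lit 277694507) (nat_lit 912) (nat_lit 4568774521) (nat_lit 988) (nat_lit 2905996017) (nat_lit 409) (nat_lit 5) (nat_lit 421) (nat_lit 5) (nat_lit 422) (nat_lit 5) (nat_lit 424) (nat_lit 382) (nat_lit 334)) (XT.nd (nat_lit 78) (nat_lit 988) (nat_lit 0) (XT.lf (nat_lit 0) (nat_lit 5252496824) (nat_lit 912) (nat_lit 2055992295) (nat_lit 988) (nat_lit 503677128) (nat_lit 409) (nat_lit 5) (nat_lit 421) (nat_lit 5) (nat_lit 422) (nat_lit 5) (nat_lit 425) (nat_lit 382) (nat_lit 333)) (XT.lf (nat_lit 0) (nat_lit 1898680015) (nat_lit 988) (nat_lit 5445182790) (nat_lit 76) (nat_lit 529405286) (nat_lit 396) (nat_lit 5) (nat_lit 409) (nat_lit 5) (nat_lit 397) (nat_lit 5) (nat_lit 426) (nat_lit 382) (nat_lit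 332)))) (XT.nd (nat_lit 78) (nat_lit 1824) (nat_lit 0) (XT.lf (nat_lit 0) (nat_lit 4332057671) (nat_lit 988) (nat_lit 443931866) (nat_lit 76) (nat_lit 3159751165) (nat_lit 396) (nat_lit 5) (nat_lit 409) (nat_lit 5) (nat_lit 397) (nat_lit 5) (nat_lit 427) (nat_lit 382) (nat_lit 331)) (XT.nd (nat_lit 78) (nat_lit 912) (nat_lit 0) (XT.lf (nat_lit 0) (nat_lit 4677603117) (nat_lit 912) (nat_lit 2126482585) (nat_lit 988) (nat_lit 1195586886) (nat_lit 384) (nat_lit 5) (nat_lit 396) (nat_lit 5) (nat_lit 397) (nat_lit 5) (nat_lit 428) (nat_lit 382) (nat_lit 330)) (XT.lf (nat_lit 0) (nat_lit 1222683904) (nat_lit 912) (nat_lit 6252091386) (nat_lit 76) (nat_lit 590382296) (nat_lit 372) (nat_lit 5) (nat_lit 384) (nat_lit 5) (nat_lit 373) (nat_lit 5) (nat_lit 429) (nat_lit 382) (nat_lit 329))))))) (XT.nd (nat_lit 936) (nat_lit 5244) (nat_lit 0) (XT.nd (nat_lit 468) (nat_lit 2280) (nat_lit 0) (XT.nd (nat_lit 234) (nat_lit 1520) (nat_lit 0)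 (XT.nd (nat_lit 78) (nat_lit 1672) (nat_lit 0) (XT.lf (nat_lit 0) (nat_lit 3670226345) (nat_lit 912) (nat_lit 1099598630) (nat_lit 76) (nat_lit 3362039883) (nat_lit 372) (nat_lit 5) (nat_lit 384) (nat_lit 5) (nat_lit 373) (nat_lit 5) (nat_lit 430) (nat_lit 382) (nat_lit 328)) (XT.nd (nat_lit 78) (nat_lit 836) (nat_lit 0) (XT.lf (nat_lit 0) (nat_lit 4169569595) (nat_lit 836) (nat_lit 1985375613) (nat_lit 912) (nat_lit 2045205312) (nat_lit 361) (nat_lit 5) (nat_lit 372) (nat_lit 5) (nat_lit 373) (nat_lit 5) (nat_lit 431) (nat_lit 382) (nat_lit 327)) (XT.lf (nat_lit 0) (nat_lit 396716466) (nat_lit 836) (nat_lit 7014031224) (nat_lit 76) (nat_lit 859354892) (nat_lit 350) (nat_lit 5) (nat_lit 361) (nat_lit 5) (nat_lit 351) (nat_lit 5) (nat_lit 432) (nat_lit 382) (nat_lit 326)))) (XT.nd (nat_lit 78) (nat_lit 1520) (nat_lit 0) (XT.lf (nat_lit 0) (nat_lit 2862351681) (nat_lit 836) (nat_lit 1706482583) (nat_lit 76) (nat_lit 3772312090)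 (nat_lit 350) (nat_lit 5) (nat_lit 361) (nat_lit 5) (nat_lit 351) (nat_lit 5) (nat_lit 433) (nat_lit 382) (nat_lit 325)) (XT.nd (nat_lit 78) (nat_lit 760) (nat_lit 0) (XT.lf (nat_lit 0) (nat_lit 3714968520) (nat_lit 760) (nat_lit 1649059037) (nat_lit 836) (nat_lit 3049856976) (nat_lit 340) (nat_lit 5) (nat_lit 350) (nat_lit 5) (nat_lit 351) (nat_lit 5) (nat_lit 434) (nat_lit 382) (nat_lit 324)) (XT.lf (nat_lit 0) (nat_lit 739704761) (nat_lit 760) (nat_lit 7164043857) (nat_lit 836) (nat_lit 584576555) (nat_lit 330) (nat_lit 5) (nat_lit 340) (nat_lit 5) (nat_lit 341) (nat_lit 5) (nat_lit 435) (nat_lit 382) (nat_lit 323))))) (XT.nd (nat_lit 234) (nat_lit 760) (nat_lit 0) (XT.nd (nat_lit 78) (nat_lit 1444) (nat_lit 0) (XT.lf (nat_lit 0) (nat_lit 1910619253) (nat_lit 836) (nat_lit 2278138293) (nat_lit 76) (nat_lit 4375135643) (nat_lit 329) (nat_lit 5) (nat_lit 340) (nat_lit 5) (nat_lit 330) (nat_lit 5) (nat_lit 436) (nat_lit 382)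 (nat_lit 322)) (XT.nd (nat_lit 78) (nat_lit 684) (nat_lit 0) (XT.lf (nat_lit 0) (nat_lit 3300336550) (nat_lit 760) (nat_lit 1132970885) (nat_lit 836) (nat_lit 4207887003) (nat_lit 319) (nat_lit 5) (nat_lit 329) (nat_lit 5) (nat_lit 330) (nat_lit 5) (nat_lit 437) (nat_lit 382) (nat_lit 321)) (XT.lf (nat_lit 0) (nat_lit 250581947) (nat_lit 684) (nat_lit 6750155316) (nat_lit 760) (nat_lit 1719426018) (nat_lit 310) (nat_lit 5) (nat_lit 319) (nat_lit 5) (nat_lit 320) (nat_lit 5) (nat_lit 438) (nat_lit 382) (nat_lit 320)))) (XT.nd (nat_lit 78) (nat_lit 684) (nat_lit 0) (XT.lf (nat_lit 0) (nat_lit 816229165) (nat_lit 760) (nat_lit 2828258352) (nat_lit 76) (nat_lit 5155961429) (nat_lit 309) (nat_lit 5) (nat_lit 319) (nat_lit 5) (nat_lit 310) (nat_lit 5) (nat_lit 439) (nat_lit 382) (nat_lit 319)) (XT.nd (nat_lit 78) (nat_lit 0) (nat_lit 0) (XT.lf (nat_lit 0) (nat_lit 2912054840) (nat_lit 684) (nat_lit 451725763) (nat_lit 760) (nat_lit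 5518655191) (nat_lit 300) (nat_lit 5) (nat_lit 309) (nat_lit 5) (nat_lit 310) (nat_lit 5) (nat_lit 440) (nat_lit 382) (nat_lit 318)) (XT.lf (nat_lit 0) (nat_lit 5965256110) (nat_lit 760) (nat_lit 219535112) (nat_lit 76) (nat_lit 2781218467) (nat_lit 300) (nat_lit 5) (nat_lit 310) (nat_lit 5) (nat_lit 301) (nat_lit 5) (nat_lit 441) (nat_lit 382) (nat_lit 317)))))) (XT.nd (nat_lit 468) (nat_lit 2508) (nat_lit 0) (XT.nd (nat_lit 234) (nat_lit 1292) (nat_lit 0) (XT.nd (nat_lit 78) (nat_lit 760) (nat_lit 0) (XT.lf (nat_lit 0) (nat_lit 5677575474) (nat_lit 684) (nat_lit 2947370221) (nat_lit 760) (nat_lit 426192310) (nat_lit 291) (nat_lit 5) (nat_lit 300) (nat_lit 5) (nat_lit 301) (nat_lit 5) (nat_lit 442) (nat_lit 382) (nat_lit 316)) (XT.nd (nat_lit 78) (nat_lit 0) (nat_lit 0) (XT.lf (nat_lit 0) (nat_lit 2157935021) (nat_lit 760) (nat_lit 6604247569) (nat_lit 76) (nat_lit 375768492) (nat_lit 281) (nat_lit 5) (nat_lit 291) (nat_lit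 5) (nat_lit 282) (nat_lit 5) (nat_lit 443) (nat_lit 382) (nat_lit 315)) (XT.lf (nat_lit 0) (nat_lit 4797205656) (nat_lit 760) (nat_lit 684461214) (nat_lit 76) (nat_lit 3744600110) (nat_lit 281) (nat_lit 5) (nat_lit 291) (nat_lit 5) (nat_lit 282) (nat_lit 5) (nat_lit 444) (nat_lit 382) (nat_lit 314)))) (XT.nd (nat_lit 78) (nat_lit 684) (nat_lit 0) (XT.lf (nat_lit 0) (nat_lit 5384370625) (nat_lit 608) (nat_lit 2107354715) (nat_lit 684) (nat_lit 1824580716) (nat_lit 273) (nat_lit 5) (nat_lit 281) (nat_lit 5) (nat_lit 282) (nat_lit 5) (nat_lit 445) (nat_lit 382) (nat_lit 313)) (XT.nd (nat_lit 78) (nat_lit 0) (nat_lit 0) (XT.lf (nat_lit 0) (nat_lit 816154111) (nat_lit 684) (nat_lit 7258549702) (nat_lit 76) (nat_lit 1333438431) (nat_lit 264) (nat_lit 5) (nat_lit 273) (nat_lit 5) (nat_lit 265) (nat_lit 5) (nat_lit 446) (nat_lit 382) (nat_lit 312)) (XT.lf (nat_lit 0) (nat_lit 3493800620) (nat_lit 684) (nat_lit 1161921376) (nat_lit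 76) (nat_lit 4845687164) (nat_lit 264) (nat_lit 5) (nat_lit 273) (nat_lit 5) (nat_lit 265) (nat_lit 5) (nat_lit 447) (nat_lit 382) (nat_lit 311))))) (XT.nd (nat_lit 234) (nat_lit 1216) (nat_lit 0) (XT.nd (nat_lit 78) (nat_lit 684) (nat_lit 0) (XT.lf (nat_lit 0) (nat_lit 5083636460) (nat_lit 608) (nat_lit 1142986799) (nat_lit 684) (nat_lit 3369891357) (nat_lit 256) (nat_lit 5) (nat_lit 264) (nat_lit 5) (nat_lit 265) (nat_lit 5) (nat_lit 448) (nat_lit 382) (nat_lit 310)) (XT.nd (nat_lit 78) (nat_lit 76) (nat_lit 0) (XT.lf (nat_lit 0) (nat_lit 1743475219) (nat_lit 608) (nat_lit 7274559617) (nat_lit 684) (nat_lit 675414248) (nat_lit 248) (nat_lit 5) (nat_lit 256) (nat_lit 5) (nat_lit 257) (nat_lit 5) (nat_lit 449) (nat_lit 382) (nat_lit 309)) (XT.lf (nat_lit 0) (nat_lit 2052883484) (nat_lit 684) (nat_lit 1666956407) (nat_lit 76) (nat_lit 6072076143) (nat_lit 247) (nat_lit 5) (nat_lit 256) (nat_lit 5) (nat_lit 248) (nat_lit 5) (nat_lit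 450) (nat_lit 382) (nat_lit 308)))) (XT.nd (nat_lit 78) (nat_lit 684) (nat_lit 0) (XT.lf (nat_lit 0) (nat_lit 4760328304) (nat_lit 532) (nat_lit 66961744) (nat_lit 608) (nat_lit 5064966485) (nat_lit 240) (nat_lit 5) (nat_lit 247) (nat_lit 5) (nat_lit 248) (nat_lit 5) (nat_lit 451) (nat_lit 382) (nat_lit 307)) (XT.nd (nat_lit 78) (nat_lit 76) (nat_lit 0) (XT.lf (nat_lit 0) (nat_lit 1297927015) (nat_lit 608) (nat_lit 6372654210) (nat_lit 684) (nat_lit 2323759819) (nat_lit 232) (nat_lit 5) (nat_lit 240) (nat_lit 5) (nat_lit 241) (nat_lit 5) (nat_lit 452) (nat_lit 382) (nat_lit 306)) (XT.lf (nat_lit 0) (nat_lit 471271022) (nat_lit 684) (nat_lit 2215353593) (nat_lit 76) (nat_lit 7411682354) (nat_lit 231) (nat_lit 5) (nat_lit 240) (nat_lit 5) (nat_lit 232) (nat_lit 5) (nat_lit 453) (nat_lit 382) (nat_lit 305))))))))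
noncomputable def xc94 : XT := (XT.nd (nat_lit 1794) (nat_lit 4864) (nat_lit 0) (XT.nd (nat_lit 858) (nat_lit 3420) (nat_lit 0) (XT.nd (nat_lit 390) (nat_lit 1520) (nat_lit 0) (XT.nd (nat_lit 156) (nat_lit 1064) (nat_lit 0) (XT.nd (nat_lit 78) (nat_lit 532) (nat_lit 0) (XT.lf (nat_lit 0) (nat_lit 3297541991) (nat_lit 608) (nat_lit 5812633938) (nat_lit 76) (nat_lit 1093744826) (nat_lit 224) (nat_lit 5) (nat_lit 232) (nat_lit 5) (nat_lit 225) (nat_lit 5) (nat_lit 454) (nat_lit 382) (nat_lit 304)) (XT.lf (nat_lit 0) (nat_lit 802103009) (nat_lit 532) (nat_lit 5387131376) (nat_lit 608) (nat_lit 4122239250) (nat_lit 217) (nat_lit 5) (nat_lit 224) (nat_lit 5) (nat_lit 225) (nat_lit 5) (nat_lit 455) (nat_lit 382) (nat_lit 303))) (XT.nd (nat_lit 78) (nat_lit 1064) (nat_lit 0) (XT.lf (nat_lit 0) (nat_lit 7588918515) (nat_lit 532) (nat_lit 1560096019) (nat_lit 608) (nat_lit 1271962607) (nat_lit 217) (nat_lit 5) (nat_lit 224) (nat_lit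 5) (nat_lit 225) (nat_lit 5) (nat_lit 456) (nat_lit 382) (nat_lit 302)) (XT.nd (nat_lit 78) (nat_lit 532) (nat_lit 0) (XT.lf (nat_lit 0) (nat_lit 1626735501) (nat_lit 532) (nat_lit 6566124736) (nat_lit 76) (nat_lit 2339345326) (nat_lit 210) (nat_lit 5) (nat_lit 217) (nat_lit 5) (nat_lit 211) (nat_lit 5) (nat_lit 457) (nat_lit 382) (nat_lit 301)) (XT.lf (nat_lit 0) (nat_lit 238673383) (nat_lit 532) (nat_lit 4330591510) (nat_lit 608) (nat_lit 6076172109) (nat_lit 203) (nat_lit 5) (nat_lit 210) (nat_lit 5) (nat_lit 211) (nat_lit 5) (nat_lit 458) (nat_lit 382) (nat_lit 300))))) (XT.nd (nat_lit 234) (nat_lit 988) (nat_lit 0) (XT.nd (nat_lit 78) (nat_lit 532) (nat_lit 0) (XT.lf (nat_lit 0) (nat_lit 7229959177) (nat_lit 532) (nat_lit 356910013) (nat_lit 608) (nat_lit 3173743684) (nat_lit 203) (nat_lit 5) (nat_lit 210) (nat_lit 5) (nat_lit 211) (nat_lit 5) (nat_lit 459) (nat_lit 382) (nat_lit 299)) (XT.nd (nat_lit 78) (nat_lit 76)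 (nat_lit 0) (XT.lf (nat_lit 0) (nat_lit 3466100316) (nat_lit 456) (nat_lit 7217867367) (nat_lit 532) (nat_lit 193745949) (nat_lit 197) (nat_lit 5) (nat_lit 203) (nat_lit 5) (nat_lit 204) (nat_lit 5) (nat_lit 460) (nat_lit 382) (nat_lit 298)) (XT.lf (nat_lit 0) (nat_lit 2807486236) (nat_lit 532) (nat_lit 405484085) (nat_lit 76) (nat_lit 7783841418) (nat_lit 196) (nat_lit 5) (nat_lit 203) (nat_lit 5) (nat_lit 197) (nat_lit 5) (nat_lit 461) (nat_lit 382) (nat_lit 297)))) (XT.nd (nat_lit 78) (nat_lit 532) (nat_lit 0) (XT.lf (nat_lit 0) (nat_lit 5889412577) (nat_lit 532) (nat_lit 4332964039) (nat_lit 76) (nat_lit 895428270) (nat_lit 190) (nat_lit 5) (nat_lit 197) (nat_lit 5) (nat_lit 191) (nat_lit 5) (nat_lit 462) (nat_lit 382) (nat_lit 296)) (XT.nd (nat_lit 78) (nat_lit 76) (nat_lit 0) (XT.lf (nat_lit 0) (nat_lit 2861628660) (nat_lit 456) (nat_lit 6187434313) (nat_lit 532) (nat_lit 2191837101) (nat_lit 184) (nat_lit 5) (nat_lit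 190) (nat_lit 5) (nat_lit 191) (nat_lit 5) (nat_lit 463) (nat_lit 382) (nat_lit 295)) (XT.lf (nat_lit 0) (nat_lit 896429857) (nat_lit 532) (nat_lit 1151116020) (nat_lit 76) (nat_lit 9318740334) (nat_lit 183) (nat_lit 5) (nat_lit 190) (nat_lit 5) (nat_lit 184) (nat_lit 5) (nat_lit 464) (nat_lit 382) (nat_lit 294)))))) (XT.nd (nat_lit 468) (nat_lit 1672) (nat_lit 0) (XT.nd (nat_lit 234) (nat_lit 912) (nat_lit 0) (XT.nd (nat_lit 78) (nat_lit 380) (nat_lit 0) (XT.lf (nat_lit 0) (nat_lit 4046249973) (nat_lit 532) (nat_lit 5256203747) (nat_lit 76) (nat_lit 2190857523) (nat_lit 177) (nat_lit 5) (nat_lit 184) (nat_lit 5) (nat_lit 178) (nat_lit 5) (nat_lit 465) (nat_lit 382) (nat_lit 293)) (XT.nd (nat_lit 78) (nat_lit 0) (nat_lit 0) (XT.lf (nat_lit 0) (nat_lit 2143003446) (nat_lit 380) (nat_lit 5125610504) (nat_lit 456) (nat_lit 4354075469) (nat_lit 172) (nat_lit 5) (nat_lit 177) (nat_lit 5) (nat_lit 178) (nat_lit 5) (nat_lit 466) (nat_lit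 382) (nat_lit 292)) (XT.lf (nat_lit 0) (nat_lit 9724222264) (nat_lit 380) (nat_lit 841035131) (nat_lit 456) (nat_lit 1189204641) (nat_lit 172) (nat_lit 5) (nat_lit 177) (nat_lit 5) (nat_lit 178) (nat_lit 5) (nat_lit 467) (nat_lit 382) (nat_lit 291)))) (XT.nd (nat_lit 78) (nat_lit 380) (nat_lit 0) (XT.lf (nat_lit 0) (nat_lit 2046582351) (nat_lit 532) (nat_lit 6320089876) (nat_lit 76) (nat_lit 3521249295) (nat_lit 165) (nat_lit 5) (nat_lit 172) (nat_lit 5) (nat_lit 166) (nat_lit 5) (nat_lit 468) (nat_lit 382) (nat_lit 290)) (XT.nd (nat_lit 78) (nat_lit 0) (nat_lit 0) (XT.lf (nat_lit 0) (nat_lit 1287952490) (nat_lit 380) (nat_lit 4045939401) (nat_lit 456) (nat_lit 6689949807) (nat_lit 160) (nat_lit 5) (nat_lit 165) (nat_lit 5) (nat_lit 166) (nat_lit 5) (nat_lit 469) (nat_lit 382) (nat_lit 289)) (XT.lf (nat_lit 0) (nat_lit 8707225629) (nat_lit 456) (nat_lit 3067617767) (nat_lit 76) (nat_lit 387234575) (nat_lit 160) (nat_lit 5)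 (nat_lit 166) (nat_lit 5) (nat_lit 161) (nat_lit 5) (nat_lit 470) (nat_lit 382) (nat_lit 288))))) (XT.nd (nat_lit 234) (nat_lit 836) (nat_lit 0) (XT.nd (nat_lit 78) (nat_lit 456) (nat_lit 0) (XT.lf (nat_lit 0) (nat_lit 4753105949) (nat_lit 380) (nat_lit 7428300990) (nat_lit 456) (nat_lit 121007602) (nat_lit 155) (nat_lit 5) (nat_lit 160) (nat_lit 5) (nat_lit 161) (nat_lit 5) (nat_lit 471) (nat_lit 382) (nat_lit 287)) (XT.nd (nat_lit 78) (nat_lit 0) (nat_lit 0) (XT.lf (nat_lit 0) (nat_lit 272280821) (nat_lit 380) (nat_lit 2962516126) (nat_lit 456) (nat_lit 9210372220) (nat_lit 149) (nat_lit 5) (nat_lit 154) (nat_lit 5) (nat_lit 155) (nat_lit 5) (nat_lit 472) (nat_lit 382) (nat_lit 286)) (XT.lf (nat_lit 0) (nat_lit 6693397678) (nat_lit 456) (nat_lit 4285310817) (nat_lit 76) (nat_lit 1611311390) (nat_lit 149) (nat_lit 5) (nat_lit 155) (nat_lit 5) (nat_lit 150) (nat_lit 5) (nat_lit 473) (nat_lit 382) (nat_lit 285)))) (XT.nd (nat_lit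 78) (nat_lit 456) (nat_lit 0) (XT.lf (nat_lit 0) (nat_lit 3753645317) (nat_lit 380) (nat_lit 6487950301) (nat_lit 456) (nat_lit 2495766443) (nat_lit 144) (nat_lit 5) (nat_lit 149) (nat_lit 5) (nat_lit 150) (nat_lit 5) (nat_lit 474) (nat_lit 382) (nat_lit 284)) (XT.nd (nat_lit 78) (nat_lit 380) (nat_lit 0) (XT.lf (nat_lit 0) (nat_lit 965798415) (nat_lit 456) (nat_lit 918177020) (nat_lit 76) (nat_lit 11003443027) (nat_lit 143) (nat_lit 5) (nat_lit 149) (nat_lit 5) (nat_lit 144) (nat_lit 5) (nat_lit 475) (nat_lit 382) (nat_lit 283)) (XT.lf (nat_lit 0) (nat_lit 4506521000) (nat_lit 456) (nat_lit 5705027918) (nat_lit 76) (nat_lit 2827733015) (nat_lit 138) (nat_lit 5) (nat_lit 144) (nat_lit 5) (nat_lit 139) (nat_lit 5) (nat_lit 476) (nat_lit 382) (nat_lit 282))))))) (XT.nd (nat_lit 936) (nat_lit 2052) (nat_lit 0) (XT.nd (nat_lit 468) (nat_lit 1368) (nat_lit 0) (XT.nd (nat_lit 234) (nat_lit 684) (nat_lit 0) (XT.nd (nat_lit 78) (nat_lit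 380) (nat_lit 0) (XT.lf (nat_lit 0) (nat_lit 2555619376) (nat_lit 380) (nat_lit 5574821929) (nat_lit 456) (nat_lit 5063496426) (nat_lit 133) (nat_lit 5) (nat_lit 138) (nat_lit 5) (nat_lit 139) (nat_lit 5) (nat_lit 477) (nat_lit 382) (nat_lit 281)) (XT.nd (nat_lit 78) (nat_lit 380) (nat_lit 0) (XT.lf (nat_lit 0) (nat_lit 11023545402) (nat_lit 380) (nat_lit 818909746) (nat_lit 456) (nat_lit 1508921862) (nat_lit 133) (nat_lit 5) (nat_lit 138) (nat_lit 5) (nat_lit 139) (nat_lit 5) (nat_lit 478) (nat_lit 382) (nat_lit 280)) (XT.lf (nat_lit 0) (nat_lit 2133196850) (nat_lit 380) (nat_lit 7356477552) (nat_lit 76) (nat_lit 4021134090) (nat_lit 128) (nat_lit 5) (nat_lit 133) (nat_lit 5) (nat_lit 129) (nat_lit 5) (nat_lit 479) (nat_lit 382) (nat_lit 279)))) (XT.nd (nat_lit 78) (nat_lit 304) (nat_lit 0) (XT.lf (nat_lit 0) (nat_lit 1128849480) (nat_lit 380) (nat_lit 4705358590) (nat_lit 456) (nat_lit 7838898477) (nat_lit 123) (nat_lit 5)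 (nat_lit 128) (nat_lit 5) (nat_lit 129) (nat_lit 5) (nat_lit 480) (nat_lit 382) (nat_lit 278)) (XT.nd (nat_lit 78) (nat_lit 304) (nat_lit 0) (XT.lf (nat_lit 0) (nat_lit 9637952482) (nat_lit 456) (nat_lit 3990662959) (nat_lit 76) (nat_lit 209463328) (nat_lit 123) (nat_lit 5) (nat_lit 129) (nat_lit 5) (nat_lit 124) (nat_lit 5) (nat_lit 481) (nat_lit 382) (nat_lit 277)) (XT.lf (nat_lit 0) (nat_lit 4730430271) (nat_lit 304) (nat_lit 8827535824) (nat_lit 380) (nat_lit 447582871) (nat_lit 119) (nat_lit 5) (nat_lit 123) (nat_lit 5) (nat_lit 124) (nat_lit 5) (nat_lit 482) (nat_lit 382) (nat_lit 276))))) (XT.nd (nat_lit 234) (nat_lit 684) (nat_lit 0) (XT.nd (nat_lit 78) (nat_lit 608) (nat_lit 0) (XT.lf (nat_lit 0) (nat_lit 3341016972) (nat_lit 380) (nat_lit 552430648) (nat_lit 76) (nat_lit 10282377666) (nat_lit 118) (nat_lit 5) (nat_lit 123) (nat_lit 5) (nat_lit 119) (nat_lit 5) (nat_lit 483) (nat_lit 382) (nat_lit 275)) (XT.nd (nat_lit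 78) (nat_lit 304) (nat_lit 0) (XT.lf (nat_lit 0) (nat_lit 7240557519) (nat_lit 380) (nat_lit 5938161067) (nat_lit 76) (nat_lit 1169908416) (nat_lit 114) (nat_lit 5) (nat_lit 119) (nat_lit 5) (nat_lit 115) (nat_lit 5) (nat_lit 484) (nat_lit 382) (nat_lit 274)) (XT.lf (nat_lit 0) (nat_lit 3015076632) (nat_lit 304) (nat_lit 8231021856) (nat_lit 380) (nat_lit 3278228306) (nat_lit 110) (nat_lit 5) (nat_lit 114) (nat_lit 5) (nat_lit 115) (nat_lit 5) (nat_lit 485) (nat_lit 382) (nat_lit 273)))) (XT.nd (nat_lit 78) (nat_lit 608) (nat_lit 0) (XT.lf (nat_lit 0) (nat_lit 639054229) (nat_lit 380) (nat_lit 2513227908) (nat_lit 76) (nat_lit 11550797344) (nat_lit 109) (nat_lit 5) (nat_lit 114) (nat_lit 5) (nat_lit 110) (nat_lit 5) (nat_lit 486) (nat_lit 382) (nat_lit 272)) (XT.nd (nat_lit 78) (nat_lit 304) (nat_lit 0) (XT.lf (nat_lit 0) (nat_lit 4627199599) (nat_lit 380) (nat_lit 8202564515) (nat_lit 76) (nat_lit 2054483576) (nat_lit 105)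 (nat_lit 5) (nat_lit 110) (nat_lit 5) (nat_lit 106) (nat_lit 5) (nat_lit 487) (nat_lit 382) (nat_lit 271)) (XT.lf (nat_lit 0) (nat_lit 984323968) (nat_lit 304) (nat_lit 7734518153) (nat_lit 380) (nat_lit 6349724522) (nat_lit 101) (nat_lit 5) (nat_lit 105) (nat_lit 5) (nat_lit 106) (nat_lit 5) (nat_lit 488) (nat_lit 382) (nat_lit 270)))))) (XT.nd (nat_lit 468) (nat_lit 1064) (nat_lit 0) (XT.nd (nat_lit 234) (nat_lit 608) (nat_lit 0) (XT.nd (nat_lit 78) (nat_lit 380) (nat_lit 0) (XT.lf (nat_lit 0) (nat_lit 10432902375) (nat_lit 304) (nat_lit 2494135549) (nat_lit 380) (nat_lit 2328841665) (nat_lit 101) (nat_lit 5) (nat_lit 105) (nat_lit 5) (nat_lit 106) (nat_lit 5) (nat_lit 489) (nat_lit 382) (nat_lit 269)) (XT.nd (nat_lit 78) (nat_lit 0) (nat_lit 0) (XT.lf (nat_lit 0) (nat_lit 1777983820) (nat_lit 380) (nat_lit 10825205307) (nat_lit 76) (nat_lit 2842946029) (nat_lit 96) (nat_lit 5) (nat_lit 101) (nat_lit 5) (nat_lit 97) (nat_lit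 5) (nat_lit 490) (nat_lit 382) (nat_lit 268)) (XT.lf (nat_lit 0) (nat_lit 5964928334) (nat_lit 380) (nat_lit 1385564410) (nat_lit 76) (nat_lit 8288813810) (nat_lit 96) (nat_lit 5) (nat_lit 101) (nat_lit 5) (nat_lit 97) (nat_lit 5) (nat_lit 491) (nat_lit 382) (nat_lit 267)))) (XT.nd (nat_lit 78) (nat_lit 380) (nat_lit 0) (XT.lf (nat_lit 0) (nat_lit 8319676428) (nat_lit 228) (nat_lit 1950383592) (nat_lit 304) (nat_lit 5565594262) (nat_lit 93) (nat_lit 5) (nat_lit 96) (nat_lit 5) (nat_lit 97) (nat_lit 5) (nat_lit 492) (nat_lit 382) (nat_lit 266)) (XT.nd (nat_lit 78) (nat_lit 76) (nat_lit 0) (XT.lf (nat_lit 0) (nat_lit 2175024280) (nat_lit 304) (nat_lit 12513374611) (nat_lit 380) (nat_lit 1346989814) (nat_lit 89) (nat_lit 5) (nat_lit 93) (nat_lit 5) (nat_lit 94) (nat_lit 5) (nat_lit 493) (nat_lit 382) (nat_lit 265)) (XT.lf (nat_lit 0) (nat_lit 2961472615) (nat_lit 380) (nat_lit 4141272724) (nat_lit 76) (nat_lit 9135105312) (nat_lit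 88) (nat_lit 5) (nat_lit 93) (nat_lit 5) (nat_lit 89) (nat_lit 5) (nat_lit 494) (nat_lit 382) (nat_lit 264))))) (XT.nd (nat_lit 234) (nat_lit 532) (nat_lit 0) (XT.nd (nat_lit 78) (nat_lit 304) (nat_lit 0) (XT.lf (nat_lit 0) (nat_lit 5807636334) (nat_lit 228) (nat_lit 1549104245) (nat_lit 304) (nat_lit 9087071461) (nat_lit 85) (nat_lit 5) (nat_lit 88) (nat_lit 5) (nat_lit 89) (nat_lit 5) (nat_lit 495) (nat_lit 382) (nat_lit 263)) (XT.nd (nat_lit 78) (nat_lit 304) (nat_lit 0) (XT.lf (nat_lit 0) (nat_lit 11875643705) (nat_lit 304) (nat_lit 700482236) (nat_lit 76) (nat_lit 4077053812) (nat_lit 85) (nat_lit 5) (nat_lit 89) (nat_lit 5) (nat_lit 86) (nat_lit 5) (nat_lit 496) (nat_lit 382) (nat_lit 262)) (XT.lf (nat_lit 0) (nat_lit 9517211877) (nat_lit 304) (nat_lit 7021170286) (nat_lit 380) (nat_lit 327285171) (nat_lit 81) (nat_lit 5) (nat_lit 85) (nat_lit 5) (nat_lit 86) (nat_lit 5) (nat_lit 497) (nat_lit 382) (nat_lit 261)))) (XT.nd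 (nat_lit 78) (nat_lit 228) (nat_lit 0) (XT.lf (nat_lit 0) (nat_lit 2845063289) (nat_lit 228) (nat_lit 1316315904) (nat_lit 304) (nat_lit 12920387146) (nat_lit 77) (nat_lit 5) (nat_lit 80) (nat_lit 5) (nat_lit 81) (nat_lit 5) (nat_lit 498) (nat_lit 382) (nat_lit 260)) (XT.nd (nat_lit 78) (nat_lit 228) (nat_lit 0) (XT.lf (nat_lit 0) (nat_lit 8795835969) (nat_lit 304) (nat_lit 4022263985) (nat_lit 76) (nat_lit 4482837638) (nat_lit 77) (nat_lit 5) (nat_lit 81) (nat_lit 5) (nat_lit 78) (nat_lit 5) (nat_lit 499) (nat_lit 382) (nat_lit 259)) (XT.lf (nat_lit 0) (nat_lit 6441445447) (nat_lit 228) (nat_lit 7113962855) (nat_lit 304) (nat_lit 3968436971) (nat_lit 74) (nat_lit 5) (nat_lit 77) (nat_lit 5) (nat_lit 78) (nat_lit 5) (nat_lit 500) (nat_lit 382) (nat_lit 258))))))))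
noncomputable def xc95 : XT := (XT.nd (nat_lit 51480) (nat_lit 0) (nat_lit 27208) (XT.nd (nat_lit 50544) (nat_lit 0) (nat_lit 46816) (XT.nd (nat_lit 390) (nat_lit 0) (nat_lit 0) (XT.nd (nat_lit 156) (nat_lit 532) (nat_lit 0) (XT.nd (nat_lit 78) (nat_lit 228) (nat_lit 0) (XT.lf (nat_lit 0) (nat_lit 659412022) (nat_lit 304) (nat_lit 616997527) (nat_lit 76) (nat_lit 16474535597) (nat_lit 73) (nat_lit 5) (nat_lit 77) (nat_lit 5) (nat_lit 74) (nat_lit 5) (nat_lit 501) (nat_lit 382) (nat_lit 257)) (XT.lf (nat_lit 0) (nat_lit 5405706058) (nat_lit 304) (nat_lit 7877876005) (nat_lit 76) (nat_lit 4696901260) (nat_lit 70) (nat_lit 5) (nat_lit 74) (nat_lit 5) (nat_lit 71) (nat_lit 5) (nat_lit 502) (nat_lit 382) (nat_lit 256))) (XT.nd (nat_lit 78) (nat_lit 304) (nat_lit 0) (XT.lf (nat_lit 0) (nat_lit 2828767842) (nat_lit 228) (nat_lit 7431494619) (nat_lit 304) (nat_lit 7954084490) (nat_lit 67) (nat_lit 5) (nat_lit 70) (nat_lit 5) (nat_lit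 71) (nat_lit 5) (nat_lit 503) (nat_lit 382) (nat_lit 255)) (XT.nd (nat_lit 78) (nat_lit 304) (nat_lit 0) (XT.lf (nat_lit 0) (nat_lit 13826240662) (nat_lit 228) (nat_lit 1421034155) (nat_lit 304) (nat_lit 3204907127) (nat_lit 67) (nat_lit 5) (nat_lit 70) (nat_lit 5) (nat_lit 71) (nat_lit 5) (nat_lit 504) (nat_lit 382) (nat_lit 254)) (XT.lf (nat_lit 0) (nat_lit 1672828884) (nat_lit 304) (nat_lit 12332568420) (nat_lit 76) (nat_lit 4688063321) (nat_lit 63) (nat_lit 5) (nat_lit 67) (nat_lit 5) (nat_lit 64) (nat_lit 5) (nat_lit 505) (nat_lit 382) (nat_lit 253))))) (XT.nd (nat_lit 49920) (nat_lit 0) (nat_lit 49704) (XT.nd (nat_lit 49764) (nat_lit 0) (nat_lit 50084) (XT.lf (nat_lit 0) (nat_lit 6628699540) (nat_lit 304) (nat_lit 1369415830) (nat_lit 76) (nat_lit 10940557255) (nat_lit 63) (nat_lit 5) (nat_lit 67) (nat_lit 5) (nat_lit 64) (nat_lit 5) (nat_lit 506) (nat_lit 382) (nat_lit 252)) (XT.nd (nat_lit 78) (nat_lit 380) (nat_lit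 0) (XT.lf (nat_lit 0) (nat_lit 1304235137) (nat_lit 0) (nat_lit 1304235137) (nat_lit 228) (nat_lit 621255746) (nat_lit 727) (nat_lit 5) (nat_lit 727) (nat_lit 3) (nat_lit 730) (nat_lit 3) (nat_lit 383) (nat_lit 383) (nat_lit 374)) (XT.lf (nat_lit 0) (nat_lit 1621296995) (nat_lit 380) (nat_lit 681396458) (nat_lit 380) (nat_lit 4163203307) (nat_lit 722) (nat_lit 3) (nat_lit 727) (nat_lit 3) (nat_lit 727) (nat_lit 5) (nat_lit 384) (nat_lit 383) (nat_lit 373)))) (XT.nd (nat_lit 78) (nat_lit 380) (nat_lit 0) (XT.lf (nat_lit 76) (nat_lit 2538371964) (nat_lit 0) (nat_lit 1928855883) (nat_lit 380) (nat_lit 2006277905) (nat_lit 723) (nat_lit 5) (nat_lit 722) (nat_lit 3) (nat_lit 727) (nat_lit 5) (nat_lit 385) (nat_lit 383) (nat_lit 372)) (XT.nd (nat_lit 78) (nat_lit 0) (nat_lit 0) (XT.lf (nat_lit 0) (nat_lit 807450340) (nat_lit 380) (nat_lit 694239354) (nat_lit 456) (nat_lit 4980884046) (nat_lit 717) (nat_lit 5) (nat_lit 722) (nat_lit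 3) (nat_lit 723) (nat_lit 5) (nat_lit 386) (nat_lit 383) (nat_lit 371)) (XT.lf (nat_lit 76) (nat_lit 2593936585) (nat_lit 0) (nat_lit 1000670200) (nat_lit 456) (nat_lit 2898098335) (nat_lit 718) (nat_lit 5) (nat_lit 717) (nat_lit 5) (nat_lit 723) (nat_lit 5) (nat_lit 387) (nat_lit 383) (nat_lit 370)))))) (XT.nd (nat_lit 468) (nat_lit 1368) (nat_lit 0) (XT.nd (nat_lit 234) (nat_lit 1140) (nat_lit 0) (XT.nd (nat_lit 78) (nat_lit 380) (nat_lit 0) (XT.lf (nat_lit 76) (nat_lit 5919268694) (nat_lit 0) (nat_lit 451228977) (nat_lit 456) (nat_lit 133908704) (nat_lit 718) (nat_lit 5) (nat_lit 717) (nat_lit 5) (nat_lit 723) (nat_lit 5) (nat_lit 388) (nat_lit 383) (nat_lit 369)) (XT.nd (nat_lit 78) (nat_lit 0) (nat_lit 0) (XT.lf (nat_lit 0) (nat_lit 2598764648) (nat_lit 456) (nat_lit 3742736949) (nat_lit 532) (nat_lit 175548919) (nat_lit 712) (nat_lit 5) (nat_lit 718) (nat_lit 5) (nat_lit 719) (nat_lit 5) (nat_lit 389) (nat_lit 383) (nat_lit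 368)) (XT.lf (nat_lit 0) (nat_lit 5321833324) (nat_lit 456) (nat_lit 364494894) (nat_lit 532) (nat_lit 844876436) (nat_lit 712) (nat_lit 5) (nat_lit 718) (nat_lit 5) (nat_lit 719) (nat_lit 5) (nat_lit 390) (nat_lit 383) (nat_lit 367)))) (XT.nd (nat_lit 78) (nat_lit 608) (nat_lit 0) (XT.lf (nat_lit 0) (nat_lit 1484970992) (nat_lit 532) (nat_lit 3473485766) (nat_lit 608) (nat_lit 1587975346) (nat_lit 705) (nat_lit 5) (nat_lit 712) (nat_lit 5) (nat_lit 713) (nat_lit 5) (nat_lit 391) (nat_lit 383) (nat_lit 366)) (XT.nd (nat_lit 78) (nat_lit 608) (nat_lit 0) (XT.lf (nat_lit 0) (nat_lit 4152053373) (nat_lit 532) (nat_lit 25361578) (nat_lit 608) (nat_lit 2385712380) (nat_lit 705) (nat_lit 5) (nat_lit 712) (nat_lit 5) (nat_lit 713) (nat_lit 5) (nat_lit 392) (nat_lit 383) (nat_lit 365)) (XT.lf (nat_lit 0) (nat_lit 244785161) (nat_lit 608) (nat_lit 3083768484) (nat_lit 684) (nat_lit 3252462006) (nat_lit 697) (nat_lit 5) (nat_lit 705)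 (nat_lit 5) (nat_lit 706) (nat_lit 5) (nat_lit 393) (nat_lit 383) (nat_lit 364))))) (XT.nd (nat_lit 234) (nat_lit 684) (nat_lit 0) (XT.nd (nat_lit 78) (nat_lit 684) (nat_lit 0) (XT.lf (nat_lit 76) (nat_lit 441857656) (nat_lit 0) (nat_lit 2417174226) (nat_lit 684) (nat_lit 3741182671) (nat_lit 698) (nat_lit 5) (nat_lit 697) (nat_lit 5) (nat_lit 706) (nat_lit 5) (nat_lit 394) (nat_lit 383) (nat_lit 363)) (XT.nd (nat_lit 78) (nat_lit 684) (nat_lit 0) (XT.lf (nat_lit 76) (nat_lit 4040694158) (nat_lit 0) (nat_lit 1441078195) (nat_lit 684) (nat_lit 1138923115) (nat_lit 698) (nat_lit 5) (nat_lit 697) (nat_lit 5) (nat_lit 706) (nat_lit 5) (nat_lit 395) (nat_lit 383) (nat_lit 362)) (XT.lf (nat_lit 76) (nat_lit 1034445377) (nat_lit 0) (nat_lit 404117404) (nat_lit 760) (nat_lit 5203986677) (nat_lit 689) (nat_lit 5) (nat_lit 688) (nat_lit 5) (nat_lit 698) (nat_lit 5) (nat_lit 396) (nat_lit 383) (nat_lit 361)))) (XT.nd (nat_lit 78) (nat_lit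 760) (nat_lit 0) (XT.lf (nat_lit 0) (nat_lit 4011522518) (nat_lit 684) (nat_lit 1960615754) (nat_lit 76) (nat_lit 693389134) (nat_lit 689) (nat_lit 5) (nat_lit 698) (nat_lit 5) (nat_lit 690) (nat_lit 5) (nat_lit 397) (nat_lit 383) (nat_lit 360)) (XT.nd (nat_lit 78) (nat_lit 76) (nat_lit 0) (XT.lf (nat_lit 0) (nat_lit 1740388834) (nat_lit 684) (nat_lit 4848243090) (nat_lit 760) (nat_lit 101299698) (nat_lit 680) (nat_lit 5) (nat_lit 689) (nat_lit 5) (nat_lit 690) (nat_lit 5) (nat_lit 398) (nat_lit 383) (nat_lit 359)) (XT.lf (nat_lit 0) (nat_lit 2422124645) (nat_lit 760) (nat_lit 1229054873) (nat_lit 76) (nat_lit 3064289469) (nat_lit 679) (nat_lit 5) (nat_lit 689) (nat_lit 5) (nat_lit 680) (nat_lit 5) (nat_lit 399) (nat_lit 383) (nat_lit 358))))))) (XT.nd (nat_lit 936) (nat_lit 12388) (nat_lit 0) (XT.nd (nat_lit 468) (nat_lit 3572) (nat_lit 0) (XT.nd (nat_lit 234) (nat_lit 1976) (nat_lit 0) (XT.nd (nat_lit 78) (nat_lit 912) (nat_lit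 0) (XT.lf (nat_lit 0) (nat_lit 2559376364) (nat_lit 760) (nat_lit 2392335854) (nat_lit 836) (nat_lit 1790669802) (nat_lit 669) (nat_lit 5) (nat_lit 679) (nat_lit 5) (nat_lit 680) (nat_lit 5) (nat_lit 400) (nat_lit 383) (nat_lit 357)) (XT.nd (nat_lit 78) (nat_lit 836) (nat_lit 0) (XT.lf (nat_lit 0) (nat_lit 701305594) (nat_lit 836) (nat_lit 374341142) (nat_lit 76) (nat_lit 5695121369) (nat_lit 668) (nat_lit 5) (nat_lit 679) (nat_lit 5) (nat_lit 669) (nat_lit 5) (nat_lit 401) (nat_lit 383) (nat_lit 356)) (XT.lf (nat_lit 0) (nat_lit 3186110684) (nat_lit 912) (nat_lit 3296804209) (nat_lit 76) (nat_lit 317249168) (nat_lit 657) (nat_lit 5) (nat_lit 669) (nat_lit 5) (nat_lit 658) (nat_lit 5) (nat_lit 402) (nat_lit 383) (nat_lit 355)))) (XT.nd (nat_lit 78) (nat_lit 1064) (nat_lit 0) (XT.lf (nat_lit 0) (nat_lit 594100084) (nat_lit 912) (nat_lit 5083119797) (nat_lit 988) (nat_lit 1153813757) (nat_lit 645) (nat_lit 5) (nat_lit 657) (nat_lit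 5) (nat_lit 658) (nat_lit 5) (nat_lit 403) (nat_lit 383) (nat_lit 354)) (XT.nd (nat_lit 78) (nat_lit 988) (nat_lit 0) (XT.lf (nat_lit 0) (nat_lit 1303688036) (nat_lit 988) (nat_lit 2304160817) (nat_lit 76) (nat_lit 3255196155) (nat_lit 644) (nat_lit 5) (nat_lit 657) (nat_lit 5) (nat_lit 645) (nat_lit 5) (nat_lit 404) (nat_lit 383) (nat_lit 353)) (XT.lf (nat_lit 0) (nat_lit 1681834746) (nat_lit 988) (nat_lit 2068663030) (nat_lit 1064) (nat_lit 3145950978) (nat_lit 631) (nat_lit 5) (nat_lit 644) (nat_lit 5) (nat_lit 645) (nat_lit 5) (nat_lit 405) (nat_lit 383) (nat_lit 352))))) (XT.nd (nat_lit 234) (nat_lit 1292) (nat_lit 0) (XT.nd (nat_lit 78) (nat_lit 2280) (nat_lit 0) (XT.lf (nat_lit 0) (nat_lit 5739196852) (nat_lit 988) (nat_lit 468010252) (nat_lit 1064) (nat_lit 724110707) (nat_lit 631) (nat_lit 5) (nat_lit 644) (nat_lit 5) (nat_lit 645) (nat_lit 5) (nat_lit 406) (nat_lit 383) (nat_lit 351)) (XT.nd (nat_lit 78) (nat_lit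 1140) (nat_lit 0) (XT.lf (nat_lit 0) (nat_lit 1696134529) (nat_lit 1140) (nat_lit 4077276716) (nat_lit 76) (nat_lit 1193804732) (nat_lit 616) (nat_lit 5) (nat_lit 631) (nat_lit 5) (nat_lit 617) (nat_lit 5) (nat_lit 407) (nat_lit 383) (nat_lit 350)) (XT.lf (nat_lit 0) (nat_lit 17969969) (nat_lit 1140) (nat_lit 4095485723) (nat_lit 1216) (nat_lit 2891128899) (nat_lit 601) (nat_lit 5) (nat_lit 616) (nat_lit 5) (nat_lit 617) (nat_lit 5) (nat_lit 408) (nat_lit 383) (nat_lit 349)))) (XT.nd (nat_lit 78) (nat_lit 1292) (nat_lit 0) (XT.lf (nat_lit 0) (nat_lit 4210210259) (nat_lit 1140) (nat_lit 2344139274) (nat_lit 1216) (nat_lit 488861766) (nat_lit 601) (nat_lit 5) (nat_lit 616) (nat_lit 5) (nat_lit 617) (nat_lit 5) (nat_lit 409) (nat_lit 383) (nat_lit 348)) (XT.nd (nat_lit 78) (nat_lit 0) (nat_lit 0) (XT.lf (nat_lit 0) (nat_lit 1368811330) (nat_lit 1216) (nat_lit 524336413) (nat_lit 1292) (nat_lit 5190074315) (nat_lit 584) (nat_lit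 5) (nat_lit 600) (nat_lit 5) (nat_lit 601) (nat_lit 5) (nat_lit 410) (nat_lit 383) (nat_lit 347)) (XT.lf (nat_lit 0) (nat_lit 4293397684) (nat_lit 1292) (nat_lit 1483527772) (nat_lit 76) (nat_lit 1347514393) (nat_lit 584) (nat_lit 5) (nat_lit 601) (nat_lit 5) (nat_lit 585) (nat_lit 5) (nat_lit 411) (nat_lit 383) (nat_lit 346)))))) (XT.nd (nat_lit 468) (nat_lit 6612) (nat_lit 0) (XT.nd (nat_lit 234) (nat_lit 3040) (nat_lit 0) (XT.nd (nat_lit 78) (nat_lit 1444) (nat_lit 0) (XT.lf (nat_lit 0) (nat_lit 2825432698) (nat_lit 1292) (nat_lit 3888385776) (nat_lit 1368) (nat_lit 453234290) (nat_lit 567) (nat_lit 5) (nat_lit 584) (nat_lit 5) (nat_lit 585) (nat_lit 5) (nat_lit 412) (nat_lit 383) (nat_lit 345)) (XT.nd (nat_lit 78) (nat_lit 1368) (nat_lit 0) (XT.lf (nat_lit 0) (nat_lit 1907011974) (nat_lit 1368) (nat_lit 23035317) (nat_lit 76) (nat_lit 5281013155) (nat_lit 566) (nat_lit 5) (nat_lit 584) (nat_lit 5) (nat_lit 567) (nat_lit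 5) (nat_lit 413) (nat_lit 383) (nat_lit 344)) (XT.lf (nat_lit 0) (nat_lit 4289341937) (nat_lit 1444) (nat_lit 2860147747) (nat_lit 76) (nat_lit 106793000) (nat_lit 548) (nat_lit 5) (nat_lit 567) (nat_lit 5) (nat_lit 549) (nat_lit 5) (nat_lit 414) (nat_lit 383) (nat_lit 343)))) (XT.nd (nat_lit 78) (nat_lit 1596) (nat_lit 0) (XT.lf (nat_lit 0) (nat_lit 1568897825) (nat_lit 1444) (nat_lit 5125980237) (nat_lit 1520) (nat_lit 608033127) (nat_lit 529) (nat_lit 5) (nat_lit 548) (nat_lit 5) (nat_lit 549) (nat_lit 5) (nat_lit 415) (nat_lit 383) (nat_lit 342)) (XT.nd (nat_lit 78) (nat_lit 1520) (nat_lit 0) (XT.lf (nat_lit 0) (nat_lit 1746575261) (nat_lit 1520) (nat_lit 1277459220) (nat_lit 76) (nat_lit 4326774719) (nat_lit 528) (nat_lit 5) (nat_lit 548) (nat_lit 5) (nat_lit 529) (nat_lit 5) (nat_lit 416) (nat_lit 383) (nat_lit 341)) (XT.lf (nat_lit 0) (nat_lit 3266983703) (nat_lit 1520) (nat_lit 848079582) (nat_lit 1596) (nat_lit 3285035185)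 (nat_lit 508) (nat_lit 5) (nat_lit 528) (nat_lit 5) (nat_lit 529) (nat_lit 5) (nat_lit 417) (nat_lit 383) (nat_lit 340))))) (XT.nd (nat_lit 234) (nat_lit 3268) (nat_lit 0) (XT.nd (nat_lit 78) (nat_lit 1748) (nat_lit 0) (XT.lf (nat_lit 0) (nat_lit 425284750) (nat_lit 1596) (nat_lit 6080327918) (nat_lit 1672) (nat_lit 945279047) (nat_lit 487) (nat_lit 5) (nat_lit 508) (nat_lit 5) (nat_lit 509) (nat_lit 5) (nat_lit 418) (nat_lit 383) (nat_lit 339)) (XT.nd (nat_lit 78) (nat_lit 1672) (nat_lit 0) (XT.lf (nat_lit 0) (nat_lit 1410624117) (nat_lit 1672) (nat_lit 2427533206) (nat_lit 76) (nat_lit 3664602813) (nat_lit 486) (nat_lit 5) (nat_lit 508) (nat_lit 5) (nat_lit 487) (nat_lit 5) (nat_lit 419) (nat_lit 383) (nat_lit 338)) (XT.lf (nat_lit 0) (nat_lit 2245389598) (nat_lit 1672) (nat_lit 1525795688) (nat_lit 1748) (nat_lit 3784963057) (nat_lit 464) (nat_lit 5) (nat_lit 486) (nat_lit 5) (nat_lit 487) (nat_lit 5) (nat_lit 420) (nat_lit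 383) (nat_lit 337)))) (XT.nd (nat_lit 78) (nat_lit 3268) (nat_lit 0) (XT.lf (nat_lit 0) (nat_lit 6157004441) (nat_lit 1748) (nat_lit 612063800) (nat_lit 76) (nat_lit 841986244) (nat_lit 464) (nat_lit 5) (nat_lit 487) (nat_lit 5) (nat_lit 465) (nat_lit 5) (nat_lit 421) (nat_lit 383) (nat_lit 336)) (XT.nd (nat_lit 78) (nat_lit 1444) (nat_lit 0) (XT.lf (nat_lit 0) (nat_lit 905699315) (nat_lit 1824) (nat_lit 3487893992) (nat_lit 76) (nat_lit 3273469606) (nat_lit 440) (nat_lit 5) (nat_lit 464) (nat_lit 5) (nat_lit 441) (nat_lit 5) (nat_lit 422) (nat_lit 383) (nat_lit 335)) (XT.lf (nat_lit 0) (nat_lit 1317580588) (nat_lit 1444) (nat_lit 1945691777) (nat_lit 1520) (nat_lit 4461335416) (nat_lit 421) (nat_lit 5) (nat_lit 440) (nat_lit 5) (nat_lit 441) (nat_lit 5) (nat_lit 423) (nat_lit 383) (nat_lit 334))))))))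
noncomputable def xc96 : XT := (XT.nd (nat_lit 1794) (nat_lit 8132) (nat_lit 0) (XT.nd (nat_lit 858) (nat_lit 5168) (nat_lit 0) (XT.nd (nat_lit 390) (nat_lit 3344) (nat_lit 0) (XT.nd (nat_lit 156) (nat_lit 1824) (nat_lit 0) (XT.nd (nat_lit 78) (nat_lit 988) (nat_lit 0) (XT.lf (nat_lit 0) (nat_lit 5653113682) (nat_lit 1520) (nat_lit 1561178426) (nat_lit 76) (nat_lit 569319362) (nat_lit 421) (nat_lit 5) (nat_lit 441) (nat_lit 5) (nat_lit 422) (nat_lit 5) (nat_lit 424) (nat_lit 383) (nat_lit 333)) (XT.lf (nat_lit 0) (nat_lit 237250012) (nat_lit 988) (nat_lit 4472807572) (nat_lit 76) (nat_lit 3133844797) (nat_lit 408) (nat_lit 5) (nat_lit 421) (nat_lit 5) (nat_lit 409) (nat_lit 5) (nat_lit 425) (nat_lit 383) (nat_lit 332))) (XT.nd (nat_lit 78) (nat_lit 912) (nat_lit 0) (XT.lf (nat_lit 0) (nat_lit 469426836) (nat_lit 912) (nat_lit 2127089663) (nat_lit 988) (nat_lit 5309156805) (nat_lit 396) (nat_lit 5) (nat_lit 408) (nat_lit 5)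 (nat_lit 409) (nat_lit 5) (nat_lit 426) (nat_lit 383) (nat_lit 331)) (XT.nd (nat_lit 78) (nat_lit 912) (nat_lit 0) (XT.lf (nat_lit 0) (nat_lit 4996089975) (nat_lit 988) (nat_lit 2441525941) (nat_lit 76) (nat_lit 531210775) (nat_lit 396) (nat_lit 5) (nat_lit 409) (nat_lit 5) (nat_lit 397) (nat_lit 5) (nat_lit 427) (nat_lit 383) (nat_lit 330)) (XT.lf (nat_lit 0) (nat_lit 2633255016) (nat_lit 912) (nat_lit 4801988058) (nat_lit 988) (nat_lit 598177602) (nat_lit 384) (nat_lit 5) (nat_lit 396) (nat_lit 5) (nat_lit 397) (nat_lit 5) (nat_lit 428) (nat_lit 383) (nat_lit 329))))) (XT.nd (nat_lit 234) (nat_lit 1596) (nat_lit 0) (XT.nd (nat_lit 78) (nat_lit 1672) (nat_lit 0) (XT.lf (nat_lit 0) (nat_lit 1777098096) (nat_lit 988) (nat_lit 308851753) (nat_lit 76) (nat_lit 6013585872) (nat_lit 383) (nat_lit 5) (nat_lit 396) (nat_lit 5) (nat_lit 384) (nat_lit 5) (nat_lit 429) (nat_lit 383) (nat_lit 328)) (XT.nd (nat_lit 78) (nat_lit 836) (nat_lit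 0) (XT.lf (nat_lit 0) (nat_lit 4189821079) (nat_lit 912) (nat_lit 3266809265) (nat_lit 76) (nat_lit 710313372) (nat_lit 372) (nat_lit 5) (nat_lit 384) (nat_lit 5) (nat_lit 373) (nat_lit 5) (nat_lit 430) (nat_lit 383) (nat_lit 327)) (XT.lf (nat_lit 0) (nat_lit 1953365339) (nat_lit 836) (nat_lit 4687931896) (nat_lit 912) (nat_lit 1594601246) (nat_lit 361) (nat_lit 5) (nat_lit 372) (nat_lit 5) (nat_lit 373) (nat_lit 5) (nat_lit 431) (nat_lit 383) (nat_lit 326)))) (XT.nd (nat_lit 78) (nat_lit 1520) (nat_lit 0) (XT.lf (nat_lit 0) (nat_lit 808824572) (nat_lit 912) (nat_lit 1029638716) (nat_lit 76) (nat_lit 6467984552) (nat_lit 360) (nat_lit 5) (nat_lit 372) (nat_lit 5) (nat_lit 361) (nat_lit 5) (nat_lit 432) (nat_lit 383) (nat_lit 325)) (XT.nd (nat_lit 78) (nat_lit 760) (nat_lit 0) (XT.lf (nat_lit 0) (nat_lit 3237193532) (nat_lit 836) (nat_lit 4050658037) (nat_lit 76) (nat_lit 1090389374) (nat_lit 350) (nat_lit 5) (nat_lit 361) (nat_lit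 5) (nat_lit 351) (nat_lit 5) (nat_lit 433) (nat_lit 383) (nat_lit 324)) (XT.lf (nat_lit 0) (nat_lit 1319490980) (nat_lit 760) (nat_lit 4385677428) (nat_lit 836) (nat_lit 2746488660) (nat_lit 340) (nat_lit 5) (nat_lit 350) (nat_lit 5) (nat_lit 351) (nat_lit 5) (nat_lit 434) (nat_lit 383) (nat_lit 323)))))) (XT.nd (nat_lit 468) (nat_lit 2128) (nat_lit 0) (XT.nd (nat_lit 234) (nat_lit 1444) (nat_lit 0) (XT.nd (nat_lit 78) (nat_lit 1596) (nat_lit 0) (XT.lf (nat_lit 0) (nat_lit 6812047338) (nat_lit 760) (nat_lit 1401438309) (nat_lit 836) (nat_lit 313243987) (nat_lit 340) (nat_lit 5) (nat_lit 350) (nat_lit 5) (nat_lit 351) (nat_lit 5) (nat_lit 435) (nat_lit 383) (nat_lit 322)) (XT.nd (nat_lit 78) (nat_lit 760) (nat_lit 0) (XT.lf (nat_lit 0) (nat_lit 2140107304) (nat_lit 836) (nat_lit 4806743451) (nat_lit 76) (nat_lit 1656181080) (nat_lit 329) (nat_lit 5) (nat_lit 340) (nat_lit 5) (nat_lit 330) (nat_lit 5) (nat_lit 436) (nat_lit 383)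 (nat_lit 321)) (XT.lf (nat_lit 0) (nat_lit 718047640) (nat_lit 760) (nat_lit 3910500185) (nat_lit 836) (nat_lit 4052473840) (nat_lit 319) (nat_lit 5) (nat_lit 329) (nat_lit 5) (nat_lit 330) (nat_lit 5) (nat_lit 437) (nat_lit 383) (nat_lit 320)))) (XT.nd (nat_lit 78) (nat_lit 1444) (nat_lit 0) (XT.lf (nat_lit 0) (nat_lit 6378725108) (nat_lit 760) (nat_lit 785408960) (nat_lit 836) (nat_lit 1596496868) (nat_lit 319) (nat_lit 5) (nat_lit 329) (nat_lit 5) (nat_lit 330) (nat_lit 5) (nat_lit 438) (nat_lit 383) (nat_lit 319)) (XT.nd (nat_lit 78) (nat_lit 684) (nat_lit 0) (XT.lf (nat_lit 0) (nat_lit 899483239) (nat_lit 760) (nat_lit 5548895958) (nat_lit 76) (nat_lit 2393286115) (nat_lit 309) (nat_lit 5) (nat_lit 319) (nat_lit 5) (nat_lit 310) (nat_lit 5) (nat_lit 439) (nat_lit 383) (nat_lit 318)) (XT.lf (nat_lit 0) (nat_lit 135274230) (nat_lit 684) (nat_lit 3276879558) (nat_lit 760) (nat_lit 5512199342) (nat_lit 300) (nat_lit 5) (nat_lit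 309) (nat_lit 5) (nat_lit 310) (nat_lit 5) (nat_lit 440) (nat_lit 383) (nat_lit 317))))) (XT.nd (nat_lit 234) (nat_lit 1368) (nat_lit 0) (XT.nd (nat_lit 78) (nat_lit 760) (nat_lit 0) (XT.lf (nat_lit 0) (nat_lit 5968762149) (nat_lit 684) (nat_lit 9920677) (nat_lit 760) (nat_lit 3029946413) (nat_lit 300) (nat_lit 5) (nat_lit 309) (nat_lit 5) (nat_lit 310) (nat_lit 5) (nat_lit 441) (nat_lit 383) (nat_lit 316)) (XT.nd (nat_lit 78) (nat_lit 76) (nat_lit 0) (XT.lf (nat_lit 0) (nat_lit 2800046646) (nat_lit 684) (nat_lit 5803237248) (nat_lit 760) (nat_lit 491178654) (nat_lit 291) (nat_lit 5) (nat_lit 300) (nat_lit 5) (nat_lit 301) (nat_lit 5) (nat_lit 442) (nat_lit 383) (nat_lit 315)) (XT.lf (nat_lit 0) (nat_lit 2058605139) (nat_lit 760) (nat_lit 437082025) (nat_lit 76) (nat_lit 6686303910) (nat_lit 290) (nat_lit 5) (nat_lit 300) (nat_lit 5) (nat_lit 291) (nat_lit 5) (nat_lit 443) (nat_lit 383) (nat_lit 314)))) (XT.nd (nat_lit 78)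 (nat_lit 684) (nat_lit 0) (XT.lf (nat_lit 0) (nat_lit 4662690768) (nat_lit 760) (nat_lit 3708715906) (nat_lit 76) (nat_lit 899607035) (nat_lit 281) (nat_lit 5) (nat_lit 291) (nat_lit 5) (nat_lit 282) (nat_lit 5) (nat_lit 444) (nat_lit 383) (nat_lit 313)) (XT.nd (nat_lit 78) (nat_lit 76) (nat_lit 0) (XT.lf (nat_lit 0) (nat_lit 2300269592) (nat_lit 608) (nat_lit 5021145490) (nat_lit 684) (nat_lit 2040356585) (nat_lit 273) (nat_lit 5) (nat_lit 281) (nat_lit 5) (nat_lit 282) (nat_lit 5) (nat_lit 445) (nat_lit 383) (nat_lit 312)) (XT.lf (nat_lit 0) (nat_lit 564727564) (nat_lit 684) (nat_lit 1017416317) (nat_lit 76) (nat_lit 7872264466) (nat_lit 272) (nat_lit 5) (nat_lit 281) (nat_lit 5) (nat_lit 273) (nat_lit 5) (nat_lit 446) (nat_lit 383) (nat_lit 311))))))) (XT.nd (nat_lit 858) (nat_lit 3876) (nat_lit 0) (XT.nd (nat_lit 390) (nat_lit 1824) (nat_lit 0) (XT.nd (nat_lit 156) (nat_lit 1216) (nat_lit 0) (XT.nd (nat_lit 78) (nat_lit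 608) (nat_lit 0) (XT.lf (nat_lit 0) (nat_lit 3209827681) (nat_lit 684) (nat_lit 4398175998) (nat_lit 76) (nat_lit 1940325316) (nat_lit 264) (nat_lit 5) (nat_lit 273) (nat_lit 5) (nat_lit 265) (nat_lit 5) (nat_lit 447) (nat_lit 383) (nat_lit 310)) (XT.lf (nat_lit 0) (nat_lit 1784861423) (nat_lit 608) (nat_lit 4121139486) (nat_lit 684) (nat_lit 3738169279) (nat_lit 256) (nat_lit 5) (nat_lit 264) (nat_lit 5) (nat_lit 265) (nat_lit 5) (nat_lit 448) (nat_lit 383) (nat_lit 309))) (XT.nd (nat_lit 78) (nat_lit 1216) (nat_lit 0) (XT.lf (nat_lit 0) (nat_lit 8112536030) (nat_lit 608) (nat_lit 542660264) (nat_lit 684) (nat_lit 1086755382) (nat_lit 256) (nat_lit 5) (nat_lit 264) (nat_lit 5) (nat_lit 265) (nat_lit 5) (nat_lit 449) (nat_lit 383) (nat_lit 308)) (XT.nd (nat_lit 78) (nat_lit 532) (nat_lit 0) (XT.lf (nat_lit 0) (nat_lit 1617608670) (nat_lit 684) (nat_lit 5123434877) (nat_lit 76) (nat_lit 3100017653) (nat_lit 247) (nat_lit 5)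 (nat_lit 256) (nat_lit 5) (nat_lit 248) (nat_lit 5) (nat_lit 450) (nat_lit 383) (nat_lit 307)) (XT.lf (nat_lit 0) (nat_lit 1238561681) (nat_lit 532) (nat_lit 3115867958) (nat_lit 608) (nat_lit 5587726313) (nat_lit 240) (nat_lit 5) (nat_lit 247) (nat_lit 5) (nat_lit 248) (nat_lit 5) (nat_lit 451) (nat_lit 383) (nat_lit 306))))) (XT.nd (nat_lit 234) (nat_lit 608) (nat_lit 0) (XT.nd (nat_lit 78) (nat_lit 1216) (nat_lit 0) (XT.lf (nat_lit 0) (nat_lit 7154915082) (nat_lit 608) (nat_lit 2290204833) (nat_lit 76) (nat_lit 599979152) (nat_lit 240) (nat_lit 5) (nat_lit 248) (nat_lit 5) (nat_lit 241) (nat_lit 5) (nat_lit 452) (nat_lit 383) (nat_lit 305)) (XT.nd (nat_lit 78) (nat_lit 608) (nat_lit 0) (XT.lf (nat_lit 0) (nat_lit 4248436176) (nat_lit 608) (nat_lit 5782312136) (nat_lit 684) (nat_lit 118970900) (nat_lit 232) (nat_lit 5) (nat_lit 240) (nat_lit 5) (nat_lit 241) (nat_lit 5) (nat_lit 453) (nat_lit 383) (nat_lit 304)) (XT.lf (nat_lit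 0) (nat_lit 645315084) (nat_lit 532) (nat_lit 2017746055) (nat_lit 608) (nat_lit 7593205639) (nat_lit 224) (nat_lit 5) (nat_lit 231) (nat_lit 5) (nat_lit 232) (nat_lit 5) (nat_lit 454) (nat_lit 383) (nat_lit 303)))) (XT.nd (nat_lit 78) (nat_lit 608) (nat_lit 0) (XT.lf (nat_lit 0) (nat_lit 5522336956) (nat_lit 608) (nat_lit 3012691534) (nat_lit 76) (nat_lit 1829441801) (nat_lit 224) (nat_lit 5) (nat_lit 232) (nat_lit 5) (nat_lit 225) (nat_lit 5) (nat_lit 455) (nat_lit 383) (nat_lit 302)) (XT.nd (nat_lit 78) (nat_lit 76) (nat_lit 0) (XT.lf (nat_lit 0) (nat_lit 3715154658) (nat_lit 532) (nat_lit 4733187571) (nat_lit 608) (nat_lit 2026309321) (nat_lit 217) (nat_lit 5) (nat_lit 224) (nat_lit 5) (nat_lit 225) (nat_lit 5) (nat_lit 456) (nat_lit 383) (nat_lit 301)) (XT.lf (nat_lit 0) (nat_lit 827265698) (nat_lit 608) (nat_lit 11729448) (nat_lit 76) (nat_lit 9748085277) (nat_lit 216) (nat_lit 5) (nat_lit 224) (nat_lit 5) (nat_lit 217)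 (nat_lit 5) (nat_lit 457) (nat_lit 383) (nat_lit 300)))))) (XT.nd (nat_lit 468) (nat_lit 1900) (nat_lit 0) (XT.nd (nat_lit 234) (nat_lit 988) (nat_lit 0) (XT.nd (nat_lit 78) (nat_lit 532) (nat_lit 0) (XT.lf (nat_lit 0) (nat_lit 3749063479) (nat_lit 532) (nat_lit 3810716649) (nat_lit 76) (nat_lit 3140948491) (nat_lit 210) (nat_lit 5) (nat_lit 217) (nat_lit 5) (nat_lit 211) (nat_lit 5) (nat_lit 458) (nat_lit 383) (nat_lit 299)) (XT.nd (nat_lit 78) (nat_lit 0) (nat_lit 0) (XT.lf (nat_lit 0) (nat_lit 3111185784) (nat_lit 532) (nat_lit 3616900598) (nat_lit 608) (nat_lit 4088591820) (nat_lit 203) (nat_lit 5) (nat_lit 210) (nat_lit 5) (nat_lit 211) (nat_lit 5) (nat_lit 459) (nat_lit 383) (nat_lit 298)) (XT.lf (nat_lit 0) (nat_lit 9768235372) (nat_lit 608) (nat_lit 751638055) (nat_lit 76) (nat_lit 415046566) (nat_lit 203) (nat_lit 5) (nat_lit 211) (nat_lit 5) (nat_lit 204) (nat_lit 5) (nat_lit 460) (nat_lit 383) (nat_lit 297)))) (XT.nd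 (nat_lit 78) (nat_lit 456) (nat_lit 0) (XT.lf (nat_lit 0) (nat_lit 1829102207) (nat_lit 532) (nat_lit 4702829364) (nat_lit 76) (nat_lit 4522578945) (nat_lit 196) (nat_lit 5) (nat_lit 203) (nat_lit 5) (nat_lit 197) (nat_lit 5) (nat_lit 461) (nat_lit 383) (nat_lit 296)) (XT.nd (nat_lit 78) (nat_lit 0) (nat_lit 0) (XT.lf (nat_lit 0) (nat_lit 2417855204) (nat_lit 456) (nat_lit 2445921471) (nat_lit 532) (nat_lit 6312673950) (nat_lit 190) (nat_lit 5) (nat_lit 196) (nat_lit 5) (nat_lit 197) (nat_lit 5) (nat_lit 462) (nat_lit 383) (nat_lit 295)) (XT.lf (nat_lit 0) (nat_lit 7976099996) (nat_lit 532) (nat_lit 1604052966) (nat_lit 76) (nat_lit 1720341278) (nat_lit 190) (nat_lit 5) (nat_lit 197) (nat_lit 5) (nat_lit 191) (nat_lit 5) (nat_lit 463) (nat_lit 383) (nat_lit 294))))) (XT.nd (nat_lit 234) (nat_lit 912) (nat_lit 0) (XT.nd (nat_lit 78) (nat_lit 532) (nat_lit 0) (XT.lf (nat_lit 0) (nat_lit 5715908098) (nat_lit 456) (nat_lit 5462589719)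 (nat_lit 532) (nat_lit 247968088) (nat_lit 184) (nat_lit 5) (nat_lit 190) (nat_lit 5) (nat_lit 191) (nat_lit 5) (nat_lit 464) (nat_lit 383) (nat_lit 293)) (XT.nd (nat_lit 78) (nat_lit 0) (nat_lit 0) (XT.lf (nat_lit 0) (nat_lit 1615076552) (nat_lit 456) (nat_lit 1232941223) (nat_lit 532) (nat_lit 8706648868) (nat_lit 177) (nat_lit 5) (nat_lit 183) (nat_lit 5) (nat_lit 184) (nat_lit 5) (nat_lit 465) (nat_lit 383) (nat_lit 292)) (XT.lf (nat_lit 0) (nat_lit 6035988605) (nat_lit 532) (nat_lit 2578668639) (nat_lit 76) (nat_lit 3070077181) (nat_lit 177) (nat_lit 5) (nat_lit 184) (nat_lit 5) (nat_lit 178) (nat_lit 5) (nat_lit 466) (nat_lit 383) (nat_lit 291)))) (XT.nd (nat_lit 78) (nat_lit 532) (nat_lit 0) (XT.lf (nat_lit 0) (nat_lit 4950215729) (nat_lit 380) (nat_lit 4353104423) (nat_lit 456) (nat_lit 2513774838) (nat_lit 172) (nat_lit 5) (nat_lit 177) (nat_lit 5) (nat_lit 178) (nat_lit 5) (nat_lit 467) (nat_lit 383) (nat_lit 290))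 (XT.nd (nat_lit 78) (nat_lit 0) (nat_lit 0) (XT.lf (nat_lit 0) (nat_lit 672208722) (nat_lit 532) (nat_lit 11270983952) (nat_lit 76) (nat_lit 8878953) (nat_lit 165) (nat_lit 5) (nat_lit 172) (nat_lit 5) (nat_lit 166) (nat_lit 5) (nat_lit 468) (nat_lit 383) (nat_lit 289)) (XT.lf (nat_lit 0) (nat_lit 3939056020) (nat_lit 532) (nat_lit 3697796294) (nat_lit 76) (nat_lit 4451550343) (nat_lit 165) (nat_lit 5) (nat_lit 172) (nat_lit 5) (nat_lit 166) (nat_lit 5) (nat_lit 469) (nat_lit 383) (nat_lit 288))))))))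
noncomputable def xc97 : XT := (XT.nd (nat_lit 1794) (nat_lit 2280) (nat_lit 0) (XT.nd (nat_lit 858) (nat_lit 2660) (nat_lit 0) (XT.nd (nat_lit 390) (nat_lit 1596) (nat_lit 0) (XT.nd (nat_lit 156) (nat_lit 836) (nat_lit 0) (XT.nd (nat_lit 78) (nat_lit 0) (nat_lit 0) (XT.lf (nat_lit 0) (nat_lit 4044323397) (nat_lit 380) (nat_lit 3229212552) (nat_lit 456) (nat_lit 4953881637) (nat_lit 160) (nat_lit 5) (nat_lit 165) (nat_lit 5) (nat_lit 166) (nat_lit 5) (nat_lit 470) (nat_lit 383) (nat_lit 287)) (XT.lf (nat_lit 0) (nat_lit 10684109682) (nat_lit 456) (nat_lit 421436110) (nat_lit 76) (nat_lit 1263482064) (nat_lit 160) (nat_lit 5) (nat_lit 166) (nat_lit 5) (nat_lit 161) (nat_lit 5) (nat_lit 471) (nat_lit 383) (nat_lit 286))) (XT.nd (nat_lit 78) (nat_lit 380) (nat_lit 0) (XT.lf (nat_lit 0) (nat_lit 1675095609) (nat_lit 456) (nat_lit 4985664500) (nat_lit 76) (nat_lit 5851552974) (nat_lit 154) (nat_lit 5) (nat_lit 160) (nat_lit 5) (nat_lit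 155) (nat_lit 5) (nat_lit 472) (nat_lit 383) (nat_lit 285)) (XT.nd (nat_lit 78) (nat_lit 0) (nat_lit 0) (XT.lf (nat_lit 0) (nat_lit 2973701190) (nat_lit 380) (nat_lit 2104966915) (nat_lit 456) (nat_lit 7579597719) (nat_lit 149) (nat_lit 5) (nat_lit 154) (nat_lit 5) (nat_lit 155) (nat_lit 5) (nat_lit 473) (nat_lit 383) (nat_lit 284)) (XT.lf (nat_lit 0) (nat_lit 8577390818) (nat_lit 456) (nat_lit 1698635653) (nat_lit 76) (nat_lit 2530572463) (nat_lit 149) (nat_lit 5) (nat_lit 155) (nat_lit 5) (nat_lit 150) (nat_lit 5) (nat_lit 474) (nat_lit 383) (nat_lit 283))))) (XT.nd (nat_lit 234) (nat_lit 760) (nat_lit 0) (XT.nd (nat_lit 78) (nat_lit 456) (nat_lit 0) (XT.lf (nat_lit 0) (nat_lit 6483518147) (nat_lit 380) (nat_lit 5695955112) (nat_lit 456) (nat_lit 777760575) (nat_lit 144) (nat_lit 5) (nat_lit 149) (nat_lit 5) (nat_lit 150) (nat_lit 5) (nat_lit 475) (nat_lit 383) (nat_lit 282)) (XT.nd (nat_lit 78) (nat_lit 0) (nat_lit 0) (XT.lf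 (nat_lit 0) (nat_lit 1711590466) (nat_lit 380) (nat_lit 995160807) (nat_lit 456) (nat_lit 10403776598) (nat_lit 138) (nat_lit 5) (nat_lit 143) (nat_lit 5) (nat_lit 144) (nat_lit 5) (nat_lit 476) (nat_lit 383) (nat_lit 281)) (XT.lf (nat_lit 0) (nat_lit 6296508832) (nat_lit 456) (nat_lit 3182576389) (nat_lit 76) (nat_lit 3786783023) (nat_lit 138) (nat_lit 5) (nat_lit 144) (nat_lit 5) (nat_lit 139) (nat_lit 5) (nat_lit 477) (nat_lit 383) (nat_lit 280)))) (XT.nd (nat_lit 78) (nat_lit 380) (nat_lit 0) (XT.lf (nat_lit 0) (nat_lit 5225938113) (nat_lit 380) (nat_lit 4750644518) (nat_lit 456) (nat_lit 3447364990) (nat_lit 133) (nat_lit 5) (nat_lit 138) (nat_lit 5) (nat_lit 139) (nat_lit 5) (nat_lit 478) (nat_lit 383) (nat_lit 279)) (XT.nd (nat_lit 78) (nat_lit 0) (nat_lit 0) (XT.lf (nat_lit 0) (nat_lit 144763477) (nat_lit 380) (nat_lit 13356973339) (nat_lit 76) (nat_lit 83403510) (nat_lit 128) (nat_lit 5) (nat_lit 133) (nat_lit 5) (nat_lit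 129) (nat_lit 5) (nat_lit 479) (nat_lit 383) (nat_lit 278)) (XT.lf (nat_lit 0) (nat_lit 3827650855) (nat_lit 380) (nat_lit 4903443682) (nat_lit 76) (nat_lit 5016707543) (nat_lit 128) (nat_lit 5) (nat_lit 133) (nat_lit 5) (nat_lit 129) (nat_lit 5) (nat_lit 480) (nat_lit 383) (nat_lit 277)))))) (XT.nd (nat_lit 468) (nat_lit 1292) (nat_lit 0) (XT.nd (nat_lit 234) (nat_lit 608) (nat_lit 0) (XT.nd (nat_lit 78) (nat_lit 380) (nat_lit 0) (XT.lf (nat_lit 0) (nat_lit 3734483552) (nat_lit 380) (nat_lit 3852581625) (nat_lit 456) (nat_lit 6326596922) (nat_lit 123) (nat_lit 5) (nat_lit 128) (nat_lit 5) (nat_lit 129) (nat_lit 5) (nat_lit 481) (nat_lit 383) (nat_lit 276)) (XT.nd (nat_lit 78) (nat_lit 380) (nat_lit 0) (XT.lf (nat_lit 0) (nat_lit 11440829911) (nat_lit 456) (nat_lit 1511833217) (nat_lit 76) (nat_lit 1129795320) (nat_lit 123) (nat_lit 5) (nat_lit 129) (nat_lit 5) (nat_lit 124) (nat_lit 5) (nat_lit 482) (nat_lit 383) (nat_lit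 275)) (XT.lf (nat_lit 0) (nat_lit 1155240497) (nat_lit 380) (nat_lit 6894334494) (nat_lit 76) (nat_lit 6203855930) (nat_lit 118) (nat_lit 5) (nat_lit 123) (nat_lit 5) (nat_lit 119) (nat_lit 5) (nat_lit 483) (nat_lit 383) (nat_lit 274)))) (XT.nd (nat_lit 78) (nat_lit 304) (nat_lit 0) (XT.lf (nat_lit 0) (nat_lit 1975490883) (nat_lit 304) (nat_lit 3019474090) (nat_lit 380) (nat_lit 9432465092) (nat_lit 114) (nat_lit 5) (nat_lit 118) (nat_lit 5) (nat_lit 119) (nat_lit 5) (nat_lit 484) (nat_lit 383) (nat_lit 273)) (XT.nd (nat_lit 78) (nat_lit 304) (nat_lit 0) (XT.lf (nat_lit 0) (nat_lit 8951093479) (nat_lit 380) (nat_lit 3535120549) (nat_lit 76) (nat_lit 2117905161) (nat_lit 114) (nat_lit 5) (nat_lit 119) (nat_lit 5) (nat_lit 115) (nat_lit 5) (nat_lit 485) (nat_lit 383) (nat_lit 272)) (XT.lf (nat_lit 0) (nat_lit 5580591089) (nat_lit 304) (nat_lit 7441719196) (nat_lit 380) (nat_lit 1761314644) (nat_lit 110) (nat_lit 5) (nat_lit 114)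 (nat_lit 5) (nat_lit 115) (nat_lit 5) (nat_lit 486) (nat_lit 383) (nat_lit 271))))) (XT.nd (nat_lit 234) (nat_lit 608) (nat_lit 0) (XT.nd (nat_lit 78) (nat_lit 608) (nat_lit 0) (XT.lf (nat_lit 0) (nat_lit 2182937021) (nat_lit 380) (nat_lit 86897537) (nat_lit 76) (nat_lit 12696528188) (nat_lit 109) (nat_lit 5) (nat_lit 114) (nat_lit 5) (nat_lit 110) (nat_lit 5) (nat_lit 487) (nat_lit 383) (nat_lit 270)) (XT.nd (nat_lit 78) (nat_lit 304) (nat_lit 0) (XT.lf (nat_lit 0) (nat_lit 6242921795) (nat_lit 380) (nat_lit 5881944146) (nat_lit 76) (nat_lit 3026449913) (nat_lit 105) (nat_lit 5) (nat_lit 110) (nat_lit 5) (nat_lit 106) (nat_lit 5) (nat_lit 488) (nat_lit 383) (nat_lit 269)) (XT.lf (nat_lit 0) (nat_lit 3472335582) (nat_lit 304) (nat_lit 6930221349) (nat_lit 380) (nat_lit 4937044064) (nat_lit 101) (nat_lit 5) (nat_lit 105) (nat_lit 5) (nat_lit 106) (nat_lit 5) (nat_lit 489) (nat_lit 383) (nat_lit 268)))) (XT.nd (nat_lit 78) (nat_lit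 608) (nat_lit 0) (XT.lf (nat_lit 0) (nat_lit 13061487025) (nat_lit 304) (nat_lit 1603834763) (nat_lit 380) (nat_lit 865933254) (nat_lit 101) (nat_lit 5) (nat_lit 105) (nat_lit 5) (nat_lit 106) (nat_lit 5) (nat_lit 490) (nat_lit 383) (nat_lit 267)) (XT.nd (nat_lit 78) (nat_lit 228) (nat_lit 0) (XT.lf (nat_lit 0) (nat_lit 3295911477) (nat_lit 380) (nat_lit 8594379601) (nat_lit 76) (nat_lit 3834977864) (nat_lit 96) (nat_lit 5) (nat_lit 101) (nat_lit 5) (nat_lit 97) (nat_lit 5) (nat_lit 491) (nat_lit 383) (nat_lit 266)) (XT.lf (nat_lit 0) (nat_lit 999171568) (nat_lit 228) (nat_lit 6544844558) (nat_lit 304) (nat_lit 8378741992) (nat_lit 93) (nat_lit 5) (nat_lit 96) (nat_lit 5) (nat_lit 97) (nat_lit 5) (nat_lit 492) (nat_lit 383) (nat_lit 265))))))) (XT.nd (nat_lit 936) (nat_lit 304) (nat_lit 0) (XT.nd (nat_lit 468) (nat_lit 988) (nat_lit 0) (XT.nd (nat_lit 234) (nat_lit 608) (nat_lit 0) (XT.nd (nat_lit 78) (nat_lit 380) (nat_lit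 0) (XT.lf (nat_lit 0) (nat_lit 10869627758) (nat_lit 228) (nat_lit 1046114925) (nat_lit 304) (nat_lit 4207682994) (nat_lit 93) (nat_lit 5) (nat_lit 96) (nat_lit 5) (nat_lit 97) (nat_lit 5) (nat_lit 493) (nat_lit 383) (nat_lit 264)) (XT.nd (nat_lit 78) (nat_lit 0) (nat_lit 0) (XT.lf (nat_lit 0) (nat_lit 87281115) (nat_lit 380) (nat_lit 11718797521) (nat_lit 76) (nat_lit 4521201648) (nat_lit 88) (nat_lit 5) (nat_lit 93) (nat_lit 5) (nat_lit 89) (nat_lit 5) (nat_lit 494) (nat_lit 383) (nat_lit 263)) (XT.lf (nat_lit 0) (nat_lit 4435595590) (nat_lit 380) (nat_lit 1861496481) (nat_lit 76) (nat_lit 10237089510) (nat_lit 88) (nat_lit 5) (nat_lit 93) (nat_lit 5) (nat_lit 89) (nat_lit 5) (nat_lit 495) (nat_lit 383) (nat_lit 262)))) (XT.nd (nat_lit 78) (nat_lit 380) (nat_lit 0) (XT.lf (nat_lit 0) (nat_lit 8270847325) (nat_lit 228) (nat_lit 635417236) (nat_lit 304) (nat_lit 7838250237) (nat_lit 85) (nat_lit 5) (nat_lit 88) (nat_lit 5)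 (nat_lit 89) (nat_lit 5) (nat_lit 496) (nat_lit 383) (nat_lit 261)) (XT.nd (nat_lit 78) (nat_lit 76) (nat_lit 0) (XT.lf (nat_lit 0) (nat_lit 1629525053) (nat_lit 304) (nat_lit 11875115982) (nat_lit 380) (nat_lit 3453649390) (nat_lit 81) (nat_lit 5) (nat_lit 85) (nat_lit 5) (nat_lit 86) (nat_lit 5) (nat_lit 497) (nat_lit 383) (nat_lit 260)) (XT.lf (nat_lit 0) (nat_lit 1048540453) (nat_lit 380) (nat_lit 5167461006) (nat_lit 76) (nat_lit 10959344261) (nat_lit 80) (nat_lit 5) (nat_lit 85) (nat_lit 5) (nat_lit 81) (nat_lit 5) (nat_lit 498) (nat_lit 383) (nat_lit 259))))) (XT.nd (nat_lit 234) (nat_lit 532) (nat_lit 0) (XT.nd (nat_lit 78) (nat_lit 228) (nat_lit 0) (XT.lf (nat_lit 0) (nat_lit 5212459374) (nat_lit 228) (nat_lit 398122272) (nat_lit 304) (nat_lit 11785384396) (nat_lit 77) (nat_lit 5) (nat_lit 80) (nat_lit 5) (nat_lit 81) (nat_lit 5) (nat_lit 499) (nat_lit 383) (nat_lit 258)) (XT.nd (nat_lit 78) (nat_lit 228) (nat_lit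 0) (XT.lf (nat_lit 0) (nat_lit 10316955942) (nat_lit 304) (nat_lit 1816632801) (nat_lit 76) (nat_lit 5486349686) (nat_lit 77) (nat_lit 5) (nat_lit 81) (nat_lit 5) (nat_lit 78) (nat_lit 5) (nat_lit 500) (nat_lit 383) (nat_lit 257)) (XT.lf (nat_lit 0) (nat_lit 8841310843) (nat_lit 228) (nat_lit 6318777421) (nat_lit 304) (nat_lit 2687450863) (nat_lit 74) (nat_lit 5) (nat_lit 77) (nat_lit 5) (nat_lit 78) (nat_lit 5) (nat_lit 501) (nat_lit 383) (nat_lit 256)))) (XT.nd (nat_lit 78) (nat_lit 228) (nat_lit 0) (XT.lf (nat_lit 0) (nat_lit 1636227045) (nat_lit 228) (nat_lit 363186442) (nat_lit 304) (nat_lit 16079907014) (nat_lit 70) (nat_lit 5) (nat_lit 73) (nat_lit 5) (nat_lit 74) (nat_lit 5) (nat_lit 502) (nat_lit 383) (nat_lit 255)) (XT.nd (nat_lit 78) (nat_lit 228) (nat_lit 0) (XT.lf (nat_lit 0) (nat_lit 6824679022) (nat_lit 304) (nat_lit 5785892323) (nat_lit 76) (nat_lit 5703199289) (nat_lit 70) (nat_lit 5) (nat_lit 74) (nat_lit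 5) (nat_lit 71) (nat_lit 5) (nat_lit 503) (nat_lit 383) (nat_lit 254)) (XT.lf (nat_lit 0) (nat_lit 5120084787) (nat_lit 228) (nat_lit 6645048075) (nat_lit 304) (nat_lit 6787404608) (nat_lit 67) (nat_lit 5) (nat_lit 70) (nat_lit 5) (nat_lit 71) (nat_lit 5) (nat_lit 504) (nat_lit 383) (nat_lit 253)))))) (XT.nd (nat_lit 50232) (nat_lit 0) (nat_lit 48184) (XT.nd (nat_lit 49998) (nat_lit 0) (nat_lit 49704) (XT.nd (nat_lit 78) (nat_lit 304) (nat_lit 0) (XT.lf (nat_lit 0) (nat_lit 16293688601) (nat_lit 228) (nat_lit 532713234) (nat_lit 304) (nat_lit 1969239022) (nat_lit 67) (nat_lit 5) (nat_lit 70) (nat_lit 5) (nat_lit 71) (nat_lit 5) (nat_lit 505) (nat_lit 383) (nat_lit 252)) (XT.nd (nat_lit 49842) (nat_lit 0) (nat_lit 50084) (XT.lf (nat_lit 0) (nat_lit 2984080102) (nat_lit 304) (nat_lit 10366128774) (nat_lit 76) (nat_lit 5691467899) (nat_lit 63) (nat_lit 5) (nat_lit 67) (nat_lit 5) (nat_lit 64) (nat_lit 5) (nat_lit 506) (nat_lit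 383) (nat_lit 251)) (XT.lf (nat_lit 0) (nat_lit 2215837305) (nat_lit 380) (nat_lit 510315683) (nat_lit 380) (nat_lit 510315683) (nat_lit 722) (nat_lit 3) (nat_lit 727) (nat_lit 3) (nat_lit 727) (nat_lit 5) (nat_lit 384) (nat_lit 384) (nat_lit 372)))) (XT.nd (nat_lit 78) (nat_lit 0) (nat_lit 0) (XT.lf (nat_lit 0) (nat_lit 747573836) (nat_lit 380) (nat_lit 4310446744) (nat_lit 456) (nat_lit 1423216836) (nat_lit 717) (nat_lit 5) (nat_lit 722) (nat_lit 3) (nat_lit 723) (nat_lit 5) (nat_lit 385) (nat_lit 384) (nat_lit 371)) (XT.nd (nat_lit 78) (nat_lit 0) (nat_lit 0) (XT.lf (nat_lit 0) (nat_lit 3498925538) (nat_lit 380) (nat_lit 1101523803) (nat_lit 456) (nat_lit 1890330490) (nat_lit 717) (nat_lit 5) (nat_lit 722) (nat_lit 3) (nat_lit 723) (nat_lit 5) (nat_lit 386) (nat_lit 384) (nat_lit 370)) (XT.lf (nat_lit 76) (nat_lit 2162418774) (nat_lit 0) (nat_lit 4085504795) (nat_lit 456) (nat_lit 253764212) (nat_lit 718) (nat_lit 5) (nat_lit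 717) (nat_lit 5) (nat_lit 723) (nat_lit 5) (nat_lit 387) (nat_lit 384) (nat_lit 369))))) (XT.nd (nat_lit 234) (nat_lit 532) (nat_lit 0) (XT.nd (nat_lit 78) (nat_lit 532) (nat_lit 0) (XT.lf (nat_lit 0) (nat_lit 2442474169) (nat_lit 456) (nat_lit 1060867599) (nat_lit 532) (nat_lit 3010434695) (nat_lit 711) (nat_lit 5) (nat_lit 717) (nat_lit 5) (nat_lit 718) (nat_lit 5) (nat_lit 388) (nat_lit 384) (nat_lit 368)) (XT.nd (nat_lit 78) (nat_lit 532) (nat_lit 0) (XT.lf (nat_lit 76) (nat_lit 2273752940) (nat_lit 0) (nat_lit 2860886028) (nat_lit 532) (nat_lit 1392551927) (nat_lit 712) (nat_lit 5) (nat_lit 711) (nat_lit 5) (nat_lit 718) (nat_lit 5) (nat_lit 389) (nat_lit 384) (nat_lit 367)) (XT.lf (nat_lit 0) (nat_lit 1260643530) (nat_lit 532) (nat_lit 898211063) (nat_lit 608) (nat_lit 4383100739) (nat_lit 704) (nat_lit 5) (nat_lit 711) (nat_lit 5) (nat_lit 712) (nat_lit 5) (nat_lit 390) (nat_lit 384) (nat_lit 366)))) (XT.nd (nat_lit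 78) (nat_lit 532) (nat_lit 0) (XT.lf (nat_lit 76) (nat_lit 2510390809) (nat_lit 0) (nat_lit 1386805238) (nat_lit 608) (nat_lit 2660680169) (nat_lit 705) (nat_lit 5) (nat_lit 704) (nat_lit 5) (nat_lit 712) (nat_lit 5) (nat_lit 391) (nat_lit 384) (nat_lit 365)) (XT.nd (nat_lit 78) (nat_lit 532) (nat_lit 0) (XT.lf (nat_lit 76) (nat_lit 5962154884) (nat_lit 0) (nat_lit 564054759) (nat_lit 608) (nat_lit 49134845) (nat_lit 705) (nat_lit 5) (nat_lit 704) (nat_lit 5) (nat_lit 712) (nat_lit 5) (nat_lit 392) (nat_lit 384) (nat_lit 364)) (XT.lf (nat_lit 0) (nat_lit 2535758420) (nat_lit 608) (nat_lit 3722836730) (nat_lit 684) (nat_lit 335141938) (nat_lit 697) (nat_lit 5) (nat_lit 705) (nat_lit 5) (nat_lit 706) (nat_lit 5) (nat_lit 393) (nat_lit 384) (nat_lit 363))))))))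
noncomputable def xc98 : XT := (XT.nd (nat_lit 1794) (nat_lit 16644) (nat_lit 0) (XT.nd (nat_lit 858) (nat_lit 8816) (nat_lit 0) (XT.nd (nat_lit 390) (nat_lit 2584) (nat_lit 0) (XT.nd (nat_lit 156) (nat_lit 760) (nat_lit 0) (XT.nd (nat_lit 78) (nat_lit 684) (nat_lit 0) (XT.lf (nat_lit 0) (nat_lit 5115338779) (nat_lit 608) (nat_lit 222109892) (nat_lit 684) (nat_lit 1276191642) (nat_lit 697) (nat_lit 5) (nat_lit 705) (nat_lit 5) (nat_lit 706) (nat_lit 5) (nat_lit 394) (nat_lit 384) (nat_lit 362)) (XT.lf (nat_lit 0) (nat_lit 1056493311) (nat_lit 684) (nat_lit 3286941482) (nat_lit 760) (nat_lit 2291213372) (nat_lit 688) (nat_lit 5) (nat_lit 697) (nat_lit 5) (nat_lit 698) (nat_lit 5) (nat_lit 395) (nat_lit 384) (nat_lit 361))) (XT.nd (nat_lit 78) (nat_lit 760) (nat_lit 0) (XT.lf (nat_lit 76) (nat_lit 291337148) (nat_lit 0) (nat_lit 3291982897) (nat_lit 760) (nat_lit 3073759018) (nat_lit 689) (nat_lit 5) (nat_lit 688) (nat_lit 5)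 (nat_lit 698) (nat_lit 5) (nat_lit 396) (nat_lit 384) (nat_lit 360)) (XT.nd (nat_lit 78) (nat_lit 760) (nat_lit 0) (XT.lf (nat_lit 76) (nat_lit 3947554195) (nat_lit 0) (nat_lit 2173749688) (nat_lit 760) (nat_lit 559462804) (nat_lit 689) (nat_lit 5) (nat_lit 688) (nat_lit 5) (nat_lit 698) (nat_lit 5) (nat_lit 397) (nat_lit 384) (nat_lit 359)) (XT.lf (nat_lit 76) (nat_lit 932924857) (nat_lit 0) (nat_lit 991303503) (nat_lit 836) (nat_lit 4781550924) (nat_lit 679) (nat_lit 5) (nat_lit 678) (nat_lit 5) (nat_lit 689) (nat_lit 5) (nat_lit 398) (nat_lit 384) (nat_lit 358))))) (XT.nd (nat_lit 234) (nat_lit 1824) (nat_lit 0) (XT.nd (nat_lit 78) (nat_lit 836) (nat_lit 0) (XT.lf (nat_lit 0) (nat_lit 4410399183) (nat_lit 760) (nat_lit 2066074283) (nat_lit 76) (nat_lit 255558100) (nat_lit 679) (nat_lit 5) (nat_lit 689) (nat_lit 5) (nat_lit 680) (nat_lit 5) (nat_lit 399) (nat_lit 384) (nat_lit 357)) (XT.nd (nat_lit 78) (nat_lit 0) (nat_lit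 0) (XT.lf (nat_lit 0) (nat_lit 143886794) (nat_lit 836) (nat_lit 5068716128) (nat_lit 76) (nat_lit 1547022988) (nat_lit 668) (nat_lit 5) (nat_lit 679) (nat_lit 5) (nat_lit 669) (nat_lit 5) (nat_lit 400) (nat_lit 384) (nat_lit 356)) (XT.lf (nat_lit 0) (nat_lit 2583712738) (nat_lit 836) (nat_lit 1291046283) (nat_lit 76) (nat_lit 2913602760) (nat_lit 668) (nat_lit 5) (nat_lit 679) (nat_lit 5) (nat_lit 669) (nat_lit 5) (nat_lit 401) (nat_lit 384) (nat_lit 355)))) (XT.nd (nat_lit 78) (nat_lit 988) (nat_lit 0) (XT.lf (nat_lit 0) (nat_lit 2557360062) (nat_lit 836) (nat_lit 2474812271) (nat_lit 912) (nat_lit 1786321155) (nat_lit 657) (nat_lit 5) (nat_lit 668) (nat_lit 5) (nat_lit 669) (nat_lit 5) (nat_lit 402) (nat_lit 384) (nat_lit 354)) (XT.nd (nat_lit 78) (nat_lit 912) (nat_lit 0) (XT.lf (nat_lit 0) (nat_lit 623882287) (nat_lit 912) (nat_lit 392164363) (nat_lit 76) (nat_lit 5834061356) (nat_lit 656) (nat_lit 5) (nat_lit 668) (nat_lit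 5) (nat_lit 657) (nat_lit 5) (nat_lit 403) (nat_lit 384) (nat_lit 353)) (XT.lf (nat_lit 0) (nat_lit 3029668261) (nat_lit 988) (nat_lit 3335367531) (nat_lit 76) (nat_lit 517673759) (nat_lit 644) (nat_lit 5) (nat_lit 657) (nat_lit 5) (nat_lit 645) (nat_lit 5) (nat_lit 404) (nat_lit 384) (nat_lit 352)))))) (XT.nd (nat_lit 468) (nat_lit 4256) (nat_lit 0) (XT.nd (nat_lit 234) (nat_lit 2432) (nat_lit 0) (XT.nd (nat_lit 78) (nat_lit 1140) (nat_lit 0) (XT.lf (nat_lit 0) (nat_lit 617326375) (nat_lit 988) (nat_lit 4825387798) (nat_lit 1064) (nat_lit 1474082571) (nat_lit 631) (nat_lit 5) (nat_lit 644) (nat_lit 5) (nat_lit 645) (nat_lit 5) (nat_lit 405) (nat_lit 384) (nat_lit 351)) (XT.nd (nat_lit 78) (nat_lit 1064) (nat_lit 0) (XT.lf (nat_lit 0) (nat_lit 908694048) (nat_lit 1064) (nat_lit 2302705792) (nat_lit 76) (nat_lit 3740683416) (nat_lit 630) (nat_lit 5) (nat_lit 644) (nat_lit 5) (nat_lit 631) (nat_lit 5) (nat_lit 406) (nat_lit 384)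 (nat_lit 350)) (XT.lf (nat_lit 0) (nat_lit 1748396297) (nat_lit 1064) (nat_lit 1529617092) (nat_lit 1140) (nat_lit 3710710285) (nat_lit 616) (nat_lit 5) (nat_lit 630) (nat_lit 5) (nat_lit 631) (nat_lit 5) (nat_lit 407) (nat_lit 384) (nat_lit 349)))) (XT.nd (nat_lit 78) (nat_lit 2432) (nat_lit 0) (XT.lf (nat_lit 0) (nat_lit 5659606619) (nat_lit 1140) (nat_lit 1155015241) (nat_lit 76) (nat_lit 212192534) (nat_lit 616) (nat_lit 5) (nat_lit 631) (nat_lit 5) (nat_lit 617) (nat_lit 5) (nat_lit 408) (nat_lit 384) (nat_lit 348)) (XT.nd (nat_lit 78) (nat_lit 1216) (nat_lit 0) (XT.lf (nat_lit 0) (nat_lit 988357330) (nat_lit 1216) (nat_lit 4070234400) (nat_lit 76) (nat_lit 2007384762) (nat_lit 600) (nat_lit 5) (nat_lit 616) (nat_lit 5) (nat_lit 601) (nat_lit 5) (nat_lit 409) (nat_lit 384) (nat_lit 347)) (XT.lf (nat_lit 0) (nat_lit 92203310) (nat_lit 1216) (nat_lit 3238485071) (nat_lit 1292) (nat_lit 3775907840) (nat_lit 584) (nat_lit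 5) (nat_lit 600) (nat_lit 5) (nat_lit 601) (nat_lit 5) (nat_lit 410) (nat_lit 384) (nat_lit 346))))) (XT.nd (nat_lit 234) (nat_lit 2888) (nat_lit 0) (XT.nd (nat_lit 78) (nat_lit 1368) (nat_lit 0) (XT.lf (nat_lit 0) (nat_lit 4354016897) (nat_lit 1216) (nat_lit 1343442107) (nat_lit 1292) (nat_lit 1451031567) (nat_lit 584) (nat_lit 5) (nat_lit 600) (nat_lit 5) (nat_lit 601) (nat_lit 5) (nat_lit 411) (nat_lit 384) (nat_lit 345)) (XT.nd (nat_lit 78) (nat_lit 0) (nat_lit 0) (XT.lf (nat_lit 0) (nat_lit 872824066) (nat_lit 1368) (nat_lit 5711512026) (nat_lit 76) (nat_lit 607489698) (nat_lit 566) (nat_lit 5) (nat_lit 584) (nat_lit 5) (nat_lit 567) (nat_lit 5) (nat_lit 412) (nat_lit 384) (nat_lit 344)) (XT.lf (nat_lit 0) (nat_lit 3203211253) (nat_lit 1368) (nat_lit 1415540023) (nat_lit 76) (nat_lit 2617508210) (nat_lit 566) (nat_lit 5) (nat_lit 584) (nat_lit 5) (nat_lit 567) (nat_lit 5) (nat_lit 413) (nat_lit 384) (nat_lit 343)))) (XT.nd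 (nat_lit 78) (nat_lit 1520) (nat_lit 0) (XT.lf (nat_lit 0) (nat_lit 2966300574) (nat_lit 1368) (nat_lit 2585804060) (nat_lit 1444) (nat_lit 1730052264) (nat_lit 548) (nat_lit 5) (nat_lit 566) (nat_lit 5) (nat_lit 567) (nat_lit 5) (nat_lit 414) (nat_lit 384) (nat_lit 342)) (XT.nd (nat_lit 78) (nat_lit 0) (nat_lit 0) (XT.lf (nat_lit 0) (nat_lit 83866444) (nat_lit 1444) (nat_lit 490120176) (nat_lit 1520) (nat_lit 6755655739) (nat_lit 528) (nat_lit 5) (nat_lit 547) (nat_lit 5) (nat_lit 548) (nat_lit 5) (nat_lit 415) (nat_lit 384) (nat_lit 341)) (XT.lf (nat_lit 0) (nat_lit 2894522517) (nat_lit 1520) (nat_lit 2809820346) (nat_lit 76) (nat_lit 1673646582) (nat_lit 528) (nat_lit 5) (nat_lit 548) (nat_lit 5) (nat_lit 529) (nat_lit 5) (nat_lit 416) (nat_lit 384) (nat_lit 340))))))) (XT.nd (nat_lit 858) (nat_lit 6612) (nat_lit 0) (XT.nd (nat_lit 390) (nat_lit 5168) (nat_lit 0) (XT.nd (nat_lit 156) (nat_lit 3268) (nat_lit 0) (XT.nd (nat_lit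 78) (nat_lit 76) (nat_lit 0) (XT.lf (nat_lit 0) (nat_lit 1694555779) (nat_lit 1520) (nat_lit 3535779005) (nat_lit 1596) (nat_lit 2197603399) (nat_lit 508) (nat_lit 5) (nat_lit 528) (nat_lit 5) (nat_lit 529) (nat_lit 5) (nat_lit 417) (nat_lit 384) (nat_lit 339)) (XT.lf (nat_lit 0) (nat_lit 106146704) (nat_lit 1596) (nat_lit 1192025268) (nat_lit 76) (nat_lit 6181229549) (nat_lit 507) (nat_lit 5) (nat_lit 528) (nat_lit 5) (nat_lit 508) (nat_lit 5) (nat_lit 418) (nat_lit 384) (nat_lit 338))) (XT.nd (nat_lit 78) (nat_lit 1672) (nat_lit 0) (XT.lf (nat_lit 0) (nat_lit 2411352751) (nat_lit 1672) (nat_lit 4106959101) (nat_lit 76) (nat_lit 1013606943) (nat_lit 486) (nat_lit 5) (nat_lit 508) (nat_lit 5) (nat_lit 487) (nat_lit 5) (nat_lit 419) (nat_lit 384) (nat_lit 337)) (XT.nd (nat_lit 78) (nat_lit 0) (nat_lit 0) (XT.lf (nat_lit 0) (nat_lit 523825288) (nat_lit 1672) (nat_lit 4215365200) (nat_lit 1748) (nat_lit 2846776481) (nat_lit 464)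 (nat_lit 5) (nat_lit 486) (nat_lit 5) (nat_lit 487) (nat_lit 5) (nat_lit 420) (nat_lit 384) (nat_lit 336)) (XT.lf (nat_lit 0) (nat_lit 5263645439) (nat_lit 1672) (nat_lit 1834575234) (nat_lit 1748) (nat_lit 543193607) (nat_lit 464) (nat_lit 5) (nat_lit 486) (nat_lit 5) (nat_lit 487) (nat_lit 5) (nat_lit 421) (nat_lit 384) (nat_lit 335))))) (XT.nd (nat_lit 234) (nat_lit 1900) (nat_lit 0) (XT.nd (nat_lit 78) (nat_lit 1444) (nat_lit 0) (XT.lf (nat_lit 0) (nat_lit 1759911529) (nat_lit 1824) (nat_lit 5321610176) (nat_lit 76) (nat_lit 616681870) (nat_lit 440) (nat_lit 5) (nat_lit 464) (nat_lit 5) (nat_lit 441) (nat_lit 5) (nat_lit 422) (nat_lit 384) (nat_lit 334)) (XT.nd (nat_lit 78) (nat_lit 1444) (nat_lit 0) (XT.lf (nat_lit 0) (nat_lit 4088250082) (nat_lit 1824) (nat_lit 553051247) (nat_lit 76) (nat_lit 3115036883) (nat_lit 440) (nat_lit 5) (nat_lit 464) (nat_lit 5) (nat_lit 441) (nat_lit 5) (nat_lit 423) (nat_lit 384) (nat_lit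 333)) (XT.lf (nat_lit 0) (nat_lit 4328765716) (nat_lit 1444) (nat_lit 2121540617) (nat_lit 1520) (nat_lit 1365596250) (nat_lit 421) (nat_lit 5) (nat_lit 440) (nat_lit 5) (nat_lit 441) (nat_lit 5) (nat_lit 424) (nat_lit 384) (nat_lit 332)))) (XT.nd (nat_lit 78) (nat_lit 912) (nat_lit 0) (XT.lf (nat_lit 0) (nat_lit 945328653) (nat_lit 988) (nat_lit 6468081349) (nat_lit 76) (nat_lit 463624773) (nat_lit 408) (nat_lit 5) (nat_lit 421) (nat_lit 5) (nat_lit 409) (nat_lit 5) (nat_lit 425) (nat_lit 384) (nat_lit 331)) (XT.nd (nat_lit 78) (nat_lit 912) (nat_lit 0) (XT.lf (nat_lit 0) (nat_lit 3281682667) (nat_lit 988) (nat_lit 1551678016) (nat_lit 76) (nat_lit 3105907957) (nat_lit 408) (nat_lit 5) (nat_lit 421) (nat_lit 5) (nat_lit 409) (nat_lit 5) (nat_lit 426) (nat_lit 384) (nat_lit 330)) (XT.lf (nat_lit 0) (nat_lit 3469594596) (nat_lit 912) (nat_lit 2178356292) (nat_lit 988) (nat_lit 2355141845) (nat_lit 396) (nat_lit 5) (nat_lit 408)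 (nat_lit 5) (nat_lit 409) (nat_lit 5) (nat_lit 427) (nat_lit 384) (nat_lit 329)))))) (XT.nd (nat_lit 468) (nat_lit 3116) (nat_lit 0) (XT.nd (nat_lit 234) (nat_lit 1672) (nat_lit 0) (XT.nd (nat_lit 78) (nat_lit 912) (nat_lit 0) (XT.lf (nat_lit 0) (nat_lit 508002065) (nat_lit 912) (nat_lit 7531942713) (nat_lit 988) (nat_lit 28689634) (nat_lit 384) (nat_lit 5) (nat_lit 396) (nat_lit 5) (nat_lit 397) (nat_lit 5) (nat_lit 428) (nat_lit 384) (nat_lit 328)) (XT.nd (nat_lit 78) (nat_lit 836) (nat_lit 0) (XT.lf (nat_lit 0) (nat_lit 2320020541) (nat_lit 988) (nat_lit 2492696439) (nat_lit 76) (nat_lit 3322344793) (nat_lit 383) (nat_lit 5) (nat_lit 396) (nat_lit 5) (nat_lit 384) (nat_lit 5) (nat_lit 429) (nat_lit 384) (nat_lit 327)) (XT.lf (nat_lit 0) (nat_lit 2672483165) (nat_lit 836) (nat_lit 2022370764) (nat_lit 912) (nat_lit 3508377882) (nat_lit 372) (nat_lit 5) (nat_lit 383) (nat_lit 5) (nat_lit 384) (nat_lit 5) (nat_lit 430) (nat_lit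 384) (nat_lit 326)))) (XT.nd (nat_lit 78) (nat_lit 1672) (nat_lit 0) (XT.lf (nat_lit 0) (nat_lit 7102033010) (nat_lit 912) (nat_lit 342599171) (nat_lit 76) (nat_lit 828444504) (nat_lit 372) (nat_lit 5) (nat_lit 384) (nat_lit 5) (nat_lit 373) (nat_lit 5) (nat_lit 431) (nat_lit 384) (nat_lit 325)) (XT.nd (nat_lit 78) (nat_lit 760) (nat_lit 0) (XT.lf (nat_lit 0) (nat_lit 1206185823) (nat_lit 912) (nat_lit 3389771158) (nat_lit 76) (nat_lit 3748030892) (nat_lit 360) (nat_lit 5) (nat_lit 372) (nat_lit 5) (nat_lit 361) (nat_lit 5) (nat_lit 432) (nat_lit 384) (nat_lit 324)) (XT.lf (nat_lit 0) (nat_lit 1923875356) (nat_lit 760) (nat_lit 1669839667) (nat_lit 836) (nat_lit 4822886674) (nat_lit 350) (nat_lit 5) (nat_lit 360) (nat_lit 5) (nat_lit 361) (nat_lit 5) (nat_lit 433) (nat_lit 384) (nat_lit 323))))) (XT.nd (nat_lit 234) (nat_lit 1520) (nat_lit 0) (XT.nd (nat_lit 78) (nat_lit 1596) (nat_lit 0) (XT.lf (nat_lit 0) (nat_lit 6024489053)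 (nat_lit 836) (nat_lit 1148536046) (nat_lit 76) (nat_lit 1317740590) (nat_lit 350) (nat_lit 5) (nat_lit 361) (nat_lit 5) (nat_lit 351) (nat_lit 5) (nat_lit 434) (nat_lit 384) (nat_lit 322)) (XT.nd (nat_lit 78) (nat_lit 836) (nat_lit 0) (XT.lf (nat_lit 0) (nat_lit 4309390062) (nat_lit 760) (nat_lit 4198291066) (nat_lit 836) (nat_lit 58663405) (nat_lit 340) (nat_lit 5) (nat_lit 350) (nat_lit 5) (nat_lit 351) (nat_lit 5) (nat_lit 435) (nat_lit 384) (nat_lit 321)) (XT.lf (nat_lit 0) (nat_lit 1210193120) (nat_lit 760) (nat_lit 1136054925) (nat_lit 836) (nat_lit 6297271277) (nat_lit 329) (nat_lit 5) (nat_lit 339) (nat_lit 5) (nat_lit 340) (nat_lit 5) (nat_lit 436) (nat_lit 384) (nat_lit 320)))) (XT.nd (nat_lit 78) (nat_lit 1520) (nat_lit 0) (XT.lf (nat_lit 0) (nat_lit 4805511553) (nat_lit 836) (nat_lit 1930004422) (nat_lit 76) (nat_lit 1986580273) (nat_lit 329) (nat_lit 5) (nat_lit 340) (nat_lit 5) (nat_lit 330) (nat_lit 5) (nat_lit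 437) (nat_lit 384) (nat_lit 319)) (XT.nd (nat_lit 78) (nat_lit 760) (nat_lit 0) (XT.lf (nat_lit 0) (nat_lit 3685724109) (nat_lit 760) (nat_lit 3625748088) (nat_lit 836) (nat_lit 1490829322) (nat_lit 319) (nat_lit 5) (nat_lit 329) (nat_lit 5) (nat_lit 330) (nat_lit 5) (nat_lit 438) (nat_lit 384) (nat_lit 318)) (XT.lf (nat_lit 0) (nat_lit 517718830) (nat_lit 684) (nat_lit 435469502) (nat_lit 760) (nat_lit 7931148725) (nat_lit 309) (nat_lit 5) (nat_lit 318) (nat_lit 5) (nat_lit 319) (nat_lit 5) (nat_lit 439) (nat_lit 384) (nat_lit 317))))))))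
noncomputable def xc99 : XT := (XT.nd (nat_lit 1794) (nat_lit 6232) (nat_lit 0) (XT.nd (nat_lit 858) (nat_lit 3876) (nat_lit 0) (XT.nd (nat_lit 390) (nat_lit 2584) (nat_lit 0) (XT.nd (nat_lit 156) (nat_lit 1444) (nat_lit 0) (XT.nd (nat_lit 78) (nat_lit 684) (nat_lit 0) (XT.lf (nat_lit 0) (nat_lit 3445631483) (nat_lit 760) (nat_lit 2700733089) (nat_lit 76) (nat_lit 2821068136) (nat_lit 309) (nat_lit 5) (nat_lit 319) (nat_lit 5) (nat_lit 310) (nat_lit 5) (nat_lit 440) (nat_lit 384) (nat_lit 316)) (XT.lf (nat_lit 0) (nat_lit 3077652472) (nat_lit 684) (nat_lit 2900417540) (nat_lit 760) (nat_lit 3074323836) (nat_lit 300) (nat_lit 5) (nat_lit 309) (nat_lit 5) (nat_lit 310) (nat_lit 5) (nat_lit 441) (nat_lit 384) (nat_lit 315))) (XT.nd (nat_lit 78) (nat_lit 1444) (nat_lit 0) (XT.lf (nat_lit 0) (nat_lit 8549703433) (nat_lit 760) (nat_lit 171922902) (nat_lit 76) (nat_lit 417663333) (nat_lit 300) (nat_lit 5) (nat_lit 310) (nat_lit 5)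 (nat_lit 301) (nat_lit 5) (nat_lit 442) (nat_lit 384) (nat_lit 314)) (XT.nd (nat_lit 78) (nat_lit 684) (nat_lit 0) (XT.lf (nat_lit 0) (nat_lit 1944411561) (nat_lit 760) (nat_lit 3474767762) (nat_lit 76) (nat_lit 3807996218) (nat_lit 290) (nat_lit 5) (nat_lit 300) (nat_lit 5) (nat_lit 291) (nat_lit 5) (nat_lit 443) (nat_lit 384) (nat_lit 313)) (XT.lf (nat_lit 0) (nat_lit 2471178062) (nat_lit 684) (nat_lit 2035666310) (nat_lit 760) (nat_lit 4810189836) (nat_lit 281) (nat_lit 5) (nat_lit 290) (nat_lit 5) (nat_lit 291) (nat_lit 5) (nat_lit 444) (nat_lit 384) (nat_lit 312))))) (XT.nd (nat_lit 234) (nat_lit 1292) (nat_lit 0) (XT.nd (nat_lit 78) (nat_lit 1292) (nat_lit 0) (XT.lf (nat_lit 0) (nat_lit 7121954817) (nat_lit 760) (nat_lit 872839653) (nat_lit 76) (nat_lit 1413872890) (nat_lit 281) (nat_lit 5) (nat_lit 291) (nat_lit 5) (nat_lit 282) (nat_lit 5) (nat_lit 445) (nat_lit 384) (nat_lit 311)) (XT.nd (nat_lit 78) (nat_lit 608)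 (nat_lit 0) (XT.lf (nat_lit 0) (nat_lit 300436606) (nat_lit 684) (nat_lit 4266597757) (nat_lit 76) (nat_lit 4934727792) (nat_lit 272) (nat_lit 5) (nat_lit 281) (nat_lit 5) (nat_lit 273) (nat_lit 5) (nat_lit 446) (nat_lit 384) (nat_lit 310)) (XT.lf (nat_lit 0) (nat_lit 1851838298) (nat_lit 608) (nat_lit 1044349813) (nat_lit 684) (nat_lit 6700484413) (nat_lit 264) (nat_lit 5) (nat_lit 272) (nat_lit 5) (nat_lit 273) (nat_lit 5) (nat_lit 447) (nat_lit 384) (nat_lit 309)))) (XT.nd (nat_lit 78) (nat_lit 1292) (nat_lit 0) (XT.lf (nat_lit 0) (nat_lit 5559059306) (nat_lit 684) (nat_lit 1597303783) (nat_lit 76) (nat_lit 2536819363) (nat_lit 264) (nat_lit 5) (nat_lit 273) (nat_lit 5) (nat_lit 265) (nat_lit 5) (nat_lit 448) (nat_lit 384) (nat_lit 308)) (XT.nd (nat_lit 78) (nat_lit 684) (nat_lit 0) (XT.lf (nat_lit 0) (nat_lit 4690388887) (nat_lit 608) (nat_lit 3592595343) (nat_lit 684) (nat_lit 1508487761) (nat_lit 256) (nat_lit 5) (nat_lit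 264) (nat_lit 5) (nat_lit 265) (nat_lit 5) (nat_lit 449) (nat_lit 384) (nat_lit 307)) (XT.lf (nat_lit 0) (nat_lit 1143894059) (nat_lit 684) (nat_lit 8687624009) (nat_lit 76) (nat_lit 60271019) (nat_lit 247) (nat_lit 5) (nat_lit 256) (nat_lit 5) (nat_lit 248) (nat_lit 5) (nat_lit 450) (nat_lit 384) (nat_lit 306)))))) (XT.nd (nat_lit 468) (nat_lit 2128) (nat_lit 0) (XT.nd (nat_lit 234) (nat_lit 608) (nat_lit 0) (XT.nd (nat_lit 78) (nat_lit 1140) (nat_lit 0) (XT.lf (nat_lit 0) (nat_lit 3858242139) (nat_lit 684) (nat_lit 2360596459) (nat_lit 76) (nat_lit 3774497187) (nat_lit 247) (nat_lit 5) (nat_lit 256) (nat_lit 5) (nat_lit 248) (nat_lit 5) (nat_lit 451) (nat_lit 384) (nat_lit 305)) (XT.nd (nat_lit 78) (nat_lit 608) (nat_lit 0) (XT.lf (nat_lit 0) (nat_lit 4109789326) (nat_lit 532) (nat_lit 2515191652) (nat_lit 608) (nat_lit 3471975296) (nat_lit 240) (nat_lit 5) (nat_lit 247) (nat_lit 5) (nat_lit 248) (nat_lit 5) (nat_lit 452)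 (nat_lit 384) (nat_lit 304)) (XT.lf (nat_lit 0) (nat_lit 500153232) (nat_lit 608) (nat_lit 8945977419) (nat_lit 684) (nat_lit 756541833) (nat_lit 232) (nat_lit 5) (nat_lit 240) (nat_lit 5) (nat_lit 241) (nat_lit 5) (nat_lit 453) (nat_lit 384) (nat_lit 303)))) (XT.nd (nat_lit 78) (nat_lit 532) (nat_lit 0) (XT.lf (nat_lit 0) (nat_lit 2015706784) (nat_lit 684) (nat_lit 3178802844) (nat_lit 76) (nat_lit 5115158419) (nat_lit 231) (nat_lit 5) (nat_lit 240) (nat_lit 5) (nat_lit 232) (nat_lit 5) (nat_lit 454) (nat_lit 384) (nat_lit 302)) (XT.nd (nat_lit 78) (nat_lit 0) (nat_lit 0) (XT.lf (nat_lit 0) (nat_lit 3479256998) (nat_lit 532) (nat_lit 1348975096) (nat_lit 608) (nat_lit 5590576729) (nat_lit 224) (nat_lit 5) (nat_lit 231) (nat_lit 5) (nat_lit 232) (nat_lit 5) (nat_lit 455) (nat_lit 384) (nat_lit 301)) (XT.lf (nat_lit 0) (nat_lit 7707797271) (nat_lit 608) (nat_lit 269989691) (nat_lit 76) (nat_lit 2552134133) (nat_lit 224) (nat_lit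 5) (nat_lit 232) (nat_lit 5) (nat_lit 225) (nat_lit 5) (nat_lit 456) (nat_lit 384) (nat_lit 300))))) (XT.nd (nat_lit 234) (nat_lit 1064) (nat_lit 0) (XT.nd (nat_lit 78) (nat_lit 456) (nat_lit 0) (XT.lf (nat_lit 0) (nat_lit 26596803) (nat_lit 608) (nat_lit 4068966819) (nat_lit 76) (nat_lit 6547197644) (nat_lit 216) (nat_lit 5) (nat_lit 224) (nat_lit 5) (nat_lit 217) (nat_lit 5) (nat_lit 457) (nat_lit 384) (nat_lit 299)) (XT.nd (nat_lit 78) (nat_lit 0) (nat_lit 0) (XT.lf (nat_lit 0) (nat_lit 2781675731) (nat_lit 456) (nat_lit 106004972) (nat_lit 532) (nat_lit 7869945119) (nat_lit 210) (nat_lit 5) (nat_lit 216) (nat_lit 5) (nat_lit 217) (nat_lit 5) (nat_lit 458) (nat_lit 384) (nat_lit 298)) (XT.lf (nat_lit 0) (nat_lit 5832688796) (nat_lit 532) (nat_lit 1112295666) (nat_lit 76) (nat_lit 3929273285) (nat_lit 210) (nat_lit 5) (nat_lit 217) (nat_lit 5) (nat_lit 211) (nat_lit 5) (nat_lit 459) (nat_lit 384) (nat_lit 297)))) (XT.nd (nat_lit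 78) (nat_lit 532) (nat_lit 0) (XT.lf (nat_lit 0) (nat_lit 5929790636) (nat_lit 532) (nat_lit 2920012599) (nat_lit 608) (nat_lit 2143158994) (nat_lit 203) (nat_lit 5) (nat_lit 210) (nat_lit 5) (nat_lit 211) (nat_lit 5) (nat_lit 460) (nat_lit 384) (nat_lit 296)) (XT.nd (nat_lit 78) (nat_lit 0) (nat_lit 0) (XT.lf (nat_lit 0) (nat_lit 804954094) (nat_lit 532) (nat_lit 9123080583) (nat_lit 76) (nat_lit 1185856407) (nat_lit 196) (nat_lit 5) (nat_lit 203) (nat_lit 5) (nat_lit 197) (nat_lit 5) (nat_lit 461) (nat_lit 384) (nat_lit 295)) (XT.lf (nat_lit 0) (nat_lit 3811216010) (nat_lit 532) (nat_lit 2052044416) (nat_lit 76) (nat_lit 5373140904) (nat_lit 196) (nat_lit 5) (nat_lit 203) (nat_lit 5) (nat_lit 197) (nat_lit 5) (nat_lit 462) (nat_lit 384) (nat_lit 294))))))) (XT.nd (nat_lit 936) (nat_lit 2660) (nat_lit 0) (XT.nd (nat_lit 468) (nat_lit 1748) (nat_lit 0) (XT.nd (nat_lit 234) (nat_lit 836) (nat_lit 0) (XT.nd (nat_lit 78) (nat_lit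 532) (nat_lit 0) (XT.lf (nat_lit 0) (nat_lit 5192995675) (nat_lit 456) (nat_lit 1693144698) (nat_lit 532) (nat_lit 4475054403) (nat_lit 190) (nat_lit 5) (nat_lit 196) (nat_lit 5) (nat_lit 197) (nat_lit 5) (nat_lit 463) (nat_lit 384) (nat_lit 293)) (XT.nd (nat_lit 78) (nat_lit 76) (nat_lit 0) (XT.lf (nat_lit 0) (nat_lit 1084325422) (nat_lit 456) (nat_lit 8950781146) (nat_lit 532) (nat_lit 1453130318) (nat_lit 184) (nat_lit 5) (nat_lit 190) (nat_lit 5) (nat_lit 191) (nat_lit 5) (nat_lit 464) (nat_lit 384) (nat_lit 292)) (XT.lf (nat_lit 0) (nat_lit 1635853633) (nat_lit 532) (nat_lit 3109369072) (nat_lit 76) (nat_lit 6871829313) (nat_lit 183) (nat_lit 5) (nat_lit 190) (nat_lit 5) (nat_lit 184) (nat_lit 5) (nat_lit 465) (nat_lit 384) (nat_lit 291)))) (XT.nd (nat_lit 78) (nat_lit 380) (nat_lit 0) (XT.lf (nat_lit 0) (nat_lit 4343282132) (nat_lit 456) (nat_lit 427693610) (nat_lit 532) (nat_lit 6977202742) (nat_lit 177) (nat_lit 5)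 (nat_lit 183) (nat_lit 5) (nat_lit 184) (nat_lit 5) (nat_lit 466) (nat_lit 384) (nat_lit 290)) (XT.nd (nat_lit 78) (nat_lit 0) (nat_lit 0) (XT.lf (nat_lit 0) (nat_lit 44952685) (nat_lit 380) (nat_lit 7946739628) (nat_lit 456) (nat_lit 3889780711) (nat_lit 172) (nat_lit 5) (nat_lit 177) (nat_lit 5) (nat_lit 178) (nat_lit 5) (nat_lit 467) (nat_lit 384) (nat_lit 289)) (XT.lf (nat_lit 0) (nat_lit 7706229093) (nat_lit 380) (nat_lit 3599126247) (nat_lit 456) (nat_lit 711510791) (nat_lit 172) (nat_lit 5) (nat_lit 177) (nat_lit 5) (nat_lit 178) (nat_lit 5) (nat_lit 468) (nat_lit 384) (nat_lit 288))))) (XT.nd (nat_lit 234) (nat_lit 836) (nat_lit 0) (XT.nd (nat_lit 78) (nat_lit 380) (nat_lit 0) (XT.lf (nat_lit 0) (nat_lit 2500890173) (nat_lit 532) (nat_lit 8801604239) (nat_lit 76) (nat_lit 852072279) (nat_lit 165) (nat_lit 5) (nat_lit 172) (nat_lit 5) (nat_lit 166) (nat_lit 5) (nat_lit 469) (nat_lit 384) (nat_lit 287)) (XT.nd (nat_lit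 78) (nat_lit 380) (nat_lit 0) (XT.lf (nat_lit 0) (nat_lit 5797481530) (nat_lit 532) (nat_lit 1129792032) (nat_lit 76) (nat_lit 5367067377) (nat_lit 165) (nat_lit 5) (nat_lit 172) (nat_lit 5) (nat_lit 166) (nat_lit 5) (nat_lit 470) (nat_lit 384) (nat_lit 286)) (XT.lf (nat_lit 0) (nat_lit 6749788736) (nat_lit 380) (nat_lit 2431007840) (nat_lit 456) (nat_lit 3255701325) (nat_lit 160) (nat_lit 5) (nat_lit 165) (nat_lit 5) (nat_lit 166) (nat_lit 5) (nat_lit 471) (nat_lit 384) (nat_lit 285)))) (XT.nd (nat_lit 78) (nat_lit 380) (nat_lit 0) (XT.lf (nat_lit 0) (nat_lit 62747803) (nat_lit 456) (nat_lit 10380248799) (nat_lit 76) (nat_lit 2138235271) (nat_lit 154) (nat_lit 5) (nat_lit 160) (nat_lit 5) (nat_lit 155) (nat_lit 5) (nat_lit 472) (nat_lit 384) (nat_lit 284)) (XT.nd (nat_lit 78) (nat_lit 380) (nat_lit 0) (XT.lf (nat_lit 0) (nat_lit 3435726113) (nat_lit 456) (nat_lit 2476930183) (nat_lit 76) (nat_lit 6815141632) (nat_lit 154)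 (nat_lit 5) (nat_lit 160) (nat_lit 5) (nat_lit 155) (nat_lit 5) (nat_lit 473) (nat_lit 384) (nat_lit 283)) (XT.lf (nat_lit 0) (nat_lit 5624461982) (nat_lit 380) (nat_lit 1265867164) (nat_lit 456) (nat_lit 5986685688) (nat_lit 149) (nat_lit 5) (nat_lit 154) (nat_lit 5) (nat_lit 155) (nat_lit 5) (nat_lit 474) (nat_lit 384) (nat_lit 282)))))) (XT.nd (nat_lit 468) (nat_lit 1064) (nat_lit 0) (XT.nd (nat_lit 234) (nat_lit 760) (nat_lit 0) (XT.nd (nat_lit 78) (nat_lit 456) (nat_lit 0) (XT.lf (nat_lit 0) (nat_lit 847111203) (nat_lit 380) (nat_lit 9589493132) (nat_lit 456) (nat_lit 2592162918) (nat_lit 144) (nat_lit 5) (nat_lit 149) (nat_lit 5) (nat_lit 150) (nat_lit 5) (nat_lit 475) (nat_lit 384) (nat_lit 281)) (XT.nd (nat_lit 78) (nat_lit 380) (nat_lit 0) (XT.lf (nat_lit 0) (nat_lit 894073114) (nat_lit 456) (nat_lit 4023840042) (nat_lit 76) (nat_lit 8264826503) (nat_lit 143) (nat_lit 5) (nat_lit 149) (nat_lit 5) (nat_lit 144) (nat_lit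 5) (nat_lit 476) (nat_lit 384) (nat_lit 280)) (XT.lf (nat_lit 0) (nat_lit 4303085980) (nat_lit 380) (nat_lit 118506145) (nat_lit 456) (nat_lit 8917733973) (nat_lit 138) (nat_lit 5) (nat_lit 143) (nat_lit 5) (nat_lit 144) (nat_lit 5) (nat_lit 477) (nat_lit 384) (nat_lit 279)))) (XT.nd (nat_lit 78) (nat_lit 760) (nat_lit 0) (XT.lf (nat_lit 0) (nat_lit 8056288886) (nat_lit 456) (nat_lit 712056361) (nat_lit 76) (nat_lit 4729969038) (nat_lit 138) (nat_lit 5) (nat_lit 144) (nat_lit 5) (nat_lit 139) (nat_lit 5) (nat_lit 478) (nat_lit 384) (nat_lit 278)) (XT.nd (nat_lit 78) (nat_lit 380) (nat_lit 0) (XT.lf (nat_lit 0) (nat_lit 7847956249) (nat_lit 380) (nat_lit 3946316915) (nat_lit 456) (nat_lit 1865599714) (nat_lit 133) (nat_lit 5) (nat_lit 138) (nat_lit 5) (nat_lit 139) (nat_lit 5) (nat_lit 479) (nat_lit 384) (nat_lit 277)) (XT.lf (nat_lit 0) (nat_lit 1767060773) (nat_lit 380) (nat_lit 11074932981) (nat_lit 76) (nat_lit 982278219)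 (nat_lit 128) (nat_lit 5) (nat_lit 133) (nat_lit 5) (nat_lit 129) (nat_lit 5) (nat_lit 480) (nat_lit 384) (nat_lit 276))))) (XT.nd (nat_lit 234) (nat_lit 380) (nat_lit 0) (XT.nd (nat_lit 78) (nat_lit 684) (nat_lit 0) (XT.lf (nat_lit 0) (nat_lit 5491852917) (nat_lit 380) (nat_lit 2502316649) (nat_lit 76) (nat_lit 5996656045) (nat_lit 128) (nat_lit 5) (nat_lit 133) (nat_lit 5) (nat_lit 129) (nat_lit 5) (nat_lit 481) (nat_lit 384) (nat_lit 275)) (XT.nd (nat_lit 78) (nat_lit 304) (nat_lit 0) (XT.lf (nat_lit 0) (nat_lit 6291927051) (nat_lit 380) (nat_lit 3019517786) (nat_lit 456) (nat_lit 4848861728) (nat_lit 123) (nat_lit 5) (nat_lit 128) (nat_lit 5) (nat_lit 129) (nat_lit 5) (nat_lit 482) (nat_lit 384) (nat_lit 274)) (XT.lf (nat_lit 0) (nat_lit 929407236) (nat_lit 304) (nat_lit 12293869121) (nat_lit 380) (nat_lit 1109586106) (nat_lit 119) (nat_lit 5) (nat_lit 123) (nat_lit 5) (nat_lit 124) (nat_lit 5) (nat_lit 483) (nat_lit 384)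 (nat_lit 273)))) (XT.nd (nat_lit 78) (nat_lit 304) (nat_lit 0) (XT.lf (nat_lit 0) (nat_lit 2721778116) (nat_lit 380) (nat_lit 4568435668) (nat_lit 76) (nat_lit 7217251244) (nat_lit 118) (nat_lit 5) (nat_lit 123) (nat_lit 5) (nat_lit 119) (nat_lit 5) (nat_lit 484) (nat_lit 384) (nat_lit 272)) (XT.nd (nat_lit 78) (nat_lit 0) (nat_lit 0) (XT.lf (nat_lit 0) (nat_lit 4462577102) (nat_lit 304) (nat_lit 2161347880) (nat_lit 380) (nat_lit 8061309865) (nat_lit 114) (nat_lit 5) (nat_lit 118) (nat_lit 5) (nat_lit 119) (nat_lit 5) (nat_lit 485) (nat_lit 384) (nat_lit 271)) (XT.lf (nat_lit 0) (nat_lit 10635041155) (nat_lit 380) (nat_lit 1181943934) (nat_lit 76) (nat_lit 3048958552) (nat_lit 114) (nat_lit 5) (nat_lit 119) (nat_lit 5) (nat_lit 115) (nat_lit 5) (nat_lit 486) (nat_lit 384) (nat_lit 270))))))))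
noncomputable def xc100 : XT := (XT.nd (nat_lit 51636) (nat_lit 0) (nat_lit 40508) (XT.nd (nat_lit 858) (nat_lit 1368) (nat_lit 0) (XT.nd (nat_lit 390) (nat_lit 1140) (nat_lit 0) (XT.nd (nat_lit 156) (nat_lit 380) (nat_lit 0) (XT.nd (nat_lit 78) (nat_lit 380) (nat_lit 0) (XT.lf (nat_lit 0) (nat_lit 8100135365) (nat_lit 304) (nat_lit 6673672478) (nat_lit 380) (nat_lit 275512267) (nat_lit 110) (nat_lit 5) (nat_lit 114) (nat_lit 5) (nat_lit 115) (nat_lit 5) (nat_lit 487) (nat_lit 384) (nat_lit 269)) (XT.lf (nat_lit 0) (nat_lit 2322246927) (nat_lit 304) (nat_lit 1391073563) (nat_lit 380) (nat_lit 11522484795) (nat_lit 105) (nat_lit 5) (nat_lit 109) (nat_lit 5) (nat_lit 110) (nat_lit 5) (nat_lit 488) (nat_lit 384) (nat_lit 268))) (XT.nd (nat_lit 78) (nat_lit 380) (nat_lit 0) (XT.lf (nat_lit 0) (nat_lit 7831811568) (nat_lit 380) (nat_lit 3611394199) (nat_lit 76) (nat_lit 3981708502) (nat_lit 105) (nat_lit 5) (nat_lit 110) (nat_lit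 5) (nat_lit 106) (nat_lit 5) (nat_lit 489) (nat_lit 384) (nat_lit 267)) (XT.nd (nat_lit 78) (nat_lit 76) (nat_lit 0) (XT.lf (nat_lit 0) (nat_lit 5914259356) (nat_lit 304) (nat_lit 6147077249) (nat_lit 380) (nat_lit 3555897451) (nat_lit 101) (nat_lit 5) (nat_lit 105) (nat_lit 5) (nat_lit 106) (nat_lit 5) (nat_lit 490) (nat_lit 384) (nat_lit 266)) (XT.lf (nat_lit 0) (nat_lit 560173757) (nat_lit 380) (nat_lit 168303613) (nat_lit 76) (nat_lit 15084741851) (nat_lit 100) (nat_lit 5) (nat_lit 105) (nat_lit 5) (nat_lit 101) (nat_lit 5) (nat_lit 491) (nat_lit 384) (nat_lit 265))))) (XT.nd (nat_lit 234) (nat_lit 608) (nat_lit 0) (XT.nd (nat_lit 78) (nat_lit 228) (nat_lit 0) (XT.lf (nat_lit 0) (nat_lit 4786635532) (nat_lit 380) (nat_lit 6413970181) (nat_lit 76) (nat_lit 4810536431) (nat_lit 96) (nat_lit 5) (nat_lit 101) (nat_lit 5) (nat_lit 97) (nat_lit 5) (nat_lit 492) (nat_lit 384) (nat_lit 264)) (XT.nd (nat_lit 78) (nat_lit 0) (nat_lit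 0) (XT.lf (nat_lit 0) (nat_lit 3355976374) (nat_lit 228) (nat_lit 5750960725) (nat_lit 304) (nat_lit 7105901976) (nat_lit 93) (nat_lit 5) (nat_lit 96) (nat_lit 5) (nat_lit 97) (nat_lit 5) (nat_lit 493) (nat_lit 384) (nat_lit 263)) (XT.lf (nat_lit 0) (nat_lit 13378021661) (nat_lit 228) (nat_lit 160389456) (nat_lit 304) (nat_lit 2879665227) (nat_lit 93) (nat_lit 5) (nat_lit 96) (nat_lit 5) (nat_lit 97) (nat_lit 5) (nat_lit 494) (nat_lit 384) (nat_lit 262)))) (XT.nd (nat_lit 78) (nat_lit 228) (nat_lit 0) (XT.lf (nat_lit 0) (nat_lit 1476177249) (nat_lit 380) (nat_lit 9636897298) (nat_lit 76) (nat_lit 5512882634) (nat_lit 88) (nat_lit 5) (nat_lit 93) (nat_lit 5) (nat_lit 89) (nat_lit 5) (nat_lit 495) (nat_lit 384) (nat_lit 261)) (XT.nd (nat_lit 78) (nat_lit 0) (nat_lit 0) (XT.lf (nat_lit 0) (nat_lit 377078029) (nat_lit 228) (nat_lit 5509629196) (nat_lit 304) (nat_lit 10950786760) (nat_lit 85) (nat_lit 5) (nat_lit 88) (nat_lit 5)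 (nat_lit 89) (nat_lit 5) (nat_lit 496) (nat_lit 384) (nat_lit 260)) (XT.lf (nat_lit 0) (nat_lit 10434009732) (nat_lit 304) (nat_lit 6361829409) (nat_lit 76) (nat_lit 256452738) (nat_lit 85) (nat_lit 5) (nat_lit 89) (nat_lit 5) (nat_lit 86) (nat_lit 5) (nat_lit 497) (nat_lit 384) (nat_lit 259)))))) (XT.nd (nat_lit 468) (nat_lit 228) (nat_lit 0) (XT.nd (nat_lit 234) (nat_lit 532) (nat_lit 0) (XT.nd (nat_lit 78) (nat_lit 304) (nat_lit 0) (XT.lf (nat_lit 0) (nat_lit 3924237964) (nat_lit 304) (nat_lit 11192465386) (nat_lit 380) (nat_lit 2153795045) (nat_lit 81) (nat_lit 5) (nat_lit 85) (nat_lit 5) (nat_lit 86) (nat_lit 5) (nat_lit 498) (nat_lit 384) (nat_lit 258)) (XT.nd (nat_lit 78) (nat_lit 228) (nat_lit 0) (XT.lf (nat_lit 0) (nat_lit 2393995188) (nat_lit 380) (nat_lit 3035327614) (nat_lit 76) (nat_lit 12062926305) (nat_lit 80) (nat_lit 5) (nat_lit 85) (nat_lit 5) (nat_lit 81) (nat_lit 5) (nat_lit 499) (nat_lit 384) (nat_lit 257))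 (XT.lf (nat_lit 0) (nat_lit 7038983428) (nat_lit 304) (nat_lit 10183288796) (nat_lit 76) (nat_lit 495177720) (nat_lit 77) (nat_lit 5) (nat_lit 81) (nat_lit 5) (nat_lit 78) (nat_lit 5) (nat_lit 500) (nat_lit 384) (nat_lit 256)))) (XT.nd (nat_lit 78) (nat_lit 304) (nat_lit 0) (XT.lf (nat_lit 0) (nat_lit 348915966) (nat_lit 228) (nat_lit 11469611860) (nat_lit 304) (nat_lit 6127795288) (nat_lit 74) (nat_lit 5) (nat_lit 77) (nat_lit 5) (nat_lit 78) (nat_lit 5) (nat_lit 501) (nat_lit 384) (nat_lit 255)) (XT.nd (nat_lit 78) (nat_lit 304) (nat_lit 0) (XT.lf (nat_lit 0) (nat_lit 11200986432) (nat_lit 228) (nat_lit 5544091173) (nat_lit 304) (nat_lit 1433669270) (nat_lit 74) (nat_lit 5) (nat_lit 77) (nat_lit 5) (nat_lit 78) (nat_lit 5) (nat_lit 502) (nat_lit 384) (nat_lit 254)) (XT.lf (nat_lit 0) (nat_lit 3322152277) (nat_lit 304) (nat_lit 14564117567) (nat_lit 76) (nat_lit 528878941) (nat_lit 70) (nat_lit 5) (nat_lit 74) (nat_lit 5)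 (nat_lit 71) (nat_lit 5) (nat_lit 503) (nat_lit 384) (nat_lit 253))))) (XT.nd (nat_lit 50076) (nat_lit 0) (nat_lit 48868) (XT.nd (nat_lit 78) (nat_lit 228) (nat_lit 0) (XT.lf (nat_lit 0) (nat_lit 8221129198) (nat_lit 304) (nat_lit 3739421394) (nat_lit 76) (nat_lit 6694195228) (nat_lit 70) (nat_lit 5) (nat_lit 74) (nat_lit 5) (nat_lit 71) (nat_lit 5) (nat_lit 504) (nat_lit 384) (nat_lit 252)) (XT.nd (nat_lit 78) (nat_lit 0) (nat_lit 0) (XT.lf (nat_lit 0) (nat_lit 7370450332) (nat_lit 228) (nat_lit 5879182758) (nat_lit 304) (nat_lit 5648872066) (nat_lit 67) (nat_lit 5) (nat_lit 70) (nat_lit 5) (nat_lit 71) (nat_lit 5) (nat_lit 505) (nat_lit 384) (nat_lit 251)) (XT.lf (nat_lit 0) (nat_lit 18389826438) (nat_lit 304) (nat_lit 423746217) (nat_lit 76) (nat_lit 333345919) (nat_lit 67) (nat_lit 5) (nat_lit 71) (nat_lit 5) (nat_lit 68) (nat_lit 5) (nat_lit 506) (nat_lit 384) (nat_lit 250)))) (XT.nd (nat_lit 78) (nat_lit 532) (nat_lit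 0) (XT.lf (nat_lit 0) (nat_lit 867018301) (nat_lit 0) (nat_lit 867018301) (nat_lit 380) (nat_lit 1511022100) (nat_lit 717) (nat_lit 5) (nat_lit 717) (nat_lit 3) (nat_lit 722) (nat_lit 3) (nat_lit 385) (nat_lit 385) (nat_lit 370)) (XT.nd (nat_lit 78) (nat_lit 532) (nat_lit 0) (XT.lf (nat_lit 0) (nat_lit 4937900603) (nat_lit 0) (nat_lit 1242979321) (nat_lit 380) (nat_lit 319564200) (nat_lit 717) (nat_lit 5) (nat_lit 717) (nat_lit 3) (nat_lit 722) (nat_lit 3) (nat_lit 386) (nat_lit 385) (nat_lit 369)) (XT.lf (nat_lit 76) (nat_lit 1664785858) (nat_lit 0) (nat_lit 680287574) (nat_lit 532) (nat_lit 4166812133) (nat_lit 711) (nat_lit 5) (nat_lit 710) (nat_lit 3) (nat_lit 717) (nat_lit 5) (nat_lit 387) (nat_lit 385) (nat_lit 368))))))) (XT.nd (nat_lit 858) (nat_lit 5928) (nat_lit 0) (XT.nd (nat_lit 390) (nat_lit 1368) (nat_lit 0) (XT.nd (nat_lit 156) (nat_lit 608) (nat_lit 0) (XT.nd (nat_lit 78) (nat_lit 456) (nat_lit 0) (XT.lf (nat_lit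 76) (nat_lit 4939845287) (nat_lit 0) (nat_lit 59769780) (nat_lit 532) (nat_lit 1525106229) (nat_lit 711) (nat_lit 5) (nat_lit 710) (nat_lit 3) (nat_lit 717) (nat_lit 5) (nat_lit 388) (nat_lit 385) (nat_lit 367)) (XT.lf (nat_lit 0) (nat_lit 1100633452) (nat_lit 532) (nat_lit 4821404367) (nat_lit 608) (nat_lit 616717851) (nat_lit 704) (nat_lit 5) (nat_lit 711) (nat_lit 5) (nat_lit 712) (nat_lit 5) (nat_lit 389) (nat_lit 385) (nat_lit 366))) (XT.nd (nat_lit 78) (nat_lit 608) (nat_lit 0) (XT.lf (nat_lit 0) (nat_lit 3702210326) (nat_lit 532) (nat_lit 1493749334) (nat_lit 608) (nat_lit 1358058623) (nat_lit 704) (nat_lit 5) (nat_lit 711) (nat_lit 5) (nat_lit 712) (nat_lit 5) (nat_lit 390) (nat_lit 385) (nat_lit 365)) (XT.nd (nat_lit 78) (nat_lit 608) (nat_lit 0) (XT.lf (nat_lit 76) (nat_lit 1888529572) (nat_lit 0) (nat_lit 4413494740) (nat_lit 608) (nat_lit 268661294) (nat_lit 705) (nat_lit 5) (nat_lit 704) (nat_lit 5) (nat_lit 712)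 (nat_lit 5) (nat_lit 391) (nat_lit 385) (nat_lit 364)) (XT.lf (nat_lit 0) (nat_lit 2279755324) (nat_lit 608) (nat_lit 1281561225) (nat_lit 684) (nat_lit 3027192339) (nat_lit 696) (nat_lit 5) (nat_lit 704) (nat_lit 5) (nat_lit 705) (nat_lit 5) (nat_lit 392) (nat_lit 385) (nat_lit 363))))) (XT.nd (nat_lit 234) (nat_lit 684) (nat_lit 0) (XT.nd (nat_lit 78) (nat_lit 684) (nat_lit 0) (XT.lf (nat_lit 76) (nat_lit 2177204359) (nat_lit 0) (nat_lit 2648310363) (nat_lit 684) (nat_lit 1782161172) (nat_lit 697) (nat_lit 5) (nat_lit 696) (nat_lit 5) (nat_lit 705) (nat_lit 5) (nat_lit 393) (nat_lit 385) (nat_lit 362)) (XT.nd (nat_lit 78) (nat_lit 0) (nat_lit 0) (XT.lf (nat_lit 0) (nat_lit 729608832) (nat_lit 684) (nat_lit 946997262) (nat_lit 760) (nat_lit 4951636827) (nat_lit 687) (nat_lit 5) (nat_lit 696) (nat_lit 5) (nat_lit 697) (nat_lit 5) (nat_lit 394) (nat_lit 385) (nat_lit 361)) (XT.lf (nat_lit 76) (nat_lit 2591824785) (nat_lit 0)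 (nat_lit 630438175) (nat_lit 760) (nat_lit 3427653420) (nat_lit 688) (nat_lit 5) (nat_lit 687) (nat_lit 5) (nat_lit 697) (nat_lit 5) (nat_lit 395) (nat_lit 385) (nat_lit 360)))) (XT.nd (nat_lit 78) (nat_lit 760) (nat_lit 0) (XT.lf (nat_lit 0) (nat_lit 5712813516) (nat_lit 684) (nat_lit 498195008) (nat_lit 760) (nat_lit 462074435) (nat_lit 688) (nat_lit 5) (nat_lit 697) (nat_lit 5) (nat_lit 698) (nat_lit 5) (nat_lit 396) (nat_lit 385) (nat_lit 359)) (XT.nd (nat_lit 78) (nat_lit 0) (nat_lit 0) (XT.lf (nat_lit 0) (nat_lit 1500321055) (nat_lit 760) (nat_lit 3574443297) (nat_lit 836) (nat_lit 1622480686) (nat_lit 678) (nat_lit 5) (nat_lit 688) (nat_lit 5) (nat_lit 689) (nat_lit 5) (nat_lit 397) (nat_lit 385) (nat_lit 358)) (XT.lf (nat_lit 76) (nat_lit 58018086) (nat_lit 0) (nat_lit 3883539861) (nat_lit 836) (nat_lit 2781338948) (nat_lit 679) (nat_lit 5) (nat_lit 678) (nat_lit 5) (nat_lit 689) (nat_lit 5) (nat_lit 398) (nat_lit 385)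 (nat_lit 357)))))) (XT.nd (nat_lit 468) (nat_lit 3344) (nat_lit 0) (XT.nd (nat_lit 234) (nat_lit 1748) (nat_lit 0) (XT.nd (nat_lit 78) (nat_lit 836) (nat_lit 0) (XT.lf (nat_lit 76) (nat_lit 3774318603) (nat_lit 0) (nat_lit 2622749935) (nat_lit 836) (nat_lit 352703228) (nat_lit 679) (nat_lit 5) (nat_lit 678) (nat_lit 5) (nat_lit 689) (nat_lit 5) (nat_lit 399) (nat_lit 385) (nat_lit 356)) (XT.nd (nat_lit 78) (nat_lit 0) (nat_lit 76) (XT.lf (nat_lit 76) (nat_lit 746438809) (nat_lit 0) (nat_lit 1297261456) (nat_lit 912) (nat_lit 4734285050) (nat_lit 668) (nat_lit 5) (nat_lit 667) (nat_lit 5) (nat_lit 679) (nat_lit 5) (nat_lit 400) (nat_lit 385) (nat_lit 355)) (XT.lf (nat_lit 0) (nat_lit 4447001080) (nat_lit 836) (nat_lit 2264442660) (nat_lit 76) (nat_lit 96016792) (nat_lit 668) (nat_lit 5) (nat_lit 679) (nat_lit 5) (nat_lit 669) (nat_lit 5) (nat_lit 401) (nat_lit 385) (nat_lit 354)))) (XT.nd (nat_lit 78) (nat_lit 912) (nat_lit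 0) (XT.lf (nat_lit 0) (nat_lit 22797424) (nat_lit 912) (nat_lit 5286268443) (nat_lit 76) (nat_lit 1529213597) (nat_lit 656) (nat_lit 5) (nat_lit 668) (nat_lit 5) (nat_lit 657) (nat_lit 5) (nat_lit 402) (nat_lit 385) (nat_lit 353)) (XT.nd (nat_lit 78) (nat_lit 912) (nat_lit 0) (XT.lf (nat_lit 0) (nat_lit 2382253609) (nat_lit 912) (nat_lit 1447762631) (nat_lit 76) (nat_lit 3040200504) (nat_lit 656) (nat_lit 5) (nat_lit 668) (nat_lit 5) (nat_lit 657) (nat_lit 5) (nat_lit 403) (nat_lit 385) (nat_lit 352)) (XT.lf (nat_lit 0) (nat_lit 2462448115) (nat_lit 912) (nat_lit 2288335651) (nat_lit 988) (nat_lit 2152787807) (nat_lit 644) (nat_lit 5) (nat_lit 656) (nat_lit 5) (nat_lit 657) (nat_lit 5) (nat_lit 404) (nat_lit 385) (nat_lit 351))))) (XT.nd (nat_lit 234) (nat_lit 1216) (nat_lit 0) (XT.nd (nat_lit 78) (nat_lit 2052) (nat_lit 0) (XT.lf (nat_lit 0) (nat_lit 182214080) (nat_lit 988) (nat_lit 506306771) (nat_lit 76) (nat_lit 6249936210)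 (nat_lit 643) (nat_lit 5) (nat_lit 656) (nat_lit 5) (nat_lit 644) (nat_lit 5) (nat_lit 405) (nat_lit 385) (nat_lit 350)) (XT.nd (nat_lit 78) (nat_lit 1064) (nat_lit 0) (XT.lf (nat_lit 0) (nat_lit 2511723075) (nat_lit 1064) (nat_lit 3479063931) (nat_lit 76) (nat_lit 983451547) (nat_lit 630) (nat_lit 5) (nat_lit 644) (nat_lit 5) (nat_lit 631) (nat_lit 5) (nat_lit 406) (nat_lit 385) (nat_lit 349)) (XT.lf (nat_lit 0) (nat_lit 537340060) (nat_lit 1064) (nat_lit 4310239955) (nat_lit 1140) (nat_lit 2163975751) (nat_lit 616) (nat_lit 5) (nat_lit 630) (nat_lit 5) (nat_lit 631) (nat_lit 5) (nat_lit 407) (nat_lit 385) (nat_lit 348)))) (XT.nd (nat_lit 78) (nat_lit 1140) (nat_lit 0) (XT.lf (nat_lit 0) (nat_lit 150373842) (nat_lit 1140) (nat_lit 2407699741) (nat_lit 76) (nat_lit 4492092814) (nat_lit 615) (nat_lit 5) (nat_lit 630) (nat_lit 5) (nat_lit 616) (nat_lit 5) (nat_lit 408) (nat_lit 385) (nat_lit 347)) (XT.nd (nat_lit 78) (nat_lit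 0) (nat_lit 0) (XT.lf (nat_lit 0) (nat_lit 1710551395) (nat_lit 1140) (nat_lit 732328141) (nat_lit 1216) (nat_lit 4647181098) (nat_lit 600) (nat_lit 5) (nat_lit 615) (nat_lit 5) (nat_lit 616) (nat_lit 5) (nat_lit 409) (nat_lit 385) (nat_lit 346)) (XT.lf (nat_lit 0) (nat_lit 4755368592) (nat_lit 1216) (nat_lit 1232602211) (nat_lit 76) (nat_lit 1143313373) (nat_lit 600) (nat_lit 5) (nat_lit 616) (nat_lit 5) (nat_lit 601) (nat_lit 5) (nat_lit 410) (nat_lit 385) (nat_lit 345))))))))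
noncomputable def xc101 : XT := (XT.nd (nat_lit 1794) (nat_lit 10868) (nat_lit 0) (XT.nd (nat_lit 858) (nat_lit 7828) (nat_lit 0) (XT.nd (nat_lit 390) (nat_lit 6384) (nat_lit 0) (XT.nd (nat_lit 156) (nat_lit 1444) (nat_lit 0) (XT.nd (nat_lit 78) (nat_lit 1368) (nat_lit 0) (XT.lf (nat_lit 0) (nat_lit 2993880063) (nat_lit 1216) (nat_lit 4096018464) (nat_lit 1292) (nat_lit 83931649) (nat_lit 584) (nat_lit 5) (nat_lit 600) (nat_lit 5) (nat_lit 601) (nat_lit 5) (nat_lit 411) (nat_lit 385) (nat_lit 344)) (XT.lf (nat_lit 0) (nat_lit 52354126) (nat_lit 1292) (nat_lit 2132524136) (nat_lit 1368) (nat_lit 5032858500) (nat_lit 566) (nat_lit 5) (nat_lit 583) (nat_lit 5) (nat_lit 584) (nat_lit 5) (nat_lit 412) (nat_lit 385) (nat_lit 343))) (XT.nd (nat_lit 78) (nat_lit 1444) (nat_lit 0) (XT.lf (nat_lit 0) (nat_lit 4387470221) (nat_lit 1292) (nat_lit 91095006) (nat_lit 1368) (nat_lit 2784345678) (nat_lit 566) (nat_lit 5) (nat_lit 583) (nat_lit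 5) (nat_lit 584) (nat_lit 5) (nat_lit 413) (nat_lit 385) (nat_lit 342)) (XT.nd (nat_lit 78) (nat_lit 76) (nat_lit 0) (XT.lf (nat_lit 0) (nat_lit 1468440420) (nat_lit 1368) (nat_lit 5325715451) (nat_lit 1444) (nat_lit 515324816) (nat_lit 548) (nat_lit 5) (nat_lit 566) (nat_lit 5) (nat_lit 567) (nat_lit 5) (nat_lit 414) (nat_lit 385) (nat_lit 341)) (XT.lf (nat_lit 0) (nat_lit 1749424602) (nat_lit 1444) (nat_lit 1469395342) (nat_lit 76) (nat_lit 4138461700) (nat_lit 547) (nat_lit 5) (nat_lit 566) (nat_lit 5) (nat_lit 548) (nat_lit 5) (nat_lit 415) (nat_lit 385) (nat_lit 340))))) (XT.nd (nat_lit 234) (nat_lit 3344) (nat_lit 0) (XT.nd (nat_lit 78) (nat_lit 1596) (nat_lit 0) (XT.lf (nat_lit 0) (nat_lit 2987645366) (nat_lit 1444) (nat_lit 1039147832) (nat_lit 1520) (nat_lit 3379704829) (nat_lit 528) (nat_lit 5) (nat_lit 547) (nat_lit 5) (nat_lit 548) (nat_lit 5) (nat_lit 416) (nat_lit 385) (nat_lit 339)) (XT.nd (nat_lit 78) (nat_lit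 76) (nat_lit 0) (XT.lf (nat_lit 0) (nat_lit 51660568) (nat_lit 1520) (nat_lit 6271505301) (nat_lit 1596) (nat_lit 1134075521) (nat_lit 508) (nat_lit 5) (nat_lit 528) (nat_lit 5) (nat_lit 529) (nat_lit 5) (nat_lit 417) (nat_lit 385) (nat_lit 338)) (XT.lf (nat_lit 0) (nat_lit 1133859690) (nat_lit 1596) (nat_lit 2890362470) (nat_lit 76) (nat_lit 3484787405) (nat_lit 507) (nat_lit 5) (nat_lit 528) (nat_lit 5) (nat_lit 508) (nat_lit 5) (nat_lit 418) (nat_lit 385) (nat_lit 337)))) (XT.nd (nat_lit 78) (nat_lit 1748) (nat_lit 0) (XT.lf (nat_lit 0) (nat_lit 1691747203) (nat_lit 1596) (nat_lit 1707914963) (nat_lit 1672) (nat_lit 4162658242) (nat_lit 486) (nat_lit 5) (nat_lit 507) (nat_lit 5) (nat_lit 508) (nat_lit 5) (nat_lit 419) (nat_lit 385) (nat_lit 336)) (XT.nd (nat_lit 78) (nat_lit 1748) (nat_lit 0) (XT.lf (nat_lit 0) (nat_lit 5691886539) (nat_lit 1672) (nat_lit 1254746227) (nat_lit 76) (nat_lit 670453473) (nat_lit 486) (nat_lit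 5) (nat_lit 508) (nat_lit 5) (nat_lit 487) (nat_lit 5) (nat_lit 420) (nat_lit 385) (nat_lit 335)) (XT.lf (nat_lit 0) (nat_lit 344134922) (nat_lit 1748) (nat_lit 4226035737) (nat_lit 76) (nat_lit 3102904652) (nat_lit 463) (nat_lit 5) (nat_lit 486) (nat_lit 5) (nat_lit 464) (nat_lit 5) (nat_lit 421) (nat_lit 385) (nat_lit 334)))))) (XT.nd (nat_lit 468) (nat_lit 2736) (nat_lit 0) (XT.nd (nat_lit 234) (nat_lit 1900) (nat_lit 0) (XT.nd (nat_lit 78) (nat_lit 1444) (nat_lit 0) (XT.lf (nat_lit 0) (nat_lit 485121778) (nat_lit 1748) (nat_lit 2118064712) (nat_lit 1824) (nat_lit 5127351250) (nat_lit 440) (nat_lit 5) (nat_lit 463) (nat_lit 5) (nat_lit 464) (nat_lit 5) (nat_lit 422) (nat_lit 385) (nat_lit 333)) (XT.nd (nat_lit 78) (nat_lit 1444) (nat_lit 0) (XT.lf (nat_lit 0) (nat_lit 4897498760) (nat_lit 1824) (nat_lit 2482355492) (nat_lit 76) (nat_lit 409503630) (nat_lit 440) (nat_lit 5) (nat_lit 464) (nat_lit 5) (nat_lit 441) (nat_lit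 5) (nat_lit 423) (nat_lit 385) (nat_lit 332)) (XT.lf (nat_lit 0) (nat_lit 2354698341) (nat_lit 1444) (nat_lit 4872162850) (nat_lit 1520) (nat_lit 622719820) (nat_lit 421) (nat_lit 5) (nat_lit 440) (nat_lit 5) (nat_lit 441) (nat_lit 5) (nat_lit 424) (nat_lit 385) (nat_lit 331)))) (XT.nd (nat_lit 78) (nat_lit 1824) (nat_lit 0) (XT.lf (nat_lit 0) (nat_lit 1646500468) (nat_lit 1520) (nat_lit 638039727) (nat_lit 76) (nat_lit 5626720470) (nat_lit 420) (nat_lit 5) (nat_lit 440) (nat_lit 5) (nat_lit 421) (nat_lit 5) (nat_lit 425) (nat_lit 385) (nat_lit 330)) (XT.nd (nat_lit 78) (nat_lit 912) (nat_lit 0) (XT.lf (nat_lit 0) (nat_lit 3944321163) (nat_lit 988) (nat_lit 3645888360) (nat_lit 76) (nat_lit 384060273) (nat_lit 408) (nat_lit 5) (nat_lit 421) (nat_lit 5) (nat_lit 409) (nat_lit 5) (nat_lit 426) (nat_lit 385) (nat_lit 329)) (XT.lf (nat_lit 0) (nat_lit 1328391512) (nat_lit 912) (nat_lit 4949202486) (nat_lit 988) (nat_lit 1761164309)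 (nat_lit 396) (nat_lit 5) (nat_lit 408) (nat_lit 5) (nat_lit 409) (nat_lit 5) (nat_lit 427) (nat_lit 385) (nat_lit 328))))) (XT.nd (nat_lit 234) (nat_lit 912) (nat_lit 0) (XT.nd (nat_lit 78) (nat_lit 1748) (nat_lit 0) (XT.lf (nat_lit 0) (nat_lit 532051507) (nat_lit 988) (nat_lit 1694687605) (nat_lit 76) (nat_lit 5878008255) (nat_lit 395) (nat_lit 5) (nat_lit 408) (nat_lit 5) (nat_lit 396) (nat_lit 5) (nat_lit 428) (nat_lit 385) (nat_lit 327)) (XT.nd (nat_lit 78) (nat_lit 836) (nat_lit 0) (XT.lf (nat_lit 0) (nat_lit 2835982706) (nat_lit 988) (nat_lit 4759193140) (nat_lit 76) (nat_lit 576887461) (nat_lit 383) (nat_lit 5) (nat_lit 396) (nat_lit 5) (nat_lit 384) (nat_lit 5) (nat_lit 429) (nat_lit 385) (nat_lit 326)) (XT.lf (nat_lit 0) (nat_lit 356698240) (nat_lit 836) (nat_lit 4820727200) (nat_lit 912) (nat_lit 3063479885) (nat_lit 372) (nat_lit 5) (nat_lit 383) (nat_lit 5) (nat_lit 384) (nat_lit 5) (nat_lit 430) (nat_lit 385)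 (nat_lit 325)))) (XT.nd (nat_lit 78) (nat_lit 912) (nat_lit 0) (XT.lf (nat_lit 0) (nat_lit 5601460049) (nat_lit 836) (nat_lit 1959577030) (nat_lit 912) (nat_lit 750188553) (nat_lit 372) (nat_lit 5) (nat_lit 383) (nat_lit 5) (nat_lit 384) (nat_lit 5) (nat_lit 431) (nat_lit 385) (nat_lit 324)) (XT.nd (nat_lit 78) (nat_lit 0) (nat_lit 0) (XT.lf (nat_lit 0) (nat_lit 1575109708) (nat_lit 912) (nat_lit 5836034018) (nat_lit 76) (nat_lit 971870605) (nat_lit 360) (nat_lit 5) (nat_lit 372) (nat_lit 5) (nat_lit 361) (nat_lit 5) (nat_lit 432) (nat_lit 385) (nat_lit 323)) (XT.lf (nat_lit 0) (nat_lit 3932488840) (nat_lit 912) (nat_lit 566512781) (nat_lit 76) (nat_lit 3957233386) (nat_lit 360) (nat_lit 5) (nat_lit 372) (nat_lit 5) (nat_lit 361) (nat_lit 5) (nat_lit 433) (nat_lit 385) (nat_lit 322))))))) (XT.nd (nat_lit 936) (nat_lit 4864) (nat_lit 0) (XT.nd (nat_lit 468) (nat_lit 2812) (nat_lit 0) (XT.nd (nat_lit 234) (nat_lit 1596) (nat_lit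 0) (XT.nd (nat_lit 78) (nat_lit 836) (nat_lit 0) (XT.lf (nat_lit 0) (nat_lit 4834386574) (nat_lit 760) (nat_lit 1499045290) (nat_lit 836) (nat_lit 2197567528) (nat_lit 350) (nat_lit 5) (nat_lit 360) (nat_lit 5) (nat_lit 361) (nat_lit 5) (nat_lit 434) (nat_lit 385) (nat_lit 321)) (XT.nd (nat_lit 78) (nat_lit 0) (nat_lit 0) (XT.lf (nat_lit 0) (nat_lit 163341202) (nat_lit 836) (nat_lit 6890203927) (nat_lit 76) (nat_lit 1553888454) (nat_lit 339) (nat_lit 5) (nat_lit 350) (nat_lit 5) (nat_lit 340) (nat_lit 5) (nat_lit 435) (nat_lit 385) (nat_lit 320)) (XT.lf (nat_lit 0) (nat_lit 2542623703) (nat_lit 836) (nat_lit 1458153396) (nat_lit 76) (nat_lit 4684324402) (nat_lit 339) (nat_lit 5) (nat_lit 350) (nat_lit 5) (nat_lit 340) (nat_lit 5) (nat_lit 436) (nat_lit 385) (nat_lit 319)))) (XT.nd (nat_lit 78) (nat_lit 836) (nat_lit 0) (XT.lf (nat_lit 0) (nat_lit 4098977914) (nat_lit 760) (nat_lit 863456213) (nat_lit 836) (nat_lit 3802036849)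 (nat_lit 329) (nat_lit 5) (nat_lit 339) (nat_lit 5) (nat_lit 340) (nat_lit 5) (nat_lit 437) (nat_lit 385) (nat_lit 318)) (XT.nd (nat_lit 78) (nat_lit 76) (nat_lit 0) (XT.lf (nat_lit 0) (nat_lit 900641140) (nat_lit 760) (nat_lit 6527591471) (nat_lit 836) (nat_lit 1417250296) (nat_lit 319) (nat_lit 5) (nat_lit 329) (nat_lit 5) (nat_lit 330) (nat_lit 5) (nat_lit 438) (nat_lit 385) (nat_lit 317)) (XT.lf (nat_lit 0) (nat_lit 1006059062) (nat_lit 836) (nat_lit 2336584961) (nat_lit 76) (nat_lit 5585263019) (nat_lit 318) (nat_lit 5) (nat_lit 329) (nat_lit 5) (nat_lit 319) (nat_lit 5) (nat_lit 439) (nat_lit 385) (nat_lit 316))))) (XT.nd (nat_lit 234) (nat_lit 1444) (nat_lit 0) (XT.nd (nat_lit 78) (nat_lit 684) (nat_lit 0) (XT.lf (nat_lit 0) (nat_lit 3381626458) (nat_lit 684) (nat_lit 66762043) (nat_lit 760) (nat_lit 5563619688) (nat_lit 309) (nat_lit 5) (nat_lit 318) (nat_lit 5) (nat_lit 319) (nat_lit 5) (nat_lit 440) (nat_lit 385)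 (nat_lit 315)) (XT.nd (nat_lit 78) (nat_lit 0) (nat_lit 0) (XT.lf (nat_lit 0) (nat_lit 90675215) (nat_lit 684) (nat_lit 5854444721) (nat_lit 760) (nat_lit 3152566692) (nat_lit 300) (nat_lit 5) (nat_lit 309) (nat_lit 5) (nat_lit 310) (nat_lit 5) (nat_lit 441) (nat_lit 385) (nat_lit 314)) (XT.lf (nat_lit 0) (nat_lit 5964727202) (nat_lit 684) (nat_lit 2533589665) (nat_lit 760) (nat_lit 686637406) (nat_lit 300) (nat_lit 5) (nat_lit 309) (nat_lit 5) (nat_lit 310) (nat_lit 5) (nat_lit 442) (nat_lit 385) (nat_lit 313)))) (XT.nd (nat_lit 78) (nat_lit 684) (nat_lit 0) (XT.lf (nat_lit 0) (nat_lit 1796370488) (nat_lit 760) (nat_lit 6611286388) (nat_lit 76) (nat_lit 866244104) (nat_lit 290) (nat_lit 5) (nat_lit 300) (nat_lit 5) (nat_lit 291) (nat_lit 5) (nat_lit 443) (nat_lit 385) (nat_lit 312)) (XT.nd (nat_lit 78) (nat_lit 684) (nat_lit 0) (XT.lf (nat_lit 0) (nat_lit 4327439599) (nat_lit 760) (nat_lit 716231956) (nat_lit 76) (nat_lit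 4320718282) (nat_lit 290) (nat_lit 5) (nat_lit 300) (nat_lit 5) (nat_lit 291) (nat_lit 5) (nat_lit 444) (nat_lit 385) (nat_lit 311)) (XT.lf (nat_lit 0) (nat_lit 5330027315) (nat_lit 684) (nat_lit 1583370880) (nat_lit 760) (nat_lit 2543210693) (nat_lit 281) (nat_lit 5) (nat_lit 290) (nat_lit 5) (nat_lit 291) (nat_lit 5) (nat_lit 445) (nat_lit 385) (nat_lit 310)))))) (XT.nd (nat_lit 468) (nat_lit 2280) (nat_lit 0) (XT.nd (nat_lit 234) (nat_lit 1292) (nat_lit 0) (XT.nd (nat_lit 78) (nat_lit 608) (nat_lit 0) (XT.lf (nat_lit 0) (nat_lit 390295) (nat_lit 684) (nat_lit 7618587540) (nat_lit 76) (nat_lit 1931700147) (nat_lit 272) (nat_lit 5) (nat_lit 281) (nat_lit 5) (nat_lit 273) (nat_lit 5) (nat_lit 446) (nat_lit 385) (nat_lit 309)) (XT.nd (nat_lit 78) (nat_lit 608) (nat_lit 0) (XT.lf (nat_lit 0) (nat_lit 2569330274) (nat_lit 684) (nat_lit 1542796623) (nat_lit 76) (nat_lit 5534000380) (nat_lit 272) (nat_lit 5) (nat_lit 281) (nat_lit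 5) (nat_lit 273) (nat_lit 5) (nat_lit 447) (nat_lit 385) (nat_lit 308)) (XT.lf (nat_lit 0) (nat_lit 4679527014) (nat_lit 608) (nat_lit 511218266) (nat_lit 684) (nat_lit 4552723692) (nat_lit 264) (nat_lit 5) (nat_lit 272) (nat_lit 5) (nat_lit 273) (nat_lit 5) (nat_lit 448) (nat_lit 385) (nat_lit 307)))) (XT.nd (nat_lit 78) (nat_lit 684) (nat_lit 0) (XT.lf (nat_lit 0) (nat_lit 1162657322) (nat_lit 608) (nat_lit 6711436287) (nat_lit 684) (nat_lit 1968479024) (nat_lit 256) (nat_lit 5) (nat_lit 264) (nat_lit 5) (nat_lit 265) (nat_lit 5) (nat_lit 449) (nat_lit 385) (nat_lit 306)) (XT.nd (nat_lit 78) (nat_lit 608) (nat_lit 0) (XT.lf (nat_lit 0) (nat_lit 667433147) (nat_lit 684) (nat_lit 2405292932) (nat_lit 76) (nat_lit 6870675920) (nat_lit 255) (nat_lit 5) (nat_lit 264) (nat_lit 5) (nat_lit 256) (nat_lit 5) (nat_lit 450) (nat_lit 385) (nat_lit 305)) (XT.lf (nat_lit 0) (nat_lit 3331753602) (nat_lit 684) (nat_lit 6052251866) (nat_lit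 76) (nat_lit 661946224) (nat_lit 247) (nat_lit 5) (nat_lit 256) (nat_lit 5) (nat_lit 248) (nat_lit 5) (nat_lit 451) (nat_lit 385) (nat_lit 304))))) (XT.nd (nat_lit 234) (nat_lit 1064) (nat_lit 0) (XT.nd (nat_lit 78) (nat_lit 684) (nat_lit 0) (XT.lf (nat_lit 0) (nat_lit 350836645) (nat_lit 532) (nat_lit 5709379243) (nat_lit 608) (nat_lit 4090124217) (nat_lit 240) (nat_lit 5) (nat_lit 247) (nat_lit 5) (nat_lit 248) (nat_lit 5) (nat_lit 452) (nat_lit 385) (nat_lit 303)) (XT.nd (nat_lit 78) (nat_lit 684) (nat_lit 0) (XT.lf (nat_lit 0) (nat_lit 6927910152) (nat_lit 532) (nat_lit 1928246672) (nat_lit 608) (nat_lit 1400406014) (nat_lit 240) (nat_lit 5) (nat_lit 247) (nat_lit 5) (nat_lit 248) (nat_lit 5) (nat_lit 453) (nat_lit 385) (nat_lit 302)) (XT.lf (nat_lit 0) (nat_lit 1332041653) (nat_lit 684) (nat_lit 7107522204) (nat_lit 76) (nat_lit 1925045311) (nat_lit 231) (nat_lit 5) (nat_lit 240) (nat_lit 5) (nat_lit 232) (nat_lit 5) (nat_lit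 454) (nat_lit 385) (nat_lit 301)))) (XT.nd (nat_lit 78) (nat_lit 1064) (nat_lit 0) (XT.lf (nat_lit 0) (nat_lit 4108563760) (nat_lit 684) (nat_lit 512930643) (nat_lit 76) (nat_lit 5852977818) (nat_lit 231) (nat_lit 5) (nat_lit 240) (nat_lit 5) (nat_lit 232) (nat_lit 5) (nat_lit 455) (nat_lit 385) (nat_lit 300)) (XT.nd (nat_lit 78) (nat_lit 532) (nat_lit 0) (XT.lf (nat_lit 0) (nat_lit 6260333499) (nat_lit 532) (nat_lit 694364941) (nat_lit 608) (nat_lit 3631556832) (nat_lit 224) (nat_lit 5) (nat_lit 231) (nat_lit 5) (nat_lit 232) (nat_lit 5) (nat_lit 456) (nat_lit 385) (nat_lit 299)) (XT.lf (nat_lit 0) (nat_lit 2450867571) (nat_lit 532) (nat_lit 7421436573) (nat_lit 608) (nat_lit 827683164) (nat_lit 217) (nat_lit 5) (nat_lit 224) (nat_lit 5) (nat_lit 225) (nat_lit 5) (nat_lit 457) (nat_lit 385) (nat_lit 298))))))))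
noncomputable def xc102 : XT := (XT.nd (nat_lit 1794) (nat_lit 4788) (nat_lit 0) (XT.nd (nat_lit 858) (nat_lit 2964) (nat_lit 0) (XT.nd (nat_lit 390) (nat_lit 1824) (nat_lit 0) (XT.nd (nat_lit 156) (nat_lit 1064) (nat_lit 0) (XT.nd (nat_lit 78) (nat_lit 456) (nat_lit 0) (XT.lf (nat_lit 0) (nat_lit 2013216198) (nat_lit 608) (nat_lit 1447250478) (nat_lit 76) (nat_lit 7355115503) (nat_lit 216) (nat_lit 5) (nat_lit 224) (nat_lit 5) (nat_lit 217) (nat_lit 5) (nat_lit 458) (nat_lit 385) (nat_lit 297)) (XT.lf (nat_lit 0) (nat_lit 4913991169) (nat_lit 532) (nat_lit 5414536373) (nat_lit 76) (nat_lit 604573226) (nat_lit 210) (nat_lit 5) (nat_lit 217) (nat_lit 5) (nat_lit 211) (nat_lit 5) (nat_lit 459) (nat_lit 385) (nat_lit 296))) (XT.nd (nat_lit 78) (nat_lit 532) (nat_lit 0) (XT.lf (nat_lit 0) (nat_lit 1552715406) (nat_lit 532) (nat_lit 6337354375) (nat_lit 608) (nat_lit 3162558150) (nat_lit 203) (nat_lit 5) (nat_lit 210) (nat_lit 5)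 (nat_lit 211) (nat_lit 5) (nat_lit 460) (nat_lit 385) (nat_lit 295)) (XT.nd (nat_lit 78) (nat_lit 532) (nat_lit 0) (XT.lf (nat_lit 0) (nat_lit 8697733946) (nat_lit 532) (nat_lit 2239056824) (nat_lit 608) (nat_lit 237536340) (nat_lit 203) (nat_lit 5) (nat_lit 210) (nat_lit 5) (nat_lit 211) (nat_lit 5) (nat_lit 461) (nat_lit 385) (nat_lit 294)) (XT.lf (nat_lit 0) (nat_lit 2728437253) (nat_lit 532) (nat_lit 6614521081) (nat_lit 76) (nat_lit 1954779790) (nat_lit 196) (nat_lit 5) (nat_lit 203) (nat_lit 5) (nat_lit 197) (nat_lit 5) (nat_lit 462) (nat_lit 385) (nat_lit 293))))) (XT.nd (nat_lit 234) (nat_lit 836) (nat_lit 0) (XT.nd (nat_lit 78) (nat_lit 532) (nat_lit 0) (XT.lf (nat_lit 0) (nat_lit 552415719) (nat_lit 456) (nat_lit 5208595650) (nat_lit 532) (nat_lit 5662369019) (nat_lit 190) (nat_lit 5) (nat_lit 196) (nat_lit 5) (nat_lit 197) (nat_lit 5) (nat_lit 463) (nat_lit 385) (nat_lit 292)) (XT.nd (nat_lit 78) (nat_lit 532) (nat_lit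 0) (XT.lf (nat_lit 0) (nat_lit 7917754634) (nat_lit 456) (nat_lit 956443190) (nat_lit 532) (nat_lit 2676942048) (nat_lit 190) (nat_lit 5) (nat_lit 196) (nat_lit 5) (nat_lit 197) (nat_lit 5) (nat_lit 464) (nat_lit 385) (nat_lit 291)) (XT.lf (nat_lit 0) (nat_lit 385740316) (nat_lit 532) (nat_lit 7941819531) (nat_lit 76) (nat_lit 3353402824) (nat_lit 183) (nat_lit 5) (nat_lit 190) (nat_lit 5) (nat_lit 184) (nat_lit 5) (nat_lit 465) (nat_lit 385) (nat_lit 290)))) (XT.nd (nat_lit 78) (nat_lit 836) (nat_lit 0) (XT.lf (nat_lit 0) (nat_lit 3480819740) (nat_lit 532) (nat_lit 563177254) (nat_lit 76) (nat_lit 7768894672) (nat_lit 183) (nat_lit 5) (nat_lit 190) (nat_lit 5) (nat_lit 184) (nat_lit 5) (nat_lit 466) (nat_lit 385) (nat_lit 289)) (XT.nd (nat_lit 78) (nat_lit 380) (nat_lit 0) (XT.lf (nat_lit 0) (nat_lit 6662280569) (nat_lit 532) (nat_lit 4927999974) (nat_lit 76) (nat_lit 356692421) (nat_lit 177) (nat_lit 5) (nat_lit 184) (nat_lit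 5) (nat_lit 178) (nat_lit 5) (nat_lit 467) (nat_lit 385) (nat_lit 288)) (XT.lf (nat_lit 0) (nat_lit 2650762571) (nat_lit 380) (nat_lit 7281125142) (nat_lit 456) (nat_lit 2151361086) (nat_lit 172) (nat_lit 5) (nat_lit 177) (nat_lit 5) (nat_lit 178) (nat_lit 5) (nat_lit 468) (nat_lit 385) (nat_lit 287)))))) (XT.nd (nat_lit 468) (nat_lit 1596) (nat_lit 0) (XT.nd (nat_lit 234) (nat_lit 456) (nat_lit 0) (XT.nd (nat_lit 78) (nat_lit 836) (nat_lit 0) (XT.lf (nat_lit 0) (nat_lit 1041027460) (nat_lit 456) (nat_lit 1814713823) (nat_lit 76) (nat_lit 9366174521) (nat_lit 171) (nat_lit 5) (nat_lit 177) (nat_lit 5) (nat_lit 172) (nat_lit 5) (nat_lit 469) (nat_lit 385) (nat_lit 286)) (XT.nd (nat_lit 78) (nat_lit 380) (nat_lit 0) (XT.lf (nat_lit 0) (nat_lit 4295657377) (nat_lit 532) (nat_lit 6387479277) (nat_lit 76) (nat_lit 1679394144) (nat_lit 165) (nat_lit 5) (nat_lit 172) (nat_lit 5) (nat_lit 166) (nat_lit 5) (nat_lit 470) (nat_lit 385)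 (nat_lit 285)) (XT.lf (nat_lit 0) (nat_lit 1405414038) (nat_lit 380) (nat_lit 6227680630) (nat_lit 456) (nat_lit 4872512134) (nat_lit 160) (nat_lit 5) (nat_lit 165) (nat_lit 5) (nat_lit 166) (nat_lit 5) (nat_lit 471) (nat_lit 385) (nat_lit 284)))) (XT.nd (nat_lit 78) (nat_lit 456) (nat_lit 0) (XT.lf (nat_lit 0) (nat_lit 9407447785) (nat_lit 380) (nat_lit 1650342180) (nat_lit 456) (nat_lit 1593347122) (nat_lit 160) (nat_lit 5) (nat_lit 165) (nat_lit 5) (nat_lit 166) (nat_lit 5) (nat_lit 472) (nat_lit 385) (nat_lit 283)) (XT.nd (nat_lit 78) (nat_lit 0) (nat_lit 0) (XT.lf (nat_lit 0) (nat_lit 1757266085) (nat_lit 456) (nat_lit 8030552199) (nat_lit 76) (nat_lit 3010958406) (nat_lit 154) (nat_lit 5) (nat_lit 160) (nat_lit 5) (nat_lit 155) (nat_lit 5) (nat_lit 473) (nat_lit 385) (nat_lit 282)) (XT.lf (nat_lit 0) (nat_lit 5164502719) (nat_lit 456) (nat_lit 19310379) (nat_lit 76) (nat_lit 7765129201) (nat_lit 154) (nat_lit 5) (nat_lit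 160) (nat_lit 5) (nat_lit 155) (nat_lit 5) (nat_lit 474) (nat_lit 385) (nat_lit 281))))) (XT.nd (nat_lit 234) (nat_lit 760) (nat_lit 0) (XT.nd (nat_lit 78) (nat_lit 456) (nat_lit 0) (XT.lf (nat_lit 0) (nat_lit 8227615166) (nat_lit 380) (nat_lit 444203452) (nat_lit 456) (nat_lit 4429656633) (nat_lit 149) (nat_lit 5) (nat_lit 154) (nat_lit 5) (nat_lit 155) (nat_lit 5) (nat_lit 475) (nat_lit 385) (nat_lit 280)) (XT.nd (nat_lit 78) (nat_lit 76) (nat_lit 0) (XT.lf (nat_lit 0) (nat_lit 3365730689) (nat_lit 380) (nat_lit 8912693430) (nat_lit 456) (nat_lit 978054547) (nat_lit 144) (nat_lit 5) (nat_lit 149) (nat_lit 5) (nat_lit 150) (nat_lit 5) (nat_lit 476) (nat_lit 385) (nat_lit 279)) (XT.lf (nat_lit 0) (nat_lit 2523819649) (nat_lit 456) (nat_lit 1630076910) (nat_lit 76) (nat_lit 9260066264) (nat_lit 143) (nat_lit 5) (nat_lit 149) (nat_lit 5) (nat_lit 144) (nat_lit 5) (nat_lit 477) (nat_lit 385) (nat_lit 278)))) (XT.nd (nat_lit 78)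 (nat_lit 380) (nat_lit 0) (XT.lf (nat_lit 0) (nat_lit 6111052765) (nat_lit 456) (nat_lit 6731698194) (nat_lit 76) (nat_lit 731150568) (nat_lit 138) (nat_lit 5) (nat_lit 144) (nat_lit 5) (nat_lit 139) (nat_lit 5) (nat_lit 478) (nat_lit 385) (nat_lit 277)) (XT.nd (nat_lit 78) (nat_lit 0) (nat_lit 0) (XT.lf (nat_lit 0) (nat_lit 1732187041) (nat_lit 380) (nat_lit 8066879625) (nat_lit 456) (nat_lit 3937394083) (nat_lit 133) (nat_lit 5) (nat_lit 138) (nat_lit 5) (nat_lit 139) (nat_lit 5) (nat_lit 479) (nat_lit 385) (nat_lit 276)) (XT.lf (nat_lit 0) (nat_lit 10424657180) (nat_lit 380) (nat_lit 3160825247) (nat_lit 456) (nat_lit 316298314) (nat_lit 133) (nat_lit 5) (nat_lit 138) (nat_lit 5) (nat_lit 139) (nat_lit 5) (nat_lit 480) (nat_lit 385) (nat_lit 275))))))) (XT.nd (nat_lit 936) (nat_lit 1976) (nat_lit 0) (XT.nd (nat_lit 468) (nat_lit 1368) (nat_lit 0) (XT.nd (nat_lit 234) (nat_lit 684) (nat_lit 0) (XT.nd (nat_lit 78) (nat_lit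 380) (nat_lit 0) (XT.lf (nat_lit 0) (nat_lit 3358920661) (nat_lit 380) (nat_lit 8846239576) (nat_lit 76) (nat_lit 1864290794) (nat_lit 128) (nat_lit 5) (nat_lit 133) (nat_lit 5) (nat_lit 129) (nat_lit 5) (nat_lit 481) (nat_lit 385) (nat_lit 274)) (XT.nd (nat_lit 78) (nat_lit 380) (nat_lit 0) (XT.lf (nat_lit 0) (nat_lit 7127688674) (nat_lit 380) (nat_lit 150213898) (nat_lit 76) (nat_lit 6962047019) (nat_lit 128) (nat_lit 5) (nat_lit 133) (nat_lit 5) (nat_lit 129) (nat_lit 5) (nat_lit 482) (nat_lit 385) (nat_lit 273)) (XT.lf (nat_lit 0) (nat_lit 8804111063) (nat_lit 380) (nat_lit 2205133564) (nat_lit 456) (nat_lit 3403867478) (nat_lit 123) (nat_lit 5) (nat_lit 128) (nat_lit 5) (nat_lit 129) (nat_lit 5) (nat_lit 483) (nat_lit 385) (nat_lit 272)))) (XT.nd (nat_lit 78) (nat_lit 304) (nat_lit 0) (XT.lf (nat_lit 0) (nat_lit 396235061) (nat_lit 380) (nat_lit 11248700083) (nat_lit 76) (nat_lit 2944305540) (nat_lit 118) (nat_lit 5) (nat_lit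 123) (nat_lit 5) (nat_lit 119) (nat_lit 5) (nat_lit 484) (nat_lit 385) (nat_lit 271)) (XT.nd (nat_lit 78) (nat_lit 304) (nat_lit 0) (XT.lf (nat_lit 0) (nat_lit 4259713110) (nat_lit 380) (nat_lit 2291690659) (nat_lit 76) (nat_lit 8216381154) (nat_lit 118) (nat_lit 5) (nat_lit 123) (nat_lit 5) (nat_lit 119) (nat_lit 5) (nat_lit 485) (nat_lit 385) (nat_lit 270)) (XT.lf (nat_lit 0) (nat_lit 6904362670) (nat_lit 304) (nat_lit 1321726230) (nat_lit 380) (nat_lit 6723300645) (nat_lit 114) (nat_lit 5) (nat_lit 118) (nat_lit 5) (nat_lit 119) (nat_lit 5) (nat_lit 486) (nat_lit 385) (nat_lit 269))))) (XT.nd (nat_lit 234) (nat_lit 684) (nat_lit 0) (XT.nd (nat_lit 78) (nat_lit 380) (nat_lit 0) (XT.lf (nat_lit 0) (nat_lit 1139113717) (nat_lit 304) (nat_lit 11162511846) (nat_lit 380) (nat_lit 2832406053) (nat_lit 110) (nat_lit 5) (nat_lit 114) (nat_lit 5) (nat_lit 115) (nat_lit 5) (nat_lit 487) (nat_lit 385) (nat_lit 268)) (XT.nd (nat_lit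 78) (nat_lit 304) (nat_lit 0) (XT.lf (nat_lit 0) (nat_lit 1165454483) (nat_lit 380) (nat_lit 4752593140) (nat_lit 76) (nat_lit 9403292278) (nat_lit 109) (nat_lit 5) (nat_lit 114) (nat_lit 5) (nat_lit 110) (nat_lit 5) (nat_lit 488) (nat_lit 385) (nat_lit 267)) (XT.lf (nat_lit 0) (nat_lit 4687088958) (nat_lit 304) (nat_lit 530051822) (nat_lit 380) (nat_lit 10294645144) (nat_lit 105) (nat_lit 5) (nat_lit 109) (nat_lit 5) (nat_lit 110) (nat_lit 5) (nat_lit 489) (nat_lit 385) (nat_lit 266)))) (XT.nd (nat_lit 78) (nat_lit 684) (nat_lit 0) (XT.lf (nat_lit 0) (nat_lit 9395629015) (nat_lit 380) (nat_lit 1388169535) (nat_lit 76) (nat_lit 4921328822) (nat_lit 105) (nat_lit 5) (nat_lit 110) (nat_lit 5) (nat_lit 106) (nat_lit 5) (nat_lit 490) (nat_lit 385) (nat_lit 265)) (XT.nd (nat_lit 78) (nat_lit 380) (nat_lit 0) (XT.lf (nat_lit 0) (nat_lit 8312895429) (nat_lit 304) (nat_lit 5384062887) (nat_lit 380) (nat_lit 2204593741) (nat_lit 101)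 (nat_lit 5) (nat_lit 105) (nat_lit 5) (nat_lit 106) (nat_lit 5) (nat_lit 491) (nat_lit 385) (nat_lit 264)) (XT.lf (nat_lit 0) (nat_lit 1962284450) (nat_lit 380) (nat_lit 13992451906) (nat_lit 76) (nat_lit 146795713) (nat_lit 96) (nat_lit 5) (nat_lit 101) (nat_lit 5) (nat_lit 97) (nat_lit 5) (nat_lit 492) (nat_lit 385) (nat_lit 263)))))) (XT.nd (nat_lit 468) (nat_lit 1140) (nat_lit 0) (XT.nd (nat_lit 234) (nat_lit 608) (nat_lit 0) (XT.nd (nat_lit 78) (nat_lit 228) (nat_lit 0) (XT.lf (nat_lit 0) (nat_lit 6251847121) (nat_lit 380) (nat_lit 4281295132) (nat_lit 76) (nat_lit 5770702379) (nat_lit 96) (nat_lit 5) (nat_lit 101) (nat_lit 5) (nat_lit 97) (nat_lit 5) (nat_lit 493) (nat_lit 385) (nat_lit 262)) (XT.nd (nat_lit 78) (nat_lit 0) (nat_lit 0) (XT.lf (nat_lit 0) (nat_lit 5669175653) (nat_lit 228) (nat_lit 4977109579) (nat_lit 304) (nat_lit 5863538224) (nat_lit 93) (nat_lit 5) (nat_lit 96) (nat_lit 5) (nat_lit 97) (nat_lit 5)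 (nat_lit 494) (nat_lit 385) (nat_lit 261)) (XT.lf (nat_lit 0) (nat_lit 15144372576) (nat_lit 304) (nat_lit 876674951) (nat_lit 76) (nat_lit 698560779) (nat_lit 93) (nat_lit 5) (nat_lit 97) (nat_lit 5) (nat_lit 94) (nat_lit 5) (nat_lit 495) (nat_lit 385) (nat_lit 260)))) (XT.nd (nat_lit 78) (nat_lit 228) (nat_lit 0) (XT.lf (nat_lit 0) (nat_lit 2838986561) (nat_lit 380) (nat_lit 7603302897) (nat_lit 76) (nat_lit 6489400334) (nat_lit 88) (nat_lit 5) (nat_lit 93) (nat_lit 5) (nat_lit 89) (nat_lit 5) (nat_lit 496) (nat_lit 385) (nat_lit 259)) (XT.nd (nat_lit 78) (nat_lit 0) (nat_lit 0) (XT.lf (nat_lit 0) (nat_lit 2596305013) (nat_lit 228) (nat_lit 4729638994) (nat_lit 304) (nat_lit 9821751356) (nat_lit 85) (nat_lit 5) (nat_lit 88) (nat_lit 5) (nat_lit 89) (nat_lit 5) (nat_lit 497) (nat_lit 385) (nat_lit 258)) (XT.lf (nat_lit 0) (nat_lit 11943947079) (nat_lit 304) (nat_lit 4300385342) (nat_lit 76) (nat_lit 1122864027) (nat_lit 85)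 (nat_lit 5) (nat_lit 89) (nat_lit 5) (nat_lit 86) (nat_lit 5) (nat_lit 498) (nat_lit 385) (nat_lit 257))))) (XT.nd (nat_lit 234) (nat_lit 532) (nat_lit 0) (XT.nd (nat_lit 78) (nat_lit 304) (nat_lit 0) (XT.lf (nat_lit 0) (nat_lit 6177004163) (nat_lit 304) (nat_lit 10531892437) (nat_lit 380) (nat_lit 881100730) (nat_lit 81) (nat_lit 5) (nat_lit 85) (nat_lit 5) (nat_lit 86) (nat_lit 5) (nat_lit 499) (nat_lit 385) (nat_lit 256)) (XT.nd (nat_lit 78) (nat_lit 228) (nat_lit 0) (XT.lf (nat_lit 0) (nat_lit 3714927692) (nat_lit 380) (nat_lit 947358069) (nat_lit 76) (nat_lit 13154237848) (nat_lit 80) (nat_lit 5) (nat_lit 85) (nat_lit 5) (nat_lit 81) (nat_lit 5) (nat_lit 500) (nat_lit 385) (nat_lit 255)) (XT.lf (nat_lit 0) (nat_lit 8447378168) (nat_lit 304) (nat_lit 8232733662) (nat_lit 76) (nat_lit 1366227529) (nat_lit 77) (nat_lit 5) (nat_lit 81) (nat_lit 5) (nat_lit 78) (nat_lit 5) (nat_lit 501) (nat_lit 385) (nat_lit 254)))) (XT.nd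 (nat_lit 78) (nat_lit 304) (nat_lit 0) (XT.lf (nat_lit 0) (nat_lit 2495942690) (nat_lit 228) (nat_lit 10815610181) (nat_lit 304) (nat_lit 4968458438) (nat_lit 74) (nat_lit 5) (nat_lit 77) (nat_lit 5) (nat_lit 78) (nat_lit 5) (nat_lit 502) (nat_lit 385) (nat_lit 253)) (XT.nd (nat_lit 78) (nat_lit 304) (nat_lit 0) (XT.lf (nat_lit 0) (nat_lit 13523092831) (nat_lit 228) (nat_lit 4788900529) (nat_lit 304) (nat_lit 205585051) (nat_lit 74) (nat_lit 5) (nat_lit 77) (nat_lit 5) (nat_lit 78) (nat_lit 5) (nat_lit 503) (nat_lit 385) (nat_lit 252)) (XT.lf (nat_lit 0) (nat_lit 4623846887) (nat_lit 304) (nat_lit 12735607001) (nat_lit 76) (nat_lit 1399193728) (nat_lit 70) (nat_lit 5) (nat_lit 74) (nat_lit 5) (nat_lit 71) (nat_lit 5) (nat_lit 504) (nat_lit 385) (nat_lit 251))))))))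
noncomputable def xc103 : XT := (XT.nd (nat_lit 51714) (nat_lit 0) (nat_lit 24016) (XT.nd (nat_lit 50778) (nat_lit 0) (nat_lit 42788) (XT.nd (nat_lit 50310) (nat_lit 0) (nat_lit 47120) (XT.nd (nat_lit 50076) (nat_lit 0) (nat_lit 48336) (XT.nd (nat_lit 78) (nat_lit 228) (nat_lit 0) (XT.lf (nat_lit 0) (nat_lit 9596582728) (nat_lit 304) (nat_lit 1735981472) (nat_lit 76) (nat_lit 7670958749) (nat_lit 70) (nat_lit 5) (nat_lit 74) (nat_lit 5) (nat_lit 71) (nat_lit 5) (nat_lit 505) (nat_lit 385) (nat_lit 250)) (XT.lf (nat_lit 0) (nat_lit 9582415134) (nat_lit 228) (nat_lit 5132900325) (nat_lit 304) (nat_lit 4537050742) (nat_lit 67) (nat_lit 5) (nat_lit 70) (nat_lit 5) (nat_lit 71) (nat_lit 5) (nat_lit 506) (nat_lit 385) (nat_lit 249))) (XT.nd (nat_lit 78) (nat_lit 532) (nat_lit 0) (XT.lf (nat_lit 0) (nat_lit 1158321908) (nat_lit 532) (nat_lit 1048632717) (nat_lit 532) (nat_lit 1048632717) (nat_lit 710) (nat_lit 3) (nat_lit 717) (nat_lit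 3) (nat_lit 717) (nat_lit 5) (nat_lit 386) (nat_lit 386) (nat_lit 368)) (XT.nd (nat_lit 78) (nat_lit 532) (nat_lit 0) (XT.lf (nat_lit 76) (nat_lit 1103106472) (nat_lit 0) (nat_lit 3836004083) (nat_lit 532) (nat_lit 1584236301) (nat_lit 711) (nat_lit 5) (nat_lit 710) (nat_lit 3) (nat_lit 717) (nat_lit 5) (nat_lit 387) (nat_lit 386) (nat_lit 367)) (XT.lf (nat_lit 0) (nat_lit 1009592078) (nat_lit 532) (nat_lit 2182747463) (nat_lit 608) (nat_lit 3344398043) (nat_lit 703) (nat_lit 5) (nat_lit 710) (nat_lit 3) (nat_lit 711) (nat_lit 5) (nat_lit 388) (nat_lit 386) (nat_lit 366))))) (XT.nd (nat_lit 234) (nat_lit 608) (nat_lit 0) (XT.nd (nat_lit 78) (nat_lit 608) (nat_lit 0) (XT.lf (nat_lit 76) (nat_lit 1087891913) (nat_lit 0) (nat_lit 2485924928) (nat_lit 608) (nat_lit 2977599236) (nat_lit 704) (nat_lit 5) (nat_lit 703) (nat_lit 5) (nat_lit 711) (nat_lit 5) (nat_lit 389) (nat_lit 386) (nat_lit 365)) (XT.nd (nat_lit 78) (nat_lit 608)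 (nat_lit 0) (XT.lf (nat_lit 76) (nat_lit 4418384886) (nat_lit 0) (nat_lit 1719330595) (nat_lit 608) (nat_lit 429728442) (nat_lit 704) (nat_lit 5) (nat_lit 703) (nat_lit 5) (nat_lit 711) (nat_lit 5) (nat_lit 390) (nat_lit 386) (nat_lit 364)) (XT.lf (nat_lit 76) (nat_lit 1197974107) (nat_lit 0) (nat_lit 885043744) (nat_lit 684) (nat_lit 4501668140) (nat_lit 696) (nat_lit 5) (nat_lit 695) (nat_lit 5) (nat_lit 704) (nat_lit 5) (nat_lit 391) (nat_lit 386) (nat_lit 363)))) (XT.nd (nat_lit 78) (nat_lit 684) (nat_lit 0) (XT.lf (nat_lit 0) (nat_lit 4590398601) (nat_lit 608) (nat_lit 2000242008) (nat_lit 684) (nat_lit 12595019) (nat_lit 696) (nat_lit 5) (nat_lit 704) (nat_lit 5) (nat_lit 705) (nat_lit 5) (nat_lit 392) (nat_lit 386) (nat_lit 362)) (XT.nd (nat_lit 78) (nat_lit 0) (nat_lit 0) (XT.lf (nat_lit 0) (nat_lit 470780144) (nat_lit 684) (nat_lit 5195265372) (nat_lit 760) (nat_lit 957025717) (nat_lit 687) (nat_lit 5) (nat_lit 696)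 (nat_lit 5) (nat_lit 697) (nat_lit 5) (nat_lit 393) (nat_lit 386) (nat_lit 361)) (XT.lf (nat_lit 0) (nat_lit 2928316245) (nat_lit 684) (nat_lit 1741437105) (nat_lit 760) (nat_lit 1974281064) (nat_lit 687) (nat_lit 5) (nat_lit 696) (nat_lit 5) (nat_lit 697) (nat_lit 5) (nat_lit 394) (nat_lit 386) (nat_lit 360)))))) (XT.nd (nat_lit 468) (nat_lit 2812) (nat_lit 0) (XT.nd (nat_lit 234) (nat_lit 760) (nat_lit 0) (XT.nd (nat_lit 78) (nat_lit 760) (nat_lit 0) (XT.lf (nat_lit 76) (nat_lit 1768871138) (nat_lit 0) (nat_lit 3616500643) (nat_lit 760) (nat_lit 1281058221) (nat_lit 688) (nat_lit 5) (nat_lit 687) (nat_lit 5) (nat_lit 697) (nat_lit 5) (nat_lit 395) (nat_lit 386) (nat_lit 359)) (XT.nd (nat_lit 78) (nat_lit 0) (nat_lit 0) (XT.lf (nat_lit 0) (nat_lit 1137723275) (nat_lit 760) (nat_lit 1360316861) (nat_lit 836) (nat_lit 4192073032) (nat_lit 677) (nat_lit 5) (nat_lit 687) (nat_lit 5) (nat_lit 688) (nat_lit 5) (nat_lit 396) (nat_lit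 386) (nat_lit 358)) (XT.lf (nat_lit 76) (nat_lit 2232798355) (nat_lit 0) (nat_lit 1310062416) (nat_lit 836) (nat_lit 3172156533) (nat_lit 678) (nat_lit 5) (nat_lit 677) (nat_lit 5) (nat_lit 688) (nat_lit 5) (nat_lit 397) (nat_lit 386) (nat_lit 357)))) (XT.nd (nat_lit 78) (nat_lit 760) (nat_lit 0) (XT.lf (nat_lit 76) (nat_lit 5880778659) (nat_lit 0) (nat_lit 66005913) (nat_lit 836) (nat_lit 794640235) (nat_lit 678) (nat_lit 5) (nat_lit 677) (nat_lit 5) (nat_lit 688) (nat_lit 5) (nat_lit 398) (nat_lit 386) (nat_lit 356)) (XT.nd (nat_lit 78) (nat_lit 0) (nat_lit 0) (XT.lf (nat_lit 0) (nat_lit 1577829197) (nat_lit 836) (nat_lit 3952813359) (nat_lit 912) (nat_lit 1238148685) (nat_lit 667) (nat_lit 5) (nat_lit 678) (nat_lit 5) (nat_lit 679) (nat_lit 5) (nat_lit 399) (nat_lit 386) (nat_lit 355)) (XT.lf (nat_lit 0) (nat_lit 3936713546) (nat_lit 836) (nat_lit 261113146) (nat_lit 912) (nat_lit 2599799008) (nat_lit 667) (nat_lit 5) (nat_lit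 678) (nat_lit 5) (nat_lit 679) (nat_lit 5) (nat_lit 400) (nat_lit 386) (nat_lit 354))))) (XT.nd (nat_lit 234) (nat_lit 1900) (nat_lit 0) (XT.nd (nat_lit 78) (nat_lit 912) (nat_lit 0) (XT.lf (nat_lit 76) (nat_lit 3514647243) (nat_lit 0) (nat_lit 2795403693) (nat_lit 912) (nat_lit 517657918) (nat_lit 668) (nat_lit 5) (nat_lit 667) (nat_lit 5) (nat_lit 679) (nat_lit 5) (nat_lit 401) (nat_lit 386) (nat_lit 353)) (XT.nd (nat_lit 78) (nat_lit 0) (nat_lit 76) (XT.lf (nat_lit 76) (nat_lit 468700191) (nat_lit 0) (nat_lit 1328945039) (nat_lit 988) (nat_lit 5061527300) (nat_lit 656) (nat_lit 5) (nat_lit 655) (nat_lit 5) (nat_lit 668) (nat_lit 5) (nat_lit 402) (nat_lit 386) (nat_lit 352)) (XT.lf (nat_lit 0) (nat_lit 4121689360) (nat_lit 912) (nat_lit 2561833495) (nat_lit 76) (nat_lit 208303363) (nat_lit 656) (nat_lit 5) (nat_lit 668) (nat_lit 5) (nat_lit 657) (nat_lit 5) (nat_lit 403) (nat_lit 386) (nat_lit 351)))) (XT.nd (nat_lit 78)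 (nat_lit 1064) (nat_lit 0) (XT.lf (nat_lit 0) (nat_lit 1315198153) (nat_lit 912) (nat_lit 5141314164) (nat_lit 988) (nat_lit 469350885) (nat_lit 644) (nat_lit 5) (nat_lit 656) (nat_lit 5) (nat_lit 657) (nat_lit 5) (nat_lit 404) (nat_lit 386) (nat_lit 350)) (XT.nd (nat_lit 78) (nat_lit 988) (nat_lit 0) (XT.lf (nat_lit 0) (nat_lit 1817532839) (nat_lit 988) (nat_lit 1705145515) (nat_lit 76) (nat_lit 3438380226) (nat_lit 643) (nat_lit 5) (nat_lit 656) (nat_lit 5) (nat_lit 644) (nat_lit 5) (nat_lit 405) (nat_lit 386) (nat_lit 349)) (XT.lf (nat_lit 0) (nat_lit 2268757093) (nat_lit 988) (nat_lit 1838280094) (nat_lit 1064) (nat_lit 2890610525) (nat_lit 630) (nat_lit 5) (nat_lit 643) (nat_lit 5) (nat_lit 644) (nat_lit 5) (nat_lit 406) (nat_lit 386) (nat_lit 348))))))) (XT.nd (nat_lit 936) (nat_lit 9424) (nat_lit 0) (XT.nd (nat_lit 468) (nat_lit 5776) (nat_lit 0) (XT.nd (nat_lit 234) (nat_lit 1292) (nat_lit 0) (XT.nd (nat_lit 78) (nat_lit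 2280) (nat_lit 0) (XT.lf (nat_lit 0) (nat_lit 6309116565) (nat_lit 988) (nat_lit 93865425) (nat_lit 1064) (nat_lit 632788576) (nat_lit 630) (nat_lit 5) (nat_lit 643) (nat_lit 5) (nat_lit 644) (nat_lit 5) (nat_lit 407) (nat_lit 386) (nat_lit 347)) (XT.nd (nat_lit 78) (nat_lit 1140) (nat_lit 0) (XT.lf (nat_lit 0) (nat_lit 1631162271) (nat_lit 1140) (nat_lit 3733624013) (nat_lit 76) (nat_lit 1710009535) (nat_lit 615) (nat_lit 5) (nat_lit 630) (nat_lit 5) (nat_lit 616) (nat_lit 5) (nat_lit 408) (nat_lit 386) (nat_lit 346)) (XT.lf (nat_lit 0) (nat_lit 348466506) (nat_lit 1140) (nat_lit 3541950806) (nat_lit 1216) (nat_lit 3224944730) (nat_lit 600) (nat_lit 5) (nat_lit 615) (nat_lit 5) (nat_lit 616) (nat_lit 5) (nat_lit 409) (nat_lit 386) (nat_lit 345)))) (XT.nd (nat_lit 78) (nat_lit 1292) (nat_lit 0) (XT.lf (nat_lit 0) (nat_lit 4526093056) (nat_lit 1140) (nat_lit 1645244978) (nat_lit 1216) (nat_lit 985885753) (nat_lit 600) (nat_lit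 5) (nat_lit 615) (nat_lit 5) (nat_lit 616) (nat_lit 5) (nat_lit 410) (nat_lit 386) (nat_lit 344)) (XT.nd (nat_lit 78) (nat_lit 0) (nat_lit 0) (XT.lf (nat_lit 0) (nat_lit 1245203081) (nat_lit 1292) (nat_lit 5639827313) (nat_lit 76) (nat_lit 315451669) (nat_lit 583) (nat_lit 5) (nat_lit 600) (nat_lit 5) (nat_lit 584) (nat_lit 5) (nat_lit 411) (nat_lit 386) (nat_lit 343)) (XT.lf (nat_lit 0) (nat_lit 3489217800) (nat_lit 1292) (nat_lit 1427286257) (nat_lit 76) (nat_lit 2328354026) (nat_lit 583) (nat_lit 5) (nat_lit 600) (nat_lit 5) (nat_lit 584) (nat_lit 5) (nat_lit 412) (nat_lit 386) (nat_lit 342))))) (XT.nd (nat_lit 234) (nat_lit 3040) (nat_lit 0) (XT.nd (nat_lit 78) (nat_lit 1444) (nat_lit 0) (XT.lf (nat_lit 0) (nat_lit 2870452262) (nat_lit 1292) (nat_lit 2880046366) (nat_lit 1368) (nat_lit 1540188034) (nat_lit 566) (nat_lit 5) (nat_lit 583) (nat_lit 5) (nat_lit 584) (nat_lit 5) (nat_lit 413) (nat_lit 386) (nat_lit 341)) (XT.nd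 (nat_lit 78) (nat_lit 1368) (nat_lit 0) (XT.lf (nat_lit 0) (nat_lit 673882101) (nat_lit 1368) (nat_lit 105563433) (nat_lit 76) (nat_lit 6558630178) (nat_lit 565) (nat_lit 5) (nat_lit 583) (nat_lit 5) (nat_lit 566) (nat_lit 5) (nat_lit 414) (nat_lit 386) (nat_lit 340)) (XT.lf (nat_lit 0) (nat_lit 2903746913) (nat_lit 1444) (nat_lit 3090408316) (nat_lit 76) (nat_lit 1392222994) (nat_lit 547) (nat_lit 5) (nat_lit 566) (nat_lit 5) (nat_lit 548) (nat_lit 5) (nat_lit 415) (nat_lit 386) (nat_lit 339)))) (XT.nd (nat_lit 78) (nat_lit 1596) (nat_lit 0) (XT.lf (nat_lit 0) (nat_lit 1326496350) (nat_lit 1444) (nat_lit 3821906176) (nat_lit 1520) (nat_lit 2287852176) (nat_lit 528) (nat_lit 5) (nat_lit 547) (nat_lit 5) (nat_lit 548) (nat_lit 5) (nat_lit 416) (nat_lit 386) (nat_lit 338)) (XT.nd (nat_lit 78) (nat_lit 1596) (nat_lit 0) (XT.lf (nat_lit 0) (nat_lit 5836807725) (nat_lit 1444) (nat_lit 1578217267) (nat_lit 1520) (nat_lit 72573797)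 (nat_lit 528) (nat_lit 5) (nat_lit 547) (nat_lit 5) (nat_lit 548) (nat_lit 5) (nat_lit 417) (nat_lit 386) (nat_lit 337)) (XT.lf (nat_lit 0) (nat_lit 2138822628) (nat_lit 1596) (nat_lit 4660756596) (nat_lit 76) (nat_lit 740507739) (nat_lit 507) (nat_lit 5) (nat_lit 528) (nat_lit 5) (nat_lit 508) (nat_lit 5) (nat_lit 418) (nat_lit 386) (nat_lit 336)))))) (XT.nd (nat_lit 468) (nat_lit 2812) (nat_lit 0) (XT.nd (nat_lit 234) (nat_lit 3268) (nat_lit 0) (XT.nd (nat_lit 78) (nat_lit 3344) (nat_lit 0) (XT.lf (nat_lit 0) (nat_lit 4372623731) (nat_lit 1596) (nat_lit 119321279) (nat_lit 76) (nat_lit 3102098213) (nat_lit 507) (nat_lit 5) (nat_lit 528) (nat_lit 5) (nat_lit 508) (nat_lit 5) (nat_lit 419) (nat_lit 386) (nat_lit 335)) (XT.nd (nat_lit 78) (nat_lit 1748) (nat_lit 0) (XT.lf (nat_lit 0) (nat_lit 4535819742) (nat_lit 1596) (nat_lit 2103107914) (nat_lit 1672) (nat_lit 1010405092) (nat_lit 486) (nat_lit 5) (nat_lit 507) (nat_lit 5)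 (nat_lit 508) (nat_lit 5) (nat_lit 420) (nat_lit 386) (nat_lit 334)) (XT.lf (nat_lit 0) (nat_lit 1200402537) (nat_lit 1748) (nat_lit 6153154276) (nat_lit 76) (nat_lit 352581883) (nat_lit 463) (nat_lit 5) (nat_lit 486) (nat_lit 5) (nat_lit 464) (nat_lit 5) (nat_lit 421) (nat_lit 386) (nat_lit 333)))) (XT.nd (nat_lit 78) (nat_lit 3268) (nat_lit 0) (XT.lf (nat_lit 0) (nat_lit 3436142791) (nat_lit 1748) (nat_lit 1466942502) (nat_lit 76) (nat_lit 2860987036) (nat_lit 463) (nat_lit 5) (nat_lit 486) (nat_lit 5) (nat_lit 464) (nat_lit 5) (nat_lit 422) (nat_lit 386) (nat_lit 332)) (XT.nd (nat_lit 78) (nat_lit 1520) (nat_lit 0) (XT.lf (nat_lit 0) (nat_lit 3319730177) (nat_lit 1748) (nat_lit 2378493727) (nat_lit 1824) (nat_lit 2125318074) (nat_lit 440) (nat_lit 5) (nat_lit 463) (nat_lit 5) (nat_lit 464) (nat_lit 5) (nat_lit 423) (nat_lit 386) (nat_lit 331)) (XT.lf (nat_lit 0) (nat_lit 93361665) (nat_lit 1520) (nat_lit 7582071887) (nat_lit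 76) (nat_lit 209289037) (nat_lit 420) (nat_lit 5) (nat_lit 440) (nat_lit 5) (nat_lit 421) (nat_lit 5) (nat_lit 424) (nat_lit 386) (nat_lit 330))))) (XT.nd (nat_lit 234) (nat_lit 1900) (nat_lit 0) (XT.nd (nat_lit 78) (nat_lit 912) (nat_lit 0) (XT.lf (nat_lit 0) (nat_lit 2335058562) (nat_lit 1520) (nat_lit 2747914985) (nat_lit 76) (nat_lit 2863739560) (nat_lit 420) (nat_lit 5) (nat_lit 440) (nat_lit 5) (nat_lit 421) (nat_lit 5) (nat_lit 425) (nat_lit 386) (nat_lit 329)) (XT.nd (nat_lit 78) (nat_lit 0) (nat_lit 0) (XT.lf (nat_lit 0) (nat_lit 2174524012) (nat_lit 912) (nat_lit 2422850755) (nat_lit 988) (nat_lit 3413062072) (nat_lit 408) (nat_lit 5) (nat_lit 420) (nat_lit 5) (nat_lit 421) (nat_lit 5) (nat_lit 426) (nat_lit 386) (nat_lit 328)) (XT.lf (nat_lit 0) (nat_lit 6887573153) (nat_lit 988) (nat_lit 881863975) (nat_lit 76) (nat_lit 306354131) (nat_lit 408) (nat_lit 5) (nat_lit 421) (nat_lit 5) (nat_lit 409) (nat_lit 5) (nat_lit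 427) (nat_lit 386) (nat_lit 327)))) (XT.nd (nat_lit 78) (nat_lit 912) (nat_lit 0) (XT.lf (nat_lit 0) (nat_lit 1073045212) (nat_lit 988) (nat_lit 3976162233) (nat_lit 76) (nat_lit 3092991491) (nat_lit 395) (nat_lit 5) (nat_lit 408) (nat_lit 5) (nat_lit 396) (nat_lit 5) (nat_lit 428) (nat_lit 386) (nat_lit 326)) (XT.nd (nat_lit 78) (nat_lit 0) (nat_lit 0) (XT.lf (nat_lit 0) (nat_lit 1086400865) (nat_lit 912) (nat_lit 2253416739) (nat_lit 988) (nat_lit 4870444614) (nat_lit 383) (nat_lit 5) (nat_lit 395) (nat_lit 5) (nat_lit 396) (nat_lit 5) (nat_lit 429) (nat_lit 386) (nat_lit 325)) (XT.lf (nat_lit 0) (nat_lit 5646318602) (nat_lit 988) (nat_lit 2016562839) (nat_lit 76) (nat_lit 616925714) (nat_lit 383) (nat_lit 5) (nat_lit 396) (nat_lit 5) (nat_lit 384) (nat_lit 5) (nat_lit 430) (nat_lit 386) (nat_lit 324))))))))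
noncomputable def xc104 : XT := (XT.nd (nat_lit 1794) (nat_lit 6916) (nat_lit 0) (XT.nd (nat_lit 858) (nat_lit 5244) (nat_lit 0) (XT.nd (nat_lit 390) (nat_lit 3040) (nat_lit 0) (XT.nd (nat_lit 156) (nat_lit 836) (nat_lit 0) (XT.nd (nat_lit 78) (nat_lit 912) (nat_lit 0) (XT.lf (nat_lit 0) (nat_lit 3182976539) (nat_lit 836) (nat_lit 4815924931) (nat_lit 912) (nat_lit 351850574) (nat_lit 372) (nat_lit 5) (nat_lit 383) (nat_lit 5) (nat_lit 384) (nat_lit 5) (nat_lit 431) (nat_lit 386) (nat_lit 323)) (XT.lf (nat_lit 0) (nat_lit 41663687) (nat_lit 836) (nat_lit 1886324484) (nat_lit 912) (nat_lit 6495309401) (nat_lit 360) (nat_lit 5) (nat_lit 371) (nat_lit 5) (nat_lit 372) (nat_lit 5) (nat_lit 432) (nat_lit 386) (nat_lit 322))) (XT.nd (nat_lit 78) (nat_lit 836) (nat_lit 0) (XT.lf (nat_lit 0) (nat_lit 4255807294) (nat_lit 912) (nat_lit 3118388227) (nat_lit 76) (nat_lit 1122917700) (nat_lit 360) (nat_lit 5) (nat_lit 372) (nat_lit 5)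 (nat_lit 361) (nat_lit 5) (nat_lit 433) (nat_lit 386) (nat_lit 321)) (XT.nd (nat_lit 78) (nat_lit 76) (nat_lit 0) (XT.lf (nat_lit 0) (nat_lit 2230197056) (nat_lit 760) (nat_lit 4392671862) (nat_lit 836) (nat_lit 1949690016) (nat_lit 350) (nat_lit 5) (nat_lit 360) (nat_lit 5) (nat_lit 361) (nat_lit 5) (nat_lit 434) (nat_lit 386) (nat_lit 320)) (XT.lf (nat_lit 0) (nat_lit 369655559) (nat_lit 836) (nat_lit 960627875) (nat_lit 76) (nat_lit 7319447303) (nat_lit 349) (nat_lit 5) (nat_lit 360) (nat_lit 5) (nat_lit 350) (nat_lit 5) (nat_lit 435) (nat_lit 386) (nat_lit 319))))) (XT.nd (nat_lit 234) (nat_lit 1520) (nat_lit 0) (XT.nd (nat_lit 78) (nat_lit 760) (nat_lit 0) (XT.lf (nat_lit 0) (nat_lit 2717270387) (nat_lit 836) (nat_lit 4200996568) (nat_lit 76) (nat_lit 1809768541) (nat_lit 339) (nat_lit 5) (nat_lit 350) (nat_lit 5) (nat_lit 340) (nat_lit 5) (nat_lit 436) (nat_lit 386) (nat_lit 318)) (XT.nd (nat_lit 78) (nat_lit 0) (nat_lit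 0) (XT.lf (nat_lit 0) (nat_lit 1301330560) (nat_lit 760) (nat_lit 3801244091) (nat_lit 836) (nat_lit 3705523861) (nat_lit 329) (nat_lit 5) (nat_lit 339) (nat_lit 5) (nat_lit 340) (nat_lit 5) (nat_lit 437) (nat_lit 386) (nat_lit 317)) (XT.lf (nat_lit 0) (nat_lit 6934303235) (nat_lit 760) (nat_lit 596873154) (nat_lit 836) (nat_lit 1358681340) (nat_lit 329) (nat_lit 5) (nat_lit 339) (nat_lit 5) (nat_lit 340) (nat_lit 5) (nat_lit 438) (nat_lit 386) (nat_lit 316)))) (XT.nd (nat_lit 78) (nat_lit 684) (nat_lit 0) (XT.lf (nat_lit 0) (nat_lit 1030973181) (nat_lit 836) (nat_lit 5278224452) (nat_lit 76) (nat_lit 2663737581) (nat_lit 318) (nat_lit 5) (nat_lit 329) (nat_lit 5) (nat_lit 319) (nat_lit 5) (nat_lit 439) (nat_lit 386) (nat_lit 315)) (XT.nd (nat_lit 78) (nat_lit 0) (nat_lit 0) (XT.lf (nat_lit 0) (nat_lit 382611541) (nat_lit 684) (nat_lit 3055473694) (nat_lit 760) (nat_lit 5619658631) (nat_lit 309) (nat_lit 5) (nat_lit 318) (nat_lit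 5) (nat_lit 319) (nat_lit 5) (nat_lit 440) (nat_lit 386) (nat_lit 314)) (XT.lf (nat_lit 0) (nat_lit 5899254433) (nat_lit 760) (nat_lit 2954082777) (nat_lit 76) (nat_lit 290799437) (nat_lit 309) (nat_lit 5) (nat_lit 319) (nat_lit 5) (nat_lit 310) (nat_lit 5) (nat_lit 441) (nat_lit 386) (nat_lit 313)))))) (XT.nd (nat_lit 468) (nat_lit 2432) (nat_lit 0) (XT.nd (nat_lit 234) (nat_lit 1368) (nat_lit 0) (XT.nd (nat_lit 78) (nat_lit 760) (nat_lit 0) (XT.lf (nat_lit 0) (nat_lit 2862608015) (nat_lit 684) (nat_lit 5555027512) (nat_lit 760) (nat_lit 814468118) (nat_lit 300) (nat_lit 5) (nat_lit 309) (nat_lit 5) (nat_lit 310) (nat_lit 5) (nat_lit 442) (nat_lit 386) (nat_lit 312)) (XT.nd (nat_lit 78) (nat_lit 684) (nat_lit 0) (XT.lf (nat_lit 0) (nat_lit 1632009831) (nat_lit 760) (nat_lit 532960665) (nat_lit 76) (nat_lit 7156863501) (nat_lit 299) (nat_lit 5) (nat_lit 309) (nat_lit 5) (nat_lit 300) (nat_lit 5) (nat_lit 443) (nat_lit 386)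 (nat_lit 311)) (XT.lf (nat_lit 0) (nat_lit 4130474180) (nat_lit 760) (nat_lit 3970932547) (nat_lit 76) (nat_lit 1311571084) (nat_lit 290) (nat_lit 5) (nat_lit 300) (nat_lit 5) (nat_lit 291) (nat_lit 5) (nat_lit 444) (nat_lit 386) (nat_lit 310)))) (XT.nd (nat_lit 78) (nat_lit 684) (nat_lit 0) (XT.lf (nat_lit 0) (nat_lit 2014073605) (nat_lit 684) (nat_lit 4666105489) (nat_lit 760) (nat_lit 2825745644) (nat_lit 281) (nat_lit 5) (nat_lit 290) (nat_lit 5) (nat_lit 291) (nat_lit 5) (nat_lit 445) (nat_lit 386) (nat_lit 309)) (XT.nd (nat_lit 78) (nat_lit 684) (nat_lit 0) (XT.lf (nat_lit 0) (nat_lit 8136960131) (nat_lit 684) (nat_lit 1141173672) (nat_lit 760) (nat_lit 322657241) (nat_lit 281) (nat_lit 5) (nat_lit 290) (nat_lit 5) (nat_lit 291) (nat_lit 5) (nat_lit 446) (nat_lit 386) (nat_lit 308)) (XT.lf (nat_lit 0) (nat_lit 2218912743) (nat_lit 684) (nat_lit 5016907243) (nat_lit 76) (nat_lit 2461096928) (nat_lit 272) (nat_lit 5) (nat_lit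 281) (nat_lit 5) (nat_lit 273) (nat_lit 5) (nat_lit 447) (nat_lit 386) (nat_lit 307))))) (XT.nd (nat_lit 234) (nat_lit 1140) (nat_lit 0) (XT.nd (nat_lit 78) (nat_lit 684) (nat_lit 0) (XT.lf (nat_lit 0) (nat_lit 1141367713) (nat_lit 608) (nat_lit 3661774038) (nat_lit 684) (nat_lit 4991863169) (nat_lit 264) (nat_lit 5) (nat_lit 272) (nat_lit 5) (nat_lit 273) (nat_lit 5) (nat_lit 448) (nat_lit 386) (nat_lit 306)) (XT.nd (nat_lit 78) (nat_lit 684) (nat_lit 0) (XT.lf (nat_lit 0) (nat_lit 7444414218) (nat_lit 684) (nat_lit 2439620813) (nat_lit 76) (nat_lit 10917606) (nat_lit 264) (nat_lit 5) (nat_lit 273) (nat_lit 5) (nat_lit 265) (nat_lit 5) (nat_lit 449) (nat_lit 386) (nat_lit 305)) (XT.lf (nat_lit 0) (nat_lit 161534586) (nat_lit 684) (nat_lit 6107318658) (nat_lit 76) (nat_lit 3727597027) (nat_lit 255) (nat_lit 5) (nat_lit 264) (nat_lit 5) (nat_lit 256) (nat_lit 5) (nat_lit 450) (nat_lit 386) (nat_lit 304)))) (XT.nd (nat_lit 78)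 (nat_lit 532) (nat_lit 0) (XT.lf (nat_lit 0) (nat_lit 229174198) (nat_lit 608) (nat_lit 2554124873) (nat_lit 684) (nat_lit 7316554405) (nat_lit 247) (nat_lit 5) (nat_lit 255) (nat_lit 5) (nat_lit 256) (nat_lit 5) (nat_lit 451) (nat_lit 386) (nat_lit 303)) (XT.nd (nat_lit 78) (nat_lit 532) (nat_lit 0) (XT.lf (nat_lit 0) (nat_lit 5479301461) (nat_lit 684) (nat_lit 3473254013) (nat_lit 76) (nat_lit 1252337959) (nat_lit 247) (nat_lit 5) (nat_lit 256) (nat_lit 5) (nat_lit 248) (nat_lit 5) (nat_lit 452) (nat_lit 386) (nat_lit 302)) (XT.lf (nat_lit 0) (nat_lit 3040132828) (nat_lit 532) (nat_lit 5198813089) (nat_lit 608) (nat_lit 2072898478) (nat_lit 240) (nat_lit 5) (nat_lit 247) (nat_lit 5) (nat_lit 248) (nat_lit 5) (nat_lit 453) (nat_lit 386) (nat_lit 301))))))) (XT.nd (nat_lit 858) (nat_lit 3116) (nat_lit 0) (XT.nd (nat_lit 390) (nat_lit 1976) (nat_lit 0) (XT.nd (nat_lit 156) (nat_lit 1140) (nat_lit 0) (XT.nd (nat_lit 78) (nat_lit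 608) (nat_lit 0) (XT.lf (nat_lit 0) (nat_lit 621201235) (nat_lit 608) (nat_lit 728938117) (nat_lit 76) (nat_lit 9070784267) (nat_lit 239) (nat_lit 5) (nat_lit 247) (nat_lit 5) (nat_lit 240) (nat_lit 5) (nat_lit 454) (nat_lit 386) (nat_lit 300)) (XT.lf (nat_lit 0) (nat_lit 3370979389) (nat_lit 684) (nat_lit 4573742984) (nat_lit 76) (nat_lit 2586601345) (nat_lit 231) (nat_lit 5) (nat_lit 240) (nat_lit 5) (nat_lit 232) (nat_lit 5) (nat_lit 455) (nat_lit 386) (nat_lit 299))) (XT.nd (nat_lit 78) (nat_lit 608) (nat_lit 0) (XT.lf (nat_lit 0) (nat_lit 2128182697) (nat_lit 532) (nat_lit 4049210013) (nat_lit 608) (nat_lit 4466510611) (nat_lit 224) (nat_lit 5) (nat_lit 231) (nat_lit 5) (nat_lit 232) (nat_lit 5) (nat_lit 456) (nat_lit 386) (nat_lit 298)) (XT.nd (nat_lit 78) (nat_lit 608) (nat_lit 0) (XT.lf (nat_lit 0) (nat_lit 8991741015) (nat_lit 532) (nat_lit 53129539) (nat_lit 608) (nat_lit 1713769444) (nat_lit 224) (nat_lit 5) (nat_lit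 231) (nat_lit 5) (nat_lit 232) (nat_lit 5) (nat_lit 457) (nat_lit 386) (nat_lit 297)) (XT.lf (nat_lit 0) (nat_lit 1113980057) (nat_lit 608) (nat_lit 5758526984) (nat_lit 76) (nat_lit 4002340313) (nat_lit 216) (nat_lit 5) (nat_lit 224) (nat_lit 5) (nat_lit 217) (nat_lit 5) (nat_lit 458) (nat_lit 386) (nat_lit 296))))) (XT.nd (nat_lit 234) (nat_lit 988) (nat_lit 0) (XT.nd (nat_lit 78) (nat_lit 532) (nat_lit 0) (XT.lf (nat_lit 0) (nat_lit 1136845625) (nat_lit 456) (nat_lit 2832981315) (nat_lit 532) (nat_lit 7023439528) (nat_lit 210) (nat_lit 5) (nat_lit 216) (nat_lit 5) (nat_lit 217) (nat_lit 5) (nat_lit 459) (nat_lit 386) (nat_lit 295)) (XT.nd (nat_lit 78) (nat_lit 532) (nat_lit 0) (XT.lf (nat_lit 0) (nat_lit 6905061140) (nat_lit 532) (nat_lit 2908226272) (nat_lit 76) (nat_lit 1300325032) (nat_lit 210) (nat_lit 5) (nat_lit 217) (nat_lit 5) (nat_lit 211) (nat_lit 5) (nat_lit 460) (nat_lit 386) (nat_lit 294)) (XT.lf (nat_lit 0)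 (nat_lit 4181169221) (nat_lit 532) (nat_lit 5739242612) (nat_lit 608) (nat_lit 1315529083) (nat_lit 203) (nat_lit 5) (nat_lit 210) (nat_lit 5) (nat_lit 211) (nat_lit 5) (nat_lit 461) (nat_lit 386) (nat_lit 293)))) (XT.nd (nat_lit 78) (nat_lit 456) (nat_lit 0) (XT.lf (nat_lit 0) (nat_lit 47379524) (nat_lit 456) (nat_lit 1562080001) (nat_lit 532) (nat_lit 9751136662) (nat_lit 196) (nat_lit 5) (nat_lit 202) (nat_lit 5) (nat_lit 203) (nat_lit 5) (nat_lit 462) (nat_lit 386) (nat_lit 292)) (XT.nd (nat_lit 78) (nat_lit 456) (nat_lit 0) (XT.lf (nat_lit 0) (nat_lit 4616324028) (nat_lit 532) (nat_lit 4160286020) (nat_lit 76) (nat_lit 2710144373) (nat_lit 196) (nat_lit 5) (nat_lit 203) (nat_lit 5) (nat_lit 197) (nat_lit 5) (nat_lit 463) (nat_lit 386) (nat_lit 291)) (XT.lf (nat_lit 0) (nat_lit 3132972902) (nat_lit 456) (nat_lit 4557312268) (nat_lit 532) (nat_lit 3925014985) (nat_lit 190) (nat_lit 5) (nat_lit 196) (nat_lit 5) (nat_lit 197)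 (nat_lit 5) (nat_lit 464) (nat_lit 386) (nat_lit 290)))))) (XT.nd (nat_lit 468) (nat_lit 1216) (nat_lit 0) (XT.nd (nat_lit 234) (nat_lit 912) (nat_lit 0) (XT.nd (nat_lit 78) (nat_lit 988) (nat_lit 0) (XT.lf (nat_lit 0) (nat_lit 10595236068) (nat_lit 456) (nat_lit 234929608) (nat_lit 532) (nat_lit 916165777) (nat_lit 190) (nat_lit 5) (nat_lit 196) (nat_lit 5) (nat_lit 197) (nat_lit 5) (nat_lit 465) (nat_lit 386) (nat_lit 289)) (XT.nd (nat_lit 78) (nat_lit 456) (nat_lit 0) (XT.lf (nat_lit 0) (nat_lit 2170169862) (nat_lit 532) (nat_lit 5543421413) (nat_lit 76) (nat_lit 4165204972) (nat_lit 183) (nat_lit 5) (nat_lit 190) (nat_lit 5) (nat_lit 184) (nat_lit 5) (nat_lit 466) (nat_lit 386) (nat_lit 288)) (XT.lf (nat_lit 0) (nat_lit 1958335781) (nat_lit 456) (nat_lit 3346692363) (nat_lit 532) (nat_lit 6708783061) (nat_lit 177) (nat_lit 5) (nat_lit 183) (nat_lit 5) (nat_lit 184) (nat_lit 5) (nat_lit 467) (nat_lit 386) (nat_lit 287))))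 (XT.nd (nat_lit 78) (nat_lit 912) (nat_lit 0) (XT.lf (nat_lit 0) (nat_lit 8524397498) (nat_lit 532) (nat_lit 2506219819) (nat_lit 76) (nat_lit 1120476058) (nat_lit 177) (nat_lit 5) (nat_lit 184) (nat_lit 5) (nat_lit 178) (nat_lit 5) (nat_lit 468) (nat_lit 386) (nat_lit 286)) (XT.nd (nat_lit 78) (nat_lit 532) (nat_lit 0) (XT.lf (nat_lit 0) (nat_lit 5207536792) (nat_lit 380) (nat_lit 6634216619) (nat_lit 456) (nat_lit 448698920) (nat_lit 172) (nat_lit 5) (nat_lit 177) (nat_lit 5) (nat_lit 178) (nat_lit 5) (nat_lit 469) (nat_lit 386) (nat_lit 285)) (XT.lf (nat_lit 0) (nat_lit 634654964) (nat_lit 456) (nat_lit 2120327721) (nat_lit 532) (nat_lit 9677281055) (nat_lit 165) (nat_lit 5) (nat_lit 171) (nat_lit 5) (nat_lit 172) (nat_lit 5) (nat_lit 470) (nat_lit 386) (nat_lit 284))))) (XT.nd (nat_lit 234) (nat_lit 760) (nat_lit 0) (XT.nd (nat_lit 78) (nat_lit 456) (nat_lit 0) (XT.lf (nat_lit 0) (nat_lit 6058569180) (nat_lit 532) (nat_lit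 4025650770) (nat_lit 76) (nat_lit 2491798269) (nat_lit 165) (nat_lit 5) (nat_lit 172) (nat_lit 5) (nat_lit 166) (nat_lit 5) (nat_lit 471) (nat_lit 386) (nat_lit 283)) (XT.nd (nat_lit 78) (nat_lit 76) (nat_lit 0) (XT.lf (nat_lit 0) (nat_lit 3906721608) (nat_lit 380) (nat_lit 5539208933) (nat_lit 456) (nat_lit 3276366074) (nat_lit 160) (nat_lit 5) (nat_lit 165) (nat_lit 5) (nat_lit 166) (nat_lit 5) (nat_lit 472) (nat_lit 386) (nat_lit 282)) (XT.lf (nat_lit 0) (nat_lit 34713147) (nat_lit 456) (nat_lit 851319296) (nat_lit 76) (nat_lit 11985355835) (nat_lit 159) (nat_lit 5) (nat_lit 165) (nat_lit 5) (nat_lit 160) (nat_lit 5) (nat_lit 473) (nat_lit 386) (nat_lit 281)))) (XT.nd (nat_lit 78) (nat_lit 380) (nat_lit 0) (XT.lf (nat_lit 0) (nat_lit 3419923253) (nat_lit 456) (nat_lit 5733164804) (nat_lit 76) (nat_lit 3868907708) (nat_lit 154) (nat_lit 5) (nat_lit 160) (nat_lit 5) (nat_lit 155) (nat_lit 5) (nat_lit 474) (nat_lit 386) (nat_lit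 280)) (XT.nd (nat_lit 78) (nat_lit 0) (nat_lit 0) (XT.lf (nat_lit 0) (nat_lit 2421869052) (nat_lit 380) (nat_lit 4457247951) (nat_lit 456) (nat_lit 6296375478) (nat_lit 149) (nat_lit 5) (nat_lit 154) (nat_lit 5) (nat_lit 155) (nat_lit 5) (nat_lit 475) (nat_lit 386) (nat_lit 279)) (XT.lf (nat_lit 0) (nat_lit 10427455549) (nat_lit 456) (nat_lit 2547937391) (nat_lit 76) (nat_lit 356269591) (nat_lit 149) (nat_lit 5) (nat_lit 155) (nat_lit 5) (nat_lit 150) (nat_lit 5) (nat_lit 476) (nat_lit 386) (nat_lit 278))))))))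
noncomputable def xc105 : XT := (XT.nd (nat_lit 1794) (nat_lit 1368) (nat_lit 0) (XT.nd (nat_lit 858) (nat_lit 2204) (nat_lit 0) (XT.nd (nat_lit 390) (nat_lit 1368) (nat_lit 0) (XT.nd (nat_lit 156) (nat_lit 456) (nat_lit 0) (XT.nd (nat_lit 78) (nat_lit 380) (nat_lit 0) (XT.lf (nat_lit 0) (nat_lit 595728145) (nat_lit 456) (nat_lit 7656360330) (nat_lit 76) (nat_lit 5237853593) (nat_lit 143) (nat_lit 5) (nat_lit 149) (nat_lit 5) (nat_lit 144) (nat_lit 5) (nat_lit 477) (nat_lit 386) (nat_lit 277)) (XT.lf (nat_lit 0) (nat_lit 724992133) (nat_lit 380) (nat_lit 3403285425) (nat_lit 456) (nat_lit 9522698109) (nat_lit 138) (nat_lit 5) (nat_lit 143) (nat_lit 5) (nat_lit 144) (nat_lit 5) (nat_lit 478) (nat_lit 386) (nat_lit 276))) (XT.nd (nat_lit 78) (nat_lit 456) (nat_lit 0) (XT.lf (nat_lit 0) (nat_lit 7772887051) (nat_lit 456) (nat_lit 4478325701) (nat_lit 76) (nat_lit 1563191422) (nat_lit 138) (nat_lit 5) (nat_lit 144) (nat_lit 5)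 (nat_lit 139) (nat_lit 5) (nat_lit 479) (nat_lit 386) (nat_lit 275)) (XT.nd (nat_lit 78) (nat_lit 76) (nat_lit 0) (XT.lf (nat_lit 0) (nat_lit 4139126670) (nat_lit 380) (nat_lit 7380748584) (nat_lit 456) (nat_lit 2460638637) (nat_lit 133) (nat_lit 5) (nat_lit 138) (nat_lit 5) (nat_lit 139) (nat_lit 5) (nat_lit 480) (nat_lit 386) (nat_lit 274)) (XT.lf (nat_lit 0) (nat_lit 1186609565) (nat_lit 456) (nat_lit 1198617810) (nat_lit 76) (nat_lit 11764358266) (nat_lit 132) (nat_lit 5) (nat_lit 138) (nat_lit 5) (nat_lit 133) (nat_lit 5) (nat_lit 481) (nat_lit 386) (nat_lit 273))))) (XT.nd (nat_lit 234) (nat_lit 684) (nat_lit 0) (XT.nd (nat_lit 78) (nat_lit 380) (nat_lit 0) (XT.lf (nat_lit 0) (nat_lit 4922176229) (nat_lit 380) (nat_lit 6668116246) (nat_lit 76) (nat_lit 2730456859) (nat_lit 128) (nat_lit 5) (nat_lit 133) (nat_lit 5) (nat_lit 129) (nat_lit 5) (nat_lit 482) (nat_lit 386) (nat_lit 272)) (XT.nd (nat_lit 78) (nat_lit 0) (nat_lit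 0) (XT.lf (nat_lit 0) (nat_lit 2184300017) (nat_lit 380) (nat_lit 6566866663) (nat_lit 456) (nat_lit 5743797562) (nat_lit 123) (nat_lit 5) (nat_lit 128) (nat_lit 5) (nat_lit 129) (nat_lit 5) (nat_lit 483) (nat_lit 386) (nat_lit 271)) (XT.lf (nat_lit 0) (nat_lit 11273874053) (nat_lit 380) (nat_lit 1408430220) (nat_lit 456) (nat_lit 1989849975) (nat_lit 123) (nat_lit 5) (nat_lit 128) (nat_lit 5) (nat_lit 129) (nat_lit 5) (nat_lit 484) (nat_lit 386) (nat_lit 270)))) (XT.nd (nat_lit 78) (nat_lit 304) (nat_lit 0) (XT.lf (nat_lit 0) (nat_lit 1858570970) (nat_lit 380) (nat_lit 9151993965) (nat_lit 76) (nat_lit 3841216048) (nat_lit 118) (nat_lit 5) (nat_lit 123) (nat_lit 5) (nat_lit 119) (nat_lit 5) (nat_lit 485) (nat_lit 386) (nat_lit 269)) (XT.nd (nat_lit 78) (nat_lit 304) (nat_lit 0) (XT.lf (nat_lit 0) (nat_lit 5770800713) (nat_lit 380) (nat_lit 61367492) (nat_lit 76) (nat_lit 9202301324) (nat_lit 118) (nat_lit 5) (nat_lit 123)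 (nat_lit 5) (nat_lit 119) (nat_lit 5) (nat_lit 486) (nat_lit 386) (nat_lit 268)) (XT.lf (nat_lit 0) (nat_lit 9303632187) (nat_lit 304) (nat_lit 499594235) (nat_lit 380) (nat_lit 5416748379) (nat_lit 114) (nat_lit 5) (nat_lit 118) (nat_lit 5) (nat_lit 119) (nat_lit 5) (nat_lit 487) (nat_lit 386) (nat_lit 267)))))) (XT.nd (nat_lit 468) (nat_lit 836) (nat_lit 0) (XT.nd (nat_lit 234) (nat_lit 684) (nat_lit 0) (XT.nd (nat_lit 78) (nat_lit 380) (nat_lit 0) (XT.lf (nat_lit 0) (nat_lit 3430944523) (nat_lit 304) (nat_lit 10521764543) (nat_lit 380) (nat_lit 1455754887) (nat_lit 110) (nat_lit 5) (nat_lit 114) (nat_lit 5) (nat_lit 115) (nat_lit 5) (nat_lit 488) (nat_lit 386) (nat_lit 266)) (XT.nd (nat_lit 78) (nat_lit 304) (nat_lit 0) (XT.lf (nat_lit 0) (nat_lit 2575529562) (nat_lit 380) (nat_lit 2604516672) (nat_lit 76) (nat_lit 10419843588) (nat_lit 109) (nat_lit 5) (nat_lit 114) (nat_lit 5) (nat_lit 110) (nat_lit 5) (nat_lit 489) (nat_lit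 386) (nat_lit 265)) (XT.lf (nat_lit 0) (nat_lit 6697562747) (nat_lit 380) (nat_lit 8787236955) (nat_lit 76) (nat_lit 309561576) (nat_lit 105) (nat_lit 5) (nat_lit 110) (nat_lit 5) (nat_lit 106) (nat_lit 5) (nat_lit 490) (nat_lit 386) (nat_lit 264)))) (XT.nd (nat_lit 78) (nat_lit 380) (nat_lit 0) (XT.lf (nat_lit 0) (nat_lit 800888193) (nat_lit 304) (nat_lit 10140391954) (nat_lit 380) (nat_lit 5050658942) (nat_lit 101) (nat_lit 5) (nat_lit 105) (nat_lit 5) (nat_lit 106) (nat_lit 5) (nat_lit 491) (nat_lit 386) (nat_lit 263)) (XT.nd (nat_lit 78) (nat_lit 380) (nat_lit 0) (XT.lf (nat_lit 0) (nat_lit 10670955419) (nat_lit 304) (nat_lit 4640190984) (nat_lit 380) (nat_lit 881498323) (nat_lit 101) (nat_lit 5) (nat_lit 105) (nat_lit 5) (nat_lit 106) (nat_lit 5) (nat_lit 492) (nat_lit 386) (nat_lit 262)) (XT.lf (nat_lit 0) (nat_lit 3344156491) (nat_lit 380) (nat_lit 12055678932) (nat_lit 76) (nat_lit 996746548) (nat_lit 96) (nat_lit 5)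 (nat_lit 101) (nat_lit 5) (nat_lit 97) (nat_lit 5) (nat_lit 493) (nat_lit 386) (nat_lit 261))))) (XT.nd (nat_lit 234) (nat_lit 304) (nat_lit 0) (XT.nd (nat_lit 78) (nat_lit 532) (nat_lit 0) (XT.lf (nat_lit 0) (nat_lit 7693184408) (nat_lit 380) (nat_lit 2193762199) (nat_lit 76) (nat_lit 6716523212) (nat_lit 96) (nat_lit 5) (nat_lit 101) (nat_lit 5) (nat_lit 97) (nat_lit 5) (nat_lit 494) (nat_lit 386) (nat_lit 260)) (XT.nd (nat_lit 78) (nat_lit 304) (nat_lit 0) (XT.lf (nat_lit 0) (nat_lit 7941420904) (nat_lit 228) (nat_lit 4222297329) (nat_lit 304) (nat_lit 4650088312) (nat_lit 93) (nat_lit 5) (nat_lit 96) (nat_lit 5) (nat_lit 97) (nat_lit 5) (nat_lit 495) (nat_lit 386) (nat_lit 259)) (XT.lf (nat_lit 0) (nat_lit 1259097071) (nat_lit 304) (nat_lit 15480704842) (nat_lit 380) (nat_lit 288226905) (nat_lit 89) (nat_lit 5) (nat_lit 93) (nat_lit 5) (nat_lit 94) (nat_lit 5) (nat_lit 496) (nat_lit 386) (nat_lit 258)))) (XT.nd (nat_lit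 78) (nat_lit 228) (nat_lit 0) (XT.lf (nat_lit 0) (nat_lit 4177278948) (nat_lit 380) (nat_lit 5615487806) (nat_lit 76) (nat_lit 7451810454) (nat_lit 88) (nat_lit 5) (nat_lit 93) (nat_lit 5) (nat_lit 89) (nat_lit 5) (nat_lit 497) (nat_lit 386) (nat_lit 257)) (XT.nd (nat_lit 78) (nat_lit 0) (nat_lit 0) (XT.lf (nat_lit 0) (nat_lit 4774034096) (nat_lit 228) (nat_lit 3968615870) (nat_lit 304) (nat_lit 8722481713) (nat_lit 85) (nat_lit 5) (nat_lit 88) (nat_lit 5) (nat_lit 89) (nat_lit 5) (nat_lit 498) (nat_lit 386) (nat_lit 256)) (XT.lf (nat_lit 0) (nat_lit 13433553771) (nat_lit 304) (nat_lit 2282701532) (nat_lit 76) (nat_lit 1973158902) (nat_lit 85) (nat_lit 5) (nat_lit 89) (nat_lit 5) (nat_lit 86) (nat_lit 5) (nat_lit 499) (nat_lit 386) (nat_lit 255))))))) (XT.nd (nat_lit 50856) (nat_lit 0) (nat_lit 44688) (XT.nd (nat_lit 468) (nat_lit 228) (nat_lit 0) (XT.nd (nat_lit 234) (nat_lit 532) (nat_lit 0) (XT.nd (nat_lit 78) (nat_lit 228)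 (nat_lit 0) (XT.lf (nat_lit 0) (nat_lit 361154950) (nat_lit 380) (nat_lit 9528872733) (nat_lit 76) (nat_lit 8026817198) (nat_lit 80) (nat_lit 5) (nat_lit 85) (nat_lit 5) (nat_lit 81) (nat_lit 5) (nat_lit 500) (nat_lit 386) (nat_lit 254)) (XT.nd (nat_lit 78) (nat_lit 0) (nat_lit 0) (XT.lf (nat_lit 0) (nat_lit 1113539425) (nat_lit 228) (nat_lit 3906535074) (nat_lit 304) (nat_lit 13128057438) (nat_lit 77) (nat_lit 5) (nat_lit 80) (nat_lit 5) (nat_lit 81) (nat_lit 5) (nat_lit 501) (nat_lit 386) (nat_lit 253)) (XT.lf (nat_lit 0) (nat_lit 9834717764) (nat_lit 304) (nat_lit 6326818448) (nat_lit 76) (nat_lit 2221258977) (nat_lit 77) (nat_lit 5) (nat_lit 81) (nat_lit 5) (nat_lit 78) (nat_lit 5) (nat_lit 502) (nat_lit 386) (nat_lit 252)))) (XT.nd (nat_lit 78) (nat_lit 304) (nat_lit 0) (XT.lf (nat_lit 0) (nat_lit 4602809260) (nat_lit 228) (nat_lit 10182831729) (nat_lit 304) (nat_lit 3835712309) (nat_lit 74) (nat_lit 5) (nat_lit 77) (nat_lit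 5) (nat_lit 78) (nat_lit 5) (nat_lit 503) (nat_lit 386) (nat_lit 251)) (XT.nd (nat_lit 78) (nat_lit 228) (nat_lit 0) (XT.lf (nat_lit 0) (nat_lit 985167069) (nat_lit 304) (nat_lit 3060458662) (nat_lit 76) (nat_lit 14818392037) (nat_lit 73) (nat_lit 5) (nat_lit 77) (nat_lit 5) (nat_lit 74) (nat_lit 5) (nat_lit 504) (nat_lit 386) (nat_lit 250)) (XT.lf (nat_lit 0) (nat_lit 5903609066) (nat_lit 304) (nat_lit 10952840366) (nat_lit 76) (nat_lit 2253530168) (nat_lit 70) (nat_lit 5) (nat_lit 74) (nat_lit 5) (nat_lit 71) (nat_lit 5) (nat_lit 505) (nat_lit 386) (nat_lit 249))))) (XT.nd (nat_lit 50154) (nat_lit 0) (nat_lit 47728) (XT.nd (nat_lit 78) (nat_lit 0) (nat_lit 0) (XT.lf (nat_lit 0) (nat_lit 229841521) (nat_lit 228) (nat_lit 10724170282) (nat_lit 304) (nat_lit 8406178260) (nat_lit 67) (nat_lit 5) (nat_lit 70) (nat_lit 5) (nat_lit 71) (nat_lit 5) (nat_lit 506) (nat_lit 386) (nat_lit 248)) (XT.nd (nat_lit 49998) (nat_lit 0) (nat_lit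 48336) (XT.lf (nat_lit 0) (nat_lit 11758450014) (nat_lit 228) (nat_lit 4405237216) (nat_lit 304) (nat_lit 3450553422) (nat_lit 67) (nat_lit 5) (nat_lit 70) (nat_lit 5) (nat_lit 71) (nat_lit 5) (nat_lit 507) (nat_lit 386) (nat_lit 247)) (XT.lf (nat_lit 0) (nat_lit 242668485) (nat_lit 0) (nat_lit 242668485) (nat_lit 532) (nat_lit 2782781266) (nat_lit 703) (nat_lit 5) (nat_lit 703) (nat_lit 3) (nat_lit 710) (nat_lit 3) (nat_lit 387) (nat_lit 387) (nat_lit 366)))) (XT.nd (nat_lit 78) (nat_lit 608) (nat_lit 0) (XT.lf (nat_lit 0) (nat_lit 3507231865) (nat_lit 532) (nat_lit 2838056055) (nat_lit 608) (nat_lit 204875326) (nat_lit 703) (nat_lit 5) (nat_lit 710) (nat_lit 3) (nat_lit 711) (nat_lit 5) (nat_lit 388) (nat_lit 387) (nat_lit 365)) (XT.nd (nat_lit 78) (nat_lit 608) (nat_lit 0) (XT.lf (nat_lit 76) (nat_lit 406475155) (nat_lit 0) (nat_lit 5627869241) (nat_lit 608) (nat_lit 531251256) (nat_lit 704) (nat_lit 5) (nat_lit 703) (nat_lit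 5) (nat_lit 711) (nat_lit 5) (nat_lit 389) (nat_lit 387) (nat_lit 364)) (XT.lf (nat_lit 0) (nat_lit 1957789117) (nat_lit 608) (nat_lit 2875248451) (nat_lit 684) (nat_lit 1748982921) (nat_lit 695) (nat_lit 5) (nat_lit 703) (nat_lit 5) (nat_lit 704) (nat_lit 5) (nat_lit 390) (nat_lit 387) (nat_lit 363)))))) (XT.nd (nat_lit 468) (nat_lit 1672) (nat_lit 0) (XT.nd (nat_lit 234) (nat_lit 684) (nat_lit 0) (XT.nd (nat_lit 78) (nat_lit 684) (nat_lit 0) (XT.lf (nat_lit 76) (nat_lit 441922138) (nat_lit 0) (nat_lit 3986321369) (nat_lit 684) (nat_lit 2171707363) (nat_lit 696) (nat_lit 5) (nat_lit 695) (nat_lit 5) (nat_lit 704) (nat_lit 5) (nat_lit 391) (nat_lit 387) (nat_lit 362)) (XT.nd (nat_lit 78) (nat_lit 0) (nat_lit 0) (XT.lf (nat_lit 0) (nat_lit 281428393) (nat_lit 684) (nat_lit 2791006826) (nat_lit 760) (nat_lit 3546665403) (nat_lit 686) (nat_lit 5) (nat_lit 695) (nat_lit 5) (nat_lit 696) (nat_lit 5) (nat_lit 392) (nat_lit 387) (nat_lit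 361)) (XT.lf (nat_lit 76) (nat_lit 602270022) (nat_lit 0) (nat_lit 2093926301) (nat_lit 760) (nat_lit 3943337900) (nat_lit 687) (nat_lit 5) (nat_lit 686) (nat_lit 5) (nat_lit 696) (nat_lit 5) (nat_lit 393) (nat_lit 387) (nat_lit 360)))) (XT.nd (nat_lit 78) (nat_lit 684) (nat_lit 0) (XT.lf (nat_lit 76) (nat_lit 4066870679) (nat_lit 0) (nat_lit 1049827331) (nat_lit 760) (nat_lit 1544550240) (nat_lit 687) (nat_lit 5) (nat_lit 686) (nat_lit 5) (nat_lit 696) (nat_lit 5) (nat_lit 394) (nat_lit 387) (nat_lit 359)) (XT.nd (nat_lit 78) (nat_lit 0) (nat_lit 0) (XT.lf (nat_lit 0) (nat_lit 835987462) (nat_lit 760) (nat_lit 5796098637) (nat_lit 836) (nat_lit 52300884) (nat_lit 677) (nat_lit 5) (nat_lit 687) (nat_lit 5) (nat_lit 688) (nat_lit 5) (nat_lit 395) (nat_lit 387) (nat_lit 358)) (XT.lf (nat_lit 0) (nat_lit 3208572054) (nat_lit 760) (nat_lit 2284833198) (nat_lit 836) (nat_lit 1215096033) (nat_lit 677) (nat_lit 5) (nat_lit 687) (nat_lit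 5) (nat_lit 688) (nat_lit 5) (nat_lit 396) (nat_lit 387) (nat_lit 357))))) (XT.nd (nat_lit 234) (nat_lit 836) (nat_lit 0) (XT.nd (nat_lit 78) (nat_lit 836) (nat_lit 0) (XT.lf (nat_lit 76) (nat_lit 1278452776) (nat_lit 0) (nat_lit 4300241317) (nat_lit 836) (nat_lit 1155421021) (nat_lit 678) (nat_lit 5) (nat_lit 677) (nat_lit 5) (nat_lit 688) (nat_lit 5) (nat_lit 397) (nat_lit 387) (nat_lit 356)) (XT.nd (nat_lit 78) (nat_lit 0) (nat_lit 0) (XT.lf (nat_lit 0) (nat_lit 1177504548) (nat_lit 836) (nat_lit 1859611721) (nat_lit 912) (nat_lit 3723827929) (nat_lit 666) (nat_lit 5) (nat_lit 677) (nat_lit 5) (nat_lit 678) (nat_lit 5) (nat_lit 398) (nat_lit 387) (nat_lit 355)) (XT.lf (nat_lit 76) (nat_lit 1789345493) (nat_lit 0) (nat_lit 1707338724) (nat_lit 912) (nat_lit 3292389429) (nat_lit 667) (nat_lit 5) (nat_lit 666) (nat_lit 5) (nat_lit 678) (nat_lit 5) (nat_lit 399) (nat_lit 387) (nat_lit 354)))) (XT.nd (nat_lit 78) (nat_lit 836)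 (nat_lit 0) (XT.lf (nat_lit 76) (nat_lit 5501888317) (nat_lit 0) (nat_lit 317157206) (nat_lit 912) (nat_lit 999601714) (nat_lit 667) (nat_lit 5) (nat_lit 666) (nat_lit 5) (nat_lit 678) (nat_lit 5) (nat_lit 400) (nat_lit 387) (nat_lit 353)) (XT.nd (nat_lit 78) (nat_lit 0) (nat_lit 0) (XT.lf (nat_lit 0) (nat_lit 1289719938) (nat_lit 912) (nat_lit 4428526238) (nat_lit 988) (nat_lit 1131044277) (nat_lit 655) (nat_lit 5) (nat_lit 667) (nat_lit 5) (nat_lit 668) (nat_lit 5) (nat_lit 401) (nat_lit 387) (nat_lit 352)) (XT.lf (nat_lit 0) (nat_lit 3568465198) (nat_lit 912) (nat_lit 673930091) (nat_lit 988) (nat_lit 2638895163) (nat_lit 655) (nat_lit 5) (nat_lit 667) (nat_lit 5) (nat_lit 668) (nat_lit 5) (nat_lit 402) (nat_lit 387) (nat_lit 351))))))))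
noncomputable def xc106 : XT := (XT.nd (nat_lit 1794) (nat_lit 11856) (nat_lit 0) (XT.nd (nat_lit 858) (nat_lit 11096) (nat_lit 0) (XT.nd (nat_lit 390) (nat_lit 4788) (nat_lit 0) (XT.nd (nat_lit 156) (nat_lit 988) (nat_lit 0) (XT.nd (nat_lit 78) (nat_lit 988) (nat_lit 0) (XT.lf (nat_lit 76) (nat_lit 3162262667) (nat_lit 0) (nat_lit 2698127035) (nat_lit 988) (nat_lit 1054204843) (nat_lit 656) (nat_lit 5) (nat_lit 655) (nat_lit 5) (nat_lit 668) (nat_lit 5) (nat_lit 403) (nat_lit 387) (nat_lit 350)) (XT.lf (nat_lit 76) (nat_lit 93471278) (nat_lit 0) (nat_lit 1092411665) (nat_lit 1064) (nat_lit 5763481391) (nat_lit 643) (nat_lit 5) (nat_lit 642) (nat_lit 5) (nat_lit 656) (nat_lit 5) (nat_lit 404) (nat_lit 387) (nat_lit 349))) (XT.nd (nat_lit 78) (nat_lit 1064) (nat_lit 0) (XT.lf (nat_lit 0) (nat_lit 3433989380) (nat_lit 988) (nat_lit 2964335223) (nat_lit 76) (nat_lit 586834144) (nat_lit 643) (nat_lit 5) (nat_lit 656) (nat_lit 5)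 (nat_lit 644) (nat_lit 5) (nat_lit 405) (nat_lit 387) (nat_lit 348)) (XT.nd (nat_lit 78) (nat_lit 76) (nat_lit 0) (XT.lf (nat_lit 0) (nat_lit 974944860) (nat_lit 988) (nat_lit 4715120143) (nat_lit 1064) (nat_lit 1332358850) (nat_lit 630) (nat_lit 5) (nat_lit 643) (nat_lit 5) (nat_lit 644) (nat_lit 5) (nat_lit 406) (nat_lit 387) (nat_lit 347)) (XT.lf (nat_lit 0) (nat_lit 888503518) (nat_lit 1064) (nat_lit 2069125879) (nat_lit 76) (nat_lit 4103300686) (nat_lit 629) (nat_lit 5) (nat_lit 643) (nat_lit 5) (nat_lit 630) (nat_lit 5) (nat_lit 407) (nat_lit 387) (nat_lit 346))))) (XT.nd (nat_lit 234) (nat_lit 2508) (nat_lit 0) (XT.nd (nat_lit 78) (nat_lit 1216) (nat_lit 0) (XT.lf (nat_lit 0) (nat_lit 1970413979) (nat_lit 1064) (nat_lit 1129181555) (nat_lit 1140) (nat_lit 4001175799) (nat_lit 615) (nat_lit 5) (nat_lit 629) (nat_lit 5) (nat_lit 630) (nat_lit 5) (nat_lit 408) (nat_lit 387) (nat_lit 345)) (XT.nd (nat_lit 78) (nat_lit 1216)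 (nat_lit 0) (XT.lf (nat_lit 0) (nat_lit 5325328181) (nat_lit 1140) (nat_lit 1063443511) (nat_lit 76) (nat_lit 753243148) (nat_lit 615) (nat_lit 5) (nat_lit 630) (nat_lit 5) (nat_lit 616) (nat_lit 5) (nat_lit 409) (nat_lit 387) (nat_lit 344)) (XT.lf (nat_lit 0) (nat_lit 386052380) (nat_lit 1216) (nat_lit 4104803958) (nat_lit 76) (nat_lit 2693587580) (nat_lit 599) (nat_lit 5) (nat_lit 615) (nat_lit 5) (nat_lit 600) (nat_lit 5) (nat_lit 410) (nat_lit 387) (nat_lit 343)))) (XT.nd (nat_lit 78) (nat_lit 1292) (nat_lit 0) (XT.lf (nat_lit 0) (nat_lit 45005402) (nat_lit 1216) (nat_lit 2524003730) (nat_lit 1292) (nat_lit 4659275524) (nat_lit 583) (nat_lit 5) (nat_lit 599) (nat_lit 5) (nat_lit 600) (nat_lit 5) (nat_lit 411) (nat_lit 387) (nat_lit 342)) (XT.nd (nat_lit 78) (nat_lit 1292) (nat_lit 0) (XT.lf (nat_lit 0) (nat_lit 4297760957) (nat_lit 1216) (nat_lit 479089387) (nat_lit 1292) (nat_lit 2496540117) (nat_lit 583) (nat_lit 5) (nat_lit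 599) (nat_lit 5) (nat_lit 600) (nat_lit 5) (nat_lit 412) (nat_lit 387) (nat_lit 341)) (XT.lf (nat_lit 0) (nat_lit 1286635534) (nat_lit 1292) (nat_lit 5715654269) (nat_lit 1368) (nat_lit 317652256) (nat_lit 566) (nat_lit 5) (nat_lit 583) (nat_lit 5) (nat_lit 584) (nat_lit 5) (nat_lit 413) (nat_lit 387) (nat_lit 340)))))) (XT.nd (nat_lit 468) (nat_lit 6612) (nat_lit 0) (XT.nd (nat_lit 234) (nat_lit 3040) (nat_lit 0) (XT.nd (nat_lit 78) (nat_lit 1368) (nat_lit 0) (XT.lf (nat_lit 0) (nat_lit 1858109255) (nat_lit 1368) (nat_lit 1744569864) (nat_lit 76) (nat_lit 3764944688) (nat_lit 565) (nat_lit 5) (nat_lit 583) (nat_lit 5) (nat_lit 566) (nat_lit 5) (nat_lit 414) (nat_lit 387) (nat_lit 339)) (XT.nd (nat_lit 78) (nat_lit 0) (nat_lit 0) (XT.lf (nat_lit 0) (nat_lit 2626646100) (nat_lit 1368) (nat_lit 1419431503) (nat_lit 1444) (nat_lit 3370692480) (nat_lit 547) (nat_lit 5) (nat_lit 565) (nat_lit 5) (nat_lit 566) (nat_lit 5) (nat_lit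 415) (nat_lit 387) (nat_lit 338)) (XT.lf (nat_lit 0) (nat_lit 6251407085) (nat_lit 1444) (nat_lit 399390638) (nat_lit 76) (nat_lit 816641080) (nat_lit 547) (nat_lit 5) (nat_lit 566) (nat_lit 5) (nat_lit 548) (nat_lit 5) (nat_lit 416) (nat_lit 387) (nat_lit 337)))) (XT.nd (nat_lit 78) (nat_lit 1520) (nat_lit 0) (XT.lf (nat_lit 0) (nat_lit 962158251) (nat_lit 1520) (nat_lit 3437853457) (nat_lit 76) (nat_lit 3119126586) (nat_lit 527) (nat_lit 5) (nat_lit 547) (nat_lit 5) (nat_lit 528) (nat_lit 5) (nat_lit 417) (nat_lit 387) (nat_lit 336)) (XT.nd (nat_lit 78) (nat_lit 0) (nat_lit 0) (XT.lf (nat_lit 0) (nat_lit 1054969380) (nat_lit 1520) (nat_lit 2079964748) (nat_lit 1596) (nat_lit 4437441680) (nat_lit 507) (nat_lit 5) (nat_lit 527) (nat_lit 5) (nat_lit 528) (nat_lit 5) (nat_lit 418) (nat_lit 387) (nat_lit 335)) (XT.lf (nat_lit 0) (nat_lit 5334625400) (nat_lit 1596) (nat_lit 1980590905) (nat_lit 76) (nat_lit 311803246) (nat_lit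 507) (nat_lit 5) (nat_lit 528) (nat_lit 5) (nat_lit 508) (nat_lit 5) (nat_lit 419) (nat_lit 387) (nat_lit 334))))) (XT.nd (nat_lit 234) (nat_lit 3268) (nat_lit 0) (XT.nd (nat_lit 78) (nat_lit 1748) (nat_lit 0) (XT.lf (nat_lit 0) (nat_lit 2631809760) (nat_lit 1596) (nat_lit 4936556174) (nat_lit 1672) (nat_lit 114599590) (nat_lit 486) (nat_lit 5) (nat_lit 507) (nat_lit 5) (nat_lit 508) (nat_lit 5) (nat_lit 420) (nat_lit 387) (nat_lit 333)) (XT.nd (nat_lit 78) (nat_lit 1672) (nat_lit 0) (XT.lf (nat_lit 0) (nat_lit 2051984671) (nat_lit 1672) (nat_lit 426430739) (nat_lit 76) (nat_lit 5261894212) (nat_lit 485) (nat_lit 5) (nat_lit 507) (nat_lit 5) (nat_lit 486) (nat_lit 5) (nat_lit 421) (nat_lit 387) (nat_lit 332)) (XT.lf (nat_lit 0) (nat_lit 4249043108) (nat_lit 1748) (nat_lit 3488360548) (nat_lit 76) (nat_lit 61618119) (nat_lit 463) (nat_lit 5) (nat_lit 486) (nat_lit 5) (nat_lit 464) (nat_lit 5) (nat_lit 422) (nat_lit 387) (nat_lit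 331)))) (XT.nd (nat_lit 78) (nat_lit 1520) (nat_lit 0) (XT.lf (nat_lit 0) (nat_lit 1253349505) (nat_lit 1748) (nat_lit 5224979718) (nat_lit 1824) (nat_lit 1380822885) (nat_lit 440) (nat_lit 5) (nat_lit 463) (nat_lit 5) (nat_lit 464) (nat_lit 5) (nat_lit 423) (nat_lit 387) (nat_lit 330)) (XT.nd (nat_lit 78) (nat_lit 1444) (nat_lit 0) (XT.lf (nat_lit 0) (nat_lit 805496508) (nat_lit 1824) (nat_lit 1824761673) (nat_lit 76) (nat_lit 5290434388) (nat_lit 439) (nat_lit 5) (nat_lit 463) (nat_lit 5) (nat_lit 440) (nat_lit 5) (nat_lit 424) (nat_lit 387) (nat_lit 329)) (XT.lf (nat_lit 0) (nat_lit 2999054736) (nat_lit 1520) (nat_lit 4936908064) (nat_lit 76) (nat_lit 47687571) (nat_lit 420) (nat_lit 5) (nat_lit 440) (nat_lit 5) (nat_lit 421) (nat_lit 5) (nat_lit 425) (nat_lit 387) (nat_lit 328))))))) (XT.nd (nat_lit 936) (nat_lit 5700) (nat_lit 0) (XT.nd (nat_lit 468) (nat_lit 2432) (nat_lit 0) (XT.nd (nat_lit 234) (nat_lit 1824) (nat_lit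 0) (XT.nd (nat_lit 78) (nat_lit 1900) (nat_lit 0) (XT.lf (nat_lit 0) (nat_lit 5228647810) (nat_lit 1520) (nat_lit 60907343) (nat_lit 76) (nat_lit 2758477835) (nat_lit 420) (nat_lit 5) (nat_lit 440) (nat_lit 5) (nat_lit 421) (nat_lit 5) (nat_lit 426) (nat_lit 387) (nat_lit 327)) (XT.nd (nat_lit 78) (nat_lit 988) (nat_lit 0) (XT.lf (nat_lit 0) (nat_lit 4941941185) (nat_lit 912) (nat_lit 2556133358) (nat_lit 988) (nat_lit 615732634) (nat_lit 408) (nat_lit 5) (nat_lit 420) (nat_lit 5) (nat_lit 421) (nat_lit 5) (nat_lit 427) (nat_lit 387) (nat_lit 326)) (XT.lf (nat_lit 0) (nat_lit 1588027368) (nat_lit 988) (nat_lit 6340238530) (nat_lit 76) (nat_lit 252878682) (nat_lit 395) (nat_lit 5) (nat_lit 408) (nat_lit 5) (nat_lit 396) (nat_lit 5) (nat_lit 428) (nat_lit 387) (nat_lit 325)))) (XT.nd (nat_lit 78) (nat_lit 1824) (nat_lit 0) (XT.lf (nat_lit 0) (nat_lit 3829870266) (nat_lit 988) (nat_lit 1309867948) (nat_lit 76) (nat_lit 3109972325)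 (nat_lit 395) (nat_lit 5) (nat_lit 408) (nat_lit 5) (nat_lit 396) (nat_lit 5) (nat_lit 429) (nat_lit 387) (nat_lit 324)) (XT.nd (nat_lit 78) (nat_lit 912) (nat_lit 0) (XT.lf (nat_lit 0) (nat_lit 3835881823) (nat_lit 912) (nat_lit 2270172073) (nat_lit 988) (nat_lit 2213811932) (nat_lit 383) (nat_lit 5) (nat_lit 395) (nat_lit 5) (nat_lit 396) (nat_lit 5) (nat_lit 430) (nat_lit 387) (nat_lit 323)) (XT.lf (nat_lit 0) (nat_lit 18323661) (nat_lit 912) (nat_lit 7712263120) (nat_lit 76) (nat_lit 661191234) (nat_lit 371) (nat_lit 5) (nat_lit 383) (nat_lit 5) (nat_lit 372) (nat_lit 5) (nat_lit 431) (nat_lit 387) (nat_lit 322))))) (XT.nd (nat_lit 234) (nat_lit 1596) (nat_lit 0) (XT.nd (nat_lit 78) (nat_lit 836) (nat_lit 0) (XT.lf (nat_lit 0) (nat_lit 2276088262) (nat_lit 912) (nat_lit 2523594977) (nat_lit 76) (nat_lit 3664947580) (nat_lit 371) (nat_lit 5) (nat_lit 383) (nat_lit 5) (nat_lit 372) (nat_lit 5) (nat_lit 432) (nat_lit 387)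 (nat_lit 321)) (XT.nd (nat_lit 78) (nat_lit 0) (nat_lit 0) (XT.lf (nat_lit 0) (nat_lit 2769642299) (nat_lit 836) (nat_lit 1793307144) (nat_lit 912) (nat_lit 3976319884) (nat_lit 360) (nat_lit 5) (nat_lit 371) (nat_lit 5) (nat_lit 372) (nat_lit 5) (nat_lit 433) (nat_lit 387) (nat_lit 320)) (XT.lf (nat_lit 0) (nat_lit 6887247346) (nat_lit 912) (nat_lit 456451425) (nat_lit 76) (nat_lit 1271875172) (nat_lit 360) (nat_lit 5) (nat_lit 372) (nat_lit 5) (nat_lit 361) (nat_lit 5) (nat_lit 434) (nat_lit 387) (nat_lit 319)))) (XT.nd (nat_lit 78) (nat_lit 760) (nat_lit 0) (XT.lf (nat_lit 0) (nat_lit 568551575) (nat_lit 836) (nat_lit 3715744544) (nat_lit 76) (nat_lit 4408815652) (nat_lit 349) (nat_lit 5) (nat_lit 360) (nat_lit 5) (nat_lit 350) (nat_lit 5) (nat_lit 435) (nat_lit 387) (nat_lit 318)) (XT.nd (nat_lit 78) (nat_lit 0) (nat_lit 0) (XT.lf (nat_lit 0) (nat_lit 1729660769) (nat_lit 760) (nat_lit 1140140993) (nat_lit 836) (nat_lit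 5902545479) (nat_lit 339) (nat_lit 5) (nat_lit 349) (nat_lit 5) (nat_lit 350) (nat_lit 5) (nat_lit 436) (nat_lit 387) (nat_lit 317)) (XT.lf (nat_lit 0) (nat_lit 5223232828) (nat_lit 836) (nat_lit 1567781362) (nat_lit 76) (nat_lit 2062036882) (nat_lit 339) (nat_lit 5) (nat_lit 350) (nat_lit 5) (nat_lit 340) (nat_lit 5) (nat_lit 437) (nat_lit 387) (nat_lit 316)))))) (XT.nd (nat_lit 468) (nat_lit 2660) (nat_lit 0) (XT.nd (nat_lit 234) (nat_lit 1444) (nat_lit 0) (XT.nd (nat_lit 78) (nat_lit 836) (nat_lit 0) (XT.lf (nat_lit 0) (nat_lit 4026715762) (nat_lit 760) (nat_lit 3598982519) (nat_lit 836) (nat_lit 1309638019) (nat_lit 329) (nat_lit 5) (nat_lit 339) (nat_lit 5) (nat_lit 340) (nat_lit 5) (nat_lit 438) (nat_lit 387) (nat_lit 315)) (XT.nd (nat_lit 78) (nat_lit 0) (nat_lit 0) (XT.lf (nat_lit 0) (nat_lit 702214441) (nat_lit 760) (nat_lit 324471327) (nat_lit 836) (nat_lit 7992778557) (nat_lit 318) (nat_lit 5) (nat_lit 328) (nat_lit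 5) (nat_lit 329) (nat_lit 5) (nat_lit 439) (nat_lit 387) (nat_lit 314)) (XT.lf (nat_lit 0) (nat_lit 3413769924) (nat_lit 836) (nat_lit 2677014252) (nat_lit 76) (nat_lit 3013892455) (nat_lit 318) (nat_lit 5) (nat_lit 329) (nat_lit 5) (nat_lit 319) (nat_lit 5) (nat_lit 440) (nat_lit 387) (nat_lit 313)))) (XT.nd (nat_lit 78) (nat_lit 760) (nat_lit 0) (XT.lf (nat_lit 0) (nat_lit 3079230733) (nat_lit 684) (nat_lit 2760934842) (nat_lit 760) (nat_lit 3351602343) (nat_lit 309) (nat_lit 5) (nat_lit 318) (nat_lit 5) (nat_lit 319) (nat_lit 5) (nat_lit 441) (nat_lit 387) (nat_lit 312)) (XT.nd (nat_lit 78) (nat_lit 760) (nat_lit 0) (XT.lf (nat_lit 0) (nat_lit 8307070639) (nat_lit 760) (nat_lit 332979450) (nat_lit 76) (nat_lit 640717322) (nat_lit 309) (nat_lit 5) (nat_lit 319) (nat_lit 5) (nat_lit 310) (nat_lit 5) (nat_lit 442) (nat_lit 387) (nat_lit 311)) (XT.lf (nat_lit 0) (nat_lit 1457779725) (nat_lit 760) (nat_lit 3798233204) (nat_lit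 76) (nat_lit 4114850168) (nat_lit 299) (nat_lit 5) (nat_lit 309) (nat_lit 5) (nat_lit 300) (nat_lit 5) (nat_lit 443) (nat_lit 387) (nat_lit 310))))) (XT.nd (nat_lit 234) (nat_lit 1292) (nat_lit 0) (XT.nd (nat_lit 78) (nat_lit 684) (nat_lit 0) (XT.lf (nat_lit 0) (nat_lit 2124695403) (nat_lit 684) (nat_lit 1786731587) (nat_lit 760) (nat_lit 5551479065) (nat_lit 290) (nat_lit 5) (nat_lit 299) (nat_lit 5) (nat_lit 300) (nat_lit 5) (nat_lit 444) (nat_lit 387) (nat_lit 309)) (XT.nd (nat_lit 78) (nat_lit 684) (nat_lit 0) (XT.lf (nat_lit 0) (nat_lit 6422018959) (nat_lit 760) (nat_lit 1385434272) (nat_lit 76) (nat_lit 1749184760) (nat_lit 290) (nat_lit 5) (nat_lit 300) (nat_lit 5) (nat_lit 291) (nat_lit 5) (nat_lit 445) (nat_lit 387) (nat_lit 308)) (XT.lf (nat_lit 0) (nat_lit 4701739655) (nat_lit 684) (nat_lit 4294854437) (nat_lit 760) (nat_lit 655380492) (nat_lit 281) (nat_lit 5) (nat_lit 290) (nat_lit 5) (nat_lit 291) (nat_lit 5)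 (nat_lit 446) (nat_lit 387) (nat_lit 307)))) (XT.nd (nat_lit 78) (nat_lit 608) (nat_lit 0) (XT.lf (nat_lit 0) (nat_lit 1148598090) (nat_lit 608) (nat_lit 688647808) (nat_lit 684) (nat_lit 7911966498) (nat_lit 272) (nat_lit 5) (nat_lit 280) (nat_lit 5) (nat_lit 281) (nat_lit 5) (nat_lit 447) (nat_lit 387) (nat_lit 306)) (XT.nd (nat_lit 78) (nat_lit 608) (nat_lit 0) (XT.lf (nat_lit 0) (nat_lit 4395658014) (nat_lit 684) (nat_lit 2470136538) (nat_lit 76) (nat_lit 2982024727) (nat_lit 272) (nat_lit 5) (nat_lit 281) (nat_lit 5) (nat_lit 273) (nat_lit 5) (nat_lit 448) (nat_lit 387) (nat_lit 305)) (XT.lf (nat_lit 0) (nat_lit 3793888727) (nat_lit 608) (nat_lit 3212945471) (nat_lit 684) (nat_lit 2941537214) (nat_lit 264) (nat_lit 5) (nat_lit 272) (nat_lit 5) (nat_lit 273) (nat_lit 5) (nat_lit 449) (nat_lit 387) (nat_lit 304))))))))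
noncomputable def xc107 : XT := (XT.nd (nat_lit 1794) (nat_lit 5472) (nat_lit 0) (XT.nd (nat_lit 858) (nat_lit 3420) (nat_lit 0) (XT.nd (nat_lit 390) (nat_lit 2280) (nat_lit 0) (XT.nd (nat_lit 156) (nat_lit 1140) (nat_lit 0) (XT.nd (nat_lit 78) (nat_lit 76) (nat_lit 0) (XT.lf (nat_lit 0) (nat_lit 129796604) (nat_lit 608) (nat_lit 9533975289) (nat_lit 684) (nat_lit 387296867) (nat_lit 256) (nat_lit 5) (nat_lit 264) (nat_lit 5) (nat_lit 265) (nat_lit 5) (nat_lit 450) (nat_lit 387) (nat_lit 303)) (XT.lf (nat_lit 0) (nat_lit 2224597935) (nat_lit 684) (nat_lit 3602438238) (nat_lit 76) (nat_lit 4327787413) (nat_lit 255) (nat_lit 5) (nat_lit 264) (nat_lit 5) (nat_lit 256) (nat_lit 5) (nat_lit 451) (nat_lit 387) (nat_lit 302))) (XT.nd (nat_lit 78) (nat_lit 532) (nat_lit 0) (XT.lf (nat_lit 0) (nat_lit 2843501404) (nat_lit 608) (nat_lit 2031851618) (nat_lit 684) (nat_lit 5385417768) (nat_lit 247) (nat_lit 5) (nat_lit 255) (nat_lit 5)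 (nat_lit 256) (nat_lit 5) (nat_lit 452) (nat_lit 387) (nat_lit 301)) (XT.nd (nat_lit 78) (nat_lit 532) (nat_lit 0) (XT.lf (nat_lit 0) (nat_lit 7588995897) (nat_lit 684) (nat_lit 947522159) (nat_lit 76) (nat_lit 1832125983) (nat_lit 247) (nat_lit 5) (nat_lit 256) (nat_lit 5) (nat_lit 248) (nat_lit 5) (nat_lit 453) (nat_lit 387) (nat_lit 300)) (XT.lf (nat_lit 0) (nat_lit 5679058755) (nat_lit 532) (nat_lit 4702295562) (nat_lit 608) (nat_lit 96836048) (nat_lit 240) (nat_lit 5) (nat_lit 247) (nat_lit 5) (nat_lit 248) (nat_lit 5) (nat_lit 454) (nat_lit 387) (nat_lit 299))))) (XT.nd (nat_lit 234) (nat_lit 1064) (nat_lit 0) (XT.nd (nat_lit 78) (nat_lit 532) (nat_lit 0) (XT.lf (nat_lit 0) (nat_lit 1834379680) (nat_lit 608) (nat_lit 763175448) (nat_lit 684) (nat_lit 7992183175) (nat_lit 231) (nat_lit 5) (nat_lit 239) (nat_lit 5) (nat_lit 240) (nat_lit 5) (nat_lit 455) (nat_lit 387) (nat_lit 298)) (XT.nd (nat_lit 78) (nat_lit 532) (nat_lit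 0) (XT.lf (nat_lit 0) (nat_lit 5372555939) (nat_lit 684) (nat_lit 2093197790) (nat_lit 76) (nat_lit 3237194510) (nat_lit 231) (nat_lit 5) (nat_lit 240) (nat_lit 5) (nat_lit 232) (nat_lit 5) (nat_lit 456) (nat_lit 387) (nat_lit 297)) (XT.lf (nat_lit 0) (nat_lit 4725845221) (nat_lit 532) (nat_lit 3487917055) (nat_lit 608) (nat_lit 2604450113) (nat_lit 224) (nat_lit 5) (nat_lit 231) (nat_lit 5) (nat_lit 232) (nat_lit 5) (nat_lit 457) (nat_lit 387) (nat_lit 296)))) (XT.nd (nat_lit 78) (nat_lit 456) (nat_lit 0) (XT.lf (nat_lit 0) (nat_lit 171559155) (nat_lit 608) (nat_lit 10190326662) (nat_lit 76) (nat_lit 573919983) (nat_lit 216) (nat_lit 5) (nat_lit 224) (nat_lit 5) (nat_lit 217) (nat_lit 5) (nat_lit 458) (nat_lit 387) (nat_lit 295)) (XT.nd (nat_lit 78) (nat_lit 456) (nat_lit 0) (XT.lf (nat_lit 0) (nat_lit 3007794229) (nat_lit 608) (nat_lit 3326510094) (nat_lit 76) (nat_lit 4720314751) (nat_lit 216) (nat_lit 5) (nat_lit 224) (nat_lit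 5) (nat_lit 217) (nat_lit 5) (nat_lit 459) (nat_lit 387) (nat_lit 294)) (XT.lf (nat_lit 0) (nat_lit 3690012155) (nat_lit 456) (nat_lit 2210478365) (nat_lit 532) (nat_lit 5275327175) (nat_lit 210) (nat_lit 5) (nat_lit 216) (nat_lit 5) (nat_lit 217) (nat_lit 5) (nat_lit 460) (nat_lit 387) (nat_lit 293)))))) (XT.nd (nat_lit 468) (nat_lit 1368) (nat_lit 0) (XT.nd (nat_lit 234) (nat_lit 988) (nat_lit 0) (XT.nd (nat_lit 78) (nat_lit 1064) (nat_lit 0) (XT.lf (nat_lit 0) (nat_lit 8862453163) (nat_lit 532) (nat_lit 453318106) (nat_lit 76) (nat_lit 1983444509) (nat_lit 210) (nat_lit 5) (nat_lit 217) (nat_lit 5) (nat_lit 211) (nat_lit 5) (nat_lit 461) (nat_lit 387) (nat_lit 292)) (XT.nd (nat_lit 78) (nat_lit 456) (nat_lit 0) (XT.lf (nat_lit 0) (nat_lit 487779719) (nat_lit 608) (nat_lit 4666262788) (nat_lit 76) (nat_lit 6270278946) (nat_lit 202) (nat_lit 5) (nat_lit 210) (nat_lit 5) (nat_lit 203) (nat_lit 5) (nat_lit 462) (nat_lit 387)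 (nat_lit 291)) (XT.lf (nat_lit 0) (nat_lit 2552634525) (nat_lit 456) (nat_lit 881764909) (nat_lit 532) (nat_lit 8117286892) (nat_lit 196) (nat_lit 5) (nat_lit 202) (nat_lit 5) (nat_lit 203) (nat_lit 5) (nat_lit 463) (nat_lit 387) (nat_lit 290)))) (XT.nd (nat_lit 78) (nat_lit 988) (nat_lit 0) (XT.lf (nat_lit 0) (nat_lit 6470778565) (nat_lit 532) (nat_lit 1757404194) (nat_lit 76) (nat_lit 3452802651) (nat_lit 196) (nat_lit 5) (nat_lit 203) (nat_lit 5) (nat_lit 197) (nat_lit 5) (nat_lit 464) (nat_lit 387) (nat_lit 289)) (XT.nd (nat_lit 78) (nat_lit 532) (nat_lit 0) (XT.lf (nat_lit 0) (nat_lit 5665364067) (nat_lit 456) (nat_lit 3922338468) (nat_lit 532) (nat_lit 2224774978) (nat_lit 190) (nat_lit 5) (nat_lit 196) (nat_lit 5) (nat_lit 197) (nat_lit 5) (nat_lit 465) (nat_lit 387) (nat_lit 288)) (XT.lf (nat_lit 0) (nat_lit 810312658) (nat_lit 532) (nat_lit 10656366306) (nat_lit 76) (nat_lit 479803094) (nat_lit 183) (nat_lit 5) (nat_lit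 190) (nat_lit 5) (nat_lit 184) (nat_lit 5) (nat_lit 466) (nat_lit 387) (nat_lit 287))))) (XT.nd (nat_lit 234) (nat_lit 912) (nat_lit 0) (XT.nd (nat_lit 78) (nat_lit 456) (nat_lit 0) (XT.lf (nat_lit 0) (nat_lit 3921295999) (nat_lit 532) (nat_lit 3196355865) (nat_lit 76) (nat_lit 4964324231) (nat_lit 183) (nat_lit 5) (nat_lit 190) (nat_lit 5) (nat_lit 184) (nat_lit 5) (nat_lit 467) (nat_lit 387) (nat_lit 286)) (XT.nd (nat_lit 78) (nat_lit 0) (nat_lit 0) (XT.lf (nat_lit 0) (nat_lit 4439265855) (nat_lit 456) (nat_lit 2661954381) (nat_lit 532) (nat_lit 5118828479) (nat_lit 177) (nat_lit 5) (nat_lit 183) (nat_lit 5) (nat_lit 184) (nat_lit 5) (nat_lit 468) (nat_lit 387) (nat_lit 285)) (XT.lf (nat_lit 0) (nat_lit 10356622586) (nat_lit 532) (nat_lit 133871940) (nat_lit 76) (nat_lit 1870153735) (nat_lit 177) (nat_lit 5) (nat_lit 184) (nat_lit 5) (nat_lit 178) (nat_lit 5) (nat_lit 469) (nat_lit 387) (nat_lit 284)))) (XT.nd (nat_lit 78)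 (nat_lit 456) (nat_lit 0) (XT.lf (nat_lit 0) (nat_lit 1204225715) (nat_lit 456) (nat_lit 4792838168) (nat_lit 76) (nat_lit 6505915782) (nat_lit 171) (nat_lit 5) (nat_lit 177) (nat_lit 5) (nat_lit 172) (nat_lit 5) (nat_lit 470) (nat_lit 387) (nat_lit 283)) (XT.nd (nat_lit 78) (nat_lit 0) (nat_lit 0) (XT.lf (nat_lit 0) (nat_lit 3060133519) (nat_lit 456) (nat_lit 1389041824) (nat_lit 532) (nat_lit 8198732968) (nat_lit 165) (nat_lit 5) (nat_lit 171) (nat_lit 5) (nat_lit 172) (nat_lit 5) (nat_lit 471) (nat_lit 387) (nat_lit 282)) (XT.lf (nat_lit 0) (nat_lit 7791619317) (nat_lit 532) (nat_lit 1713259045) (nat_lit 76) (nat_lit 3290208093) (nat_lit 165) (nat_lit 5) (nat_lit 172) (nat_lit 5) (nat_lit 166) (nat_lit 5) (nat_lit 472) (nat_lit 387) (nat_lit 281))))))) (XT.nd (nat_lit 936) (nat_lit 2280) (nat_lit 0) (XT.nd (nat_lit 468) (nat_lit 1520) (nat_lit 0) (XT.nd (nat_lit 234) (nat_lit 836) (nat_lit 0) (XT.nd (nat_lit 78) (nat_lit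 456) (nat_lit 0) (XT.lf (nat_lit 0) (nat_lit 6362017986) (nat_lit 380) (nat_lit 4868538565) (nat_lit 456) (nat_lit 1714061501) (nat_lit 160) (nat_lit 5) (nat_lit 165) (nat_lit 5) (nat_lit 166) (nat_lit 5) (nat_lit 473) (nat_lit 387) (nat_lit 280)) (XT.nd (nat_lit 78) (nat_lit 0) (nat_lit 0) (XT.lf (nat_lit 0) (nat_lit 1503050900) (nat_lit 380) (nat_lit 117098240) (nat_lit 456) (nat_lit 11476769890) (nat_lit 154) (nat_lit 5) (nat_lit 159) (nat_lit 5) (nat_lit 160) (nat_lit 5) (nat_lit 474) (nat_lit 387) (nat_lit 279)) (XT.lf (nat_lit 0) (nat_lit 5052635296) (nat_lit 456) (nat_lit 3485276736) (nat_lit 76) (nat_lit 4713039162) (nat_lit 154) (nat_lit 5) (nat_lit 160) (nat_lit 5) (nat_lit 155) (nat_lit 5) (nat_lit 475) (nat_lit 387) (nat_lit 278)))) (XT.nd (nat_lit 78) (nat_lit 456) (nat_lit 0) (XT.lf (nat_lit 0) (nat_lit 4817314696) (nat_lit 380) (nat_lit 3748263745) (nat_lit 456) (nat_lit 4842251981) (nat_lit 149) (nat_lit 5)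 (nat_lit 154) (nat_lit 5) (nat_lit 155) (nat_lit 5) (nat_lit 476) (nat_lit 387) (nat_lit 277)) (XT.nd (nat_lit 78) (nat_lit 456) (nat_lit 0) (XT.lf (nat_lit 0) (nat_lit 12159593955) (nat_lit 456) (nat_lit 272427327) (nat_lit 76) (nat_lit 1135612196) (nat_lit 149) (nat_lit 5) (nat_lit 155) (nat_lit 5) (nat_lit 150) (nat_lit 5) (nat_lit 477) (nat_lit 387) (nat_lit 276)) (XT.lf (nat_lit 0) (nat_lit 2126539166) (nat_lit 456) (nat_lit 5477955987) (nat_lit 76) (nat_lit 6124684708) (nat_lit 143) (nat_lit 5) (nat_lit 149) (nat_lit 5) (nat_lit 144) (nat_lit 5) (nat_lit 478) (nat_lit 387) (nat_lit 275))))) (XT.nd (nat_lit 234) (nat_lit 760) (nat_lit 0) (XT.nd (nat_lit 78) (nat_lit 380) (nat_lit 0) (XT.lf (nat_lit 0) (nat_lit 3055684503) (nat_lit 380) (nat_lit 2659311040) (nat_lit 456) (nat_lit 8178737061) (nat_lit 138) (nat_lit 5) (nat_lit 143) (nat_lit 5) (nat_lit 144) (nat_lit 5) (nat_lit 479) (nat_lit 387) (nat_lit 274)) (XT.nd (nat_lit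 78) (nat_lit 380) (nat_lit 0) (XT.lf (nat_lit 0) (nat_lit 9408172964) (nat_lit 456) (nat_lit 2272614960) (nat_lit 76) (nat_lit 2380131761) (nat_lit 138) (nat_lit 5) (nat_lit 144) (nat_lit 5) (nat_lit 139) (nat_lit 5) (nat_lit 480) (nat_lit 387) (nat_lit 273)) (XT.lf (nat_lit 0) (nat_lit 6502085951) (nat_lit 380) (nat_lit 6713803162) (nat_lit 456) (nat_lit 1014750171) (nat_lit 133) (nat_lit 5) (nat_lit 138) (nat_lit 5) (nat_lit 139) (nat_lit 5) (nat_lit 481) (nat_lit 387) (nat_lit 272)))) (XT.nd (nat_lit 78) (nat_lit 380) (nat_lit 0) (XT.lf (nat_lit 0) (nat_lit 1045985416) (nat_lit 304) (nat_lit 1617709057) (nat_lit 380) (nat_lit 11739649969) (nat_lit 128) (nat_lit 5) (nat_lit 132) (nat_lit 5) (nat_lit 133) (nat_lit 5) (nat_lit 482) (nat_lit 387) (nat_lit 271)) (XT.nd (nat_lit 78) (nat_lit 380) (nat_lit 0) (XT.lf (nat_lit 0) (nat_lit 6458602410) (nat_lit 380) (nat_lit 4537879839) (nat_lit 76) (nat_lit 3581759815) (nat_lit 128)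 (nat_lit 5) (nat_lit 133) (nat_lit 5) (nat_lit 129) (nat_lit 5) (nat_lit 483) (nat_lit 387) (nat_lit 270)) (XT.lf (nat_lit 0) (nat_lit 4476692653) (nat_lit 380) (nat_lit 5873884374) (nat_lit 456) (nat_lit 4405639344) (nat_lit 123) (nat_lit 5) (nat_lit 128) (nat_lit 5) (nat_lit 129) (nat_lit 5) (nat_lit 484) (nat_lit 387) (nat_lit 269)))))) (XT.nd (nat_lit 468) (nat_lit 1216) (nat_lit 0) (XT.nd (nat_lit 234) (nat_lit 380) (nat_lit 0) (XT.nd (nat_lit 78) (nat_lit 684) (nat_lit 0) (XT.lf (nat_lit 0) (nat_lit 13703965882) (nat_lit 380) (nat_lit 628442331) (nat_lit 456) (nat_lit 605103672) (nat_lit 123) (nat_lit 5) (nat_lit 128) (nat_lit 5) (nat_lit 129) (nat_lit 5) (nat_lit 485) (nat_lit 387) (nat_lit 268)) (XT.nd (nat_lit 78) (nat_lit 304) (nat_lit 0) (XT.lf (nat_lit 0) (nat_lit 3293677037) (nat_lit 380) (nat_lit 7103507394) (nat_lit 76) (nat_lit 4723523258) (nat_lit 118) (nat_lit 5) (nat_lit 123) (nat_lit 5) (nat_lit 119) (nat_lit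 5) (nat_lit 486) (nat_lit 387) (nat_lit 267)) (XT.lf (nat_lit 0) (nat_lit 2153418661) (nat_lit 304) (nat_lit 5117303653) (nat_lit 380) (nat_lit 8036599218) (nat_lit 114) (nat_lit 5) (nat_lit 118) (nat_lit 5) (nat_lit 119) (nat_lit 5) (nat_lit 487) (nat_lit 387) (nat_lit 266)))) (XT.nd (nat_lit 78) (nat_lit 380) (nat_lit 0) (XT.lf (nat_lit 0) (nat_lit 11359040049) (nat_lit 380) (nat_lit 3835978982) (nat_lit 76) (nat_lit 302015895) (nat_lit 114) (nat_lit 5) (nat_lit 119) (nat_lit 5) (nat_lit 115) (nat_lit 5) (nat_lit 488) (nat_lit 387) (nat_lit 265)) (XT.nd (nat_lit 78) (nat_lit 76) (nat_lit 0) (XT.lf (nat_lit 0) (nat_lit 5680502025) (nat_lit 304) (nat_lit 9901752371) (nat_lit 380) (nat_lit 107227456) (nat_lit 110) (nat_lit 5) (nat_lit 114) (nat_lit 5) (nat_lit 115) (nat_lit 5) (nat_lit 489) (nat_lit 387) (nat_lit 264)) (XT.lf (nat_lit 0) (nat_lit 3959956329) (nat_lit 380) (nat_lit 500582082) (nat_lit 76) (nat_lit 11424554824)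 (nat_lit 109) (nat_lit 5) (nat_lit 114) (nat_lit 5) (nat_lit 110) (nat_lit 5) (nat_lit 490) (nat_lit 387) (nat_lit 263))))) (XT.nd (nat_lit 234) (nat_lit 532) (nat_lit 0) (XT.nd (nat_lit 78) (nat_lit 380) (nat_lit 0) (XT.lf (nat_lit 0) (nat_lit 8157532291) (nat_lit 380) (nat_lit 6799925491) (nat_lit 76) (nat_lit 1126136964) (nat_lit 105) (nat_lit 5) (nat_lit 110) (nat_lit 5) (nat_lit 106) (nat_lit 5) (nat_lit 491) (nat_lit 387) (nat_lit 262)) (XT.nd (nat_lit 78) (nat_lit 76) (nat_lit 0) (XT.lf (nat_lit 0) (nat_lit 2965731527) (nat_lit 304) (nat_lit 9508343754) (nat_lit 380) (nat_lit 3811292422) (nat_lit 101) (nat_lit 5) (nat_lit 105) (nat_lit 5) (nat_lit 106) (nat_lit 5) (nat_lit 492) (nat_lit 387) (nat_lit 261)) (XT.lf (nat_lit 0) (nat_lit 409527054) (nat_lit 380) (nat_lit 3502233294) (nat_lit 76) (nat_lit 12578791067) (nat_lit 100) (nat_lit 5) (nat_lit 105) (nat_lit 5) (nat_lit 101) (nat_lit 5) (nat_lit 493) (nat_lit 387)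 (nat_lit 260)))) (XT.nd (nat_lit 78) (nat_lit 228) (nat_lit 0) (XT.lf (nat_lit 0) (nat_lit 4701530154) (nat_lit 380) (nat_lit 10166244633) (nat_lit 76) (nat_lit 1830805779) (nat_lit 96) (nat_lit 5) (nat_lit 101) (nat_lit 5) (nat_lit 97) (nat_lit 5) (nat_lit 494) (nat_lit 387) (nat_lit 259)) (XT.nd (nat_lit 78) (nat_lit 228) (nat_lit 0) (XT.lf (nat_lit 0) (nat_lit 9112234894) (nat_lit 380) (nat_lit 148865014) (nat_lit 76) (nat_lit 7649014754) (nat_lit 96) (nat_lit 5) (nat_lit 101) (nat_lit 5) (nat_lit 97) (nat_lit 5) (nat_lit 495) (nat_lit 387) (nat_lit 258)) (XT.lf (nat_lit 0) (nat_lit 10175279828) (nat_lit 228) (nat_lit 3485564458) (nat_lit 304) (nat_lit 3464042908) (nat_lit 93) (nat_lit 5) (nat_lit 96) (nat_lit 5) (nat_lit 97) (nat_lit 5) (nat_lit 496) (nat_lit 387) (nat_lit 257))))))))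
noncomputable def xc108 : XT := (XT.nd (nat_lit 51792) (nat_lit 0) (nat_lit 30096) (XT.nd (nat_lit 50856) (nat_lit 0) (nat_lit 45448) (XT.nd (nat_lit 390) (nat_lit 988) (nat_lit 0) (XT.nd (nat_lit 156) (nat_lit 608) (nat_lit 0) (XT.nd (nat_lit 78) (nat_lit 0) (nat_lit 0) (XT.lf (nat_lit 0) (nat_lit 966249264) (nat_lit 380) (nat_lit 13984478900) (nat_lit 76) (nat_lit 2392657858) (nat_lit 88) (nat_lit 5) (nat_lit 93) (nat_lit 5) (nat_lit 89) (nat_lit 5) (nat_lit 497) (nat_lit 387) (nat_lit 256)) (XT.lf (nat_lit 0) (nat_lit 5492574485) (nat_lit 380) (nat_lit 3671010607) (nat_lit 76) (nat_lit 8401137045) (nat_lit 88) (nat_lit 5) (nat_lit 93) (nat_lit 5) (nat_lit 89) (nat_lit 5) (nat_lit 498) (nat_lit 387) (nat_lit 255))) (XT.nd (nat_lit 78) (nat_lit 380) (nat_lit 0) (XT.lf (nat_lit 0) (nat_lit 6912770240) (nat_lit 228) (nat_lit 3225596893) (nat_lit 304) (nat_lit 7651540468) (nat_lit 85) (nat_lit 5) (nat_lit 88) (nat_lit 5) (nat_lit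 89) (nat_lit 5) (nat_lit 499) (nat_lit 387) (nat_lit 254)) (XT.nd (nat_lit 78) (nat_lit 380) (nat_lit 0) (XT.lf (nat_lit 0) (nat_lit 14904385314) (nat_lit 304) (nat_lit 306352951) (nat_lit 76) (nat_lit 2808313733) (nat_lit 85) (nat_lit 5) (nat_lit 89) (nat_lit 5) (nat_lit 86) (nat_lit 5) (nat_lit 500) (nat_lit 387) (nat_lit 253)) (XT.lf (nat_lit 0) (nat_lit 1568003947) (nat_lit 380) (nat_lit 7694704711) (nat_lit 76) (nat_lit 8988377486) (nat_lit 80) (nat_lit 5) (nat_lit 85) (nat_lit 5) (nat_lit 81) (nat_lit 5) (nat_lit 501) (nat_lit 387) (nat_lit 252))))) (XT.nd (nat_lit 234) (nat_lit 532) (nat_lit 0) (XT.nd (nat_lit 78) (nat_lit 228) (nat_lit 0) (XT.lf (nat_lit 0) (nat_lit 3147234996) (nat_lit 228) (nat_lit 3162404318) (nat_lit 304) (nat_lit 12177570899) (nat_lit 77) (nat_lit 5) (nat_lit 80) (nat_lit 5) (nat_lit 81) (nat_lit 5) (nat_lit 502) (nat_lit 387) (nat_lit 251)) (XT.nd (nat_lit 78) (nat_lit 228) (nat_lit 0) (XT.lf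 (nat_lit 0) (nat_lit 11202492504) (nat_lit 304) (nat_lit 4463187683) (nat_lit 76) (nat_lit 3061250185) (nat_lit 77) (nat_lit 5) (nat_lit 81) (nat_lit 5) (nat_lit 78) (nat_lit 5) (nat_lit 503) (nat_lit 387) (nat_lit 250)) (XT.lf (nat_lit 0) (nat_lit 6671939375) (nat_lit 228) (nat_lit 9570368934) (nat_lit 304) (nat_lit 2728155796) (nat_lit 74) (nat_lit 5) (nat_lit 77) (nat_lit 5) (nat_lit 78) (nat_lit 5) (nat_lit 504) (nat_lit 387) (nat_lit 249)))) (XT.nd (nat_lit 78) (nat_lit 456) (nat_lit 0) (XT.lf (nat_lit 0) (nat_lit 2150692798) (nat_lit 304) (nat_lit 1168039289) (nat_lit 76) (nat_lit 15899556193) (nat_lit 73) (nat_lit 5) (nat_lit 77) (nat_lit 5) (nat_lit 74) (nat_lit 5) (nat_lit 505) (nat_lit 387) (nat_lit 248)) (XT.nd (nat_lit 78) (nat_lit 228) (nat_lit 0) (XT.lf (nat_lit 0) (nat_lit 7162862755) (nat_lit 304) (nat_lit 9213536183) (nat_lit 76) (nat_lit 3092865059) (nat_lit 70) (nat_lit 5) (nat_lit 74) (nat_lit 5) (nat_lit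 71) (nat_lit 5) (nat_lit 506) (nat_lit 387) (nat_lit 247)) (XT.lf (nat_lit 0) (nat_lit 2179915388) (nat_lit 228) (nat_lit 10124613379) (nat_lit 304) (nat_lit 7420146594) (nat_lit 67) (nat_lit 5) (nat_lit 70) (nat_lit 5) (nat_lit 71) (nat_lit 5) (nat_lit 507) (nat_lit 387) (nat_lit 246)))))) (XT.nd (nat_lit 468) (nat_lit 1520) (nat_lit 0) (XT.nd (nat_lit 234) (nat_lit 684) (nat_lit 0) (XT.nd (nat_lit 78) (nat_lit 684) (nat_lit 0) (XT.lf (nat_lit 0) (nat_lit 1502074893) (nat_lit 0) (nat_lit 1502074893) (nat_lit 532) (nat_lit 278255957) (nat_lit 703) (nat_lit 5) (nat_lit 703) (nat_lit 3) (nat_lit 710) (nat_lit 3) (nat_lit 388) (nat_lit 388) (nat_lit 364)) (XT.nd (nat_lit 78) (nat_lit 0) (nat_lit 0) (XT.lf (nat_lit 0) (nat_lit 1889657732) (nat_lit 684) (nat_lit 345819615) (nat_lit 684) (nat_lit 4345321240) (nat_lit 694) (nat_lit 3) (nat_lit 703) (nat_lit 3) (nat_lit 703) (nat_lit 5) (nat_lit 389) (nat_lit 388) (nat_lit 363)) (XT.lf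 (nat_lit 76) (nat_lit 2935421858) (nat_lit 0) (nat_lit 1396826370) (nat_lit 684) (nat_lit 2265706855) (nat_lit 695) (nat_lit 5) (nat_lit 694) (nat_lit 3) (nat_lit 703) (nat_lit 5) (nat_lit 390) (nat_lit 388) (nat_lit 362)))) (XT.nd (nat_lit 78) (nat_lit 0) (nat_lit 76) (XT.lf (nat_lit 0) (nat_lit 144331284) (nat_lit 684) (nat_lit 363160519) (nat_lit 760) (nat_lit 6109180685) (nat_lit 685) (nat_lit 5) (nat_lit 694) (nat_lit 3) (nat_lit 695) (nat_lit 5) (nat_lit 391) (nat_lit 388) (nat_lit 361)) (XT.nd (nat_lit 78) (nat_lit 0) (nat_lit 0) (XT.lf (nat_lit 0) (nat_lit 2532448610) (nat_lit 684) (nat_lit 3645604272) (nat_lit 760) (nat_lit 458228436) (nat_lit 686) (nat_lit 5) (nat_lit 695) (nat_lit 5) (nat_lit 696) (nat_lit 5) (nat_lit 392) (nat_lit 388) (nat_lit 360)) (XT.lf (nat_lit 0) (nat_lit 4913074747) (nat_lit 684) (nat_lit 277020230) (nat_lit 760) (nat_lit 1467312938) (nat_lit 686) (nat_lit 5) (nat_lit 695) (nat_lit 5) (nat_lit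 696) (nat_lit 5) (nat_lit 393) (nat_lit 388) (nat_lit 359))))) (XT.nd (nat_lit 234) (nat_lit 836) (nat_lit 0) (XT.nd (nat_lit 78) (nat_lit 0) (nat_lit 0) (XT.lf (nat_lit 0) (nat_lit 614082798) (nat_lit 760) (nat_lit 3516587777) (nat_lit 836) (nat_lit 2549011915) (nat_lit 676) (nat_lit 5) (nat_lit 686) (nat_lit 5) (nat_lit 687) (nat_lit 5) (nat_lit 394) (nat_lit 388) (nat_lit 358)) (XT.nd (nat_lit 78) (nat_lit 0) (nat_lit 0) (XT.lf (nat_lit 0) (nat_lit 2938883224) (nat_lit 760) (nat_lit 72009952) (nat_lit 836) (nat_lit 3692446659) (nat_lit 676) (nat_lit 5) (nat_lit 686) (nat_lit 5) (nat_lit 687) (nat_lit 5) (nat_lit 395) (nat_lit 388) (nat_lit 357)) (XT.lf (nat_lit 76) (nat_lit 3453569867) (nat_lit 0) (nat_lit 1820875465) (nat_lit 836) (nat_lit 1453758639) (nat_lit 677) (nat_lit 5) (nat_lit 676) (nat_lit 5) (nat_lit 687) (nat_lit 5) (nat_lit 396) (nat_lit 388) (nat_lit 356)))) (XT.nd (nat_lit 78) (nat_lit 0) (nat_lit 76) (XT.lf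 (nat_lit 76) (nat_lit 260886670) (nat_lit 0) (nat_lit 574973637) (nat_lit 912) (nat_lit 5918714983) (nat_lit 666) (nat_lit 5) (nat_lit 665) (nat_lit 5) (nat_lit 677) (nat_lit 5) (nat_lit 397) (nat_lit 388) (nat_lit 355)) (XT.nd (nat_lit 78) (nat_lit 0) (nat_lit 0) (XT.lf (nat_lit 0) (nat_lit 3121896538) (nat_lit 836) (nat_lit 2918649330) (nat_lit 912) (nat_lit 741352030) (nat_lit 666) (nat_lit 5) (nat_lit 677) (nat_lit 5) (nat_lit 678) (nat_lit 5) (nat_lit 398) (nat_lit 388) (nat_lit 354)) (XT.lf (nat_lit 76) (nat_lit 699104593) (nat_lit 0) (nat_lit 4707439445) (nat_lit 912) (nat_lit 1404182623) (nat_lit 667) (nat_lit 5) (nat_lit 666) (nat_lit 5) (nat_lit 678) (nat_lit 5) (nat_lit 399) (nat_lit 388) (nat_lit 353))))))) (XT.nd (nat_lit 858) (nat_lit 10336) (nat_lit 0) (XT.nd (nat_lit 390) (nat_lit 3268) (nat_lit 0) (XT.nd (nat_lit 156) (nat_lit 912) (nat_lit 0) (XT.nd (nat_lit 78) (nat_lit 0) (nat_lit 0) (XT.lf (nat_lit 0) (nat_lit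 849739188) (nat_lit 912) (nat_lit 2451585582) (nat_lit 988) (nat_lit 3539412660) (nat_lit 654) (nat_lit 5) (nat_lit 666) (nat_lit 5) (nat_lit 667) (nat_lit 5) (nat_lit 400) (nat_lit 388) (nat_lit 352)) (XT.lf (nat_lit 76) (nat_lit 1254819464) (nat_lit 0) (nat_lit 1829392847) (nat_lit 988) (nat_lit 3787881473) (nat_lit 655) (nat_lit 5) (nat_lit 654) (nat_lit 5) (nat_lit 667) (nat_lit 5) (nat_lit 401) (nat_lit 388) (nat_lit 351))) (XT.nd (nat_lit 78) (nat_lit 912) (nat_lit 0) (XT.lf (nat_lit 76) (nat_lit 5034817989) (nat_lit 0) (nat_lit 291955954) (nat_lit 988) (nat_lit 1578051523) (nat_lit 655) (nat_lit 5) (nat_lit 654) (nat_lit 5) (nat_lit 667) (nat_lit 5) (nat_lit 402) (nat_lit 388) (nat_lit 350)) (XT.nd (nat_lit 78) (nat_lit 0) (nat_lit 0) (XT.lf (nat_lit 0) (nat_lit 635848414) (nat_lit 988) (nat_lit 5008018322) (nat_lit 1064) (nat_lit 1294898039) (nat_lit 642) (nat_lit 5) (nat_lit 655) (nat_lit 5) (nat_lit 656) (nat_lit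 5) (nat_lit 403) (nat_lit 388) (nat_lit 349)) (XT.lf (nat_lit 0) (nat_lit 2836034536) (nat_lit 988) (nat_lit 1187491936) (nat_lit 1064) (nat_lit 2950400261) (nat_lit 642) (nat_lit 5) (nat_lit 655) (nat_lit 5) (nat_lit 656) (nat_lit 5) (nat_lit 404) (nat_lit 388) (nat_lit 348))))) (XT.nd (nat_lit 234) (nat_lit 2204) (nat_lit 0) (XT.nd (nat_lit 78) (nat_lit 1064) (nat_lit 0) (XT.lf (nat_lit 76) (nat_lit 2710924050) (nat_lit 0) (nat_lit 2336463427) (nat_lit 1064) (nat_lit 1963076137) (nat_lit 643) (nat_lit 5) (nat_lit 642) (nat_lit 5) (nat_lit 656) (nat_lit 5) (nat_lit 405) (nat_lit 388) (nat_lit 347)) (XT.nd (nat_lit 78) (nat_lit 0) (nat_lit 76) (XT.lf (nat_lit 0) (nat_lit 209898027) (nat_lit 1064) (nat_lit 380406680) (nat_lit 1140) (nat_lit 6458247564) (nat_lit 628) (nat_lit 5) (nat_lit 642) (nat_lit 5) (nat_lit 643) (nat_lit 5) (nat_lit 406) (nat_lit 388) (nat_lit 346)) (XT.lf (nat_lit 0) (nat_lit 2382599111) (nat_lit 1064)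 (nat_lit 3478036929) (nat_lit 76) (nat_lit 1226870168) (nat_lit 629) (nat_lit 5) (nat_lit 643) (nat_lit 5) (nat_lit 630) (nat_lit 5) (nat_lit 407) (nat_lit 388) (nat_lit 345)))) (XT.nd (nat_lit 78) (nat_lit 1216) (nat_lit 0) (XT.lf (nat_lit 0) (nat_lit 525370236) (nat_lit 1064) (nat_lit 4035080610) (nat_lit 1140) (nat_lit 2567568253) (nat_lit 615) (nat_lit 5) (nat_lit 629) (nat_lit 5) (nat_lit 630) (nat_lit 5) (nat_lit 408) (nat_lit 388) (nat_lit 344)) (XT.nd (nat_lit 78) (nat_lit 1216) (nat_lit 0) (XT.lf (nat_lit 0) (nat_lit 4621514592) (nat_lit 1064) (nat_lit 2136212247) (nat_lit 1140) (nat_lit 412111603) (nat_lit 615) (nat_lit 5) (nat_lit 629) (nat_lit 5) (nat_lit 630) (nat_lit 5) (nat_lit 409) (nat_lit 388) (nat_lit 343)) (XT.lf (nat_lit 0) (nat_lit 1561532152) (nat_lit 1140) (nat_lit 164768134) (nat_lit 1216) (nat_lit 5486709404) (nat_lit 599) (nat_lit 5) (nat_lit 614) (nat_lit 5) (nat_lit 615) (nat_lit 5) (nat_lit 410)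 (nat_lit 388) (nat_lit 342)))))) (XT.nd (nat_lit 468) (nat_lit 6384) (nat_lit 0) (XT.nd (nat_lit 234) (nat_lit 2660) (nat_lit 0) (XT.nd (nat_lit 78) (nat_lit 1292) (nat_lit 0) (XT.lf (nat_lit 0) (nat_lit 3885079042) (nat_lit 1216) (nat_lit 1518626067) (nat_lit 76) (nat_lit 1853635195) (nat_lit 599) (nat_lit 5) (nat_lit 615) (nat_lit 5) (nat_lit 600) (nat_lit 5) (nat_lit 411) (nat_lit 388) (nat_lit 341)) (XT.nd (nat_lit 78) (nat_lit 76) (nat_lit 0) (XT.lf (nat_lit 0) (nat_lit 2696625046) (nat_lit 1216) (nat_lit 3363823139) (nat_lit 1292) (nat_lit 1242653554) (nat_lit 583) (nat_lit 5) (nat_lit 599) (nat_lit 5) (nat_lit 600) (nat_lit 5) (nat_lit 412) (nat_lit 388) (nat_lit 340)) (XT.lf (nat_lit 0) (nat_lit 882785057) (nat_lit 1292) (nat_lit 373824257) (nat_lit 76) (nat_lit 6093751810) (nat_lit 582) (nat_lit 5) (nat_lit 599) (nat_lit 5) (nat_lit 583) (nat_lit 5) (nat_lit 413) (nat_lit 388) (nat_lit 339)))) (XT.nd (nat_lit 78) (nat_lit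 1368) (nat_lit 0) (XT.lf (nat_lit 0) (nat_lit 3021908018) (nat_lit 1368) (nat_lit 3451997132) (nat_lit 76) (nat_lit 924751758) (nat_lit 565) (nat_lit 5) (nat_lit 583) (nat_lit 5) (nat_lit 566) (nat_lit 5) (nat_lit 414) (nat_lit 388) (nat_lit 338)) (XT.nd (nat_lit 78) (nat_lit 0) (nat_lit 0) (XT.lf (nat_lit 0) (nat_lit 879000185) (nat_lit 1368) (nat_lit 4298119416) (nat_lit 1444) (nat_lit 2271344438) (nat_lit 547) (nat_lit 5) (nat_lit 565) (nat_lit 5) (nat_lit 566) (nat_lit 5) (nat_lit 415) (nat_lit 388) (nat_lit 337)) (XT.lf (nat_lit 0) (nat_lit 5308698189) (nat_lit 1368) (nat_lit 2047276597) (nat_lit 1444) (nat_lit 143693067) (nat_lit 547) (nat_lit 5) (nat_lit 565) (nat_lit 5) (nat_lit 566) (nat_lit 5) (nat_lit 416) (nat_lit 388) (nat_lit 336))))) (XT.nd (nat_lit 234) (nat_lit 3344) (nat_lit 0) (XT.nd (nat_lit 78) (nat_lit 1520) (nat_lit 0) (XT.lf (nat_lit 0) (nat_lit 1974356207) (nat_lit 1520) (nat_lit 5297103007) (nat_lit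 76) (nat_lit 280695810) (nat_lit 527) (nat_lit 5) (nat_lit 547) (nat_lit 5) (nat_lit 528) (nat_lit 5) (nat_lit 417) (nat_lit 388) (nat_lit 335)) (XT.nd (nat_lit 78) (nat_lit 1520) (nat_lit 0) (XT.lf (nat_lit 0) (nat_lit 4119772973) (nat_lit 1520) (nat_lit 835571769) (nat_lit 76) (nat_lit 2650600263) (nat_lit 527) (nat_lit 5) (nat_lit 547) (nat_lit 5) (nat_lit 528) (nat_lit 5) (nat_lit 418) (nat_lit 388) (nat_lit 334)) (XT.lf (nat_lit 0) (nat_lit 3729534902) (nat_lit 1520) (nat_lit 2562160831) (nat_lit 1596) (nat_lit 1369453565) (nat_lit 507) (nat_lit 5) (nat_lit 527) (nat_lit 5) (nat_lit 528) (nat_lit 5) (nat_lit 419) (nat_lit 388) (nat_lit 333)))) (XT.nd (nat_lit 78) (nat_lit 1672) (nat_lit 0) (XT.lf (nat_lit 0) (nat_lit 648377255) (nat_lit 1596) (nat_lit 100401409) (nat_lit 1672) (nat_lit 6969195837) (nat_lit 485) (nat_lit 5) (nat_lit 506) (nat_lit 5) (nat_lit 507) (nat_lit 5) (nat_lit 420) (nat_lit 388) (nat_lit 332)) (XT.nd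 (nat_lit 78) (nat_lit 1672) (nat_lit 0) (XT.lf (nat_lit 0) (nat_lit 2893544597) (nat_lit 1672) (nat_lit 2462536509) (nat_lit 76) (nat_lit 2419633801) (nat_lit 485) (nat_lit 5) (nat_lit 507) (nat_lit 5) (nat_lit 486) (nat_lit 5) (nat_lit 421) (nat_lit 388) (nat_lit 331)) (XT.lf (nat_lit 0) (nat_lit 2230453675) (nat_lit 1672) (nat_lit 2826957299) (nat_lit 1748) (nat_lit 2777684713) (nat_lit 463) (nat_lit 5) (nat_lit 485) (nat_lit 5) (nat_lit 486) (nat_lit 5) (nat_lit 422) (nat_lit 388) (nat_lit 330))))))))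
noncomputable def xc109 : XT := (XT.nd (nat_lit 1794) (nat_lit 8588) (nat_lit 0) (XT.nd (nat_lit 858) (nat_lit 5320) (nat_lit 0) (XT.nd (nat_lit 390) (nat_lit 3648) (nat_lit 0) (XT.nd (nat_lit 156) (nat_lit 2356) (nat_lit 0) (XT.nd (nat_lit 78) (nat_lit 1824) (nat_lit 0) (XT.lf (nat_lit 0) (nat_lit 7016113282) (nat_lit 1672) (nat_lit 226564046) (nat_lit 1748) (nat_lit 653433781) (nat_lit 463) (nat_lit 5) (nat_lit 485) (nat_lit 5) (nat_lit 486) (nat_lit 5) (nat_lit 423) (nat_lit 388) (nat_lit 329)) (XT.lf (nat_lit 0) (nat_lit 1497179196) (nat_lit 1824) (nat_lit 4027743339) (nat_lit 76) (nat_lit 2433162421) (nat_lit 439) (nat_lit 5) (nat_lit 463) (nat_lit 5) (nat_lit 440) (nat_lit 5) (nat_lit 424) (nat_lit 388) (nat_lit 328))) (XT.nd (nat_lit 78) (nat_lit 912) (nat_lit 0) (XT.lf (nat_lit 0) (nat_lit 797268823) (nat_lit 1444) (nat_lit 2860049899) (nat_lit 1520) (nat_lit 4364396832) (nat_lit 420) (nat_lit 5) (nat_lit 439) (nat_lit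 5) (nat_lit 440) (nat_lit 5) (nat_lit 425) (nat_lit 388) (nat_lit 327)) (XT.nd (nat_lit 78) (nat_lit 912) (nat_lit 0) (XT.lf (nat_lit 0) (nat_lit 5738651459) (nat_lit 1444) (nat_lit 112179457) (nat_lit 1520) (nat_lit 2235993207) (nat_lit 420) (nat_lit 5) (nat_lit 439) (nat_lit 5) (nat_lit 440) (nat_lit 5) (nat_lit 426) (nat_lit 388) (nat_lit 326)) (XT.lf (nat_lit 0) (nat_lit 2607565260) (nat_lit 912) (nat_lit 5478925492) (nat_lit 988) (nat_lit 66787149) (nat_lit 408) (nat_lit 5) (nat_lit 420) (nat_lit 5) (nat_lit 421) (nat_lit 5) (nat_lit 427) (nat_lit 388) (nat_lit 325))))) (XT.nd (nat_lit 234) (nat_lit 1748) (nat_lit 0) (XT.nd (nat_lit 78) (nat_lit 1824) (nat_lit 0) (XT.lf (nat_lit 0) (nat_lit 2098382613) (nat_lit 988) (nat_lit 576323867) (nat_lit 76) (nat_lit 5546469442) (nat_lit 407) (nat_lit 5) (nat_lit 420) (nat_lit 5) (nat_lit 408) (nat_lit 5) (nat_lit 428) (nat_lit 388) (nat_lit 324)) (XT.nd (nat_lit 78) (nat_lit 912)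 (nat_lit 0) (XT.lf (nat_lit 0) (nat_lit 4301517475) (nat_lit 988) (nat_lit 3775065330) (nat_lit 76) (nat_lit 213937241) (nat_lit 395) (nat_lit 5) (nat_lit 408) (nat_lit 5) (nat_lit 396) (nat_lit 5) (nat_lit 429) (nat_lit 388) (nat_lit 323)) (XT.lf (nat_lit 0) (nat_lit 1320446677) (nat_lit 912) (nat_lit 5223740836) (nat_lit 988) (nat_lit 1817162021) (nat_lit 383) (nat_lit 5) (nat_lit 395) (nat_lit 5) (nat_lit 396) (nat_lit 5) (nat_lit 430) (nat_lit 388) (nat_lit 322)))) (XT.nd (nat_lit 78) (nat_lit 1672) (nat_lit 0) (XT.lf (nat_lit 0) (nat_lit 383908668) (nat_lit 988) (nat_lit 1901877044) (nat_lit 76) (nat_lit 6147945531) (nat_lit 382) (nat_lit 5) (nat_lit 395) (nat_lit 5) (nat_lit 383) (nat_lit 5) (nat_lit 431) (nat_lit 388) (nat_lit 321)) (XT.nd (nat_lit 78) (nat_lit 836) (nat_lit 0) (XT.lf (nat_lit 0) (nat_lit 2597385207) (nat_lit 912) (nat_lit 5175130046) (nat_lit 76) (nat_lit 734958255) (nat_lit 371) (nat_lit 5) (nat_lit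 383) (nat_lit 5) (nat_lit 372) (nat_lit 5) (nat_lit 432) (nat_lit 388) (nat_lit 320)) (XT.lf (nat_lit 0) (nat_lit 65397028) (nat_lit 836) (nat_lit 4784770024) (nat_lit 912) (nat_lit 3732630179) (nat_lit 360) (nat_lit 5) (nat_lit 371) (nat_lit 5) (nat_lit 372) (nat_lit 5) (nat_lit 433) (nat_lit 388) (nat_lit 319)))))) (XT.nd (nat_lit 468) (nat_lit 2888) (nat_lit 0) (XT.nd (nat_lit 234) (nat_lit 1596) (nat_lit 0) (XT.nd (nat_lit 78) (nat_lit 836) (nat_lit 0) (XT.lf (nat_lit 0) (nat_lit 5446282106) (nat_lit 836) (nat_lit 1703506400) (nat_lit 912) (nat_lit 1509810426) (nat_lit 360) (nat_lit 5) (nat_lit 371) (nat_lit 5) (nat_lit 372) (nat_lit 5) (nat_lit 434) (nat_lit 388) (nat_lit 318)) (XT.nd (nat_lit 78) (nat_lit 0) (nat_lit 0) (XT.lf (nat_lit 0) (nat_lit 738667203) (nat_lit 836) (nat_lit 6561431910) (nat_lit 76) (nat_lit 1437923384) (nat_lit 349) (nat_lit 5) (nat_lit 360) (nat_lit 5) (nat_lit 350) (nat_lit 5) (nat_lit 435) (nat_lit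 388) (nat_lit 317)) (XT.lf (nat_lit 0) (nat_lit 3012788280) (nat_lit 836) (nat_lit 1155925718) (nat_lit 76) (nat_lit 4649089901) (nat_lit 349) (nat_lit 5) (nat_lit 360) (nat_lit 5) (nat_lit 350) (nat_lit 5) (nat_lit 436) (nat_lit 388) (nat_lit 316)))) (XT.nd (nat_lit 78) (nat_lit 836) (nat_lit 0) (XT.lf (nat_lit 0) (nat_lit 4381057873) (nat_lit 760) (nat_lit 948292375) (nat_lit 836) (nat_lit 3569898150) (nat_lit 339) (nat_lit 5) (nat_lit 349) (nat_lit 5) (nat_lit 350) (nat_lit 5) (nat_lit 437) (nat_lit 388) (nat_lit 315)) (XT.nd (nat_lit 78) (nat_lit 76) (nat_lit 0) (XT.lf (nat_lit 0) (nat_lit 1026041312) (nat_lit 760) (nat_lit 6664735668) (nat_lit 836) (nat_lit 1291580642) (nat_lit 329) (nat_lit 5) (nat_lit 339) (nat_lit 5) (nat_lit 340) (nat_lit 5) (nat_lit 438) (nat_lit 388) (nat_lit 314)) (XT.lf (nat_lit 0) (nat_lit 1024635702) (nat_lit 836) (nat_lit 2371970371) (nat_lit 76) (nat_lit 5670277737) (nat_lit 328) (nat_lit 5)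 (nat_lit 339) (nat_lit 5) (nat_lit 329) (nat_lit 5) (nat_lit 439) (nat_lit 388) (nat_lit 313))))) (XT.nd (nat_lit 234) (nat_lit 1444) (nat_lit 0) (XT.nd (nat_lit 78) (nat_lit 684) (nat_lit 0) (XT.lf (nat_lit 0) (nat_lit 3325130910) (nat_lit 760) (nat_lit 36033790) (nat_lit 836) (nat_lit 5791945554) (nat_lit 318) (nat_lit 5) (nat_lit 328) (nat_lit 5) (nat_lit 329) (nat_lit 5) (nat_lit 440) (nat_lit 388) (nat_lit 312)) (XT.nd (nat_lit 78) (nat_lit 684) (nat_lit 0) (XT.lf (nat_lit 0) (nat_lit 5752496379) (nat_lit 836) (nat_lit 128887207) (nat_lit 76) (nat_lit 3359522210) (nat_lit 318) (nat_lit 5) (nat_lit 329) (nat_lit 5) (nat_lit 319) (nat_lit 5) (nat_lit 441) (nat_lit 388) (nat_lit 311)) (XT.lf (nat_lit 0) (nat_lit 5725366445) (nat_lit 684) (nat_lit 2474315470) (nat_lit 760) (nat_lit 1130620683) (nat_lit 309) (nat_lit 5) (nat_lit 318) (nat_lit 5) (nat_lit 319) (nat_lit 5) (nat_lit 442) (nat_lit 388) (nat_lit 310)))) (XT.nd (nat_lit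 78) (nat_lit 684) (nat_lit 0) (XT.lf (nat_lit 0) (nat_lit 1250587669) (nat_lit 760) (nat_lit 7163667473) (nat_lit 76) (nat_lit 1007212846) (nat_lit 299) (nat_lit 5) (nat_lit 309) (nat_lit 5) (nat_lit 300) (nat_lit 5) (nat_lit 443) (nat_lit 388) (nat_lit 309)) (XT.nd (nat_lit 78) (nat_lit 684) (nat_lit 0) (XT.lf (nat_lit 0) (nat_lit 3676133389) (nat_lit 760) (nat_lit 1285521868) (nat_lit 76) (nat_lit 4552420470) (nat_lit 299) (nat_lit 5) (nat_lit 309) (nat_lit 5) (nat_lit 300) (nat_lit 5) (nat_lit 444) (nat_lit 388) (nat_lit 308)) (XT.lf (nat_lit 0) (nat_lit 4738834547) (nat_lit 684) (nat_lit 1413790427) (nat_lit 760) (nat_lit 3455867392) (nat_lit 290) (nat_lit 5) (nat_lit 299) (nat_lit 5) (nat_lit 300) (nat_lit 5) (nat_lit 445) (nat_lit 388) (nat_lit 307))))))) (XT.nd (nat_lit 936) (nat_lit 3572) (nat_lit 0) (XT.nd (nat_lit 468) (nat_lit 2356) (nat_lit 0) (XT.nd (nat_lit 234) (nat_lit 1292) (nat_lit 0) (XT.nd (nat_lit 78) (nat_lit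 684) (nat_lit 0) (XT.lf (nat_lit 0) (nat_lit 1163552191) (nat_lit 684) (nat_lit 7517621344) (nat_lit 760) (nat_lit 1023578597) (nat_lit 281) (nat_lit 5) (nat_lit 290) (nat_lit 5) (nat_lit 291) (nat_lit 5) (nat_lit 446) (nat_lit 388) (nat_lit 306)) (XT.nd (nat_lit 78) (nat_lit 608) (nat_lit 0) (XT.lf (nat_lit 0) (nat_lit 1452615006) (nat_lit 760) (nat_lit 2471855488) (nat_lit 76) (nat_lit 5877995038) (nat_lit 280) (nat_lit 5) (nat_lit 290) (nat_lit 5) (nat_lit 281) (nat_lit 5) (nat_lit 447) (nat_lit 388) (nat_lit 305)) (XT.lf (nat_lit 0) (nat_lit 3727686003) (nat_lit 608) (nat_lit 233818232) (nat_lit 684) (nat_lit 5940561128) (nat_lit 272) (nat_lit 5) (nat_lit 280) (nat_lit 5) (nat_lit 281) (nat_lit 5) (nat_lit 448) (nat_lit 388) (nat_lit 304)))) (XT.nd (nat_lit 78) (nat_lit 684) (nat_lit 0) (XT.lf (nat_lit 0) (nat_lit 25108419) (nat_lit 608) (nat_lit 6508190380) (nat_lit 684) (nat_lit 3470108770) (nat_lit 264) (nat_lit 5) (nat_lit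 272) (nat_lit 5) (nat_lit 273) (nat_lit 5) (nat_lit 449) (nat_lit 388) (nat_lit 303)) (XT.nd (nat_lit 78) (nat_lit 684) (nat_lit 0) (XT.lf (nat_lit 0) (nat_lit 6397345952) (nat_lit 608) (nat_lit 2775412717) (nat_lit 684) (nat_lit 933698198) (nat_lit 264) (nat_lit 5) (nat_lit 272) (nat_lit 5) (nat_lit 273) (nat_lit 5) (nat_lit 450) (nat_lit 388) (nat_lit 302)) (XT.lf (nat_lit 0) (nat_lit 1629582034) (nat_lit 684) (nat_lit 7541616256) (nat_lit 76) (nat_lit 1040202271) (nat_lit 255) (nat_lit 5) (nat_lit 264) (nat_lit 5) (nat_lit 256) (nat_lit 5) (nat_lit 451) (nat_lit 388) (nat_lit 301))))) (XT.nd (nat_lit 234) (nat_lit 1216) (nat_lit 0) (XT.nd (nat_lit 78) (nat_lit 1140) (nat_lit 0) (XT.lf (nat_lit 0) (nat_lit 4248936739) (nat_lit 684) (nat_lit 1149470862) (nat_lit 76) (nat_lit 4919570425) (nat_lit 255) (nat_lit 5) (nat_lit 264) (nat_lit 5) (nat_lit 256) (nat_lit 5) (nat_lit 452) (nat_lit 388) (nat_lit 300)) (XT.nd (nat_lit 78)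 (nat_lit 532) (nat_lit 0) (XT.lf (nat_lit 0) (nat_lit 5408775624) (nat_lit 608) (nat_lit 1521397000) (nat_lit 684) (nat_lit 3496329001) (nat_lit 247) (nat_lit 5) (nat_lit 255) (nat_lit 5) (nat_lit 256) (nat_lit 5) (nat_lit 453) (nat_lit 388) (nat_lit 299)) (XT.lf (nat_lit 0) (nat_lit 1548255318) (nat_lit 532) (nat_lit 8125014556) (nat_lit 608) (nat_lit 863765469) (nat_lit 240) (nat_lit 5) (nat_lit 247) (nat_lit 5) (nat_lit 248) (nat_lit 5) (nat_lit 454) (nat_lit 388) (nat_lit 298)))) (XT.nd (nat_lit 78) (nat_lit 1140) (nat_lit 0) (XT.lf (nat_lit 0) (nat_lit 1816267613) (nat_lit 608) (nat_lit 2390709864) (nat_lit 76) (nat_lit 6442195806) (nat_lit 239) (nat_lit 5) (nat_lit 247) (nat_lit 5) (nat_lit 240) (nat_lit 5) (nat_lit 455) (nat_lit 388) (nat_lit 297)) (XT.nd (nat_lit 78) (nat_lit 532) (nat_lit 0) (XT.lf (nat_lit 0) (nat_lit 4358358228) (nat_lit 608) (nat_lit 183517695) (nat_lit 684) (nat_lit 6221497189) (nat_lit 231) (nat_lit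 5) (nat_lit 239) (nat_lit 5) (nat_lit 240) (nat_lit 5) (nat_lit 456) (nat_lit 388) (nat_lit 296)) (XT.lf (nat_lit 0) (nat_lit 341563298) (nat_lit 532) (nat_lit 6999712704) (nat_lit 608) (nat_lit 3538199388) (nat_lit 224) (nat_lit 5) (nat_lit 231) (nat_lit 5) (nat_lit 232) (nat_lit 5) (nat_lit 457) (nat_lit 388) (nat_lit 295)))))) (XT.nd (nat_lit 468) (nat_lit 1900) (nat_lit 0) (XT.nd (nat_lit 234) (nat_lit 1064) (nat_lit 0) (XT.nd (nat_lit 78) (nat_lit 608) (nat_lit 0) (XT.lf (nat_lit 0) (nat_lit 7276243391) (nat_lit 532) (nat_lit 2940338644) (nat_lit 608) (nat_lit 780923285) (nat_lit 224) (nat_lit 5) (nat_lit 231) (nat_lit 5) (nat_lit 232) (nat_lit 5) (nat_lit 458) (nat_lit 388) (nat_lit 294)) (XT.nd (nat_lit 78) (nat_lit 0) (nat_lit 0) (XT.lf (nat_lit 0) (nat_lit 2009828153) (nat_lit 608) (nat_lit 7896890617) (nat_lit 76) (nat_lit 1210817629) (nat_lit 216) (nat_lit 5) (nat_lit 224) (nat_lit 5) (nat_lit 217) (nat_lit 5) (nat_lit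 459) (nat_lit 388) (nat_lit 293)) (XT.lf (nat_lit 0) (nat_lit 4866810716) (nat_lit 608) (nat_lit 944763259) (nat_lit 76) (nat_lit 5427877171) (nat_lit 216) (nat_lit 5) (nat_lit 224) (nat_lit 5) (nat_lit 217) (nat_lit 5) (nat_lit 460) (nat_lit 388) (nat_lit 292)))) (XT.nd (nat_lit 78) (nat_lit 608) (nat_lit 0) (XT.lf (nat_lit 0) (nat_lit 6195982350) (nat_lit 456) (nat_lit 1601898068) (nat_lit 532) (nat_lit 3565588483) (nat_lit 210) (nat_lit 5) (nat_lit 216) (nat_lit 5) (nat_lit 217) (nat_lit 5) (nat_lit 461) (nat_lit 388) (nat_lit 291)) (XT.nd (nat_lit 78) (nat_lit 76) (nat_lit 0) (XT.lf (nat_lit 0) (nat_lit 1979058252) (nat_lit 532) (nat_lit 8822138854) (nat_lit 608) (nat_lit 688500985) (nat_lit 203) (nat_lit 5) (nat_lit 210) (nat_lit 5) (nat_lit 211) (nat_lit 5) (nat_lit 462) (nat_lit 388) (nat_lit 290)) (XT.lf (nat_lit 0) (nat_lit 2239193249) (nat_lit 608) (nat_lit 2336585133) (nat_lit 76) (nat_lit 7041934802) (nat_lit 202)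 (nat_lit 5) (nat_lit 210) (nat_lit 5) (nat_lit 203) (nat_lit 5) (nat_lit 463) (nat_lit 388) (nat_lit 289))))) (XT.nd (nat_lit 234) (nat_lit 988) (nat_lit 0) (XT.nd (nat_lit 78) (nat_lit 456) (nat_lit 0) (XT.lf (nat_lit 0) (nat_lit 5010749318) (nat_lit 456) (nat_lit 215474129) (nat_lit 532) (nat_lit 6521777475) (nat_lit 196) (nat_lit 5) (nat_lit 202) (nat_lit 5) (nat_lit 203) (nat_lit 5) (nat_lit 464) (nat_lit 388) (nat_lit 288)) (XT.nd (nat_lit 78) (nat_lit 0) (nat_lit 0) (XT.lf (nat_lit 0) (nat_lit 604931240) (nat_lit 456) (nat_lit 7692892986) (nat_lit 532) (nat_lit 3582576906) (nat_lit 190) (nat_lit 5) (nat_lit 196) (nat_lit 5) (nat_lit 197) (nat_lit 5) (nat_lit 465) (nat_lit 388) (nat_lit 287)) (XT.lf (nat_lit 0) (nat_lit 8152500364) (nat_lit 456) (nat_lit 3302861318) (nat_lit 532) (nat_lit 559600825) (nat_lit 190) (nat_lit 5) (nat_lit 196) (nat_lit 5) (nat_lit 197) (nat_lit 5) (nat_lit 466) (nat_lit 388) (nat_lit 286))))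 (XT.nd (nat_lit 78) (nat_lit 456) (nat_lit 0) (XT.lf (nat_lit 0) (nat_lit 2500756893) (nat_lit 532) (nat_lit 8459754440) (nat_lit 76) (nat_lit 1191178723) (nat_lit 183) (nat_lit 5) (nat_lit 190) (nat_lit 5) (nat_lit 184) (nat_lit 5) (nat_lit 467) (nat_lit 388) (nat_lit 285)) (XT.nd (nat_lit 78) (nat_lit 456) (nat_lit 0) (XT.lf (nat_lit 0) (nat_lit 5641131705) (nat_lit 532) (nat_lit 897793578) (nat_lit 76) (nat_lit 5751629899) (nat_lit 183) (nat_lit 5) (nat_lit 190) (nat_lit 5) (nat_lit 184) (nat_lit 5) (nat_lit 468) (nat_lit 388) (nat_lit 284)) (XT.lf (nat_lit 0) (nat_lit 6874997883) (nat_lit 456) (nat_lit 1992709972) (nat_lit 532) (nat_lit 3564024884) (nat_lit 177) (nat_lit 5) (nat_lit 183) (nat_lit 5) (nat_lit 184) (nat_lit 5) (nat_lit 469) (nat_lit 388) (nat_lit 283))))))))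
noncomputable def xc110 : XT := (XT.nd (nat_lit 1794) (nat_lit 2660) (nat_lit 0) (XT.nd (nat_lit 858) (nat_lit 2508) (nat_lit 0) (XT.nd (nat_lit 390) (nat_lit 1672) (nat_lit 0) (XT.nd (nat_lit 156) (nat_lit 836) (nat_lit 0) (XT.nd (nat_lit 78) (nat_lit 76) (nat_lit 0) (XT.lf (nat_lit 0) (nat_lit 2220983948) (nat_lit 380) (nat_lit 9954401049) (nat_lit 456) (nat_lit 400020408) (nat_lit 172) (nat_lit 5) (nat_lit 177) (nat_lit 5) (nat_lit 178) (nat_lit 5) (nat_lit 470) (nat_lit 388) (nat_lit 282)) (XT.lf (nat_lit 0) (nat_lit 2819905916) (nat_lit 456) (nat_lit 2554242637) (nat_lit 76) (nat_lit 7346844238) (nat_lit 171) (nat_lit 5) (nat_lit 177) (nat_lit 5) (nat_lit 172) (nat_lit 5) (nat_lit 471) (nat_lit 388) (nat_lit 281))) (XT.nd (nat_lit 78) (nat_lit 380) (nat_lit 0) (XT.lf (nat_lit 0) (nat_lit 5440430245) (nat_lit 456) (nat_lit 673173630) (nat_lit 532) (nat_lit 6755543355) (nat_lit 165) (nat_lit 5) (nat_lit 171) (nat_lit 5)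 (nat_lit 172) (nat_lit 5) (nat_lit 472) (nat_lit 388) (nat_lit 280)) (XT.nd (nat_lit 78) (nat_lit 0) (nat_lit 0) (XT.lf (nat_lit 0) (nat_lit 559803023) (nat_lit 380) (nat_lit 8940570830) (nat_lit 456) (nat_lit 3519349667) (nat_lit 160) (nat_lit 5) (nat_lit 165) (nat_lit 5) (nat_lit 166) (nat_lit 5) (nat_lit 473) (nat_lit 388) (nat_lit 279)) (XT.lf (nat_lit 0) (nat_lit 8774112196) (nat_lit 380) (nat_lit 4214799623) (nat_lit 456) (nat_lit 183721533) (nat_lit 160) (nat_lit 5) (nat_lit 165) (nat_lit 5) (nat_lit 166) (nat_lit 5) (nat_lit 474) (nat_lit 388) (nat_lit 278))))) (XT.nd (nat_lit 234) (nat_lit 836) (nat_lit 0) (XT.nd (nat_lit 78) (nat_lit 380) (nat_lit 0) (XT.lf (nat_lit 0) (nat_lit 3185417402) (nat_lit 456) (nat_lit 9508743181) (nat_lit 76) (nat_lit 633845195) (nat_lit 154) (nat_lit 5) (nat_lit 160) (nat_lit 5) (nat_lit 155) (nat_lit 5) (nat_lit 475) (nat_lit 388) (nat_lit 277)) (XT.nd (nat_lit 78) (nat_lit 380) (nat_lit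 0) (XT.lf (nat_lit 0) (nat_lit 6657257378) (nat_lit 456) (nat_lit 1284171656) (nat_lit 76) (nat_lit 5544279279) (nat_lit 154) (nat_lit 5) (nat_lit 160) (nat_lit 5) (nat_lit 155) (nat_lit 5) (nat_lit 476) (nat_lit 388) (nat_lit 276)) (XT.lf (nat_lit 0) (nat_lit 7169532061) (nat_lit 380) (nat_lit 3056092183) (nat_lit 456) (nat_lit 3420401320) (nat_lit 149) (nat_lit 5) (nat_lit 154) (nat_lit 5) (nat_lit 155) (nat_lit 5) (nat_lit 477) (nat_lit 388) (nat_lit 275)))) (XT.nd (nat_lit 78) (nat_lit 380) (nat_lit 0) (XT.lf (nat_lit 0) (nat_lit 69909648) (nat_lit 456) (nat_lit 11825439293) (nat_lit 76) (nat_lit 1913898695) (nat_lit 143) (nat_lit 5) (nat_lit 149) (nat_lit 5) (nat_lit 144) (nat_lit 5) (nat_lit 478) (nat_lit 388) (nat_lit 274)) (XT.nd (nat_lit 78) (nat_lit 380) (nat_lit 0) (XT.lf (nat_lit 0) (nat_lit 3628985807) (nat_lit 456) (nat_lit 3346519768) (nat_lit 76) (nat_lit 6998883557) (nat_lit 143) (nat_lit 5) (nat_lit 149) (nat_lit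 5) (nat_lit 144) (nat_lit 5) (nat_lit 479) (nat_lit 388) (nat_lit 273)) (XT.lf (nat_lit 0) (nat_lit 5343050140) (nat_lit 380) (nat_lit 1931989674) (nat_lit 456) (nat_lit 6867479996) (nat_lit 138) (nat_lit 5) (nat_lit 143) (nat_lit 5) (nat_lit 144) (nat_lit 5) (nat_lit 480) (nat_lit 388) (nat_lit 272)))))) (XT.nd (nat_lit 468) (nat_lit 988) (nat_lit 0) (XT.nd (nat_lit 234) (nat_lit 760) (nat_lit 0) (XT.nd (nat_lit 78) (nat_lit 760) (nat_lit 0) (XT.lf (nat_lit 0) (nat_lit 11018701064) (nat_lit 456) (nat_lit 111918417) (nat_lit 76) (nat_lit 3182902132) (nat_lit 138) (nat_lit 5) (nat_lit 144) (nat_lit 5) (nat_lit 139) (nat_lit 5) (nat_lit 481) (nat_lit 388) (nat_lit 271)) (XT.nd (nat_lit 78) (nat_lit 304) (nat_lit 0) (XT.lf (nat_lit 0) (nat_lit 396727164) (nat_lit 456) (nat_lit 5665759792) (nat_lit 76) (nat_lit 8424372963) (nat_lit 132) (nat_lit 5) (nat_lit 138) (nat_lit 5) (nat_lit 133) (nat_lit 5) (nat_lit 482) (nat_lit 388)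 (nat_lit 270)) (XT.lf (nat_lit 0) (nat_lit 3263005820) (nat_lit 304) (nat_lit 858610826) (nat_lit 380) (nat_lit 10541542303) (nat_lit 128) (nat_lit 5) (nat_lit 132) (nat_lit 5) (nat_lit 133) (nat_lit 5) (nat_lit 483) (nat_lit 388) (nat_lit 269)))) (XT.nd (nat_lit 78) (nat_lit 760) (nat_lit 0) (XT.lf (nat_lit 0) (nat_lit 7969918495) (nat_lit 380) (nat_lit 2452937001) (nat_lit 76) (nat_lit 4419152238) (nat_lit 128) (nat_lit 5) (nat_lit 133) (nat_lit 5) (nat_lit 129) (nat_lit 5) (nat_lit 484) (nat_lit 388) (nat_lit 268)) (XT.nd (nat_lit 78) (nat_lit 380) (nat_lit 0) (XT.lf (nat_lit 0) (nat_lit 6727613122) (nat_lit 380) (nat_lit 5199051774) (nat_lit 456) (nat_lit 3097141049) (nat_lit 123) (nat_lit 5) (nat_lit 128) (nat_lit 5) (nat_lit 129) (nat_lit 5) (nat_lit 485) (nat_lit 388) (nat_lit 267)) (XT.lf (nat_lit 0) (nat_lit 748918750) (nat_lit 380) (nat_lit 14315370615) (nat_lit 76) (nat_lit 144745033) (nat_lit 118) (nat_lit 5) (nat_lit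 123) (nat_lit 5) (nat_lit 119) (nat_lit 5) (nat_lit 486) (nat_lit 388) (nat_lit 266))))) (XT.nd (nat_lit 234) (nat_lit 684) (nat_lit 0) (XT.nd (nat_lit 78) (nat_lit 304) (nat_lit 0) (XT.lf (nat_lit 0) (nat_lit 4703201719) (nat_lit 380) (nat_lit 5100703982) (nat_lit 76) (nat_lit 5592198730) (nat_lit 118) (nat_lit 5) (nat_lit 123) (nat_lit 5) (nat_lit 119) (nat_lit 5) (nat_lit 487) (nat_lit 388) (nat_lit 265)) (XT.nd (nat_lit 78) (nat_lit 0) (nat_lit 0) (XT.lf (nat_lit 0) (nat_lit 4327249583) (nat_lit 304) (nat_lit 4420026541) (nat_lit 380) (nat_lit 6839427493) (nat_lit 114) (nat_lit 5) (nat_lit 118) (nat_lit 5) (nat_lit 119) (nat_lit 5) (nat_lit 488) (nat_lit 388) (nat_lit 264)) (XT.lf (nat_lit 0) (nat_lit 12896349329) (nat_lit 380) (nat_lit 1802566003) (nat_lit 76) (nat_lit 1081718941) (nat_lit 114) (nat_lit 5) (nat_lit 119) (nat_lit 5) (nat_lit 115) (nat_lit 5) (nat_lit 489) (nat_lit 388) (nat_lit 263)))) (XT.nd (nat_lit 78)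 (nat_lit 304) (nat_lit 0) (XT.lf (nat_lit 0) (nat_lit 1198842992) (nat_lit 380) (nat_lit 8094699383) (nat_lit 76) (nat_lit 6683474312) (nat_lit 109) (nat_lit 5) (nat_lit 114) (nat_lit 5) (nat_lit 110) (nat_lit 5) (nat_lit 490) (nat_lit 388) (nat_lit 262)) (XT.nd (nat_lit 78) (nat_lit 0) (nat_lit 0) (XT.lf (nat_lit 0) (nat_lit 1582464429) (nat_lit 304) (nat_lit 3748122850) (nat_lit 380) (nat_lit 10846248407) (nat_lit 105) (nat_lit 5) (nat_lit 109) (nat_lit 5) (nat_lit 110) (nat_lit 5) (nat_lit 491) (nat_lit 388) (nat_lit 261)) (XT.lf (nat_lit 0) (nat_lit 9595210319) (nat_lit 380) (nat_lit 4856861906) (nat_lit 76) (nat_lit 1927575655) (nat_lit 105) (nat_lit 5) (nat_lit 110) (nat_lit 5) (nat_lit 106) (nat_lit 5) (nat_lit 492) (nat_lit 388) (nat_lit 260))))))) (XT.nd (nat_lit 936) (nat_lit 532) (nat_lit 0) (XT.nd (nat_lit 468) (nat_lit 836) (nat_lit 0) (XT.nd (nat_lit 234) (nat_lit 608) (nat_lit 0) (XT.nd (nat_lit 78) (nat_lit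 380) (nat_lit 0) (XT.lf (nat_lit 0) (nat_lit 5090430212) (nat_lit 304) (nat_lit 8896073067) (nat_lit 380) (nat_lit 2599187150) (nat_lit 101) (nat_lit 5) (nat_lit 105) (nat_lit 5) (nat_lit 106) (nat_lit 5) (nat_lit 493) (nat_lit 388) (nat_lit 259)) (XT.nd (nat_lit 78) (nat_lit 304) (nat_lit 0) (XT.lf (nat_lit 0) (nat_lit 1664221935) (nat_lit 380) (nat_lit 1530705428) (nat_lit 76) (nat_lit 13600384176) (nat_lit 100) (nat_lit 5) (nat_lit 105) (nat_lit 5) (nat_lit 101) (nat_lit 5) (nat_lit 494) (nat_lit 388) (nat_lit 258)) (XT.lf (nat_lit 0) (nat_lit 6035939971) (nat_lit 380) (nat_lit 8321753418) (nat_lit 76) (nat_lit 2649932755) (nat_lit 96) (nat_lit 5) (nat_lit 101) (nat_lit 5) (nat_lit 97) (nat_lit 5) (nat_lit 495) (nat_lit 388) (nat_lit 257)))) (XT.nd (nat_lit 78) (nat_lit 380) (nat_lit 0) (XT.lf (nat_lit 0) (nat_lit 1880483413) (nat_lit 228) (nat_lit 8642263577) (nat_lit 304) (nat_lit 6700888492) (nat_lit 93) (nat_lit 5) (nat_lit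 96) (nat_lit 5) (nat_lit 97) (nat_lit 5) (nat_lit 496) (nat_lit 388) (nat_lit 256)) (XT.nd (nat_lit 78) (nat_lit 380) (nat_lit 0) (XT.lf (nat_lit 0) (nat_lit 12373239967) (nat_lit 228) (nat_lit 2765984304) (nat_lit 304) (nat_lit 2303943556) (nat_lit 93) (nat_lit 5) (nat_lit 96) (nat_lit 5) (nat_lit 97) (nat_lit 5) (nat_lit 497) (nat_lit 388) (nat_lit 255)) (XT.lf (nat_lit 0) (nat_lit 2193172246) (nat_lit 380) (nat_lit 12247710678) (nat_lit 76) (nat_lit 3225109429) (nat_lit 88) (nat_lit 5) (nat_lit 93) (nat_lit 5) (nat_lit 89) (nat_lit 5) (nat_lit 498) (nat_lit 388) (nat_lit 254))))) (XT.nd (nat_lit 234) (nat_lit 304) (nat_lit 0) (XT.nd (nat_lit 78) (nat_lit 532) (nat_lit 0) (XT.lf (nat_lit 0) (nat_lit 6786345580) (nat_lit 380) (nat_lit 1767511408) (nat_lit 76) (nat_lit 9338373917) (nat_lit 88) (nat_lit 5) (nat_lit 93) (nat_lit 5) (nat_lit 89) (nat_lit 5) (nat_lit 499) (nat_lit 388) (nat_lit 253)) (XT.nd (nat_lit 78) (nat_lit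 304) (nat_lit 0) (XT.lf (nat_lit 0) (nat_lit 9014939007) (nat_lit 228) (nat_lit 2499651992) (nat_lit 304) (nat_lit 6607540444) (nat_lit 85) (nat_lit 5) (nat_lit 88) (nat_lit 5) (nat_lit 89) (nat_lit 5) (nat_lit 500) (nat_lit 388) (nat_lit 252)) (XT.lf (nat_lit 0) (nat_lit 1652680984) (nat_lit 304) (nat_lit 14716001449) (nat_lit 380) (nat_lit 1987323300) (nat_lit 81) (nat_lit 5) (nat_lit 85) (nat_lit 5) (nat_lit 86) (nat_lit 5) (nat_lit 501) (nat_lit 388) (nat_lit 251)))) (XT.nd (nat_lit 78) (nat_lit 228) (nat_lit 0) (XT.lf (nat_lit 0) (nat_lit 2752406989) (nat_lit 380) (nat_lit 5902476663) (nat_lit 76) (nat_lit 9938064243) (nat_lit 80) (nat_lit 5) (nat_lit 85) (nat_lit 5) (nat_lit 81) (nat_lit 5) (nat_lit 502) (nat_lit 388) (nat_lit 250)) (XT.nd (nat_lit 78) (nat_lit 0) (nat_lit 0) (XT.lf (nat_lit 0) (nat_lit 5143498403) (nat_lit 228) (nat_lit 2435320363) (nat_lit 304) (nat_lit 11255178750) (nat_lit 77) (nat_lit 5) (nat_lit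 80) (nat_lit 5) (nat_lit 81) (nat_lit 5) (nat_lit 503) (nat_lit 388) (nat_lit 249)) (XT.lf (nat_lit 0) (nat_lit 12552148261) (nat_lit 304) (nat_lit 2639564917) (nat_lit 76) (nat_lit 3887148420) (nat_lit 77) (nat_lit 5) (nat_lit 81) (nat_lit 5) (nat_lit 78) (nat_lit 5) (nat_lit 504) (nat_lit 388) (nat_lit 248)))))) (XT.nd (nat_lit 50544) (nat_lit 0) (nat_lit 45220) (XT.nd (nat_lit 50310) (nat_lit 0) (nat_lit 46740) (XT.nd (nat_lit 78) (nat_lit 304) (nat_lit 0) (XT.lf (nat_lit 0) (nat_lit 8705679902) (nat_lit 228) (nat_lit 8977347795) (nat_lit 304) (nat_lit 1644434830) (nat_lit 74) (nat_lit 5) (nat_lit 77) (nat_lit 5) (nat_lit 78) (nat_lit 5) (nat_lit 505) (nat_lit 388) (nat_lit 247)) (XT.nd (nat_lit 78) (nat_lit 0) (nat_lit 0) (XT.lf (nat_lit 0) (nat_lit 695488145) (nat_lit 228) (nat_lit 2604062786) (nat_lit 304) (nat_lit 16280896460) (nat_lit 70) (nat_lit 5) (nat_lit 73) (nat_lit 5) (nat_lit 74) (nat_lit 5) (nat_lit 506) (nat_lit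 388) (nat_lit 246)) (XT.lf (nat_lit 0) (nat_lit 8402988049) (nat_lit 304) (nat_lit 7515491460) (nat_lit 76) (nat_lit 3918144398) (nat_lit 70) (nat_lit 5) (nat_lit 74) (nat_lit 5) (nat_lit 71) (nat_lit 5) (nat_lit 507) (nat_lit 388) (nat_lit 245)))) (XT.nd (nat_lit 78) (nat_lit 684) (nat_lit 0) (XT.lf (nat_lit 0) (nat_lit 2148393887) (nat_lit 684) (nat_lit 575142864) (nat_lit 684) (nat_lit 575142864) (nat_lit 694) (nat_lit 3) (nat_lit 703) (nat_lit 3) (nat_lit 703) (nat_lit 5) (nat_lit 389) (nat_lit 389) (nat_lit 362)) (XT.nd (nat_lit 78) (nat_lit 0) (nat_lit 0) (XT.lf (nat_lit 0) (nat_lit 86457014) (nat_lit 684) (nat_lit 4511647599) (nat_lit 760) (nat_lit 2017140829) (nat_lit 685) (nat_lit 5) (nat_lit 694) (nat_lit 3) (nat_lit 695) (nat_lit 5) (nat_lit 390) (nat_lit 389) (nat_lit 361)) (XT.lf (nat_lit 0) (nat_lit 2435956137) (nat_lit 684) (nat_lit 1243176728) (nat_lit 760) (nat_lit 2955162610) (nat_lit 685) (nat_lit 5) (nat_lit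 694) (nat_lit 3) (nat_lit 695) (nat_lit 5) (nat_lit 391) (nat_lit 389) (nat_lit 360))))) (XT.nd (nat_lit 234) (nat_lit 760) (nat_lit 0) (XT.nd (nat_lit 78) (nat_lit 760) (nat_lit 0) (XT.lf (nat_lit 76) (nat_lit 2085955998) (nat_lit 0) (nat_lit 2698989316) (nat_lit 760) (nat_lit 1869751713) (nat_lit 686) (nat_lit 5) (nat_lit 685) (nat_lit 5) (nat_lit 695) (nat_lit 5) (nat_lit 392) (nat_lit 389) (nat_lit 359)) (XT.nd (nat_lit 78) (nat_lit 0) (nat_lit 0) (XT.lf (nat_lit 0) (nat_lit 446705984) (nat_lit 760) (nat_lit 1212831126) (nat_lit 836) (nat_lit 5016965056) (nat_lit 675) (nat_lit 5) (nat_lit 685) (nat_lit 5) (nat_lit 686) (nat_lit 5) (nat_lit 393) (nat_lit 389) (nat_lit 358)) (XT.lf (nat_lit 76) (nat_lit 2194559654) (nat_lit 0) (nat_lit 544884061) (nat_lit 836) (nat_lit 3959972110) (nat_lit 676) (nat_lit 5) (nat_lit 675) (nat_lit 5) (nat_lit 686) (nat_lit 5) (nat_lit 394) (nat_lit 389) (nat_lit 357)))) (XT.nd (nat_lit 78)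 (nat_lit 836) (nat_lit 0) (XT.lf (nat_lit 0) (nat_lit 5031915703) (nat_lit 760) (nat_lit 1073168198) (nat_lit 836) (nat_lit 618645222) (nat_lit 676) (nat_lit 5) (nat_lit 686) (nat_lit 5) (nat_lit 687) (nat_lit 5) (nat_lit 395) (nat_lit 389) (nat_lit 356)) (XT.nd (nat_lit 78) (nat_lit 0) (nat_lit 0) (XT.lf (nat_lit 0) (nat_lit 575608750) (nat_lit 836) (nat_lit 4330300502) (nat_lit 912) (nat_lit 1843315843) (nat_lit 665) (nat_lit 5) (nat_lit 676) (nat_lit 5) (nat_lit 677) (nat_lit 5) (nat_lit 396) (nat_lit 389) (nat_lit 355)) (XT.lf (nat_lit 0) (nat_lit 2816498098) (nat_lit 836) (nat_lit 824020143) (nat_lit 912) (nat_lit 3135491508) (nat_lit 665) (nat_lit 5) (nat_lit 676) (nat_lit 5) (nat_lit 677) (nat_lit 5) (nat_lit 397) (nat_lit 389) (nat_lit 354))))))))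
noncomputable def xc111 : XT := (XT.nd (nat_lit 1794) (nat_lit 15732) (nat_lit 0) (XT.nd (nat_lit 858) (nat_lit 9272) (nat_lit 0) (XT.nd (nat_lit 390) (nat_lit 988) (nat_lit 0) (XT.nd (nat_lit 156) (nat_lit 912) (nat_lit 0) (XT.nd (nat_lit 78) (nat_lit 912) (nat_lit 0) (XT.lf (nat_lit 76) (nat_lit 2756093511) (nat_lit 0) (nat_lit 2308615641) (nat_lit 912) (nat_lit 1739388377) (nat_lit 666) (nat_lit 5) (nat_lit 665) (nat_lit 5) (nat_lit 677) (nat_lit 5) (nat_lit 398) (nat_lit 389) (nat_lit 353)) (XT.lf (nat_lit 0) (nat_lit 468924748) (nat_lit 912) (nat_lit 450075256) (nat_lit 988) (nat_lit 5914682211) (nat_lit 653) (nat_lit 5) (nat_lit 665) (nat_lit 5) (nat_lit 666) (nat_lit 5) (nat_lit 399) (nat_lit 389) (nat_lit 352))) (XT.nd (nat_lit 78) (nat_lit 988) (nat_lit 0) (XT.lf (nat_lit 0) (nat_lit 2668804939) (nat_lit 912) (nat_lit 3649718785) (nat_lit 988) (nat_lit 545707603) (nat_lit 654) (nat_lit 5) (nat_lit 666) (nat_lit 5)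 (nat_lit 667) (nat_lit 5) (nat_lit 400) (nat_lit 389) (nat_lit 351)) (XT.nd (nat_lit 78) (nat_lit 988) (nat_lit 0) (XT.lf (nat_lit 76) (nat_lit 24047607) (nat_lit 0) (nat_lit 4845084444) (nat_lit 988) (nat_lit 2027146561) (nat_lit 655) (nat_lit 5) (nat_lit 654) (nat_lit 5) (nat_lit 667) (nat_lit 5) (nat_lit 401) (nat_lit 389) (nat_lit 350)) (XT.lf (nat_lit 0) (nat_lit 154360607) (nat_lit 988) (nat_lit 3142890845) (nat_lit 1064) (nat_lit 3632261354) (nat_lit 641) (nat_lit 5) (nat_lit 654) (nat_lit 5) (nat_lit 655) (nat_lit 5) (nat_lit 402) (nat_lit 389) (nat_lit 349))))) (XT.nd (nat_lit 234) (nat_lit 988) (nat_lit 0) (XT.nd (nat_lit 78) (nat_lit 0) (nat_lit 76) (XT.lf (nat_lit 76) (nat_lit 622624221) (nat_lit 0) (nat_lit 1682452728) (nat_lit 1064) (nat_lit 4659027542) (nat_lit 642) (nat_lit 5) (nat_lit 641) (nat_lit 5) (nat_lit 655) (nat_lit 5) (nat_lit 403) (nat_lit 389) (nat_lit 348)) (XT.nd (nat_lit 78) (nat_lit 0) (nat_lit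 0) (XT.lf (nat_lit 0) (nat_lit 4469370156) (nat_lit 988) (nat_lit 2526899188) (nat_lit 1064) (nat_lit 3722363) (nat_lit 642) (nat_lit 5) (nat_lit 655) (nat_lit 5) (nat_lit 656) (nat_lit 5) (nat_lit 404) (nat_lit 389) (nat_lit 347)) (XT.lf (nat_lit 76) (nat_lit 1336958857) (nat_lit 0) (nat_lit 5310363824) (nat_lit 1064) (nat_lit 389881169) (nat_lit 643) (nat_lit 5) (nat_lit 642) (nat_lit 5) (nat_lit 656) (nat_lit 5) (nat_lit 405) (nat_lit 389) (nat_lit 346)))) (XT.nd (nat_lit 78) (nat_lit 0) (nat_lit 0) (XT.lf (nat_lit 0) (nat_lit 1738187199) (nat_lit 1064) (nat_lit 1808085220) (nat_lit 1140) (nat_lit 3529308238) (nat_lit 628) (nat_lit 5) (nat_lit 642) (nat_lit 5) (nat_lit 643) (nat_lit 5) (nat_lit 406) (nat_lit 389) (nat_lit 345)) (XT.nd (nat_lit 78) (nat_lit 0) (nat_lit 76) (XT.lf (nat_lit 76) (nat_lit 2154401958) (nat_lit 0) (nat_lit 1715116975) (nat_lit 1140) (nat_lit 3245849883) (nat_lit 629) (nat_lit 5) (nat_lit 628) (nat_lit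 5) (nat_lit 643) (nat_lit 5) (nat_lit 407) (nat_lit 389) (nat_lit 344)) (XT.lf (nat_lit 0) (nat_lit 6009433648) (nat_lit 1064) (nat_lit 970158149) (nat_lit 76) (nat_lit 177055353) (nat_lit 629) (nat_lit 5) (nat_lit 643) (nat_lit 5) (nat_lit 630) (nat_lit 5) (nat_lit 408) (nat_lit 389) (nat_lit 343)))))) (XT.nd (nat_lit 468) (nat_lit 4484) (nat_lit 0) (XT.nd (nat_lit 234) (nat_lit 2584) (nat_lit 0) (XT.nd (nat_lit 78) (nat_lit 1140) (nat_lit 0) (XT.lf (nat_lit 0) (nat_lit 965395598) (nat_lit 1140) (nat_lit 4109052488) (nat_lit 76) (nat_lit 2124486410) (nat_lit 614) (nat_lit 5) (nat_lit 629) (nat_lit 5) (nat_lit 615) (nat_lit 5) (nat_lit 409) (nat_lit 389) (nat_lit 342)) (XT.nd (nat_lit 78) (nat_lit 1140) (nat_lit 0) (XT.lf (nat_lit 0) (nat_lit 3065519587) (nat_lit 1140) (nat_lit 39065435) (nat_lit 76) (nat_lit 4138131183) (nat_lit 614) (nat_lit 5) (nat_lit 629) (nat_lit 5) (nat_lit 615) (nat_lit 5) (nat_lit 410) (nat_lit 389)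 (nat_lit 341)) (XT.lf (nat_lit 0) (nat_lit 4133432842) (nat_lit 1140) (nat_lit 1056007211) (nat_lit 1216) (nat_lit 2098310124) (nat_lit 599) (nat_lit 5) (nat_lit 614) (nat_lit 5) (nat_lit 615) (nat_lit 5) (nat_lit 411) (nat_lit 389) (nat_lit 340)))) (XT.nd (nat_lit 78) (nat_lit 1368) (nat_lit 0) (XT.lf (nat_lit 0) (nat_lit 1029160679) (nat_lit 1216) (nat_lit 6296035900) (nat_lit 1292) (nat_lit 9113357) (nat_lit 583) (nat_lit 5) (nat_lit 599) (nat_lit 5) (nat_lit 600) (nat_lit 5) (nat_lit 412) (nat_lit 389) (nat_lit 339)) (XT.nd (nat_lit 78) (nat_lit 1292) (nat_lit 0) (XT.lf (nat_lit 0) (nat_lit 2078390042) (nat_lit 1292) (nat_lit 2097450795) (nat_lit 76) (nat_lit 3206009280) (nat_lit 582) (nat_lit 5) (nat_lit 599) (nat_lit 5) (nat_lit 583) (nat_lit 5) (nat_lit 413) (nat_lit 389) (nat_lit 338)) (XT.lf (nat_lit 0) (nat_lit 2189499187) (nat_lit 1292) (nat_lit 1989150478) (nat_lit 1368) (nat_lit 3252279222) (nat_lit 565) (nat_lit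 5) (nat_lit 582) (nat_lit 5) (nat_lit 583) (nat_lit 5) (nat_lit 414) (nat_lit 389) (nat_lit 337))))) (XT.nd (nat_lit 234) (nat_lit 1596) (nat_lit 0) (XT.nd (nat_lit 78) (nat_lit 2888) (nat_lit 0) (XT.lf (nat_lit 0) (nat_lit 6294249227) (nat_lit 1368) (nat_lit 926004524) (nat_lit 76) (nat_lit 261280116) (nat_lit 565) (nat_lit 5) (nat_lit 583) (nat_lit 5) (nat_lit 566) (nat_lit 5) (nat_lit 415) (nat_lit 389) (nat_lit 336)) (XT.nd (nat_lit 78) (nat_lit 1444) (nat_lit 0) (XT.lf (nat_lit 0) (nat_lit 901070839) (nat_lit 1444) (nat_lit 4064666721) (nat_lit 76) (nat_lit 2567422658) (nat_lit 546) (nat_lit 5) (nat_lit 565) (nat_lit 5) (nat_lit 547) (nat_lit 5) (nat_lit 416) (nat_lit 389) (nat_lit 335)) (XT.lf (nat_lit 0) (nat_lit 340376051) (nat_lit 1444) (nat_lit 2642147350) (nat_lit 1520) (nat_lit 4603804856) (nat_lit 527) (nat_lit 5) (nat_lit 546) (nat_lit 5) (nat_lit 547) (nat_lit 5) (nat_lit 417) (nat_lit 389) (nat_lit 334)))) (XT.nd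 (nat_lit 78) (nat_lit 1596) (nat_lit 0) (XT.lf (nat_lit 0) (nat_lit 4854917507) (nat_lit 1444) (nat_lit 237301401) (nat_lit 1520) (nat_lit 2548618936) (nat_lit 527) (nat_lit 5) (nat_lit 546) (nat_lit 5) (nat_lit 547) (nat_lit 5) (nat_lit 418) (nat_lit 389) (nat_lit 333)) (XT.nd (nat_lit 78) (nat_lit 76) (nat_lit 0) (XT.lf (nat_lit 0) (nat_lit 1737827785) (nat_lit 1520) (nat_lit 5492128541) (nat_lit 1596) (nat_lit 466774597) (nat_lit 507) (nat_lit 5) (nat_lit 527) (nat_lit 5) (nat_lit 528) (nat_lit 5) (nat_lit 419) (nat_lit 389) (nat_lit 332)) (XT.lf (nat_lit 0) (nat_lit 1615840695) (nat_lit 1596) (nat_lit 1410208088) (nat_lit 76) (nat_lit 4727870572) (nat_lit 506) (nat_lit 5) (nat_lit 527) (nat_lit 5) (nat_lit 507) (nat_lit 5) (nat_lit 420) (nat_lit 389) (nat_lit 331))))))) (XT.nd (nat_lit 936) (nat_lit 5472) (nat_lit 0) (XT.nd (nat_lit 468) (nat_lit 3724) (nat_lit 0) (XT.nd (nat_lit 234) (nat_lit 3192) (nat_lit 0) (XT.nd (nat_lit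 78) (nat_lit 1748) (nat_lit 0) (XT.lf (nat_lit 0) (nat_lit 3235268317) (nat_lit 1596) (nat_lit 480848020) (nat_lit 1672) (nat_lit 4096438016) (nat_lit 485) (nat_lit 5) (nat_lit 506) (nat_lit 5) (nat_lit 507) (nat_lit 5) (nat_lit 421) (nat_lit 389) (nat_lit 330)) (XT.nd (nat_lit 78) (nat_lit 76) (nat_lit 0) (XT.lf (nat_lit 0) (nat_lit 73649499) (nat_lit 1672) (nat_lit 5770307921) (nat_lit 1748) (nat_lit 2028702911) (nat_lit 463) (nat_lit 5) (nat_lit 485) (nat_lit 5) (nat_lit 486) (nat_lit 5) (nat_lit 422) (nat_lit 389) (nat_lit 329)) (XT.lf (nat_lit 0) (nat_lit 75528659) (nat_lit 1748) (nat_lit 3092019554) (nat_lit 76) (nat_lit 4766494967) (nat_lit 462) (nat_lit 5) (nat_lit 485) (nat_lit 5) (nat_lit 463) (nat_lit 5) (nat_lit 423) (nat_lit 389) (nat_lit 328)))) (XT.nd (nat_lit 78) (nat_lit 1444) (nat_lit 0) (XT.lf (nat_lit 0) (nat_lit 1684031691) (nat_lit 1748) (nat_lit 484443586) (nat_lit 1824) (nat_lit 5828443252) (nat_lit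 439) (nat_lit 5) (nat_lit 462) (nat_lit 5) (nat_lit 463) (nat_lit 5) (nat_lit 424) (nat_lit 389) (nat_lit 327)) (XT.nd (nat_lit 78) (nat_lit 1444) (nat_lit 0) (XT.lf (nat_lit 0) (nat_lit 4302157963) (nat_lit 1824) (nat_lit 1512151730) (nat_lit 76) (nat_lit 2246772906) (nat_lit 439) (nat_lit 5) (nat_lit 463) (nat_lit 5) (nat_lit 440) (nat_lit 5) (nat_lit 425) (nat_lit 389) (nat_lit 326)) (XT.lf (nat_lit 0) (nat_lit 3392280764) (nat_lit 1444) (nat_lit 3075552071) (nat_lit 1520) (nat_lit 1658919328) (nat_lit 420) (nat_lit 5) (nat_lit 439) (nat_lit 5) (nat_lit 440) (nat_lit 5) (nat_lit 426) (nat_lit 389) (nat_lit 325))))) (XT.nd (nat_lit 234) (nat_lit 1824) (nat_lit 0) (XT.nd (nat_lit 78) (nat_lit 912) (nat_lit 0) (XT.lf (nat_lit 0) (nat_lit 187157546) (nat_lit 912) (nat_lit 265352395) (nat_lit 988) (nat_lit 7741655508) (nat_lit 407) (nat_lit 5) (nat_lit 419) (nat_lit 5) (nat_lit 420) (nat_lit 5) (nat_lit 427) (nat_lit 389) (nat_lit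 324)) (XT.nd (nat_lit 78) (nat_lit 912) (nat_lit 0) (XT.lf (nat_lit 0) (nat_lit 2597665598) (nat_lit 988) (nat_lit 3053339746) (nat_lit 76) (nat_lit 2611436223) (nat_lit 407) (nat_lit 5) (nat_lit 420) (nat_lit 5) (nat_lit 408) (nat_lit 5) (nat_lit 428) (nat_lit 389) (nat_lit 323)) (XT.lf (nat_lit 0) (nat_lit 1990058303) (nat_lit 912) (nat_lit 2775854943) (nat_lit 988) (nat_lit 3566574115) (nat_lit 395) (nat_lit 5) (nat_lit 407) (nat_lit 5) (nat_lit 408) (nat_lit 5) (nat_lit 429) (nat_lit 389) (nat_lit 322)))) (XT.nd (nat_lit 78) (nat_lit 1824) (nat_lit 0) (XT.lf (nat_lit 0) (nat_lit 6965142555) (nat_lit 988) (nat_lit 1263121452) (nat_lit 76) (nat_lit 175925506) (nat_lit 395) (nat_lit 5) (nat_lit 408) (nat_lit 5) (nat_lit 396) (nat_lit 5) (nat_lit 430) (nat_lit 389) (nat_lit 321)) (XT.nd (nat_lit 78) (nat_lit 836) (nat_lit 0) (XT.lf (nat_lit 0) (nat_lit 731962231) (nat_lit 988) (nat_lit 4564661596) (nat_lit 76) (nat_lit 3180404046)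 (nat_lit 382) (nat_lit 5) (nat_lit 395) (nat_lit 5) (nat_lit 383) (nat_lit 5) (nat_lit 431) (nat_lit 389) (nat_lit 320)) (XT.lf (nat_lit 0) (nat_lit 622191780) (nat_lit 836) (nat_lit 2284374389) (nat_lit 912) (nat_lit 5644985049) (nat_lit 371) (nat_lit 5) (nat_lit 382) (nat_lit 5) (nat_lit 383) (nat_lit 5) (nat_lit 432) (nat_lit 389) (nat_lit 319)))))) (XT.nd (nat_lit 468) (nat_lit 3040) (nat_lit 0) (XT.nd (nat_lit 234) (nat_lit 1520) (nat_lit 0) (XT.nd (nat_lit 78) (nat_lit 912) (nat_lit 0) (XT.lf (nat_lit 0) (nat_lit 5127894111) (nat_lit 912) (nat_lit 2691763812) (nat_lit 76) (nat_lit 807849651) (nat_lit 371) (nat_lit 5) (nat_lit 383) (nat_lit 5) (nat_lit 372) (nat_lit 5) (nat_lit 433) (nat_lit 389) (nat_lit 318)) (XT.nd (nat_lit 78) (nat_lit 76) (nat_lit 0) (XT.lf (nat_lit 0) (nat_lit 2636554930) (nat_lit 836) (nat_lit 4757262594) (nat_lit 912) (nat_lit 1311169198) (nat_lit 360) (nat_lit 5) (nat_lit 371) (nat_lit 5) (nat_lit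 372) (nat_lit 5) (nat_lit 434) (nat_lit 389) (nat_lit 317)) (XT.lf (nat_lit 0) (nat_lit 895265933) (nat_lit 912) (nat_lit 715515801) (nat_lit 76) (nat_lit 7173394856) (nat_lit 359) (nat_lit 5) (nat_lit 371) (nat_lit 5) (nat_lit 360) (nat_lit 5) (nat_lit 435) (nat_lit 389) (nat_lit 316)))) (XT.nd (nat_lit 78) (nat_lit 760) (nat_lit 0) (XT.lf (nat_lit 0) (nat_lit 3138602972) (nat_lit 836) (nat_lit 4110176512) (nat_lit 76) (nat_lit 1615797475) (nat_lit 349) (nat_lit 5) (nat_lit 360) (nat_lit 5) (nat_lit 350) (nat_lit 5) (nat_lit 436) (nat_lit 389) (nat_lit 315)) (XT.nd (nat_lit 78) (nat_lit 0) (nat_lit 0) (XT.lf (nat_lit 0) (nat_lit 1370780898) (nat_lit 760) (nat_lit 4049557700) (nat_lit 836) (nat_lit 3526382607) (nat_lit 339) (nat_lit 5) (nat_lit 349) (nat_lit 5) (nat_lit 350) (nat_lit 5) (nat_lit 437) (nat_lit 389) (nat_lit 314)) (XT.lf (nat_lit 0) (nat_lit 6983869235) (nat_lit 760) (nat_lit 760941962) (nat_lit 836) (nat_lit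 1285761473) (nat_lit 339) (nat_lit 5) (nat_lit 349) (nat_lit 5) (nat_lit 350) (nat_lit 5) (nat_lit 438) (nat_lit 389) (nat_lit 313))))) (XT.nd (nat_lit 234) (nat_lit 1444) (nat_lit 0) (XT.nd (nat_lit 78) (nat_lit 760) (nat_lit 0) (XT.lf (nat_lit 0) (nat_lit 996872531) (nat_lit 836) (nat_lit 5532232770) (nat_lit 76) (nat_lit 2586665957) (nat_lit 328) (nat_lit 5) (nat_lit 339) (nat_lit 5) (nat_lit 329) (nat_lit 5) (nat_lit 439) (nat_lit 389) (nat_lit 312)) (XT.nd (nat_lit 78) (nat_lit 0) (nat_lit 0) (XT.lf (nat_lit 0) (nat_lit 106155362) (nat_lit 760) (nat_lit 3191629625) (nat_lit 836) (nat_lit 5904928021) (nat_lit 318) (nat_lit 5) (nat_lit 328) (nat_lit 5) (nat_lit 329) (nat_lit 5) (nat_lit 440) (nat_lit 389) (nat_lit 311)) (XT.lf (nat_lit 0) (nat_lit 5654081769) (nat_lit 836) (nat_lit 3393646052) (nat_lit 76) (nat_lit 243484345) (nat_lit 318) (nat_lit 5) (nat_lit 329) (nat_lit 5) (nat_lit 319) (nat_lit 5) (nat_lit 441) (nat_lit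 389) (nat_lit 310)))) (XT.nd (nat_lit 78) (nat_lit 760) (nat_lit 0) (XT.lf (nat_lit 0) (nat_lit 2400661572) (nat_lit 684) (nat_lit 5664758096) (nat_lit 760) (nat_lit 1315909112) (nat_lit 309) (nat_lit 5) (nat_lit 318) (nat_lit 5) (nat_lit 319) (nat_lit 5) (nat_lit 442) (nat_lit 389) (nat_lit 309)) (XT.nd (nat_lit 78) (nat_lit 684) (nat_lit 0) (XT.lf (nat_lit 0) (nat_lit 1032216633) (nat_lit 760) (nat_lit 1156094350) (nat_lit 76) (nat_lit 7284920252) (nat_lit 308) (nat_lit 5) (nat_lit 318) (nat_lit 5) (nat_lit 309) (nat_lit 5) (nat_lit 443) (nat_lit 389) (nat_lit 308)) (XT.lf (nat_lit 0) (nat_lit 3421872040) (nat_lit 760) (nat_lit 4769023175) (nat_lit 76) (nat_lit 1375664259) (nat_lit 299) (nat_lit 5) (nat_lit 309) (nat_lit 5) (nat_lit 300) (nat_lit 5) (nat_lit 444) (nat_lit 389) (nat_lit 307))))))))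
noncomputable def xc112 : XT := (XT.nd (nat_lit 1794) (nat_lit 6004) (nat_lit 0) (XT.nd (nat_lit 858) (nat_lit 3800) (nat_lit 0) (XT.nd (nat_lit 390) (nat_lit 2508) (nat_lit 0) (XT.nd (nat_lit 156) (nat_lit 1368) (nat_lit 0) (XT.nd (nat_lit 78) (nat_lit 0) (nat_lit 0) (XT.lf (nat_lit 0) (nat_lit 1192562927) (nat_lit 684) (nat_lit 4669024880) (nat_lit 760) (nat_lit 3800126465) (nat_lit 290) (nat_lit 5) (nat_lit 299) (nat_lit 5) (nat_lit 300) (nat_lit 5) (nat_lit 445) (nat_lit 389) (nat_lit 306)) (XT.lf (nat_lit 0) (nat_lit 7305396356) (nat_lit 684) (nat_lit 1049259822) (nat_lit 760) (nat_lit 1404030055) (nat_lit 290) (nat_lit 5) (nat_lit 299) (nat_lit 5) (nat_lit 300) (nat_lit 5) (nat_lit 446) (nat_lit 389) (nat_lit 305))) (XT.nd (nat_lit 78) (nat_lit 608) (nat_lit 0) (XT.lf (nat_lit 0) (nat_lit 1040560155) (nat_lit 760) (nat_lit 6182653243) (nat_lit 76) (nat_lit 2633969989) (nat_lit 280) (nat_lit 5) (nat_lit 290) (nat_lit 5)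 (nat_lit 281) (nat_lit 5) (nat_lit 447) (nat_lit 389) (nat_lit 304)) (XT.nd (nat_lit 78) (nat_lit 608) (nat_lit 0) (XT.lf (nat_lit 0) (nat_lit 3511978501) (nat_lit 760) (nat_lit 48163155) (nat_lit 76) (nat_lit 6397393420) (nat_lit 280) (nat_lit 5) (nat_lit 290) (nat_lit 5) (nat_lit 281) (nat_lit 5) (nat_lit 448) (nat_lit 389) (nat_lit 303)) (XT.lf (nat_lit 0) (nat_lit 6048562919) (nat_lit 684) (nat_lit 3801888690) (nat_lit 76) (nat_lit 209132270) (nat_lit 272) (nat_lit 5) (nat_lit 281) (nat_lit 5) (nat_lit 273) (nat_lit 5) (nat_lit 449) (nat_lit 389) (nat_lit 302))))) (XT.nd (nat_lit 234) (nat_lit 1216) (nat_lit 0) (XT.nd (nat_lit 78) (nat_lit 684) (nat_lit 0) (XT.lf (nat_lit 0) (nat_lit 2503629656) (nat_lit 608) (nat_lit 6146401576) (nat_lit 684) (nat_lit 1513364122) (nat_lit 264) (nat_lit 5) (nat_lit 272) (nat_lit 5) (nat_lit 273) (nat_lit 5) (nat_lit 450) (nat_lit 389) (nat_lit 301)) (XT.nd (nat_lit 78) (nat_lit 608) (nat_lit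 0) (XT.lf (nat_lit 0) (nat_lit 1020484589) (nat_lit 684) (nat_lit 1321281911) (nat_lit 76) (nat_lit 7927390753) (nat_lit 263) (nat_lit 5) (nat_lit 272) (nat_lit 5) (nat_lit 264) (nat_lit 5) (nat_lit 451) (nat_lit 389) (nat_lit 300)) (XT.lf (nat_lit 0) (nat_lit 3603199993) (nat_lit 684) (nat_lit 5216942560) (nat_lit 76) (nat_lit 1556327163) (nat_lit 255) (nat_lit 5) (nat_lit 264) (nat_lit 5) (nat_lit 256) (nat_lit 5) (nat_lit 452) (nat_lit 389) (nat_lit 299)))) (XT.nd (nat_lit 78) (nat_lit 608) (nat_lit 0) (XT.lf (nat_lit 0) (nat_lit 1271178137) (nat_lit 608) (nat_lit 4973957647) (nat_lit 684) (nat_lit 4240645701) (nat_lit 247) (nat_lit 5) (nat_lit 255) (nat_lit 5) (nat_lit 256) (nat_lit 5) (nat_lit 453) (nat_lit 389) (nat_lit 298)) (XT.nd (nat_lit 78) (nat_lit 608) (nat_lit 0) (XT.lf (nat_lit 0) (nat_lit 7927950938) (nat_lit 608) (nat_lit 1022132849) (nat_lit 684) (nat_lit 1646996525) (nat_lit 247) (nat_lit 5) (nat_lit 255)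 (nat_lit 5) (nat_lit 256) (nat_lit 5) (nat_lit 454) (nat_lit 389) (nat_lit 297)) (XT.lf (nat_lit 0) (nat_lit 1006734778) (nat_lit 608) (nat_lit 6708165638) (nat_lit 76) (nat_lit 2995153064) (nat_lit 239) (nat_lit 5) (nat_lit 247) (nat_lit 5) (nat_lit 240) (nat_lit 5) (nat_lit 455) (nat_lit 389) (nat_lit 296)))))) (XT.nd (nat_lit 468) (nat_lit 1596) (nat_lit 0) (XT.nd (nat_lit 234) (nat_lit 1064) (nat_lit 0) (XT.nd (nat_lit 78) (nat_lit 1140) (nat_lit 0) (XT.lf (nat_lit 0) (nat_lit 3692024877) (nat_lit 608) (nat_lit 31985153) (nat_lit 76) (nat_lit 7101051646) (nat_lit 239) (nat_lit 5) (nat_lit 247) (nat_lit 5) (nat_lit 240) (nat_lit 5) (nat_lit 456) (nat_lit 389) (nat_lit 295)) (XT.nd (nat_lit 78) (nat_lit 532) (nat_lit 0) (XT.lf (nat_lit 0) (nat_lit 6454097397) (nat_lit 684) (nat_lit 4108227891) (nat_lit 76) (nat_lit 379587181) (nat_lit 231) (nat_lit 5) (nat_lit 240) (nat_lit 5) (nat_lit 232) (nat_lit 5) (nat_lit 457) (nat_lit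 389) (nat_lit 294)) (XT.lf (nat_lit 0) (nat_lit 2756121296) (nat_lit 532) (nat_lit 6534474848) (nat_lit 608) (nat_lit 1770124326) (nat_lit 224) (nat_lit 5) (nat_lit 231) (nat_lit 5) (nat_lit 232) (nat_lit 5) (nat_lit 458) (nat_lit 389) (nat_lit 293)))) (XT.nd (nat_lit 78) (nat_lit 988) (nat_lit 0) (XT.lf (nat_lit 0) (nat_lit 993044590) (nat_lit 608) (nat_lit 1406072161) (nat_lit 76) (nat_lit 8782576221) (nat_lit 223) (nat_lit 5) (nat_lit 231) (nat_lit 5) (nat_lit 224) (nat_lit 5) (nat_lit 459) (nat_lit 389) (nat_lit 292)) (XT.nd (nat_lit 78) (nat_lit 456) (nat_lit 0) (XT.lf (nat_lit 0) (nat_lit 3813613542) (nat_lit 608) (nat_lit 5654556824) (nat_lit 76) (nat_lit 1836167437) (nat_lit 216) (nat_lit 5) (nat_lit 224) (nat_lit 5) (nat_lit 217) (nat_lit 5) (nat_lit 460) (nat_lit 389) (nat_lit 291)) (XT.lf (nat_lit 0) (nat_lit 1408015306) (nat_lit 456) (nat_lit 5294282047) (nat_lit 532) (nat_lit 4726907702) (nat_lit 210) (nat_lit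 5) (nat_lit 216) (nat_lit 5) (nat_lit 217) (nat_lit 5) (nat_lit 461) (nat_lit 389) (nat_lit 290))))) (XT.nd (nat_lit 234) (nat_lit 988) (nat_lit 0) (XT.nd (nat_lit 78) (nat_lit 608) (nat_lit 0) (XT.lf (nat_lit 0) (nat_lit 8657627826) (nat_lit 456) (nat_lit 1006494790) (nat_lit 532) (nat_lit 1892143201) (nat_lit 210) (nat_lit 5) (nat_lit 216) (nat_lit 5) (nat_lit 217) (nat_lit 5) (nat_lit 462) (nat_lit 389) (nat_lit 289)) (XT.nd (nat_lit 78) (nat_lit 0) (nat_lit 0) (XT.lf (nat_lit 0) (nat_lit 1014447184) (nat_lit 608) (nat_lit 7320799978) (nat_lit 76) (nat_lit 3349929516) (nat_lit 202) (nat_lit 5) (nat_lit 210) (nat_lit 5) (nat_lit 203) (nat_lit 5) (nat_lit 463) (nat_lit 389) (nat_lit 288)) (XT.lf (nat_lit 0) (nat_lit 3958004350) (nat_lit 608) (nat_lit 54402081) (nat_lit 76) (nat_lit 7803929089) (nat_lit 202) (nat_lit 5) (nat_lit 210) (nat_lit 5) (nat_lit 203) (nat_lit 5) (nat_lit 464) (nat_lit 389) (nat_lit 287)))) (XT.nd (nat_lit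 78) (nat_lit 532) (nat_lit 0) (XT.lf (nat_lit 0) (nat_lit 6989813558) (nat_lit 532) (nat_lit 4527873834) (nat_lit 76) (nat_lit 431845780) (nat_lit 196) (nat_lit 5) (nat_lit 203) (nat_lit 5) (nat_lit 197) (nat_lit 5) (nat_lit 465) (nat_lit 389) (nat_lit 286)) (XT.nd (nat_lit 78) (nat_lit 76) (nat_lit 0) (XT.lf (nat_lit 0) (nat_lit 2944313213) (nat_lit 456) (nat_lit 7162511709) (nat_lit 532) (nat_lit 1978081726) (nat_lit 190) (nat_lit 5) (nat_lit 196) (nat_lit 5) (nat_lit 197) (nat_lit 5) (nat_lit 466) (nat_lit 389) (nat_lit 285)) (XT.lf (nat_lit 0) (nat_lit 1058422377) (nat_lit 532) (nat_lit 1632570914) (nat_lit 76) (nat_lit 9531675764) (nat_lit 189) (nat_lit 5) (nat_lit 196) (nat_lit 5) (nat_lit 190) (nat_lit 5) (nat_lit 467) (nat_lit 389) (nat_lit 284))))))) (XT.nd (nat_lit 858) (nat_lit 2964) (nat_lit 0) (XT.nd (nat_lit 390) (nat_lit 1672) (nat_lit 0) (XT.nd (nat_lit 156) (nat_lit 456) (nat_lit 0) (XT.nd (nat_lit 78) (nat_lit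 456) (nat_lit 0) (XT.lf (nat_lit 0) (nat_lit 4159997310) (nat_lit 532) (nat_lit 6312783446) (nat_lit 76) (nat_lit 1889530910) (nat_lit 183) (nat_lit 5) (nat_lit 190) (nat_lit 5) (nat_lit 184) (nat_lit 5) (nat_lit 468) (nat_lit 389) (nat_lit 283)) (XT.lf (nat_lit 0) (nat_lit 1373008869) (nat_lit 456) (nat_lit 5967531796) (nat_lit 532) (nat_lit 5163870673) (nat_lit 177) (nat_lit 5) (nat_lit 183) (nat_lit 5) (nat_lit 184) (nat_lit 5) (nat_lit 469) (nat_lit 389) (nat_lit 282))) (XT.nd (nat_lit 78) (nat_lit 456) (nat_lit 0) (XT.lf (nat_lit 0) (nat_lit 9268309750) (nat_lit 456) (nat_lit 1338135590) (nat_lit 532) (nat_lit 2042475543) (nat_lit 177) (nat_lit 5) (nat_lit 183) (nat_lit 5) (nat_lit 184) (nat_lit 5) (nat_lit 470) (nat_lit 389) (nat_lit 281)) (XT.nd (nat_lit 78) (nat_lit 0) (nat_lit 0) (XT.lf (nat_lit 0) (nat_lit 1157718377) (nat_lit 456) (nat_lit 8270182025) (nat_lit 76) (nat_lit 3367647989) (nat_lit 171) (nat_lit 5) (nat_lit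 177) (nat_lit 5) (nat_lit 172) (nat_lit 5) (nat_lit 471) (nat_lit 389) (nat_lit 280)) (XT.lf (nat_lit 0) (nat_lit 4406096121) (nat_lit 456) (nat_lit 361524823) (nat_lit 76) (nat_lit 8176989639) (nat_lit 171) (nat_lit 5) (nat_lit 177) (nat_lit 5) (nat_lit 172) (nat_lit 5) (nat_lit 472) (nat_lit 389) (nat_lit 279))))) (XT.nd (nat_lit 234) (nat_lit 760) (nat_lit 0) (XT.nd (nat_lit 78) (nat_lit 456) (nat_lit 0) (XT.lf (nat_lit 0) (nat_lit 7750327200) (nat_lit 532) (nat_lit 5317945641) (nat_lit 76) (nat_lit 27766131) (nat_lit 165) (nat_lit 5) (nat_lit 172) (nat_lit 5) (nat_lit 166) (nat_lit 5) (nat_lit 473) (nat_lit 389) (nat_lit 278)) (XT.nd (nat_lit 78) (nat_lit 76) (nat_lit 0) (XT.lf (nat_lit 0) (nat_lit 2811051878) (nat_lit 380) (nat_lit 8383000174) (nat_lit 456) (nat_lit 2055794309) (nat_lit 160) (nat_lit 5) (nat_lit 165) (nat_lit 5) (nat_lit 166) (nat_lit 5) (nat_lit 474) (nat_lit 389) (nat_lit 277)) (XT.lf (nat_lit 0) (nat_lit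 1299203356) (nat_lit 456) (nat_lit 2269230712) (nat_lit 76) (nat_lit 9837802936) (nat_lit 159) (nat_lit 5) (nat_lit 165) (nat_lit 5) (nat_lit 160) (nat_lit 5) (nat_lit 475) (nat_lit 389) (nat_lit 276)))) (XT.nd (nat_lit 78) (nat_lit 380) (nat_lit 0) (XT.lf (nat_lit 0) (nat_lit 4723213373) (nat_lit 456) (nat_lit 7472633128) (nat_lit 76) (nat_lit 1369050858) (nat_lit 154) (nat_lit 5) (nat_lit 160) (nat_lit 5) (nat_lit 155) (nat_lit 5) (nat_lit 476) (nat_lit 389) (nat_lit 275)) (XT.nd (nat_lit 78) (nat_lit 0) (nat_lit 0) (XT.lf (nat_lit 0) (nat_lit 884375930) (nat_lit 380) (nat_lit 7356952494) (nat_lit 456) (nat_lit 5484892419) (nat_lit 149) (nat_lit 5) (nat_lit 154) (nat_lit 5) (nat_lit 155) (nat_lit 5) (nat_lit 477) (nat_lit 389) (nat_lit 274)) (XT.lf (nat_lit 0) (nat_lit 9481195550) (nat_lit 380) (nat_lit 2379866048) (nat_lit 456) (nat_lit 2029086451) (nat_lit 149) (nat_lit 5) (nat_lit 154) (nat_lit 5) (nat_lit 155) (nat_lit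 5) (nat_lit 478) (nat_lit 389) (nat_lit 273)))))) (XT.nd (nat_lit 468) (nat_lit 1368) (nat_lit 0) (XT.nd (nat_lit 234) (nat_lit 760) (nat_lit 0) (XT.nd (nat_lit 78) (nat_lit 380) (nat_lit 0) (XT.lf (nat_lit 0) (nat_lit 1502597897) (nat_lit 456) (nat_lit 9864893826) (nat_lit 76) (nat_lit 2689142507) (nat_lit 143) (nat_lit 5) (nat_lit 149) (nat_lit 5) (nat_lit 144) (nat_lit 5) (nat_lit 479) (nat_lit 389) (nat_lit 272)) (XT.nd (nat_lit 78) (nat_lit 380) (nat_lit 0) (XT.lf (nat_lit 0) (nat_lit 5104791069) (nat_lit 456) (nat_lit 1259475406) (nat_lit 76) (nat_lit 7861376756) (nat_lit 143) (nat_lit 5) (nat_lit 149) (nat_lit 5) (nat_lit 144) (nat_lit 5) (nat_lit 480) (nat_lit 389) (nat_lit 271)) (XT.lf (nat_lit 0) (nat_lit 7589715014) (nat_lit 380) (nat_lit 1220429942) (nat_lit 456) (nat_lit 5587267308) (nat_lit 138) (nat_lit 5) (nat_lit 143) (nat_lit 5) (nat_lit 144) (nat_lit 5) (nat_lit 481) (nat_lit 389) (nat_lit 270)))) (XT.nd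 (nat_lit 78) (nat_lit 380) (nat_lit 0) (XT.lf (nat_lit 0) (nat_lit 2032987606) (nat_lit 380) (nat_lit 10586419472) (nat_lit 456) (nat_lit 1952615723) (nat_lit 133) (nat_lit 5) (nat_lit 138) (nat_lit 5) (nat_lit 139) (nat_lit 5) (nat_lit 482) (nat_lit 389) (nat_lit 269)) (XT.nd (nat_lit 78) (nat_lit 304) (nat_lit 0) (XT.lf (nat_lit 0) (nat_lit 1767788904) (nat_lit 456) (nat_lit 3654272596) (nat_lit 76) (nat_lit 9327116782) (nat_lit 132) (nat_lit 5) (nat_lit 138) (nat_lit 5) (nat_lit 133) (nat_lit 5) (nat_lit 483) (nat_lit 389) (nat_lit 268)) (XT.lf (nat_lit 0) (nat_lit 5439089366) (nat_lit 304) (nat_lit 115063693) (nat_lit 380) (nat_lit 9375113763) (nat_lit 128) (nat_lit 5) (nat_lit 132) (nat_lit 5) (nat_lit 133) (nat_lit 5) (nat_lit 484) (nat_lit 389) (nat_lit 267))))) (XT.nd (nat_lit 234) (nat_lit 608) (nat_lit 0) (XT.nd (nat_lit 78) (nat_lit 760) (nat_lit 0) (XT.lf (nat_lit 0) (nat_lit 9457790564) (nat_lit 380) (nat_lit 410780406)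 (nat_lit 76) (nat_lit 5243557223) (nat_lit 128) (nat_lit 5) (nat_lit 133) (nat_lit 5) (nat_lit 129) (nat_lit 5) (nat_lit 485) (nat_lit 389) (nat_lit 266)) (XT.nd (nat_lit 78) (nat_lit 380) (nat_lit 0) (XT.lf (nat_lit 0) (nat_lit 8939622724) (nat_lit 380) (nat_lit 4541488896) (nat_lit 456) (nat_lit 1816704899) (nat_lit 123) (nat_lit 5) (nat_lit 128) (nat_lit 5) (nat_lit 129) (nat_lit 5) (nat_lit 486) (nat_lit 389) (nat_lit 265)) (XT.lf (nat_lit 0) (nat_lit 2081202166) (nat_lit 380) (nat_lit 12498860813) (nat_lit 76) (nat_lit 906664450) (nat_lit 118) (nat_lit 5) (nat_lit 123) (nat_lit 5) (nat_lit 119) (nat_lit 5) (nat_lit 487) (nat_lit 389) (nat_lit 264)))) (XT.nd (nat_lit 78) (nat_lit 608) (nat_lit 0) (XT.lf (nat_lit 0) (nat_lit 6088741284) (nat_lit 380) (nat_lit 3141132557) (nat_lit 76) (nat_lit 6448184387) (nat_lit 118) (nat_lit 5) (nat_lit 123) (nat_lit 5) (nat_lit 119) (nat_lit 5) (nat_lit 488) (nat_lit 389) (nat_lit 263))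 (XT.nd (nat_lit 78) (nat_lit 304) (nat_lit 0) (XT.lf (nat_lit 0) (nat_lit 6461817017) (nat_lit 304) (nat_lit 3739854231) (nat_lit 380) (nat_lit 5671041390) (nat_lit 114) (nat_lit 5) (nat_lit 118) (nat_lit 5) (nat_lit 119) (nat_lit 5) (nat_lit 489) (nat_lit 389) (nat_lit 262)) (XT.lf (nat_lit 0) (nat_lit 192095583) (nat_lit 304) (nat_lit 14222682538) (nat_lit 380) (nat_lit 1656125410) (nat_lit 110) (nat_lit 5) (nat_lit 114) (nat_lit 5) (nat_lit 115) (nat_lit 5) (nat_lit 490) (nat_lit 389) (nat_lit 261))))))))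
noncomputable def xc113 : XT := (XT.nd (nat_lit 51948) (nat_lit 0) (nat_lit 34656) (XT.nd (nat_lit 858) (nat_lit 1140) (nat_lit 0) (XT.nd (nat_lit 390) (nat_lit 836) (nat_lit 0) (XT.nd (nat_lit 156) (nat_lit 684) (nat_lit 0) (XT.nd (nat_lit 78) (nat_lit 304) (nat_lit 0) (XT.lf (nat_lit 0) (nat_lit 2478856534) (nat_lit 380) (nat_lit 6224922931) (nat_lit 76) (nat_lit 7567528609) (nat_lit 109) (nat_lit 5) (nat_lit 114) (nat_lit 5) (nat_lit 110) (nat_lit 5) (nat_lit 491) (nat_lit 389) (nat_lit 260)) (XT.lf (nat_lit 0) (nat_lit 3632417905) (nat_lit 304) (nat_lit 3049293803) (nat_lit 380) (nat_lit 9793644741) (nat_lit 105) (nat_lit 5) (nat_lit 109) (nat_lit 5) (nat_lit 110) (nat_lit 5) (nat_lit 492) (nat_lit 389) (nat_lit 259))) (XT.nd (nat_lit 78) (nat_lit 684) (nat_lit 0) (XT.lf (nat_lit 0) (nat_lit 11012150457) (nat_lit 380) (nat_lit 2955669565) (nat_lit 76) (nat_lit 2714796865) (nat_lit 105) (nat_lit 5) (nat_lit 110) (nat_lit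 5) (nat_lit 106) (nat_lit 5) (nat_lit 493) (nat_lit 389) (nat_lit 258)) (XT.nd (nat_lit 78) (nat_lit 380) (nat_lit 0) (XT.lf (nat_lit 0) (nat_lit 7177421491) (nat_lit 304) (nat_lit 8302716595) (nat_lit 380) (nat_lit 1412867239) (nat_lit 101) (nat_lit 5) (nat_lit 105) (nat_lit 5) (nat_lit 106) (nat_lit 5) (nat_lit 494) (nat_lit 389) (nat_lit 257)) (XT.lf (nat_lit 0) (nat_lit 406305009) (nat_lit 304) (nat_lit 2491940424) (nat_lit 380) (nat_lit 14208841430) (nat_lit 96) (nat_lit 5) (nat_lit 100) (nat_lit 5) (nat_lit 101) (nat_lit 5) (nat_lit 495) (nat_lit 389) (nat_lit 256))))) (XT.nd (nat_lit 234) (nat_lit 608) (nat_lit 0) (XT.nd (nat_lit 78) (nat_lit 228) (nat_lit 0) (XT.lf (nat_lit 0) (nat_lit 7348872548) (nat_lit 380) (nat_lit 6519891574) (nat_lit 76) (nat_lit 3455056420) (nat_lit 96) (nat_lit 5) (nat_lit 101) (nat_lit 5) (nat_lit 97) (nat_lit 5) (nat_lit 496) (nat_lit 389) (nat_lit 255)) (XT.nd (nat_lit 78) (nat_lit 0) (nat_lit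 0) (XT.lf (nat_lit 0) (nat_lit 3873440671) (nat_lit 228) (nat_lit 8041293708) (nat_lit 304) (nat_lit 5629631546) (nat_lit 93) (nat_lit 5) (nat_lit 96) (nat_lit 5) (nat_lit 97) (nat_lit 5) (nat_lit 497) (nat_lit 389) (nat_lit 254)) (XT.lf (nat_lit 0) (nat_lit 14537712207) (nat_lit 228) (nat_lit 2062661696) (nat_lit 304) (nat_lit 1168380549) (nat_lit 93) (nat_lit 5) (nat_lit 96) (nat_lit 5) (nat_lit 97) (nat_lit 5) (nat_lit 498) (nat_lit 389) (nat_lit 253)))) (XT.nd (nat_lit 78) (nat_lit 228) (nat_lit 0) (XT.lf (nat_lit 0) (nat_lit 3397741187) (nat_lit 380) (nat_lit 10554508606) (nat_lit 76) (nat_lit 4043743118) (nat_lit 88) (nat_lit 5) (nat_lit 93) (nat_lit 5) (nat_lit 89) (nat_lit 5) (nat_lit 499) (nat_lit 389) (nat_lit 252)) (XT.nd (nat_lit 78) (nat_lit 0) (nat_lit 0) (XT.lf (nat_lit 0) (nat_lit 98584538) (nat_lit 228) (nat_lit 7962074594) (nat_lit 304) (nat_lit 10166541542) (nat_lit 85) (nat_lit 5) (nat_lit 88) (nat_lit 5)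 (nat_lit 89) (nat_lit 5) (nat_lit 500) (nat_lit 389) (nat_lit 251)) (XT.lf (nat_lit 0) (nat_lit 11082890001) (nat_lit 228) (nat_lit 1789882595) (nat_lit 304) (nat_lit 5589142586) (nat_lit 85) (nat_lit 5) (nat_lit 88) (nat_lit 5) (nat_lit 89) (nat_lit 5) (nat_lit 501) (nat_lit 389) (nat_lit 250)))))) (XT.nd (nat_lit 50622) (nat_lit 0) (nat_lit 45144) (XT.nd (nat_lit 234) (nat_lit 532) (nat_lit 0) (XT.nd (nat_lit 78) (nat_lit 304) (nat_lit 0) (XT.lf (nat_lit 0) (nat_lit 3578577442) (nat_lit 304) (nat_lit 14240378680) (nat_lit 380) (nat_lit 881612612) (nat_lit 81) (nat_lit 5) (nat_lit 85) (nat_lit 5) (nat_lit 86) (nat_lit 5) (nat_lit 502) (nat_lit 389) (nat_lit 249)) (XT.nd (nat_lit 78) (nat_lit 228) (nat_lit 0) (XT.lf (nat_lit 0) (nat_lit 3915724028) (nat_lit 380) (nat_lit 4149974349) (nat_lit 76) (nat_lit 10876847834) (nat_lit 80) (nat_lit 5) (nat_lit 85) (nat_lit 5) (nat_lit 81) (nat_lit 5) (nat_lit 503) (nat_lit 389) (nat_lit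 248)) (XT.lf (nat_lit 0) (nat_lit 7104613956) (nat_lit 228) (nat_lit 1724384284) (nat_lit 304) (nat_lit 10359613768) (nat_lit 77) (nat_lit 5) (nat_lit 80) (nat_lit 5) (nat_lit 81) (nat_lit 5) (nat_lit 504) (nat_lit 389) (nat_lit 247)))) (XT.nd (nat_lit 78) (nat_lit 532) (nat_lit 0) (XT.lf (nat_lit 0) (nat_lit 13885088483) (nat_lit 304) (nat_lit 853749411) (nat_lit 76) (nat_lit 4699871425) (nat_lit 77) (nat_lit 5) (nat_lit 81) (nat_lit 5) (nat_lit 78) (nat_lit 5) (nat_lit 505) (nat_lit 389) (nat_lit 246)) (XT.nd (nat_lit 78) (nat_lit 304) (nat_lit 0) (XT.lf (nat_lit 0) (nat_lit 10706304206) (nat_lit 228) (nat_lit 8402926549) (nat_lit 304) (nat_lit 583240402) (nat_lit 74) (nat_lit 5) (nat_lit 77) (nat_lit 5) (nat_lit 78) (nat_lit 5) (nat_lit 506) (nat_lit 389) (nat_lit 245)) (XT.lf (nat_lit 0) (nat_lit 2538234222) (nat_lit 228) (nat_lit 1897744517) (nat_lit 304) (nat_lit 15514582580) (nat_lit 70) (nat_lit 5) (nat_lit 73) (nat_lit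 5) (nat_lit 74) (nat_lit 5) (nat_lit 507) (nat_lit 389) (nat_lit 244))))) (XT.nd (nat_lit 234) (nat_lit 836) (nat_lit 0) (XT.nd (nat_lit 78) (nat_lit 760) (nat_lit 0) (XT.lf (nat_lit 0) (nat_lit 600221142) (nat_lit 0) (nat_lit 600221142) (nat_lit 684) (nat_lit 2116403639) (nat_lit 685) (nat_lit 5) (nat_lit 685) (nat_lit 3) (nat_lit 694) (nat_lit 3) (nat_lit 390) (nat_lit 390) (nat_lit 360)) (XT.nd (nat_lit 78) (nat_lit 760) (nat_lit 0) (XT.lf (nat_lit 0) (nat_lit 4479098859) (nat_lit 0) (nat_lit 234795739) (nat_lit 684) (nat_lit 1939587221) (nat_lit 685) (nat_lit 5) (nat_lit 685) (nat_lit 3) (nat_lit 694) (nat_lit 3) (nat_lit 391) (nat_lit 390) (nat_lit 359)) (XT.lf (nat_lit 0) (nat_lit 346271182) (nat_lit 760) (nat_lit 5548769051) (nat_lit 836) (nat_lit 779554936) (nat_lit 675) (nat_lit 5) (nat_lit 685) (nat_lit 5) (nat_lit 686) (nat_lit 5) (nat_lit 392) (nat_lit 390) (nat_lit 358)))) (XT.nd (nat_lit 78) (nat_lit 836) (nat_lit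 0) (XT.lf (nat_lit 0) (nat_lit 2608857698) (nat_lit 760) (nat_lit 2220858669) (nat_lit 836) (nat_lit 1867037700) (nat_lit 675) (nat_lit 5) (nat_lit 685) (nat_lit 5) (nat_lit 686) (nat_lit 5) (nat_lit 393) (nat_lit 390) (nat_lit 357)) (XT.nd (nat_lit 78) (nat_lit 836) (nat_lit 0) (XT.lf (nat_lit 76) (nat_lit 1157380443) (nat_lit 0) (nat_lit 3708707351) (nat_lit 836) (nat_lit 1854299470) (nat_lit 676) (nat_lit 5) (nat_lit 675) (nat_lit 5) (nat_lit 686) (nat_lit 5) (nat_lit 394) (nat_lit 390) (nat_lit 356)) (XT.lf (nat_lit 0) (nat_lit 375828149) (nat_lit 836) (nat_lit 2145743341) (nat_lit 912) (nat_lit 4223736416) (nat_lit 664) (nat_lit 5) (nat_lit 675) (nat_lit 5) (nat_lit 676) (nat_lit 5) (nat_lit 395) (nat_lit 390) (nat_lit 355))))))) (XT.nd (nat_lit 936) (nat_lit 7676) (nat_lit 0) (XT.nd (nat_lit 468) (nat_lit 1976) (nat_lit 0) (XT.nd (nat_lit 234) (nat_lit 0) (nat_lit 0) (XT.nd (nat_lit 78) (nat_lit 836) (nat_lit 0) (XT.lf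 (nat_lit 76) (nat_lit 1313453064) (nat_lit 0) (nat_lit 1264373666) (nat_lit 912) (nat_lit 4193631006) (nat_lit 665) (nat_lit 5) (nat_lit 664) (nat_lit 5) (nat_lit 676) (nat_lit 5) (nat_lit 396) (nat_lit 390) (nat_lit 354)) (XT.nd (nat_lit 78) (nat_lit 912) (nat_lit 0) (XT.lf (nat_lit 0) (nat_lit 4783085903) (nat_lit 836) (nat_lit 1959574059) (nat_lit 912) (nat_lit 56303702) (nat_lit 665) (nat_lit 5) (nat_lit 676) (nat_lit 5) (nat_lit 677) (nat_lit 5) (nat_lit 397) (nat_lit 390) (nat_lit 353)) (XT.lf (nat_lit 0) (nat_lit 166872526) (nat_lit 912) (nat_lit 5239351509) (nat_lit 988) (nat_lit 1421503106) (nat_lit 653) (nat_lit 5) (nat_lit 665) (nat_lit 5) (nat_lit 666) (nat_lit 5) (nat_lit 398) (nat_lit 390) (nat_lit 352)))) (XT.nd (nat_lit 78) (nat_lit 0) (nat_lit 0) (XT.lf (nat_lit 0) (nat_lit 2325732041) (nat_lit 912) (nat_lit 1668718664) (nat_lit 988) (nat_lit 2863176250) (nat_lit 653) (nat_lit 5) (nat_lit 665) (nat_lit 5) (nat_lit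 666) (nat_lit 5) (nat_lit 399) (nat_lit 390) (nat_lit 351)) (XT.nd (nat_lit 78) (nat_lit 0) (nat_lit 0) (XT.lf (nat_lit 76) (nat_lit 1967438615) (nat_lit 0) (nat_lit 2520343984) (nat_lit 988) (nat_lit 2401158070) (nat_lit 654) (nat_lit 5) (nat_lit 653) (nat_lit 5) (nat_lit 666) (nat_lit 5) (nat_lit 400) (nat_lit 390) (nat_lit 350)) (XT.lf (nat_lit 76) (nat_lit 5667455925) (nat_lit 0) (nat_lit 984886262) (nat_lit 988) (nat_lit 269368971) (nat_lit 654) (nat_lit 5) (nat_lit 653) (nat_lit 5) (nat_lit 666) (nat_lit 5) (nat_lit 401) (nat_lit 390) (nat_lit 349))))) (XT.nd (nat_lit 234) (nat_lit 1064) (nat_lit 0) (XT.nd (nat_lit 78) (nat_lit 0) (nat_lit 0) (XT.lf (nat_lit 0) (nat_lit 1848965282) (nat_lit 988) (nat_lit 4484835466) (nat_lit 1064) (nat_lit 621726285) (nat_lit 641) (nat_lit 5) (nat_lit 654) (nat_lit 5) (nat_lit 655) (nat_lit 5) (nat_lit 402) (nat_lit 390) (nat_lit 348)) (XT.nd (nat_lit 78) (nat_lit 0) (nat_lit 0) (XT.lf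 (nat_lit 0) (nat_lit 3970719051) (nat_lit 988) (nat_lit 743576751) (nat_lit 1064) (nat_lit 2276409566) (nat_lit 641) (nat_lit 5) (nat_lit 654) (nat_lit 5) (nat_lit 655) (nat_lit 5) (nat_lit 403) (nat_lit 390) (nat_lit 347)) (XT.lf (nat_lit 76) (nat_lit 3081050116) (nat_lit 0) (nat_lit 3024510461) (nat_lit 1064) (nat_lit 921628295) (nat_lit 642) (nat_lit 5) (nat_lit 641) (nat_lit 5) (nat_lit 655) (nat_lit 5) (nat_lit 404) (nat_lit 390) (nat_lit 346)))) (XT.nd (nat_lit 78) (nat_lit 0) (nat_lit 76) (XT.lf (nat_lit 0) (nat_lit 1158810941) (nat_lit 1064) (nat_lit 112319165) (nat_lit 1140) (nat_lit 5794005823) (nat_lit 627) (nat_lit 5) (nat_lit 641) (nat_lit 5) (nat_lit 642) (nat_lit 5) (nat_lit 405) (nat_lit 390) (nat_lit 345)) (XT.nd (nat_lit 78) (nat_lit 0) (nat_lit 0) (XT.lf (nat_lit 0) (nat_lit 3248971975) (nat_lit 1064) (nat_lit 3297506496) (nat_lit 1140) (nat_lit 557646353) (nat_lit 628) (nat_lit 5) (nat_lit 642) (nat_lit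 5) (nat_lit 643) (nat_lit 5) (nat_lit 406) (nat_lit 390) (nat_lit 344)) (XT.lf (nat_lit 76) (nat_lit 628864871) (nat_lit 0) (nat_lit 4718203530) (nat_lit 1140) (nat_lit 1797515990) (nat_lit 629) (nat_lit 5) (nat_lit 628) (nat_lit 5) (nat_lit 643) (nat_lit 5) (nat_lit 407) (nat_lit 390) (nat_lit 343)))))) (XT.nd (nat_lit 468) (nat_lit 4256) (nat_lit 0) (XT.nd (nat_lit 234) (nat_lit 2356) (nat_lit 0) (XT.nd (nat_lit 78) (nat_lit 0) (nat_lit 0) (XT.lf (nat_lit 0) (nat_lit 272862996) (nat_lit 1140) (nat_lit 2542009375) (nat_lit 1216) (nat_lit 4371443856) (nat_lit 613) (nat_lit 5) (nat_lit 628) (nat_lit 5) (nat_lit 629) (nat_lit 5) (nat_lit 408) (nat_lit 390) (nat_lit 342)) (XT.nd (nat_lit 78) (nat_lit 0) (nat_lit 76) (XT.lf (nat_lit 76) (nat_lit 1486453834) (nat_lit 0) (nat_lit 837982983) (nat_lit 1216) (nat_lit 4904943889) (nat_lit 614) (nat_lit 5) (nat_lit 613) (nat_lit 5) (nat_lit 629) (nat_lit 5) (nat_lit 409) (nat_lit 390)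 (nat_lit 341)) (XT.lf (nat_lit 0) (nat_lit 4396821556) (nat_lit 1140) (nat_lit 1683884836) (nat_lit 76) (nat_lit 1193017001) (nat_lit 614) (nat_lit 5) (nat_lit 629) (nat_lit 5) (nat_lit 615) (nat_lit 5) (nat_lit 410) (nat_lit 390) (nat_lit 340)))) (XT.nd (nat_lit 78) (nat_lit 1292) (nat_lit 0) (XT.lf (nat_lit 0) (nat_lit 2450476700) (nat_lit 1140) (nat_lit 4037477169) (nat_lit 1216) (nat_lit 831465328) (nat_lit 599) (nat_lit 5) (nat_lit 614) (nat_lit 5) (nat_lit 615) (nat_lit 5) (nat_lit 411) (nat_lit 390) (nat_lit 339)) (XT.nd (nat_lit 78) (nat_lit 1216) (nat_lit 0) (XT.lf (nat_lit 0) (nat_lit 1205993339) (nat_lit 1216) (nat_lit 716504944) (nat_lit 76) (nat_lit 5444028041) (nat_lit 598) (nat_lit 5) (nat_lit 614) (nat_lit 5) (nat_lit 599) (nat_lit 5) (nat_lit 412) (nat_lit 390) (nat_lit 338)) (XT.lf (nat_lit 0) (nat_lit 3254819515) (nat_lit 1292) (nat_lit 3889107635) (nat_lit 76) (nat_lit 270915047) (nat_lit 582) (nat_lit 5)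 (nat_lit 599) (nat_lit 5) (nat_lit 583) (nat_lit 5) (nat_lit 413) (nat_lit 390) (nat_lit 337))))) (XT.nd (nat_lit 234) (nat_lit 1520) (nat_lit 0) (XT.nd (nat_lit 78) (nat_lit 1444) (nat_lit 0) (XT.lf (nat_lit 0) (nat_lit 357528707) (nat_lit 1292) (nat_lit 4964743808) (nat_lit 1368) (nat_lit 2142310192) (nat_lit 565) (nat_lit 5) (nat_lit 582) (nat_lit 5) (nat_lit 583) (nat_lit 5) (nat_lit 414) (nat_lit 390) (nat_lit 336)) (XT.nd (nat_lit 78) (nat_lit 1444) (nat_lit 0) (XT.lf (nat_lit 0) (nat_lit 4709132324) (nat_lit 1292) (nat_lit 2706413542) (nat_lit 1368) (nat_lit 100093843) (nat_lit 565) (nat_lit 5) (nat_lit 582) (nat_lit 5) (nat_lit 583) (nat_lit 5) (nat_lit 415) (nat_lit 390) (nat_lit 335)) (XT.lf (nat_lit 0) (nat_lit 1554969897) (nat_lit 1368) (nat_lit 370994392) (nat_lit 1444) (nat_lit 5642126653) (nat_lit 546) (nat_lit 5) (nat_lit 564) (nat_lit 5) (nat_lit 565) (nat_lit 5) (nat_lit 416) (nat_lit 390) (nat_lit 334))))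 (XT.nd (nat_lit 78) (nat_lit 1520) (nat_lit 0) (XT.lf (nat_lit 0) (nat_lit 3982776698) (nat_lit 1444) (nat_lit 1626597892) (nat_lit 76) (nat_lit 2012382374) (nat_lit 546) (nat_lit 5) (nat_lit 565) (nat_lit 5) (nat_lit 547) (nat_lit 5) (nat_lit 417) (nat_lit 390) (nat_lit 333)) (XT.nd (nat_lit 78) (nat_lit 76) (nat_lit 0) (XT.lf (nat_lit 0) (nat_lit 2849970984) (nat_lit 1444) (nat_lit 3212064839) (nat_lit 1520) (nat_lit 1614844535) (nat_lit 527) (nat_lit 5) (nat_lit 546) (nat_lit 5) (nat_lit 547) (nat_lit 5) (nat_lit 418) (nat_lit 390) (nat_lit 332)) (XT.lf (nat_lit 0) (nat_lit 415510705) (nat_lit 1520) (nat_lit 330684254) (nat_lit 76) (nat_lit 6987430006) (nat_lit 526) (nat_lit 5) (nat_lit 546) (nat_lit 5) (nat_lit 527) (nat_lit 5) (nat_lit 419) (nat_lit 390) (nat_lit 331))))))))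
noncomputable def xc114 : XT := (XT.nd (nat_lit 1794) (nat_lit 9272) (nat_lit 0) (XT.nd (nat_lit 858) (nat_lit 5852) (nat_lit 0) (XT.nd (nat_lit 390) (nat_lit 5092) (nat_lit 0) (XT.nd (nat_lit 156) (nat_lit 1748) (nat_lit 0) (XT.nd (nat_lit 78) (nat_lit 1596) (nat_lit 0) (XT.lf (nat_lit 0) (nat_lit 2465784660) (nat_lit 1596) (nat_lit 3534823932) (nat_lit 76) (nat_lit 1790673368) (nat_lit 506) (nat_lit 5) (nat_lit 527) (nat_lit 5) (nat_lit 507) (nat_lit 5) (nat_lit 420) (nat_lit 390) (nat_lit 330)) (XT.lf (nat_lit 0) (nat_lit 1065926436) (nat_lit 1596) (nat_lit 3467240481) (nat_lit 1672) (nat_lit 3317412602) (nat_lit 485) (nat_lit 5) (nat_lit 506) (nat_lit 5) (nat_lit 507) (nat_lit 5) (nat_lit 421) (nat_lit 390) (nat_lit 329))) (XT.nd (nat_lit 78) (nat_lit 1748) (nat_lit 0) (XT.lf (nat_lit 0) (nat_lit 5773948613) (nat_lit 1596) (nat_lit 854208331) (nat_lit 1672) (nat_lit 1283190174) (nat_lit 485) (nat_lit 5) (nat_lit 506) (nat_lit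 5) (nat_lit 507) (nat_lit 5) (nat_lit 422) (nat_lit 390) (nat_lit 328)) (XT.nd (nat_lit 78) (nat_lit 0) (nat_lit 0) (XT.lf (nat_lit 0) (nat_lit 773164554) (nat_lit 1748) (nat_lit 5386340210) (nat_lit 76) (nat_lit 1813894805) (nat_lit 462) (nat_lit 5) (nat_lit 485) (nat_lit 5) (nat_lit 463) (nat_lit 5) (nat_lit 423) (nat_lit 390) (nat_lit 327)) (XT.lf (nat_lit 0) (nat_lit 2837139806) (nat_lit 1748) (nat_lit 648746493) (nat_lit 76) (nat_lit 4550972381) (nat_lit 462) (nat_lit 5) (nat_lit 485) (nat_lit 5) (nat_lit 463) (nat_lit 5) (nat_lit 424) (nat_lit 390) (nat_lit 326))))) (XT.nd (nat_lit 234) (nat_lit 1824) (nat_lit 0) (XT.nd (nat_lit 78) (nat_lit 1520) (nat_lit 0) (XT.lf (nat_lit 0) (nat_lit 4206344768) (nat_lit 1748) (nat_lit 727638821) (nat_lit 1824) (nat_lit 3167780188) (nat_lit 439) (nat_lit 5) (nat_lit 462) (nat_lit 5) (nat_lit 463) (nat_lit 5) (nat_lit 425) (nat_lit 390) (nat_lit 325)) (XT.nd (nat_lit 78) (nat_lit 76)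 (nat_lit 0) (XT.lf (nat_lit 0) (nat_lit 965604253) (nat_lit 1444) (nat_lit 6096143397) (nat_lit 1520) (nat_lit 1106448076) (nat_lit 420) (nat_lit 5) (nat_lit 439) (nat_lit 5) (nat_lit 440) (nat_lit 5) (nat_lit 426) (nat_lit 390) (nat_lit 324)) (XT.lf (nat_lit 0) (nat_lit 979208079) (nat_lit 1520) (nat_lit 2303438178) (nat_lit 76) (nat_lit 4953265566) (nat_lit 419) (nat_lit 5) (nat_lit 439) (nat_lit 5) (nat_lit 420) (nat_lit 5) (nat_lit 427) (nat_lit 390) (nat_lit 323)))) (XT.nd (nat_lit 78) (nat_lit 912) (nat_lit 0) (XT.lf (nat_lit 0) (nat_lit 2689092808) (nat_lit 912) (nat_lit 385857477) (nat_lit 988) (nat_lit 5230229851) (nat_lit 407) (nat_lit 5) (nat_lit 419) (nat_lit 5) (nat_lit 420) (nat_lit 5) (nat_lit 428) (nat_lit 390) (nat_lit 322)) (XT.nd (nat_lit 78) (nat_lit 912) (nat_lit 0) (XT.lf (nat_lit 0) (nat_lit 5211032834) (nat_lit 988) (nat_lit 612633330) (nat_lit 76) (nat_lit 2552206917) (nat_lit 407) (nat_lit 5) (nat_lit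 420) (nat_lit 5) (nat_lit 408) (nat_lit 5) (nat_lit 429) (nat_lit 390) (nat_lit 321)) (XT.lf (nat_lit 0) (nat_lit 4515173646) (nat_lit 912) (nat_lit 2873384295) (nat_lit 988) (nat_lit 1059455150) (nat_lit 395) (nat_lit 5) (nat_lit 407) (nat_lit 5) (nat_lit 408) (nat_lit 5) (nat_lit 430) (nat_lit 390) (nat_lit 320)))))) (XT.nd (nat_lit 468) (nat_lit 2356) (nat_lit 0) (XT.nd (nat_lit 234) (nat_lit 1672) (nat_lit 0) (XT.nd (nat_lit 78) (nat_lit 836) (nat_lit 0) (XT.lf (nat_lit 0) (nat_lit 1053830231) (nat_lit 988) (nat_lit 7314416199) (nat_lit 76) (nat_lit 153614266) (nat_lit 382) (nat_lit 5) (nat_lit 395) (nat_lit 5) (nat_lit 383) (nat_lit 5) (nat_lit 431) (nat_lit 390) (nat_lit 319)) (XT.nd (nat_lit 78) (nat_lit 836) (nat_lit 0) (XT.lf (nat_lit 0) (nat_lit 3208307011) (nat_lit 988) (nat_lit 2152085996) (nat_lit 76) (nat_lit 3236397132) (nat_lit 382) (nat_lit 5) (nat_lit 395) (nat_lit 5) (nat_lit 383) (nat_lit 5) (nat_lit 432)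 (nat_lit 390) (nat_lit 318)) (XT.lf (nat_lit 0) (nat_lit 3122031627) (nat_lit 836) (nat_lit 2272252489) (nat_lit 912) (nat_lit 3279172883) (nat_lit 371) (nat_lit 5) (nat_lit 382) (nat_lit 5) (nat_lit 383) (nat_lit 5) (nat_lit 433) (nat_lit 390) (nat_lit 317)))) (XT.nd (nat_lit 78) (nat_lit 1672) (nat_lit 0) (XT.lf (nat_lit 0) (nat_lit 7612767641) (nat_lit 912) (nat_lit 259181522) (nat_lit 76) (nat_lit 879939200) (nat_lit 371) (nat_lit 5) (nat_lit 383) (nat_lit 5) (nat_lit 372) (nat_lit 5) (nat_lit 434) (nat_lit 390) (nat_lit 316)) (XT.nd (nat_lit 78) (nat_lit 760) (nat_lit 0) (XT.lf (nat_lit 0) (nat_lit 1047868251) (nat_lit 912) (nat_lit 3679089132) (nat_lit 76) (nat_lit 4104445585) (nat_lit 359) (nat_lit 5) (nat_lit 371) (nat_lit 5) (nat_lit 360) (nat_lit 5) (nat_lit 435) (nat_lit 390) (nat_lit 315)) (XT.lf (nat_lit 0) (nat_lit 1746042222) (nat_lit 760) (nat_lit 1499760287) (nat_lit 836) (nat_lit 5666912105) (nat_lit 349)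 (nat_lit 5) (nat_lit 359) (nat_lit 5) (nat_lit 360) (nat_lit 5) (nat_lit 436) (nat_lit 390) (nat_lit 314))))) (XT.nd (nat_lit 234) (nat_lit 760) (nat_lit 0) (XT.nd (nat_lit 78) (nat_lit 1596) (nat_lit 0) (XT.lf (nat_lit 0) (nat_lit 5493918692) (nat_lit 836) (nat_lit 1710177010) (nat_lit 76) (nat_lit 1791438706) (nat_lit 349) (nat_lit 5) (nat_lit 360) (nat_lit 5) (nat_lit 350) (nat_lit 5) (nat_lit 437) (nat_lit 390) (nat_lit 313)) (XT.nd (nat_lit 78) (nat_lit 836) (nat_lit 0) (XT.lf (nat_lit 0) (nat_lit 3864069265) (nat_lit 760) (nat_lit 3928278010) (nat_lit 836) (nat_lit 1287562573) (nat_lit 339) (nat_lit 5) (nat_lit 349) (nat_lit 5) (nat_lit 350) (nat_lit 5) (nat_lit 438) (nat_lit 390) (nat_lit 312)) (XT.lf (nat_lit 0) (nat_lit 373446578) (nat_lit 760) (nat_lit 569074355) (nat_lit 836) (nat_lit 8223642195) (nat_lit 328) (nat_lit 5) (nat_lit 338) (nat_lit 5) (nat_lit 339) (nat_lit 5) (nat_lit 439) (nat_lit 390) (nat_lit 311))))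 (XT.nd (nat_lit 78) (nat_lit 760) (nat_lit 0) (XT.lf (nat_lit 0) (nat_lit 3224621100) (nat_lit 836) (nat_lit 3168198117) (nat_lit 76) (nat_lit 2860664826) (nat_lit 328) (nat_lit 5) (nat_lit 339) (nat_lit 5) (nat_lit 329) (nat_lit 5) (nat_lit 440) (nat_lit 390) (nat_lit 310)) (XT.nd (nat_lit 78) (nat_lit 0) (nat_lit 0) (XT.lf (nat_lit 0) (nat_lit 2566676993) (nat_lit 760) (nat_lit 2977545953) (nat_lit 836) (nat_lit 3798497014) (nat_lit 318) (nat_lit 5) (nat_lit 328) (nat_lit 5) (nat_lit 329) (nat_lit 5) (nat_lit 441) (nat_lit 390) (nat_lit 309)) (XT.lf (nat_lit 0) (nat_lit 7906660144) (nat_lit 836) (nat_lit 1009909742) (nat_lit 76) (nat_lit 517247506) (nat_lit 318) (nat_lit 5) (nat_lit 329) (nat_lit 5) (nat_lit 319) (nat_lit 5) (nat_lit 442) (nat_lit 390) (nat_lit 308))))))) (XT.nd (nat_lit 936) (nat_lit 3876) (nat_lit 0) (XT.nd (nat_lit 468) (nat_lit 2508) (nat_lit 0) (XT.nd (nat_lit 234) (nat_lit 1444) (nat_lit 0) (XT.nd (nat_lit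 78) (nat_lit 684) (nat_lit 0) (XT.lf (nat_lit 0) (nat_lit 803145738) (nat_lit 760) (nat_lit 4647396342) (nat_lit 76) (nat_lit 4075619758) (nat_lit 308) (nat_lit 5) (nat_lit 318) (nat_lit 5) (nat_lit 309) (nat_lit 5) (nat_lit 443) (nat_lit 390) (nat_lit 307)) (XT.nd (nat_lit 78) (nat_lit 0) (nat_lit 0) (XT.lf (nat_lit 0) (nat_lit 1253070538) (nat_lit 684) (nat_lit 1893974703) (nat_lit 760) (nat_lit 6473362598) (nat_lit 299) (nat_lit 5) (nat_lit 308) (nat_lit 5) (nat_lit 309) (nat_lit 5) (nat_lit 444) (nat_lit 390) (nat_lit 306)) (XT.lf (nat_lit 0) (nat_lit 5553239717) (nat_lit 760) (nat_lit 2425036427) (nat_lit 76) (nat_lit 1737959508) (nat_lit 299) (nat_lit 5) (nat_lit 309) (nat_lit 5) (nat_lit 300) (nat_lit 5) (nat_lit 445) (nat_lit 390) (nat_lit 305)))) (XT.nd (nat_lit 78) (nat_lit 760) (nat_lit 0) (XT.lf (nat_lit 0) (nat_lit 3639732929) (nat_lit 684) (nat_lit 4377301051) (nat_lit 760) (nat_lit 1796761656) (nat_lit 290) (nat_lit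 5) (nat_lit 299) (nat_lit 5) (nat_lit 300) (nat_lit 5) (nat_lit 446) (nat_lit 390) (nat_lit 304)) (XT.nd (nat_lit 78) (nat_lit 684) (nat_lit 0) (XT.lf (nat_lit 0) (nat_lit 598530616) (nat_lit 760) (nat_lit 90144685) (nat_lit 76) (nat_lit 9224759901) (nat_lit 289) (nat_lit 5) (nat_lit 299) (nat_lit 5) (nat_lit 290) (nat_lit 5) (nat_lit 447) (nat_lit 390) (nat_lit 303)) (XT.lf (nat_lit 0) (nat_lit 3051872529) (nat_lit 760) (nat_lit 3881669600) (nat_lit 76) (nat_lit 3080608684) (nat_lit 280) (nat_lit 5) (nat_lit 290) (nat_lit 5) (nat_lit 281) (nat_lit 5) (nat_lit 448) (nat_lit 390) (nat_lit 302))))) (XT.nd (nat_lit 234) (nat_lit 1216) (nat_lit 0) (XT.nd (nat_lit 78) (nat_lit 684) (nat_lit 0) (XT.lf (nat_lit 0) (nat_lit 2358905867) (nat_lit 608) (nat_lit 3190099521) (nat_lit 684) (nat_lit 4567985605) (nat_lit 272) (nat_lit 5) (nat_lit 280) (nat_lit 5) (nat_lit 281) (nat_lit 5) (nat_lit 449) (nat_lit 390) (nat_lit 301)) (XT.nd (nat_lit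 78) (nat_lit 684) (nat_lit 0) (XT.lf (nat_lit 0) (nat_lit 8100884681) (nat_lit 684) (nat_lit 1480358422) (nat_lit 76) (nat_lit 640553447) (nat_lit 272) (nat_lit 5) (nat_lit 281) (nat_lit 5) (nat_lit 273) (nat_lit 5) (nat_lit 450) (nat_lit 390) (nat_lit 300)) (XT.lf (nat_lit 0) (nat_lit 398541264) (nat_lit 684) (nat_lit 5395264429) (nat_lit 76) (nat_lit 4534281131) (nat_lit 263) (nat_lit 5) (nat_lit 272) (nat_lit 5) (nat_lit 264) (nat_lit 5) (nat_lit 451) (nat_lit 390) (nat_lit 299)))) (XT.nd (nat_lit 78) (nat_lit 608) (nat_lit 0) (XT.lf (nat_lit 0) (nat_lit 1026216468) (nat_lit 608) (nat_lit 1905583500) (nat_lit 684) (nat_lit 7504590621) (nat_lit 255) (nat_lit 5) (nat_lit 263) (nat_lit 5) (nat_lit 264) (nat_lit 5) (nat_lit 452) (nat_lit 390) (nat_lit 298)) (XT.nd (nat_lit 78) (nat_lit 608) (nat_lit 0) (XT.lf (nat_lit 0) (nat_lit 5540917893) (nat_lit 684) (nat_lit 2941902307) (nat_lit 76) (nat_lit 2063540641) (nat_lit 255) (nat_lit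 5) (nat_lit 264) (nat_lit 5) (nat_lit 256) (nat_lit 5) (nat_lit 453) (nat_lit 390) (nat_lit 297)) (XT.lf (nat_lit 0) (nat_lit 3660326994) (nat_lit 608) (nat_lit 4554130829) (nat_lit 684) (nat_lit 2443832090) (nat_lit 247) (nat_lit 5) (nat_lit 255) (nat_lit 5) (nat_lit 256) (nat_lit 5) (nat_lit 454) (nat_lit 390) (nat_lit 296)))))) (XT.nd (nat_lit 468) (nat_lit 1520) (nat_lit 0) (XT.nd (nat_lit 234) (nat_lit 1140) (nat_lit 0) (XT.nd (nat_lit 78) (nat_lit 1140) (nat_lit 0) (XT.lf (nat_lit 0) (nat_lit 162634109) (nat_lit 684) (nat_lit 369726536) (nat_lit 76) (nat_lit 10240162226) (nat_lit 246) (nat_lit 5) (nat_lit 255) (nat_lit 5) (nat_lit 247) (nat_lit 5) (nat_lit 455) (nat_lit 390) (nat_lit 295)) (XT.nd (nat_lit 78) (nat_lit 608) (nat_lit 0) (XT.lf (nat_lit 0) (nat_lit 2830234093) (nat_lit 608) (nat_lit 4482977081) (nat_lit 76) (nat_lit 3574675659) (nat_lit 239) (nat_lit 5) (nat_lit 247) (nat_lit 5) (nat_lit 240) (nat_lit 5)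 (nat_lit 456) (nat_lit 390) (nat_lit 294)) (XT.lf (nat_lit 0) (nat_lit 2310771394) (nat_lit 608) (nat_lit 3238101568) (nat_lit 684) (nat_lit 5456735260) (nat_lit 231) (nat_lit 5) (nat_lit 239) (nat_lit 5) (nat_lit 240) (nat_lit 5) (nat_lit 457) (nat_lit 390) (nat_lit 293)))) (XT.nd (nat_lit 78) (nat_lit 1140) (nat_lit 0) (XT.lf (nat_lit 0) (nat_lit 8335004896) (nat_lit 684) (nat_lit 1860834642) (nat_lit 76) (nat_lit 929585908) (nat_lit 231) (nat_lit 5) (nat_lit 240) (nat_lit 5) (nat_lit 232) (nat_lit 5) (nat_lit 458) (nat_lit 390) (nat_lit 292)) (XT.nd (nat_lit 78) (nat_lit 608) (nat_lit 0) (XT.lf (nat_lit 0) (nat_lit 5125475490) (nat_lit 532) (nat_lit 6083434135) (nat_lit 608) (nat_lit 38092125) (nat_lit 224) (nat_lit 5) (nat_lit 231) (nat_lit 5) (nat_lit 232) (nat_lit 5) (nat_lit 459) (nat_lit 390) (nat_lit 291)) (XT.lf (nat_lit 0) (nat_lit 869056720) (nat_lit 532) (nat_lit 1859544650) (nat_lit 608) (nat_lit 8642139437) (nat_lit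 216) (nat_lit 5) (nat_lit 223) (nat_lit 5) (nat_lit 224) (nat_lit 5) (nat_lit 460) (nat_lit 390) (nat_lit 290))))) (XT.nd (nat_lit 234) (nat_lit 1064) (nat_lit 0) (XT.nd (nat_lit 78) (nat_lit 456) (nat_lit 0) (XT.lf (nat_lit 0) (nat_lit 5584992335) (nat_lit 608) (nat_lit 3460581827) (nat_lit 76) (nat_lit 2450681497) (nat_lit 216) (nat_lit 5) (nat_lit 224) (nat_lit 5) (nat_lit 217) (nat_lit 5) (nat_lit 461) (nat_lit 390) (nat_lit 289)) (XT.nd (nat_lit 78) (nat_lit 0) (nat_lit 0) (XT.lf (nat_lit 0) (nat_lit 3728063679) (nat_lit 456) (nat_lit 4785029218) (nat_lit 532) (nat_lit 3110899728) (nat_lit 210) (nat_lit 5) (nat_lit 216) (nat_lit 5) (nat_lit 217) (nat_lit 5) (nat_lit 462) (nat_lit 390) (nat_lit 288)) (XT.lf (nat_lit 0) (nat_lit 11077729467) (nat_lit 456) (nat_lit 423547754) (nat_lit 532) (nat_lit 252980057) (nat_lit 210) (nat_lit 5) (nat_lit 216) (nat_lit 5) (nat_lit 217) (nat_lit 5) (nat_lit 463) (nat_lit 390) (nat_lit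 287)))) (XT.nd (nat_lit 78) (nat_lit 456) (nat_lit 0) (XT.lf (nat_lit 0) (nat_lit 2675939300) (nat_lit 608) (nat_lit 5183966218) (nat_lit 76) (nat_lit 4025904176) (nat_lit 202) (nat_lit 5) (nat_lit 210) (nat_lit 5) (nat_lit 203) (nat_lit 5) (nat_lit 464) (nat_lit 390) (nat_lit 286)) (XT.nd (nat_lit 78) (nat_lit 0) (nat_lit 0) (XT.lf (nat_lit 0) (nat_lit 2212000821) (nat_lit 456) (nat_lit 3448548109) (nat_lit 532) (nat_lit 6359403988) (nat_lit 196) (nat_lit 5) (nat_lit 202) (nat_lit 5) (nat_lit 203) (nat_lit 5) (nat_lit 465) (nat_lit 390) (nat_lit 285)) (XT.lf (nat_lit 0) (nat_lit 8725623501) (nat_lit 532) (nat_lit 2366705224) (nat_lit 76) (nat_lit 1064037953) (nat_lit 196) (nat_lit 5) (nat_lit 203) (nat_lit 5) (nat_lit 197) (nat_lit 5) (nat_lit 466) (nat_lit 390) (nat_lit 284))))))))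
noncomputable def xc115 : XT := (XT.nd (nat_lit 1794) (nat_lit 3420) (nat_lit 0) (XT.nd (nat_lit 858) (nat_lit 2736) (nat_lit 0) (XT.nd (nat_lit 390) (nat_lit 1748) (nat_lit 0) (XT.nd (nat_lit 156) (nat_lit 456) (nat_lit 0) (XT.nd (nat_lit 78) (nat_lit 532) (nat_lit 0) (XT.lf (nat_lit 0) (nat_lit 5240111577) (nat_lit 456) (nat_lit 6648092647) (nat_lit 532) (nat_lit 406583463) (nat_lit 190) (nat_lit 5) (nat_lit 196) (nat_lit 5) (nat_lit 197) (nat_lit 5) (nat_lit 467) (nat_lit 390) (nat_lit 283)) (XT.lf (nat_lit 0) (nat_lit 556059830) (nat_lit 456) (nat_lit 2085896752) (nat_lit 532) (nat_lit 9793695317) (nat_lit 183) (nat_lit 5) (nat_lit 189) (nat_lit 5) (nat_lit 190) (nat_lit 5) (nat_lit 468) (nat_lit 390) (nat_lit 282))) (XT.nd (nat_lit 78) (nat_lit 456) (nat_lit 0) (XT.lf (nat_lit 0) (nat_lit 5789934357) (nat_lit 532) (nat_lit 4212812584) (nat_lit 76) (nat_lit 2575657371) (nat_lit 183) (nat_lit 5) (nat_lit 190) (nat_lit 5)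 (nat_lit 184) (nat_lit 5) (nat_lit 469) (nat_lit 390) (nat_lit 281)) (XT.nd (nat_lit 78) (nat_lit 0) (nat_lit 0) (XT.lf (nat_lit 0) (nat_lit 3612049350) (nat_lit 456) (nat_lit 5406070097) (nat_lit 532) (nat_lit 3705550205) (nat_lit 177) (nat_lit 5) (nat_lit 183) (nat_lit 5) (nat_lit 184) (nat_lit 5) (nat_lit 470) (nat_lit 390) (nat_lit 280)) (XT.lf (nat_lit 0) (nat_lit 11621891929) (nat_lit 456) (nat_lit 697435228) (nat_lit 532) (nat_lit 552346739) (nat_lit 177) (nat_lit 5) (nat_lit 183) (nat_lit 5) (nat_lit 184) (nat_lit 5) (nat_lit 471) (nat_lit 390) (nat_lit 279))))) (XT.nd (nat_lit 234) (nat_lit 836) (nat_lit 0) (XT.nd (nat_lit 78) (nat_lit 456) (nat_lit 0) (XT.lf (nat_lit 0) (nat_lit 2680668908) (nat_lit 456) (nat_lit 6235779129) (nat_lit 76) (nat_lit 4104813220) (nat_lit 171) (nat_lit 5) (nat_lit 177) (nat_lit 5) (nat_lit 172) (nat_lit 5) (nat_lit 472) (nat_lit 390) (nat_lit 278)) (XT.nd (nat_lit 78) (nat_lit 0) (nat_lit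 0) (XT.lf (nat_lit 0) (nat_lit 1811678240) (nat_lit 456) (nat_lit 4164690815) (nat_lit 532) (nat_lit 7197292505) (nat_lit 165) (nat_lit 5) (nat_lit 171) (nat_lit 5) (nat_lit 172) (nat_lit 5) (nat_lit 473) (nat_lit 390) (nat_lit 277)) (XT.lf (nat_lit 0) (nat_lit 9365261993) (nat_lit 532) (nat_lit 3256977005) (nat_lit 76) (nat_lit 706327861) (nat_lit 165) (nat_lit 5) (nat_lit 172) (nat_lit 5) (nat_lit 166) (nat_lit 5) (nat_lit 474) (nat_lit 390) (nat_lit 276)))) (XT.nd (nat_lit 78) (nat_lit 456) (nat_lit 0) (XT.lf (nat_lit 0) (nat_lit 5020341731) (nat_lit 380) (nat_lit 7842872718) (nat_lit 456) (nat_lit 622532696) (nat_lit 160) (nat_lit 5) (nat_lit 165) (nat_lit 5) (nat_lit 166) (nat_lit 5) (nat_lit 475) (nat_lit 390) (nat_lit 275)) (XT.nd (nat_lit 78) (nat_lit 380) (nat_lit 0) (XT.lf (nat_lit 0) (nat_lit 2751697986) (nat_lit 456) (nat_lit 184622853) (nat_lit 76) (nat_lit 10709327574) (nat_lit 159) (nat_lit 5) (nat_lit 165) (nat_lit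 5) (nat_lit 160) (nat_lit 5) (nat_lit 476) (nat_lit 390) (nat_lit 274)) (XT.lf (nat_lit 0) (nat_lit 6234524645) (nat_lit 456) (nat_lit 5482250231) (nat_lit 76) (nat_lit 2090903963) (nat_lit 154) (nat_lit 5) (nat_lit 160) (nat_lit 5) (nat_lit 155) (nat_lit 5) (nat_lit 477) (nat_lit 390) (nat_lit 273)))))) (XT.nd (nat_lit 468) (nat_lit 1140) (nat_lit 0) (XT.nd (nat_lit 234) (nat_lit 760) (nat_lit 0) (XT.nd (nat_lit 78) (nat_lit 456) (nat_lit 0) (XT.lf (nat_lit 0) (nat_lit 3027821143) (nat_lit 380) (nat_lit 6781201369) (nat_lit 456) (nat_lit 4163489389) (nat_lit 149) (nat_lit 5) (nat_lit 154) (nat_lit 5) (nat_lit 155) (nat_lit 5) (nat_lit 478) (nat_lit 390) (nat_lit 272)) (XT.nd (nat_lit 78) (nat_lit 456) (nat_lit 0) (XT.lf (nat_lit 0) (nat_lit 11754895632) (nat_lit 380) (nat_lit 1718747511) (nat_lit 456) (nat_lit 666628103) (nat_lit 149) (nat_lit 5) (nat_lit 154) (nat_lit 5) (nat_lit 155) (nat_lit 5) (nat_lit 479) (nat_lit 390)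 (nat_lit 271)) (XT.lf (nat_lit 0) (nat_lit 2908361174) (nat_lit 456) (nat_lit 7950451743) (nat_lit 76) (nat_lit 3451273914) (nat_lit 143) (nat_lit 5) (nat_lit 149) (nat_lit 5) (nat_lit 144) (nat_lit 5) (nat_lit 480) (nat_lit 390) (nat_lit 270)))) (XT.nd (nat_lit 78) (nat_lit 380) (nat_lit 0) (XT.lf (nat_lit 0) (nat_lit 796109497) (nat_lit 380) (nat_lit 5764682851) (nat_lit 456) (nat_lit 7922123033) (nat_lit 138) (nat_lit 5) (nat_lit 143) (nat_lit 5) (nat_lit 144) (nat_lit 5) (nat_lit 481) (nat_lit 390) (nat_lit 269)) (XT.nd (nat_lit 78) (nat_lit 380) (nat_lit 0) (XT.lf (nat_lit 0) (nat_lit 9798221994) (nat_lit 380) (nat_lit 523770176) (nat_lit 456) (nat_lit 4336496036) (nat_lit 138) (nat_lit 5) (nat_lit 143) (nat_lit 5) (nat_lit 144) (nat_lit 5) (nat_lit 482) (nat_lit 390) (nat_lit 268)) (XT.lf (nat_lit 0) (nat_lit 4138873690) (nat_lit 380) (nat_lit 10060375416) (nat_lit 456) (nat_lit 637508782) (nat_lit 133) (nat_lit 5) (nat_lit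 138) (nat_lit 5) (nat_lit 139) (nat_lit 5) (nat_lit 483) (nat_lit 390) (nat_lit 267))))) (XT.nd (nat_lit 234) (nat_lit 380) (nat_lit 0) (XT.nd (nat_lit 78) (nat_lit 684) (nat_lit 0) (XT.lf (nat_lit 0) (nat_lit 3113339989) (nat_lit 456) (nat_lit 1685064322) (nat_lit 76) (nat_lit 10219403409) (nat_lit 132) (nat_lit 5) (nat_lit 138) (nat_lit 5) (nat_lit 133) (nat_lit 5) (nat_lit 484) (nat_lit 390) (nat_lit 266)) (XT.nd (nat_lit 78) (nat_lit 380) (nat_lit 0) (XT.lf (nat_lit 0) (nat_lit 6966899304) (nat_lit 380) (nat_lit 7629007881) (nat_lit 76) (nat_lit 605764433) (nat_lit 128) (nat_lit 5) (nat_lit 133) (nat_lit 5) (nat_lit 129) (nat_lit 5) (nat_lit 485) (nat_lit 390) (nat_lit 265)) (XT.lf (nat_lit 0) (nat_lit 1612158630) (nat_lit 380) (nat_lit 9322142394) (nat_lit 456) (nat_lit 4454178251) (nat_lit 123) (nat_lit 5) (nat_lit 128) (nat_lit 5) (nat_lit 129) (nat_lit 5) (nat_lit 486) (nat_lit 390) (nat_lit 264)))) (XT.nd (nat_lit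 78) (nat_lit 380) (nat_lit 0) (XT.lf (nat_lit 0) (nat_lit 11115202318) (nat_lit 380) (nat_lit 3900346440) (nat_lit 456) (nat_lit 562786238) (nat_lit 123) (nat_lit 5) (nat_lit 128) (nat_lit 5) (nat_lit 129) (nat_lit 5) (nat_lit 487) (nat_lit 390) (nat_lit 263)) (XT.nd (nat_lit 78) (nat_lit 0) (nat_lit 0) (XT.lf (nat_lit 0) (nat_lit 3388978690) (nat_lit 380) (nat_lit 10727675769) (nat_lit 76) (nat_lit 1654348408) (nat_lit 118) (nat_lit 5) (nat_lit 123) (nat_lit 5) (nat_lit 119) (nat_lit 5) (nat_lit 488) (nat_lit 390) (nat_lit 262)) (XT.lf (nat_lit 0) (nat_lit 7451842071) (nat_lit 380) (nat_lit 1222423581) (nat_lit 76) (nat_lit 7292393829) (nat_lit 118) (nat_lit 5) (nat_lit 123) (nat_lit 5) (nat_lit 119) (nat_lit 5) (nat_lit 489) (nat_lit 390) (nat_lit 261))))))) (XT.nd (nat_lit 936) (nat_lit 912) (nat_lit 0) (XT.nd (nat_lit 468) (nat_lit 1216) (nat_lit 0) (XT.nd (nat_lit 234) (nat_lit 608) (nat_lit 0) (XT.nd (nat_lit 78) (nat_lit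 380) (nat_lit 0) (XT.lf (nat_lit 0) (nat_lit 8559548592) (nat_lit 304) (nat_lit 3075923094) (nat_lit 380) (nat_lit 4529969088) (nat_lit 114) (nat_lit 5) (nat_lit 118) (nat_lit 5) (nat_lit 119) (nat_lit 5) (nat_lit 490) (nat_lit 390) (nat_lit 260)) (XT.nd (nat_lit 78) (nat_lit 76) (nat_lit 0) (XT.lf (nat_lit 0) (nat_lit 2171280789) (nat_lit 304) (nat_lit 13754974335) (nat_lit 380) (nat_lit 441474635) (nat_lit 110) (nat_lit 5) (nat_lit 114) (nat_lit 5) (nat_lit 115) (nat_lit 5) (nat_lit 491) (nat_lit 390) (nat_lit 259)) (XT.lf (nat_lit 0) (nat_lit 3735696912) (nat_lit 380) (nat_lit 4396643190) (nat_lit 76) (nat_lit 8440125636) (nat_lit 109) (nat_lit 5) (nat_lit 114) (nat_lit 5) (nat_lit 110) (nat_lit 5) (nat_lit 492) (nat_lit 390) (nat_lit 258)))) (XT.nd (nat_lit 78) (nat_lit 304) (nat_lit 0) (XT.lf (nat_lit 0) (nat_lit 5644997238) (nat_lit 304) (nat_lit 2366535441) (nat_lit 380) (nat_lit 8769286346) (nat_lit 105) (nat_lit 5)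 (nat_lit 109) (nat_lit 5) (nat_lit 110) (nat_lit 5) (nat_lit 493) (nat_lit 390) (nat_lit 257)) (XT.nd (nat_lit 78) (nat_lit 304) (nat_lit 0) (XT.lf (nat_lit 0) (nat_lit 12409859758) (nat_lit 380) (nat_lit 1094050949) (nat_lit 76) (nat_lit 3488690741) (nat_lit 105) (nat_lit 5) (nat_lit 110) (nat_lit 5) (nat_lit 106) (nat_lit 5) (nat_lit 494) (nat_lit 390) (nat_lit 256)) (XT.lf (nat_lit 0) (nat_lit 9229065533) (nat_lit 304) (nat_lit 7727442656) (nat_lit 380) (nat_lit 250905770) (nat_lit 101) (nat_lit 5) (nat_lit 105) (nat_lit 5) (nat_lit 106) (nat_lit 5) (nat_lit 495) (nat_lit 390) (nat_lit 255))))) (XT.nd (nat_lit 234) (nat_lit 608) (nat_lit 0) (XT.nd (nat_lit 78) (nat_lit 228) (nat_lit 0) (XT.lf (nat_lit 0) (nat_lit 2325593797) (nat_lit 304) (nat_lit 1794602413) (nat_lit 380) (nat_lit 13305641055) (nat_lit 96) (nat_lit 5) (nat_lit 100) (nat_lit 5) (nat_lit 101) (nat_lit 5) (nat_lit 496) (nat_lit 390) (nat_lit 254)) (XT.nd (nat_lit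 78) (nat_lit 228) (nat_lit 0) (XT.lf (nat_lit 0) (nat_lit 8641768662) (nat_lit 380) (nat_lit 4758423862) (nat_lit 76) (nat_lit 4247076628) (nat_lit 96) (nat_lit 5) (nat_lit 101) (nat_lit 5) (nat_lit 97) (nat_lit 5) (nat_lit 497) (nat_lit 390) (nat_lit 253)) (XT.lf (nat_lit 0) (nat_lit 5830328545) (nat_lit 228) (nat_lit 7458352627) (nat_lit 304) (nat_lit 4583751748) (nat_lit 93) (nat_lit 5) (nat_lit 96) (nat_lit 5) (nat_lit 97) (nat_lit 5) (nat_lit 498) (nat_lit 390) (nat_lit 252)))) (XT.nd (nat_lit 78) (nat_lit 608) (nat_lit 0) (XT.lf (nat_lit 0) (nat_lit 16671034157) (nat_lit 228) (nat_lit 1374731640) (nat_lit 304) (nat_lit 55990876) (nat_lit 93) (nat_lit 5) (nat_lit 96) (nat_lit 5) (nat_lit 97) (nat_lit 5) (nat_lit 499) (nat_lit 390) (nat_lit 251)) (XT.nd (nat_lit 78) (nat_lit 228) (nat_lit 0) (XT.lf (nat_lit 0) (nat_lit 4581329897) (nat_lit 380) (nat_lit 8902703464) (nat_lit 76) (nat_lit 4849465637) (nat_lit 88) (nat_lit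 5) (nat_lit 93) (nat_lit 5) (nat_lit 89) (nat_lit 5) (nat_lit 500) (nat_lit 390) (nat_lit 250)) (XT.lf (nat_lit 0) (nat_lit 1951195653) (nat_lit 228) (nat_lit 7376450952) (nat_lit 304) (nat_lit 9241883484) (nat_lit 85) (nat_lit 5) (nat_lit 88) (nat_lit 5) (nat_lit 89) (nat_lit 5) (nat_lit 501) (nat_lit 390) (nat_lit 249)))))) (XT.nd (nat_lit 50700) (nat_lit 0) (nat_lit 44840) (XT.nd (nat_lit 234) (nat_lit 532) (nat_lit 0) (XT.nd (nat_lit 78) (nat_lit 380) (nat_lit 0) (XT.lf (nat_lit 0) (nat_lit 13118900178) (nat_lit 228) (nat_lit 1095420312) (nat_lit 304) (nat_lit 4595053978) (nat_lit 85) (nat_lit 5) (nat_lit 88) (nat_lit 5) (nat_lit 89) (nat_lit 5) (nat_lit 502) (nat_lit 390) (nat_lit 248)) (XT.nd (nat_lit 78) (nat_lit 0) (nat_lit 0) (XT.lf (nat_lit 0) (nat_lit 199087030) (nat_lit 380) (nat_lit 13584718263) (nat_lit 76) (nat_lit 5269067426) (nat_lit 80) (nat_lit 5) (nat_lit 85) (nat_lit 5) (nat_lit 81) (nat_lit 5) (nat_lit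 503) (nat_lit 390) (nat_lit 247)) (XT.lf (nat_lit 0) (nat_lit 5059271976) (nat_lit 380) (nat_lit 2435057796) (nat_lit 76) (nat_lit 11805671128) (nat_lit 80) (nat_lit 5) (nat_lit 85) (nat_lit 5) (nat_lit 81) (nat_lit 5) (nat_lit 504) (nat_lit 390) (nat_lit 246)))) (XT.nd (nat_lit 78) (nat_lit 304) (nat_lit 0) (XT.lf (nat_lit 0) (nat_lit 9032793880) (nat_lit 228) (nat_lit 1028727328) (nat_lit 304) (nat_lit 9489654411) (nat_lit 77) (nat_lit 5) (nat_lit 80) (nat_lit 5) (nat_lit 81) (nat_lit 5) (nat_lit 505) (nat_lit 390) (nat_lit 245)) (XT.nd (nat_lit 78) (nat_lit 76) (nat_lit 0) (XT.lf (nat_lit 0) (nat_lit 908299573) (nat_lit 228) (nat_lit 14300273831) (nat_lit 304) (nat_lit 4597906430) (nat_lit 74) (nat_lit 5) (nat_lit 77) (nat_lit 5) (nat_lit 78) (nat_lit 5) (nat_lit 506) (nat_lit 390) (nat_lit 244)) (XT.lf (nat_lit 0) (nat_lit 450703716) (nat_lit 304) (nat_lit 7392566206) (nat_lit 76) (nat_lit 12222287185) (nat_lit 73) (nat_lit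 5) (nat_lit 77) (nat_lit 5) (nat_lit 74) (nat_lit 5) (nat_lit 507) (nat_lit 390) (nat_lit 243))))) (XT.nd (nat_lit 234) (nat_lit 836) (nat_lit 0) (XT.nd (nat_lit 78) (nat_lit 0) (nat_lit 0) (XT.lf (nat_lit 0) (nat_lit 159532389) (nat_lit 836) (nat_lit 1588692365) (nat_lit 836) (nat_lit 1588692365) (nat_lit 674) (nat_lit 3) (nat_lit 685) (nat_lit 3) (nat_lit 685) (nat_lit 5) (nat_lit 391) (nat_lit 391) (nat_lit 358)) (XT.nd (nat_lit 78) (nat_lit 0) (nat_lit 0) (XT.lf (nat_lit 76) (nat_lit 86796988) (nat_lit 0) (nat_lit 2451436241) (nat_lit 836) (nat_lit 4157297107) (nat_lit 675) (nat_lit 5) (nat_lit 674) (nat_lit 3) (nat_lit 685) (nat_lit 5) (nat_lit 392) (nat_lit 391) (nat_lit 357)) (XT.lf (nat_lit 76) (nat_lit 3429292500) (nat_lit 0) (nat_lit 1335508321) (nat_lit 836) (nat_lit 1953618177) (nat_lit 675) (nat_lit 5) (nat_lit 674) (nat_lit 3) (nat_lit 685) (nat_lit 5) (nat_lit 393) (nat_lit 391) (nat_lit 356)))) (XT.nd (nat_lit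 78) (nat_lit 0) (nat_lit 76) (XT.lf (nat_lit 76) (nat_lit 65588716) (nat_lit 0) (nat_lit 167554037) (nat_lit 912) (nat_lit 6509745385) (nat_lit 664) (nat_lit 5) (nat_lit 663) (nat_lit 5) (nat_lit 675) (nat_lit 5) (nat_lit 394) (nat_lit 391) (nat_lit 355)) (XT.nd (nat_lit 78) (nat_lit 0) (nat_lit 0) (XT.lf (nat_lit 0) (nat_lit 2409915734) (nat_lit 836) (nat_lit 3286511366) (nat_lit 912) (nat_lit 1071730439) (nat_lit 664) (nat_lit 5) (nat_lit 675) (nat_lit 5) (nat_lit 676) (nat_lit 5) (nat_lit 395) (nat_lit 391) (nat_lit 354)) (XT.lf (nat_lit 76) (nat_lit 142103011) (nat_lit 0) (nat_lit 4434806813) (nat_lit 912) (nat_lit 2218106306) (nat_lit 665) (nat_lit 5) (nat_lit 664) (nat_lit 5) (nat_lit 676) (nat_lit 5) (nat_lit 396) (nat_lit 391) (nat_lit 353))))))))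
noncomputable def xc116 : XT := (XT.nd (nat_lit 1794) (nat_lit 15808) (nat_lit 0) (XT.nd (nat_lit 858) (nat_lit 7676) (nat_lit 0) (XT.nd (nat_lit 390) (nat_lit 988) (nat_lit 0) (XT.nd (nat_lit 156) (nat_lit 912) (nat_lit 0) (XT.nd (nat_lit 78) (nat_lit 912) (nat_lit 0) (XT.lf (nat_lit 76) (nat_lit 3653297945) (nat_lit 0) (nat_lit 3101540397) (nat_lit 912) (nat_lit 68238827) (nat_lit 665) (nat_lit 5) (nat_lit 664) (nat_lit 5) (nat_lit 676) (nat_lit 5) (nat_lit 397) (nat_lit 391) (nat_lit 352)) (XT.lf (nat_lit 76) (nat_lit 343048630) (nat_lit 0) (nat_lit 1702177781) (nat_lit 988) (nat_lit 4807244327) (nat_lit 653) (nat_lit 5) (nat_lit 652) (nat_lit 5) (nat_lit 665) (nat_lit 5) (nat_lit 398) (nat_lit 391) (nat_lit 351))) (XT.nd (nat_lit 78) (nat_lit 912) (nat_lit 0) (XT.lf (nat_lit 76) (nat_lit 3938170733) (nat_lit 0) (nat_lit 230239550) (nat_lit 988) (nat_lit 2714681791) (nat_lit 653) (nat_lit 5) (nat_lit 652) (nat_lit 5) (nat_lit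 665) (nat_lit 5) (nat_lit 399) (nat_lit 391) (nat_lit 350)) (XT.nd (nat_lit 78) (nat_lit 988) (nat_lit 0) (XT.lf (nat_lit 76) (nat_lit 660204948) (nat_lit 0) (nat_lit 5634666888) (nat_lit 988) (nat_lit 620253584) (nat_lit 654) (nat_lit 5) (nat_lit 653) (nat_lit 5) (nat_lit 666) (nat_lit 5) (nat_lit 400) (nat_lit 391) (nat_lit 349)) (XT.lf (nat_lit 0) (nat_lit 1466333119) (nat_lit 988) (nat_lit 2613112413) (nat_lit 1064) (nat_lit 2868769211) (nat_lit 640) (nat_lit 5) (nat_lit 653) (nat_lit 5) (nat_lit 654) (nat_lit 5) (nat_lit 401) (nat_lit 391) (nat_lit 348))))) (XT.nd (nat_lit 234) (nat_lit 0) (nat_lit 0) (XT.nd (nat_lit 78) (nat_lit 988) (nat_lit 0) (XT.lf (nat_lit 76) (nat_lit 1080653759) (nat_lit 0) (nat_lit 2462457630) (nat_lit 1064) (nat_lit 3439652115) (nat_lit 641) (nat_lit 5) (nat_lit 640) (nat_lit 5) (nat_lit 654) (nat_lit 5) (nat_lit 402) (nat_lit 391) (nat_lit 347)) (XT.nd (nat_lit 78) (nat_lit 988) (nat_lit 0)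 (XT.lf (nat_lit 76) (nat_lit 4852976883) (nat_lit 0) (nat_lit 776510534) (nat_lit 1064) (nat_lit 1389169233) (nat_lit 641) (nat_lit 5) (nat_lit 640) (nat_lit 5) (nat_lit 654) (nat_lit 5) (nat_lit 403) (nat_lit 391) (nat_lit 346)) (XT.lf (nat_lit 0) (nat_lit 661207656) (nat_lit 1064) (nat_lit 5430780205) (nat_lit 1140) (nat_lit 963840773) (nat_lit 627) (nat_lit 5) (nat_lit 641) (nat_lit 5) (nat_lit 642) (nat_lit 5) (nat_lit 404) (nat_lit 391) (nat_lit 345)))) (XT.nd (nat_lit 78) (nat_lit 0) (nat_lit 0) (XT.lf (nat_lit 0) (nat_lit 2705814011) (nat_lit 1064) (nat_lit 1618630798) (nat_lit 1140) (nat_lit 2769692953) (nat_lit 627) (nat_lit 5) (nat_lit 641) (nat_lit 5) (nat_lit 642) (nat_lit 5) (nat_lit 405) (nat_lit 391) (nat_lit 344)) (XT.nd (nat_lit 78) (nat_lit 0) (nat_lit 0) (XT.lf (nat_lit 76) (nat_lit 2268447543) (nat_lit 0) (nat_lit 2490567691) (nat_lit 1140) (nat_lit 2374857320) (nat_lit 628) (nat_lit 5) (nat_lit 627) (nat_lit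 5) (nat_lit 642) (nat_lit 5) (nat_lit 406) (nat_lit 391) (nat_lit 343)) (XT.lf (nat_lit 76) (nat_lit 6224347645) (nat_lit 0) (nat_lit 593490879) (nat_lit 1140) (nat_lit 357285631) (nat_lit 628) (nat_lit 5) (nat_lit 627) (nat_lit 5) (nat_lit 642) (nat_lit 5) (nat_lit 407) (nat_lit 391) (nat_lit 342)))))) (XT.nd (nat_lit 468) (nat_lit 4256) (nat_lit 0) (XT.nd (nat_lit 234) (nat_lit 2356) (nat_lit 0) (XT.nd (nat_lit 78) (nat_lit 0) (nat_lit 0) (XT.lf (nat_lit 0) (nat_lit 1661372651) (nat_lit 1140) (nat_lit 4186403236) (nat_lit 1216) (nat_lit 1369556038) (nat_lit 613) (nat_lit 5) (nat_lit 628) (nat_lit 5) (nat_lit 629) (nat_lit 5) (nat_lit 408) (nat_lit 391) (nat_lit 341)) (XT.nd (nat_lit 78) (nat_lit 0) (nat_lit 0) (XT.lf (nat_lit 0) (nat_lit 3681058217) (nat_lit 1140) (nat_lit 193117607) (nat_lit 1216) (nat_lit 3386864536) (nat_lit 613) (nat_lit 5) (nat_lit 628) (nat_lit 5) (nat_lit 629) (nat_lit 5) (nat_lit 409) (nat_lit 391)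 (nat_lit 340)) (XT.lf (nat_lit 76) (nat_lit 3900127157) (nat_lit 0) (nat_lit 1822294154) (nat_lit 1216) (nat_lit 1583588240) (nat_lit 614) (nat_lit 5) (nat_lit 613) (nat_lit 5) (nat_lit 629) (nat_lit 5) (nat_lit 410) (nat_lit 391) (nat_lit 339)))) (XT.nd (nat_lit 78) (nat_lit 1216) (nat_lit 0) (XT.lf (nat_lit 0) (nat_lit 410870802) (nat_lit 1216) (nat_lit 6653682085) (nat_lit 76) (nat_lit 287996734) (nat_lit 598) (nat_lit 5) (nat_lit 614) (nat_lit 5) (nat_lit 599) (nat_lit 5) (nat_lit 411) (nat_lit 391) (nat_lit 338)) (XT.nd (nat_lit 78) (nat_lit 1216) (nat_lit 0) (XT.lf (nat_lit 0) (nat_lit 2416165099) (nat_lit 1216) (nat_lit 2522577068) (nat_lit 76) (nat_lit 2461237524) (nat_lit 598) (nat_lit 5) (nat_lit 614) (nat_lit 5) (nat_lit 599) (nat_lit 5) (nat_lit 412) (nat_lit 391) (nat_lit 337)) (XT.lf (nat_lit 0) (nat_lit 1681649390) (nat_lit 1216) (nat_lit 2748732022) (nat_lit 1292) (nat_lit 3018611956) (nat_lit 582) (nat_lit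 5) (nat_lit 598) (nat_lit 5) (nat_lit 599) (nat_lit 5) (nat_lit 413) (nat_lit 391) (nat_lit 336))))) (XT.nd (nat_lit 234) (nat_lit 2888) (nat_lit 0) (XT.nd (nat_lit 78) (nat_lit 1368) (nat_lit 0) (XT.lf (nat_lit 0) (nat_lit 5972806387) (nat_lit 1216) (nat_lit 487523233) (nat_lit 1292) (nat_lit 1039159853) (nat_lit 582) (nat_lit 5) (nat_lit 598) (nat_lit 5) (nat_lit 599) (nat_lit 5) (nat_lit 414) (nat_lit 391) (nat_lit 335)) (XT.nd (nat_lit 78) (nat_lit 0) (nat_lit 0) (XT.lf (nat_lit 0) (nat_lit 956283108) (nat_lit 1368) (nat_lit 4765534544) (nat_lit 76) (nat_lit 1829276219) (nat_lit 564) (nat_lit 5) (nat_lit 582) (nat_lit 5) (nat_lit 565) (nat_lit 5) (nat_lit 415) (nat_lit 391) (nat_lit 334)) (XT.lf (nat_lit 0) (nat_lit 2950989152) (nat_lit 1368) (nat_lit 440922648) (nat_lit 76) (nat_lit 4212226274) (nat_lit 564) (nat_lit 5) (nat_lit 582) (nat_lit 5) (nat_lit 565) (nat_lit 5) (nat_lit 416) (nat_lit 391) (nat_lit 333)))) (XT.nd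 (nat_lit 78) (nat_lit 1520) (nat_lit 0) (XT.lf (nat_lit 0) (nat_lit 3991193332) (nat_lit 1368) (nat_lit 980813617) (nat_lit 1444) (nat_lit 2686518119) (nat_lit 546) (nat_lit 5) (nat_lit 564) (nat_lit 5) (nat_lit 565) (nat_lit 5) (nat_lit 417) (nat_lit 391) (nat_lit 332)) (XT.nd (nat_lit 78) (nat_lit 76) (nat_lit 0) (XT.lf (nat_lit 0) (nat_lit 772534336) (nat_lit 1444) (nat_lit 6239631543) (nat_lit 1520) (nat_lit 702269567) (nat_lit 527) (nat_lit 5) (nat_lit 546) (nat_lit 5) (nat_lit 547) (nat_lit 5) (nat_lit 418) (nat_lit 391) (nat_lit 331)) (XT.lf (nat_lit 0) (nat_lit 1297017906) (nat_lit 1520) (nat_lit 2467580464) (nat_lit 76) (nat_lit 4006849951) (nat_lit 526) (nat_lit 5) (nat_lit 546) (nat_lit 5) (nat_lit 527) (nat_lit 5) (nat_lit 419) (nat_lit 391) (nat_lit 330))))))) (XT.nd (nat_lit 858) (nat_lit 5852) (nat_lit 0) (XT.nd (nat_lit 390) (nat_lit 5092) (nat_lit 0) (XT.nd (nat_lit 156) (nat_lit 3344) (nat_lit 0) (XT.nd (nat_lit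 78) (nat_lit 0) (nat_lit 0) (XT.lf (nat_lit 0) (nat_lit 2087305649) (nat_lit 1520) (nat_lit 1215319184) (nat_lit 1596) (nat_lit 4527378517) (nat_lit 506) (nat_lit 5) (nat_lit 526) (nat_lit 5) (nat_lit 527) (nat_lit 5) (nat_lit 420) (nat_lit 391) (nat_lit 329)) (XT.lf (nat_lit 0) (nat_lit 5336755948) (nat_lit 1596) (nat_lit 1163992107) (nat_lit 76) (nat_lit 1389222477) (nat_lit 506) (nat_lit 5) (nat_lit 527) (nat_lit 5) (nat_lit 507) (nat_lit 5) (nat_lit 421) (nat_lit 391) (nat_lit 328))) (XT.nd (nat_lit 78) (nat_lit 1748) (nat_lit 0) (XT.lf (nat_lit 0) (nat_lit 3512710582) (nat_lit 1596) (nat_lit 3893196419) (nat_lit 1672) (nat_lit 545352420) (nat_lit 485) (nat_lit 5) (nat_lit 506) (nat_lit 5) (nat_lit 507) (nat_lit 5) (nat_lit 422) (nat_lit 391) (nat_lit 327)) (XT.nd (nat_lit 78) (nat_lit 0) (nat_lit 0) (XT.lf (nat_lit 0) (nat_lit 246653509) (nat_lit 1672) (nat_lit 1209516861) (nat_lit 1748) (nat_lit 6557953127) (nat_lit 462)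 (nat_lit 5) (nat_lit 484) (nat_lit 5) (nat_lit 485) (nat_lit 5) (nat_lit 423) (nat_lit 391) (nat_lit 326)) (XT.lf (nat_lit 0) (nat_lit 3494608799) (nat_lit 1748) (nat_lit 3038073433) (nat_lit 76) (nat_lit 1545415362) (nat_lit 462) (nat_lit 5) (nat_lit 485) (nat_lit 5) (nat_lit 463) (nat_lit 5) (nat_lit 424) (nat_lit 391) (nat_lit 325))))) (XT.nd (nat_lit 234) (nat_lit 1824) (nat_lit 0) (XT.nd (nat_lit 78) (nat_lit 1520) (nat_lit 0) (XT.lf (nat_lit 0) (nat_lit 1769320375) (nat_lit 1748) (nat_lit 3788972332) (nat_lit 1824) (nat_lit 2585377349) (nat_lit 439) (nat_lit 5) (nat_lit 462) (nat_lit 5) (nat_lit 463) (nat_lit 5) (nat_lit 425) (nat_lit 391) (nat_lit 324)) (XT.nd (nat_lit 78) (nat_lit 1520) (nat_lit 0) (XT.lf (nat_lit 0) (nat_lit 6682467475) (nat_lit 1748) (nat_lit 966630625) (nat_lit 1824) (nat_lit 561747163) (nat_lit 439) (nat_lit 5) (nat_lit 462) (nat_lit 5) (nat_lit 463) (nat_lit 5) (nat_lit 426) (nat_lit 391) (nat_lit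 323)) (XT.lf (nat_lit 0) (nat_lit 1483394677) (nat_lit 1520) (nat_lit 4873887960) (nat_lit 76) (nat_lit 1921879328) (nat_lit 419) (nat_lit 5) (nat_lit 439) (nat_lit 5) (nat_lit 420) (nat_lit 5) (nat_lit 427) (nat_lit 391) (nat_lit 322)))) (XT.nd (nat_lit 78) (nat_lit 912) (nat_lit 0) (XT.lf (nat_lit 0) (nat_lit 68477298) (nat_lit 912) (nat_lit 3477004860) (nat_lit 988) (nat_lit 4803625064) (nat_lit 407) (nat_lit 5) (nat_lit 419) (nat_lit 5) (nat_lit 420) (nat_lit 5) (nat_lit 428) (nat_lit 391) (nat_lit 321)) (XT.nd (nat_lit 78) (nat_lit 912) (nat_lit 0) (XT.lf (nat_lit 0) (nat_lit 5144058930) (nat_lit 912) (nat_lit 504299381) (nat_lit 988) (nat_lit 2772109759) (nat_lit 407) (nat_lit 5) (nat_lit 419) (nat_lit 5) (nat_lit 420) (nat_lit 5) (nat_lit 429) (nat_lit 391) (nat_lit 320)) (XT.lf (nat_lit 0) (nat_lit 1803392122) (nat_lit 912) (nat_lit 5985521285) (nat_lit 988) (nat_lit 704437772) (nat_lit 395) (nat_lit 5) (nat_lit 407)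 (nat_lit 5) (nat_lit 408) (nat_lit 5) (nat_lit 430) (nat_lit 391) (nat_lit 319)))))) (XT.nd (nat_lit 468) (nat_lit 3116) (nat_lit 0) (XT.nd (nat_lit 234) (nat_lit 912) (nat_lit 0) (XT.nd (nat_lit 78) (nat_lit 1748) (nat_lit 0) (XT.lf (nat_lit 0) (nat_lit 1379350971) (nat_lit 988) (nat_lit 1582625705) (nat_lit 76) (nat_lit 5605676374) (nat_lit 394) (nat_lit 5) (nat_lit 407) (nat_lit 5) (nat_lit 395) (nat_lit 5) (nat_lit 431) (nat_lit 391) (nat_lit 318)) (XT.nd (nat_lit 78) (nat_lit 836) (nat_lit 0) (XT.lf (nat_lit 0) (nat_lit 3488343634) (nat_lit 988) (nat_lit 5005931158) (nat_lit 76) (nat_lit 149220870) (nat_lit 382) (nat_lit 5) (nat_lit 395) (nat_lit 5) (nat_lit 383) (nat_lit 5) (nat_lit 432) (nat_lit 391) (nat_lit 317)) (XT.lf (nat_lit 0) (nat_lit 214323731) (nat_lit 836) (nat_lit 5425655460) (nat_lit 912) (nat_lit 3080873580) (nat_lit 371) (nat_lit 5) (nat_lit 382) (nat_lit 5) (nat_lit 383) (nat_lit 5) (nat_lit 433) (nat_lit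 391) (nat_lit 316)))) (XT.nd (nat_lit 78) (nat_lit 912) (nat_lit 0) (XT.lf (nat_lit 0) (nat_lit 5575279651) (nat_lit 836) (nat_lit 2262132961) (nat_lit 912) (nat_lit 962295876) (nat_lit 371) (nat_lit 5) (nat_lit 382) (nat_lit 5) (nat_lit 383) (nat_lit 5) (nat_lit 434) (nat_lit 391) (nat_lit 315)) (XT.nd (nat_lit 78) (nat_lit 0) (nat_lit 0) (XT.lf (nat_lit 0) (nat_lit 1172879462) (nat_lit 912) (nat_lit 6734315296) (nat_lit 76) (nat_lit 972998486) (nat_lit 359) (nat_lit 5) (nat_lit 371) (nat_lit 5) (nat_lit 360) (nat_lit 5) (nat_lit 435) (nat_lit 391) (nat_lit 314)) (XT.lf (nat_lit 0) (nat_lit 3344604826) (nat_lit 912) (nat_lit 1347799657) (nat_lit 76) (nat_lit 4269627743) (nat_lit 359) (nat_lit 5) (nat_lit 371) (nat_lit 5) (nat_lit 360) (nat_lit 5) (nat_lit 436) (nat_lit 391) (nat_lit 313))))) (XT.nd (nat_lit 234) (nat_lit 1520) (nat_lit 0) (XT.nd (nat_lit 78) (nat_lit 836) (nat_lit 0) (XT.lf (nat_lit 0) (nat_lit 4170012803)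 (nat_lit 760) (nat_lit 1387373140) (nat_lit 836) (nat_lit 3488175874) (nat_lit 349) (nat_lit 5) (nat_lit 359) (nat_lit 5) (nat_lit 360) (nat_lit 5) (nat_lit 437) (nat_lit 391) (nat_lit 312)) (XT.nd (nat_lit 78) (nat_lit 76) (nat_lit 0) (XT.lf (nat_lit 0) (nat_lit 649959853) (nat_lit 760) (nat_lit 7161578579) (nat_lit 836) (nat_lit 1319287383) (nat_lit 339) (nat_lit 5) (nat_lit 349) (nat_lit 5) (nat_lit 350) (nat_lit 5) (nat_lit 438) (nat_lit 391) (nat_lit 311)) (XT.lf (nat_lit 0) (nat_lit 894472013) (nat_lit 836) (nat_lit 2911952758) (nat_lit 76) (nat_lit 5410996165) (nat_lit 338) (nat_lit 5) (nat_lit 349) (nat_lit 5) (nat_lit 339) (nat_lit 5) (nat_lit 439) (nat_lit 391) (nat_lit 310)))) (XT.nd (nat_lit 78) (nat_lit 760) (nat_lit 0) (XT.lf (nat_lit 0) (nat_lit 2764805889) (nat_lit 760) (nat_lit 359652566) (nat_lit 836) (nat_lit 6181328529) (nat_lit 328) (nat_lit 5) (nat_lit 338) (nat_lit 5) (nat_lit 339) (nat_lit 5) (nat_lit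 440) (nat_lit 391) (nat_lit 309)) (XT.nd (nat_lit 78) (nat_lit 760) (nat_lit 0) (XT.lf (nat_lit 0) (nat_lit 5411192644) (nat_lit 836) (nat_lit 852977585) (nat_lit 76) (nat_lit 3131512830) (nat_lit 328) (nat_lit 5) (nat_lit 339) (nat_lit 5) (nat_lit 329) (nat_lit 5) (nat_lit 441) (nat_lit 391) (nat_lit 308)) (XT.lf (nat_lit 0) (nat_lit 4980946445) (nat_lit 760) (nat_lit 2769972434) (nat_lit 836) (nat_lit 1736318580) (nat_lit 318) (nat_lit 5) (nat_lit 328) (nat_lit 5) (nat_lit 329) (nat_lit 5) (nat_lit 442) (nat_lit 391) (nat_lit 307))))))))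
noncomputable def xc117 : XT := (XT.nd (nat_lit 1794) (nat_lit 6384) (nat_lit 0) (XT.nd (nat_lit 858) (nat_lit 4028) (nat_lit 0) (XT.nd (nat_lit 390) (nat_lit 2584) (nat_lit 0) (XT.nd (nat_lit 156) (nat_lit 1444) (nat_lit 0) (XT.nd (nat_lit 78) (nat_lit 0) (nat_lit 0) (XT.lf (nat_lit 0) (nat_lit 541955731) (nat_lit 760) (nat_lit 8240415775) (nat_lit 76) (nat_lit 798335640) (nat_lit 308) (nat_lit 5) (nat_lit 318) (nat_lit 5) (nat_lit 309) (nat_lit 5) (nat_lit 443) (nat_lit 391) (nat_lit 306)) (XT.lf (nat_lit 0) (nat_lit 2864354252) (nat_lit 760) (nat_lit 2371861396) (nat_lit 76) (nat_lit 4439170109) (nat_lit 308) (nat_lit 5) (nat_lit 318) (nat_lit 5) (nat_lit 309) (nat_lit 5) (nat_lit 444) (nat_lit 391) (nat_lit 305))) (XT.nd (nat_lit 78) (nat_lit 760) (nat_lit 0) (XT.lf (nat_lit 0) (nat_lit 3631032698) (nat_lit 684) (nat_lit 1599274745) (nat_lit 760) (nat_lit 4541713493) (nat_lit 299) (nat_lit 5) (nat_lit 308) (nat_lit 5) (nat_lit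 309) (nat_lit 5) (nat_lit 445) (nat_lit 391) (nat_lit 304)) (XT.nd (nat_lit 78) (nat_lit 760) (nat_lit 0) (XT.lf (nat_lit 0) (nat_lit 7647128652) (nat_lit 760) (nat_lit 128893546) (nat_lit 76) (nat_lit 2094500671) (nat_lit 299) (nat_lit 5) (nat_lit 309) (nat_lit 5) (nat_lit 300) (nat_lit 5) (nat_lit 446) (nat_lit 391) (nat_lit 303)) (XT.lf (nat_lit 0) (nat_lit 163749929) (nat_lit 760) (nat_lit 3929848037) (nat_lit 76) (nat_lit 5876897132) (nat_lit 289) (nat_lit 5) (nat_lit 299) (nat_lit 5) (nat_lit 290) (nat_lit 5) (nat_lit 447) (nat_lit 391) (nat_lit 302))))) (XT.nd (nat_lit 234) (nat_lit 1292) (nat_lit 0) (XT.nd (nat_lit 78) (nat_lit 608) (nat_lit 0) (XT.lf (nat_lit 0) (nat_lit 2247128663) (nat_lit 684) (nat_lit 311698366) (nat_lit 760) (nat_lit 7513551323) (nat_lit 280) (nat_lit 5) (nat_lit 289) (nat_lit 5) (nat_lit 290) (nat_lit 5) (nat_lit 448) (nat_lit 391) (nat_lit 301)) (XT.nd (nat_lit 78) (nat_lit 608) (nat_lit 0)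 (XT.lf (nat_lit 0) (nat_lit 5026117565) (nat_lit 760) (nat_lit 1628817882) (nat_lit 76) (nat_lit 3520882233) (nat_lit 280) (nat_lit 5) (nat_lit 290) (nat_lit 5) (nat_lit 281) (nat_lit 5) (nat_lit 449) (nat_lit 391) (nat_lit 300)) (XT.lf (nat_lit 0) (nat_lit 4721236955) (nat_lit 608) (nat_lit 2829473760) (nat_lit 684) (nat_lit 2730460498) (nat_lit 272) (nat_lit 5) (nat_lit 280) (nat_lit 5) (nat_lit 281) (nat_lit 5) (nat_lit 450) (nat_lit 391) (nat_lit 299)))) (XT.nd (nat_lit 78) (nat_lit 684) (nat_lit 0) (XT.lf (nat_lit 0) (nat_lit 805060475) (nat_lit 608) (nat_lit 9319422695) (nat_lit 684) (nat_lit 264179365) (nat_lit 264) (nat_lit 5) (nat_lit 272) (nat_lit 5) (nat_lit 273) (nat_lit 5) (nat_lit 451) (nat_lit 391) (nat_lit 298)) (XT.nd (nat_lit 78) (nat_lit 608) (nat_lit 0) (XT.lf (nat_lit 0) (nat_lit 2253808962) (nat_lit 684) (nat_lit 3188988341) (nat_lit 76) (nat_lit 5054580130) (nat_lit 263) (nat_lit 5) (nat_lit 272) (nat_lit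 5) (nat_lit 264) (nat_lit 5) (nat_lit 452) (nat_lit 391) (nat_lit 297)) (XT.lf (nat_lit 0) (nat_lit 3345697297) (nat_lit 608) (nat_lit 1470740386) (nat_lit 684) (nat_lit 5791841869) (nat_lit 255) (nat_lit 5) (nat_lit 263) (nat_lit 5) (nat_lit 264) (nat_lit 5) (nat_lit 453) (nat_lit 391) (nat_lit 296)))))) (XT.nd (nat_lit 468) (nat_lit 1672) (nat_lit 0) (XT.nd (nat_lit 234) (nat_lit 1140) (nat_lit 0) (XT.nd (nat_lit 78) (nat_lit 1216) (nat_lit 0) (XT.lf (nat_lit 0) (nat_lit 7444944537) (nat_lit 684) (nat_lit 713755439) (nat_lit 76) (nat_lit 2562411353) (nat_lit 255) (nat_lit 5) (nat_lit 264) (nat_lit 5) (nat_lit 256) (nat_lit 5) (nat_lit 454) (nat_lit 391) (nat_lit 295)) (XT.nd (nat_lit 78) (nat_lit 608) (nat_lit 0) (XT.lf (nat_lit 0) (nat_lit 6005472495) (nat_lit 608) (nat_lit 4146072759) (nat_lit 684) (nat_lit 684148057) (nat_lit 247) (nat_lit 5) (nat_lit 255) (nat_lit 5) (nat_lit 256) (nat_lit 5) (nat_lit 455) (nat_lit 391)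 (nat_lit 294)) (XT.lf (nat_lit 0) (nat_lit 1898721185) (nat_lit 532) (nat_lit 29337556) (nat_lit 608) (nat_lit 9024376614) (nat_lit 239) (nat_lit 5) (nat_lit 246) (nat_lit 5) (nat_lit 247) (nat_lit 5) (nat_lit 456) (nat_lit 391) (nat_lit 293)))) (XT.nd (nat_lit 78) (nat_lit 1140) (nat_lit 0) (XT.lf (nat_lit 0) (nat_lit 4620176547) (nat_lit 608) (nat_lit 2304901260) (nat_lit 76) (nat_lit 4145611245) (nat_lit 239) (nat_lit 5) (nat_lit 247) (nat_lit 5) (nat_lit 240) (nat_lit 5) (nat_lit 457) (nat_lit 391) (nat_lit 292)) (XT.nd (nat_lit 78) (nat_lit 532) (nat_lit 0) (XT.lf (nat_lit 0) (nat_lit 4609802872) (nat_lit 608) (nat_lit 2764025083) (nat_lit 684) (nat_lit 3817329782) (nat_lit 231) (nat_lit 5) (nat_lit 239) (nat_lit 5) (nat_lit 240) (nat_lit 5) (nat_lit 458) (nat_lit 391) (nat_lit 291)) (XT.lf (nat_lit 0) (nat_lit 345579235) (nat_lit 532) (nat_lit 9842169518) (nat_lit 608) (nat_lit 1126186780) (nat_lit 224) (nat_lit 5) (nat_lit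 231) (nat_lit 5) (nat_lit 232) (nat_lit 5) (nat_lit 459) (nat_lit 391) (nat_lit 290))))) (XT.nd (nat_lit 234) (nat_lit 1064) (nat_lit 0) (XT.nd (nat_lit 78) (nat_lit 532) (nat_lit 0) (XT.lf (nat_lit 0) (nat_lit 1638178546) (nat_lit 608) (nat_lit 3996790314) (nat_lit 76) (nat_lit 5803180741) (nat_lit 223) (nat_lit 5) (nat_lit 231) (nat_lit 5) (nat_lit 224) (nat_lit 5) (nat_lit 460) (nat_lit 391) (nat_lit 289)) (XT.nd (nat_lit 78) (nat_lit 0) (nat_lit 0) (XT.lf (nat_lit 0) (nat_lit 3118569730) (nat_lit 532) (nat_lit 1322746087) (nat_lit 608) (nat_lit 7123415419) (nat_lit 216) (nat_lit 5) (nat_lit 223) (nat_lit 5) (nat_lit 224) (nat_lit 5) (nat_lit 461) (nat_lit 391) (nat_lit 288)) (XT.lf (nat_lit 0) (nat_lit 7325975652) (nat_lit 608) (nat_lit 1312313519) (nat_lit 76) (nat_lit 3055049520) (nat_lit 216) (nat_lit 5) (nat_lit 224) (nat_lit 5) (nat_lit 217) (nat_lit 5) (nat_lit 462) (nat_lit 391) (nat_lit 287)))) (XT.nd (nat_lit 78)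 (nat_lit 608) (nat_lit 0) (XT.lf (nat_lit 0) (nat_lit 6005516212) (nat_lit 456) (nat_lit 4289477909) (nat_lit 532) (nat_lit 1528994185) (nat_lit 210) (nat_lit 5) (nat_lit 216) (nat_lit 5) (nat_lit 217) (nat_lit 5) (nat_lit 463) (nat_lit 391) (nat_lit 286)) (XT.nd (nat_lit 78) (nat_lit 0) (nat_lit 0) (XT.lf (nat_lit 0) (nat_lit 1346992420) (nat_lit 608) (nat_lit 10445671566) (nat_lit 76) (nat_lit 164437367) (nat_lit 202) (nat_lit 5) (nat_lit 210) (nat_lit 5) (nat_lit 203) (nat_lit 5) (nat_lit 464) (nat_lit 391) (nat_lit 285)) (XT.lf (nat_lit 0) (nat_lit 4306931339) (nat_lit 608) (nat_lit 3093057154) (nat_lit 76) (nat_lit 4691751046) (nat_lit 202) (nat_lit 5) (nat_lit 210) (nat_lit 5) (nat_lit 203) (nat_lit 5) (nat_lit 465) (nat_lit 391) (nat_lit 284))))))) (XT.nd (nat_lit 936) (nat_lit 2736) (nat_lit 0) (XT.nd (nat_lit 468) (nat_lit 1748) (nat_lit 0) (XT.nd (nat_lit 234) (nat_lit 912) (nat_lit 0) (XT.nd (nat_lit 78) (nat_lit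 532) (nat_lit 0) (XT.lf (nat_lit 0) (nat_lit 4436391145) (nat_lit 456) (nat_lit 2898066150) (nat_lit 532) (nat_lit 4894448494) (nat_lit 196) (nat_lit 5) (nat_lit 202) (nat_lit 5) (nat_lit 203) (nat_lit 5) (nat_lit 466) (nat_lit 391) (nat_lit 283)) (XT.nd (nat_lit 78) (nat_lit 532) (nat_lit 0) (XT.lf (nat_lit 0) (nat_lit 10434174486) (nat_lit 532) (nat_lit 249750510) (nat_lit 76) (nat_lit 1684660559) (nat_lit 196) (nat_lit 5) (nat_lit 203) (nat_lit 5) (nat_lit 197) (nat_lit 5) (nat_lit 467) (nat_lit 391) (nat_lit 282)) (XT.lf (nat_lit 0) (nat_lit 1118915547) (nat_lit 532) (nat_lit 5022499243) (nat_lit 76) (nat_lit 6368539825) (nat_lit 189) (nat_lit 5) (nat_lit 196) (nat_lit 5) (nat_lit 190) (nat_lit 5) (nat_lit 468) (nat_lit 391) (nat_lit 281)))) (XT.nd (nat_lit 78) (nat_lit 456) (nat_lit 0) (XT.lf (nat_lit 0) (nat_lit 2723478693) (nat_lit 456) (nat_lit 1483544210) (nat_lit 532) (nat_lit 8446882937) (nat_lit 183) (nat_lit 5)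 (nat_lit 189) (nat_lit 5) (nat_lit 190) (nat_lit 5) (nat_lit 469) (nat_lit 391) (nat_lit 280)) (XT.nd (nat_lit 78) (nat_lit 456) (nat_lit 0) (XT.lf (nat_lit 0) (nat_lit 7392408458) (nat_lit 532) (nat_lit 2157289395) (nat_lit 76) (nat_lit 3250330692) (nat_lit 183) (nat_lit 5) (nat_lit 190) (nat_lit 5) (nat_lit 184) (nat_lit 5) (nat_lit 470) (nat_lit 391) (nat_lit 279)) (XT.lf (nat_lit 0) (nat_lit 5809992282) (nat_lit 456) (nat_lit 4859815937) (nat_lit 532) (nat_lit 2278702077) (nat_lit 177) (nat_lit 5) (nat_lit 183) (nat_lit 5) (nat_lit 184) (nat_lit 5) (nat_lit 471) (nat_lit 391) (nat_lit 278))))) (XT.nd (nat_lit 234) (nat_lit 836) (nat_lit 0) (XT.nd (nat_lit 78) (nat_lit 456) (nat_lit 0) (XT.lf (nat_lit 0) (nat_lit 843461558) (nat_lit 380) (nat_lit 58239287) (nat_lit 456) (nat_lit 12198127364) (nat_lit 171) (nat_lit 5) (nat_lit 176) (nat_lit 5) (nat_lit 177) (nat_lit 5) (nat_lit 472) (nat_lit 391) (nat_lit 277)) (XT.nd (nat_lit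 78) (nat_lit 456) (nat_lit 0) (XT.lf (nat_lit 0) (nat_lit 4175839537) (nat_lit 456) (nat_lit 4246109345) (nat_lit 76) (nat_lit 4830712129) (nat_lit 171) (nat_lit 5) (nat_lit 177) (nat_lit 5) (nat_lit 172) (nat_lit 5) (nat_lit 473) (nat_lit 391) (nat_lit 276)) (XT.lf (nat_lit 0) (nat_lit 3948386742) (nat_lit 456) (nat_lit 3574438793) (nat_lit 532) (nat_lit 5885580158) (nat_lit 165) (nat_lit 5) (nat_lit 171) (nat_lit 5) (nat_lit 172) (nat_lit 5) (nat_lit 474) (nat_lit 391) (nat_lit 275)))) (XT.nd (nat_lit 78) (nat_lit 836) (nat_lit 0) (XT.lf (nat_lit 0) (nat_lit 10955804688) (nat_lit 532) (nat_lit 1238948967) (nat_lit 76) (nat_lit 1372133010) (nat_lit 165) (nat_lit 5) (nat_lit 172) (nat_lit 5) (nat_lit 166) (nat_lit 5) (nat_lit 475) (nat_lit 391) (nat_lit 274)) (XT.nd (nat_lit 78) (nat_lit 380) (nat_lit 0) (XT.lf (nat_lit 0) (nat_lit 771884338) (nat_lit 456) (nat_lit 6542362875) (nat_lit 76) (nat_lit 6413147006) (nat_lit 159)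 (nat_lit 5) (nat_lit 165) (nat_lit 5) (nat_lit 160) (nat_lit 5) (nat_lit 476) (nat_lit 391) (nat_lit 273)) (XT.lf (nat_lit 0) (nat_lit 1883671650) (nat_lit 380) (nat_lit 2306407760) (nat_lit 456) (nat_lit 9700639014) (nat_lit 154) (nat_lit 5) (nat_lit 159) (nat_lit 5) (nat_lit 160) (nat_lit 5) (nat_lit 477) (nat_lit 391) (nat_lit 272)))))) (XT.nd (nat_lit 468) (nat_lit 1520) (nat_lit 0) (XT.nd (nat_lit 234) (nat_lit 760) (nat_lit 0) (XT.nd (nat_lit 78) (nat_lit 456) (nat_lit 0) (XT.lf (nat_lit 0) (nat_lit 7721044246) (nat_lit 456) (nat_lit 3535152098) (nat_lit 76) (nat_lit 2800226931) (nat_lit 154) (nat_lit 5) (nat_lit 160) (nat_lit 5) (nat_lit 155) (nat_lit 5) (nat_lit 478) (nat_lit 391) (nat_lit 271)) (XT.nd (nat_lit 78) (nat_lit 76) (nat_lit 0) (XT.lf (nat_lit 0) (nat_lit 5131589498) (nat_lit 380) (nat_lit 6222005928) (nat_lit 456) (nat_lit 2871229690) (nat_lit 149) (nat_lit 5) (nat_lit 154) (nat_lit 5) (nat_lit 155) (nat_lit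 5) (nat_lit 479) (nat_lit 391) (nat_lit 270)) (XT.lf (nat_lit 0) (nat_lit 659828875) (nat_lit 456) (nat_lit 407670229) (nat_lit 76) (nat_lit 13328885823) (nat_lit 148) (nat_lit 5) (nat_lit 154) (nat_lit 5) (nat_lit 149) (nat_lit 5) (nat_lit 480) (nat_lit 391) (nat_lit 269)))) (XT.nd (nat_lit 78) (nat_lit 380) (nat_lit 0) (XT.lf (nat_lit 0) (nat_lit 4288819170) (nat_lit 456) (nat_lit 6079722256) (nat_lit 76) (nat_lit 4201141911) (nat_lit 143) (nat_lit 5) (nat_lit 149) (nat_lit 5) (nat_lit 144) (nat_lit 5) (nat_lit 481) (nat_lit 391) (nat_lit 268)) (XT.nd (nat_lit 78) (nat_lit 0) (nat_lit 0) (XT.lf (nat_lit 0) (nat_lit 2828416667) (nat_lit 380) (nat_lit 5173046740) (nat_lit 456) (nat_lit 6744764888) (nat_lit 138) (nat_lit 5) (nat_lit 143) (nat_lit 5) (nat_lit 144) (nat_lit 5) (nat_lit 482) (nat_lit 391) (nat_lit 267)) (XT.lf (nat_lit 0) (nat_lit 11813242816) (nat_lit 456) (nat_lit 2955825883) (nat_lit 76) (nat_lit 156739830)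 (nat_lit 138) (nat_lit 5) (nat_lit 144) (nat_lit 5) (nat_lit 139) (nat_lit 5) (nat_lit 483) (nat_lit 391) (nat_lit 266))))) (XT.nd (nat_lit 234) (nat_lit 760) (nat_lit 0) (XT.nd (nat_lit 78) (nat_lit 304) (nat_lit 0) (XT.lf (nat_lit 0) (nat_lit 642774507) (nat_lit 456) (nat_lit 8905371220) (nat_lit 76) (nat_lit 5559594378) (nat_lit 132) (nat_lit 5) (nat_lit 138) (nat_lit 5) (nat_lit 133) (nat_lit 5) (nat_lit 484) (nat_lit 391) (nat_lit 265)) (XT.nd (nat_lit 78) (nat_lit 0) (nat_lit 0) (XT.lf (nat_lit 0) (nat_lit 247468962) (nat_lit 304) (nat_lit 4189063386) (nat_lit 380) (nat_lit 10856268628) (nat_lit 128) (nat_lit 5) (nat_lit 132) (nat_lit 5) (nat_lit 133) (nat_lit 5) (nat_lit 485) (nat_lit 391) (nat_lit 264)) (XT.lf (nat_lit 0) (nat_lit 8358087728) (nat_lit 380) (nat_lit 5810989122) (nat_lit 76) (nat_lit 1311449635) (nat_lit 128) (nat_lit 5) (nat_lit 133) (nat_lit 5) (nat_lit 129) (nat_lit 5) (nat_lit 486) (nat_lit 391) (nat_lit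 263)))) (XT.nd (nat_lit 78) (nat_lit 380) (nat_lit 0) (XT.lf (nat_lit 0) (nat_lit 3602036253) (nat_lit 380) (nat_lit 8790965404) (nat_lit 456) (nat_lit 3278308130) (nat_lit 123) (nat_lit 5) (nat_lit 128) (nat_lit 5) (nat_lit 129) (nat_lit 5) (nat_lit 487) (nat_lit 391) (nat_lit 262)) (XT.nd (nat_lit 78) (nat_lit 304) (nat_lit 0) (XT.lf (nat_lit 0) (nat_lit 657372573) (nat_lit 456) (nat_lit 2613020618) (nat_lit 76) (nat_lit 12594971935) (nat_lit 122) (nat_lit 5) (nat_lit 128) (nat_lit 5) (nat_lit 123) (nat_lit 5) (nat_lit 488) (nat_lit 391) (nat_lit 261)) (XT.lf (nat_lit 0) (nat_lit 4673744501) (nat_lit 380) (nat_lit 8999551219) (nat_lit 76) (nat_lit 2388656704) (nat_lit 118) (nat_lit 5) (nat_lit 123) (nat_lit 5) (nat_lit 119) (nat_lit 5) (nat_lit 489) (nat_lit 391) (nat_lit 260))))))))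
noncomputable def xc118 : XT := (XT.nd (nat_lit 52104) (nat_lit 0) (nat_lit 34352) (XT.nd (nat_lit 858) (nat_lit 1064) (nat_lit 0) (XT.nd (nat_lit 390) (nat_lit 1292) (nat_lit 0) (XT.nd (nat_lit 156) (nat_lit 684) (nat_lit 0) (XT.nd (nat_lit 78) (nat_lit 0) (nat_lit 0) (XT.lf (nat_lit 0) (nat_lit 666454962) (nat_lit 304) (nat_lit 8131874779) (nat_lit 380) (nat_lit 7463585700) (nat_lit 114) (nat_lit 5) (nat_lit 118) (nat_lit 5) (nat_lit 119) (nat_lit 5) (nat_lit 490) (nat_lit 391) (nat_lit 259)) (XT.lf (nat_lit 0) (nat_lit 10622795729) (nat_lit 304) (nat_lit 2427399051) (nat_lit 380) (nat_lit 3414788836) (nat_lit 114) (nat_lit 5) (nat_lit 118) (nat_lit 5) (nat_lit 119) (nat_lit 5) (nat_lit 491) (nat_lit 391) (nat_lit 258))) (XT.nd (nat_lit 78) (nat_lit 304) (nat_lit 0) (XT.lf (nat_lit 0) (nat_lit 739193110) (nat_lit 380) (nat_lit 12562965845) (nat_lit 76) (nat_lit 3369191227) (nat_lit 109) (nat_lit 5) (nat_lit 114) (nat_lit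 5) (nat_lit 110) (nat_lit 5) (nat_lit 492) (nat_lit 391) (nat_lit 257)) (XT.nd (nat_lit 78) (nat_lit 304) (nat_lit 0) (XT.lf (nat_lit 0) (nat_lit 4970794595) (nat_lit 380) (nat_lit 2607626611) (nat_lit 76) (nat_lit 9302167724) (nat_lit 109) (nat_lit 5) (nat_lit 114) (nat_lit 5) (nat_lit 110) (nat_lit 5) (nat_lit 493) (nat_lit 391) (nat_lit 256)) (XT.lf (nat_lit 0) (nat_lit 7622498274) (nat_lit 304) (nat_lit 1699002407) (nat_lit 380) (nat_lit 7771823851) (nat_lit 105) (nat_lit 5) (nat_lit 109) (nat_lit 5) (nat_lit 110) (nat_lit 5) (nat_lit 494) (nat_lit 391) (nat_lit 255))))) (XT.nd (nat_lit 234) (nat_lit 608) (nat_lit 0) (XT.nd (nat_lit 78) (nat_lit 380) (nat_lit 0) (XT.lf (nat_lit 0) (nat_lit 739919854) (nat_lit 304) (nat_lit 13054684990) (nat_lit 380) (nat_lit 3515003826) (nat_lit 101) (nat_lit 5) (nat_lit 105) (nat_lit 5) (nat_lit 106) (nat_lit 5) (nat_lit 495) (nat_lit 391) (nat_lit 254)) (XT.nd (nat_lit 78) (nat_lit 304)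 (nat_lit 0) (XT.lf (nat_lit 0) (nat_lit 876429987) (nat_lit 380) (nat_lit 6287138624) (nat_lit 76) (nat_lit 10365337484) (nat_lit 100) (nat_lit 5) (nat_lit 105) (nat_lit 5) (nat_lit 101) (nat_lit 5) (nat_lit 496) (nat_lit 391) (nat_lit 253)) (XT.lf (nat_lit 0) (nat_lit 4209055585) (nat_lit 304) (nat_lit 1112331428) (nat_lit 380) (nat_lit 12430483977) (nat_lit 96) (nat_lit 5) (nat_lit 100) (nat_lit 5) (nat_lit 101) (nat_lit 5) (nat_lit 497) (nat_lit 391) (nat_lit 252)))) (XT.nd (nat_lit 78) (nat_lit 608) (nat_lit 0) (XT.lf (nat_lit 0) (nat_lit 9916025280) (nat_lit 380) (nat_lit 3035190240) (nat_lit 76) (nat_lit 5026865411) (nat_lit 96) (nat_lit 5) (nat_lit 101) (nat_lit 5) (nat_lit 97) (nat_lit 5) (nat_lit 498) (nat_lit 391) (nat_lit 251)) (XT.nd (nat_lit 78) (nat_lit 380) (nat_lit 0) (XT.lf (nat_lit 0) (nat_lit 7753374043) (nat_lit 228) (nat_lit 6892634102) (nat_lit 304) (nat_lit 3561939249) (nat_lit 93) (nat_lit 5) (nat_lit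 96) (nat_lit 5) (nat_lit 97) (nat_lit 5) (nat_lit 499) (nat_lit 391) (nat_lit 250)) (XT.lf (nat_lit 0) (nat_lit 330807343) (nat_lit 304) (nat_lit 692315999) (nat_lit 380) (nat_lit 17418987068) (nat_lit 88) (nat_lit 5) (nat_lit 92) (nat_lit 5) (nat_lit 93) (nat_lit 5) (nat_lit 500) (nat_lit 391) (nat_lit 249)))))) (XT.nd (nat_lit 468) (nat_lit 228) (nat_lit 0) (XT.nd (nat_lit 234) (nat_lit 608) (nat_lit 0) (XT.nd (nat_lit 78) (nat_lit 228) (nat_lit 0) (XT.lf (nat_lit 0) (nat_lit 5745268958) (nat_lit 380) (nat_lit 7290200714) (nat_lit 76) (nat_lit 5643155887) (nat_lit 88) (nat_lit 5) (nat_lit 93) (nat_lit 5) (nat_lit 89) (nat_lit 5) (nat_lit 501) (nat_lit 391) (nat_lit 248)) (XT.nd (nat_lit 78) (nat_lit 0) (nat_lit 0) (XT.lf (nat_lit 0) (nat_lit 3768996407) (nat_lit 228) (nat_lit 6808038858) (nat_lit 304) (nat_lit 8342533447) (nat_lit 85) (nat_lit 5) (nat_lit 88) (nat_lit 5) (nat_lit 89) (nat_lit 5) (nat_lit 502) (nat_lit 391)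 (nat_lit 247)) (XT.lf (nat_lit 0) (nat_lit 15125177044) (nat_lit 228) (nat_lit 415425667) (nat_lit 304) (nat_lit 3624025934) (nat_lit 85) (nat_lit 5) (nat_lit 88) (nat_lit 5) (nat_lit 89) (nat_lit 5) (nat_lit 503) (nat_lit 391) (nat_lit 246)))) (XT.nd (nat_lit 78) (nat_lit 228) (nat_lit 0) (XT.lf (nat_lit 0) (nat_lit 1247415307) (nat_lit 380) (nat_lit 12093749845) (nat_lit 76) (nat_lit 6071788322) (nat_lit 80) (nat_lit 5) (nat_lit 85) (nat_lit 5) (nat_lit 81) (nat_lit 5) (nat_lit 504) (nat_lit 391) (nat_lit 245)) (XT.nd (nat_lit 78) (nat_lit 228) (nat_lit 0) (XT.lf (nat_lit 0) (nat_lit 6184326569) (nat_lit 380) (nat_lit 755658184) (nat_lit 76) (nat_lit 12725450774) (nat_lit 80) (nat_lit 5) (nat_lit 85) (nat_lit 5) (nat_lit 81) (nat_lit 5) (nat_lit 505) (nat_lit 391) (nat_lit 244)) (XT.lf (nat_lit 0) (nat_lit 10930181442) (nat_lit 228) (nat_lit 347509638) (nat_lit 304) (nat_lit 8644122979) (nat_lit 77) (nat_lit 5) (nat_lit 80)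 (nat_lit 5) (nat_lit 81) (nat_lit 5) (nat_lit 506) (nat_lit 391) (nat_lit 243))))) (XT.nd (nat_lit 50544) (nat_lit 0) (nat_lit 44764) (XT.nd (nat_lit 50388) (nat_lit 0) (nat_lit 44764) (XT.lf (nat_lit 0) (nat_lit 2647627398) (nat_lit 228) (nat_lit 13875798231) (nat_lit 304) (nat_lit 3658885595) (nat_lit 74) (nat_lit 5) (nat_lit 77) (nat_lit 5) (nat_lit 78) (nat_lit 5) (nat_lit 507) (nat_lit 391) (nat_lit 242)) (XT.nd (nat_lit 78) (nat_lit 836) (nat_lit 0) (XT.lf (nat_lit 0) (nat_lit 2363753358) (nat_lit 836) (nat_lit 497581750) (nat_lit 836) (nat_lit 497581750) (nat_lit 674) (nat_lit 3) (nat_lit 685) (nat_lit 3) (nat_lit 685) (nat_lit 5) (nat_lit 392) (nat_lit 392) (nat_lit 356)) (XT.lf (nat_lit 0) (nat_lit 175468342) (nat_lit 836) (nat_lit 4423055833) (nat_lit 912) (nat_lit 2142881229) (nat_lit 663) (nat_lit 5) (nat_lit 674) (nat_lit 3) (nat_lit 675) (nat_lit 5) (nat_lit 393) (nat_lit 392) (nat_lit 355)))) (XT.nd (nat_lit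 78) (nat_lit 0) (nat_lit 0) (XT.lf (nat_lit 0) (nat_lit 2308245148) (nat_lit 836) (nat_lit 1096558989) (nat_lit 912) (nat_lit 3361392807) (nat_lit 663) (nat_lit 5) (nat_lit 674) (nat_lit 3) (nat_lit 675) (nat_lit 5) (nat_lit 394) (nat_lit 392) (nat_lit 354)) (XT.nd (nat_lit 78) (nat_lit 0) (nat_lit 0) (XT.lf (nat_lit 76) (nat_lit 2297540212) (nat_lit 0) (nat_lit 2145729752) (nat_lit 912) (nat_lit 2349040016) (nat_lit 664) (nat_lit 5) (nat_lit 663) (nat_lit 5) (nat_lit 675) (nat_lit 5) (nat_lit 395) (nat_lit 392) (nat_lit 353)) (XT.lf (nat_lit 76) (nat_lit 5745516498) (nat_lit 0) (nat_lit 828409946) (nat_lit 912) (nat_lit 245977377) (nat_lit 664) (nat_lit 5) (nat_lit 663) (nat_lit 5) (nat_lit 675) (nat_lit 5) (nat_lit 396) (nat_lit 392) (nat_lit 352))))))) (XT.nd (nat_lit 936) (nat_lit 6536) (nat_lit 0) (XT.nd (nat_lit 468) (nat_lit 2052) (nat_lit 0) (XT.nd (nat_lit 234) (nat_lit 988) (nat_lit 0) (XT.nd (nat_lit 78) (nat_lit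 0) (nat_lit 0) (XT.lf (nat_lit 0) (nat_lit 1839811635) (nat_lit 912) (nat_lit 4447697423) (nat_lit 988) (nat_lit 560998918) (nat_lit 652) (nat_lit 5) (nat_lit 664) (nat_lit 5) (nat_lit 665) (nat_lit 5) (nat_lit 397) (nat_lit 392) (nat_lit 351)) (XT.nd (nat_lit 78) (nat_lit 0) (nat_lit 0) (XT.lf (nat_lit 0) (nat_lit 3924061600) (nat_lit 912) (nat_lit 954698864) (nat_lit 988) (nat_lit 1999706635) (nat_lit 652) (nat_lit 5) (nat_lit 664) (nat_lit 5) (nat_lit 665) (nat_lit 5) (nat_lit 398) (nat_lit 392) (nat_lit 350)) (XT.lf (nat_lit 76) (nat_lit 2612946634) (nat_lit 0) (nat_lit 3402340521) (nat_lit 988) (nat_lit 894448299) (nat_lit 653) (nat_lit 5) (nat_lit 652) (nat_lit 5) (nat_lit 665) (nat_lit 5) (nat_lit 399) (nat_lit 392) (nat_lit 349)))) (XT.nd (nat_lit 78) (nat_lit 0) (nat_lit 0) (XT.lf (nat_lit 0) (nat_lit 1146127372) (nat_lit 988) (nat_lit 714476032) (nat_lit 1064) (nat_lit 5081779414) (nat_lit 639) (nat_lit 5) (nat_lit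 652) (nat_lit 5) (nat_lit 653) (nat_lit 5) (nat_lit 400) (nat_lit 392) (nat_lit 348)) (XT.nd (nat_lit 78) (nat_lit 0) (nat_lit 76) (XT.lf (nat_lit 76) (nat_lit 2942758192) (nat_lit 0) (nat_lit 241697786) (nat_lit 1064) (nat_lit 3791745489) (nat_lit 640) (nat_lit 5) (nat_lit 639) (nat_lit 5) (nat_lit 653) (nat_lit 5) (nat_lit 401) (nat_lit 392) (nat_lit 347)) (XT.lf (nat_lit 0) (nat_lit 5228255802) (nat_lit 988) (nat_lit 367298947) (nat_lit 1064) (nat_lit 1415862301) (nat_lit 640) (nat_lit 5) (nat_lit 653) (nat_lit 5) (nat_lit 654) (nat_lit 5) (nat_lit 402) (nat_lit 392) (nat_lit 346))))) (XT.nd (nat_lit 234) (nat_lit 1064) (nat_lit 0) (XT.nd (nat_lit 78) (nat_lit 0) (nat_lit 0) (XT.lf (nat_lit 0) (nat_lit 237205744) (nat_lit 1064) (nat_lit 3664182801) (nat_lit 1140) (nat_lit 3146426110) (nat_lit 626) (nat_lit 5) (nat_lit 640) (nat_lit 5) (nat_lit 641) (nat_lit 5) (nat_lit 403) (nat_lit 392) (nat_lit 345)) (XT.nd (nat_lit 78)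 (nat_lit 0) (nat_lit 0) (XT.lf (nat_lit 76) (nat_lit 88812386) (nat_lit 0) (nat_lit 2140490322) (nat_lit 1140) (nat_lit 4856311593) (nat_lit 627) (nat_lit 5) (nat_lit 626) (nat_lit 5) (nat_lit 641) (nat_lit 5) (nat_lit 404) (nat_lit 392) (nat_lit 344)) (XT.lf (nat_lit 76) (nat_lit 3936538843) (nat_lit 0) (nat_lit 302154563) (nat_lit 1140) (nat_lit 2885941038) (nat_lit 627) (nat_lit 5) (nat_lit 626) (nat_lit 5) (nat_lit 641) (nat_lit 5) (nat_lit 405) (nat_lit 392) (nat_lit 343)))) (XT.nd (nat_lit 78) (nat_lit 1140) (nat_lit 0) (XT.lf (nat_lit 76) (nat_lit 664835627) (nat_lit 0) (nat_lit 5591862011) (nat_lit 1140) (nat_lit 908382110) (nat_lit 628) (nat_lit 5) (nat_lit 627) (nat_lit 5) (nat_lit 642) (nat_lit 5) (nat_lit 406) (nat_lit 392) (nat_lit 342)) (XT.nd (nat_lit 78) (nat_lit 0) (nat_lit 0) (XT.lf (nat_lit 0) (nat_lit 1072013951) (nat_lit 1140) (nat_lit 2608082299) (nat_lit 1216) (nat_lit 3526549949) (nat_lit 612) (nat_lit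 5) (nat_lit 627) (nat_lit 5) (nat_lit 628) (nat_lit 5) (nat_lit 407) (nat_lit 392) (nat_lit 341)) (XT.lf (nat_lit 76) (nat_lit 1343253532) (nat_lit 0) (nat_lit 1700520708) (nat_lit 1216) (nat_lit 4205883768) (nat_lit 613) (nat_lit 5) (nat_lit 612) (nat_lit 5) (nat_lit 628) (nat_lit 5) (nat_lit 408) (nat_lit 392) (nat_lit 340)))))) (XT.nd (nat_lit 468) (nat_lit 4180) (nat_lit 0) (XT.nd (nat_lit 234) (nat_lit 1216) (nat_lit 0) (XT.nd (nat_lit 78) (nat_lit 1216) (nat_lit 0) (XT.lf (nat_lit 0) (nat_lit 5030617713) (nat_lit 1140) (nat_lit 1917452913) (nat_lit 1216) (nat_lit 345958730) (nat_lit 613) (nat_lit 5) (nat_lit 628) (nat_lit 5) (nat_lit 629) (nat_lit 5) (nat_lit 409) (nat_lit 392) (nat_lit 339)) (XT.nd (nat_lit 78) (nat_lit 1216) (nat_lit 0) (XT.lf (nat_lit 76) (nat_lit 2137602520) (nat_lit 0) (nat_lit 4901561094) (nat_lit 1216) (nat_lit 300497227) (nat_lit 614) (nat_lit 5) (nat_lit 613) (nat_lit 5) (nat_lit 629) (nat_lit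 5) (nat_lit 410) (nat_lit 392) (nat_lit 338)) (XT.lf (nat_lit 0) (nat_lit 1649492053) (nat_lit 1216) (nat_lit 1128159330) (nat_lit 1292) (nat_lit 4608941471) (nat_lit 597) (nat_lit 5) (nat_lit 613) (nat_lit 5) (nat_lit 614) (nat_lit 5) (nat_lit 411) (nat_lit 392) (nat_lit 337)))) (XT.nd (nat_lit 78) (nat_lit 1216) (nat_lit 0) (XT.lf (nat_lit 76) (nat_lit 3034805355) (nat_lit 0) (nat_lit 577381430) (nat_lit 1292) (nat_lit 3822693739) (nat_lit 598) (nat_lit 5) (nat_lit 597) (nat_lit 5) (nat_lit 614) (nat_lit 5) (nat_lit 412) (nat_lit 392) (nat_lit 336)) (XT.nd (nat_lit 78) (nat_lit 1292) (nat_lit 0) (XT.lf (nat_lit 0) (nat_lit 5591301953) (nat_lit 1216) (nat_lit 229470472) (nat_lit 76) (nat_lit 1663829296) (nat_lit 598) (nat_lit 5) (nat_lit 614) (nat_lit 5) (nat_lit 599) (nat_lit 5) (nat_lit 413) (nat_lit 392) (nat_lit 335)) (XT.lf (nat_lit 0) (nat_lit 63231979) (nat_lit 1292) (nat_lit 3492529683) (nat_lit 76) (nat_lit 3979766071)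 (nat_lit 581) (nat_lit 5) (nat_lit 598) (nat_lit 5) (nat_lit 582) (nat_lit 5) (nat_lit 414) (nat_lit 392) (nat_lit 334))))) (XT.nd (nat_lit 234) (nat_lit 1520) (nat_lit 0) (XT.nd (nat_lit 78) (nat_lit 1368) (nat_lit 0) (XT.lf (nat_lit 0) (nat_lit 783639110) (nat_lit 1292) (nat_lit 1216421541) (nat_lit 1368) (nat_lit 5587841432) (nat_lit 564) (nat_lit 5) (nat_lit 581) (nat_lit 5) (nat_lit 582) (nat_lit 5) (nat_lit 415) (nat_lit 392) (nat_lit 333)) (XT.nd (nat_lit 78) (nat_lit 1368) (nat_lit 0) (XT.lf (nat_lit 0) (nat_lit 3967316484) (nat_lit 1368) (nat_lit 2487264832) (nat_lit 76) (nat_lit 1186919054) (nat_lit 564) (nat_lit 5) (nat_lit 582) (nat_lit 5) (nat_lit 565) (nat_lit 5) (nat_lit 416) (nat_lit 392) (nat_lit 332)) (XT.lf (nat_lit 0) (nat_lit 1902246818) (nat_lit 1368) (nat_lit 4053355622) (nat_lit 1444) (nat_lit 1740944542) (nat_lit 546) (nat_lit 5) (nat_lit 564) (nat_lit 5) (nat_lit 565) (nat_lit 5) (nat_lit 417) (nat_lit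 392) (nat_lit 331)))) (XT.nd (nat_lit 78) (nat_lit 1444) (nat_lit 0) (XT.lf (nat_lit 0) (nat_lit 206309149) (nat_lit 1444) (nat_lit 1371743734) (nat_lit 76) (nat_lit 6175053746) (nat_lit 545) (nat_lit 5) (nat_lit 564) (nat_lit 5) (nat_lit 546) (nat_lit 5) (nat_lit 418) (nat_lit 392) (nat_lit 330)) (XT.nd (nat_lit 78) (nat_lit 0) (nat_lit 0) (XT.lf (nat_lit 0) (nat_lit 2158331382) (nat_lit 1520) (nat_lit 4678860141) (nat_lit 76) (nat_lit 973602578) (nat_lit 526) (nat_lit 5) (nat_lit 546) (nat_lit 5) (nat_lit 527) (nat_lit 5) (nat_lit 419) (nat_lit 392) (nat_lit 329)) (XT.lf (nat_lit 0) (nat_lit 4132028600) (nat_lit 1520) (nat_lit 166708348) (nat_lit 76) (nat_lit 3571254977) (nat_lit 526) (nat_lit 5) (nat_lit 546) (nat_lit 5) (nat_lit 527) (nat_lit 5) (nat_lit 420) (nat_lit 392) (nat_lit 328))))))))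
noncomputable def xc119 : XT := (XT.nd (nat_lit 1794) (nat_lit 9196) (nat_lit 0) (XT.nd (nat_lit 858) (nat_lit 5852) (nat_lit 0) (XT.nd (nat_lit 390) (nat_lit 5168) (nat_lit 0) (XT.nd (nat_lit 156) (nat_lit 1672) (nat_lit 0) (XT.nd (nat_lit 78) (nat_lit 1672) (nat_lit 0) (XT.lf (nat_lit 0) (nat_lit 4463813490) (nat_lit 1520) (nat_lit 1674013188) (nat_lit 1596) (nat_lit 1792703600) (nat_lit 506) (nat_lit 5) (nat_lit 526) (nat_lit 5) (nat_lit 527) (nat_lit 5) (nat_lit 421) (nat_lit 392) (nat_lit 327)) (XT.lf (nat_lit 0) (nat_lit 168271037) (nat_lit 1672) (nat_lit 6818948766) (nat_lit 76) (nat_lit 1005457074) (nat_lit 484) (nat_lit 5) (nat_lit 506) (nat_lit 5) (nat_lit 485) (nat_lit 5) (nat_lit 422) (nat_lit 392) (nat_lit 326))) (XT.nd (nat_lit 78) (nat_lit 1672) (nat_lit 0) (XT.lf (nat_lit 0) (nat_lit 2143444852) (nat_lit 1672) (nat_lit 2155995336) (nat_lit 76) (nat_lit 3756418130) (nat_lit 484) (nat_lit 5) (nat_lit 506) (nat_lit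 5) (nat_lit 485) (nat_lit 5) (nat_lit 423) (nat_lit 392) (nat_lit 325)) (XT.nd (nat_lit 78) (nat_lit 0) (nat_lit 0) (XT.lf (nat_lit 0) (nat_lit 2603722395) (nat_lit 1672) (nat_lit 1536459555) (nat_lit 1748) (nat_lit 3980488658) (nat_lit 462) (nat_lit 5) (nat_lit 484) (nat_lit 5) (nat_lit 485) (nat_lit 5) (nat_lit 424) (nat_lit 392) (nat_lit 324)) (XT.lf (nat_lit 0) (nat_lit 6165405390) (nat_lit 1748) (nat_lit 738210545) (nat_lit 76) (nat_lit 1283400429) (nat_lit 462) (nat_lit 5) (nat_lit 485) (nat_lit 5) (nat_lit 463) (nat_lit 5) (nat_lit 425) (nat_lit 392) (nat_lit 323))))) (XT.nd (nat_lit 234) (nat_lit 1900) (nat_lit 0) (XT.nd (nat_lit 78) (nat_lit 1520) (nat_lit 0) (XT.lf (nat_lit 0) (nat_lit 4149800716) (nat_lit 1748) (nat_lit 4084790040) (nat_lit 1824) (nat_lit 20037221) (nat_lit 439) (nat_lit 5) (nat_lit 462) (nat_lit 5) (nat_lit 463) (nat_lit 5) (nat_lit 426) (nat_lit 392) (nat_lit 322)) (XT.nd (nat_lit 78) (nat_lit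 0) (nat_lit 0) (XT.lf (nat_lit 0) (nat_lit 788466503) (nat_lit 1444) (nat_lit 1183268365) (nat_lit 1520) (nat_lit 6352068620) (nat_lit 419) (nat_lit 5) (nat_lit 438) (nat_lit 5) (nat_lit 439) (nat_lit 5) (nat_lit 427) (nat_lit 392) (nat_lit 321)) (XT.lf (nat_lit 0) (nat_lit 4009381510) (nat_lit 1520) (nat_lit 2601673417) (nat_lit 76) (nat_lit 1783186410) (nat_lit 419) (nat_lit 5) (nat_lit 439) (nat_lit 5) (nat_lit 420) (nat_lit 5) (nat_lit 428) (nat_lit 392) (nat_lit 320)))) (XT.nd (nat_lit 78) (nat_lit 988) (nat_lit 0) (XT.lf (nat_lit 0) (nat_lit 2423949066) (nat_lit 912) (nat_lit 3655098637) (nat_lit 988) (nat_lit 2387222380) (nat_lit 407) (nat_lit 5) (nat_lit 419) (nat_lit 5) (nat_lit 420) (nat_lit 5) (nat_lit 429) (nat_lit 392) (nat_lit 319)) (XT.nd (nat_lit 78) (nat_lit 988) (nat_lit 0) (XT.lf (nat_lit 0) (nat_lit 7554883464) (nat_lit 912) (nat_lit 620810545) (nat_lit 988) (nat_lit 364340987) (nat_lit 407) (nat_lit 5)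 (nat_lit 419) (nat_lit 5) (nat_lit 420) (nat_lit 5) (nat_lit 430) (nat_lit 392) (nat_lit 318)) (XT.lf (nat_lit 0) (nat_lit 1688762157) (nat_lit 988) (nat_lit 4444726155) (nat_lit 76) (nat_lit 2481332382) (nat_lit 394) (nat_lit 5) (nat_lit 407) (nat_lit 5) (nat_lit 395) (nat_lit 5) (nat_lit 431) (nat_lit 392) (nat_lit 317)))))) (XT.nd (nat_lit 468) (nat_lit 2432) (nat_lit 0) (XT.nd (nat_lit 234) (nat_lit 1672) (nat_lit 0) (XT.nd (nat_lit 78) (nat_lit 836) (nat_lit 0) (XT.lf (nat_lit 0) (nat_lit 723014970) (nat_lit 912) (nat_lit 3039465431) (nat_lit 988) (nat_lit 4928891812) (nat_lit 382) (nat_lit 5) (nat_lit 394) (nat_lit 5) (nat_lit 395) (nat_lit 5) (nat_lit 432) (nat_lit 392) (nat_lit 316)) (XT.nd (nat_lit 78) (nat_lit 836) (nat_lit 0) (XT.lf (nat_lit 0) (nat_lit 5877830614) (nat_lit 988) (nat_lit 2746598258) (nat_lit 76) (nat_lit 145029508) (nat_lit 382) (nat_lit 5) (nat_lit 395) (nat_lit 5) (nat_lit 383) (nat_lit 5) (nat_lit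 433) (nat_lit 392) (nat_lit 315)) (XT.lf (nat_lit 0) (nat_lit 2562539022) (nat_lit 836) (nat_lit 5479693493) (nat_lit 912) (nat_lit 806745498) (nat_lit 371) (nat_lit 5) (nat_lit 382) (nat_lit 5) (nat_lit 383) (nat_lit 5) (nat_lit 434) (nat_lit 392) (nat_lit 314)))) (XT.nd (nat_lit 78) (nat_lit 1596) (nat_lit 0) (XT.lf (nat_lit 0) (nat_lit 1291244861) (nat_lit 912) (nat_lit 954058888) (nat_lit 76) (nat_lit 6684844877) (nat_lit 370) (nat_lit 5) (nat_lit 382) (nat_lit 5) (nat_lit 371) (nat_lit 5) (nat_lit 435) (nat_lit 392) (nat_lit 313)) (XT.nd (nat_lit 78) (nat_lit 760) (nat_lit 0) (XT.lf (nat_lit 0) (nat_lit 3427493140) (nat_lit 912) (nat_lit 4511284683) (nat_lit 76) (nat_lit 1073922423) (nat_lit 359) (nat_lit 5) (nat_lit 371) (nat_lit 5) (nat_lit 360) (nat_lit 5) (nat_lit 436) (nat_lit 392) (nat_lit 312)) (XT.lf (nat_lit 0) (nat_lit 949180193) (nat_lit 760) (nat_lit 4655887366) (nat_lit 836) (nat_lit 3491869446) (nat_lit 349)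 (nat_lit 5) (nat_lit 359) (nat_lit 5) (nat_lit 360) (nat_lit 5) (nat_lit 437) (nat_lit 392) (nat_lit 311))))) (XT.nd (nat_lit 234) (nat_lit 1596) (nat_lit 0) (XT.nd (nat_lit 78) (nat_lit 836) (nat_lit 0) (XT.lf (nat_lit 0) (nat_lit 6549693082) (nat_lit 760) (nat_lit 1278267131) (nat_lit 836) (nat_lit 1354868963) (nat_lit 349) (nat_lit 5) (nat_lit 359) (nat_lit 5) (nat_lit 360) (nat_lit 5) (nat_lit 438) (nat_lit 392) (nat_lit 310)) (XT.nd (nat_lit 78) (nat_lit 0) (nat_lit 0) (XT.lf (nat_lit 0) (nat_lit 819584919) (nat_lit 836) (nat_lit 6289121051) (nat_lit 76) (nat_lit 2161521251) (nat_lit 338) (nat_lit 5) (nat_lit 349) (nat_lit 5) (nat_lit 339) (nat_lit 5) (nat_lit 439) (nat_lit 392) (nat_lit 309)) (XT.lf (nat_lit 0) (nat_lit 3017860773) (nat_lit 836) (nat_lit 663696492) (nat_lit 76) (nat_lit 5677673021) (nat_lit 338) (nat_lit 5) (nat_lit 349) (nat_lit 5) (nat_lit 339) (nat_lit 5) (nat_lit 440) (nat_lit 392) (nat_lit 308))))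 (XT.nd (nat_lit 78) (nat_lit 836) (nat_lit 0) (XT.lf (nat_lit 0) (nat_lit 5111423017) (nat_lit 760) (nat_lit 154616401) (nat_lit 836) (nat_lit 4183860800) (nat_lit 328) (nat_lit 5) (nat_lit 338) (nat_lit 5) (nat_lit 339) (nat_lit 5) (nat_lit 441) (nat_lit 392) (nat_lit 307)) (XT.nd (nat_lit 78) (nat_lit 76) (nat_lit 0) (XT.lf (nat_lit 0) (nat_lit 1435004363) (nat_lit 760) (nat_lit 6133405337) (nat_lit 836) (nat_lit 1973794735) (nat_lit 318) (nat_lit 5) (nat_lit 328) (nat_lit 5) (nat_lit 329) (nat_lit 5) (nat_lit 442) (nat_lit 392) (nat_lit 306)) (XT.lf (nat_lit 0) (nat_lit 280350799) (nat_lit 836) (nat_lit 2286388112) (nat_lit 76) (nat_lit 7069513504) (nat_lit 317) (nat_lit 5) (nat_lit 328) (nat_lit 5) (nat_lit 318) (nat_lit 5) (nat_lit 443) (nat_lit 392) (nat_lit 305))))))) (XT.nd (nat_lit 936) (nat_lit 3876) (nat_lit 0) (XT.nd (nat_lit 468) (nat_lit 2508) (nat_lit 0) (XT.nd (nat_lit 234) (nat_lit 1444) (nat_lit 0) (XT.nd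 (nat_lit 78) (nat_lit 684) (nat_lit 0) (XT.lf (nat_lit 0) (nat_lit 2557839551) (nat_lit 760) (nat_lit 6083182058) (nat_lit 76) (nat_lit 1090810152) (nat_lit 308) (nat_lit 5) (nat_lit 318) (nat_lit 5) (nat_lit 309) (nat_lit 5) (nat_lit 444) (nat_lit 392) (nat_lit 304)) (XT.nd (nat_lit 78) (nat_lit 684) (nat_lit 0) (XT.lf (nat_lit 0) (nat_lit 4887371440) (nat_lit 760) (nat_lit 142786827) (nat_lit 76) (nat_lit 4799039589) (nat_lit 308) (nat_lit 5) (nat_lit 318) (nat_lit 5) (nat_lit 309) (nat_lit 5) (nat_lit 445) (nat_lit 392) (nat_lit 303)) (XT.lf (nat_lit 0) (nat_lit 5965188097) (nat_lit 684) (nat_lit 1311595254) (nat_lit 760) (nat_lit 2651467066) (nat_lit 299) (nat_lit 5) (nat_lit 308) (nat_lit 5) (nat_lit 309) (nat_lit 5) (nat_lit 446) (nat_lit 392) (nat_lit 302)))) (XT.nd (nat_lit 78) (nat_lit 760) (nat_lit 0) (XT.lf (nat_lit 0) (nat_lit 2150328772) (nat_lit 684) (nat_lit 7569532477) (nat_lit 760) (nat_lit 309310060) (nat_lit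 290) (nat_lit 5) (nat_lit 299) (nat_lit 5) (nat_lit 300) (nat_lit 5) (nat_lit 447) (nat_lit 392) (nat_lit 301)) (XT.nd (nat_lit 78) (nat_lit 684) (nat_lit 0) (XT.lf (nat_lit 0) (nat_lit 2062844488) (nat_lit 760) (nat_lit 1744126619) (nat_lit 76) (nat_lit 6324665504) (nat_lit 289) (nat_lit 5) (nat_lit 299) (nat_lit 5) (nat_lit 290) (nat_lit 5) (nat_lit 448) (nat_lit 392) (nat_lit 300)) (XT.lf (nat_lit 0) (nat_lit 4483633053) (nat_lit 760) (nat_lit 5694901133) (nat_lit 76) (nat_lit 57474048) (nat_lit 280) (nat_lit 5) (nat_lit 290) (nat_lit 5) (nat_lit 281) (nat_lit 5) (nat_lit 449) (nat_lit 392) (nat_lit 299))))) (XT.nd (nat_lit 234) (nat_lit 1216) (nat_lit 0) (XT.nd (nat_lit 78) (nat_lit 684) (nat_lit 0) (XT.lf (nat_lit 0) (nat_lit 586284519) (nat_lit 608) (nat_lit 6383077347) (nat_lit 684) (nat_lit 3372779399) (nat_lit 272) (nat_lit 5) (nat_lit 280) (nat_lit 5) (nat_lit 281) (nat_lit 5) (nat_lit 450) (nat_lit 392) (nat_lit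 298)) (XT.nd (nat_lit 78) (nat_lit 684) (nat_lit 0) (XT.lf (nat_lit 0) (nat_lit 7040914454) (nat_lit 608) (nat_lit 2478116531) (nat_lit 684) (nat_lit 931085837) (nat_lit 272) (nat_lit 5) (nat_lit 280) (nat_lit 5) (nat_lit 281) (nat_lit 5) (nat_lit 451) (nat_lit 392) (nat_lit 297)) (XT.lf (nat_lit 0) (nat_lit 1545146466) (nat_lit 684) (nat_lit 7504719299) (nat_lit 76) (nat_lit 1510064690) (nat_lit 263) (nat_lit 5) (nat_lit 272) (nat_lit 5) (nat_lit 264) (nat_lit 5) (nat_lit 452) (nat_lit 392) (nat_lit 296)))) (XT.nd (nat_lit 78) (nat_lit 1216) (nat_lit 0) (XT.lf (nat_lit 0) (nat_lit 4074449225) (nat_lit 684) (nat_lit 1028449214) (nat_lit 76) (nat_lit 5568602697) (nat_lit 263) (nat_lit 5) (nat_lit 272) (nat_lit 5) (nat_lit 264) (nat_lit 5) (nat_lit 453) (nat_lit 392) (nat_lit 295)) (XT.nd (nat_lit 78) (nat_lit 608) (nat_lit 0) (XT.lf (nat_lit 0) (nat_lit 5622296459) (nat_lit 608) (nat_lit 1045565821) (nat_lit 684) (nat_lit 4117174511)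 (nat_lit 255) (nat_lit 5) (nat_lit 263) (nat_lit 5) (nat_lit 264) (nat_lit 5) (nat_lit 454) (nat_lit 392) (nat_lit 294)) (XT.lf (nat_lit 0) (nat_lit 1489685447) (nat_lit 608) (nat_lit 7837405829) (nat_lit 684) (nat_lit 1573476895) (nat_lit 247) (nat_lit 5) (nat_lit 255) (nat_lit 5) (nat_lit 256) (nat_lit 5) (nat_lit 455) (nat_lit 392) (nat_lit 293)))))) (XT.nd (nat_lit 468) (nat_lit 2052) (nat_lit 0) (XT.nd (nat_lit 234) (nat_lit 1216) (nat_lit 0) (XT.nd (nat_lit 78) (nat_lit 532) (nat_lit 0) (XT.lf (nat_lit 0) (nat_lit 1026854681) (nat_lit 684) (nat_lit 2715490351) (nat_lit 76) (nat_lit 7275553330) (nat_lit 246) (nat_lit 5) (nat_lit 255) (nat_lit 5) (nat_lit 247) (nat_lit 5) (nat_lit 456) (nat_lit 392) (nat_lit 292)) (XT.nd (nat_lit 78) (nat_lit 0) (nat_lit 0) (XT.lf (nat_lit 0) (nat_lit 3665776385) (nat_lit 608) (nat_lit 7011324202) (nat_lit 76) (nat_lit 460117246) (nat_lit 239) (nat_lit 5) (nat_lit 247) (nat_lit 5) (nat_lit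 240) (nat_lit 5) (nat_lit 457) (nat_lit 392) (nat_lit 291)) (XT.lf (nat_lit 0) (nat_lit 6378610233) (nat_lit 608) (nat_lit 171322852) (nat_lit 76) (nat_lit 4708571599) (nat_lit 239) (nat_lit 5) (nat_lit 247) (nat_lit 5) (nat_lit 240) (nat_lit 5) (nat_lit 458) (nat_lit 392) (nat_lit 290)))) (XT.nd (nat_lit 78) (nat_lit 608) (nat_lit 0) (XT.lf (nat_lit 0) (nat_lit 6867335387) (nat_lit 608) (nat_lit 2301390825) (nat_lit 684) (nat_lit 2213034141) (nat_lit 231) (nat_lit 5) (nat_lit 239) (nat_lit 5) (nat_lit 240) (nat_lit 5) (nat_lit 459) (nat_lit 392) (nat_lit 289)) (XT.nd (nat_lit 78) (nat_lit 0) (nat_lit 0) (XT.lf (nat_lit 0) (nat_lit 510004967) (nat_lit 608) (nat_lit 8977408169) (nat_lit 76) (nat_lit 2019815733) (nat_lit 223) (nat_lit 5) (nat_lit 231) (nat_lit 5) (nat_lit 224) (nat_lit 5) (nat_lit 460) (nat_lit 392) (nat_lit 288)) (XT.lf (nat_lit 0) (nat_lit 3282363625) (nat_lit 608) (nat_lit 1917062332) (nat_lit 76) (nat_lit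 6435001795) (nat_lit 223) (nat_lit 5) (nat_lit 231) (nat_lit 5) (nat_lit 224) (nat_lit 5) (nat_lit 461) (nat_lit 392) (nat_lit 287))))) (XT.nd (nat_lit 234) (nat_lit 988) (nat_lit 0) (XT.nd (nat_lit 78) (nat_lit 532) (nat_lit 0) (XT.lf (nat_lit 0) (nat_lit 5326396599) (nat_lit 532) (nat_lit 797500263) (nat_lit 608) (nat_lit 5640002521) (nat_lit 216) (nat_lit 5) (nat_lit 223) (nat_lit 5) (nat_lit 224) (nat_lit 5) (nat_lit 462) (nat_lit 392) (nat_lit 286)) (XT.nd (nat_lit 78) (nat_lit 76) (nat_lit 0) (XT.lf (nat_lit 0) (nat_lit 803348768) (nat_lit 456) (nat_lit 8240378677) (nat_lit 532) (nat_lit 2851806920) (nat_lit 210) (nat_lit 5) (nat_lit 216) (nat_lit 5) (nat_lit 217) (nat_lit 5) (nat_lit 463) (nat_lit 392) (nat_lit 285)) (XT.lf (nat_lit 0) (nat_lit 20434583) (nat_lit 532) (nat_lit 3786402896) (nat_lit 76) (nat_lit 8222405134) (nat_lit 209) (nat_lit 5) (nat_lit 216) (nat_lit 5) (nat_lit 210) (nat_lit 5) (nat_lit 464) (nat_lit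 392) (nat_lit 284)))) (XT.nd (nat_lit 78) (nat_lit 456) (nat_lit 0) (XT.lf (nat_lit 0) (nat_lit 2920474672) (nat_lit 608) (nat_lit 8503027754) (nat_lit 76) (nat_lit 741577867) (nat_lit 202) (nat_lit 5) (nat_lit 210) (nat_lit 5) (nat_lit 203) (nat_lit 5) (nat_lit 465) (nat_lit 392) (nat_lit 283)) (XT.nd (nat_lit 78) (nat_lit 456) (nat_lit 0) (XT.lf (nat_lit 0) (nat_lit 5909288009) (nat_lit 608) (nat_lit 1045548451) (nat_lit 76) (nat_lit 5348185824) (nat_lit 202) (nat_lit 5) (nat_lit 210) (nat_lit 5) (nat_lit 203) (nat_lit 5) (nat_lit 466) (nat_lit 392) (nat_lit 282)) (XT.lf (nat_lit 0) (nat_lit 6620611381) (nat_lit 456) (nat_lit 2360628664) (nat_lit 532) (nat_lit 3462018766) (nat_lit 196) (nat_lit 5) (nat_lit 202) (nat_lit 5) (nat_lit 203) (nat_lit 5) (nat_lit 467) (nat_lit 392) (nat_lit 281))))))))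
noncomputable def xc120 : XT := (XT.nd (nat_lit 1794) (nat_lit 3116) (nat_lit 0) (XT.nd (nat_lit 858) (nat_lit 2736) (nat_lit 0) (XT.nd (nat_lit 390) (nat_lit 1748) (nat_lit 0) (XT.nd (nat_lit 156) (nat_lit 912) (nat_lit 0) (XT.nd (nat_lit 78) (nat_lit 76) (nat_lit 0) (XT.lf (nat_lit 0) (nat_lit 1849761276) (nat_lit 456) (nat_lit 10279576506) (nat_lit 532) (nat_lit 456671044) (nat_lit 190) (nat_lit 5) (nat_lit 196) (nat_lit 5) (nat_lit 197) (nat_lit 5) (nat_lit 468) (nat_lit 392) (nat_lit 280)) (XT.lf (nat_lit 0) (nat_lit 2610143931) (nat_lit 532) (nat_lit 3036657626) (nat_lit 76) (nat_lit 7083764802) (nat_lit 189) (nat_lit 5) (nat_lit 196) (nat_lit 5) (nat_lit 190) (nat_lit 5) (nat_lit 469) (nat_lit 392) (nat_lit 279))) (XT.nd (nat_lit 78) (nat_lit 456) (nat_lit 0) (XT.lf (nat_lit 0) (nat_lit 4850514266) (nat_lit 456) (nat_lit 894154660) (nat_lit 532) (nat_lit 7133038698) (nat_lit 183) (nat_lit 5) (nat_lit 189) (nat_lit 5)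 (nat_lit 190) (nat_lit 5) (nat_lit 470) (nat_lit 392) (nat_lit 278)) (XT.nd (nat_lit 78) (nat_lit 456) (nat_lit 0) (XT.lf (nat_lit 0) (nat_lit 8969202623) (nat_lit 532) (nat_lit 143745985) (nat_lit 76) (nat_lit 3914299409) (nat_lit 183) (nat_lit 5) (nat_lit 190) (nat_lit 5) (nat_lit 184) (nat_lit 5) (nat_lit 471) (nat_lit 392) (nat_lit 277)) (XT.lf (nat_lit 0) (nat_lit 7969350476) (nat_lit 456) (nat_lit 4328046894) (nat_lit 532) (nat_lit 881601058) (nat_lit 177) (nat_lit 5) (nat_lit 183) (nat_lit 5) (nat_lit 184) (nat_lit 5) (nat_lit 472) (nat_lit 392) (nat_lit 276))))) (XT.nd (nat_lit 234) (nat_lit 836) (nat_lit 0) (XT.nd (nat_lit 78) (nat_lit 456) (nat_lit 0) (XT.lf (nat_lit 0) (nat_lit 2332640594) (nat_lit 456) (nat_lit 10428181463) (nat_lit 76) (nat_lit 572554084) (nat_lit 171) (nat_lit 5) (nat_lit 177) (nat_lit 5) (nat_lit 172) (nat_lit 5) (nat_lit 473) (nat_lit 392) (nat_lit 275)) (XT.nd (nat_lit 78) (nat_lit 456) (nat_lit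 0) (XT.lf (nat_lit 0) (nat_lit 5644936153) (nat_lit 456) (nat_lit 2298750325) (nat_lit 76) (nat_lit 5546129374) (nat_lit 171) (nat_lit 5) (nat_lit 177) (nat_lit 5) (nat_lit 172) (nat_lit 5) (nat_lit 474) (nat_lit 392) (nat_lit 274)) (XT.lf (nat_lit 0) (nat_lit 6046265412) (nat_lit 456) (nat_lit 2998536336) (nat_lit 532) (nat_lit 4604158545) (nat_lit 165) (nat_lit 5) (nat_lit 171) (nat_lit 5) (nat_lit 172) (nat_lit 5) (nat_lit 475) (nat_lit 392) (nat_lit 273)))) (XT.nd (nat_lit 78) (nat_lit 456) (nat_lit 0) (XT.lf (nat_lit 0) (nat_lit 748362606) (nat_lit 380) (nat_lit 11780165077) (nat_lit 456) (nat_lit 1282445049) (nat_lit 160) (nat_lit 5) (nat_lit 165) (nat_lit 5) (nat_lit 166) (nat_lit 5) (nat_lit 476) (nat_lit 392) (nat_lit 272)) (XT.nd (nat_lit 78) (nat_lit 380) (nat_lit 0) (XT.lf (nat_lit 0) (nat_lit 2131554788) (nat_lit 456) (nat_lit 4666070653) (nat_lit 76) (nat_lit 7177259449) (nat_lit 159) (nat_lit 5) (nat_lit 165)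 (nat_lit 5) (nat_lit 160) (nat_lit 5) (nat_lit 477) (nat_lit 392) (nat_lit 271)) (XT.lf (nat_lit 0) (nat_lit 3915279698) (nat_lit 380) (nat_lit 1689422505) (nat_lit 456) (nat_lit 8537044992) (nat_lit 154) (nat_lit 5) (nat_lit 159) (nat_lit 5) (nat_lit 160) (nat_lit 5) (nat_lit 478) (nat_lit 392) (nat_lit 270)))))) (XT.nd (nat_lit 468) (nat_lit 1520) (nat_lit 0) (XT.nd (nat_lit 234) (nat_lit 380) (nat_lit 0) (XT.nd (nat_lit 78) (nat_lit 836) (nat_lit 0) (XT.lf (nat_lit 0) (nat_lit 9184412755) (nat_lit 456) (nat_lit 1628977846) (nat_lit 76) (nat_lit 3497816331) (nat_lit 154) (nat_lit 5) (nat_lit 160) (nat_lit 5) (nat_lit 155) (nat_lit 5) (nat_lit 479) (nat_lit 392) (nat_lit 269)) (XT.nd (nat_lit 78) (nat_lit 456) (nat_lit 0) (XT.lf (nat_lit 0) (nat_lit 7198092811) (nat_lit 380) (nat_lit 5678607265) (nat_lit 456) (nat_lit 1606538283) (nat_lit 149) (nat_lit 5) (nat_lit 154) (nat_lit 5) (nat_lit 155) (nat_lit 5) (nat_lit 480) (nat_lit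 392) (nat_lit 268)) (XT.lf (nat_lit 0) (nat_lit 1546985683) (nat_lit 380) (nat_lit 415276191) (nat_lit 456) (nat_lit 12696109734) (nat_lit 143) (nat_lit 5) (nat_lit 148) (nat_lit 5) (nat_lit 149) (nat_lit 5) (nat_lit 481) (nat_lit 392) (nat_lit 267)))) (XT.nd (nat_lit 78) (nat_lit 380) (nat_lit 0) (XT.lf (nat_lit 0) (nat_lit 5645540163) (nat_lit 456) (nat_lit 4250395399) (nat_lit 76) (nat_lit 4939569323) (nat_lit 143) (nat_lit 5) (nat_lit 149) (nat_lit 5) (nat_lit 144) (nat_lit 5) (nat_lit 482) (nat_lit 392) (nat_lit 266)) (XT.nd (nat_lit 78) (nat_lit 0) (nat_lit 0) (XT.lf (nat_lit 0) (nat_lit 4823071293) (nat_lit 380) (nat_lit 4597028850) (nat_lit 456) (nat_lit 5595730346) (nat_lit 138) (nat_lit 5) (nat_lit 143) (nat_lit 5) (nat_lit 144) (nat_lit 5) (nat_lit 483) (nat_lit 392) (nat_lit 265)) (XT.lf (nat_lit 0) (nat_lit 13287761688) (nat_lit 456) (nat_lit 1094357070) (nat_lit 76) (nat_lit 817293585) (nat_lit 138) (nat_lit 5)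 (nat_lit 144) (nat_lit 5) (nat_lit 139) (nat_lit 5) (nat_lit 484) (nat_lit 392) (nat_lit 264))))) (XT.nd (nat_lit 234) (nat_lit 760) (nat_lit 0) (XT.nd (nat_lit 78) (nat_lit 304) (nat_lit 0) (XT.lf (nat_lit 0) (nat_lit 1890256298) (nat_lit 456) (nat_lit 7158979653) (nat_lit 76) (nat_lit 6335824873) (nat_lit 132) (nat_lit 5) (nat_lit 138) (nat_lit 5) (nat_lit 133) (nat_lit 5) (nat_lit 485) (nat_lit 392) (nat_lit 263)) (XT.nd (nat_lit 78) (nat_lit 0) (nat_lit 0) (XT.lf (nat_lit 0) (nat_lit 2164256154) (nat_lit 304) (nat_lit 3583837700) (nat_lit 380) (nat_lit 9825967741) (nat_lit 128) (nat_lit 5) (nat_lit 132) (nat_lit 5) (nat_lit 133) (nat_lit 5) (nat_lit 486) (nat_lit 392) (nat_lit 262)) (XT.lf (nat_lit 0) (nat_lit 9728489042) (nat_lit 380) (nat_lit 4033130746) (nat_lit 76) (nat_lit 2004316375) (nat_lit 128) (nat_lit 5) (nat_lit 133) (nat_lit 5) (nat_lit 129) (nat_lit 5) (nat_lit 487) (nat_lit 392) (nat_lit 261)))) (XT.nd (nat_lit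 78) (nat_lit 380) (nat_lit 0) (XT.lf (nat_lit 0) (nat_lit 5555694097) (nat_lit 380) (nat_lit 8277030927) (nat_lit 456) (nat_lit 2128040300) (nat_lit 123) (nat_lit 5) (nat_lit 128) (nat_lit 5) (nat_lit 129) (nat_lit 5) (nat_lit 488) (nat_lit 392) (nat_lit 260)) (XT.nd (nat_lit 78) (nat_lit 304) (nat_lit 0) (XT.lf (nat_lit 0) (nat_lit 1846880918) (nat_lit 456) (nat_lit 804796936) (nat_lit 76) (nat_lit 13507339145) (nat_lit 122) (nat_lit 5) (nat_lit 128) (nat_lit 5) (nat_lit 123) (nat_lit 5) (nat_lit 489) (nat_lit 392) (nat_lit 259)) (XT.lf (nat_lit 0) (nat_lit 5936948569) (nat_lit 380) (nat_lit 7312300735) (nat_lit 76) (nat_lit 3110421887) (nat_lit 118) (nat_lit 5) (nat_lit 123) (nat_lit 5) (nat_lit 119) (nat_lit 5) (nat_lit 490) (nat_lit 392) (nat_lit 258))))))) (XT.nd (nat_lit 858) (nat_lit 836) (nat_lit 0) (XT.nd (nat_lit 390) (nat_lit 1292) (nat_lit 0) (XT.nd (nat_lit 156) (nat_lit 684) (nat_lit 0) (XT.nd (nat_lit 78) (nat_lit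 0) (nat_lit 0) (XT.lf (nat_lit 0) (nat_lit 2534741086) (nat_lit 304) (nat_lit 7598392172) (nat_lit 380) (nat_lit 6430720519) (nat_lit 114) (nat_lit 5) (nat_lit 118) (nat_lit 5) (nat_lit 119) (nat_lit 5) (nat_lit 491) (nat_lit 392) (nat_lit 257)) (XT.lf (nat_lit 0) (nat_lit 12653836963) (nat_lit 304) (nat_lit 1793476344) (nat_lit 380) (nat_lit 2324126872) (nat_lit 114) (nat_lit 5) (nat_lit 118) (nat_lit 5) (nat_lit 119) (nat_lit 5) (nat_lit 492) (nat_lit 392) (nat_lit 256))) (XT.nd (nat_lit 78) (nat_lit 304) (nat_lit 0) (XT.lf (nat_lit 0) (nat_lit 1891608094) (nat_lit 380) (nat_lit 10974078650) (nat_lit 76) (nat_lit 4116221694) (nat_lit 109) (nat_lit 5) (nat_lit 114) (nat_lit 5) (nat_lit 110) (nat_lit 5) (nat_lit 493) (nat_lit 392) (nat_lit 255)) (XT.nd (nat_lit 78) (nat_lit 304) (nat_lit 0) (XT.lf (nat_lit 0) (nat_lit 6185535116) (nat_lit 380) (nat_lit 855713935) (nat_lit 76) (nat_lit 10154531316) (nat_lit 109) (nat_lit 5)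 (nat_lit 114) (nat_lit 5) (nat_lit 110) (nat_lit 5) (nat_lit 494) (nat_lit 392) (nat_lit 254)) (XT.lf (nat_lit 0) (nat_lit 9567144598) (nat_lit 304) (nat_lit 1045877743) (nat_lit 380) (nat_lit 6799955232) (nat_lit 105) (nat_lit 5) (nat_lit 109) (nat_lit 5) (nat_lit 110) (nat_lit 5) (nat_lit 495) (nat_lit 392) (nat_lit 253))))) (XT.nd (nat_lit 234) (nat_lit 608) (nat_lit 0) (XT.nd (nat_lit 78) (nat_lit 380) (nat_lit 0) (XT.lf (nat_lit 0) (nat_lit 2552759363) (nat_lit 304) (nat_lit 12617208503) (nat_lit 380) (nat_lit 2463734132) (nat_lit 101) (nat_lit 5) (nat_lit 105) (nat_lit 5) (nat_lit 106) (nat_lit 5) (nat_lit 496) (nat_lit 392) (nat_lit 252)) (XT.nd (nat_lit 78) (nat_lit 304) (nat_lit 0) (XT.lf (nat_lit 0) (nat_lit 1979115627) (nat_lit 380) (nat_lit 4635569648) (nat_lit 76) (nat_lit 11242990621) (nat_lit 100) (nat_lit 5) (nat_lit 105) (nat_lit 5) (nat_lit 101) (nat_lit 5) (nat_lit 497) (nat_lit 392) (nat_lit 251)) (XT.lf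 (nat_lit 0) (nat_lit 6058855604) (nat_lit 304) (nat_lit 444302170) (nat_lit 380) (nat_lit 11582140659) (nat_lit 96) (nat_lit 5) (nat_lit 100) (nat_lit 5) (nat_lit 101) (nat_lit 5) (nat_lit 498) (nat_lit 392) (nat_lit 250)))) (XT.nd (nat_lit 78) (nat_lit 608) (nat_lit 0) (XT.lf (nat_lit 0) (nat_lit 11172997501) (nat_lit 380) (nat_lit 1348102715) (nat_lit 76) (nat_lit 5795268204) (nat_lit 96) (nat_lit 5) (nat_lit 101) (nat_lit 5) (nat_lit 97) (nat_lit 5) (nat_lit 499) (nat_lit 392) (nat_lit 249)) (XT.nd (nat_lit 78) (nat_lit 380) (nat_lit 0) (XT.lf (nat_lit 0) (nat_lit 9644734227) (nat_lit 228) (nat_lit 6343361084) (nat_lit 304) (nat_lit 2562928579) (nat_lit 93) (nat_lit 5) (nat_lit 96) (nat_lit 5) (nat_lit 97) (nat_lit 5) (nat_lit 500) (nat_lit 392) (nat_lit 248)) (XT.lf (nat_lit 0) (nat_lit 2076333912) (nat_lit 304) (nat_lit 14044940) (nat_lit 380) (nat_lit 16699542642) (nat_lit 88) (nat_lit 5) (nat_lit 92) (nat_lit 5) (nat_lit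 93) (nat_lit 5) (nat_lit 501) (nat_lit 392) (nat_lit 247)))))) (XT.nd (nat_lit 50856) (nat_lit 0) (nat_lit 43624) (XT.nd (nat_lit 234) (nat_lit 608) (nat_lit 0) (XT.nd (nat_lit 78) (nat_lit 228) (nat_lit 0) (XT.lf (nat_lit 0) (nat_lit 6890847600) (nat_lit 380) (nat_lit 5714977412) (nat_lit 76) (nat_lit 6425666196) (nat_lit 88) (nat_lit 5) (nat_lit 93) (nat_lit 5) (nat_lit 89) (nat_lit 5) (nat_lit 502) (nat_lit 392) (nat_lit 246)) (XT.nd (nat_lit 78) (nat_lit 0) (nat_lit 0) (XT.lf (nat_lit 0) (nat_lit 5554081102) (nat_lit 228) (nat_lit 6256059389) (nat_lit 304) (nat_lit 7467296740) (nat_lit 85) (nat_lit 5) (nat_lit 88) (nat_lit 5) (nat_lit 89) (nat_lit 5) (nat_lit 503) (nat_lit 392) (nat_lit 245)) (XT.lf (nat_lit 0) (nat_lit 16854577704) (nat_lit 304) (nat_lit 2425568137) (nat_lit 76) (nat_lit 247622349) (nat_lit 85) (nat_lit 5) (nat_lit 89) (nat_lit 5) (nat_lit 86) (nat_lit 5) (nat_lit 504) (nat_lit 392) (nat_lit 244)))) (XT.nd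 (nat_lit 78) (nat_lit 228) (nat_lit 0) (XT.lf (nat_lit 0) (nat_lit 2276156901) (nat_lit 380) (nat_lit 10641408402) (nat_lit 76) (nat_lit 6863485091) (nat_lit 80) (nat_lit 5) (nat_lit 85) (nat_lit 5) (nat_lit 81) (nat_lit 5) (nat_lit 505) (nat_lit 392) (nat_lit 243)) (XT.nd (nat_lit 78) (nat_lit 0) (nat_lit 0) (XT.lf (nat_lit 0) (nat_lit 902055785) (nat_lit 228) (nat_lit 6395925126) (nat_lit 304) (nat_lit 12740879379) (nat_lit 77) (nat_lit 5) (nat_lit 80) (nat_lit 5) (nat_lit 81) (nat_lit 5) (nat_lit 506) (nat_lit 392) (nat_lit 242)) (XT.lf (nat_lit 0) (nat_lit 12480851193) (nat_lit 304) (nat_lit 7503881052) (nat_lit 76) (nat_lit 315883036) (nat_lit 77) (nat_lit 5) (nat_lit 81) (nat_lit 5) (nat_lit 78) (nat_lit 5) (nat_lit 507) (nat_lit 392) (nat_lit 241))))) (XT.nd (nat_lit 234) (nat_lit 912) (nat_lit 0) (XT.nd (nat_lit 78) (nat_lit 0) (nat_lit 0) (XT.lf (nat_lit 0) (nat_lit 567986603) (nat_lit 0) (nat_lit 567986603) (nat_lit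 836) (nat_lit 2246822672) (nat_lit 663) (nat_lit 5) (nat_lit 663) (nat_lit 3) (nat_lit 674) (nat_lit 3) (nat_lit 393) (nat_lit 393) (nat_lit 354)) (XT.nd (nat_lit 78) (nat_lit 0) (nat_lit 0) (XT.lf (nat_lit 0) (nat_lit 4369959272) (nat_lit 836) (nat_lit 2310132470) (nat_lit 912) (nat_lit 110995505) (nat_lit 663) (nat_lit 5) (nat_lit 674) (nat_lit 3) (nat_lit 675) (nat_lit 5) (nat_lit 394) (nat_lit 393) (nat_lit 353)) (XT.lf (nat_lit 76) (nat_lit 1053547372) (nat_lit 0) (nat_lit 5416508462) (nat_lit 912) (nat_lit 347851513) (nat_lit 664) (nat_lit 5) (nat_lit 663) (nat_lit 5) (nat_lit 675) (nat_lit 5) (nat_lit 395) (nat_lit 393) (nat_lit 352)))) (XT.nd (nat_lit 78) (nat_lit 0) (nat_lit 0) (XT.lf (nat_lit 0) (nat_lit 1705592151) (nat_lit 912) (nat_lit 2369746563) (nat_lit 988) (nat_lit 2770474706) (nat_lit 651) (nat_lit 5) (nat_lit 663) (nat_lit 5) (nat_lit 664) (nat_lit 5) (nat_lit 396) (nat_lit 393) (nat_lit 351)) (XT.nd (nat_lit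 78) (nat_lit 0) (nat_lit 0) (XT.lf (nat_lit 76) (nat_lit 1076104521) (nat_lit 0) (nat_lit 2673656997) (nat_lit 988) (nat_lit 3125399998) (nat_lit 652) (nat_lit 5) (nat_lit 651) (nat_lit 5) (nat_lit 664) (nat_lit 5) (nat_lit 397) (nat_lit 393) (nat_lit 350)) (XT.lf (nat_lit 76) (nat_lit 4594718182) (nat_lit 0) (nat_lit 1204171042) (nat_lit 988) (nat_lit 1106941712) (nat_lit 652) (nat_lit 5) (nat_lit 651) (nat_lit 5) (nat_lit 664) (nat_lit 5) (nat_lit 398) (nat_lit 393) (nat_lit 349))))))))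
noncomputable def xc121 : XT := (XT.nd (nat_lit 1794) (nat_lit 15048) (nat_lit 0) (XT.nd (nat_lit 858) (nat_lit 7980) (nat_lit 0) (XT.nd (nat_lit 390) (nat_lit 1140) (nat_lit 0) (XT.nd (nat_lit 156) (nat_lit 988) (nat_lit 0) (XT.nd (nat_lit 78) (nat_lit 0) (nat_lit 0) (XT.lf (nat_lit 0) (nat_lit 898367130) (nat_lit 988) (nat_lit 5711924871) (nat_lit 1064) (nat_lit 327534073) (nat_lit 639) (nat_lit 5) (nat_lit 652) (nat_lit 5) (nat_lit 653) (nat_lit 5) (nat_lit 399) (nat_lit 393) (nat_lit 348)) (XT.lf (nat_lit 0) (nat_lit 2902360739) (nat_lit 988) (nat_lit 2149971970) (nat_lit 1064) (nat_lit 1918529005) (nat_lit 639) (nat_lit 5) (nat_lit 652) (nat_lit 5) (nat_lit 653) (nat_lit 5) (nat_lit 400) (nat_lit 393) (nat_lit 347))) (XT.nd (nat_lit 78) (nat_lit 988) (nat_lit 0) (XT.lf (nat_lit 76) (nat_lit 1473728473) (nat_lit 0) (nat_lit 3433059024) (nat_lit 1064) (nat_lit 2098578158) (nat_lit 640) (nat_lit 5) (nat_lit 639) (nat_lit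 5) (nat_lit 653) (nat_lit 5) (nat_lit 401) (nat_lit 393) (nat_lit 346)) (XT.nd (nat_lit 78) (nat_lit 988) (nat_lit 0) (XT.lf (nat_lit 76) (nat_lit 5170416236) (nat_lit 0) (nat_lit 1746877968) (nat_lit 1064) (nat_lit 123960009) (nat_lit 640) (nat_lit 5) (nat_lit 639) (nat_lit 5) (nat_lit 653) (nat_lit 5) (nat_lit 402) (nat_lit 393) (nat_lit 345)) (XT.lf (nat_lit 0) (nat_lit 1829643753) (nat_lit 1064) (nat_lit 5232051948) (nat_lit 1140) (nat_lit 16647549) (nat_lit 626) (nat_lit 5) (nat_lit 640) (nat_lit 5) (nat_lit 641) (nat_lit 5) (nat_lit 403) (nat_lit 393) (nat_lit 344))))) (XT.nd (nat_lit 234) (nat_lit 0) (nat_lit 76) (XT.nd (nat_lit 78) (nat_lit 1140) (nat_lit 0) (XT.lf (nat_lit 0) (nat_lit 3797925457) (nat_lit 1064) (nat_lit 1494877082) (nat_lit 1140) (nat_lit 1823823366) (nat_lit 626) (nat_lit 5) (nat_lit 640) (nat_lit 5) (nat_lit 641) (nat_lit 5) (nat_lit 404) (nat_lit 393) (nat_lit 343)) (XT.nd (nat_lit 78) (nat_lit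 1140) (nat_lit 0) (XT.lf (nat_lit 76) (nat_lit 2318424132) (nat_lit 0) (nat_lit 3456179803) (nat_lit 1140) (nat_lit 1381702927) (nat_lit 627) (nat_lit 5) (nat_lit 626) (nat_lit 5) (nat_lit 641) (nat_lit 5) (nat_lit 405) (nat_lit 393) (nat_lit 342)) (XT.lf (nat_lit 0) (nat_lit 550722212) (nat_lit 1140) (nat_lit 1001701055) (nat_lit 1216) (nat_lit 5645004221) (nat_lit 611) (nat_lit 5) (nat_lit 626) (nat_lit 5) (nat_lit 627) (nat_lit 5) (nat_lit 406) (nat_lit 393) (nat_lit 341)))) (XT.nd (nat_lit 78) (nat_lit 0) (nat_lit 0) (XT.lf (nat_lit 0) (nat_lit 2480306823) (nat_lit 1140) (nat_lit 4331170796) (nat_lit 1216) (nat_lit 428182513) (nat_lit 612) (nat_lit 5) (nat_lit 627) (nat_lit 5) (nat_lit 628) (nat_lit 5) (nat_lit 407) (nat_lit 393) (nat_lit 340)) (XT.nd (nat_lit 78) (nat_lit 0) (nat_lit 0) (XT.lf (nat_lit 0) (nat_lit 4421596103) (nat_lit 1140) (nat_lit 412143521) (nat_lit 1216) (nat_lit 2449547807) (nat_lit 612) (nat_lit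 5) (nat_lit 627) (nat_lit 5) (nat_lit 628) (nat_lit 5) (nat_lit 408) (nat_lit 393) (nat_lit 339)) (XT.lf (nat_lit 76) (nat_lit 3603428892) (nat_lit 0) (nat_lit 2778605154) (nat_lit 1216) (nat_lit 946158794) (nat_lit 613) (nat_lit 5) (nat_lit 612) (nat_lit 5) (nat_lit 628) (nat_lit 5) (nat_lit 409) (nat_lit 393) (nat_lit 338)))))) (XT.nd (nat_lit 468) (nat_lit 5700) (nat_lit 0) (XT.nd (nat_lit 234) (nat_lit 1140) (nat_lit 0) (XT.nd (nat_lit 78) (nat_lit 0) (nat_lit 76) (XT.lf (nat_lit 76) (nat_lit 298834078) (nat_lit 0) (nat_lit 657649998) (nat_lit 1292) (nat_lit 6418152672) (nat_lit 597) (nat_lit 5) (nat_lit 596) (nat_lit 5) (nat_lit 613) (nat_lit 5) (nat_lit 410) (nat_lit 393) (nat_lit 337)) (XT.nd (nat_lit 78) (nat_lit 0) (nat_lit 0) (XT.lf (nat_lit 0) (nat_lit 2877480992) (nat_lit 1216) (nat_lit 3014547310) (nat_lit 1292) (nat_lit 1530008073) (nat_lit 597) (nat_lit 5) (nat_lit 613) (nat_lit 5) (nat_lit 614) (nat_lit 5) (nat_lit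 411) (nat_lit 393) (nat_lit 336)) (XT.lf (nat_lit 76) (nat_lit 1108484207) (nat_lit 0) (nat_lit 3698810651) (nat_lit 1292) (nat_lit 2663692302) (nat_lit 598) (nat_lit 5) (nat_lit 597) (nat_lit 5) (nat_lit 614) (nat_lit 5) (nat_lit 412) (nat_lit 393) (nat_lit 335)))) (XT.nd (nat_lit 78) (nat_lit 1216) (nat_lit 0) (XT.lf (nat_lit 76) (nat_lit 5325402659) (nat_lit 0) (nat_lit 1429992083) (nat_lit 1292) (nat_lit 765939311) (nat_lit 598) (nat_lit 5) (nat_lit 597) (nat_lit 5) (nat_lit 614) (nat_lit 5) (nat_lit 413) (nat_lit 393) (nat_lit 334)) (XT.nd (nat_lit 78) (nat_lit 0) (nat_lit 0) (XT.lf (nat_lit 0) (nat_lit 1133626210) (nat_lit 1292) (nat_lit 5535249924) (nat_lit 76) (nat_lit 904086333) (nat_lit 581) (nat_lit 5) (nat_lit 598) (nat_lit 5) (nat_lit 582) (nat_lit 5) (nat_lit 414) (nat_lit 393) (nat_lit 333)) (XT.lf (nat_lit 0) (nat_lit 3045883338) (nat_lit 1292) (nat_lit 1284246514) (nat_lit 76) (nat_lit 3295703476) (nat_lit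 581) (nat_lit 5) (nat_lit 598) (nat_lit 5) (nat_lit 582) (nat_lit 5) (nat_lit 415) (nat_lit 393) (nat_lit 332))))) (XT.nd (nat_lit 234) (nat_lit 2964) (nat_lit 0) (XT.nd (nat_lit 78) (nat_lit 1444) (nat_lit 0) (XT.lf (nat_lit 0) (nat_lit 3062457934) (nat_lit 1292) (nat_lit 1915225934) (nat_lit 1368) (nat_lit 2702461834) (nat_lit 564) (nat_lit 5) (nat_lit 581) (nat_lit 5) (nat_lit 582) (nat_lit 5) (nat_lit 416) (nat_lit 393) (nat_lit 331)) (XT.nd (nat_lit 78) (nat_lit 1444) (nat_lit 0) (XT.lf (nat_lit 0) (nat_lit 6922391105) (nat_lit 1368) (nat_lit 255598746) (nat_lit 76) (nat_lit 558078918) (nat_lit 564) (nat_lit 5) (nat_lit 582) (nat_lit 5) (nat_lit 565) (nat_lit 5) (nat_lit 417) (nat_lit 393) (nat_lit 330)) (XT.lf (nat_lit 0) (nat_lit 1101073847) (nat_lit 1444) (nat_lit 3593614451) (nat_lit 76) (nat_lit 3098231220) (nat_lit 545) (nat_lit 5) (nat_lit 564) (nat_lit 5) (nat_lit 546) (nat_lit 5) (nat_lit 418) (nat_lit 393) (nat_lit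 329)))) (XT.nd (nat_lit 78) (nat_lit 1520) (nat_lit 0) (XT.lf (nat_lit 0) (nat_lit 872104573) (nat_lit 1444) (nat_lit 2141588945) (nat_lit 1520) (nat_lit 4837706123) (nat_lit 526) (nat_lit 5) (nat_lit 545) (nat_lit 5) (nat_lit 546) (nat_lit 5) (nat_lit 419) (nat_lit 393) (nat_lit 328)) (XT.nd (nat_lit 78) (nat_lit 1520) (nat_lit 0) (XT.lf (nat_lit 0) (nat_lit 4955488535) (nat_lit 1520) (nat_lit 2468296436) (nat_lit 76) (nat_lit 487455048) (nat_lit 526) (nat_lit 5) (nat_lit 546) (nat_lit 5) (nat_lit 527) (nat_lit 5) (nat_lit 420) (nat_lit 393) (nat_lit 327)) (XT.lf (nat_lit 0) (nat_lit 2116679795) (nat_lit 1520) (nat_lit 4811722977) (nat_lit 1596) (nat_lit 1044037699) (nat_lit 506) (nat_lit 5) (nat_lit 526) (nat_lit 5) (nat_lit 527) (nat_lit 5) (nat_lit 421) (nat_lit 393) (nat_lit 326))))))) (XT.nd (nat_lit 936) (nat_lit 5624) (nat_lit 0) (XT.nd (nat_lit 468) (nat_lit 4256) (nat_lit 0) (XT.nd (nat_lit 234) (nat_lit 1824) (nat_lit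 0) (XT.nd (nat_lit 78) (nat_lit 3268) (nat_lit 0) (XT.lf (nat_lit 0) (nat_lit 875325368) (nat_lit 1596) (nat_lit 1243814008) (nat_lit 76) (nat_lit 5915990581) (nat_lit 505) (nat_lit 5) (nat_lit 526) (nat_lit 5) (nat_lit 506) (nat_lit 5) (nat_lit 422) (nat_lit 393) (nat_lit 325)) (XT.nd (nat_lit 78) (nat_lit 1672) (nat_lit 0) (XT.lf (nat_lit 0) (nat_lit 2811253005) (nat_lit 1672) (nat_lit 4634040609) (nat_lit 76) (nat_lit 653806876) (nat_lit 484) (nat_lit 5) (nat_lit 506) (nat_lit 5) (nat_lit 485) (nat_lit 5) (nat_lit 423) (nat_lit 393) (nat_lit 324)) (XT.lf (nat_lit 0) (nat_lit 77675179) (nat_lit 1672) (nat_lit 4697002248) (nat_lit 1748) (nat_lit 3389905691) (nat_lit 462) (nat_lit 5) (nat_lit 484) (nat_lit 5) (nat_lit 485) (nat_lit 5) (nat_lit 424) (nat_lit 393) (nat_lit 323)))) (XT.nd (nat_lit 78) (nat_lit 1824) (nat_lit 0) (XT.lf (nat_lit 0) (nat_lit 4916596359) (nat_lit 1672) (nat_lit 1858184860) (nat_lit 1748) (nat_lit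 1456654053) (nat_lit 462) (nat_lit 5) (nat_lit 484) (nat_lit 5) (nat_lit 485) (nat_lit 5) (nat_lit 425) (nat_lit 393) (nat_lit 322)) (XT.nd (nat_lit 78) (nat_lit 0) (nat_lit 0) (XT.lf (nat_lit 0) (nat_lit 492097249) (nat_lit 1824) (nat_lit 6767065417) (nat_lit 76) (nat_lit 1040730823) (nat_lit 438) (nat_lit 5) (nat_lit 462) (nat_lit 5) (nat_lit 439) (nat_lit 5) (nat_lit 426) (nat_lit 393) (nat_lit 321)) (XT.lf (nat_lit 0) (nat_lit 2462264360) (nat_lit 1824) (nat_lit 1899192299) (nat_lit 76) (nat_lit 4008040357) (nat_lit 438) (nat_lit 5) (nat_lit 462) (nat_lit 5) (nat_lit 439) (nat_lit 5) (nat_lit 427) (nat_lit 393) (nat_lit 320))))) (XT.nd (nat_lit 234) (nat_lit 1900) (nat_lit 0) (XT.nd (nat_lit 78) (nat_lit 912) (nat_lit 0) (XT.lf (nat_lit 0) (nat_lit 3076784652) (nat_lit 1444) (nat_lit 1382898905) (nat_lit 1520) (nat_lit 3981059556) (nat_lit 419) (nat_lit 5) (nat_lit 438) (nat_lit 5) (nat_lit 439) (nat_lit 5) (nat_lit 428)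 (nat_lit 393) (nat_lit 319)) (XT.nd (nat_lit 78) (nat_lit 912) (nat_lit 0) (XT.lf (nat_lit 0) (nat_lit 6488952972) (nat_lit 1520) (nat_lit 376032622) (nat_lit 76) (nat_lit 1648597828) (nat_lit 419) (nat_lit 5) (nat_lit 439) (nat_lit 5) (nat_lit 420) (nat_lit 5) (nat_lit 429) (nat_lit 393) (nat_lit 318)) (XT.lf (nat_lit 0) (nat_lit 4735117611) (nat_lit 912) (nat_lit 3832539019) (nat_lit 988) (nat_lit 20054115) (nat_lit 407) (nat_lit 5) (nat_lit 419) (nat_lit 5) (nat_lit 420) (nat_lit 5) (nat_lit 430) (nat_lit 393) (nat_lit 317)))) (XT.nd (nat_lit 78) (nat_lit 912) (nat_lit 0) (XT.lf (nat_lit 0) (nat_lit 1264033462) (nat_lit 912) (nat_lit 713930127) (nat_lit 988) (nat_lit 6685502966) (nat_lit 394) (nat_lit 5) (nat_lit 406) (nat_lit 5) (nat_lit 407) (nat_lit 5) (nat_lit 431) (nat_lit 393) (nat_lit 316)) (XT.nd (nat_lit 78) (nat_lit 912) (nat_lit 0) (XT.lf (nat_lit 0) (nat_lit 4027290457) (nat_lit 988) (nat_lit 2251453308) (nat_lit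 76) (nat_lit 2461765488) (nat_lit 394) (nat_lit 5) (nat_lit 407) (nat_lit 5) (nat_lit 395) (nat_lit 5) (nat_lit 432) (nat_lit 393) (nat_lit 315)) (XT.lf (nat_lit 0) (nat_lit 3004628381) (nat_lit 912) (nat_lit 3107383310) (nat_lit 988) (nat_lit 2707199594) (nat_lit 382) (nat_lit 5) (nat_lit 394) (nat_lit 5) (nat_lit 395) (nat_lit 5) (nat_lit 433) (nat_lit 393) (nat_lit 314)))))) (XT.nd (nat_lit 468) (nat_lit 3040) (nat_lit 0) (XT.nd (nat_lit 234) (nat_lit 836) (nat_lit 0) (XT.nd (nat_lit 78) (nat_lit 1748) (nat_lit 0) (XT.lf (nat_lit 0) (nat_lit 8225029774) (nat_lit 988) (nat_lit 533699078) (nat_lit 76) (nat_lit 141032963) (nat_lit 382) (nat_lit 5) (nat_lit 395) (nat_lit 5) (nat_lit 383) (nat_lit 5) (nat_lit 434) (nat_lit 393) (nat_lit 313)) (XT.nd (nat_lit 78) (nat_lit 836) (nat_lit 0) (XT.lf (nat_lit 0) (nat_lit 1403513343) (nat_lit 912) (nat_lit 4123995962) (nat_lit 76) (nat_lit 3453769348) (nat_lit 370) (nat_lit 5) (nat_lit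 382) (nat_lit 5) (nat_lit 371) (nat_lit 5) (nat_lit 435) (nat_lit 393) (nat_lit 312)) (XT.lf (nat_lit 0) (nat_lit 1281737925) (nat_lit 836) (nat_lit 2215812087) (nat_lit 912) (nat_lit 5567127529) (nat_lit 359) (nat_lit 5) (nat_lit 370) (nat_lit 5) (nat_lit 371) (nat_lit 5) (nat_lit 436) (nat_lit 393) (nat_lit 311)))) (XT.nd (nat_lit 78) (nat_lit 836) (nat_lit 0) (XT.lf (nat_lit 0) (nat_lit 5640560580) (nat_lit 912) (nat_lit 2335346479) (nat_lit 76) (nat_lit 1173701493) (nat_lit 359) (nat_lit 5) (nat_lit 371) (nat_lit 5) (nat_lit 360) (nat_lit 5) (nat_lit 437) (nat_lit 393) (nat_lit 310)) (XT.nd (nat_lit 78) (nat_lit 76) (nat_lit 0) (XT.lf (nat_lit 0) (nat_lit 3219418722) (nat_lit 760) (nat_lit 4614835043) (nat_lit 836) (nat_lit 1401833866) (nat_lit 349) (nat_lit 5) (nat_lit 359) (nat_lit 5) (nat_lit 360) (nat_lit 5) (nat_lit 438) (nat_lit 393) (nat_lit 309)) (XT.lf (nat_lit 0) (nat_lit 725909223) (nat_lit 836) (nat_lit 441512732)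 (nat_lit 76) (nat_lit 8157019158) (nat_lit 348) (nat_lit 5) (nat_lit 359) (nat_lit 5) (nat_lit 349) (nat_lit 5) (nat_lit 439) (nat_lit 393) (nat_lit 308))))) (XT.nd (nat_lit 234) (nat_lit 1520) (nat_lit 0) (XT.nd (nat_lit 78) (nat_lit 760) (nat_lit 0) (XT.lf (nat_lit 0) (nat_lit 2900191636) (nat_lit 836) (nat_lit 4153633549) (nat_lit 76) (nat_lit 2360101611) (nat_lit 338) (nat_lit 5) (nat_lit 349) (nat_lit 5) (nat_lit 339) (nat_lit 5) (nat_lit 440) (nat_lit 393) (nat_lit 307)) (XT.nd (nat_lit 78) (nat_lit 0) (nat_lit 0) (XT.lf (nat_lit 0) (nat_lit 1560426144) (nat_lit 760) (nat_lit 3551663379) (nat_lit 836) (nat_lit 4393235516) (nat_lit 328) (nat_lit 5) (nat_lit 338) (nat_lit 5) (nat_lit 339) (nat_lit 5) (nat_lit 441) (nat_lit 393) (nat_lit 306)) (XT.lf (nat_lit 0) (nat_lit 7370018810) (nat_lit 836) (nat_lit 2182829502) (nat_lit 76) (nat_lit 45672404) (nat_lit 328) (nat_lit 5) (nat_lit 339) (nat_lit 5) (nat_lit 329) (nat_lit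 5) (nat_lit 442) (nat_lit 393) (nat_lit 305)))) (XT.nd (nat_lit 78) (nat_lit 684) (nat_lit 0) (XT.lf (nat_lit 0) (nat_lit 1533951) (nat_lit 836) (nat_lit 6002811874) (nat_lit 76) (nat_lit 3688807490) (nat_lit 317) (nat_lit 5) (nat_lit 328) (nat_lit 5) (nat_lit 318) (nat_lit 5) (nat_lit 443) (nat_lit 393) (nat_lit 304)) (XT.nd (nat_lit 78) (nat_lit 684) (nat_lit 0) (XT.lf (nat_lit 0) (nat_lit 2235369752) (nat_lit 836) (nat_lit 122840667) (nat_lit 76) (nat_lit 7431397792) (nat_lit 317) (nat_lit 5) (nat_lit 328) (nat_lit 5) (nat_lit 318) (nat_lit 5) (nat_lit 444) (nat_lit 393) (nat_lit 303)) (XT.lf (nat_lit 0) (nat_lit 4536182717) (nat_lit 760) (nat_lit 3972971389) (nat_lit 76) (nat_lit 1378397020) (nat_lit 308) (nat_lit 5) (nat_lit 318) (nat_lit 5) (nat_lit 309) (nat_lit 5) (nat_lit 445) (nat_lit 393) (nat_lit 302))))))))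
noncomputable def xc122 : XT := (XT.nd (nat_lit 1794) (nat_lit 6232) (nat_lit 0) (XT.nd (nat_lit 858) (nat_lit 3800) (nat_lit 0) (XT.nd (nat_lit 390) (nat_lit 2584) (nat_lit 0) (XT.nd (nat_lit 156) (nat_lit 1444) (nat_lit 0) (XT.nd (nat_lit 78) (nat_lit 0) (nat_lit 0) (XT.lf (nat_lit 0) (nat_lit 2069612849) (nat_lit 684) (nat_lit 4818341726) (nat_lit 760) (nat_lit 3099404306) (nat_lit 299) (nat_lit 5) (nat_lit 308) (nat_lit 5) (nat_lit 309) (nat_lit 5) (nat_lit 446) (nat_lit 393) (nat_lit 301)) (XT.lf (nat_lit 0) (nat_lit 8258208454) (nat_lit 684) (nat_lit 1030575154) (nat_lit 760) (nat_lit 800343489) (nat_lit 299) (nat_lit 5) (nat_lit 308) (nat_lit 5) (nat_lit 309) (nat_lit 5) (nat_lit 447) (nat_lit 393) (nat_lit 300))) (XT.nd (nat_lit 78) (nat_lit 684) (nat_lit 0) (XT.lf (nat_lit 0) (nat_lit 1547288156) (nat_lit 760) (nat_lit 5814450999) (nat_lit 76) (nat_lit 2830538521) (nat_lit 289) (nat_lit 5) (nat_lit 299) (nat_lit 5)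 (nat_lit 290) (nat_lit 5) (nat_lit 448) (nat_lit 393) (nat_lit 299)) (XT.nd (nat_lit 78) (nat_lit 0) (nat_lit 0) (XT.lf (nat_lit 0) (nat_lit 402663994) (nat_lit 684) (nat_lit 3526254322) (nat_lit 760) (nat_lit 6368516361) (nat_lit 280) (nat_lit 5) (nat_lit 289) (nat_lit 5) (nat_lit 290) (nat_lit 5) (nat_lit 449) (nat_lit 393) (nat_lit 298)) (XT.lf (nat_lit 0) (nat_lit 6376163952) (nat_lit 760) (nat_lit 3612730986) (nat_lit 76) (nat_lit 415444601) (nat_lit 280) (nat_lit 5) (nat_lit 290) (nat_lit 5) (nat_lit 281) (nat_lit 5) (nat_lit 450) (nat_lit 393) (nat_lit 297))))) (XT.nd (nat_lit 234) (nat_lit 1292) (nat_lit 0) (XT.nd (nat_lit 78) (nat_lit 684) (nat_lit 0) (XT.lf (nat_lit 0) (nat_lit 2779630562) (nat_lit 608) (nat_lit 6110791145) (nat_lit 684) (nat_lit 1622603741) (nat_lit 272) (nat_lit 5) (nat_lit 280) (nat_lit 5) (nat_lit 281) (nat_lit 5) (nat_lit 451) (nat_lit 393) (nat_lit 296)) (XT.nd (nat_lit 78) (nat_lit 608) (nat_lit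 0) (XT.lf (nat_lit 0) (nat_lit 821368310) (nat_lit 684) (nat_lit 1308693100) (nat_lit 76) (nat_lit 8493696101) (nat_lit 271) (nat_lit 5) (nat_lit 280) (nat_lit 5) (nat_lit 272) (nat_lit 5) (nat_lit 452) (nat_lit 393) (nat_lit 295)) (XT.lf (nat_lit 0) (nat_lit 3316798497) (nat_lit 684) (nat_lit 5474108887) (nat_lit 76) (nat_lit 1945100263) (nat_lit 263) (nat_lit 5) (nat_lit 272) (nat_lit 5) (nat_lit 264) (nat_lit 5) (nat_lit 453) (nat_lit 393) (nat_lit 294)))) (XT.nd (nat_lit 78) (nat_lit 684) (nat_lit 0) (XT.lf (nat_lit 0) (nat_lit 1103398957) (nat_lit 608) (nat_lit 4766320016) (nat_lit 684) (nat_lit 4980636144) (nat_lit 255) (nat_lit 5) (nat_lit 263) (nat_lit 5) (nat_lit 264) (nat_lit 5) (nat_lit 454) (nat_lit 393) (nat_lit 293)) (XT.nd (nat_lit 78) (nat_lit 684) (nat_lit 0) (XT.lf (nat_lit 0) (nat_lit 7858622835) (nat_lit 608) (nat_lit 629540023) (nat_lit 684) (nat_lit 2478541266) (nat_lit 255) (nat_lit 5) (nat_lit 263) (nat_lit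 5) (nat_lit 264) (nat_lit 5) (nat_lit 455) (nat_lit 393) (nat_lit 292)) (XT.lf (nat_lit 0) (nat_lit 97998336) (nat_lit 684) (nat_lit 7425146571) (nat_lit 76) (nat_lit 3561722024) (nat_lit 246) (nat_lit 5) (nat_lit 255) (nat_lit 5) (nat_lit 247) (nat_lit 5) (nat_lit 456) (nat_lit 393) (nat_lit 291)))))) (XT.nd (nat_lit 468) (nat_lit 1520) (nat_lit 0) (XT.nd (nat_lit 234) (nat_lit 1140) (nat_lit 0) (XT.nd (nat_lit 78) (nat_lit 1140) (nat_lit 0) (XT.lf (nat_lit 0) (nat_lit 2696309039) (nat_lit 684) (nat_lit 648688951) (nat_lit 76) (nat_lit 7860002447) (nat_lit 246) (nat_lit 5) (nat_lit 255) (nat_lit 5) (nat_lit 247) (nat_lit 5) (nat_lit 457) (nat_lit 393) (nat_lit 290)) (XT.nd (nat_lit 78) (nat_lit 608) (nat_lit 0) (XT.lf (nat_lit 0) (nat_lit 5372454809) (nat_lit 608) (nat_lit 5014613006) (nat_lit 76) (nat_lit 939955012) (nat_lit 239) (nat_lit 5) (nat_lit 247) (nat_lit 5) (nat_lit 240) (nat_lit 5) (nat_lit 458) (nat_lit 393) (nat_lit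 289)) (XT.lf (nat_lit 0) (nat_lit 1945807244) (nat_lit 608) (nat_lit 6174344837) (nat_lit 684) (nat_lit 3330976533) (nat_lit 231) (nat_lit 5) (nat_lit 239) (nat_lit 5) (nat_lit 240) (nat_lit 5) (nat_lit 459) (nat_lit 393) (nat_lit 288)))) (XT.nd (nat_lit 78) (nat_lit 1140) (nat_lit 0) (XT.lf (nat_lit 0) (nat_lit 9085935898) (nat_lit 608) (nat_lit 1849615142) (nat_lit 684) (nat_lit 641913974) (nat_lit 231) (nat_lit 5) (nat_lit 239) (nat_lit 5) (nat_lit 240) (nat_lit 5) (nat_lit 460) (nat_lit 393) (nat_lit 287)) (XT.nd (nat_lit 78) (nat_lit 532) (nat_lit 0) (XT.lf (nat_lit 0) (nat_lit 2100030075) (nat_lit 608) (nat_lit 7039638892) (nat_lit 76) (nat_lit 2565856596) (nat_lit 223) (nat_lit 5) (nat_lit 231) (nat_lit 5) (nat_lit 224) (nat_lit 5) (nat_lit 461) (nat_lit 393) (nat_lit 286)) (XT.lf (nat_lit 0) (nat_lit 121997856) (nat_lit 532) (nat_lit 4775653180) (nat_lit 608) (nat_lit 6938226014) (nat_lit 216) (nat_lit 5) (nat_lit 223)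 (nat_lit 5) (nat_lit 224) (nat_lit 5) (nat_lit 462) (nat_lit 393) (nat_lit 285))))) (XT.nd (nat_lit 234) (nat_lit 988) (nat_lit 0) (XT.nd (nat_lit 78) (nat_lit 532) (nat_lit 0) (XT.lf (nat_lit 0) (nat_lit 7495069354) (nat_lit 532) (nat_lit 283172734) (nat_lit 608) (nat_lit 4190056314) (nat_lit 216) (nat_lit 5) (nat_lit 223) (nat_lit 5) (nat_lit 224) (nat_lit 5) (nat_lit 463) (nat_lit 393) (nat_lit 284)) (XT.nd (nat_lit 78) (nat_lit 76) (nat_lit 0) (XT.lf (nat_lit 0) (nat_lit 2895249379) (nat_lit 456) (nat_lit 7848036386) (nat_lit 532) (nat_lit 1359548728) (nat_lit 210) (nat_lit 5) (nat_lit 216) (nat_lit 5) (nat_lit 217) (nat_lit 5) (nat_lit 464) (nat_lit 393) (nat_lit 283)) (XT.lf (nat_lit 0) (nat_lit 1519838427) (nat_lit 532) (nat_lit 1806851397) (nat_lit 76) (nat_lit 8912930052) (nat_lit 209) (nat_lit 5) (nat_lit 216) (nat_lit 5) (nat_lit 210) (nat_lit 5) (nat_lit 465) (nat_lit 393) (nat_lit 282)))) (XT.nd (nat_lit 78) (nat_lit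 456) (nat_lit 0) (XT.lf (nat_lit 0) (nat_lit 4465372444) (nat_lit 608) (nat_lit 6605078655) (nat_lit 76) (nat_lit 1307977813) (nat_lit 202) (nat_lit 5) (nat_lit 210) (nat_lit 5) (nat_lit 203) (nat_lit 5) (nat_lit 466) (nat_lit 393) (nat_lit 281)) (XT.nd (nat_lit 78) (nat_lit 0) (nat_lit 0) (XT.lf (nat_lit 0) (nat_lit 973772222) (nat_lit 456) (nat_lit 6517365371) (nat_lit 532) (nat_lit 5028453016) (nat_lit 196) (nat_lit 5) (nat_lit 202) (nat_lit 5) (nat_lit 203) (nat_lit 5) (nat_lit 467) (nat_lit 393) (nat_lit 280)) (XT.lf (nat_lit 0) (nat_lit 8767145498) (nat_lit 456) (nat_lit 1835562490) (nat_lit 532) (nat_lit 2060364584) (nat_lit 196) (nat_lit 5) (nat_lit 202) (nat_lit 5) (nat_lit 203) (nat_lit 5) (nat_lit 468) (nat_lit 393) (nat_lit 279))))))) (XT.nd (nat_lit 936) (nat_lit 2660) (nat_lit 0) (XT.nd (nat_lit 468) (nat_lit 1672) (nat_lit 0) (XT.nd (nat_lit 234) (nat_lit 912) (nat_lit 0) (XT.nd (nat_lit 78) (nat_lit 456) (nat_lit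 0) (XT.lf (nat_lit 0) (nat_lit 980353735) (nat_lit 532) (nat_lit 8902564267) (nat_lit 76) (nat_lit 2925864284) (nat_lit 189) (nat_lit 5) (nat_lit 196) (nat_lit 5) (nat_lit 190) (nat_lit 5) (nat_lit 469) (nat_lit 393) (nat_lit 278)) (XT.nd (nat_lit 78) (nat_lit 456) (nat_lit 0) (XT.lf (nat_lit 0) (nat_lit 4074159645) (nat_lit 532) (nat_lit 1092112422) (nat_lit 76) (nat_lit 7790467185) (nat_lit 189) (nat_lit 5) (nat_lit 196) (nat_lit 5) (nat_lit 190) (nat_lit 5) (nat_lit 470) (nat_lit 393) (nat_lit 277)) (XT.lf (nat_lit 0) (nat_lit 6939610287) (nat_lit 456) (nat_lit 317016189) (nat_lit 532) (nat_lit 5850495802) (nat_lit 183) (nat_lit 5) (nat_lit 189) (nat_lit 5) (nat_lit 190) (nat_lit 5) (nat_lit 471) (nat_lit 393) (nat_lit 276)))) (XT.nd (nat_lit 78) (nat_lit 456) (nat_lit 0) (XT.lf (nat_lit 0) (nat_lit 1854526999) (nat_lit 456) (nat_lit 8679558777) (nat_lit 532) (nat_lit 2725802892) (nat_lit 177) (nat_lit 5) (nat_lit 183) (nat_lit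 5) (nat_lit 184) (nat_lit 5) (nat_lit 472) (nat_lit 393) (nat_lit 275)) (XT.nd (nat_lit 78) (nat_lit 380) (nat_lit 0) (XT.lf (nat_lit 0) (nat_lit 481028533) (nat_lit 532) (nat_lit 3325809474) (nat_lit 76) (nat_lit 9608301016) (nat_lit 176) (nat_lit 5) (nat_lit 183) (nat_lit 5) (nat_lit 177) (nat_lit 5) (nat_lit 473) (nat_lit 393) (nat_lit 274)) (XT.lf (nat_lit 0) (nat_lit 3737704999) (nat_lit 456) (nat_lit 8644312537) (nat_lit 76) (nat_lit 1190674776) (nat_lit 171) (nat_lit 5) (nat_lit 177) (nat_lit 5) (nat_lit 172) (nat_lit 5) (nat_lit 474) (nat_lit 393) (nat_lit 273))))) (XT.nd (nat_lit 234) (nat_lit 760) (nat_lit 0) (XT.nd (nat_lit 78) (nat_lit 912) (nat_lit 0) (XT.lf (nat_lit 0) (nat_lit 7089610948) (nat_lit 456) (nat_lit 391360082) (nat_lit 76) (nat_lit 6251826090) (nat_lit 171) (nat_lit 5) (nat_lit 177) (nat_lit 5) (nat_lit 172) (nat_lit 5) (nat_lit 475) (nat_lit 393) (nat_lit 272)) (XT.nd (nat_lit 78) (nat_lit 456) (nat_lit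 0) (XT.lf (nat_lit 0) (nat_lit 8107704883) (nat_lit 456) (nat_lit 2436254820) (nat_lit 532) (nat_lit 3351438549) (nat_lit 165) (nat_lit 5) (nat_lit 171) (nat_lit 5) (nat_lit 172) (nat_lit 5) (nat_lit 476) (nat_lit 393) (nat_lit 271)) (XT.lf (nat_lit 0) (nat_lit 26937195) (nat_lit 456) (nat_lit 11347585512) (nat_lit 76) (nat_lit 2686312661) (nat_lit 159) (nat_lit 5) (nat_lit 165) (nat_lit 5) (nat_lit 160) (nat_lit 5) (nat_lit 477) (nat_lit 393) (nat_lit 270)))) (XT.nd (nat_lit 78) (nat_lit 760) (nat_lit 0) (XT.lf (nat_lit 0) (nat_lit 3466220451) (nat_lit 456) (nat_lit 2830192259) (nat_lit 76) (nat_lit 7931963330) (nat_lit 159) (nat_lit 5) (nat_lit 165) (nat_lit 5) (nat_lit 160) (nat_lit 5) (nat_lit 478) (nat_lit 393) (nat_lit 269)) (XT.nd (nat_lit 78) (nat_lit 380) (nat_lit 0) (XT.lf (nat_lit 0) (nat_lit 5910092995) (nat_lit 380) (nat_lit 1085847047) (nat_lit 456) (nat_lit 7402896617) (nat_lit 154) (nat_lit 5) (nat_lit 159)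 (nat_lit 5) (nat_lit 160) (nat_lit 5) (nat_lit 479) (nat_lit 393) (nat_lit 268)) (XT.lf (nat_lit 0) (nat_lit 241725611) (nat_lit 380) (nat_lit 10386064434) (nat_lit 456) (nat_lit 3944287829) (nat_lit 149) (nat_lit 5) (nat_lit 154) (nat_lit 5) (nat_lit 155) (nat_lit 5) (nat_lit 480) (nat_lit 393) (nat_lit 267)))))) (XT.nd (nat_lit 468) (nat_lit 1368) (nat_lit 0) (XT.nd (nat_lit 234) (nat_lit 836) (nat_lit 0) (XT.nd (nat_lit 78) (nat_lit 456) (nat_lit 0) (XT.lf (nat_lit 0) (nat_lit 9229666665) (nat_lit 380) (nat_lit 5150273622) (nat_lit 456) (nat_lit 367892424) (nat_lit 149) (nat_lit 5) (nat_lit 154) (nat_lit 5) (nat_lit 155) (nat_lit 5) (nat_lit 481) (nat_lit 393) (nat_lit 266)) (XT.nd (nat_lit 78) (nat_lit 0) (nat_lit 0) (XT.lf (nat_lit 0) (nat_lit 3244781065) (nat_lit 456) (nat_lit 11458195527) (nat_lit 76) (nat_lit 223546747) (nat_lit 143) (nat_lit 5) (nat_lit 149) (nat_lit 5) (nat_lit 144) (nat_lit 5) (nat_lit 482) (nat_lit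 393) (nat_lit 265)) (XT.lf (nat_lit 0) (nat_lit 6980043248) (nat_lit 456) (nat_lit 2460238657) (nat_lit 76) (nat_lit 5667353956) (nat_lit 143) (nat_lit 5) (nat_lit 149) (nat_lit 5) (nat_lit 144) (nat_lit 5) (nat_lit 483) (nat_lit 393) (nat_lit 264)))) (XT.nd (nat_lit 78) (nat_lit 456) (nat_lit 0) (XT.lf (nat_lit 0) (nat_lit 6782360759) (nat_lit 380) (nat_lit 4035875594) (nat_lit 456) (nat_lit 4473571674) (nat_lit 138) (nat_lit 5) (nat_lit 143) (nat_lit 5) (nat_lit 144) (nat_lit 5) (nat_lit 484) (nat_lit 393) (nat_lit 263)) (XT.nd (nat_lit 78) (nat_lit 76) (nat_lit 0) (XT.lf (nat_lit 0) (nat_lit 739460607) (nat_lit 380) (nat_lit 14009028486) (nat_lit 456) (nat_lit 730870496) (nat_lit 133) (nat_lit 5) (nat_lit 138) (nat_lit 5) (nat_lit 139) (nat_lit 5) (nat_lit 485) (nat_lit 393) (nat_lit 262)) (XT.lf (nat_lit 0) (nat_lit 3114745680) (nat_lit 456) (nat_lit 5452390896) (nat_lit 76) (nat_lit 7101755719) (nat_lit 132) (nat_lit 5)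 (nat_lit 138) (nat_lit 5) (nat_lit 133) (nat_lit 5) (nat_lit 486) (nat_lit 393) (nat_lit 261))))) (XT.nd (nat_lit 234) (nat_lit 684) (nat_lit 0) (XT.nd (nat_lit 78) (nat_lit 380) (nat_lit 0) (XT.lf (nat_lit 0) (nat_lit 4045140099) (nat_lit 304) (nat_lit 2993262481) (nat_lit 380) (nat_lit 8823499919) (nat_lit 128) (nat_lit 5) (nat_lit 132) (nat_lit 5) (nat_lit 133) (nat_lit 5) (nat_lit 487) (nat_lit 393) (nat_lit 260)) (XT.nd (nat_lit 78) (nat_lit 380) (nat_lit 0) (XT.lf (nat_lit 0) (nat_lit 11079575124) (nat_lit 380) (nat_lit 2293264565) (nat_lit 76) (nat_lit 2685154095) (nat_lit 128) (nat_lit 5) (nat_lit 133) (nat_lit 5) (nat_lit 129) (nat_lit 5) (nat_lit 488) (nat_lit 393) (nat_lit 259)) (XT.lf (nat_lit 0) (nat_lit 7475359611) (nat_lit 380) (nat_lit 7779601741) (nat_lit 456) (nat_lit 1001979430) (nat_lit 123) (nat_lit 5) (nat_lit 128) (nat_lit 5) (nat_lit 129) (nat_lit 5) (nat_lit 489) (nat_lit 393) (nat_lit 258)))) (XT.nd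 (nat_lit 78) (nat_lit 304) (nat_lit 0) (XT.lf (nat_lit 0) (nat_lit 980201879) (nat_lit 304) (nat_lit 2040662143) (nat_lit 380) (nat_lit 13438469173) (nat_lit 118) (nat_lit 5) (nat_lit 122) (nat_lit 5) (nat_lit 123) (nat_lit 5) (nat_lit 490) (nat_lit 393) (nat_lit 257)) (XT.nd (nat_lit 78) (nat_lit 304) (nat_lit 0) (XT.lf (nat_lit 0) (nat_lit 7179994708) (nat_lit 380) (nat_lit 5663812504) (nat_lit 76) (nat_lit 3820450440) (nat_lit 118) (nat_lit 5) (nat_lit 123) (nat_lit 5) (nat_lit 119) (nat_lit 5) (nat_lit 491) (nat_lit 393) (nat_lit 256)) (XT.lf (nat_lit 0) (nat_lit 4368362691) (nat_lit 304) (nat_lit 7081271106) (nat_lit 380) (nat_lit 5423101850) (nat_lit 114) (nat_lit 5) (nat_lit 118) (nat_lit 5) (nat_lit 119) (nat_lit 5) (nat_lit 492) (nat_lit 393) (nat_lit 255))))))))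
noncomputable def xc123 : XT := (XT.nd (nat_lit 52182) (nat_lit 0) (nat_lit 30932) (XT.nd (nat_lit 858) (nat_lit 836) (nat_lit 0) (XT.nd (nat_lit 390) (nat_lit 988) (nat_lit 0) (XT.nd (nat_lit 156) (nat_lit 608) (nat_lit 0) (XT.nd (nat_lit 78) (nat_lit 380) (nat_lit 0) (XT.lf (nat_lit 0) (nat_lit 14654881137) (nat_lit 304) (nat_lit 1173376351) (nat_lit 380) (nat_lit 1256655410) (nat_lit 114) (nat_lit 5) (nat_lit 118) (nat_lit 5) (nat_lit 119) (nat_lit 5) (nat_lit 493) (nat_lit 393) (nat_lit 254)) (XT.lf (nat_lit 0) (nat_lit 3022895775) (nat_lit 380) (nat_lit 9424868842) (nat_lit 76) (nat_lit 4851801262) (nat_lit 109) (nat_lit 5) (nat_lit 114) (nat_lit 5) (nat_lit 110) (nat_lit 5) (nat_lit 494) (nat_lit 393) (nat_lit 253))) (XT.nd (nat_lit 78) (nat_lit 304) (nat_lit 0) (XT.lf (nat_lit 0) (nat_lit 872627611) (nat_lit 304) (nat_lit 6514299098) (nat_lit 380) (nat_lit 10131106218) (nat_lit 105) (nat_lit 5) (nat_lit 109) (nat_lit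 5) (nat_lit 110) (nat_lit 5) (nat_lit 495) (nat_lit 393) (nat_lit 252)) (XT.nd (nat_lit 78) (nat_lit 304) (nat_lit 0) (XT.lf (nat_lit 0) (nat_lit 11481090679) (nat_lit 304) (nat_lit 406371699) (nat_lit 380) (nat_lit 5852423872) (nat_lit 105) (nat_lit 5) (nat_lit 109) (nat_lit 5) (nat_lit 110) (nat_lit 5) (nat_lit 496) (nat_lit 393) (nat_lit 251)) (XT.lf (nat_lit 0) (nat_lit 4332035534) (nat_lit 304) (nat_lit 12198108818) (nat_lit 380) (nat_lit 1434990964) (nat_lit 101) (nat_lit 5) (nat_lit 105) (nat_lit 5) (nat_lit 106) (nat_lit 5) (nat_lit 497) (nat_lit 393) (nat_lit 250))))) (XT.nd (nat_lit 234) (nat_lit 380) (nat_lit 0) (XT.nd (nat_lit 78) (nat_lit 532) (nat_lit 0) (XT.lf (nat_lit 0) (nat_lit 3061717010) (nat_lit 380) (nat_lit 3019984474) (nat_lit 76) (nat_lit 12112166454) (nat_lit 100) (nat_lit 5) (nat_lit 105) (nat_lit 5) (nat_lit 101) (nat_lit 5) (nat_lit 498) (nat_lit 393) (nat_lit 249)) (XT.nd (nat_lit 78) (nat_lit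 228) (nat_lit 0) (XT.lf (nat_lit 0) (nat_lit 7668172371) (nat_lit 380) (nat_lit 10550508376) (nat_lit 76) (nat_lit 207525514) (nat_lit 96) (nat_lit 5) (nat_lit 101) (nat_lit 5) (nat_lit 97) (nat_lit 5) (nat_lit 499) (nat_lit 393) (nat_lit 248)) (XT.lf (nat_lit 0) (nat_lit 308909090) (nat_lit 228) (nat_lit 12107096983) (nat_lit 304) (nat_lit 6246201575) (nat_lit 93) (nat_lit 5) (nat_lit 96) (nat_lit 5) (nat_lit 97) (nat_lit 5) (nat_lit 500) (nat_lit 393) (nat_lit 247)))) (XT.nd (nat_lit 78) (nat_lit 380) (nat_lit 0) (XT.lf (nat_lit 0) (nat_lit 11506499252) (nat_lit 228) (nat_lit 5809784534) (nat_lit 304) (nat_lit 1585496786) (nat_lit 93) (nat_lit 5) (nat_lit 96) (nat_lit 5) (nat_lit 97) (nat_lit 5) (nat_lit 501) (nat_lit 393) (nat_lit 246)) (XT.nd (nat_lit 78) (nat_lit 0) (nat_lit 0) (XT.lf (nat_lit 0) (nat_lit 3142557401) (nat_lit 380) (nat_lit 15360484639) (nat_lit 76) (nat_lit 642378900) (nat_lit 88) (nat_lit 5) (nat_lit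 93) (nat_lit 5) (nat_lit 89) (nat_lit 5) (nat_lit 502) (nat_lit 393) (nat_lit 245)) (XT.lf (nat_lit 0) (nat_lit 8019315517) (nat_lit 380) (nat_lit 4175079233) (nat_lit 76) (nat_lit 7197823495) (nat_lit 88) (nat_lit 5) (nat_lit 93) (nat_lit 5) (nat_lit 89) (nat_lit 5) (nat_lit 503) (nat_lit 393) (nat_lit 244)))))) (XT.nd (nat_lit 50856) (nat_lit 0) (nat_lit 42636) (XT.nd (nat_lit 234) (nat_lit 228) (nat_lit 0) (XT.nd (nat_lit 78) (nat_lit 380) (nat_lit 0) (XT.lf (nat_lit 0) (nat_lit 7308477572) (nat_lit 228) (nat_lit 5719761654) (nat_lit 304) (nat_lit 6615020822) (nat_lit 85) (nat_lit 5) (nat_lit 88) (nat_lit 5) (nat_lit 89) (nat_lit 5) (nat_lit 504) (nat_lit 393) (nat_lit 243)) (XT.nd (nat_lit 78) (nat_lit 380) (nat_lit 0) (XT.lf (nat_lit 0) (nat_lit 18158522490) (nat_lit 304) (nat_lit 847857534) (nat_lit 76) (nat_lit 892520182) (nat_lit 85) (nat_lit 5) (nat_lit 89) (nat_lit 5) (nat_lit 86) (nat_lit 5) (nat_lit 505) (nat_lit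 393) (nat_lit 242)) (XT.lf (nat_lit 0) (nat_lit 3286494810) (nat_lit 380) (nat_lit 9225808620) (nat_lit 76) (nat_lit 7644988744) (nat_lit 80) (nat_lit 5) (nat_lit 85) (nat_lit 5) (nat_lit 81) (nat_lit 5) (nat_lit 506) (nat_lit 393) (nat_lit 241)))) (XT.nd (nat_lit 78) (nat_lit 0) (nat_lit 0) (XT.lf (nat_lit 0) (nat_lit 2537811509) (nat_lit 228) (nat_lit 5862529131) (nat_lit 304) (nat_lit 12020087547) (nat_lit 77) (nat_lit 5) (nat_lit 80) (nat_lit 5) (nat_lit 81) (nat_lit 5) (nat_lit 507) (nat_lit 393) (nat_lit 240)) (XT.nd (nat_lit 50466) (nat_lit 0) (nat_lit 44536) (XT.lf (nat_lit 0) (nat_lit 13672324887) (nat_lit 304) (nat_lit 6053340805) (nat_lit 76) (nat_lit 962045050) (nat_lit 77) (nat_lit 5) (nat_lit 81) (nat_lit 5) (nat_lit 78) (nat_lit 5) (nat_lit 508) (nat_lit 393) (nat_lit 239)) (XT.lf (nat_lit 0) (nat_lit 1609893196) (nat_lit 0) (nat_lit 1609893196) (nat_lit 836) (nat_lit 188793220) (nat_lit 663) (nat_lit 5) (nat_lit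 663) (nat_lit 3) (nat_lit 674) (nat_lit 3) (nat_lit 394) (nat_lit 394) (nat_lit 352))))) (XT.nd (nat_lit 234) (nat_lit 912) (nat_lit 0) (XT.nd (nat_lit 78) (nat_lit 0) (nat_lit 0) (XT.lf (nat_lit 0) (nat_lit 1631470900) (nat_lit 988) (nat_lit 263541200) (nat_lit 988) (nat_lit 4949594799) (nat_lit 650) (nat_lit 3) (nat_lit 663) (nat_lit 3) (nat_lit 663) (nat_lit 5) (nat_lit 395) (nat_lit 394) (nat_lit 351)) (XT.nd (nat_lit 78) (nat_lit 0) (nat_lit 76) (XT.lf (nat_lit 76) (nat_lit 3148897019) (nat_lit 0) (nat_lit 494539796) (nat_lit 988) (nat_lit 3229777309) (nat_lit 651) (nat_lit 5) (nat_lit 650) (nat_lit 3) (nat_lit 663) (nat_lit 5) (nat_lit 396) (nat_lit 394) (nat_lit 350)) (XT.lf (nat_lit 0) (nat_lit 5651842328) (nat_lit 912) (nat_lit 303183358) (nat_lit 988) (nat_lit 948259662) (nat_lit 651) (nat_lit 5) (nat_lit 663) (nat_lit 5) (nat_lit 664) (nat_lit 5) (nat_lit 397) (nat_lit 394) (nat_lit 349)))) (XT.nd (nat_lit 78) (nat_lit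 0) (nat_lit 0) (XT.lf (nat_lit 0) (nat_lit 729619706) (nat_lit 988) (nat_lit 3741628442) (nat_lit 1064) (nat_lit 2463161289) (nat_lit 638) (nat_lit 5) (nat_lit 651) (nat_lit 5) (nat_lit 652) (nat_lit 5) (nat_lit 398) (nat_lit 394) (nat_lit 348)) (XT.nd (nat_lit 78) (nat_lit 0) (nat_lit 0) (XT.lf (nat_lit 0) (nat_lit 2685450800) (nat_lit 988) (nat_lit 239502623) (nat_lit 1064) (nat_lit 4042014012) (nat_lit 638) (nat_lit 5) (nat_lit 651) (nat_lit 5) (nat_lit 652) (nat_lit 5) (nat_lit 399) (nat_lit 394) (nat_lit 347)) (XT.lf (nat_lit 76) (nat_lit 3349277880) (nat_lit 0) (nat_lit 1303690169) (nat_lit 1064) (nat_lit 2347771808) (nat_lit 639) (nat_lit 5) (nat_lit 638) (nat_lit 5) (nat_lit 652) (nat_lit 5) (nat_lit 400) (nat_lit 394) (nat_lit 346))))))) (XT.nd (nat_lit 936) (nat_lit 8512) (nat_lit 0) (XT.nd (nat_lit 468) (nat_lit 1140) (nat_lit 0) (XT.nd (nat_lit 234) (nat_lit 1064) (nat_lit 0) (XT.nd (nat_lit 78) (nat_lit 1064) (nat_lit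 0) (XT.lf (nat_lit 0) (nat_lit 6615475753) (nat_lit 988) (nat_lit 52612770) (nat_lit 1064) (nat_lit 368000768) (nat_lit 639) (nat_lit 5) (nat_lit 652) (nat_lit 5) (nat_lit 653) (nat_lit 5) (nat_lit 401) (nat_lit 394) (nat_lit 345)) (XT.nd (nat_lit 78) (nat_lit 0) (nat_lit 0) (XT.lf (nat_lit 0) (nat_lit 1509604497) (nat_lit 1064) (nat_lit 3452913140) (nat_lit 1140) (nat_lit 2109745637) (nat_lit 625) (nat_lit 5) (nat_lit 639) (nat_lit 5) (nat_lit 640) (nat_lit 5) (nat_lit 402) (nat_lit 394) (nat_lit 344)) (XT.lf (nat_lit 76) (nat_lit 228364086) (nat_lit 0) (nat_lit 3199397005) (nat_lit 1140) (nat_lit 3682258253) (nat_lit 626) (nat_lit 5) (nat_lit 625) (nat_lit 5) (nat_lit 640) (nat_lit 5) (nat_lit 403) (nat_lit 394) (nat_lit 343)))) (XT.nd (nat_lit 78) (nat_lit 1064) (nat_lit 0) (XT.lf (nat_lit 76) (nat_lit 4002102340) (nat_lit 0) (nat_lit 1359209766) (nat_lit 1140) (nat_lit 1787691078) (nat_lit 626) (nat_lit 5) (nat_lit 625)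 (nat_lit 5) (nat_lit 640) (nat_lit 5) (nat_lit 404) (nat_lit 394) (nat_lit 342)) (XT.nd (nat_lit 78) (nat_lit 0) (nat_lit 0) (XT.lf (nat_lit 0) (nat_lit 104999001) (nat_lit 1140) (nat_lit 6551108280) (nat_lit 1216) (nat_lit 533410773) (nat_lit 611) (nat_lit 5) (nat_lit 626) (nat_lit 5) (nat_lit 627) (nat_lit 5) (nat_lit 405) (nat_lit 394) (nat_lit 341)) (XT.lf (nat_lit 0) (nat_lit 1997161862) (nat_lit 1140) (nat_lit 2738191734) (nat_lit 1216) (nat_lit 2495554674) (nat_lit 611) (nat_lit 5) (nat_lit 626) (nat_lit 5) (nat_lit 627) (nat_lit 5) (nat_lit 406) (nat_lit 394) (nat_lit 340))))) (XT.nd (nat_lit 234) (nat_lit 0) (nat_lit 0) (XT.nd (nat_lit 78) (nat_lit 1140) (nat_lit 0) (XT.lf (nat_lit 76) (nat_lit 1137594782) (nat_lit 0) (nat_lit 2753111365) (nat_lit 1216) (nat_lit 3383161645) (nat_lit 612) (nat_lit 5) (nat_lit 611) (nat_lit 5) (nat_lit 627) (nat_lit 5) (nat_lit 407) (nat_lit 394) (nat_lit 339)) (XT.nd (nat_lit 78) (nat_lit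 1140) (nat_lit 0) (XT.lf (nat_lit 76) (nat_lit 5099892057) (nat_lit 0) (nat_lit 697433290) (nat_lit 1216) (nat_lit 1520869097) (nat_lit 612) (nat_lit 5) (nat_lit 611) (nat_lit 5) (nat_lit 627) (nat_lit 5) (nat_lit 408) (nat_lit 394) (nat_lit 338)) (XT.lf (nat_lit 0) (nat_lit 351854969) (nat_lit 1216) (nat_lit 5602621321) (nat_lit 1292) (nat_lit 1409330684) (nat_lit 596) (nat_lit 5) (nat_lit 612) (nat_lit 5) (nat_lit 613) (nat_lit 5) (nat_lit 409) (nat_lit 394) (nat_lit 337)))) (XT.nd (nat_lit 78) (nat_lit 0) (nat_lit 0) (XT.lf (nat_lit 0) (nat_lit 2219420265) (nat_lit 1216) (nat_lit 1603394877) (nat_lit 1292) (nat_lit 3587771856) (nat_lit 596) (nat_lit 5) (nat_lit 612) (nat_lit 5) (nat_lit 613) (nat_lit 5) (nat_lit 410) (nat_lit 394) (nat_lit 336)) (XT.nd (nat_lit 78) (nat_lit 0) (nat_lit 76) (XT.lf (nat_lit 76) (nat_lit 2480003905) (nat_lit 0) (nat_lit 1619384623) (nat_lit 1292) (nat_lit 3359424168) (nat_lit 597) (nat_lit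 5) (nat_lit 596) (nat_lit 5) (nat_lit 613) (nat_lit 5) (nat_lit 411) (nat_lit 394) (nat_lit 335)) (XT.lf (nat_lit 0) (nat_lit 5991516837) (nat_lit 1216) (nat_lit 874182614) (nat_lit 1292) (nat_lit 642823130) (nat_lit 597) (nat_lit 5) (nat_lit 613) (nat_lit 5) (nat_lit 614) (nat_lit 5) (nat_lit 412) (nat_lit 394) (nat_lit 334)))))) (XT.nd (nat_lit 468) (nat_lit 4636) (nat_lit 0) (XT.nd (nat_lit 234) (nat_lit 2660) (nat_lit 0) (XT.nd (nat_lit 78) (nat_lit 0) (nat_lit 0) (XT.lf (nat_lit 0) (nat_lit 350153343) (nat_lit 1292) (nat_lit 4244855400) (nat_lit 1368) (nat_lit 2964328478) (nat_lit 580) (nat_lit 5) (nat_lit 597) (nat_lit 5) (nat_lit 598) (nat_lit 5) (nat_lit 413) (nat_lit 394) (nat_lit 333)) (XT.nd (nat_lit 78) (nat_lit 0) (nat_lit 76) (XT.lf (nat_lit 0) (nat_lit 2201033333) (nat_lit 1292) (nat_lit 51192022) (nat_lit 1368) (nat_lit 5359418702) (nat_lit 580) (nat_lit 5) (nat_lit 597) (nat_lit 5) (nat_lit 598) (nat_lit 5)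 (nat_lit 414) (nat_lit 394) (nat_lit 332)) (XT.lf (nat_lit 0) (nat_lit 4079226892) (nat_lit 1292) (nat_lit 3412490449) (nat_lit 76) (nat_lit 173483829) (nat_lit 581) (nat_lit 5) (nat_lit 598) (nat_lit 5) (nat_lit 582) (nat_lit 5) (nat_lit 415) (nat_lit 394) (nat_lit 331)))) (XT.nd (nat_lit 78) (nat_lit 1444) (nat_lit 0) (XT.lf (nat_lit 0) (nat_lit 891430884) (nat_lit 1292) (nat_lit 5086773722) (nat_lit 1368) (nat_lit 1741970274) (nat_lit 564) (nat_lit 5) (nat_lit 581) (nat_lit 5) (nat_lit 582) (nat_lit 5) (nat_lit 416) (nat_lit 394) (nat_lit 330)) (XT.nd (nat_lit 78) (nat_lit 1368) (nat_lit 0) (XT.lf (nat_lit 0) (nat_lit 122613427) (nat_lit 1368) (nat_lit 2478379461) (nat_lit 76) (nat_lit 5175536186) (nat_lit 563) (nat_lit 5) (nat_lit 581) (nat_lit 5) (nat_lit 564) (nat_lit 5) (nat_lit 417) (nat_lit 394) (nat_lit 329)) (XT.lf (nat_lit 0) (nat_lit 1944305399) (nat_lit 1368) (nat_lit 32710062) (nat_lit 1444) (nat_lit 5857256864)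 (nat_lit 545) (nat_lit 5) (nat_lit 563) (nat_lit 5) (nat_lit 564) (nat_lit 5) (nat_lit 418) (nat_lit 394) (nat_lit 328))))) (XT.nd (nat_lit 234) (nat_lit 3192) (nat_lit 0) (XT.nd (nat_lit 78) (nat_lit 1444) (nat_lit 0) (XT.lf (nat_lit 0) (nat_lit 3865836408) (nat_lit 1444) (nat_lit 1449952060) (nat_lit 76) (nat_lit 2577444466) (nat_lit 545) (nat_lit 5) (nat_lit 564) (nat_lit 5) (nat_lit 546) (nat_lit 5) (nat_lit 419) (nat_lit 394) (nat_lit 327)) (XT.nd (nat_lit 78) (nat_lit 0) (nat_lit 0) (XT.lf (nat_lit 0) (nat_lit 3090505459) (nat_lit 1444) (nat_lit 2686713861) (nat_lit 1520) (nat_lit 2176466655) (nat_lit 526) (nat_lit 5) (nat_lit 545) (nat_lit 5) (nat_lit 546) (nat_lit 5) (nat_lit 420) (nat_lit 394) (nat_lit 326)) (XT.lf (nat_lit 0) (nat_lit 7701648023) (nat_lit 1520) (nat_lit 302994057) (nat_lit 76) (nat_lit 11218392) (nat_lit 526) (nat_lit 5) (nat_lit 546) (nat_lit 5) (nat_lit 527) (nat_lit 5) (nat_lit 421) (nat_lit 394)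 (nat_lit 325)))) (XT.nd (nat_lit 78) (nat_lit 1596) (nat_lit 0) (XT.lf (nat_lit 0) (nat_lit 1576402239) (nat_lit 1596) (nat_lit 3730309864) (nat_lit 76) (nat_lit 2772130783) (nat_lit 505) (nat_lit 5) (nat_lit 526) (nat_lit 5) (nat_lit 506) (nat_lit 5) (nat_lit 422) (nat_lit 394) (nat_lit 324)) (XT.nd (nat_lit 78) (nat_lit 0) (nat_lit 0) (XT.lf (nat_lit 0) (nat_lit 935393117) (nat_lit 1596) (nat_lit 2539349299) (nat_lit 1672) (nat_lit 4668826836) (nat_lit 484) (nat_lit 5) (nat_lit 505) (nat_lit 5) (nat_lit 506) (nat_lit 5) (nat_lit 423) (nat_lit 394) (nat_lit 323)) (XT.lf (nat_lit 0) (nat_lit 5404595084) (nat_lit 1672) (nat_lit 2495572697) (nat_lit 76) (nat_lit 309559541) (nat_lit 484) (nat_lit 5) (nat_lit 506) (nat_lit 5) (nat_lit 485) (nat_lit 5) (nat_lit 424) (nat_lit 394) (nat_lit 322))))))))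
noncomputable def xc124 : XT := (XT.nd (nat_lit 1794) (nat_lit 8360) (nat_lit 0) (XT.nd (nat_lit 858) (nat_lit 5396) (nat_lit 0) (XT.nd (nat_lit 390) (nat_lit 3724) (nat_lit 0) (XT.nd (nat_lit 156) (nat_lit 3192) (nat_lit 0) (XT.nd (nat_lit 78) (nat_lit 76) (nat_lit 0) (XT.lf (nat_lit 0) (nat_lit 2295698796) (nat_lit 1672) (nat_lit 5076232601) (nat_lit 1748) (nat_lit 905307356) (nat_lit 462) (nat_lit 5) (nat_lit 484) (nat_lit 5) (nat_lit 485) (nat_lit 5) (nat_lit 425) (nat_lit 394) (nat_lit 321)) (XT.lf (nat_lit 0) (nat_lit 1003229927) (nat_lit 1748) (nat_lit 1165082808) (nat_lit 76) (nat_lit 6177976073) (nat_lit 461) (nat_lit 5) (nat_lit 484) (nat_lit 5) (nat_lit 462) (nat_lit 5) (nat_lit 426) (nat_lit 394) (nat_lit 320))) (XT.nd (nat_lit 78) (nat_lit 1444) (nat_lit 0) (XT.lf (nat_lit 0) (nat_lit 2935698291) (nat_lit 1824) (nat_lit 4659662793) (nat_lit 76) (nat_lit 821288927) (nat_lit 438) (nat_lit 5) (nat_lit 462) (nat_lit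 5) (nat_lit 439) (nat_lit 5) (nat_lit 427) (nat_lit 394) (nat_lit 319)) (XT.nd (nat_lit 78) (nat_lit 0) (nat_lit 0) (XT.lf (nat_lit 0) (nat_lit 265068842) (nat_lit 1444) (nat_lit 4634200139) (nat_lit 1520) (nat_lit 3589307725) (nat_lit 419) (nat_lit 5) (nat_lit 438) (nat_lit 5) (nat_lit 439) (nat_lit 5) (nat_lit 428) (nat_lit 394) (nat_lit 318)) (XT.lf (nat_lit 0) (nat_lit 5322623325) (nat_lit 1444) (nat_lit 1579689113) (nat_lit 1520) (nat_lit 1659632653) (nat_lit 419) (nat_lit 5) (nat_lit 438) (nat_lit 5) (nat_lit 439) (nat_lit 5) (nat_lit 429) (nat_lit 394) (nat_lit 317))))) (XT.nd (nat_lit 234) (nat_lit 1824) (nat_lit 0) (XT.nd (nat_lit 78) (nat_lit 912) (nat_lit 0) (XT.lf (nat_lit 0) (nat_lit 295931800) (nat_lit 988) (nat_lit 6809234050) (nat_lit 76) (nat_lit 1531754946) (nat_lit 406) (nat_lit 5) (nat_lit 419) (nat_lit 5) (nat_lit 407) (nat_lit 5) (nat_lit 430) (nat_lit 394) (nat_lit 316)) (XT.nd (nat_lit 78) (nat_lit 912)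 (nat_lit 0) (XT.lf (nat_lit 0) (nat_lit 2270509632) (nat_lit 988) (nat_lit 1723730673) (nat_lit 76) (nat_lit 4718900586) (nat_lit 406) (nat_lit 5) (nat_lit 419) (nat_lit 5) (nat_lit 407) (nat_lit 5) (nat_lit 431) (nat_lit 394) (nat_lit 315)) (XT.lf (nat_lit 0) (nat_lit 3480583926) (nat_lit 912) (nat_lit 796947050) (nat_lit 988) (nat_lit 4513502009) (nat_lit 394) (nat_lit 5) (nat_lit 406) (nat_lit 5) (nat_lit 407) (nat_lit 5) (nat_lit 432) (nat_lit 394) (nat_lit 314)))) (XT.nd (nat_lit 78) (nat_lit 1824) (nat_lit 0) (XT.lf (nat_lit 0) (nat_lit 6323092952) (nat_lit 988) (nat_lit 102934343) (nat_lit 76) (nat_lit 2444494127) (nat_lit 394) (nat_lit 5) (nat_lit 407) (nat_lit 5) (nat_lit 395) (nat_lit 5) (nat_lit 433) (nat_lit 394) (nat_lit 313)) (XT.nd (nat_lit 78) (nat_lit 912) (nat_lit 0) (XT.lf (nat_lit 0) (nat_lit 5243837742) (nat_lit 912) (nat_lit 3176382735) (nat_lit 988) (nat_lit 531172445) (nat_lit 382) (nat_lit 5) (nat_lit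 394) (nat_lit 5) (nat_lit 395) (nat_lit 5) (nat_lit 434) (nat_lit 394) (nat_lit 312)) (XT.lf (nat_lit 0) (nat_lit 1489352775) (nat_lit 912) (nat_lit 7386876262) (nat_lit 76) (nat_lit 157781866) (nat_lit 370) (nat_lit 5) (nat_lit 382) (nat_lit 5) (nat_lit 371) (nat_lit 5) (nat_lit 435) (nat_lit 394) (nat_lit 311)))))) (XT.nd (nat_lit 468) (nat_lit 2964) (nat_lit 0) (XT.nd (nat_lit 234) (nat_lit 1596) (nat_lit 0) (XT.nd (nat_lit 78) (nat_lit 836) (nat_lit 0) (XT.lf (nat_lit 0) (nat_lit 3561150631) (nat_lit 912) (nat_lit 2012291795) (nat_lit 76) (nat_lit 3544415114) (nat_lit 370) (nat_lit 5) (nat_lit 382) (nat_lit 5) (nat_lit 371) (nat_lit 5) (nat_lit 436) (nat_lit 394) (nat_lit 310)) (XT.nd (nat_lit 78) (nat_lit 0) (nat_lit 0) (XT.lf (nat_lit 0) (nat_lit 3487121348) (nat_lit 836) (nat_lit 2182342843) (nat_lit 912) (nat_lit 3534021220) (nat_lit 359) (nat_lit 5) (nat_lit 370) (nat_lit 5) (nat_lit 371) (nat_lit 5) (nat_lit 437)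 (nat_lit 394) (nat_lit 309)) (XT.lf (nat_lit 0) (nat_lit 7814615139) (nat_lit 912) (nat_lit 203887417) (nat_lit 76) (nat_lit 1272435636) (nat_lit 359) (nat_lit 5) (nat_lit 371) (nat_lit 5) (nat_lit 360) (nat_lit 5) (nat_lit 438) (nat_lit 394) (nat_lit 308)))) (XT.nd (nat_lit 78) (nat_lit 760) (nat_lit 0) (XT.lf (nat_lit 0) (nat_lit 637657788) (nat_lit 836) (nat_lit 3936234852) (nat_lit 76) (nat_lit 4805706240) (nat_lit 348) (nat_lit 5) (nat_lit 359) (nat_lit 5) (nat_lit 349) (nat_lit 5) (nat_lit 439) (nat_lit 394) (nat_lit 307)) (XT.nd (nat_lit 78) (nat_lit 0) (nat_lit 0) (XT.lf (nat_lit 0) (nat_lit 1720738302) (nat_lit 760) (nat_lit 1039464538) (nat_lit 836) (nat_lit 6709919166) (nat_lit 338) (nat_lit 5) (nat_lit 348) (nat_lit 5) (nat_lit 349) (nat_lit 5) (nat_lit 440) (nat_lit 394) (nat_lit 306)) (XT.lf (nat_lit 0) (nat_lit 4942254503) (nat_lit 836) (nat_lit 2063244163) (nat_lit 76) (nat_lit 2556621150) (nat_lit 338) (nat_lit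 5) (nat_lit 349) (nat_lit 5) (nat_lit 339) (nat_lit 5) (nat_lit 441) (nat_lit 394) (nat_lit 305))))) (XT.nd (nat_lit 234) (nat_lit 1368) (nat_lit 0) (XT.nd (nat_lit 78) (nat_lit 836) (nat_lit 0) (XT.lf (nat_lit 0) (nat_lit 3750797631) (nat_lit 760) (nat_lit 3422708317) (nat_lit 836) (nat_lit 2482345693) (nat_lit 328) (nat_lit 5) (nat_lit 338) (nat_lit 5) (nat_lit 339) (nat_lit 5) (nat_lit 442) (nat_lit 394) (nat_lit 304)) (XT.nd (nat_lit 78) (nat_lit 836) (nat_lit 0) (XT.lf (nat_lit 0) (nat_lit 9439451628) (nat_lit 836) (nat_lit 72128832) (nat_lit 76) (nat_lit 240081389) (nat_lit 328) (nat_lit 5) (nat_lit 339) (nat_lit 5) (nat_lit 329) (nat_lit 5) (nat_lit 443) (nat_lit 394) (nat_lit 303)) (XT.lf (nat_lit 0) (nat_lit 1912752804) (nat_lit 836) (nat_lit 3956912027) (nat_lit 76) (nat_lit 3978754246) (nat_lit 317) (nat_lit 5) (nat_lit 328) (nat_lit 5) (nat_lit 318) (nat_lit 5) (nat_lit 444) (nat_lit 394) (nat_lit 302)))) (XT.nd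 (nat_lit 78) (nat_lit 684) (nat_lit 0) (XT.lf (nat_lit 0) (nat_lit 2024743755) (nat_lit 684) (nat_lit 2142193266) (nat_lit 760) (nat_lit 5780359939) (nat_lit 308) (nat_lit 5) (nat_lit 317) (nat_lit 5) (nat_lit 318) (nat_lit 5) (nat_lit 445) (nat_lit 394) (nat_lit 301)) (XT.nd (nat_lit 78) (nat_lit 684) (nat_lit 0) (XT.lf (nat_lit 0) (nat_lit 6479257751) (nat_lit 760) (nat_lit 1907222906) (nat_lit 76) (nat_lit 1661415427) (nat_lit 308) (nat_lit 5) (nat_lit 318) (nat_lit 5) (nat_lit 309) (nat_lit 5) (nat_lit 446) (nat_lit 394) (nat_lit 300)) (XT.lf (nat_lit 0) (nat_lit 4242099807) (nat_lit 684) (nat_lit 4613481104) (nat_lit 760) (nat_lit 1294575806) (nat_lit 299) (nat_lit 5) (nat_lit 308) (nat_lit 5) (nat_lit 309) (nat_lit 5) (nat_lit 447) (nat_lit 394) (nat_lit 299))))))) (XT.nd (nat_lit 858) (nat_lit 3800) (nat_lit 0) (XT.nd (nat_lit 390) (nat_lit 2432) (nat_lit 0) (XT.nd (nat_lit 156) (nat_lit 1368) (nat_lit 0) (XT.nd (nat_lit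 78) (nat_lit 0) (nat_lit 0) (XT.lf (nat_lit 0) (nat_lit 254754850) (nat_lit 684) (nat_lit 747464185) (nat_lit 760) (nat_lit 9252301023) (nat_lit 289) (nat_lit 5) (nat_lit 298) (nat_lit 5) (nat_lit 299) (nat_lit 5) (nat_lit 448) (nat_lit 394) (nat_lit 298)) (XT.lf (nat_lit 0) (nat_lit 3364707033) (nat_lit 760) (nat_lit 3797022238) (nat_lit 76) (nat_lit 3198332800) (nat_lit 289) (nat_lit 5) (nat_lit 299) (nat_lit 5) (nat_lit 290) (nat_lit 5) (nat_lit 449) (nat_lit 394) (nat_lit 297))) (XT.nd (nat_lit 78) (nat_lit 684) (nat_lit 0) (XT.lf (nat_lit 0) (nat_lit 2530397437) (nat_lit 684) (nat_lit 3242305844) (nat_lit 760) (nat_lit 4695050766) (nat_lit 280) (nat_lit 5) (nat_lit 289) (nat_lit 5) (nat_lit 290) (nat_lit 5) (nat_lit 450) (nat_lit 394) (nat_lit 296)) (XT.nd (nat_lit 78) (nat_lit 684) (nat_lit 0) (XT.lf (nat_lit 0) (nat_lit 8236538287) (nat_lit 760) (nat_lit 1574193440) (nat_lit 76) (nat_lit 766718767) (nat_lit 280) (nat_lit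 5) (nat_lit 290) (nat_lit 5) (nat_lit 281) (nat_lit 5) (nat_lit 451) (nat_lit 394) (nat_lit 295)) (XT.lf (nat_lit 0) (nat_lit 90788067) (nat_lit 684) (nat_lit 5757192374) (nat_lit 76) (nat_lit 4840731245) (nat_lit 271) (nat_lit 5) (nat_lit 280) (nat_lit 5) (nat_lit 272) (nat_lit 5) (nat_lit 452) (nat_lit 394) (nat_lit 294))))) (XT.nd (nat_lit 234) (nat_lit 1216) (nat_lit 0) (XT.nd (nat_lit 78) (nat_lit 608) (nat_lit 0) (XT.lf (nat_lit 0) (nat_lit 753569859) (nat_lit 608) (nat_lit 1779449403) (nat_lit 684) (nat_lit 8269008501) (nat_lit 263) (nat_lit 5) (nat_lit 271) (nat_lit 5) (nat_lit 272) (nat_lit 5) (nat_lit 453) (nat_lit 394) (nat_lit 293)) (XT.nd (nat_lit 78) (nat_lit 608) (nat_lit 0) (XT.lf (nat_lit 0) (nat_lit 5056288159) (nat_lit 684) (nat_lit 3487565692) (nat_lit 76) (nat_lit 2373116339) (nat_lit 263) (nat_lit 5) (nat_lit 272) (nat_lit 5) (nat_lit 264) (nat_lit 5) (nat_lit 454) (nat_lit 394) (nat_lit 292)) (XT.lf (nat_lit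 0) (nat_lit 3207702668) (nat_lit 608) (nat_lit 4433276697) (nat_lit 684) (nat_lit 3393016774) (nat_lit 255) (nat_lit 5) (nat_lit 263) (nat_lit 5) (nat_lit 264) (nat_lit 5) (nat_lit 455) (nat_lit 394) (nat_lit 291)))) (XT.nd (nat_lit 78) (nat_lit 1216) (nat_lit 0) (XT.lf (nat_lit 0) (nat_lit 10057202872) (nat_lit 608) (nat_lit 222160511) (nat_lit 684) (nat_lit 873962980) (nat_lit 255) (nat_lit 5) (nat_lit 263) (nat_lit 5) (nat_lit 264) (nat_lit 5) (nat_lit 456) (nat_lit 394) (nat_lit 290)) (XT.nd (nat_lit 78) (nat_lit 532) (nat_lit 0) (XT.lf (nat_lit 0) (nat_lit 1716543856) (nat_lit 684) (nat_lit 5494128711) (nat_lit 76) (nat_lit 4063287887) (nat_lit 246) (nat_lit 5) (nat_lit 255) (nat_lit 5) (nat_lit 247) (nat_lit 5) (nat_lit 457) (nat_lit 394) (nat_lit 289)) (XT.lf (nat_lit 0) (nat_lit 1395383853) (nat_lit 532) (nat_lit 2948798920) (nat_lit 608) (nat_lit 7052771950) (nat_lit 239) (nat_lit 5) (nat_lit 246) (nat_lit 5) (nat_lit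 247) (nat_lit 5) (nat_lit 458) (nat_lit 394) (nat_lit 288)))))) (XT.nd (nat_lit 468) (nat_lit 2052) (nat_lit 0) (XT.nd (nat_lit 234) (nat_lit 1064) (nat_lit 0) (XT.nd (nat_lit 78) (nat_lit 684) (nat_lit 0) (XT.lf (nat_lit 0) (nat_lit 7049841330) (nat_lit 608) (nat_lit 3060947480) (nat_lit 76) (nat_lit 1411114185) (nat_lit 239) (nat_lit 5) (nat_lit 247) (nat_lit 5) (nat_lit 240) (nat_lit 5) (nat_lit 459) (nat_lit 394) (nat_lit 287)) (XT.nd (nat_lit 78) (nat_lit 76) (nat_lit 0) (XT.lf (nat_lit 0) (nat_lit 4025168294) (nat_lit 608) (nat_lit 5809789088) (nat_lit 684) (nat_lit 1813889348) (nat_lit 231) (nat_lit 5) (nat_lit 239) (nat_lit 5) (nat_lit 240) (nat_lit 5) (nat_lit 460) (nat_lit 394) (nat_lit 286)) (XT.lf (nat_lit 0) (nat_lit 886125250) (nat_lit 684) (nat_lit 516062645) (nat_lit 76) (nat_lit 10376019181) (nat_lit 230) (nat_lit 5) (nat_lit 239) (nat_lit 5) (nat_lit 231) (nat_lit 5) (nat_lit 461) (nat_lit 394) (nat_lit 285))))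 (XT.nd (nat_lit 78) (nat_lit 532) (nat_lit 0) (XT.lf (nat_lit 0) (nat_lit 3660509154) (nat_lit 608) (nat_lit 5145332247) (nat_lit 76) (nat_lit 3103183481) (nat_lit 223) (nat_lit 5) (nat_lit 231) (nat_lit 5) (nat_lit 224) (nat_lit 5) (nat_lit 462) (nat_lit 394) (nat_lit 284)) (XT.nd (nat_lit 78) (nat_lit 0) (nat_lit 0) (XT.lf (nat_lit 0) (nat_lit 2146148425) (nat_lit 532) (nat_lit 4351286308) (nat_lit 608) (nat_lit 5544886360) (nat_lit 216) (nat_lit 5) (nat_lit 223) (nat_lit 5) (nat_lit 224) (nat_lit 5) (nat_lit 463) (nat_lit 394) (nat_lit 283)) (XT.lf (nat_lit 0) (nat_lit 9407623852) (nat_lit 608) (nat_lit 2552378408) (nat_lit 76) (nat_lit 217953533) (nat_lit 216) (nat_lit 5) (nat_lit 224) (nat_lit 5) (nat_lit 217) (nat_lit 5) (nat_lit 464) (nat_lit 394) (nat_lit 282))))) (XT.nd (nat_lit 234) (nat_lit 988) (nat_lit 0) (XT.nd (nat_lit 78) (nat_lit 532) (nat_lit 0) (XT.lf (nat_lit 0) (nat_lit 101050728) (nat_lit 532) (nat_lit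 7367753226) (nat_lit 76) (nat_lit 4846652019) (nat_lit 209) (nat_lit 5) (nat_lit 216) (nat_lit 5) (nat_lit 210) (nat_lit 5) (nat_lit 465) (nat_lit 394) (nat_lit 281)) (XT.nd (nat_lit 78) (nat_lit 0) (nat_lit 0) (XT.lf (nat_lit 0) (nat_lit 134242739) (nat_lit 532) (nat_lit 2857651394) (nat_lit 608) (nat_lit 9463466118) (nat_lit 202) (nat_lit 5) (nat_lit 209) (nat_lit 5) (nat_lit 210) (nat_lit 5) (nat_lit 466) (nat_lit 394) (nat_lit 280)) (XT.lf (nat_lit 0) (nat_lit 5983446019) (nat_lit 608) (nat_lit 4749473910) (nat_lit 76) (nat_lit 1864287685) (nat_lit 202) (nat_lit 5) (nat_lit 210) (nat_lit 5) (nat_lit 203) (nat_lit 5) (nat_lit 467) (nat_lit 394) (nat_lit 279)))) (XT.nd (nat_lit 78) (nat_lit 532) (nat_lit 0) (XT.lf (nat_lit 0) (nat_lit 2967876969) (nat_lit 456) (nat_lit 6086655083) (nat_lit 532) (nat_lit 3686968588) (nat_lit 196) (nat_lit 5) (nat_lit 202) (nat_lit 5) (nat_lit 203) (nat_lit 5) (nat_lit 468) (nat_lit 394) (nat_lit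 278)) (XT.nd (nat_lit 78) (nat_lit 532) (nat_lit 0) (XT.lf (nat_lit 0) (nat_lit 10878399489) (nat_lit 456) (nat_lit 1322217274) (nat_lit 532) (nat_lit 687793946) (nat_lit 196) (nat_lit 5) (nat_lit 202) (nat_lit 5) (nat_lit 203) (nat_lit 5) (nat_lit 469) (nat_lit 394) (nat_lit 277)) (XT.lf (nat_lit 0) (nat_lit 2384091040) (nat_lit 532) (nat_lit 7114656379) (nat_lit 76) (nat_lit 3538329694) (nat_lit 189) (nat_lit 5) (nat_lit 196) (nat_lit 5) (nat_lit 190) (nat_lit 5) (nat_lit 470) (nat_lit 394) (nat_lit 276))))))))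
noncomputable def xc125 : XT := (XT.nd (nat_lit 1794) (nat_lit 2812) (nat_lit 0) (XT.nd (nat_lit 858) (nat_lit 2660) (nat_lit 0) (XT.nd (nat_lit 390) (nat_lit 1672) (nat_lit 0) (XT.nd (nat_lit 156) (nat_lit 912) (nat_lit 0) (XT.nd (nat_lit 78) (nat_lit 0) (nat_lit 0) (XT.lf (nat_lit 0) (nat_lit 824266688) (nat_lit 456) (nat_lit 4693718257) (nat_lit 532) (nat_lit 7670447922) (nat_lit 183) (nat_lit 5) (nat_lit 189) (nat_lit 5) (nat_lit 190) (nat_lit 5) (nat_lit 471) (nat_lit 394) (nat_lit 275)) (XT.lf (nat_lit 0) (nat_lit 8746187288) (nat_lit 532) (nat_lit 4350698620) (nat_lit 76) (nat_lit 245299732) (nat_lit 183) (nat_lit 5) (nat_lit 190) (nat_lit 5) (nat_lit 184) (nat_lit 5) (nat_lit 472) (nat_lit 394) (nat_lit 274))) (XT.nd (nat_lit 78) (nat_lit 456) (nat_lit 0) (XT.lf (nat_lit 0) (nat_lit 3816931283) (nat_lit 456) (nat_lit 8260461844) (nat_lit 532) (nat_lit 1420854019) (nat_lit 177) (nat_lit 5) (nat_lit 183) (nat_lit 5) (nat_lit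 184) (nat_lit 5) (nat_lit 473) (nat_lit 394) (nat_lit 273)) (XT.nd (nat_lit 78) (nat_lit 380) (nat_lit 0) (XT.lf (nat_lit 0) (nat_lit 1805977832) (nat_lit 532) (nat_lit 1487103614) (nat_lit 76) (nat_lit 10363874254) (nat_lit 176) (nat_lit 5) (nat_lit 183) (nat_lit 5) (nat_lit 177) (nat_lit 5) (nat_lit 474) (nat_lit 394) (nat_lit 272)) (XT.lf (nat_lit 0) (nat_lit 5118121915) (nat_lit 456) (nat_lit 6902134817) (nat_lit 76) (nat_lit 1797600162) (nat_lit 171) (nat_lit 5) (nat_lit 177) (nat_lit 5) (nat_lit 172) (nat_lit 5) (nat_lit 475) (nat_lit 394) (nat_lit 271))))) (XT.nd (nat_lit 234) (nat_lit 760) (nat_lit 0) (XT.nd (nat_lit 78) (nat_lit 456) (nat_lit 0) (XT.lf (nat_lit 0) (nat_lit 1497972593) (nat_lit 456) (nat_lit 7023217990) (nat_lit 532) (nat_lit 5460294174) (nat_lit 165) (nat_lit 5) (nat_lit 171) (nat_lit 5) (nat_lit 172) (nat_lit 5) (nat_lit 476) (nat_lit 394) (nat_lit 270)) (XT.nd (nat_lit 78) (nat_lit 456) (nat_lit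 0) (XT.lf (nat_lit 0) (nat_lit 10135020614) (nat_lit 456) (nat_lit 1886890487) (nat_lit 532) (nat_lit 2125884498) (nat_lit 165) (nat_lit 5) (nat_lit 171) (nat_lit 5) (nat_lit 172) (nat_lit 5) (nat_lit 477) (nat_lit 394) (nat_lit 269)) (XT.lf (nat_lit 0) (nat_lit 1294176495) (nat_lit 456) (nat_lit 9683164862) (nat_lit 76) (nat_lit 3339214102) (nat_lit 159) (nat_lit 5) (nat_lit 165) (nat_lit 5) (nat_lit 160) (nat_lit 5) (nat_lit 478) (nat_lit 394) (nat_lit 268)))) (XT.nd (nat_lit 78) (nat_lit 760) (nat_lit 0) (XT.lf (nat_lit 0) (nat_lit 4777408150) (nat_lit 456) (nat_lit 1032509476) (nat_lit 76) (nat_lit 8678029252) (nat_lit 159) (nat_lit 5) (nat_lit 165) (nat_lit 5) (nat_lit 160) (nat_lit 5) (nat_lit 479) (nat_lit 394) (nat_lit 267)) (XT.nd (nat_lit 78) (nat_lit 380) (nat_lit 0) (XT.lf (nat_lit 0) (nat_lit 7870382228) (nat_lit 380) (nat_lit 494949697) (nat_lit 456) (nat_lit 6296735714) (nat_lit 154) (nat_lit 5) (nat_lit 159)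 (nat_lit 5) (nat_lit 160) (nat_lit 5) (nat_lit 480) (nat_lit 394) (nat_lit 266)) (XT.lf (nat_lit 0) (nat_lit 2097160121) (nat_lit 380) (nat_lit 9964466323) (nat_lit 456) (nat_lit 2777314149) (nat_lit 149) (nat_lit 5) (nat_lit 154) (nat_lit 5) (nat_lit 155) (nat_lit 5) (nat_lit 481) (nat_lit 394) (nat_lit 265)))))) (XT.nd (nat_lit 468) (nat_lit 1368) (nat_lit 0) (XT.nd (nat_lit 234) (nat_lit 836) (nat_lit 0) (XT.nd (nat_lit 78) (nat_lit 380) (nat_lit 0) (XT.lf (nat_lit 0) (nat_lit 835082736) (nat_lit 456) (nat_lit 3795612709) (nat_lit 76) (nat_lit 10387887141) (nat_lit 148) (nat_lit 5) (nat_lit 154) (nat_lit 5) (nat_lit 149) (nat_lit 5) (nat_lit 482) (nat_lit 394) (nat_lit 264)) (XT.nd (nat_lit 78) (nat_lit 0) (nat_lit 0) (XT.lf (nat_lit 0) (nat_lit 4507316178) (nat_lit 456) (nat_lit 9848962722) (nat_lit 76) (nat_lit 844677727) (nat_lit 143) (nat_lit 5) (nat_lit 149) (nat_lit 5) (nat_lit 144) (nat_lit 5) (nat_lit 483) (nat_lit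 394) (nat_lit 263)) (XT.lf (nat_lit 0) (nat_lit 8293800478) (nat_lit 456) (nat_lit 707093709) (nat_lit 76) (nat_lit 6385269707) (nat_lit 143) (nat_lit 5) (nat_lit 149) (nat_lit 5) (nat_lit 144) (nat_lit 5) (nat_lit 484) (nat_lit 394) (nat_lit 262)))) (XT.nd (nat_lit 78) (nat_lit 456) (nat_lit 0) (XT.lf (nat_lit 0) (nat_lit 8708500132) (nat_lit 380) (nat_lit 3488859702) (nat_lit 456) (nat_lit 3376890397) (nat_lit 138) (nat_lit 5) (nat_lit 143) (nat_lit 5) (nat_lit 144) (nat_lit 5) (nat_lit 485) (nat_lit 394) (nat_lit 261)) (XT.nd (nat_lit 78) (nat_lit 0) (nat_lit 0) (XT.lf (nat_lit 0) (nat_lit 427705239) (nat_lit 456) (nat_lit 13216358378) (nat_lit 76) (nat_lit 2121578257) (nat_lit 132) (nat_lit 5) (nat_lit 138) (nat_lit 5) (nat_lit 133) (nat_lit 5) (nat_lit 486) (nat_lit 394) (nat_lit 260)) (XT.lf (nat_lit 0) (nat_lit 4317644454) (nat_lit 456) (nat_lit 3783499123) (nat_lit 76) (nat_lit 7858183709) (nat_lit 132) (nat_lit 5)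 (nat_lit 138) (nat_lit 5) (nat_lit 133) (nat_lit 5) (nat_lit 487) (nat_lit 394) (nat_lit 259))))) (XT.nd (nat_lit 234) (nat_lit 608) (nat_lit 0) (XT.nd (nat_lit 78) (nat_lit 456) (nat_lit 0) (XT.lf (nat_lit 0) (nat_lit 5892285520) (nat_lit 304) (nat_lit 2416591808) (nat_lit 380) (nat_lit 7847540873) (nat_lit 128) (nat_lit 5) (nat_lit 132) (nat_lit 5) (nat_lit 133) (nat_lit 5) (nat_lit 488) (nat_lit 394) (nat_lit 258)) (XT.nd (nat_lit 78) (nat_lit 456) (nat_lit 0) (XT.lf (nat_lit 0) (nat_lit 12412773990) (nat_lit 380) (nat_lit 589294412) (nat_lit 76) (nat_lit 3354727411) (nat_lit 128) (nat_lit 5) (nat_lit 133) (nat_lit 5) (nat_lit 129) (nat_lit 5) (nat_lit 489) (nat_lit 394) (nat_lit 257)) (XT.lf (nat_lit 0) (nat_lit 99896087) (nat_lit 456) (nat_lit 7197401453) (nat_lit 76) (nat_lit 9262623729) (nat_lit 122) (nat_lit 5) (nat_lit 128) (nat_lit 5) (nat_lit 123) (nat_lit 5) (nat_lit 490) (nat_lit 394) (nat_lit 256)))) (XT.nd (nat_lit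 78) (nat_lit 304) (nat_lit 0) (XT.lf (nat_lit 0) (nat_lit 2741447581) (nat_lit 304) (nat_lit 1437917245) (nat_lit 380) (nat_lit 12587074914) (nat_lit 118) (nat_lit 5) (nat_lit 122) (nat_lit 5) (nat_lit 123) (nat_lit 5) (nat_lit 491) (nat_lit 394) (nat_lit 255)) (XT.nd (nat_lit 78) (nat_lit 304) (nat_lit 0) (XT.lf (nat_lit 0) (nat_lit 8404243553) (nat_lit 380) (nat_lit 4052046227) (nat_lit 76) (nat_lit 4519523921) (nat_lit 118) (nat_lit 5) (nat_lit 123) (nat_lit 5) (nat_lit 119) (nat_lit 5) (nat_lit 492) (nat_lit 394) (nat_lit 254)) (XT.lf (nat_lit 0) (nat_lit 6169423508) (nat_lit 304) (nat_lit 6579789156) (nat_lit 380) (nat_lit 4439452123) (nat_lit 114) (nat_lit 5) (nat_lit 118) (nat_lit 5) (nat_lit 119) (nat_lit 5) (nat_lit 493) (nat_lit 394) (nat_lit 253))))))) (XT.nd (nat_lit 936) (nat_lit 608) (nat_lit 0) (XT.nd (nat_lit 468) (nat_lit 1140) (nat_lit 0) (XT.nd (nat_lit 234) (nat_lit 380) (nat_lit 0) (XT.nd (nat_lit 78) (nat_lit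 684) (nat_lit 0) (XT.lf (nat_lit 0) (nat_lit 16628070488) (nat_lit 304) (nat_lit 566346454) (nat_lit 380) (nat_lit 211090711) (nat_lit 114) (nat_lit 5) (nat_lit 118) (nat_lit 5) (nat_lit 119) (nat_lit 5) (nat_lit 494) (nat_lit 394) (nat_lit 252)) (XT.nd (nat_lit 78) (nat_lit 304) (nat_lit 0) (XT.lf (nat_lit 0) (nat_lit 4134348998) (nat_lit 380) (nat_lit 7913355280) (nat_lit 76) (nat_lit 5576725730) (nat_lit 109) (nat_lit 5) (nat_lit 114) (nat_lit 5) (nat_lit 110) (nat_lit 5) (nat_lit 495) (nat_lit 394) (nat_lit 251)) (XT.lf (nat_lit 0) (nat_lit 2578906820) (nat_lit 304) (nat_lit 5997110963) (nat_lit 380) (nat_lit 9271443573) (nat_lit 105) (nat_lit 5) (nat_lit 109) (nat_lit 5) (nat_lit 110) (nat_lit 5) (nat_lit 496) (nat_lit 394) (nat_lit 250)))) (XT.nd (nat_lit 78) (nat_lit 380) (nat_lit 0) (XT.lf (nat_lit 0) (nat_lit 13147575689) (nat_lit 380) (nat_lit 4709167481) (nat_lit 76) (nat_lit 217390407) (nat_lit 105) (nat_lit 5)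 (nat_lit 110) (nat_lit 5) (nat_lit 106) (nat_lit 5) (nat_lit 497) (nat_lit 394) (nat_lit 249)) (XT.nd (nat_lit 78) (nat_lit 76) (nat_lit 0) (XT.lf (nat_lit 0) (nat_lit 6079788301) (nat_lit 304) (nat_lit 11796700122) (nat_lit 380) (nat_lit 427533681) (nat_lit 101) (nat_lit 5) (nat_lit 105) (nat_lit 5) (nat_lit 106) (nat_lit 5) (nat_lit 498) (nat_lit 394) (nat_lit 248)) (XT.lf (nat_lit 0) (nat_lit 4125468719) (nat_lit 380) (nat_lit 1438422835) (nat_lit 76) (nat_lit 12973706227) (nat_lit 100) (nat_lit 5) (nat_lit 105) (nat_lit 5) (nat_lit 101) (nat_lit 5) (nat_lit 499) (nat_lit 394) (nat_lit 247))))) (XT.nd (nat_lit 234) (nat_lit 608) (nat_lit 0) (XT.nd (nat_lit 78) (nat_lit 228) (nat_lit 0) (XT.lf (nat_lit 0) (nat_lit 8819126974) (nat_lit 380) (nat_lit 9114535738) (nat_lit 76) (nat_lit 841020587) (nat_lit 96) (nat_lit 5) (nat_lit 101) (nat_lit 5) (nat_lit 97) (nat_lit 5) (nat_lit 500) (nat_lit 394) (nat_lit 246)) (XT.nd (nat_lit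 78) (nat_lit 0) (nat_lit 0) (XT.lf (nat_lit 0) (nat_lit 1951234664) (nat_lit 228) (nat_lit 11701745029) (nat_lit 304) (nat_lit 5362605641) (nat_lit 93) (nat_lit 5) (nat_lit 96) (nat_lit 5) (nat_lit 97) (nat_lit 5) (nat_lit 501) (nat_lit 394) (nat_lit 245)) (XT.lf (nat_lit 0) (nat_lit 13340695308) (nat_lit 228) (nat_lit 5291182290) (nat_lit 304) (nat_lit 628461658) (nat_lit 93) (nat_lit 5) (nat_lit 96) (nat_lit 5) (nat_lit 97) (nat_lit 5) (nat_lit 502) (nat_lit 394) (nat_lit 244)))) (XT.nd (nat_lit 78) (nat_lit 228) (nat_lit 0) (XT.lf (nat_lit 0) (nat_lit 4176634984) (nat_lit 380) (nat_lit 14045931854) (nat_lit 76) (nat_lit 1286249983) (nat_lit 88) (nat_lit 5) (nat_lit 93) (nat_lit 5) (nat_lit 89) (nat_lit 5) (nat_lit 503) (nat_lit 394) (nat_lit 243)) (XT.nd (nat_lit 78) (nat_lit 228) (nat_lit 0) (XT.lf (nat_lit 0) (nat_lit 9131884607) (nat_lit 380) (nat_lit 2668617604) (nat_lit 76) (nat_lit 7960430460) (nat_lit 88) (nat_lit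 5) (nat_lit 93) (nat_lit 5) (nat_lit 89) (nat_lit 5) (nat_lit 504) (nat_lit 394) (nat_lit 242)) (XT.lf (nat_lit 0) (nat_lit 9034150053) (nat_lit 228) (nat_lit 5198421668) (nat_lit 304) (nat_lit 5784593583) (nat_lit 85) (nat_lit 5) (nat_lit 88) (nat_lit 5) (nat_lit 89) (nat_lit 5) (nat_lit 505) (nat_lit 394) (nat_lit 241)))))) (XT.nd (nat_lit 50934) (nat_lit 0) (nat_lit 41572) (XT.nd (nat_lit 50700) (nat_lit 0) (nat_lit 42560) (XT.nd (nat_lit 78) (nat_lit 304) (nat_lit 0) (XT.lf (nat_lit 0) (nat_lit 707538595) (nat_lit 304) (nat_lit 18748057296) (nat_lit 380) (nat_lit 822521327) (nat_lit 81) (nat_lit 5) (nat_lit 85) (nat_lit 5) (nat_lit 86) (nat_lit 5) (nat_lit 506) (nat_lit 394) (nat_lit 240)) (XT.nd (nat_lit 78) (nat_lit 228) (nat_lit 0) (XT.lf (nat_lit 0) (nat_lit 4279574544) (nat_lit 380) (nat_lit 7845130684) (nat_lit 76) (nat_lit 8417106081) (nat_lit 80) (nat_lit 5) (nat_lit 85) (nat_lit 5) (nat_lit 81) (nat_lit 5) (nat_lit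 507) (nat_lit 394) (nat_lit 239)) (XT.lf (nat_lit 0) (nat_lit 4143464518) (nat_lit 228) (nat_lit 5344144863) (nat_lit 304) (nat_lit 11322763981) (nat_lit 77) (nat_lit 5) (nat_lit 80) (nat_lit 5) (nat_lit 81) (nat_lit 5) (nat_lit 508) (nat_lit 394) (nat_lit 238)))) (XT.nd (nat_lit 78) (nat_lit 988) (nat_lit 0) (XT.lf (nat_lit 0) (nat_lit 1804751889) (nat_lit 988) (nat_lit 815757805) (nat_lit 988) (nat_lit 815757805) (nat_lit 650) (nat_lit 3) (nat_lit 663) (nat_lit 3) (nat_lit 663) (nat_lit 5) (nat_lit 395) (nat_lit 395) (nat_lit 350)) (XT.nd (nat_lit 78) (nat_lit 988) (nat_lit 0) (XT.lf (nat_lit 76) (nat_lit 1749529552) (nat_lit 0) (nat_lit 3837293393) (nat_lit 988) (nat_lit 1315020066) (nat_lit 651) (nat_lit 5) (nat_lit 650) (nat_lit 3) (nat_lit 663) (nat_lit 5) (nat_lit 396) (nat_lit 395) (nat_lit 349)) (XT.lf (nat_lit 0) (nat_lit 623016721) (nat_lit 988) (nat_lit 1742504846) (nat_lit 1064) (nat_lit 4566946044) (nat_lit 637)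 (nat_lit 5) (nat_lit 650) (nat_lit 3) (nat_lit 651) (nat_lit 5) (nat_lit 397) (nat_lit 395) (nat_lit 348))))) (XT.nd (nat_lit 234) (nat_lit 988) (nat_lit 0) (XT.nd (nat_lit 78) (nat_lit 0) (nat_lit 76) (XT.lf (nat_lit 76) (nat_lit 1723053458) (nat_lit 0) (nat_lit 820216467) (nat_lit 1064) (nat_lit 4421054603) (nat_lit 638) (nat_lit 5) (nat_lit 637) (nat_lit 5) (nat_lit 651) (nat_lit 5) (nat_lit 398) (nat_lit 395) (nat_lit 347)) (XT.nd (nat_lit 78) (nat_lit 0) (nat_lit 0) (XT.lf (nat_lit 0) (nat_lit 4469430976) (nat_lit 988) (nat_lit 1747341749) (nat_lit 1064) (nat_lit 780710455) (nat_lit 638) (nat_lit 5) (nat_lit 651) (nat_lit 5) (nat_lit 652) (nat_lit 5) (nat_lit 399) (nat_lit 395) (nat_lit 346)) (XT.lf (nat_lit 76) (nat_lit 1807967437) (nat_lit 0) (nat_lit 4595106270) (nat_lit 1064) (nat_lit 628866497) (nat_lit 639) (nat_lit 5) (nat_lit 638) (nat_lit 5) (nat_lit 652) (nat_lit 5) (nat_lit 400) (nat_lit 395) (nat_lit 345))))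 (XT.nd (nat_lit 78) (nat_lit 0) (nat_lit 0) (XT.lf (nat_lit 0) (nat_lit 1255180115) (nat_lit 1064) (nat_lit 1644606473) (nat_lit 1140) (nat_lit 4167862986) (nat_lit 624) (nat_lit 5) (nat_lit 638) (nat_lit 5) (nat_lit 639) (nat_lit 5) (nat_lit 401) (nat_lit 395) (nat_lit 344)) (XT.nd (nat_lit 78) (nat_lit 0) (nat_lit 76) (XT.lf (nat_lit 76) (nat_lit 2001718625) (nat_lit 0) (nat_lit 1132942067) (nat_lit 1140) (nat_lit 3970019369) (nat_lit 625) (nat_lit 5) (nat_lit 624) (nat_lit 5) (nat_lit 639) (nat_lit 5) (nat_lit 402) (nat_lit 395) (nat_lit 343)) (XT.lf (nat_lit 0) (nat_lit 5021227310) (nat_lit 1064) (nat_lit 1430988205) (nat_lit 1140) (nat_lit 690858987) (nat_lit 625) (nat_lit 5) (nat_lit 639) (nat_lit 5) (nat_lit 640) (nat_lit 5) (nat_lit 403) (nat_lit 395) (nat_lit 342))))))))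
noncomputable def xc126 : XT := (XT.nd (nat_lit 1794) (nat_lit 13072) (nat_lit 0) (XT.nd (nat_lit 858) (nat_lit 8968) (nat_lit 0) (XT.nd (nat_lit 390) (nat_lit 2356) (nat_lit 0) (XT.nd (nat_lit 156) (nat_lit 0) (nat_lit 0) (XT.nd (nat_lit 78) (nat_lit 1140) (nat_lit 0) (XT.lf (nat_lit 76) (nat_lit 2310158097) (nat_lit 0) (nat_lit 4612812326) (nat_lit 1140) (nat_lit 259730518) (nat_lit 626) (nat_lit 5) (nat_lit 625) (nat_lit 5) (nat_lit 640) (nat_lit 5) (nat_lit 404) (nat_lit 395) (nat_lit 341)) (XT.lf (nat_lit 0) (nat_lit 1583136539) (nat_lit 1140) (nat_lit 1115601763) (nat_lit 1216) (nat_lit 4524880961) (nat_lit 610) (nat_lit 5) (nat_lit 625) (nat_lit 5) (nat_lit 626) (nat_lit 5) (nat_lit 405) (nat_lit 395) (nat_lit 340))) (XT.nd (nat_lit 78) (nat_lit 0) (nat_lit 76) (XT.lf (nat_lit 76) (nat_lit 2723527122) (nat_lit 0) (nat_lit 709763585) (nat_lit 1216) (nat_lit 3832565017) (nat_lit 611) (nat_lit 5) (nat_lit 610) (nat_lit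 5) (nat_lit 626) (nat_lit 5) (nat_lit 406) (nat_lit 395) (nat_lit 339)) (XT.nd (nat_lit 78) (nat_lit 0) (nat_lit 0) (XT.lf (nat_lit 0) (nat_lit 5293559484) (nat_lit 1140) (nat_lit 690592727) (nat_lit 1216) (nat_lit 1325334496) (nat_lit 611) (nat_lit 5) (nat_lit 626) (nat_lit 5) (nat_lit 627) (nat_lit 5) (nat_lit 407) (nat_lit 395) (nat_lit 338)) (XT.lf (nat_lit 76) (nat_lit 3248878185) (nat_lit 0) (nat_lit 3925804554) (nat_lit 1216) (nat_lit 179646374) (nat_lit 612) (nat_lit 5) (nat_lit 611) (nat_lit 5) (nat_lit 627) (nat_lit 5) (nat_lit 408) (nat_lit 395) (nat_lit 337))))) (XT.nd (nat_lit 234) (nat_lit 1216) (nat_lit 0) (XT.nd (nat_lit 78) (nat_lit 0) (nat_lit 76) (XT.lf (nat_lit 0) (nat_lit 1634035794) (nat_lit 1216) (nat_lit 162097551) (nat_lit 1292) (nat_lit 5604468772) (nat_lit 595) (nat_lit 5) (nat_lit 611) (nat_lit 5) (nat_lit 612) (nat_lit 5) (nat_lit 409) (nat_lit 395) (nat_lit 336)) (XT.nd (nat_lit 78) (nat_lit 0)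 (nat_lit 0) (XT.lf (nat_lit 0) (nat_lit 3468544041) (nat_lit 1216) (nat_lit 3568008651) (nat_lit 1292) (nat_lit 411496088) (nat_lit 596) (nat_lit 5) (nat_lit 612) (nat_lit 5) (nat_lit 613) (nat_lit 5) (nat_lit 410) (nat_lit 395) (nat_lit 335)) (XT.lf (nat_lit 76) (nat_lit 475345085) (nat_lit 0) (nat_lit 4840228246) (nat_lit 1292) (nat_lit 2181365317) (nat_lit 597) (nat_lit 5) (nat_lit 596) (nat_lit 5) (nat_lit 613) (nat_lit 5) (nat_lit 411) (nat_lit 395) (nat_lit 334)))) (XT.nd (nat_lit 78) (nat_lit 1292) (nat_lit 0) (XT.lf (nat_lit 76) (nat_lit 4620331728) (nat_lit 0) (nat_lit 2563519359) (nat_lit 1292) (nat_lit 363279743) (nat_lit 597) (nat_lit 5) (nat_lit 596) (nat_lit 5) (nat_lit 613) (nat_lit 5) (nat_lit 412) (nat_lit 395) (nat_lit 333)) (XT.nd (nat_lit 78) (nat_lit 0) (nat_lit 76) (XT.lf (nat_lit 76) (nat_lit 1228736174) (nat_lit 0) (nat_lit 211726368) (nat_lit 1368) (nat_lit 6158303901) (nat_lit 580) (nat_lit 5) (nat_lit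 579) (nat_lit 5) (nat_lit 597) (nat_lit 5) (nat_lit 413) (nat_lit 395) (nat_lit 332)) (XT.lf (nat_lit 0) (nat_lit 3270926107) (nat_lit 1292) (nat_lit 2188982356) (nat_lit 1368) (nat_lit 2191578124) (nat_lit 580) (nat_lit 5) (nat_lit 597) (nat_lit 5) (nat_lit 598) (nat_lit 5) (nat_lit 414) (nat_lit 395) (nat_lit 331)))))) (XT.nd (nat_lit 468) (nat_lit 4940) (nat_lit 0) (XT.nd (nat_lit 234) (nat_lit 2812) (nat_lit 0) (XT.nd (nat_lit 78) (nat_lit 1292) (nat_lit 0) (XT.lf (nat_lit 76) (nat_lit 2073776354) (nat_lit 0) (nat_lit 3041378935) (nat_lit 1368) (nat_lit 2590572580) (nat_lit 581) (nat_lit 5) (nat_lit 580) (nat_lit 5) (nat_lit 598) (nat_lit 5) (nat_lit 415) (nat_lit 395) (nat_lit 330)) (XT.nd (nat_lit 78) (nat_lit 1292) (nat_lit 0) (XT.lf (nat_lit 76) (nat_lit 6423938796) (nat_lit 0) (nat_lit 549870048) (nat_lit 1368) (nat_lit 787704004) (nat_lit 581) (nat_lit 5) (nat_lit 580) (nat_lit 5) (nat_lit 598) (nat_lit 5) (nat_lit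 416) (nat_lit 395) (nat_lit 329)) (XT.lf (nat_lit 0) (nat_lit 1033721302) (nat_lit 1368) (nat_lit 4783424842) (nat_lit 76) (nat_lit 2001214446) (nat_lit 563) (nat_lit 5) (nat_lit 581) (nat_lit 5) (nat_lit 564) (nat_lit 5) (nat_lit 417) (nat_lit 395) (nat_lit 328)))) (XT.nd (nat_lit 78) (nat_lit 2812) (nat_lit 0) (XT.lf (nat_lit 0) (nat_lit 2857641975) (nat_lit 1368) (nat_lit 400145279) (nat_lit 76) (nat_lit 4618930724) (nat_lit 563) (nat_lit 5) (nat_lit 581) (nat_lit 5) (nat_lit 564) (nat_lit 5) (nat_lit 418) (nat_lit 395) (nat_lit 327)) (XT.nd (nat_lit 78) (nat_lit 1444) (nat_lit 0) (XT.lf (nat_lit 0) (nat_lit 4096994583) (nat_lit 1368) (nat_lit 612281750) (nat_lit 1444) (nat_lit 3227150406) (nat_lit 545) (nat_lit 5) (nat_lit 563) (nat_lit 5) (nat_lit 564) (nat_lit 5) (nat_lit 419) (nat_lit 395) (nat_lit 326)) (XT.lf (nat_lit 0) (nat_lit 659197156) (nat_lit 1444) (nat_lit 5924473029) (nat_lit 1520) (nat_lit 1413953713) (nat_lit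 526) (nat_lit 5) (nat_lit 545) (nat_lit 5) (nat_lit 546) (nat_lit 5) (nat_lit 420) (nat_lit 395) (nat_lit 325))))) (XT.nd (nat_lit 234) (nat_lit 3344) (nat_lit 0) (XT.nd (nat_lit 78) (nat_lit 1520) (nat_lit 0) (XT.lf (nat_lit 0) (nat_lit 425250000) (nat_lit 1520) (nat_lit 2795132969) (nat_lit 76) (nat_lit 4839704799) (nat_lit 525) (nat_lit 5) (nat_lit 545) (nat_lit 5) (nat_lit 526) (nat_lit 5) (nat_lit 421) (nat_lit 395) (nat_lit 324)) (XT.nd (nat_lit 78) (nat_lit 0) (nat_lit 0) (XT.lf (nat_lit 0) (nat_lit 1825771045) (nat_lit 1520) (nat_lit 434547632) (nat_lit 1596) (nat_lit 5863743289) (nat_lit 505) (nat_lit 5) (nat_lit 525) (nat_lit 5) (nat_lit 526) (nat_lit 5) (nat_lit 422) (nat_lit 395) (nat_lit 323)) (XT.lf (nat_lit 0) (nat_lit 4133261019) (nat_lit 1596) (nat_lit 1656077279) (nat_lit 76) (nat_lit 2399961996) (nat_lit 505) (nat_lit 5) (nat_lit 526) (nat_lit 5) (nat_lit 506) (nat_lit 5) (nat_lit 423) (nat_lit 395) (nat_lit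 322)))) (XT.nd (nat_lit 78) (nat_lit 1748) (nat_lit 0) (XT.lf (nat_lit 0) (nat_lit 3088802665) (nat_lit 1596) (nat_lit 2945108945) (nat_lit 1672) (nat_lit 2222134721) (nat_lit 484) (nat_lit 5) (nat_lit 505) (nat_lit 5) (nat_lit 506) (nat_lit 5) (nat_lit 424) (nat_lit 395) (nat_lit 321)) (XT.nd (nat_lit 78) (nat_lit 1748) (nat_lit 0) (XT.lf (nat_lit 0) (nat_lit 7923401361) (nat_lit 1596) (nat_lit 28065518) (nat_lit 1672) (nat_lit 373090353) (nat_lit 484) (nat_lit 5) (nat_lit 505) (nat_lit 5) (nat_lit 506) (nat_lit 5) (nat_lit 425) (nat_lit 395) (nat_lit 320)) (XT.lf (nat_lit 0) (nat_lit 1509805757) (nat_lit 1748) (nat_lit 3932032041) (nat_lit 76) (nat_lit 2952077301) (nat_lit 461) (nat_lit 5) (nat_lit 484) (nat_lit 5) (nat_lit 462) (nat_lit 5) (nat_lit 426) (nat_lit 395) (nat_lit 319))))))) (XT.nd (nat_lit 936) (nat_lit 5320) (nat_lit 0) (XT.nd (nat_lit 468) (nat_lit 2660) (nat_lit 0) (XT.nd (nat_lit 234) (nat_lit 1900) (nat_lit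 0) (XT.nd (nat_lit 78) (nat_lit 1444) (nat_lit 0) (XT.lf (nat_lit 0) (nat_lit 944734626) (nat_lit 1748) (nat_lit 2458329553) (nat_lit 1824) (nat_lit 5061999948) (nat_lit 438) (nat_lit 5) (nat_lit 461) (nat_lit 5) (nat_lit 462) (nat_lit 5) (nat_lit 427) (nat_lit 395) (nat_lit 318)) (XT.nd (nat_lit 78) (nat_lit 1444) (nat_lit 0) (XT.lf (nat_lit 0) (nat_lit 5333665522) (nat_lit 1824) (nat_lit 2597200596) (nat_lit 76) (nat_lit 606787647) (nat_lit 438) (nat_lit 5) (nat_lit 462) (nat_lit 5) (nat_lit 439) (nat_lit 5) (nat_lit 428) (nat_lit 395) (nat_lit 317)) (XT.lf (nat_lit 0) (nat_lit 2411843728) (nat_lit 1444) (nat_lit 4892700053) (nat_lit 1520) (nat_lit 1307125159) (nat_lit 419) (nat_lit 5) (nat_lit 438) (nat_lit 5) (nat_lit 439) (nat_lit 5) (nat_lit 429) (nat_lit 395) (nat_lit 316)))) (XT.nd (nat_lit 78) (nat_lit 1824) (nat_lit 0) (XT.lf (nat_lit 0) (nat_lit 606921497) (nat_lit 1520) (nat_lit 1162853255) (nat_lit 76) (nat_lit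 6917565364) (nat_lit 418) (nat_lit 5) (nat_lit 438) (nat_lit 5) (nat_lit 419) (nat_lit 5) (nat_lit 430) (nat_lit 395) (nat_lit 315)) (XT.nd (nat_lit 78) (nat_lit 912) (nat_lit 0) (XT.lf (nat_lit 0) (nat_lit 2547631374) (nat_lit 988) (nat_lit 4782887834) (nat_lit 76) (nat_lit 1433721646) (nat_lit 406) (nat_lit 5) (nat_lit 419) (nat_lit 5) (nat_lit 407) (nat_lit 5) (nat_lit 431) (nat_lit 395) (nat_lit 314)) (XT.lf (nat_lit 0) (nat_lit 366732811) (nat_lit 912) (nat_lit 4153314104) (nat_lit 988) (nat_lit 4322781370) (nat_lit 394) (nat_lit 5) (nat_lit 406) (nat_lit 5) (nat_lit 407) (nat_lit 5) (nat_lit 432) (nat_lit 395) (nat_lit 313))))) (XT.nd (nat_lit 234) (nat_lit 1672) (nat_lit 0) (XT.nd (nat_lit 78) (nat_lit 988) (nat_lit 0) (XT.lf (nat_lit 0) (nat_lit 5656375723) (nat_lit 912) (nat_lit 878955118) (nat_lit 988) (nat_lit 2387594601) (nat_lit 394) (nat_lit 5) (nat_lit 406) (nat_lit 5) (nat_lit 407) (nat_lit 5) (nat_lit 433)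 (nat_lit 395) (nat_lit 312)) (XT.nd (nat_lit 78) (nat_lit 76) (nat_lit 0) (XT.lf (nat_lit 0) (nat_lit 2030000680) (nat_lit 912) (nat_lit 6561969812) (nat_lit 988) (nat_lit 412639304) (nat_lit 382) (nat_lit 5) (nat_lit 394) (nat_lit 5) (nat_lit 395) (nat_lit 5) (nat_lit 434) (nat_lit 395) (nat_lit 311)) (XT.lf (nat_lit 0) (nat_lit 1580767416) (nat_lit 988) (nat_lit 1655120890) (nat_lit 76) (nat_lit 5851838332) (nat_lit 381) (nat_lit 5) (nat_lit 394) (nat_lit 5) (nat_lit 382) (nat_lit 5) (nat_lit 435) (nat_lit 395) (nat_lit 310)))) (XT.nd (nat_lit 78) (nat_lit 836) (nat_lit 0) (XT.lf (nat_lit 0) (nat_lit 3606950635) (nat_lit 912) (nat_lit 5383452918) (nat_lit 76) (nat_lit 182084934) (nat_lit 370) (nat_lit 5) (nat_lit 382) (nat_lit 5) (nat_lit 371) (nat_lit 5) (nat_lit 436) (nat_lit 395) (nat_lit 309)) (XT.nd (nat_lit 78) (nat_lit 0) (nat_lit 0) (XT.lf (nat_lit 0) (nat_lit 57193718) (nat_lit 836) (nat_lit 5622424603) (nat_lit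 912) (nat_lit 3579213813) (nat_lit 359) (nat_lit 5) (nat_lit 370) (nat_lit 5) (nat_lit 371) (nat_lit 5) (nat_lit 437) (nat_lit 395) (nat_lit 308)) (XT.lf (nat_lit 0) (nat_lit 5651970143) (nat_lit 836) (nat_lit 2151224719) (nat_lit 912) (nat_lit 1543524347) (nat_lit 359) (nat_lit 5) (nat_lit 370) (nat_lit 5) (nat_lit 371) (nat_lit 5) (nat_lit 438) (nat_lit 395) (nat_lit 307)))))) (XT.nd (nat_lit 468) (nat_lit 2128) (nat_lit 0) (XT.nd (nat_lit 234) (nat_lit 1596) (nat_lit 0) (XT.nd (nat_lit 78) (nat_lit 760) (nat_lit 0) (XT.lf (nat_lit 0) (nat_lit 521125976) (nat_lit 836) (nat_lit 7529213703) (nat_lit 76) (nat_lit 1386055876) (nat_lit 348) (nat_lit 5) (nat_lit 359) (nat_lit 5) (nat_lit 349) (nat_lit 5) (nat_lit 439) (nat_lit 395) (nat_lit 306)) (XT.nd (nat_lit 78) (nat_lit 760) (nat_lit 0) (XT.lf (nat_lit 0) (nat_lit 2619629825) (nat_lit 836) (nat_lit 1908573768) (nat_lit 76) (nat_lit 4999198554) (nat_lit 348) (nat_lit 5) (nat_lit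 359) (nat_lit 5) (nat_lit 349) (nat_lit 5) (nat_lit 440) (nat_lit 395) (nat_lit 305)) (XT.lf (nat_lit 0) (nat_lit 3847681049) (nat_lit 760) (nat_lit 911918673) (nat_lit 836) (nat_lit 4860644461) (nat_lit 338) (nat_lit 5) (nat_lit 348) (nat_lit 5) (nat_lit 349) (nat_lit 5) (nat_lit 441) (nat_lit 395) (nat_lit 304)))) (XT.nd (nat_lit 78) (nat_lit 1596) (nat_lit 0) (XT.lf (nat_lit 0) (nat_lit 6948115196) (nat_lit 836) (nat_lit 15445171) (nat_lit 76) (nat_lit 2751272900) (nat_lit 338) (nat_lit 5) (nat_lit 349) (nat_lit 5) (nat_lit 339) (nat_lit 5) (nat_lit 442) (nat_lit 395) (nat_lit 303)) (XT.nd (nat_lit 78) (nat_lit 836) (nat_lit 0) (XT.lf (nat_lit 0) (nat_lit 5901133618) (nat_lit 760) (nat_lit 3298939943) (nat_lit 836) (nat_lit 610852149) (nat_lit 328) (nat_lit 5) (nat_lit 338) (nat_lit 5) (nat_lit 339) (nat_lit 5) (nat_lit 443) (nat_lit 395) (nat_lit 302)) (XT.lf (nat_lit 0) (nat_lit 1558948828) (nat_lit 836) (nat_lit 7895696721)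 (nat_lit 76) (nat_lit 454260138) (nat_lit 317) (nat_lit 5) (nat_lit 328) (nat_lit 5) (nat_lit 318) (nat_lit 5) (nat_lit 444) (nat_lit 395) (nat_lit 301))))) (XT.nd (nat_lit 234) (nat_lit 760) (nat_lit 0) (XT.nd (nat_lit 78) (nat_lit 1368) (nat_lit 0) (XT.lf (nat_lit 0) (nat_lit 3787982267) (nat_lit 836) (nat_lit 1954200897) (nat_lit 76) (nat_lit 4266105768) (nat_lit 317) (nat_lit 5) (nat_lit 328) (nat_lit 5) (nat_lit 318) (nat_lit 5) (nat_lit 445) (nat_lit 395) (nat_lit 300)) (XT.nd (nat_lit 78) (nat_lit 684) (nat_lit 0) (XT.lf (nat_lit 0) (nat_lit 4133391623) (nat_lit 684) (nat_lit 1931267260) (nat_lit 760) (nat_lit 4044944356) (nat_lit 308) (nat_lit 5) (nat_lit 317) (nat_lit 5) (nat_lit 318) (nat_lit 5) (nat_lit 446) (nat_lit 395) (nat_lit 299)) (XT.lf (nat_lit 0) (nat_lit 118088257) (nat_lit 684) (nat_lit 8271943674) (nat_lit 760) (nat_lit 1822853198) (nat_lit 299) (nat_lit 5) (nat_lit 308) (nat_lit 5) (nat_lit 309) (nat_lit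 5) (nat_lit 447) (nat_lit 395) (nat_lit 298)))) (XT.nd (nat_lit 78) (nat_lit 684) (nat_lit 0) (XT.lf (nat_lit 0) (nat_lit 467643762) (nat_lit 760) (nat_lit 3945438402) (nat_lit 76) (nat_lit 5904501601) (nat_lit 298) (nat_lit 5) (nat_lit 308) (nat_lit 5) (nat_lit 299) (nat_lit 5) (nat_lit 448) (nat_lit 395) (nat_lit 297)) (XT.nd (nat_lit 78) (nat_lit 0) (nat_lit 0) (XT.lf (nat_lit 0) (nat_lit 2318423308) (nat_lit 684) (nat_lit 453277220) (nat_lit 760) (nat_lit 7652595998) (nat_lit 289) (nat_lit 5) (nat_lit 298) (nat_lit 5) (nat_lit 299) (nat_lit 5) (nat_lit 449) (nat_lit 395) (nat_lit 296)) (XT.lf (nat_lit 0) (nat_lit 5149103359) (nat_lit 760) (nat_lit 1822099764) (nat_lit 76) (nat_lit 3561399331) (nat_lit 289) (nat_lit 5) (nat_lit 299) (nat_lit 5) (nat_lit 290) (nat_lit 5) (nat_lit 450) (nat_lit 395) (nat_lit 295))))))))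
noncomputable def xc127 : XT := (XT.nd (nat_lit 1794) (nat_lit 5928) (nat_lit 0) (XT.nd (nat_lit 858) (nat_lit 3648) (nat_lit 0) (XT.nd (nat_lit 390) (nat_lit 2432) (nat_lit 0) (XT.nd (nat_lit 156) (nat_lit 684) (nat_lit 0) (XT.nd (nat_lit 78) (nat_lit 608) (nat_lit 0) (XT.lf (nat_lit 0) (nat_lit 4618375785) (nat_lit 684) (nat_lit 2966443036) (nat_lit 760) (nat_lit 3058044513) (nat_lit 280) (nat_lit 5) (nat_lit 289) (nat_lit 5) (nat_lit 290) (nat_lit 5) (nat_lit 451) (nat_lit 395) (nat_lit 294)) (XT.lf (nat_lit 0) (nat_lit 428773667) (nat_lit 608) (nat_lit 9640841605) (nat_lit 684) (nat_lit 685710872) (nat_lit 272) (nat_lit 5) (nat_lit 280) (nat_lit 5) (nat_lit 281) (nat_lit 5) (nat_lit 452) (nat_lit 395) (nat_lit 293))) (XT.nd (nat_lit 78) (nat_lit 608) (nat_lit 0) (XT.lf (nat_lit 0) (nat_lit 1749790996) (nat_lit 684) (nat_lit 3834538556) (nat_lit 76) (nat_lit 5284718088) (nat_lit 271) (nat_lit 5) (nat_lit 280) (nat_lit 5)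 (nat_lit 272) (nat_lit 5) (nat_lit 453) (nat_lit 395) (nat_lit 292)) (XT.nd (nat_lit 78) (nat_lit 0) (nat_lit 0) (XT.lf (nat_lit 0) (nat_lit 2793032358) (nat_lit 608) (nat_lit 1428484282) (nat_lit 684) (nat_lit 6763506180) (nat_lit 263) (nat_lit 5) (nat_lit 271) (nat_lit 5) (nat_lit 272) (nat_lit 5) (nat_lit 454) (nat_lit 395) (nat_lit 291)) (XT.lf (nat_lit 0) (nat_lit 6765597018) (nat_lit 684) (nat_lit 1542682853) (nat_lit 76) (nat_lit 2794582963) (nat_lit 263) (nat_lit 5) (nat_lit 272) (nat_lit 5) (nat_lit 264) (nat_lit 5) (nat_lit 455) (nat_lit 395) (nat_lit 290))))) (XT.nd (nat_lit 234) (nat_lit 1140) (nat_lit 0) (XT.nd (nat_lit 78) (nat_lit 684) (nat_lit 0) (XT.lf (nat_lit 0) (nat_lit 5273236702) (nat_lit 608) (nat_lit 4110206630) (nat_lit 684) (nat_lit 1839162295) (nat_lit 255) (nat_lit 5) (nat_lit 263) (nat_lit 5) (nat_lit 264) (nat_lit 5) (nat_lit 456) (nat_lit 395) (nat_lit 289)) (XT.nd (nat_lit 78) (nat_lit 0) (nat_lit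 0) (XT.lf (nat_lit 0) (nat_lit 696261442) (nat_lit 684) (nat_lit 10463390525) (nat_lit 76) (nat_lit 185069665) (nat_lit 246) (nat_lit 5) (nat_lit 255) (nat_lit 5) (nat_lit 247) (nat_lit 5) (nat_lit 457) (nat_lit 395) (nat_lit 288)) (XT.lf (nat_lit 0) (nat_lit 3304686299) (nat_lit 684) (nat_lit 3605240821) (nat_lit 76) (nat_lit 4558174773) (nat_lit 246) (nat_lit 5) (nat_lit 255) (nat_lit 5) (nat_lit 247) (nat_lit 5) (nat_lit 458) (nat_lit 395) (nat_lit 287)))) (XT.nd (nat_lit 78) (nat_lit 608) (nat_lit 0) (XT.lf (nat_lit 0) (nat_lit 3408912190) (nat_lit 532) (nat_lit 2558390879) (nat_lit 608) (nat_lit 5626609607) (nat_lit 239) (nat_lit 5) (nat_lit 246) (nat_lit 5) (nat_lit 247) (nat_lit 5) (nat_lit 459) (nat_lit 395) (nat_lit 286)) (XT.nd (nat_lit 78) (nat_lit 608) (nat_lit 0) (XT.lf (nat_lit 0) (nat_lit 8699812997) (nat_lit 608) (nat_lit 1147966328) (nat_lit 76) (nat_lit 1874130850) (nat_lit 239) (nat_lit 5) (nat_lit 247) (nat_lit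 5) (nat_lit 240) (nat_lit 5) (nat_lit 460) (nat_lit 395) (nat_lit 285)) (XT.lf (nat_lit 0) (nat_lit 6066883603) (nat_lit 608) (nat_lit 5456893514) (nat_lit 684) (nat_lit 327957681) (nat_lit 231) (nat_lit 5) (nat_lit 239) (nat_lit 5) (nat_lit 240) (nat_lit 5) (nat_lit 461) (nat_lit 395) (nat_lit 284)))))) (XT.nd (nat_lit 468) (nat_lit 1444) (nat_lit 0) (XT.nd (nat_lit 234) (nat_lit 1064) (nat_lit 0) (XT.nd (nat_lit 78) (nat_lit 532) (nat_lit 0) (XT.lf (nat_lit 0) (nat_lit 1435002710) (nat_lit 532) (nat_lit 950951645) (nat_lit 608) (nat_lit 9597937847) (nat_lit 223) (nat_lit 5) (nat_lit 230) (nat_lit 5) (nat_lit 231) (nat_lit 5) (nat_lit 462) (nat_lit 395) (nat_lit 283)) (XT.nd (nat_lit 78) (nat_lit 532) (nat_lit 0) (XT.lf (nat_lit 0) (nat_lit 5193233445) (nat_lit 608) (nat_lit 3292164860) (nat_lit 76) (nat_lit 3632384554) (nat_lit 223) (nat_lit 5) (nat_lit 231) (nat_lit 5) (nat_lit 224) (nat_lit 5) (nat_lit 463) (nat_lit 395)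 (nat_lit 282)) (XT.lf (nat_lit 0) (nat_lit 4132276517) (nat_lit 532) (nat_lit 3938619671) (nat_lit 608) (nat_lit 4183173386) (nat_lit 216) (nat_lit 5) (nat_lit 223) (nat_lit 5) (nat_lit 224) (nat_lit 5) (nat_lit 464) (nat_lit 395) (nat_lit 281)))) (XT.nd (nat_lit 78) (nat_lit 1064) (nat_lit 0) (XT.lf (nat_lit 0) (nat_lit 11014165638) (nat_lit 608) (nat_lit 672976240) (nat_lit 76) (nat_lit 705782023) (nat_lit 216) (nat_lit 5) (nat_lit 224) (nat_lit 5) (nat_lit 217) (nat_lit 5) (nat_lit 465) (nat_lit 395) (nat_lit 280)) (XT.nd (nat_lit 78) (nat_lit 532) (nat_lit 0) (XT.lf (nat_lit 0) (nat_lit 1515608355) (nat_lit 532) (nat_lit 5578372460) (nat_lit 76) (nat_lit 5439318992) (nat_lit 209) (nat_lit 5) (nat_lit 216) (nat_lit 5) (nat_lit 210) (nat_lit 5) (nat_lit 466) (nat_lit 395) (nat_lit 279)) (XT.lf (nat_lit 0) (nat_lit 2060921741) (nat_lit 532) (nat_lit 2388141937) (nat_lit 608) (nat_lit 8227246798) (nat_lit 202) (nat_lit 5) (nat_lit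 209) (nat_lit 5) (nat_lit 210) (nat_lit 5) (nat_lit 467) (nat_lit 395) (nat_lit 278))))) (XT.nd (nat_lit 234) (nat_lit 912) (nat_lit 0) (XT.nd (nat_lit 78) (nat_lit 532) (nat_lit 0) (XT.lf (nat_lit 0) (nat_lit 7476400336) (nat_lit 608) (nat_lit 2933942129) (nat_lit 76) (nat_lit 2411137372) (nat_lit 202) (nat_lit 5) (nat_lit 210) (nat_lit 5) (nat_lit 203) (nat_lit 5) (nat_lit 468) (nat_lit 395) (nat_lit 277)) (XT.nd (nat_lit 78) (nat_lit 76) (nat_lit 0) (XT.lf (nat_lit 0) (nat_lit 4925186549) (nat_lit 456) (nat_lit 5669117139) (nat_lit 532) (nat_lit 2374651166) (nat_lit 196) (nat_lit 5) (nat_lit 202) (nat_lit 5) (nat_lit 203) (nat_lit 5) (nat_lit 469) (nat_lit 395) (nat_lit 276)) (XT.lf (nat_lit 0) (nat_lit 648708390) (nat_lit 532) (nat_lit 166902951) (nat_lit 76) (nat_lit 12303643208) (nat_lit 195) (nat_lit 5) (nat_lit 202) (nat_lit 5) (nat_lit 196) (nat_lit 5) (nat_lit 470) (nat_lit 395) (nat_lit 275)))) (XT.nd (nat_lit 78)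 (nat_lit 456) (nat_lit 0) (XT.lf (nat_lit 0) (nat_lit 3762155627) (nat_lit 532) (nat_lit 5367330924) (nat_lit 76) (nat_lit 4141533931) (nat_lit 189) (nat_lit 5) (nat_lit 196) (nat_lit 5) (nat_lit 190) (nat_lit 5) (nat_lit 471) (nat_lit 395) (nat_lit 274)) (XT.nd (nat_lit 78) (nat_lit 0) (nat_lit 0) (XT.lf (nat_lit 0) (nat_lit 2717938903) (nat_lit 456) (nat_lit 4226890513) (nat_lit 532) (nat_lit 6480855631) (nat_lit 183) (nat_lit 5) (nat_lit 189) (nat_lit 5) (nat_lit 190) (nat_lit 5) (nat_lit 472) (nat_lit 395) (nat_lit 273)) (XT.lf (nat_lit 0) (nat_lit 10215351448) (nat_lit 532) (nat_lit 2574905820) (nat_lit 76) (nat_lit 792704158) (nat_lit 183) (nat_lit 5) (nat_lit 190) (nat_lit 5) (nat_lit 184) (nat_lit 5) (nat_lit 473) (nat_lit 395) (nat_lit 272))))))) (XT.nd (nat_lit 936) (nat_lit 2508) (nat_lit 0) (XT.nd (nat_lit 468) (nat_lit 1596) (nat_lit 0) (XT.nd (nat_lit 234) (nat_lit 912) (nat_lit 0) (XT.nd (nat_lit 78) (nat_lit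 456) (nat_lit 0) (XT.lf (nat_lit 0) (nat_lit 5743821374) (nat_lit 456) (nat_lit 7855997775) (nat_lit 532) (nat_lit 142595850) (nat_lit 177) (nat_lit 5) (nat_lit 183) (nat_lit 5) (nat_lit 184) (nat_lit 5) (nat_lit 474) (nat_lit 395) (nat_lit 271)) (XT.nd (nat_lit 78) (nat_lit 0) (nat_lit 0) (XT.lf (nat_lit 0) (nat_lit 318572402) (nat_lit 380) (nat_lit 2789846281) (nat_lit 456) (nat_lit 10796177148) (nat_lit 171) (nat_lit 5) (nat_lit 176) (nat_lit 5) (nat_lit 177) (nat_lit 5) (nat_lit 475) (nat_lit 395) (nat_lit 270)) (XT.lf (nat_lit 0) (nat_lit 6475446691) (nat_lit 456) (nat_lit 5199477811) (nat_lit 76) (nat_lit 2394021111) (nat_lit 171) (nat_lit 5) (nat_lit 177) (nat_lit 5) (nat_lit 172) (nat_lit 5) (nat_lit 476) (nat_lit 395) (nat_lit 269)))) (XT.nd (nat_lit 78) (nat_lit 456) (nat_lit 0) (XT.lf (nat_lit 0) (nat_lit 3356521881) (nat_lit 456) (nat_lit 6577320164) (nat_lit 532) (nat_lit 4302261997) (nat_lit 165) (nat_lit 5) (nat_lit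 171) (nat_lit 5) (nat_lit 172) (nat_lit 5) (nat_lit 477) (nat_lit 395) (nat_lit 268)) (XT.nd (nat_lit 78) (nat_lit 456) (nat_lit 0) (XT.lf (nat_lit 0) (nat_lit 12130456160) (nat_lit 456) (nat_lit 1349763409) (nat_lit 532) (nat_lit 926011933) (nat_lit 165) (nat_lit 5) (nat_lit 171) (nat_lit 5) (nat_lit 172) (nat_lit 5) (nat_lit 478) (nat_lit 395) (nat_lit 267)) (XT.lf (nat_lit 0) (nat_lit 2537573054) (nat_lit 456) (nat_lit 8058900093) (nat_lit 76) (nat_lit 3981906870) (nat_lit 159) (nat_lit 5) (nat_lit 165) (nat_lit 5) (nat_lit 160) (nat_lit 5) (nat_lit 479) (nat_lit 395) (nat_lit 266))))) (XT.nd (nat_lit 234) (nat_lit 836) (nat_lit 0) (XT.nd (nat_lit 78) (nat_lit 380) (nat_lit 0) (XT.lf (nat_lit 0) (nat_lit 738812408) (nat_lit 380) (nat_lit 5332580989) (nat_lit 456) (nat_lit 8682190451) (nat_lit 154) (nat_lit 5) (nat_lit 159) (nat_lit 5) (nat_lit 160) (nat_lit 5) (nat_lit 480) (nat_lit 395) (nat_lit 265)) (XT.nd (nat_lit 78)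 (nat_lit 380) (nat_lit 0) (XT.lf (nat_lit 0) (nat_lit 9714914944) (nat_lit 456) (nat_lit 5133722635) (nat_lit 76) (nat_lit 82875665) (nat_lit 154) (nat_lit 5) (nat_lit 160) (nat_lit 5) (nat_lit 155) (nat_lit 5) (nat_lit 481) (nat_lit 395) (nat_lit 264)) (XT.lf (nat_lit 0) (nat_lit 3917842268) (nat_lit 380) (nat_lit 9558873489) (nat_lit 456) (nat_lit 1635379237) (nat_lit 149) (nat_lit 5) (nat_lit 154) (nat_lit 5) (nat_lit 155) (nat_lit 5) (nat_lit 482) (nat_lit 395) (nat_lit 263)))) (XT.nd (nat_lit 78) (nat_lit 760) (nat_lit 0) (XT.lf (nat_lit 0) (nat_lit 2010388326) (nat_lit 456) (nat_lit 2112124459) (nat_lit 76) (nat_lit 11173127817) (nat_lit 148) (nat_lit 5) (nat_lit 154) (nat_lit 5) (nat_lit 149) (nat_lit 5) (nat_lit 483) (nat_lit 395) (nat_lit 262)) (XT.nd (nat_lit 78) (nat_lit 380) (nat_lit 0) (XT.lf (nat_lit 0) (nat_lit 5748596193) (nat_lit 456) (nat_lit 8278932446) (nat_lit 76) (nat_lit 1454285666) (nat_lit 143) (nat_lit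 5) (nat_lit 149) (nat_lit 5) (nat_lit 144) (nat_lit 5) (nat_lit 484) (nat_lit 395) (nat_lit 261)) (XT.lf (nat_lit 0) (nat_lit 1024564042) (nat_lit 380) (nat_lit 8570327036) (nat_lit 456) (nat_lit 6076155742) (nat_lit 138) (nat_lit 5) (nat_lit 143) (nat_lit 5) (nat_lit 144) (nat_lit 5) (nat_lit 485) (nat_lit 395) (nat_lit 260)))))) (XT.nd (nat_lit 468) (nat_lit 1292) (nat_lit 0) (XT.nd (nat_lit 234) (nat_lit 760) (nat_lit 0) (XT.nd (nat_lit 78) (nat_lit 456) (nat_lit 0) (XT.lf (nat_lit 0) (nat_lit 10603635299) (nat_lit 380) (nat_lit 2955279145) (nat_lit 456) (nat_lit 2304335251) (nat_lit 138) (nat_lit 5) (nat_lit 143) (nat_lit 5) (nat_lit 144) (nat_lit 5) (nat_lit 486) (nat_lit 395) (nat_lit 259)) (XT.nd (nat_lit 78) (nat_lit 0) (nat_lit 0) (XT.lf (nat_lit 0) (nat_lit 1554498422) (nat_lit 456) (nat_lit 11737607516) (nat_lit 76) (nat_lit 2766355780) (nat_lit 132) (nat_lit 5) (nat_lit 138) (nat_lit 5) (nat_lit 133) (nat_lit 5)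 (nat_lit 487) (nat_lit 395) (nat_lit 258)) (XT.lf (nat_lit 0) (nat_lit 5500310165) (nat_lit 456) (nat_lit 2150269076) (nat_lit 76) (nat_lit 8605882636) (nat_lit 132) (nat_lit 5) (nat_lit 138) (nat_lit 5) (nat_lit 133) (nat_lit 5) (nat_lit 488) (nat_lit 395) (nat_lit 257)))) (XT.nd (nat_lit 78) (nat_lit 456) (nat_lit 0) (XT.lf (nat_lit 0) (nat_lit 7707788497) (nat_lit 304) (nat_lit 1853105188) (nat_lit 380) (nat_lit 6896812871) (nat_lit 128) (nat_lit 5) (nat_lit 132) (nat_lit 5) (nat_lit 133) (nat_lit 5) (nat_lit 489) (nat_lit 395) (nat_lit 256)) (XT.nd (nat_lit 78) (nat_lit 76) (nat_lit 0) (XT.lf (nat_lit 0) (nat_lit 1095170254) (nat_lit 380) (nat_lit 12641412081) (nat_lit 456) (nat_lit 2925717519) (nat_lit 123) (nat_lit 5) (nat_lit 128) (nat_lit 5) (nat_lit 129) (nat_lit 5) (nat_lit 490) (nat_lit 395) (nat_lit 255)) (XT.lf (nat_lit 0) (nat_lit 1167360313) (nat_lit 456) (nat_lit 5656251716) (nat_lit 76) (nat_lit 10046082213)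 (nat_lit 122) (nat_lit 5) (nat_lit 128) (nat_lit 5) (nat_lit 123) (nat_lit 5) (nat_lit 491) (nat_lit 395) (nat_lit 254))))) (XT.nd (nat_lit 234) (nat_lit 684) (nat_lit 0) (XT.nd (nat_lit 78) (nat_lit 304) (nat_lit 0) (XT.lf (nat_lit 0) (nat_lit 4470288129) (nat_lit 304) (nat_lit 848107595) (nat_lit 380) (nat_lit 11762150089) (nat_lit 118) (nat_lit 5) (nat_lit 122) (nat_lit 5) (nat_lit 123) (nat_lit 5) (nat_lit 492) (nat_lit 395) (nat_lit 253)) (XT.nd (nat_lit 78) (nat_lit 304) (nat_lit 0) (XT.lf (nat_lit 0) (nat_lit 9611014459) (nat_lit 380) (nat_lit 2475030128) (nat_lit 76) (nat_lit 5208400050) (nat_lit 118) (nat_lit 5) (nat_lit 123) (nat_lit 5) (nat_lit 119) (nat_lit 5) (nat_lit 493) (nat_lit 395) (nat_lit 252)) (XT.lf (nat_lit 0) (nat_lit 7939960732) (nat_lit 304) (nat_lit 6093250209) (nat_lit 380) (nat_lit 3478537433) (nat_lit 114) (nat_lit 5) (nat_lit 118) (nat_lit 5) (nat_lit 119) (nat_lit 5) (nat_lit 494) (nat_lit 395)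 (nat_lit 251)))) (XT.nd (nat_lit 78) (nat_lit 304) (nat_lit 0) (XT.lf (nat_lit 0) (nat_lit 808896692) (nat_lit 380) (nat_lit 16885385892) (nat_lit 76) (nat_lit 38830296) (nat_lit 109) (nat_lit 5) (nat_lit 114) (nat_lit 5) (nat_lit 110) (nat_lit 5) (nat_lit 495) (nat_lit 395) (nat_lit 250)) (XT.nd (nat_lit 78) (nat_lit 304) (nat_lit 0) (XT.lf (nat_lit 0) (nat_lit 5227219858) (nat_lit 380) (nat_lit 6437624943) (nat_lit 76) (nat_lit 6291767013) (nat_lit 109) (nat_lit 5) (nat_lit 114) (nat_lit 5) (nat_lit 110) (nat_lit 5) (nat_lit 496) (nat_lit 395) (nat_lit 249)) (XT.lf (nat_lit 0) (nat_lit 4253732416) (nat_lit 304) (nat_lit 5494721275) (nat_lit 380) (nat_lit 8435837487) (nat_lit 105) (nat_lit 5) (nat_lit 109) (nat_lit 5) (nat_lit 110) (nat_lit 5) (nat_lit 497) (nat_lit 395) (nat_lit 248))))))))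
noncomputable def xc128 : XT := (XT.nd (nat_lit 52338) (nat_lit 0) (nat_lit 25688) (XT.nd (nat_lit 51402) (nat_lit 0) (nat_lit 40204) (XT.nd (nat_lit 390) (nat_lit 988) (nat_lit 0) (XT.nd (nat_lit 156) (nat_lit 532) (nat_lit 0) (XT.nd (nat_lit 78) (nat_lit 380) (nat_lit 0) (XT.lf (nat_lit 0) (nat_lit 14395778324) (nat_lit 380) (nat_lit 3196168210) (nat_lit 76) (nat_lit 823865580) (nat_lit 105) (nat_lit 5) (nat_lit 110) (nat_lit 5) (nat_lit 106) (nat_lit 5) (nat_lit 498) (nat_lit 395) (nat_lit 247)) (XT.lf (nat_lit 0) (nat_lit 552495135) (nat_lit 380) (nat_lit 10856121121) (nat_lit 76) (nat_lit 7241790450) (nat_lit 100) (nat_lit 5) (nat_lit 105) (nat_lit 5) (nat_lit 101) (nat_lit 5) (nat_lit 499) (nat_lit 395) (nat_lit 246))) (XT.nd (nat_lit 78) (nat_lit 228) (nat_lit 0) (XT.lf (nat_lit 0) (nat_lit 112485951) (nat_lit 304) (nat_lit 5059810873) (nat_lit 380) (nat_lit 13716673142) (nat_lit 96) (nat_lit 5) (nat_lit 100) (nat_lit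 5) (nat_lit 101) (nat_lit 5) (nat_lit 500) (nat_lit 395) (nat_lit 245)) (XT.nd (nat_lit 78) (nat_lit 228) (nat_lit 0) (XT.lf (nat_lit 0) (nat_lit 9954362989) (nat_lit 380) (nat_lit 7713797996) (nat_lit 76) (nat_lit 1462747345) (nat_lit 96) (nat_lit 5) (nat_lit 101) (nat_lit 5) (nat_lit 97) (nat_lit 5) (nat_lit 501) (nat_lit 395) (nat_lit 244)) (XT.lf (nat_lit 0) (nat_lit 3562873153) (nat_lit 228) (nat_lit 11313429013) (nat_lit 304) (nat_lit 4500499848) (nat_lit 93) (nat_lit 5) (nat_lit 96) (nat_lit 5) (nat_lit 97) (nat_lit 5) (nat_lit 502) (nat_lit 395) (nat_lit 243))))) (XT.nd (nat_lit 234) (nat_lit 608) (nat_lit 0) (XT.nd (nat_lit 78) (nat_lit 304) (nat_lit 0) (XT.lf (nat_lit 0) (nat_lit 305263209) (nat_lit 304) (nat_lit 4479546293) (nat_lit 76) (nat_lit 14841975759) (nat_lit 92) (nat_lit 5) (nat_lit 96) (nat_lit 5) (nat_lit 93) (nat_lit 5) (nat_lit 503) (nat_lit 395) (nat_lit 242)) (XT.nd (nat_lit 78) (nat_lit 0) (nat_lit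 0) (XT.lf (nat_lit 0) (nat_lit 5193680213) (nat_lit 380) (nat_lit 12768063026) (nat_lit 76) (nat_lit 1918495076) (nat_lit 88) (nat_lit 5) (nat_lit 93) (nat_lit 5) (nat_lit 89) (nat_lit 5) (nat_lit 504) (nat_lit 395) (nat_lit 241)) (XT.lf (nat_lit 0) (nat_lit 10229730661) (nat_lit 380) (nat_lit 1193766952) (nat_lit 76) (nat_lit 8714266611) (nat_lit 88) (nat_lit 5) (nat_lit 93) (nat_lit 5) (nat_lit 89) (nat_lit 5) (nat_lit 505) (nat_lit 395) (nat_lit 240)))) (XT.nd (nat_lit 78) (nat_lit 380) (nat_lit 0) (XT.lf (nat_lit 0) (nat_lit 10733001960) (nat_lit 228) (nat_lit 4691341255) (nat_lit 304) (nat_lit 4974941687) (nat_lit 85) (nat_lit 5) (nat_lit 88) (nat_lit 5) (nat_lit 89) (nat_lit 5) (nat_lit 506) (nat_lit 395) (nat_lit 239)) (XT.nd (nat_lit 78) (nat_lit 0) (nat_lit 0) (XT.lf (nat_lit 0) (nat_lit 81198018) (nat_lit 380) (nat_lit 18422039007) (nat_lit 76) (nat_lit 2162290001) (nat_lit 80) (nat_lit 5) (nat_lit 85) (nat_lit 5)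 (nat_lit 81) (nat_lit 5) (nat_lit 507) (nat_lit 395) (nat_lit 238)) (XT.lf (nat_lit 0) (nat_lit 5256505748) (nat_lit 380) (nat_lit 6497617584) (nat_lit 76) (nat_lit 9180620791) (nat_lit 80) (nat_lit 5) (nat_lit 85) (nat_lit 5) (nat_lit 81) (nat_lit 5) (nat_lit 508) (nat_lit 395) (nat_lit 237)))))) (XT.nd (nat_lit 468) (nat_lit 1064) (nat_lit 0) (XT.nd (nat_lit 234) (nat_lit 1064) (nat_lit 0) (XT.nd (nat_lit 78) (nat_lit 0) (nat_lit 0) (XT.lf (nat_lit 0) (nat_lit 145101484) (nat_lit 0) (nat_lit 145101484) (nat_lit 988) (nat_lit 3175778051) (nat_lit 637) (nat_lit 5) (nat_lit 637) (nat_lit 3) (nat_lit 650) (nat_lit 3) (nat_lit 396) (nat_lit 396) (nat_lit 348)) (XT.nd (nat_lit 78) (nat_lit 0) (nat_lit 0) (XT.lf (nat_lit 0) (nat_lit 2474490096) (nat_lit 988) (nat_lit 3251641823) (nat_lit 1064) (nat_lit 1236825480) (nat_lit 637) (nat_lit 5) (nat_lit 650) (nat_lit 3) (nat_lit 651) (nat_lit 5) (nat_lit 397) (nat_lit 396) (nat_lit 347))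 (XT.lf (nat_lit 76) (nat_lit 180909048) (nat_lit 0) (nat_lit 4179486613) (nat_lit 1064) (nat_lit 2635112862) (nat_lit 638) (nat_lit 5) (nat_lit 637) (nat_lit 5) (nat_lit 651) (nat_lit 5) (nat_lit 398) (nat_lit 396) (nat_lit 346)))) (XT.nd (nat_lit 78) (nat_lit 1064) (nat_lit 0) (XT.lf (nat_lit 76) (nat_lit 3700538158) (nat_lit 0) (nat_lit 2556942000) (nat_lit 1064) (nat_lit 771775662) (nat_lit 638) (nat_lit 5) (nat_lit 637) (nat_lit 5) (nat_lit 651) (nat_lit 5) (nat_lit 399) (nat_lit 396) (nat_lit 345)) (XT.nd (nat_lit 78) (nat_lit 0) (nat_lit 76) (XT.lf (nat_lit 76) (nat_lit 196332684) (nat_lit 0) (nat_lit 871226468) (nat_lit 1140) (nat_lit 5996915424) (nat_lit 624) (nat_lit 5) (nat_lit 623) (nat_lit 5) (nat_lit 638) (nat_lit 5) (nat_lit 400) (nat_lit 396) (nat_lit 344)) (XT.lf (nat_lit 0) (nat_lit 2914517923) (nat_lit 1064) (nat_lit 3300428146) (nat_lit 1140) (nat_lit 885739720) (nat_lit 624) (nat_lit 5) (nat_lit 638) (nat_lit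 5) (nat_lit 639) (nat_lit 5) (nat_lit 401) (nat_lit 396) (nat_lit 343))))) (XT.nd (nat_lit 234) (nat_lit 0) (nat_lit 76) (XT.nd (nat_lit 78) (nat_lit 1140) (nat_lit 0) (XT.lf (nat_lit 76) (nat_lit 310752857) (nat_lit 0) (nat_lit 4449537787) (nat_lit 1140) (nat_lit 2378106361) (nat_lit 625) (nat_lit 5) (nat_lit 624) (nat_lit 5) (nat_lit 639) (nat_lit 5) (nat_lit 402) (nat_lit 396) (nat_lit 342)) (XT.nd (nat_lit 78) (nat_lit 1140) (nat_lit 0) (XT.lf (nat_lit 76) (nat_lit 4012875089) (nat_lit 0) (nat_lit 2607070093) (nat_lit 1140) (nat_lit 557390946) (nat_lit 625) (nat_lit 5) (nat_lit 624) (nat_lit 5) (nat_lit 639) (nat_lit 5) (nat_lit 403) (nat_lit 396) (nat_lit 341)) (XT.lf (nat_lit 76) (nat_lit 544573553) (nat_lit 0) (nat_lit 697053371) (nat_lit 1216) (nat_lit 5976092154) (nat_lit 610) (nat_lit 5) (nat_lit 609) (nat_lit 5) (nat_lit 625) (nat_lit 5) (nat_lit 404) (nat_lit 396) (nat_lit 340)))) (XT.nd (nat_lit 78) (nat_lit 0)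 (nat_lit 0) (XT.lf (nat_lit 0) (nat_lit 3054889246) (nat_lit 1140) (nat_lit 2926706883) (nat_lit 1216) (nat_lit 1277537581) (nat_lit 610) (nat_lit 5) (nat_lit 625) (nat_lit 5) (nat_lit 626) (nat_lit 5) (nat_lit 405) (nat_lit 396) (nat_lit 339)) (XT.nd (nat_lit 78) (nat_lit 0) (nat_lit 0) (XT.lf (nat_lit 76) (nat_lit 875099314) (nat_lit 0) (nat_lit 3996695243) (nat_lit 1216) (nat_lit 2430246542) (nat_lit 611) (nat_lit 5) (nat_lit 610) (nat_lit 5) (nat_lit 626) (nat_lit 5) (nat_lit 406) (nat_lit 396) (nat_lit 338)) (XT.lf (nat_lit 76) (nat_lit 4766365693) (nat_lit 0) (nat_lit 1936062949) (nat_lit 1216) (nat_lit 643841968) (nat_lit 611) (nat_lit 5) (nat_lit 610) (nat_lit 5) (nat_lit 626) (nat_lit 5) (nat_lit 407) (nat_lit 396) (nat_lit 337))))))) (XT.nd (nat_lit 858) (nat_lit 10944) (nat_lit 0) (XT.nd (nat_lit 390) (nat_lit 1292) (nat_lit 0) (XT.nd (nat_lit 156) (nat_lit 1216) (nat_lit 0) (XT.nd (nat_lit 78) (nat_lit 0) (nat_lit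 0) (XT.lf (nat_lit 0) (nat_lit 1131034205) (nat_lit 1216) (nat_lit 6065654770) (nat_lit 1292) (nat_lit 195190119) (nat_lit 595) (nat_lit 5) (nat_lit 611) (nat_lit 5) (nat_lit 612) (nat_lit 5) (nat_lit 408) (nat_lit 396) (nat_lit 336)) (XT.lf (nat_lit 0) (nat_lit 2922082417) (nat_lit 1216) (nat_lit 2136861506) (nat_lit 1292) (nat_lit 2379595903) (nat_lit 595) (nat_lit 5) (nat_lit 611) (nat_lit 5) (nat_lit 612) (nat_lit 5) (nat_lit 409) (nat_lit 396) (nat_lit 335))) (XT.nd (nat_lit 78) (nat_lit 1216) (nat_lit 0) (XT.lf (nat_lit 76) (nat_lit 1868488342) (nat_lit 0) (nat_lit 2852436597) (nat_lit 1292) (nat_lit 2765780256) (nat_lit 596) (nat_lit 5) (nat_lit 595) (nat_lit 5) (nat_lit 612) (nat_lit 5) (nat_lit 410) (nat_lit 396) (nat_lit 334)) (XT.nd (nat_lit 78) (nat_lit 1216) (nat_lit 0) (XT.lf (nat_lit 76) (nat_lit 5956560574) (nat_lit 0) (nat_lit 573981413) (nat_lit 1292) (nat_lit 1005806604) (nat_lit 596) (nat_lit 5) (nat_lit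 595) (nat_lit 5) (nat_lit 612) (nat_lit 5) (nat_lit 411) (nat_lit 396) (nat_lit 333)) (XT.lf (nat_lit 0) (nat_lit 768067717) (nat_lit 1292) (nat_lit 5057680606) (nat_lit 1368) (nat_lit 1761363213) (nat_lit 579) (nat_lit 5) (nat_lit 596) (nat_lit 5) (nat_lit 597) (nat_lit 5) (nat_lit 412) (nat_lit 396) (nat_lit 332))))) (XT.nd (nat_lit 234) (nat_lit 1292) (nat_lit 0) (XT.nd (nat_lit 78) (nat_lit 0) (nat_lit 0) (XT.lf (nat_lit 0) (nat_lit 2540078315) (nat_lit 1292) (nat_lit 934008963) (nat_lit 1368) (nat_lit 4165157022) (nat_lit 579) (nat_lit 5) (nat_lit 596) (nat_lit 5) (nat_lit 597) (nat_lit 5) (nat_lit 413) (nat_lit 396) (nat_lit 331)) (XT.nd (nat_lit 78) (nat_lit 0) (nat_lit 76) (XT.lf (nat_lit 76) (nat_lit 3288751455) (nat_lit 0) (nat_lit 1042523891) (nat_lit 1368) (nat_lit 3361479311) (nat_lit 580) (nat_lit 5) (nat_lit 579) (nat_lit 5) (nat_lit 597) (nat_lit 5) (nat_lit 414) (nat_lit 396) (nat_lit 330)) (XT.lf (nat_lit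 0) (nat_lit 6136969098) (nat_lit 1292) (nat_lit 175120565) (nat_lit 1368) (nat_lit 1435681771) (nat_lit 580) (nat_lit 5) (nat_lit 597) (nat_lit 5) (nat_lit 598) (nat_lit 5) (nat_lit 415) (nat_lit 396) (nat_lit 329)))) (XT.nd (nat_lit 78) (nat_lit 0) (nat_lit 0) (XT.lf (nat_lit 0) (nat_lit 170233275) (nat_lit 1368) (nat_lit 3645708504) (nat_lit 1444) (nat_lit 3987980573) (nat_lit 562) (nat_lit 5) (nat_lit 580) (nat_lit 5) (nat_lit 581) (nat_lit 5) (nat_lit 416) (nat_lit 396) (nat_lit 328)) (XT.nd (nat_lit 78) (nat_lit 0) (nat_lit 76) (XT.lf (nat_lit 76) (nat_lit 690859572) (nat_lit 0) (nat_lit 1244197482) (nat_lit 1444) (nat_lit 5926540678) (nat_lit 563) (nat_lit 5) (nat_lit 562) (nat_lit 5) (nat_lit 581) (nat_lit 5) (nat_lit 417) (nat_lit 396) (nat_lit 327)) (XT.lf (nat_lit 0) (nat_lit 3733392080) (nat_lit 1368) (nat_lit 2793013170) (nat_lit 76) (nat_lit 1394066004) (nat_lit 563) (nat_lit 5) (nat_lit 581) (nat_lit 5) (nat_lit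 564) (nat_lit 5) (nat_lit 418) (nat_lit 396) (nat_lit 326)))))) (XT.nd (nat_lit 468) (nat_lit 5016) (nat_lit 0) (XT.nd (nat_lit 234) (nat_lit 3116) (nat_lit 0) (XT.nd (nat_lit 78) (nat_lit 1520) (nat_lit 0) (XT.lf (nat_lit 0) (nat_lit 1658783697) (nat_lit 1368) (nat_lit 3893248052) (nat_lit 1444) (nat_lit 2428812496) (nat_lit 545) (nat_lit 5) (nat_lit 563) (nat_lit 5) (nat_lit 564) (nat_lit 5) (nat_lit 419) (nat_lit 396) (nat_lit 325)) (XT.nd (nat_lit 78) (nat_lit 1520) (nat_lit 0) (XT.lf (nat_lit 0) (nat_lit 6210656001) (nat_lit 1368) (nat_lit 1180964801) (nat_lit 1444) (nat_lit 651120947) (nat_lit 545) (nat_lit 5) (nat_lit 563) (nat_lit 5) (nat_lit 564) (nat_lit 5) (nat_lit 420) (nat_lit 396) (nat_lit 324)) (XT.lf (nat_lit 0) (nat_lit 1141516024) (nat_lit 1520) (nat_lit 5367108334) (nat_lit 76) (nat_lit 1597217531) (nat_lit 525) (nat_lit 5) (nat_lit 545) (nat_lit 5) (nat_lit 526) (nat_lit 5) (nat_lit 421) (nat_lit 396) (nat_lit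 323)))) (XT.nd (nat_lit 78) (nat_lit 3116) (nat_lit 0) (XT.lf (nat_lit 0) (nat_lit 2948297813) (nat_lit 1520) (nat_lit 783660127) (nat_lit 76) (nat_lit 4438427891) (nat_lit 525) (nat_lit 5) (nat_lit 545) (nat_lit 5) (nat_lit 526) (nat_lit 5) (nat_lit 422) (nat_lit 396) (nat_lit 322)) (XT.nd (nat_lit 78) (nat_lit 1596) (nat_lit 0) (XT.lf (nat_lit 0) (nat_lit 3916060813) (nat_lit 1520) (nat_lit 868036755) (nat_lit 1596) (nat_lit 3452273368) (nat_lit 505) (nat_lit 5) (nat_lit 525) (nat_lit 5) (nat_lit 526) (nat_lit 5) (nat_lit 423) (nat_lit 396) (nat_lit 321)) (XT.lf (nat_lit 0) (nat_lit 381197400) (nat_lit 1596) (nat_lit 6264472889) (nat_lit 1672) (nat_lit 1658232090) (nat_lit 484) (nat_lit 5) (nat_lit 505) (nat_lit 5) (nat_lit 506) (nat_lit 5) (nat_lit 424) (nat_lit 396) (nat_lit 320))))) (XT.nd (nat_lit 234) (nat_lit 3268) (nat_lit 0) (XT.nd (nat_lit 78) (nat_lit 1672) (nat_lit 0) (XT.lf (nat_lit 0) (nat_lit 172563989) (nat_lit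 1672) (nat_lit 3171477778) (nat_lit 76) (nat_lit 5028665351) (nat_lit 483) (nat_lit 5) (nat_lit 505) (nat_lit 5) (nat_lit 484) (nat_lit 5) (nat_lit 425) (nat_lit 396) (nat_lit 319)) (XT.nd (nat_lit 78) (nat_lit 0) (nat_lit 0) (XT.lf (nat_lit 0) (nat_lit 1658568385) (nat_lit 1672) (nat_lit 338810397) (nat_lit 1748) (nat_lit 6445705148) (nat_lit 461) (nat_lit 5) (nat_lit 483) (nat_lit 5) (nat_lit 484) (nat_lit 5) (nat_lit 426) (nat_lit 396) (nat_lit 318)) (XT.lf (nat_lit 0) (nat_lit 3867095803) (nat_lit 1748) (nat_lit 1931526871) (nat_lit 76) (nat_lit 2716084667) (nat_lit 461) (nat_lit 5) (nat_lit 484) (nat_lit 5) (nat_lit 462) (nat_lit 5) (nat_lit 427) (nat_lit 396) (nat_lit 317)))) (XT.nd (nat_lit 78) (nat_lit 1520) (nat_lit 0) (XT.lf (nat_lit 0) (nat_lit 3029096539) (nat_lit 1748) (nat_lit 2736903946) (nat_lit 1824) (nat_lit 2821933914) (nat_lit 438) (nat_lit 5) (nat_lit 461) (nat_lit 5) (nat_lit 462) (nat_lit 5) (nat_lit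 428) (nat_lit 396) (nat_lit 316)) (XT.nd (nat_lit 78) (nat_lit 1520) (nat_lit 0) (XT.lf (nat_lit 0) (nat_lit 7688756043) (nat_lit 1824) (nat_lit 577195883) (nat_lit 76) (nat_lit 396963520) (nat_lit 438) (nat_lit 5) (nat_lit 462) (nat_lit 5) (nat_lit 439) (nat_lit 5) (nat_lit 429) (nat_lit 396) (nat_lit 315)) (XT.lf (nat_lit 0) (nat_lit 917105729) (nat_lit 1520) (nat_lit 4226671140) (nat_lit 76) (nat_lit 3595138093) (nat_lit 418) (nat_lit 5) (nat_lit 438) (nat_lit 5) (nat_lit 419) (nat_lit 5) (nat_lit 430) (nat_lit 396) (nat_lit 314))))))))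
noncomputable def xc129 : XT := (XT.nd (nat_lit 1794) (nat_lit 7600) (nat_lit 0) (XT.nd (nat_lit 858) (nat_lit 5092) (nat_lit 0) (XT.nd (nat_lit 390) (nat_lit 3268) (nat_lit 0) (XT.nd (nat_lit 156) (nat_lit 1900) (nat_lit 0) (XT.nd (nat_lit 78) (nat_lit 0) (nat_lit 0) (XT.lf (nat_lit 0) (nat_lit 872880924) (nat_lit 912) (nat_lit 1940951567) (nat_lit 988) (nat_lit 6002866094) (nat_lit 406) (nat_lit 5) (nat_lit 418) (nat_lit 5) (nat_lit 419) (nat_lit 5) (nat_lit 431) (nat_lit 396) (nat_lit 313)) (XT.lf (nat_lit 0) (nat_lit 4757158529) (nat_lit 988) (nat_lit 2799988403) (nat_lit 76) (nat_lit 1338724032) (nat_lit 406) (nat_lit 5) (nat_lit 419) (nat_lit 5) (nat_lit 407) (nat_lit 5) (nat_lit 432) (nat_lit 396) (nat_lit 312))) (XT.nd (nat_lit 78) (nat_lit 988) (nat_lit 0) (XT.lf (nat_lit 0) (nat_lit 2438949936) (nat_lit 912) (nat_lit 4301154041) (nat_lit 988) (nat_lit 2236514010) (nat_lit 394) (nat_lit 5) (nat_lit 406) (nat_lit 5)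 (nat_lit 407) (nat_lit 5) (nat_lit 433) (nat_lit 396) (nat_lit 311)) (XT.nd (nat_lit 78) (nat_lit 988) (nat_lit 0) (XT.lf (nat_lit 0) (nat_lit 7793897814) (nat_lit 912) (nat_lit 960037803) (nat_lit 988) (nat_lit 305225917) (nat_lit 394) (nat_lit 5) (nat_lit 406) (nat_lit 5) (nat_lit 407) (nat_lit 5) (nat_lit 434) (nat_lit 396) (nat_lit 310)) (XT.lf (nat_lit 0) (nat_lit 1658605984) (nat_lit 988) (nat_lit 5029929670) (nat_lit 76) (nat_lit 2454295014) (nat_lit 381) (nat_lit 5) (nat_lit 394) (nat_lit 5) (nat_lit 382) (nat_lit 5) (nat_lit 435) (nat_lit 396) (nat_lit 309))))) (XT.nd (nat_lit 234) (nat_lit 1596) (nat_lit 0) (XT.nd (nat_lit 78) (nat_lit 836) (nat_lit 0) (XT.lf (nat_lit 0) (nat_lit 357086333) (nat_lit 836) (nat_lit 3290926636) (nat_lit 912) (nat_lit 5580317932) (nat_lit 370) (nat_lit 5) (nat_lit 381) (nat_lit 5) (nat_lit 382) (nat_lit 5) (nat_lit 436) (nat_lit 396) (nat_lit 308)) (XT.nd (nat_lit 78) (nat_lit 836) (nat_lit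 0) (XT.lf (nat_lit 0) (nat_lit 5685828214) (nat_lit 912) (nat_lit 3423493305) (nat_lit 76) (nat_lit 206052882) (nat_lit 370) (nat_lit 5) (nat_lit 382) (nat_lit 5) (nat_lit 371) (nat_lit 5) (nat_lit 437) (nat_lit 396) (nat_lit 307)) (XT.lf (nat_lit 0) (nat_lit 2112363443) (nat_lit 836) (nat_lit 5661574094) (nat_lit 912) (nat_lit 1630036033) (nat_lit 359) (nat_lit 5) (nat_lit 370) (nat_lit 5) (nat_lit 371) (nat_lit 5) (nat_lit 438) (nat_lit 396) (nat_lit 306)))) (XT.nd (nat_lit 78) (nat_lit 1520) (nat_lit 0) (XT.lf (nat_lit 0) (nat_lit 401409910) (nat_lit 912) (nat_lit 1718283865) (nat_lit 76) (nat_lit 7374656798) (nat_lit 358) (nat_lit 5) (nat_lit 370) (nat_lit 5) (nat_lit 359) (nat_lit 5) (nat_lit 439) (nat_lit 396) (nat_lit 305)) (XT.nd (nat_lit 78) (nat_lit 760) (nat_lit 0) (XT.lf (nat_lit 0) (nat_lit 2462155241) (nat_lit 836) (nat_lit 5614713878) (nat_lit 76) (nat_lit 1509245806) (nat_lit 348) (nat_lit 5) (nat_lit 359) (nat_lit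 5) (nat_lit 349) (nat_lit 5) (nat_lit 440) (nat_lit 396) (nat_lit 304)) (XT.lf (nat_lit 0) (nat_lit 78881556) (nat_lit 760) (nat_lit 4486404727) (nat_lit 836) (nat_lit 5114409995) (nat_lit 338) (nat_lit 5) (nat_lit 348) (nat_lit 5) (nat_lit 349) (nat_lit 5) (nat_lit 441) (nat_lit 396) (nat_lit 303)))))) (XT.nd (nat_lit 468) (nat_lit 2812) (nat_lit 0) (XT.nd (nat_lit 234) (nat_lit 1444) (nat_lit 0) (XT.nd (nat_lit 78) (nat_lit 836) (nat_lit 0) (XT.lf (nat_lit 0) (nat_lit 5935907239) (nat_lit 760) (nat_lit 787581926) (nat_lit 836) (nat_lit 3051404939) (nat_lit 338) (nat_lit 5) (nat_lit 348) (nat_lit 5) (nat_lit 349) (nat_lit 5) (nat_lit 442) (nat_lit 396) (nat_lit 302)) (XT.nd (nat_lit 78) (nat_lit 76) (nat_lit 0) (XT.lf (nat_lit 0) (nat_lit 2018664046) (nat_lit 760) (nat_lit 6914483823) (nat_lit 836) (nat_lit 938687114) (nat_lit 328) (nat_lit 5) (nat_lit 338) (nat_lit 5) (nat_lit 339) (nat_lit 5) (nat_lit 443) (nat_lit 396)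 (nat_lit 301)) (XT.lf (nat_lit 0) (nat_lit 1207424997) (nat_lit 836) (nat_lit 1964632984) (nat_lit 76) (nat_lit 6798361664) (nat_lit 327) (nat_lit 5) (nat_lit 338) (nat_lit 5) (nat_lit 328) (nat_lit 5) (nat_lit 444) (nat_lit 396) (nat_lit 300)))) (XT.nd (nat_lit 78) (nat_lit 684) (nat_lit 0) (XT.lf (nat_lit 0) (nat_lit 3391083105) (nat_lit 836) (nat_lit 6012581861) (nat_lit 76) (nat_lit 667047731) (nat_lit 317) (nat_lit 5) (nat_lit 328) (nat_lit 5) (nat_lit 318) (nat_lit 5) (nat_lit 445) (nat_lit 396) (nat_lit 299)) (XT.nd (nat_lit 78) (nat_lit 0) (nat_lit 0) (XT.lf (nat_lit 0) (nat_lit 7826350) (nat_lit 684) (nat_lit 5621608827) (nat_lit 760) (nat_lit 4543360573) (nat_lit 308) (nat_lit 5) (nat_lit 317) (nat_lit 5) (nat_lit 318) (nat_lit 5) (nat_lit 446) (nat_lit 396) (nat_lit 298)) (XT.lf (nat_lit 0) (nat_lit 6203903547) (nat_lit 684) (nat_lit 1725976928) (nat_lit 760) (nat_lit 2346697931) (nat_lit 308) (nat_lit 5) (nat_lit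 317) (nat_lit 5) (nat_lit 318) (nat_lit 5) (nat_lit 447) (nat_lit 396) (nat_lit 297))))) (XT.nd (nat_lit 234) (nat_lit 1368) (nat_lit 0) (XT.nd (nat_lit 78) (nat_lit 760) (nat_lit 0) (XT.lf (nat_lit 0) (nat_lit 2128628155) (nat_lit 684) (nat_lit 8153529188) (nat_lit 760) (nat_lit 100167298) (nat_lit 299) (nat_lit 5) (nat_lit 308) (nat_lit 5) (nat_lit 309) (nat_lit 5) (nat_lit 448) (nat_lit 396) (nat_lit 296)) (XT.nd (nat_lit 78) (nat_lit 684) (nat_lit 0) (XT.lf (nat_lit 0) (nat_lit 2179027508) (nat_lit 760) (nat_lit 2032607169) (nat_lit 76) (nat_lit 6277941331) (nat_lit 298) (nat_lit 5) (nat_lit 308) (nat_lit 5) (nat_lit 299) (nat_lit 5) (nat_lit 449) (nat_lit 396) (nat_lit 295)) (XT.lf (nat_lit 0) (nat_lit 4343428223) (nat_lit 684) (nat_lit 165210653) (nat_lit 760) (nat_lit 6090200932) (nat_lit 289) (nat_lit 5) (nat_lit 298) (nat_lit 5) (nat_lit 299) (nat_lit 5) (nat_lit 450) (nat_lit 396) (nat_lit 294)))) (XT.nd (nat_lit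 78) (nat_lit 684) (nat_lit 0) (XT.lf (nat_lit 0) (nat_lit 114181158) (nat_lit 684) (nat_lit 6789070623) (nat_lit 760) (nat_lit 3806672961) (nat_lit 280) (nat_lit 5) (nat_lit 289) (nat_lit 5) (nat_lit 290) (nat_lit 5) (nat_lit 451) (nat_lit 396) (nat_lit 293)) (XT.nd (nat_lit 78) (nat_lit 684) (nat_lit 0) (XT.lf (nat_lit 0) (nat_lit 6669000125) (nat_lit 684) (nat_lit 2698293116) (nat_lit 760) (nat_lit 1455511373) (nat_lit 280) (nat_lit 5) (nat_lit 289) (nat_lit 5) (nat_lit 290) (nat_lit 5) (nat_lit 452) (nat_lit 396) (nat_lit 292)) (XT.lf (nat_lit 0) (nat_lit 934441297) (nat_lit 684) (nat_lit 8530701548) (nat_lit 76) (nat_lit 1472598019) (nat_lit 271) (nat_lit 5) (nat_lit 280) (nat_lit 5) (nat_lit 272) (nat_lit 5) (nat_lit 453) (nat_lit 396) (nat_lit 291))))))) (XT.nd (nat_lit 936) (nat_lit 3420) (nat_lit 0) (XT.nd (nat_lit 468) (nat_lit 2280) (nat_lit 0) (XT.nd (nat_lit 234) (nat_lit 684) (nat_lit 0) (XT.nd (nat_lit 78) (nat_lit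 1216) (nat_lit 0) (XT.lf (nat_lit 0) (nat_lit 3377623386) (nat_lit 684) (nat_lit 1952561830) (nat_lit 76) (nat_lit 5724103548) (nat_lit 271) (nat_lit 5) (nat_lit 280) (nat_lit 5) (nat_lit 272) (nat_lit 5) (nat_lit 454) (nat_lit 396) (nat_lit 290)) (XT.nd (nat_lit 78) (nat_lit 608) (nat_lit 0) (XT.lf (nat_lit 0) (nat_lit 4794674532) (nat_lit 608) (nat_lit 1085510225) (nat_lit 684) (nat_lit 5292776215) (nat_lit 263) (nat_lit 5) (nat_lit 271) (nat_lit 5) (nat_lit 272) (nat_lit 5) (nat_lit 455) (nat_lit 396) (nat_lit 289)) (XT.lf (nat_lit 0) (nat_lit 367689253) (nat_lit 608) (nat_lit 8081342373) (nat_lit 684) (nat_lit 2844653906) (nat_lit 255) (nat_lit 5) (nat_lit 263) (nat_lit 5) (nat_lit 264) (nat_lit 5) (nat_lit 456) (nat_lit 396) (nat_lit 288)))) (XT.nd (nat_lit 78) (nat_lit 684) (nat_lit 0) (XT.lf (nat_lit 0) (nat_lit 7302365393) (nat_lit 608) (nat_lit 3796663356) (nat_lit 684) (nat_lit 317203889) (nat_lit 255) (nat_lit 5)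 (nat_lit 263) (nat_lit 5) (nat_lit 264) (nat_lit 5) (nat_lit 457) (nat_lit 396) (nat_lit 287)) (XT.nd (nat_lit 78) (nat_lit 0) (nat_lit 0) (XT.lf (nat_lit 0) (nat_lit 2233531343) (nat_lit 684) (nat_lit 8713079448) (nat_lit 76) (nat_lit 594281969) (nat_lit 246) (nat_lit 5) (nat_lit 255) (nat_lit 5) (nat_lit 247) (nat_lit 5) (nat_lit 458) (nat_lit 396) (nat_lit 286)) (XT.lf (nat_lit 0) (nat_lit 4864255194) (nat_lit 684) (nat_lit 1756189866) (nat_lit 76) (nat_lit 5046897984) (nat_lit 246) (nat_lit 5) (nat_lit 255) (nat_lit 5) (nat_lit 247) (nat_lit 5) (nat_lit 459) (nat_lit 396) (nat_lit 285))))) (XT.nd (nat_lit 234) (nat_lit 1064) (nat_lit 0) (XT.nd (nat_lit 78) (nat_lit 684) (nat_lit 0) (XT.lf (nat_lit 0) (nat_lit 5385607022) (nat_lit 532) (nat_lit 2177624805) (nat_lit 608) (nat_lit 4232780993) (nat_lit 239) (nat_lit 5) (nat_lit 246) (nat_lit 5) (nat_lit 247) (nat_lit 5) (nat_lit 460) (nat_lit 396) (nat_lit 284)) (XT.nd (nat_lit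 78) (nat_lit 76) (nat_lit 0) (XT.lf (nat_lit 0) (nat_lit 736270166) (nat_lit 608) (nat_lit 9592698954) (nat_lit 684) (nat_lit 1598034440) (nat_lit 231) (nat_lit 5) (nat_lit 239) (nat_lit 5) (nat_lit 240) (nat_lit 5) (nat_lit 461) (nat_lit 396) (nat_lit 283)) (XT.lf (nat_lit 0) (nat_lit 1113781796) (nat_lit 684) (nat_lit 3993899559) (nat_lit 76) (nat_lit 6952021110) (nat_lit 230) (nat_lit 5) (nat_lit 239) (nat_lit 5) (nat_lit 231) (nat_lit 5) (nat_lit 462) (nat_lit 396) (nat_lit 282)))) (XT.nd (nat_lit 78) (nat_lit 532) (nat_lit 0) (XT.lf (nat_lit 0) (nat_lit 3355650066) (nat_lit 532) (nat_lit 505906548) (nat_lit 608) (nat_lit 8333228082) (nat_lit 223) (nat_lit 5) (nat_lit 230) (nat_lit 5) (nat_lit 231) (nat_lit 5) (nat_lit 463) (nat_lit 396) (nat_lit 281)) (XT.nd (nat_lit 78) (nat_lit 532) (nat_lit 0) (XT.lf (nat_lit 0) (nat_lit 6699937511) (nat_lit 608) (nat_lit 1477890864) (nat_lit 76) (nat_lit 4154030133) (nat_lit 223) (nat_lit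 5) (nat_lit 231) (nat_lit 5) (nat_lit 224) (nat_lit 5) (nat_lit 464) (nat_lit 396) (nat_lit 280)) (XT.lf (nat_lit 0) (nat_lit 6082670148) (nat_lit 532) (nat_lit 3537103365) (nat_lit 608) (nat_lit 2851409420) (nat_lit 216) (nat_lit 5) (nat_lit 223) (nat_lit 5) (nat_lit 224) (nat_lit 5) (nat_lit 465) (nat_lit 396) (nat_lit 279)))))) (XT.nd (nat_lit 468) (nat_lit 1368) (nat_lit 0) (XT.nd (nat_lit 234) (nat_lit 988) (nat_lit 0) (XT.nd (nat_lit 78) (nat_lit 608) (nat_lit 0) (XT.lf (nat_lit 0) (nat_lit 1184588343) (nat_lit 456) (nat_lit 11420863263) (nat_lit 532) (nat_lit 7696166) (nat_lit 210) (nat_lit 5) (nat_lit 216) (nat_lit 5) (nat_lit 217) (nat_lit 5) (nat_lit 466) (nat_lit 396) (nat_lit 278)) (XT.nd (nat_lit 78) (nat_lit 532) (nat_lit 0) (XT.lf (nat_lit 0) (nat_lit 2903606616) (nat_lit 532) (nat_lit 3828409892) (nat_lit 76) (nat_lit 6024589351) (nat_lit 209) (nat_lit 5) (nat_lit 216) (nat_lit 5) (nat_lit 210) (nat_lit 5) (nat_lit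 467) (nat_lit 396) (nat_lit 277)) (XT.lf (nat_lit 0) (nat_lit 3951423285) (nat_lit 532) (nat_lit 1929693237) (nat_lit 608) (nat_lit 7021656554) (nat_lit 202) (nat_lit 5) (nat_lit 209) (nat_lit 5) (nat_lit 210) (nat_lit 5) (nat_lit 468) (nat_lit 396) (nat_lit 276)))) (XT.nd (nat_lit 78) (nat_lit 988) (nat_lit 0) (XT.lf (nat_lit 0) (nat_lit 8945887394) (nat_lit 608) (nat_lit 1156287581) (nat_lit 76) (nat_lit 2949137064) (nat_lit 202) (nat_lit 5) (nat_lit 210) (nat_lit 5) (nat_lit 203) (nat_lit 5) (nat_lit 469) (nat_lit 396) (nat_lit 275)) (XT.nd (nat_lit 78) (nat_lit 532) (nat_lit 0) (XT.lf (nat_lit 0) (nat_lit 6847942530) (nat_lit 456) (nat_lit 5264168989) (nat_lit 532) (nat_lit 1089909670) (nat_lit 196) (nat_lit 5) (nat_lit 202) (nat_lit 5) (nat_lit 203) (nat_lit 5) (nat_lit 470) (nat_lit 396) (nat_lit 274)) (XT.lf (nat_lit 0) (nat_lit 1657293975) (nat_lit 456) (nat_lit 304131211) (nat_lit 532) (nat_lit 11394032820) (nat_lit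 189) (nat_lit 5) (nat_lit 195) (nat_lit 5) (nat_lit 196) (nat_lit 5) (nat_lit 471) (nat_lit 396) (nat_lit 273))))) (XT.nd (nat_lit 234) (nat_lit 912) (nat_lit 0) (XT.nd (nat_lit 78) (nat_lit 456) (nat_lit 0) (XT.lf (nat_lit 0) (nat_lit 5116121122) (nat_lit 532) (nat_lit 3658435153) (nat_lit 76) (nat_lit 4736127050) (nat_lit 189) (nat_lit 5) (nat_lit 196) (nat_lit 5) (nat_lit 190) (nat_lit 5) (nat_lit 472) (nat_lit 396) (nat_lit 272)) (XT.nd (nat_lit 78) (nat_lit 0) (nat_lit 0) (XT.lf (nat_lit 0) (nat_lit 4576591108) (nat_lit 456) (nat_lit 3772498961) (nat_lit 532) (nat_lit 5319621870) (nat_lit 183) (nat_lit 5) (nat_lit 189) (nat_lit 5) (nat_lit 190) (nat_lit 5) (nat_lit 473) (nat_lit 396) (nat_lit 271)) (XT.lf (nat_lit 0) (nat_lit 11663641959) (nat_lit 532) (nat_lit 835932221) (nat_lit 76) (nat_lit 1329990797) (nat_lit 183) (nat_lit 5) (nat_lit 190) (nat_lit 5) (nat_lit 184) (nat_lit 5) (nat_lit 474) (nat_lit 396) (nat_lit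 270)))) (XT.nd (nat_lit 78) (nat_lit 380) (nat_lit 0) (XT.lf (nat_lit 0) (nat_lit 1095923445) (nat_lit 532) (nat_lit 6362287864) (nat_lit 76) (nat_lit 6534112430) (nat_lit 176) (nat_lit 5) (nat_lit 183) (nat_lit 5) (nat_lit 177) (nat_lit 5) (nat_lit 475) (nat_lit 396) (nat_lit 269)) (XT.nd (nat_lit 78) (nat_lit 0) (nat_lit 0) (XT.lf (nat_lit 0) (nat_lit 2108465737) (nat_lit 380) (nat_lit 2288861557) (nat_lit 456) (nat_lit 9760659793) (nat_lit 171) (nat_lit 5) (nat_lit 176) (nat_lit 5) (nat_lit 177) (nat_lit 5) (nat_lit 476) (nat_lit 396) (nat_lit 268)) (XT.lf (nat_lit 0) (nat_lit 7811186245) (nat_lit 456) (nat_lit 3534244277) (nat_lit 76) (nat_lit 2980606786) (nat_lit 171) (nat_lit 5) (nat_lit 177) (nat_lit 5) (nat_lit 172) (nat_lit 5) (nat_lit 477) (nat_lit 396) (nat_lit 267))))))))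
noncomputable def xc130 : XT := (XT.nd (nat_lit 1794) (nat_lit 1520) (nat_lit 0) (XT.nd (nat_lit 858) (nat_lit 2432) (nat_lit 0) (XT.nd (nat_lit 390) (nat_lit 1672) (nat_lit 0) (XT.nd (nat_lit 156) (nat_lit 760) (nat_lit 0) (XT.nd (nat_lit 78) (nat_lit 76) (nat_lit 0) (XT.lf (nat_lit 0) (nat_lit 5181235783) (nat_lit 456) (nat_lit 6145273540) (nat_lit 532) (nat_lit 3170277575) (nat_lit 165) (nat_lit 5) (nat_lit 171) (nat_lit 5) (nat_lit 172) (nat_lit 5) (nat_lit 478) (nat_lit 396) (nat_lit 266)) (XT.lf (nat_lit 0) (nat_lit 246340816) (nat_lit 532) (nat_lit 576222601) (nat_lit 76) (nat_lit 13848192434) (nat_lit 164) (nat_lit 5) (nat_lit 171) (nat_lit 5) (nat_lit 165) (nat_lit 5) (nat_lit 479) (nat_lit 396) (nat_lit 265))) (XT.nd (nat_lit 78) (nat_lit 380) (nat_lit 0) (XT.lf (nat_lit 0) (nat_lit 3758560030) (nat_lit 456) (nat_lit 6472742391) (nat_lit 76) (nat_lit 4615090265) (nat_lit 159) (nat_lit 5) (nat_lit 165) (nat_lit 5)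 (nat_lit 160) (nat_lit 5) (nat_lit 480) (nat_lit 396) (nat_lit 264)) (XT.nd (nat_lit 78) (nat_lit 0) (nat_lit 0) (XT.lf (nat_lit 0) (nat_lit 2489428731) (nat_lit 380) (nat_lit 4861952480) (nat_lit 456) (nat_lit 7673955840) (nat_lit 154) (nat_lit 5) (nat_lit 159) (nat_lit 5) (nat_lit 160) (nat_lit 5) (nat_lit 481) (nat_lit 396) (nat_lit 263)) (XT.lf (nat_lit 0) (nat_lit 11048730920) (nat_lit 456) (nat_lit 3515406437) (nat_lit 76) (nat_lit 643071410) (nat_lit 154) (nat_lit 5) (nat_lit 160) (nat_lit 5) (nat_lit 155) (nat_lit 5) (nat_lit 482) (nat_lit 396) (nat_lit 262))))) (XT.nd (nat_lit 234) (nat_lit 836) (nat_lit 0) (XT.nd (nat_lit 78) (nat_lit 456) (nat_lit 0) (XT.lf (nat_lit 0) (nat_lit 5705867457) (nat_lit 380) (nat_lit 9168657109) (nat_lit 456) (nat_lit 517105280) (nat_lit 149) (nat_lit 5) (nat_lit 154) (nat_lit 5) (nat_lit 155) (nat_lit 5) (nat_lit 483) (nat_lit 396) (nat_lit 261)) (XT.nd (nat_lit 78) (nat_lit 380) (nat_lit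 0) (XT.lf (nat_lit 0) (nat_lit 3164210026) (nat_lit 456) (nat_lit 463286110) (nat_lit 76) (nat_lit 11951648939) (nat_lit 148) (nat_lit 5) (nat_lit 154) (nat_lit 5) (nat_lit 149) (nat_lit 5) (nat_lit 484) (nat_lit 396) (nat_lit 260)) (XT.lf (nat_lit 0) (nat_lit 6970001883) (nat_lit 456) (nat_lit 6746116698) (nat_lit 76) (nat_lit 2053069942) (nat_lit 143) (nat_lit 5) (nat_lit 149) (nat_lit 5) (nat_lit 144) (nat_lit 5) (nat_lit 485) (nat_lit 396) (nat_lit 259)))) (XT.nd (nat_lit 78) (nat_lit 456) (nat_lit 0) (XT.lf (nat_lit 0) (nat_lit 2732276073) (nat_lit 380) (nat_lit 8150206370) (nat_lit 456) (nat_lit 5079940666) (nat_lit 138) (nat_lit 5) (nat_lit 143) (nat_lit 5) (nat_lit 144) (nat_lit 5) (nat_lit 486) (nat_lit 396) (nat_lit 258)) (XT.nd (nat_lit 78) (nat_lit 456) (nat_lit 0) (XT.lf (nat_lit 0) (nat_lit 12469845995) (nat_lit 380) (nat_lit 2434456094) (nat_lit 456) (nat_lit 1254600200) (nat_lit 138) (nat_lit 5) (nat_lit 143)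 (nat_lit 5) (nat_lit 144) (nat_lit 5) (nat_lit 487) (nat_lit 396) (nat_lit 257)) (XT.lf (nat_lit 0) (nat_lit 2660404883) (nat_lit 456) (nat_lit 10296967480) (nat_lit 76) (nat_lit 3400639025) (nat_lit 132) (nat_lit 5) (nat_lit 138) (nat_lit 5) (nat_lit 133) (nat_lit 5) (nat_lit 488) (nat_lit 396) (nat_lit 256)))))) (XT.nd (nat_lit 468) (nat_lit 1368) (nat_lit 0) (XT.nd (nat_lit 234) (nat_lit 380) (nat_lit 0) (XT.nd (nat_lit 78) (nat_lit 684) (nat_lit 0) (XT.lf (nat_lit 0) (nat_lit 6664058028) (nat_lit 456) (nat_lit 550733100) (nat_lit 76) (nat_lit 9345604337) (nat_lit 132) (nat_lit 5) (nat_lit 138) (nat_lit 5) (nat_lit 133) (nat_lit 5) (nat_lit 489) (nat_lit 396) (nat_lit 255)) (XT.nd (nat_lit 78) (nat_lit 380) (nat_lit 0) (XT.lf (nat_lit 0) (nat_lit 9493679432) (nat_lit 304) (nat_lit 1302106492) (nat_lit 380) (nat_lit 5970082828) (nat_lit 128) (nat_lit 5) (nat_lit 132) (nat_lit 5) (nat_lit 133) (nat_lit 5) (nat_lit 490) (nat_lit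 396) (nat_lit 254)) (XT.lf (nat_lit 0) (nat_lit 2755134594) (nat_lit 380) (nat_lit 12293768145) (nat_lit 456) (nat_lit 1925775212) (nat_lit 123) (nat_lit 5) (nat_lit 128) (nat_lit 5) (nat_lit 129) (nat_lit 5) (nat_lit 491) (nat_lit 396) (nat_lit 253)))) (XT.nd (nat_lit 78) (nat_lit 304) (nat_lit 0) (XT.lf (nat_lit 0) (nat_lit 2214800469) (nat_lit 456) (nat_lit 4149713385) (nat_lit 76) (nat_lit 10821980798) (nat_lit 122) (nat_lit 5) (nat_lit 128) (nat_lit 5) (nat_lit 123) (nat_lit 5) (nat_lit 492) (nat_lit 396) (nat_lit 252)) (XT.nd (nat_lit 78) (nat_lit 0) (nat_lit 0) (XT.lf (nat_lit 0) (nat_lit 6168701578) (nat_lit 304) (nat_lit 270521501) (nat_lit 380) (nat_lit 10962535033) (nat_lit 118) (nat_lit 5) (nat_lit 122) (nat_lit 5) (nat_lit 123) (nat_lit 5) (nat_lit 493) (nat_lit 396) (nat_lit 251)) (XT.lf (nat_lit 0) (nat_lit 10801587339) (nat_lit 380) (nat_lit 930858082) (nat_lit 76) (nat_lit 5887813775) (nat_lit 118) (nat_lit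 5) (nat_lit 123) (nat_lit 5) (nat_lit 119) (nat_lit 5) (nat_lit 494) (nat_lit 396) (nat_lit 250))))) (XT.nd (nat_lit 234) (nat_lit 684) (nat_lit 0) (XT.nd (nat_lit 78) (nat_lit 380) (nat_lit 0) (XT.lf (nat_lit 0) (nat_lit 9681947907) (nat_lit 304) (nat_lit 5620983409) (nat_lit 380) (nat_lit 2539165724) (nat_lit 114) (nat_lit 5) (nat_lit 118) (nat_lit 5) (nat_lit 119) (nat_lit 5) (nat_lit 495) (nat_lit 396) (nat_lit 249)) (XT.nd (nat_lit 78) (nat_lit 0) (nat_lit 0) (XT.lf (nat_lit 0) (nat_lit 1815450979) (nat_lit 380) (nat_lit 15621135333) (nat_lit 76) (nat_lit 631280204) (nat_lit 109) (nat_lit 5) (nat_lit 114) (nat_lit 5) (nat_lit 110) (nat_lit 5) (nat_lit 496) (nat_lit 396) (nat_lit 248)) (XT.lf (nat_lit 0) (nat_lit 6302721463) (nat_lit 380) (nat_lit 4995830112) (nat_lit 76) (nat_lit 6997674218) (nat_lit 109) (nat_lit 5) (nat_lit 114) (nat_lit 5) (nat_lit 110) (nat_lit 5) (nat_lit 497) (nat_lit 396) (nat_lit 247)))) (XT.nd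 (nat_lit 78) (nat_lit 380) (nat_lit 0) (XT.lf (nat_lit 0) (nat_lit 5899021846) (nat_lit 304) (nat_lit 5006449700) (nat_lit 380) (nat_lit 7623167311) (nat_lit 105) (nat_lit 5) (nat_lit 109) (nat_lit 5) (nat_lit 110) (nat_lit 5) (nat_lit 498) (nat_lit 396) (nat_lit 246)) (XT.nd (nat_lit 78) (nat_lit 380) (nat_lit 0) (XT.lf (nat_lit 0) (nat_lit 15630686509) (nat_lit 380) (nat_lit 1715317813) (nat_lit 76) (nat_lit 1419088918) (nat_lit 105) (nat_lit 5) (nat_lit 110) (nat_lit 5) (nat_lit 106) (nat_lit 5) (nat_lit 499) (nat_lit 396) (nat_lit 245)) (XT.lf (nat_lit 0) (nat_lit 1508239545) (nat_lit 380) (nat_lit 9525986711) (nat_lit 76) (nat_lit 7970203130) (nat_lit 100) (nat_lit 5) (nat_lit 105) (nat_lit 5) (nat_lit 101) (nat_lit 5) (nat_lit 500) (nat_lit 396) (nat_lit 244))))))) (XT.nd (nat_lit 51480) (nat_lit 0) (nat_lit 37848) (XT.nd (nat_lit 390) (nat_lit 608) (nat_lit 0) (XT.nd (nat_lit 156) (nat_lit 608) (nat_lit 0) (XT.nd (nat_lit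 78) (nat_lit 0) (nat_lit 0) (XT.lf (nat_lit 0) (nat_lit 1651813182) (nat_lit 304) (nat_lit 4560080391) (nat_lit 380) (nat_lit 13036043007) (nat_lit 96) (nat_lit 5) (nat_lit 100) (nat_lit 5) (nat_lit 101) (nat_lit 5) (nat_lit 501) (nat_lit 396) (nat_lit 243)) (XT.lf (nat_lit 0) (nat_lit 11075070276) (nat_lit 380) (nat_lit 6346516424) (nat_lit 76) (nat_lit 2073419388) (nat_lit 96) (nat_lit 5) (nat_lit 101) (nat_lit 5) (nat_lit 97) (nat_lit 5) (nat_lit 502) (nat_lit 396) (nat_lit 242))) (XT.nd (nat_lit 78) (nat_lit 380) (nat_lit 0) (XT.lf (nat_lit 0) (nat_lit 5145677901) (nat_lit 228) (nat_lit 10941513322) (nat_lit 304) (nat_lit 3658793288) (nat_lit 93) (nat_lit 5) (nat_lit 96) (nat_lit 5) (nat_lit 97) (nat_lit 5) (nat_lit 503) (nat_lit 396) (nat_lit 241)) (XT.nd (nat_lit 78) (nat_lit 304) (nat_lit 0) (XT.lf (nat_lit 0) (nat_lit 1212836048) (nat_lit 304) (nat_lit 3075165153) (nat_lit 76) (nat_lit 15713207480) (nat_lit 92) (nat_lit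 5) (nat_lit 96) (nat_lit 5) (nat_lit 93) (nat_lit 5) (nat_lit 504) (nat_lit 396) (nat_lit 240)) (XT.lf (nat_lit 0) (nat_lit 6194816918) (nat_lit 380) (nat_lit 11525166440) (nat_lit 76) (nat_lit 2539833156) (nat_lit 88) (nat_lit 5) (nat_lit 93) (nat_lit 5) (nat_lit 89) (nat_lit 5) (nat_lit 505) (nat_lit 396) (nat_lit 239))))) (XT.nd (nat_lit 50856) (nat_lit 0) (nat_lit 41268) (XT.nd (nat_lit 78) (nat_lit 380) (nat_lit 0) (XT.lf (nat_lit 0) (nat_lit 254576771) (nat_lit 228) (nat_lit 11061071090) (nat_lit 304) (nat_lit 9207165483) (nat_lit 85) (nat_lit 5) (nat_lit 88) (nat_lit 5) (nat_lit 89) (nat_lit 5) (nat_lit 506) (nat_lit 396) (nat_lit 238)) (XT.nd (nat_lit 78) (nat_lit 380) (nat_lit 0) (XT.lf (nat_lit 0) (nat_lit 12406878556) (nat_lit 228) (nat_lit 4197847006) (nat_lit 304) (nat_lit 4185028979) (nat_lit 85) (nat_lit 5) (nat_lit 88) (nat_lit 5) (nat_lit 89) (nat_lit 5) (nat_lit 507) (nat_lit 396) (nat_lit 237)) (XT.lf (nat_lit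 0) (nat_lit 956684442) (nat_lit 380) (nat_lit 17315562421) (nat_lit 76) (nat_lit 2789038339) (nat_lit 80) (nat_lit 5) (nat_lit 85) (nat_lit 5) (nat_lit 81) (nat_lit 5) (nat_lit 508) (nat_lit 396) (nat_lit 236)))) (XT.nd (nat_lit 78) (nat_lit 1064) (nat_lit 0) (XT.lf (nat_lit 0) (nat_lit 1081971490) (nat_lit 0) (nat_lit 1081971490) (nat_lit 988) (nat_lit 1333443907) (nat_lit 637) (nat_lit 5) (nat_lit 637) (nat_lit 3) (nat_lit 650) (nat_lit 3) (nat_lit 397) (nat_lit 397) (nat_lit 346)) (XT.nd (nat_lit 78) (nat_lit 1064) (nat_lit 0) (XT.lf (nat_lit 0) (nat_lit 5625317390) (nat_lit 0) (nat_lit 552982272) (nat_lit 988) (nat_lit 849742188) (nat_lit 637) (nat_lit 5) (nat_lit 637) (nat_lit 3) (nat_lit 650) (nat_lit 3) (nat_lit 398) (nat_lit 397) (nat_lit 345)) (XT.lf (nat_lit 0) (nat_lit 963788436) (nat_lit 1064) (nat_lit 4979409797) (nat_lit 1140) (nat_lit 1119196393) (nat_lit 623) (nat_lit 5) (nat_lit 637) (nat_lit 5) (nat_lit 638)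 (nat_lit 5) (nat_lit 399) (nat_lit 397) (nat_lit 344)))))) (XT.nd (nat_lit 468) (nat_lit 2356) (nat_lit 0) (XT.nd (nat_lit 234) (nat_lit 1064) (nat_lit 0) (XT.nd (nat_lit 78) (nat_lit 0) (nat_lit 0) (XT.lf (nat_lit 0) (nat_lit 2768556747) (nat_lit 1064) (nat_lit 1474464654) (nat_lit 1140) (nat_lit 2854987356) (nat_lit 623) (nat_lit 5) (nat_lit 637) (nat_lit 5) (nat_lit 638) (nat_lit 5) (nat_lit 400) (nat_lit 397) (nat_lit 343)) (XT.nd (nat_lit 78) (nat_lit 0) (nat_lit 0) (XT.lf (nat_lit 76) (nat_lit 2103372205) (nat_lit 0) (nat_lit 2473819407) (nat_lit 1140) (nat_lit 2557801407) (nat_lit 624) (nat_lit 5) (nat_lit 623) (nat_lit 5) (nat_lit 638) (nat_lit 5) (nat_lit 401) (nat_lit 397) (nat_lit 342)) (XT.lf (nat_lit 76) (nat_lit 5748122381) (nat_lit 0) (nat_lit 638625726) (nat_lit 1140) (nat_lit 786686894) (nat_lit 624) (nat_lit 5) (nat_lit 623) (nat_lit 5) (nat_lit 638) (nat_lit 5) (nat_lit 402) (nat_lit 397) (nat_lit 341))))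 (XT.nd (nat_lit 78) (nat_lit 0) (nat_lit 0) (XT.lf (nat_lit 0) (nat_lit 984801672) (nat_lit 1140) (nat_lit 4970127337) (nat_lit 1216) (nat_lit 1258030343) (nat_lit 609) (nat_lit 5) (nat_lit 624) (nat_lit 5) (nat_lit 625) (nat_lit 5) (nat_lit 403) (nat_lit 397) (nat_lit 340)) (XT.nd (nat_lit 78) (nat_lit 0) (nat_lit 0) (XT.lf (nat_lit 0) (nat_lit 2751326627) (nat_lit 1140) (nat_lit 1284528885) (nat_lit 1216) (nat_lit 3217924133) (nat_lit 609) (nat_lit 5) (nat_lit 624) (nat_lit 5) (nat_lit 625) (nat_lit 5) (nat_lit 404) (nat_lit 397) (nat_lit 339)) (XT.lf (nat_lit 76) (nat_lit 2482235003) (nat_lit 0) (nat_lit 2044194039) (nat_lit 1216) (nat_lit 2769534384) (nat_lit 610) (nat_lit 5) (nat_lit 609) (nat_lit 5) (nat_lit 625) (nat_lit 5) (nat_lit 405) (nat_lit 397) (nat_lit 338))))) (XT.nd (nat_lit 234) (nat_lit 1216) (nat_lit 0) (XT.nd (nat_lit 78) (nat_lit 1216) (nat_lit 0) (XT.lf (nat_lit 0) (nat_lit 6303549347) (nat_lit 1140)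 (nat_lit 1022950796) (nat_lit 1216) (nat_lit 13172207) (nat_lit 610) (nat_lit 5) (nat_lit 625) (nat_lit 5) (nat_lit 626) (nat_lit 5) (nat_lit 406) (nat_lit 397) (nat_lit 337)) (XT.nd (nat_lit 78) (nat_lit 0) (nat_lit 0) (XT.lf (nat_lit 0) (nat_lit 713020263) (nat_lit 1216) (nat_lit 4547161488) (nat_lit 1292) (nat_lit 2124176716) (nat_lit 594) (nat_lit 5) (nat_lit 610) (nat_lit 5) (nat_lit 611) (nat_lit 5) (nat_lit 407) (nat_lit 397) (nat_lit 336)) (XT.lf (nat_lit 0) (nat_lit 2449307074) (nat_lit 1216) (nat_lit 674077608) (nat_lit 1292) (nat_lit 4307107068) (nat_lit 594) (nat_lit 5) (nat_lit 610) (nat_lit 5) (nat_lit 611) (nat_lit 5) (nat_lit 408) (nat_lit 397) (nat_lit 335)))) (XT.nd (nat_lit 78) (nat_lit 1216) (nat_lit 0) (XT.lf (nat_lit 76) (nat_lit 3294396644) (nat_lit 0) (nat_lit 907225519) (nat_lit 1292) (nat_lit 3276310372) (nat_lit 595) (nat_lit 5) (nat_lit 594) (nat_lit 5) (nat_lit 611) (nat_lit 5) (nat_lit 409) (nat_lit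 397) (nat_lit 334)) (XT.nd (nat_lit 78) (nat_lit 1292) (nat_lit 0) (XT.lf (nat_lit 0) (nat_lit 5962952461) (nat_lit 1216) (nat_lit 209674929) (nat_lit 1292) (nat_lit 1354226041) (nat_lit 595) (nat_lit 5) (nat_lit 611) (nat_lit 5) (nat_lit 612) (nat_lit 5) (nat_lit 410) (nat_lit 397) (nat_lit 333)) (XT.lf (nat_lit 0) (nat_lit 172789052) (nat_lit 1292) (nat_lit 3715228302) (nat_lit 1368) (nat_lit 3688873334) (nat_lit 578) (nat_lit 5) (nat_lit 595) (nat_lit 5) (nat_lit 596) (nat_lit 5) (nat_lit 411) (nat_lit 397) (nat_lit 332))))))))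
noncomputable def xc131 : XT := (XT.nd (nat_lit 1794) (nat_lit 10640) (nat_lit 0) (XT.nd (nat_lit 858) (nat_lit 9956) (nat_lit 0) (XT.nd (nat_lit 390) (nat_lit 2812) (nat_lit 0) (XT.nd (nat_lit 156) (nat_lit 1216) (nat_lit 0) (XT.nd (nat_lit 78) (nat_lit 0) (nat_lit 76) (XT.lf (nat_lit 76) (nat_lit 357849335) (nat_lit 0) (nat_lit 1530914067) (nat_lit 1368) (nat_lit 5739658776) (nat_lit 579) (nat_lit 5) (nat_lit 578) (nat_lit 5) (nat_lit 596) (nat_lit 5) (nat_lit 412) (nat_lit 397) (nat_lit 331)) (XT.lf (nat_lit 0) (nat_lit 3632217194) (nat_lit 1292) (nat_lit 3150088830) (nat_lit 1368) (nat_lit 898824936) (nat_lit 579) (nat_lit 5) (nat_lit 596) (nat_lit 5) (nat_lit 597) (nat_lit 5) (nat_lit 413) (nat_lit 397) (nat_lit 330))) (XT.nd (nat_lit 78) (nat_lit 1292) (nat_lit 0) (XT.lf (nat_lit 76) (nat_lit 1030180078) (nat_lit 0) (nat_lit 4360317948) (nat_lit 1368) (nat_lit 2344806401) (nat_lit 580) (nat_lit 5) (nat_lit 579) (nat_lit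 5) (nat_lit 597) (nat_lit 5) (nat_lit 414) (nat_lit 397) (nat_lit 329)) (XT.nd (nat_lit 78) (nat_lit 1292) (nat_lit 0) (XT.lf (nat_lit 76) (nat_lit 5310928403) (nat_lit 0) (nat_lit 1857840917) (nat_lit 1368) (nat_lit 622105026) (nat_lit 580) (nat_lit 5) (nat_lit 579) (nat_lit 5) (nat_lit 597) (nat_lit 5) (nat_lit 415) (nat_lit 397) (nat_lit 328)) (XT.lf (nat_lit 0) (nat_lit 1100839288) (nat_lit 1368) (nat_lit 6032164024) (nat_lit 1444) (nat_lit 714800565) (nat_lit 562) (nat_lit 5) (nat_lit 580) (nat_lit 5) (nat_lit 581) (nat_lit 5) (nat_lit 416) (nat_lit 397) (nat_lit 327))))) (XT.nd (nat_lit 234) (nat_lit 2812) (nat_lit 0) (XT.nd (nat_lit 78) (nat_lit 0) (nat_lit 0) (XT.lf (nat_lit 0) (nat_lit 2843728258) (nat_lit 1368) (nat_lit 1717732698) (nat_lit 1444) (nat_lit 3344461417) (nat_lit 562) (nat_lit 5) (nat_lit 580) (nat_lit 5) (nat_lit 581) (nat_lit 5) (nat_lit 417) (nat_lit 397) (nat_lit 326)) (XT.nd (nat_lit 78) (nat_lit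 0) (nat_lit 76) (XT.lf (nat_lit 76) (nat_lit 2692402990) (nat_lit 0) (nat_lit 1911996447) (nat_lit 1444) (nat_lit 3361154071) (nat_lit 563) (nat_lit 5) (nat_lit 562) (nat_lit 5) (nat_lit 581) (nat_lit 5) (nat_lit 418) (nat_lit 397) (nat_lit 325)) (XT.lf (nat_lit 0) (nat_lit 6383027580) (nat_lit 1368) (nat_lit 843798301) (nat_lit 76) (nat_lit 799905099) (nat_lit 563) (nat_lit 5) (nat_lit 581) (nat_lit 5) (nat_lit 564) (nat_lit 5) (nat_lit 419) (nat_lit 397) (nat_lit 324)))) (XT.nd (nat_lit 78) (nat_lit 1444) (nat_lit 0) (XT.lf (nat_lit 0) (nat_lit 109946656) (nat_lit 1444) (nat_lit 4405955434) (nat_lit 76) (nat_lit 3573158763) (nat_lit 544) (nat_lit 5) (nat_lit 563) (nat_lit 5) (nat_lit 545) (nat_lit 5) (nat_lit 420) (nat_lit 397) (nat_lit 323)) (XT.nd (nat_lit 78) (nat_lit 0) (nat_lit 0) (XT.lf (nat_lit 0) (nat_lit 123936986) (nat_lit 1444) (nat_lit 1726183711) (nat_lit 1520) (nat_lit 6302838218) (nat_lit 525) (nat_lit 5) (nat_lit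 544) (nat_lit 5) (nat_lit 545) (nat_lit 5) (nat_lit 421) (nat_lit 397) (nat_lit 322)) (XT.lf (nat_lit 0) (nat_lit 3629584396) (nat_lit 1520) (nat_lit 3447611773) (nat_lit 76) (nat_lit 1140856976) (nat_lit 525) (nat_lit 5) (nat_lit 545) (nat_lit 5) (nat_lit 526) (nat_lit 5) (nat_lit 422) (nat_lit 397) (nat_lit 321)))))) (XT.nd (nat_lit 468) (nat_lit 3344) (nat_lit 0) (XT.nd (nat_lit 234) (nat_lit 3420) (nat_lit 0) (XT.nd (nat_lit 78) (nat_lit 1672) (nat_lit 0) (XT.lf (nat_lit 0) (nat_lit 1203548213) (nat_lit 1520) (nat_lit 4228429840) (nat_lit 1596) (nat_lit 2852732170) (nat_lit 505) (nat_lit 5) (nat_lit 525) (nat_lit 5) (nat_lit 526) (nat_lit 5) (nat_lit 423) (nat_lit 397) (nat_lit 320)) (XT.nd (nat_lit 78) (nat_lit 1672) (nat_lit 0) (XT.lf (nat_lit 0) (nat_lit 5968405816) (nat_lit 1520) (nat_lit 1293700230) (nat_lit 1596) (nat_lit 1090768290) (nat_lit 505) (nat_lit 5) (nat_lit 525) (nat_lit 5) (nat_lit 526) (nat_lit 5) (nat_lit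 424) (nat_lit 397) (nat_lit 319)) (XT.lf (nat_lit 0) (nat_lit 692957646) (nat_lit 1672) (nat_lit 6026653256) (nat_lit 76) (nat_lit 1702790667) (nat_lit 483) (nat_lit 5) (nat_lit 505) (nat_lit 5) (nat_lit 484) (nat_lit 5) (nat_lit 425) (nat_lit 397) (nat_lit 318)))) (XT.nd (nat_lit 78) (nat_lit 3420) (nat_lit 0) (XT.lf (nat_lit 0) (nat_lit 2491869589) (nat_lit 1672) (nat_lit 1231452280) (nat_lit 76) (nat_lit 4769978124) (nat_lit 483) (nat_lit 5) (nat_lit 505) (nat_lit 5) (nat_lit 484) (nat_lit 5) (nat_lit 426) (nat_lit 397) (nat_lit 317)) (XT.nd (nat_lit 78) (nat_lit 1748) (nat_lit 0) (XT.lf (nat_lit 0) (nat_lit 3682014181) (nat_lit 1672) (nat_lit 638679771) (nat_lit 1748) (nat_lit 4245050794) (nat_lit 461) (nat_lit 5) (nat_lit 483) (nat_lit 5) (nat_lit 484) (nat_lit 5) (nat_lit 427) (nat_lit 397) (nat_lit 316)) (XT.lf (nat_lit 0) (nat_lit 28628098) (nat_lit 1748) (nat_lit 6152725531) (nat_lit 1824) (nat_lit 2458386491) (nat_lit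 438) (nat_lit 5) (nat_lit 461) (nat_lit 5) (nat_lit 462) (nat_lit 5) (nat_lit 428) (nat_lit 397) (nat_lit 315))))) (XT.nd (nat_lit 234) (nat_lit 1824) (nat_lit 0) (XT.nd (nat_lit 78) (nat_lit 1520) (nat_lit 0) (XT.lf (nat_lit 0) (nat_lit 5074941081) (nat_lit 1748) (nat_lit 3012141642) (nat_lit 1824) (nat_lit 627982326) (nat_lit 438) (nat_lit 5) (nat_lit 461) (nat_lit 5) (nat_lit 462) (nat_lit 5) (nat_lit 429) (nat_lit 397) (nat_lit 314)) (XT.nd (nat_lit 78) (nat_lit 0) (nat_lit 0) (XT.lf (nat_lit 0) (nat_lit 1204595512) (nat_lit 1520) (nat_lit 7378794774) (nat_lit 76) (nat_lit 208715490) (nat_lit 418) (nat_lit 5) (nat_lit 438) (nat_lit 5) (nat_lit 419) (nat_lit 5) (nat_lit 430) (nat_lit 397) (nat_lit 313)) (XT.lf (nat_lit 0) (nat_lit 3081629455) (nat_lit 1520) (nat_lit 2303809215) (nat_lit 76) (nat_lit 3484847742) (nat_lit 418) (nat_lit 5) (nat_lit 438) (nat_lit 5) (nat_lit 419) (nat_lit 5) (nat_lit 431) (nat_lit 397) (nat_lit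 312)))) (XT.nd (nat_lit 78) (nat_lit 912) (nat_lit 0) (XT.lf (nat_lit 0) (nat_lit 2884527341) (nat_lit 912) (nat_lit 2102629014) (nat_lit 988) (nat_lit 3963061514) (nat_lit 406) (nat_lit 5) (nat_lit 418) (nat_lit 5) (nat_lit 419) (nat_lit 5) (nat_lit 432) (nat_lit 397) (nat_lit 311)) (XT.nd (nat_lit 78) (nat_lit 912) (nat_lit 0) (XT.lf (nat_lit 0) (nat_lit 6927056147) (nat_lit 988) (nat_lit 858143893) (nat_lit 76) (nat_lit 1246628801) (nat_lit 406) (nat_lit 5) (nat_lit 419) (nat_lit 5) (nat_lit 407) (nat_lit 5) (nat_lit 433) (nat_lit 397) (nat_lit 310)) (XT.lf (nat_lit 0) (nat_lit 4472429500) (nat_lit 912) (nat_lit 4449435536) (nat_lit 988) (nat_lit 192890784) (nat_lit 394) (nat_lit 5) (nat_lit 406) (nat_lit 5) (nat_lit 407) (nat_lit 5) (nat_lit 434) (nat_lit 397) (nat_lit 309))))))) (XT.nd (nat_lit 936) (nat_lit 4788) (nat_lit 0) (XT.nd (nat_lit 468) (nat_lit 2356) (nat_lit 0) (XT.nd (nat_lit 234) (nat_lit 1672) (nat_lit 0)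 (XT.nd (nat_lit 78) (nat_lit 836) (nat_lit 0) (XT.lf (nat_lit 0) (nat_lit 693623994) (nat_lit 912) (nat_lit 1024185499) (nat_lit 988) (nat_lit 7481636900) (nat_lit 381) (nat_lit 5) (nat_lit 393) (nat_lit 5) (nat_lit 394) (nat_lit 5) (nat_lit 435) (nat_lit 397) (nat_lit 308)) (XT.nd (nat_lit 78) (nat_lit 836) (nat_lit 0) (XT.lf (nat_lit 0) (nat_lit 3685221010) (nat_lit 988) (nat_lit 3129914155) (nat_lit 76) (nat_lit 2470254174) (nat_lit 381) (nat_lit 5) (nat_lit 394) (nat_lit 5) (nat_lit 382) (nat_lit 5) (nat_lit 436) (nat_lit 397) (nat_lit 307)) (XT.lf (nat_lit 0) (nat_lit 2351680233) (nat_lit 836) (nat_lit 3336552644) (nat_lit 912) (nat_lit 3684898780) (nat_lit 370) (nat_lit 5) (nat_lit 381) (nat_lit 5) (nat_lit 382) (nat_lit 5) (nat_lit 437) (nat_lit 397) (nat_lit 306)))) (XT.nd (nat_lit 78) (nat_lit 1672) (nat_lit 0) (XT.lf (nat_lit 0) (nat_lit 7728359240) (nat_lit 912) (nat_lit 1504623042) (nat_lit 76) (nat_lit 229710897)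 (nat_lit 370) (nat_lit 5) (nat_lit 382) (nat_lit 5) (nat_lit 371) (nat_lit 5) (nat_lit 438) (nat_lit 397) (nat_lit 305)) (XT.nd (nat_lit 78) (nat_lit 760) (nat_lit 0) (XT.lf (nat_lit 0) (nat_lit 275988901) (nat_lit 912) (nat_lit 5426511932) (nat_lit 76) (nat_lit 3851035303) (nat_lit 358) (nat_lit 5) (nat_lit 370) (nat_lit 5) (nat_lit 359) (nat_lit 5) (nat_lit 439) (nat_lit 397) (nat_lit 304)) (XT.lf (nat_lit 0) (nat_lit 211035337) (nat_lit 760) (nat_lit 2079008123) (nat_lit 836) (nat_lit 7356193383) (nat_lit 348) (nat_lit 5) (nat_lit 358) (nat_lit 5) (nat_lit 359) (nat_lit 5) (nat_lit 440) (nat_lit 397) (nat_lit 303))))) (XT.nd (nat_lit 234) (nat_lit 1596) (nat_lit 0) (XT.nd (nat_lit 78) (nat_lit 760) (nat_lit 0) (XT.lf (nat_lit 0) (nat_lit 4367037279) (nat_lit 836) (nat_lit 3742113788) (nat_lit 76) (nat_lit 1631192365) (nat_lit 348) (nat_lit 5) (nat_lit 359) (nat_lit 5) (nat_lit 349) (nat_lit 5) (nat_lit 441) (nat_lit 397)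 (nat_lit 302)) (XT.nd (nat_lit 78) (nat_lit 0) (nat_lit 0) (XT.lf (nat_lit 0) (nat_lit 2052295039) (nat_lit 760) (nat_lit 4436353292) (nat_lit 836) (nat_lit 3347627204) (nat_lit 338) (nat_lit 5) (nat_lit 348) (nat_lit 5) (nat_lit 349) (nat_lit 5) (nat_lit 442) (nat_lit 397) (nat_lit 301)) (XT.lf (nat_lit 0) (nat_lit 7987797787) (nat_lit 760) (nat_lit 666294810) (nat_lit 836) (nat_lit 1280010498) (nat_lit 338) (nat_lit 5) (nat_lit 348) (nat_lit 5) (nat_lit 349) (nat_lit 5) (nat_lit 443) (nat_lit 397) (nat_lit 300)))) (XT.nd (nat_lit 78) (nat_lit 760) (nat_lit 0) (XT.lf (nat_lit 0) (nat_lit 841687125) (nat_lit 836) (nat_lit 6024302618) (nat_lit 76) (nat_lit 3167322457) (nat_lit 327) (nat_lit 5) (nat_lit 338) (nat_lit 5) (nat_lit 328) (nat_lit 5) (nat_lit 444) (nat_lit 397) (nat_lit 299)) (XT.nd (nat_lit 78) (nat_lit 760) (nat_lit 0) (XT.lf (nat_lit 0) (nat_lit 2983133017) (nat_lit 836) (nat_lit 63028323) (nat_lit 76) (nat_lit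 7088290412) (nat_lit 327) (nat_lit 5) (nat_lit 338) (nat_lit 5) (nat_lit 328) (nat_lit 5) (nat_lit 445) (nat_lit 397) (nat_lit 298)) (XT.lf (nat_lit 0) (nat_lit 5189926779) (nat_lit 836) (nat_lit 4171060339) (nat_lit 76) (nat_lit 876181063) (nat_lit 317) (nat_lit 5) (nat_lit 328) (nat_lit 5) (nat_lit 318) (nat_lit 5) (nat_lit 446) (nat_lit 397) (nat_lit 297)))))) (XT.nd (nat_lit 468) (nat_lit 1976) (nat_lit 0) (XT.nd (nat_lit 234) (nat_lit 1368) (nat_lit 0) (XT.nd (nat_lit 78) (nat_lit 760) (nat_lit 0) (XT.lf (nat_lit 0) (nat_lit 1956849634) (nat_lit 684) (nat_lit 5494907987) (nat_lit 760) (nat_lit 2889967675) (nat_lit 308) (nat_lit 5) (nat_lit 317) (nat_lit 5) (nat_lit 318) (nat_lit 5) (nat_lit 447) (nat_lit 397) (nat_lit 296)) (XT.nd (nat_lit 78) (nat_lit 760) (nat_lit 0) (XT.lf (nat_lit 0) (nat_lit 8238635301) (nat_lit 684) (nat_lit 1526052332) (nat_lit 760) (nat_lit 683572959) (nat_lit 308) (nat_lit 5) (nat_lit 317) (nat_lit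 5) (nat_lit 318) (nat_lit 5) (nat_lit 448) (nat_lit 397) (nat_lit 295)) (XT.lf (nat_lit 0) (nat_lit 1567827058) (nat_lit 760) (nat_lit 6465420781) (nat_lit 76) (nat_lit 2523050845) (nat_lit 298) (nat_lit 5) (nat_lit 308) (nat_lit 5) (nat_lit 299) (nat_lit 5) (nat_lit 449) (nat_lit 397) (nat_lit 294)))) (XT.nd (nat_lit 78) (nat_lit 1368) (nat_lit 0) (XT.lf (nat_lit 0) (nat_lit 3858546995) (nat_lit 760) (nat_lit 158861003) (nat_lit 76) (nat_lit 6648934316) (nat_lit 298) (nat_lit 5) (nat_lit 308) (nat_lit 5) (nat_lit 299) (nat_lit 5) (nat_lit 450) (nat_lit 397) (nat_lit 293)) (XT.nd (nat_lit 78) (nat_lit 684) (nat_lit 0) (XT.lf (nat_lit 0) (nat_lit 6215781283) (nat_lit 760) (nat_lit 4446851773) (nat_lit 76) (nat_lit 115543728) (nat_lit 289) (nat_lit 5) (nat_lit 299) (nat_lit 5) (nat_lit 290) (nat_lit 5) (nat_lit 451) (nat_lit 397) (nat_lit 292)) (XT.lf (nat_lit 0) (nat_lit 2036324412) (nat_lit 684) (nat_lit 6603794407) (nat_lit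 760) (nat_lit 2251733842) (nat_lit 280) (nat_lit 5) (nat_lit 289) (nat_lit 5) (nat_lit 290) (nat_lit 5) (nat_lit 452) (nat_lit 397) (nat_lit 291))))) (XT.nd (nat_lit 234) (nat_lit 1292) (nat_lit 0) (XT.nd (nat_lit 78) (nat_lit 608) (nat_lit 0) (XT.lf (nat_lit 0) (nat_lit 112967877) (nat_lit 760) (nat_lit 2323770646) (nat_lit 76) (nat_lit 8570869500) (nat_lit 279) (nat_lit 5) (nat_lit 289) (nat_lit 5) (nat_lit 280) (nat_lit 5) (nat_lit 453) (nat_lit 397) (nat_lit 290)) (XT.nd (nat_lit 78) (nat_lit 0) (nat_lit 0) (XT.lf (nat_lit 0) (nat_lit 2514734603) (nat_lit 684) (nat_lit 6781053326) (nat_lit 76) (nat_lit 1829198115) (nat_lit 271) (nat_lit 5) (nat_lit 280) (nat_lit 5) (nat_lit 272) (nat_lit 5) (nat_lit 454) (nat_lit 397) (nat_lit 289)) (XT.lf (nat_lit 0) (nat_lit 4976160639) (nat_lit 684) (nat_lit 109003014) (nat_lit 76) (nat_lit 6159319085) (nat_lit 271) (nat_lit 5) (nat_lit 280) (nat_lit 5) (nat_lit 272) (nat_lit 5) (nat_lit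 455) (nat_lit 397) (nat_lit 288)))) (XT.nd (nat_lit 78) (nat_lit 684) (nat_lit 0) (XT.lf (nat_lit 0) (nat_lit 6760792482) (nat_lit 608) (nat_lit 750104183) (nat_lit 684) (nat_lit 3854994592) (nat_lit 263) (nat_lit 5) (nat_lit 271) (nat_lit 5) (nat_lit 272) (nat_lit 5) (nat_lit 456) (nat_lit 397) (nat_lit 287)) (XT.nd (nat_lit 78) (nat_lit 76) (nat_lit 0) (XT.lf (nat_lit 0) (nat_lit 2260988093) (nat_lit 608) (nat_lit 7854981568) (nat_lit 684) (nat_lit 1373368894) (nat_lit 255) (nat_lit 5) (nat_lit 263) (nat_lit 5) (nat_lit 264) (nat_lit 5) (nat_lit 457) (nat_lit 397) (nat_lit 286)) (XT.lf (nat_lit 0) (nat_lit 1159259893) (nat_lit 684) (nat_lit 2325177434) (nat_lit 76) (nat_lit 8130339304) (nat_lit 254) (nat_lit 5) (nat_lit 263) (nat_lit 5) (nat_lit 255) (nat_lit 5) (nat_lit 458) (nat_lit 397) (nat_lit 285))))))))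
noncomputable def xc132 : XT := (XT.nd (nat_lit 1794) (nat_lit 5016) (nat_lit 0) (XT.nd (nat_lit 858) (nat_lit 3268) (nat_lit 0) (XT.nd (nat_lit 390) (nat_lit 2128) (nat_lit 0) (XT.nd (nat_lit 156) (nat_lit 684) (nat_lit 0) (XT.nd (nat_lit 78) (nat_lit 532) (nat_lit 0) (XT.lf (nat_lit 0) (nat_lit 3742393312) (nat_lit 684) (nat_lit 7003854987) (nat_lit 76) (nat_lit 995932036) (nat_lit 246) (nat_lit 5) (nat_lit 255) (nat_lit 5) (nat_lit 247) (nat_lit 5) (nat_lit 459) (nat_lit 397) (nat_lit 284)) (XT.lf (nat_lit 0) (nat_lit 55975415) (nat_lit 532) (nat_lit 6341410020) (nat_lit 608) (nat_lit 5474345945) (nat_lit 239) (nat_lit 5) (nat_lit 246) (nat_lit 5) (nat_lit 247) (nat_lit 5) (nat_lit 460) (nat_lit 397) (nat_lit 283))) (XT.nd (nat_lit 78) (nat_lit 684) (nat_lit 0) (XT.lf (nat_lit 0) (nat_lit 7327725726) (nat_lit 532) (nat_lit 1806015929) (nat_lit 608) (nat_lit 2869569633) (nat_lit 239) (nat_lit 5) (nat_lit 246) (nat_lit 5)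 (nat_lit 247) (nat_lit 5) (nat_lit 461) (nat_lit 397) (nat_lit 282)) (XT.nd (nat_lit 78) (nat_lit 76) (nat_lit 0) (XT.lf (nat_lit 0) (nat_lit 2599089386) (nat_lit 608) (nat_lit 9342517672) (nat_lit 684) (nat_lit 195583162) (nat_lit 231) (nat_lit 5) (nat_lit 239) (nat_lit 5) (nat_lit 240) (nat_lit 5) (nat_lit 462) (nat_lit 397) (nat_lit 281)) (XT.lf (nat_lit 0) (nat_lit 2523899977) (nat_lit 684) (nat_lit 2243253949) (nat_lit 76) (nat_lit 7505762517) (nat_lit 230) (nat_lit 5) (nat_lit 239) (nat_lit 5) (nat_lit 231) (nat_lit 5) (nat_lit 463) (nat_lit 397) (nat_lit 280))))) (XT.nd (nat_lit 234) (nat_lit 1064) (nat_lit 0) (XT.nd (nat_lit 78) (nat_lit 532) (nat_lit 0) (XT.lf (nat_lit 0) (nat_lit 5241243751) (nat_lit 532) (nat_lit 69980724) (nat_lit 608) (nat_lit 7099788337) (nat_lit 223) (nat_lit 5) (nat_lit 230) (nat_lit 5) (nat_lit 231) (nat_lit 5) (nat_lit 464) (nat_lit 397) (nat_lit 279)) (XT.nd (nat_lit 78) (nat_lit 0) (nat_lit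 0) (XT.lf (nat_lit 0) (nat_lit 303643708) (nat_lit 532) (nat_lit 7880629442) (nat_lit 608) (nat_lit 4367001237) (nat_lit 216) (nat_lit 5) (nat_lit 223) (nat_lit 5) (nat_lit 224) (nat_lit 5) (nat_lit 465) (nat_lit 397) (nat_lit 278)) (XT.lf (nat_lit 0) (nat_lit 7999544717) (nat_lit 532) (nat_lit 3146206928) (nat_lit 608) (nat_lit 1547972947) (nat_lit 216) (nat_lit 5) (nat_lit 223) (nat_lit 5) (nat_lit 224) (nat_lit 5) (nat_lit 466) (nat_lit 397) (nat_lit 277)))) (XT.nd (nat_lit 78) (nat_lit 532) (nat_lit 0) (XT.lf (nat_lit 0) (nat_lit 1323317663) (nat_lit 532) (nat_lit 9832050222) (nat_lit 76) (nat_lit 1683220389) (nat_lit 209) (nat_lit 5) (nat_lit 216) (nat_lit 5) (nat_lit 210) (nat_lit 5) (nat_lit 467) (nat_lit 397) (nat_lit 276)) (XT.nd (nat_lit 78) (nat_lit 532) (nat_lit 0) (XT.lf (nat_lit 0) (nat_lit 4266644237) (nat_lit 532) (nat_lit 2115733551) (nat_lit 76) (nat_lit 6603062664) (nat_lit 209) (nat_lit 5) (nat_lit 216)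 (nat_lit 5) (nat_lit 210) (nat_lit 5) (nat_lit 468) (nat_lit 397) (nat_lit 275)) (XT.lf (nat_lit 0) (nat_lit 5807924944) (nat_lit 532) (nat_lit 1481732374) (nat_lit 608) (nat_lit 5845158523) (nat_lit 202) (nat_lit 5) (nat_lit 209) (nat_lit 5) (nat_lit 210) (nat_lit 5) (nat_lit 469) (nat_lit 397) (nat_lit 274)))))) (XT.nd (nat_lit 468) (nat_lit 1368) (nat_lit 0) (XT.nd (nat_lit 234) (nat_lit 912) (nat_lit 0) (XT.nd (nat_lit 78) (nat_lit 532) (nat_lit 0) (XT.lf (nat_lit 0) (nat_lit 593395481) (nat_lit 456) (nat_lit 9803965809) (nat_lit 532) (nat_lit 2889335349) (nat_lit 196) (nat_lit 5) (nat_lit 202) (nat_lit 5) (nat_lit 203) (nat_lit 5) (nat_lit 470) (nat_lit 397) (nat_lit 273)) (XT.nd (nat_lit 78) (nat_lit 456) (nat_lit 0) (XT.lf (nat_lit 0) (nat_lit 166580596) (nat_lit 532) (nat_lit 4703550840) (nat_lit 76) (nat_lit 8570617252) (nat_lit 195) (nat_lit 5) (nat_lit 202) (nat_lit 5) (nat_lit 196) (nat_lit 5) (nat_lit 471) (nat_lit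 397) (nat_lit 272)) (XT.lf (nat_lit 0) (nat_lit 3252288970) (nat_lit 532) (nat_lit 10149483405) (nat_lit 76) (nat_lit 195582557) (nat_lit 189) (nat_lit 5) (nat_lit 196) (nat_lit 5) (nat_lit 190) (nat_lit 5) (nat_lit 472) (nat_lit 397) (nat_lit 271)))) (XT.nd (nat_lit 78) (nat_lit 912) (nat_lit 0) (XT.lf (nat_lit 0) (nat_lit 6447511578) (nat_lit 532) (nat_lit 1985888372) (nat_lit 76) (nat_lit 5322739672) (nat_lit 189) (nat_lit 5) (nat_lit 196) (nat_lit 5) (nat_lit 190) (nat_lit 5) (nat_lit 473) (nat_lit 397) (nat_lit 270)) (XT.nd (nat_lit 78) (nat_lit 456) (nat_lit 0) (XT.lf (nat_lit 0) (nat_lit 6402353444) (nat_lit 456) (nat_lit 3329946862) (nat_lit 532) (nat_lit 4185288746) (nat_lit 183) (nat_lit 5) (nat_lit 189) (nat_lit 5) (nat_lit 190) (nat_lit 5) (nat_lit 474) (nat_lit 397) (nat_lit 269)) (XT.lf (nat_lit 0) (nat_lit 879833829) (nat_lit 456) (nat_lit 12218471520) (nat_lit 532) (nat_lit 983653943) (nat_lit 177) (nat_lit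 5) (nat_lit 183) (nat_lit 5) (nat_lit 184) (nat_lit 5) (nat_lit 475) (nat_lit 397) (nat_lit 268))))) (XT.nd (nat_lit 234) (nat_lit 912) (nat_lit 0) (XT.nd (nat_lit 78) (nat_lit 380) (nat_lit 0) (XT.lf (nat_lit 0) (nat_lit 2309175668) (nat_lit 532) (nat_lit 4763915312) (nat_lit 76) (nat_lit 7175089954) (nat_lit 176) (nat_lit 5) (nat_lit 183) (nat_lit 5) (nat_lit 177) (nat_lit 5) (nat_lit 476) (nat_lit 397) (nat_lit 267)) (XT.nd (nat_lit 78) (nat_lit 0) (nat_lit 0) (XT.lf (nat_lit 0) (nat_lit 3864900609) (nat_lit 380) (nat_lit 1799477649) (nat_lit 456) (nat_lit 8753027066) (nat_lit 171) (nat_lit 5) (nat_lit 176) (nat_lit 5) (nat_lit 177) (nat_lit 5) (nat_lit 477) (nat_lit 397) (nat_lit 266)) (XT.lf (nat_lit 0) (nat_lit 9126801185) (nat_lit 456) (nat_lit 1904407161) (nat_lit 76) (nat_lit 3558005593) (nat_lit 171) (nat_lit 5) (nat_lit 177) (nat_lit 5) (nat_lit 172) (nat_lit 5) (nat_lit 478) (nat_lit 397) (nat_lit 265)))) (XT.nd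 (nat_lit 78) (nat_lit 456) (nat_lit 0) (XT.lf (nat_lit 0) (nat_lit 6974194855) (nat_lit 456) (nat_lit 5726470987) (nat_lit 532) (nat_lit 2062951041) (nat_lit 165) (nat_lit 5) (nat_lit 171) (nat_lit 5) (nat_lit 172) (nat_lit 5) (nat_lit 479) (nat_lit 397) (nat_lit 264)) (XT.nd (nat_lit 78) (nat_lit 0) (nat_lit 0) (XT.lf (nat_lit 0) (nat_lit 1098064991) (nat_lit 380) (nat_lit 293055265) (nat_lit 456) (nat_lit 13550106383) (nat_lit 159) (nat_lit 5) (nat_lit 164) (nat_lit 5) (nat_lit 165) (nat_lit 5) (nat_lit 480) (nat_lit 397) (nat_lit 263)) (XT.lf (nat_lit 0) (nat_lit 4958525074) (nat_lit 456) (nat_lit 4922712710) (nat_lit 76) (nat_lit 5239442490) (nat_lit 159) (nat_lit 5) (nat_lit 165) (nat_lit 5) (nat_lit 160) (nat_lit 5) (nat_lit 481) (nat_lit 397) (nat_lit 262))))))) (XT.nd (nat_lit 858) (nat_lit 2280) (nat_lit 0) (XT.nd (nat_lit 390) (nat_lit 1520) (nat_lit 0) (XT.nd (nat_lit 156) (nat_lit 836) (nat_lit 0) (XT.nd (nat_lit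 78) (nat_lit 0) (nat_lit 0) (XT.lf (nat_lit 0) (nat_lit 4207652594) (nat_lit 380) (nat_lit 4404327892) (nat_lit 456) (nat_lit 6691450316) (nat_lit 154) (nat_lit 5) (nat_lit 159) (nat_lit 5) (nat_lit 160) (nat_lit 5) (nat_lit 482) (nat_lit 397) (nat_lit 261)) (XT.lf (nat_lit 0) (nat_lit 12364974356) (nat_lit 456) (nat_lit 1931552079) (nat_lit 76) (nat_lit 1192782349) (nat_lit 154) (nat_lit 5) (nat_lit 160) (nat_lit 5) (nat_lit 155) (nat_lit 5) (nat_lit 483) (nat_lit 397) (nat_lit 260))) (XT.nd (nat_lit 78) (nat_lit 380) (nat_lit 0) (XT.lf (nat_lit 0) (nat_lit 571248546) (nat_lit 456) (nat_lit 8218130709) (nat_lit 76) (nat_lit 6888182719) (nat_lit 148) (nat_lit 5) (nat_lit 154) (nat_lit 5) (nat_lit 149) (nat_lit 5) (nat_lit 484) (nat_lit 397) (nat_lit 259)) (XT.nd (nat_lit 78) (nat_lit 0) (nat_lit 0) (XT.lf (nat_lit 0) (nat_lit 1168183208) (nat_lit 380) (nat_lit 3137266585) (nat_lit 456) (nat_lit 11563588296) (nat_lit 143) (nat_lit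 5) (nat_lit 148) (nat_lit 5) (nat_lit 149) (nat_lit 5) (nat_lit 485) (nat_lit 397) (nat_lit 258)) (XT.lf (nat_lit 0) (nat_lit 8172871516) (nat_lit 456) (nat_lit 5248595359) (nat_lit 76) (nat_lit 2641707814) (nat_lit 143) (nat_lit 5) (nat_lit 149) (nat_lit 5) (nat_lit 144) (nat_lit 5) (nat_lit 486) (nat_lit 397) (nat_lit 257))))) (XT.nd (nat_lit 234) (nat_lit 684) (nat_lit 0) (XT.nd (nat_lit 78) (nat_lit 456) (nat_lit 0) (XT.lf (nat_lit 0) (nat_lit 4408625506) (nat_lit 380) (nat_lit 7744653013) (nat_lit 456) (nat_lit 4107204425) (nat_lit 138) (nat_lit 5) (nat_lit 143) (nat_lit 5) (nat_lit 144) (nat_lit 5) (nat_lit 487) (nat_lit 397) (nat_lit 256)) (XT.nd (nat_lit 78) (nat_lit 456) (nat_lit 0) (XT.lf (nat_lit 0) (nat_lit 14309148710) (nat_lit 380) (nat_lit 1925735918) (nat_lit 456) (nat_lit 226422543) (nat_lit 138) (nat_lit 5) (nat_lit 143) (nat_lit 5) (nat_lit 144) (nat_lit 5) (nat_lit 488) (nat_lit 397) (nat_lit 255)) (XT.lf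 (nat_lit 0) (nat_lit 3746693039) (nat_lit 456) (nat_lit 8892572165) (nat_lit 76) (nat_lit 4025126362) (nat_lit 132) (nat_lit 5) (nat_lit 138) (nat_lit 5) (nat_lit 133) (nat_lit 5) (nat_lit 489) (nat_lit 397) (nat_lit 254)))) (XT.nd (nat_lit 78) (nat_lit 380) (nat_lit 0) (XT.lf (nat_lit 0) (nat_lit 1030527263) (nat_lit 304) (nat_lit 6786326377) (nat_lit 380) (nat_lit 9054243317) (nat_lit 128) (nat_lit 5) (nat_lit 132) (nat_lit 5) (nat_lit 133) (nat_lit 5) (nat_lit 490) (nat_lit 397) (nat_lit 253)) (XT.nd (nat_lit 78) (nat_lit 380) (nat_lit 0) (XT.lf (nat_lit 0) (nat_lit 11251925921) (nat_lit 304) (nat_lit 762922939) (nat_lit 380) (nat_lit 5066160473) (nat_lit 128) (nat_lit 5) (nat_lit 132) (nat_lit 5) (nat_lit 133) (nat_lit 5) (nat_lit 491) (nat_lit 397) (nat_lit 252)) (XT.lf (nat_lit 0) (nat_lit 4384690318) (nat_lit 380) (nat_lit 11962488396) (nat_lit 456) (nat_lit 946935220) (nat_lit 123) (nat_lit 5) (nat_lit 128) (nat_lit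 5) (nat_lit 129) (nat_lit 5) (nat_lit 492) (nat_lit 397) (nat_lit 251)))))) (XT.nd (nat_lit 468) (nat_lit 1216) (nat_lit 0) (XT.nd (nat_lit 234) (nat_lit 380) (nat_lit 0) (XT.nd (nat_lit 78) (nat_lit 608) (nat_lit 0) (XT.lf (nat_lit 0) (nat_lit 3243422650) (nat_lit 456) (nat_lit 2675937789) (nat_lit 76) (nat_lit 11591070300) (nat_lit 122) (nat_lit 5) (nat_lit 128) (nat_lit 5) (nat_lit 123) (nat_lit 5) (nat_lit 493) (nat_lit 397) (nat_lit 250)) (XT.nd (nat_lit 78) (nat_lit 304) (nat_lit 0) (XT.lf (nat_lit 0) (nat_lit 7544993058) (nat_lit 380) (nat_lit 9893501968) (nat_lit 76) (nat_lit 291653360) (nat_lit 118) (nat_lit 5) (nat_lit 123) (nat_lit 5) (nat_lit 119) (nat_lit 5) (nat_lit 494) (nat_lit 397) (nat_lit 249)) (XT.lf (nat_lit 0) (nat_lit 590051788) (nat_lit 304) (nat_lit 11390983647) (nat_lit 380) (nat_lit 5972257501) (nat_lit 114) (nat_lit 5) (nat_lit 118) (nat_lit 5) (nat_lit 119) (nat_lit 5) (nat_lit 495) (nat_lit 397)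 (nat_lit 248)))) (XT.nd (nat_lit 78) (nat_lit 380) (nat_lit 0) (XT.lf (nat_lit 0) (nat_lit 11397297707) (nat_lit 304) (nat_lit 5162342135) (nat_lit 380) (nat_lit 1620185046) (nat_lit 114) (nat_lit 5) (nat_lit 118) (nat_lit 5) (nat_lit 119) (nat_lit 5) (nat_lit 496) (nat_lit 397) (nat_lit 247)) (XT.nd (nat_lit 78) (nat_lit 0) (nat_lit 0) (XT.lf (nat_lit 0) (nat_lit 2803678830) (nat_lit 380) (nat_lit 14393805755) (nat_lit 76) (nat_lit 1212603715) (nat_lit 109) (nat_lit 5) (nat_lit 114) (nat_lit 5) (nat_lit 110) (nat_lit 5) (nat_lit 497) (nat_lit 397) (nat_lit 246)) (XT.lf (nat_lit 0) (nat_lit 7362029649) (nat_lit 380) (nat_lit 3586185651) (nat_lit 76) (nat_lit 7695174670) (nat_lit 109) (nat_lit 5) (nat_lit 114) (nat_lit 5) (nat_lit 110) (nat_lit 5) (nat_lit 498) (nat_lit 397) (nat_lit 245))))) (XT.nd (nat_lit 234) (nat_lit 532) (nat_lit 0) (XT.nd (nat_lit 78) (nat_lit 380) (nat_lit 0) (XT.lf (nat_lit 0) (nat_lit 7516632023) (nat_lit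 304) (nat_lit 4531640208) (nat_lit 380) (nat_lit 6832352182) (nat_lit 105) (nat_lit 5) (nat_lit 109) (nat_lit 5) (nat_lit 110) (nat_lit 5) (nat_lit 499) (nat_lit 397) (nat_lit 244)) (XT.nd (nat_lit 78) (nat_lit 380) (nat_lit 0) (XT.lf (nat_lit 0) (nat_lit 16853519981) (nat_lit 380) (nat_lit 264835856) (nat_lit 76) (nat_lit 2003743308) (nat_lit 105) (nat_lit 5) (nat_lit 110) (nat_lit 5) (nat_lit 106) (nat_lit 5) (nat_lit 500) (nat_lit 397) (nat_lit 243)) (XT.lf (nat_lit 0) (nat_lit 2446415204) (nat_lit 380) (nat_lit 8229331480) (nat_lit 76) (nat_lit 8690523062) (nat_lit 100) (nat_lit 5) (nat_lit 105) (nat_lit 5) (nat_lit 101) (nat_lit 5) (nat_lit 501) (nat_lit 397) (nat_lit 242)))) (XT.nd (nat_lit 78) (nat_lit 228) (nat_lit 0) (XT.lf (nat_lit 0) (nat_lit 3162240364) (nat_lit 304) (nat_lit 4073690016) (nat_lit 380) (nat_lit 12378882669) (nat_lit 96) (nat_lit 5) (nat_lit 100) (nat_lit 5) (nat_lit 101) (nat_lit 5) (nat_lit 502)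 (nat_lit 397) (nat_lit 241)) (XT.nd (nat_lit 78) (nat_lit 228) (nat_lit 0) (XT.lf (nat_lit 0) (nat_lit 12182404079) (nat_lit 380) (nat_lit 5010973154) (nat_lit 76) (nat_lit 2673727737) (nat_lit 96) (nat_lit 5) (nat_lit 101) (nat_lit 5) (nat_lit 97) (nat_lit 5) (nat_lit 503) (nat_lit 397) (nat_lit 240)) (XT.lf (nat_lit 0) (nat_lit 6701443521) (nat_lit 228) (nat_lit 10585387541) (nat_lit 304) (nat_lit 2836432286) (nat_lit 93) (nat_lit 5) (nat_lit 96) (nat_lit 5) (nat_lit 97) (nat_lit 5) (nat_lit 504) (nat_lit 397) (nat_lit 239))))))))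
noncomputable def xc133 : XT := (XT.nd (nat_lit 52494) (nat_lit 0) (nat_lit 20748) (XT.nd (nat_lit 51558) (nat_lit 0) (nat_lit 36176) (XT.nd (nat_lit 51090) (nat_lit 0) (nat_lit 39748) (XT.nd (nat_lit 156) (nat_lit 228) (nat_lit 0) (XT.nd (nat_lit 78) (nat_lit 304) (nat_lit 0) (XT.lf (nat_lit 0) (nat_lit 2103555259) (nat_lit 304) (nat_lit 1700709147) (nat_lit 76) (nat_lit 16579559486) (nat_lit 92) (nat_lit 5) (nat_lit 96) (nat_lit 5) (nat_lit 93) (nat_lit 5) (nat_lit 505) (nat_lit 397) (nat_lit 238)) (XT.lf (nat_lit 0) (nat_lit 7181134536) (nat_lit 380) (nat_lit 10315591099) (nat_lit 76) (nat_lit 3150960633) (nat_lit 88) (nat_lit 5) (nat_lit 93) (nat_lit 5) (nat_lit 89) (nat_lit 5) (nat_lit 506) (nat_lit 397) (nat_lit 237))) (XT.nd (nat_lit 78) (nat_lit 0) (nat_lit 0) (XT.lf (nat_lit 0) (nat_lit 1690272774) (nat_lit 228) (nat_lit 10706487537) (nat_lit 304) (nat_lit 8519336693) (nat_lit 85) (nat_lit 5) (nat_lit 88) (nat_lit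 5) (nat_lit 89) (nat_lit 5) (nat_lit 507) (nat_lit 397) (nat_lit 236)) (XT.nd (nat_lit 50778) (nat_lit 0) (nat_lit 40812) (XT.lf (nat_lit 0) (nat_lit 14057569526) (nat_lit 228) (nat_lit 3717289264) (nat_lit 304) (nat_lit 3413854952) (nat_lit 85) (nat_lit 5) (nat_lit 88) (nat_lit 5) (nat_lit 89) (nat_lit 5) (nat_lit 508) (nat_lit 397) (nat_lit 235)) (XT.lf (nat_lit 0) (nat_lit 465543622) (nat_lit 1140) (nat_lit 1532644116) (nat_lit 1140) (nat_lit 1532644116) (nat_lit 622) (nat_lit 3) (nat_lit 637) (nat_lit 3) (nat_lit 637) (nat_lit 5) (nat_lit 398) (nat_lit 398) (nat_lit 344))))) (XT.nd (nat_lit 234) (nat_lit 1064) (nat_lit 0) (XT.nd (nat_lit 78) (nat_lit 0) (nat_lit 0) (XT.lf (nat_lit 76) (nat_lit 388271785) (nat_lit 0) (nat_lit 2303621246) (nat_lit 1140) (nat_lit 4404851421) (nat_lit 623) (nat_lit 5) (nat_lit 622) (nat_lit 3) (nat_lit 637) (nat_lit 5) (nat_lit 399) (nat_lit 398) (nat_lit 343)) (XT.nd (nat_lit 78) (nat_lit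 0) (nat_lit 76) (XT.lf (nat_lit 76) (nat_lit 3928739266) (nat_lit 0) (nat_lit 533715178) (nat_lit 1140) (nat_lit 2670594848) (nat_lit 623) (nat_lit 5) (nat_lit 622) (nat_lit 3) (nat_lit 637) (nat_lit 5) (nat_lit 400) (nat_lit 398) (nat_lit 342)) (XT.lf (nat_lit 76) (nat_lit 341856225) (nat_lit 0) (nat_lit 5892060829) (nat_lit 1140) (nat_lit 936866387) (nat_lit 624) (nat_lit 5) (nat_lit 623) (nat_lit 5) (nat_lit 638) (nat_lit 5) (nat_lit 401) (nat_lit 398) (nat_lit 341)))) (XT.nd (nat_lit 78) (nat_lit 0) (nat_lit 0) (XT.lf (nat_lit 0) (nat_lit 801244434) (nat_lit 1140) (nat_lit 3240288978) (nat_lit 1216) (nat_lit 3168031119) (nat_lit 608) (nat_lit 5) (nat_lit 623) (nat_lit 5) (nat_lit 624) (nat_lit 5) (nat_lit 402) (nat_lit 398) (nat_lit 340)) (XT.nd (nat_lit 78) (nat_lit 0) (nat_lit 0) (XT.lf (nat_lit 76) (nat_lit 394829201) (nat_lit 0) (nat_lit 2125626691) (nat_lit 1216) (nat_lit 4729376098) (nat_lit 609) (nat_lit 5) (nat_lit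 608) (nat_lit 5) (nat_lit 624) (nat_lit 5) (nat_lit 403) (nat_lit 398) (nat_lit 339)) (XT.lf (nat_lit 76) (nat_lit 4122465698) (nat_lit 0) (nat_lit 130337958) (nat_lit 1216) (nat_lit 3038538122) (nat_lit 609) (nat_lit 5) (nat_lit 608) (nat_lit 5) (nat_lit 624) (nat_lit 5) (nat_lit 404) (nat_lit 398) (nat_lit 338)))))) (XT.nd (nat_lit 468) (nat_lit 2432) (nat_lit 0) (XT.nd (nat_lit 234) (nat_lit 0) (nat_lit 76) (XT.nd (nat_lit 78) (nat_lit 1216) (nat_lit 0) (XT.lf (nat_lit 76) (nat_lit 561358584) (nat_lit 0) (nat_lit 5432423316) (nat_lit 1216) (nat_lit 1340431976) (nat_lit 610) (nat_lit 5) (nat_lit 609) (nat_lit 5) (nat_lit 625) (nat_lit 5) (nat_lit 405) (nat_lit 398) (nat_lit 337)) (XT.nd (nat_lit 78) (nat_lit 0) (nat_lit 0) (XT.lf (nat_lit 0) (nat_lit 367119984) (nat_lit 1216) (nat_lit 2996924202) (nat_lit 1292) (nat_lit 4014247302) (nat_lit 593) (nat_lit 5) (nat_lit 609) (nat_lit 5) (nat_lit 610) (nat_lit 5) (nat_lit 406)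 (nat_lit 398) (nat_lit 336)) (XT.lf (nat_lit 76) (nat_lit 832039034) (nat_lit 0) (nat_lit 1223422386) (nat_lit 1292) (nat_lit 5368331396) (nat_lit 594) (nat_lit 5) (nat_lit 593) (nat_lit 5) (nat_lit 610) (nat_lit 5) (nat_lit 407) (nat_lit 398) (nat_lit 335)))) (XT.nd (nat_lit 78) (nat_lit 0) (nat_lit 0) (XT.lf (nat_lit 0) (nat_lit 3763959979) (nat_lit 1216) (nat_lit 2723240449) (nat_lit 1292) (nat_lit 983286825) (nat_lit 594) (nat_lit 5) (nat_lit 610) (nat_lit 5) (nat_lit 611) (nat_lit 5) (nat_lit 408) (nat_lit 398) (nat_lit 334)) (XT.nd (nat_lit 78) (nat_lit 0) (nat_lit 0) (XT.lf (nat_lit 76) (nat_lit 1205570017) (nat_lit 0) (nat_lit 4277687137) (nat_lit 1292) (nat_lit 2035336527) (nat_lit 595) (nat_lit 5) (nat_lit 594) (nat_lit 5) (nat_lit 611) (nat_lit 5) (nat_lit 409) (nat_lit 398) (nat_lit 333)) (XT.lf (nat_lit 76) (nat_lit 5225251711) (nat_lit 0) (nat_lit 1991272850) (nat_lit 1292) (nat_lit 351556456) (nat_lit 595) (nat_lit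 5) (nat_lit 594) (nat_lit 5) (nat_lit 611) (nat_lit 5) (nat_lit 410) (nat_lit 398) (nat_lit 332))))) (XT.nd (nat_lit 234) (nat_lit 1292) (nat_lit 0) (XT.nd (nat_lit 78) (nat_lit 0) (nat_lit 0) (XT.lf (nat_lit 0) (nat_lit 1323233304) (nat_lit 1292) (nat_lit 5925884105) (nat_lit 1368) (nat_lit 369768420) (nat_lit 578) (nat_lit 5) (nat_lit 595) (nat_lit 5) (nat_lit 596) (nat_lit 5) (nat_lit 411) (nat_lit 398) (nat_lit 331)) (XT.nd (nat_lit 78) (nat_lit 0) (nat_lit 0) (XT.lf (nat_lit 0) (nat_lit 3018311090) (nat_lit 1292) (nat_lit 1870043766) (nat_lit 1368) (nat_lit 2782485276) (nat_lit 578) (nat_lit 5) (nat_lit 595) (nat_lit 5) (nat_lit 596) (nat_lit 5) (nat_lit 412) (nat_lit 398) (nat_lit 330)) (XT.lf (nat_lit 76) (nat_lit 2271867206) (nat_lit 0) (nat_lit 2453391537) (nat_lit 1368) (nat_lit 2999025081) (nat_lit 579) (nat_lit 5) (nat_lit 578) (nat_lit 5) (nat_lit 596) (nat_lit 5) (nat_lit 413) (nat_lit 398) (nat_lit 329)))) (XT.nd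 (nat_lit 78) (nat_lit 1368) (nat_lit 0) (XT.lf (nat_lit 0) (nat_lit 6443027746) (nat_lit 1292) (nat_lit 1282347250) (nat_lit 1368) (nat_lit 53897224) (nat_lit 579) (nat_lit 5) (nat_lit 596) (nat_lit 5) (nat_lit 597) (nat_lit 5) (nat_lit 414) (nat_lit 398) (nat_lit 328)) (XT.nd (nat_lit 78) (nat_lit 0) (nat_lit 0) (XT.lf (nat_lit 0) (nat_lit 355150134) (nat_lit 1368) (nat_lit 4868879701) (nat_lit 1444) (nat_lit 2611291397) (nat_lit 561) (nat_lit 5) (nat_lit 579) (nat_lit 5) (nat_lit 580) (nat_lit 5) (nat_lit 415) (nat_lit 398) (nat_lit 327)) (XT.lf (nat_lit 0) (nat_lit 2036015323) (nat_lit 1368) (nat_lit 608936121) (nat_lit 1444) (nat_lit 5247901361) (nat_lit 561) (nat_lit 5) (nat_lit 579) (nat_lit 5) (nat_lit 580) (nat_lit 5) (nat_lit 416) (nat_lit 398) (nat_lit 326))))))) (XT.nd (nat_lit 936) (nat_lit 7828) (nat_lit 0) (XT.nd (nat_lit 468) (nat_lit 4864) (nat_lit 0) (XT.nd (nat_lit 234) (nat_lit 2812) (nat_lit 0) (XT.nd (nat_lit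 78) (nat_lit 0) (nat_lit 0) (XT.lf (nat_lit 0) (nat_lit 3740591678) (nat_lit 1368) (nat_lit 4191150465) (nat_lit 1444) (nat_lit 19999745) (nat_lit 562) (nat_lit 5) (nat_lit 580) (nat_lit 5) (nat_lit 581) (nat_lit 5) (nat_lit 417) (nat_lit 398) (nat_lit 325)) (XT.nd (nat_lit 78) (nat_lit 0) (nat_lit 0) (XT.lf (nat_lit 76) (nat_lit 173379531) (nat_lit 0) (nat_lit 5294756442) (nat_lit 1444) (nat_lit 2543903838) (nat_lit 563) (nat_lit 5) (nat_lit 562) (nat_lit 5) (nat_lit 581) (nat_lit 5) (nat_lit 418) (nat_lit 398) (nat_lit 324)) (XT.lf (nat_lit 76) (nat_lit 4656791445) (nat_lit 0) (nat_lit 2568186218) (nat_lit 1444) (nat_lit 848679516) (nat_lit 563) (nat_lit 5) (nat_lit 562) (nat_lit 5) (nat_lit 581) (nat_lit 5) (nat_lit 419) (nat_lit 398) (nat_lit 323)))) (XT.nd (nat_lit 78) (nat_lit 1444) (nat_lit 0) (XT.lf (nat_lit 0) (nat_lit 844460340) (nat_lit 1444) (nat_lit 7061841135) (nat_lit 76) (nat_lit 230588014) (nat_lit 544) (nat_lit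 5) (nat_lit 563) (nat_lit 5) (nat_lit 545) (nat_lit 5) (nat_lit 420) (nat_lit 398) (nat_lit 322)) (XT.nd (nat_lit 78) (nat_lit 1444) (nat_lit 0) (XT.lf (nat_lit 0) (nat_lit 2567781887) (nat_lit 1444) (nat_lit 2546303038) (nat_lit 76) (nat_lit 3087043601) (nat_lit 544) (nat_lit 5) (nat_lit 563) (nat_lit 5) (nat_lit 545) (nat_lit 5) (nat_lit 421) (nat_lit 398) (nat_lit 321)) (XT.lf (nat_lit 0) (nat_lit 2061372945) (nat_lit 1444) (nat_lit 2245799758) (nat_lit 1520) (nat_lit 3959855359) (nat_lit 525) (nat_lit 5) (nat_lit 544) (nat_lit 5) (nat_lit 545) (nat_lit 5) (nat_lit 422) (nat_lit 398) (nat_lit 320))))) (XT.nd (nat_lit 234) (nat_lit 3268) (nat_lit 0) (XT.nd (nat_lit 78) (nat_lit 1596) (nat_lit 0) (XT.lf (nat_lit 0) (nat_lit 6071685938) (nat_lit 1520) (nat_lit 1568429900) (nat_lit 76) (nat_lit 694330685) (nat_lit 525) (nat_lit 5) (nat_lit 545) (nat_lit 5) (nat_lit 526) (nat_lit 5) (nat_lit 423) (nat_lit 398) (nat_lit 319))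 (XT.nd (nat_lit 78) (nat_lit 76) (nat_lit 0) (XT.lf (nat_lit 0) (nat_lit 3162936614) (nat_lit 1520) (nat_lit 4713295240) (nat_lit 1596) (nat_lit 526894122) (nat_lit 505) (nat_lit 5) (nat_lit 525) (nat_lit 5) (nat_lit 526) (nat_lit 5) (nat_lit 424) (nat_lit 398) (nat_lit 318)) (XT.lf (nat_lit 0) (nat_lit 1207538103) (nat_lit 1596) (nat_lit 496380761) (nat_lit 76) (nat_lit 6769502649) (nat_lit 504) (nat_lit 5) (nat_lit 525) (nat_lit 5) (nat_lit 505) (nat_lit 5) (nat_lit 425) (nat_lit 398) (nat_lit 317)))) (XT.nd (nat_lit 78) (nat_lit 1672) (nat_lit 0) (XT.lf (nat_lit 0) (nat_lit 2977262211) (nat_lit 1672) (nat_lit 4183014700) (nat_lit 76) (nat_lit 1384630270) (nat_lit 483) (nat_lit 5) (nat_lit 505) (nat_lit 5) (nat_lit 484) (nat_lit 5) (nat_lit 426) (nat_lit 398) (nat_lit 316)) (XT.nd (nat_lit 78) (nat_lit 0) (nat_lit 0) (XT.lf (nat_lit 0) (nat_lit 678475453) (nat_lit 1672) (nat_lit 4093563515) (nat_lit 1748) (nat_lit 3845997336)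 (nat_lit 461) (nat_lit 5) (nat_lit 483) (nat_lit 5) (nat_lit 484) (nat_lit 5) (nat_lit 427) (nat_lit 398) (nat_lit 315)) (XT.lf (nat_lit 0) (nat_lit 5668644111) (nat_lit 1672) (nat_lit 933165367) (nat_lit 1748) (nat_lit 2090843336) (nat_lit 461) (nat_lit 5) (nat_lit 483) (nat_lit 5) (nat_lit 484) (nat_lit 5) (nat_lit 428) (nat_lit 398) (nat_lit 314)))))) (XT.nd (nat_lit 468) (nat_lit 2736) (nat_lit 0) (XT.nd (nat_lit 234) (nat_lit 1824) (nat_lit 0) (XT.nd (nat_lit 78) (nat_lit 1520) (nat_lit 0) (XT.lf (nat_lit 0) (nat_lit 1975536553) (nat_lit 1748) (nat_lit 6491956137) (nat_lit 1824) (nat_lit 301289254) (nat_lit 438) (nat_lit 5) (nat_lit 461) (nat_lit 5) (nat_lit 462) (nat_lit 5) (nat_lit 429) (nat_lit 398) (nat_lit 313)) (XT.nd (nat_lit 78) (nat_lit 1444) (nat_lit 0) (XT.lf (nat_lit 0) (nat_lit 1502495521) (nat_lit 1824) (nat_lit 1771743766) (nat_lit 76) (nat_lit 5572034289) (nat_lit 437) (nat_lit 5) (nat_lit 461) (nat_lit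 5) (nat_lit 438) (nat_lit 5) (nat_lit 430) (nat_lit 398) (nat_lit 312)) (XT.lf (nat_lit 0) (nat_lit 3332787041) (nat_lit 1520) (nat_lit 5558336015) (nat_lit 76) (nat_lit 34269101) (nat_lit 418) (nat_lit 5) (nat_lit 438) (nat_lit 5) (nat_lit 419) (nat_lit 5) (nat_lit 431) (nat_lit 398) (nat_lit 311)))) (XT.nd (nat_lit 78) (nat_lit 1824) (nat_lit 0) (XT.lf (nat_lit 0) (nat_lit 5206104807) (nat_lit 1520) (nat_lit 420439660) (nat_lit 76) (nat_lit 3379426365) (nat_lit 418) (nat_lit 5) (nat_lit 438) (nat_lit 5) (nat_lit 419) (nat_lit 5) (nat_lit 432) (nat_lit 398) (nat_lit 310)) (XT.nd (nat_lit 78) (nat_lit 912) (nat_lit 0) (XT.lf (nat_lit 0) (nat_lit 4858969906) (nat_lit 912) (nat_lit 2262769268) (nat_lit 988) (nat_lit 1966330913) (nat_lit 406) (nat_lit 5) (nat_lit 418) (nat_lit 5) (nat_lit 419) (nat_lit 5) (nat_lit 433) (nat_lit 398) (nat_lit 309)) (XT.lf (nat_lit 0) (nat_lit 1058845730) (nat_lit 912) (nat_lit 8007815472) (nat_lit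 988) (nat_lit 105336519) (nat_lit 394) (nat_lit 5) (nat_lit 406) (nat_lit 5) (nat_lit 407) (nat_lit 5) (nat_lit 434) (nat_lit 398) (nat_lit 308))))) (XT.nd (nat_lit 234) (nat_lit 1748) (nat_lit 0) (XT.nd (nat_lit 78) (nat_lit 912) (nat_lit 0) (XT.lf (nat_lit 0) (nat_lit 1786766408) (nat_lit 988) (nat_lit 2799508539) (nat_lit 76) (nat_lit 4670753762) (nat_lit 393) (nat_lit 5) (nat_lit 406) (nat_lit 5) (nat_lit 394) (nat_lit 5) (nat_lit 435) (nat_lit 398) (nat_lit 307)) (XT.nd (nat_lit 78) (nat_lit 0) (nat_lit 0) (XT.lf (nat_lit 0) (nat_lit 2629157130) (nat_lit 912) (nat_lit 1077578009) (nat_lit 988) (nat_lit 5637188123) (nat_lit 381) (nat_lit 5) (nat_lit 393) (nat_lit 5) (nat_lit 394) (nat_lit 5) (nat_lit 436) (nat_lit 398) (nat_lit 306)) (XT.lf (nat_lit 0) (nat_lit 5674960519) (nat_lit 988) (nat_lit 1269584615) (nat_lit 76) (nat_lit 2487818870) (nat_lit 381) (nat_lit 5) (nat_lit 394) (nat_lit 5) (nat_lit 382) (nat_lit 5) (nat_lit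 437) (nat_lit 398) (nat_lit 305)))) (XT.nd (nat_lit 78) (nat_lit 912) (nat_lit 0) (XT.lf (nat_lit 0) (nat_lit 4308990820) (nat_lit 836) (nat_lit 3383875272) (nat_lit 912) (nat_lit 1829506492) (nat_lit 370) (nat_lit 5) (nat_lit 381) (nat_lit 5) (nat_lit 382) (nat_lit 5) (nat_lit 438) (nat_lit 398) (nat_lit 304)) (XT.nd (nat_lit 78) (nat_lit 0) (nat_lit 0) (XT.lf (nat_lit 0) (nat_lit 123251898) (nat_lit 912) (nat_lit 9234790409) (nat_lit 76) (nat_lit 256364387) (nat_lit 358) (nat_lit 5) (nat_lit 370) (nat_lit 5) (nat_lit 359) (nat_lit 5) (nat_lit 439) (nat_lit 398) (nat_lit 303)) (XT.lf (nat_lit 0) (nat_lit 2123896103) (nat_lit 912) (nat_lit 3612574411) (nat_lit 76) (nat_lit 3970907583) (nat_lit 358) (nat_lit 5) (nat_lit 370) (nat_lit 5) (nat_lit 359) (nat_lit 5) (nat_lit 440) (nat_lit 398) (nat_lit 302))))))))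
noncomputable def xc134 : XT := (XT.nd (nat_lit 1794) (nat_lit 6612) (nat_lit 0) (XT.nd (nat_lit 858) (nat_lit 4484) (nat_lit 0) (XT.nd (nat_lit 390) (nat_lit 2888) (nat_lit 0) (XT.nd (nat_lit 156) (nat_lit 1596) (nat_lit 0) (XT.nd (nat_lit 78) (nat_lit 0) (nat_lit 0) (XT.lf (nat_lit 0) (nat_lit 2125075990) (nat_lit 760) (nat_lit 2029430338) (nat_lit 836) (nat_lit 5647908470) (nat_lit 348) (nat_lit 5) (nat_lit 358) (nat_lit 5) (nat_lit 359) (nat_lit 5) (nat_lit 441) (nat_lit 398) (nat_lit 301)) (XT.lf (nat_lit 0) (nat_lit 6237960236) (nat_lit 836) (nat_lit 1909137564) (nat_lit 76) (nat_lit 1752014638) (nat_lit 348) (nat_lit 5) (nat_lit 359) (nat_lit 5) (nat_lit 349) (nat_lit 5) (nat_lit 442) (nat_lit 398) (nat_lit 300))) (XT.nd (nat_lit 78) (nat_lit 836) (nat_lit 0) (XT.lf (nat_lit 0) (nat_lit 3988608002) (nat_lit 760) (nat_lit 4390728637) (nat_lit 836) (nat_lit 1618087062) (nat_lit 338) (nat_lit 5) (nat_lit 348) (nat_lit 5)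 (nat_lit 349) (nat_lit 5) (nat_lit 443) (nat_lit 398) (nat_lit 299)) (XT.nd (nat_lit 78) (nat_lit 760) (nat_lit 0) (XT.lf (nat_lit 0) (nat_lit 449680612) (nat_lit 836) (nat_lit 95205127) (nat_lit 76) (nat_lit 9552960500) (nat_lit 337) (nat_lit 5) (nat_lit 348) (nat_lit 5) (nat_lit 338) (nat_lit 5) (nat_lit 444) (nat_lit 398) (nat_lit 298)) (XT.lf (nat_lit 0) (nat_lit 2575736084) (nat_lit 836) (nat_lit 4241948159) (nat_lit 76) (nat_lit 3381611567) (nat_lit 327) (nat_lit 5) (nat_lit 338) (nat_lit 5) (nat_lit 328) (nat_lit 5) (nat_lit 445) (nat_lit 398) (nat_lit 297))))) (XT.nd (nat_lit 234) (nat_lit 1444) (nat_lit 0) (XT.nd (nat_lit 78) (nat_lit 684) (nat_lit 0) (XT.lf (nat_lit 0) (nat_lit 1825178567) (nat_lit 760) (nat_lit 2913011709) (nat_lit 836) (nat_lit 5564710923) (nat_lit 317) (nat_lit 5) (nat_lit 327) (nat_lit 5) (nat_lit 328) (nat_lit 5) (nat_lit 446) (nat_lit 398) (nat_lit 296)) (XT.nd (nat_lit 78) (nat_lit 684) (nat_lit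 0) (XT.lf (nat_lit 0) (nat_lit 6957529632) (nat_lit 836) (nat_lit 2368886430) (nat_lit 76) (nat_lit 1081894206) (nat_lit 317) (nat_lit 5) (nat_lit 328) (nat_lit 5) (nat_lit 318) (nat_lit 5) (nat_lit 447) (nat_lit 398) (nat_lit 295)) (XT.lf (nat_lit 0) (nat_lit 3869176511) (nat_lit 684) (nat_lit 5374958956) (nat_lit 760) (nat_lit 1271238665) (nat_lit 308) (nat_lit 5) (nat_lit 317) (nat_lit 5) (nat_lit 318) (nat_lit 5) (nat_lit 448) (nat_lit 398) (nat_lit 294)))) (XT.nd (nat_lit 78) (nat_lit 1368) (nat_lit 0) (XT.lf (nat_lit 0) (nat_lit 933998490) (nat_lit 760) (nat_lit 390966884) (nat_lit 76) (nat_lit 9299602566) (nat_lit 307) (nat_lit 5) (nat_lit 317) (nat_lit 5) (nat_lit 308) (nat_lit 5) (nat_lit 449) (nat_lit 398) (nat_lit 293)) (XT.nd (nat_lit 78) (nat_lit 684) (nat_lit 0) (XT.lf (nat_lit 0) (nat_lit 3203045303) (nat_lit 760) (nat_lit 4717868109) (nat_lit 76) (nat_lit 2814133585) (nat_lit 298) (nat_lit 5) (nat_lit 308) (nat_lit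 5) (nat_lit 299) (nat_lit 5) (nat_lit 450) (nat_lit 398) (nat_lit 292)) (XT.lf (nat_lit 0) (nat_lit 1700321691) (nat_lit 684) (nat_lit 3818849295) (nat_lit 760) (nat_lit 5328534578) (nat_lit 289) (nat_lit 5) (nat_lit 298) (nat_lit 5) (nat_lit 299) (nat_lit 5) (nat_lit 451) (nat_lit 398) (nat_lit 291)))))) (XT.nd (nat_lit 468) (nat_lit 2508) (nat_lit 0) (XT.nd (nat_lit 234) (nat_lit 1216) (nat_lit 0) (XT.nd (nat_lit 78) (nat_lit 760) (nat_lit 0) (XT.lf (nat_lit 0) (nat_lit 7895329262) (nat_lit 760) (nat_lit 2678259076) (nat_lit 76) (nat_lit 388758574) (nat_lit 289) (nat_lit 5) (nat_lit 299) (nat_lit 5) (nat_lit 290) (nat_lit 5) (nat_lit 452) (nat_lit 398) (nat_lit 290)) (XT.nd (nat_lit 78) (nat_lit 76) (nat_lit 0) (XT.lf (nat_lit 0) (nat_lit 3922360042) (nat_lit 684) (nat_lit 6427279725) (nat_lit 760) (nat_lit 729032476) (nat_lit 280) (nat_lit 5) (nat_lit 289) (nat_lit 5) (nat_lit 290) (nat_lit 5) (nat_lit 453) (nat_lit 398)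 (nat_lit 289)) (XT.lf (nat_lit 0) (nat_lit 1632065374) (nat_lit 760) (nat_lit 540689363) (nat_lit 76) (nat_lit 9024396578) (nat_lit 279) (nat_lit 5) (nat_lit 289) (nat_lit 5) (nat_lit 280) (nat_lit 5) (nat_lit 454) (nat_lit 398) (nat_lit 288)))) (XT.nd (nat_lit 78) (nat_lit 608) (nat_lit 0) (XT.lf (nat_lit 0) (nat_lit 4065994771) (nat_lit 684) (nat_lit 5070978263) (nat_lit 76) (nat_lit 2180226651) (nat_lit 271) (nat_lit 5) (nat_lit 280) (nat_lit 5) (nat_lit 272) (nat_lit 5) (nat_lit 455) (nat_lit 398) (nat_lit 287)) (XT.nd (nat_lit 78) (nat_lit 0) (nat_lit 0) (XT.lf (nat_lit 0) (nat_lit 1720892751) (nat_lit 608) (nat_lit 4837499056) (nat_lit 684) (nat_lit 4881064886) (nat_lit 263) (nat_lit 5) (nat_lit 271) (nat_lit 5) (nat_lit 272) (nat_lit 5) (nat_lit 456) (nat_lit 398) (nat_lit 286)) (XT.lf (nat_lit 0) (nat_lit 8693609696) (nat_lit 608) (nat_lit 421857279) (nat_lit 684) (nat_lit 2448398648) (nat_lit 263) (nat_lit 5) (nat_lit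 271) (nat_lit 5) (nat_lit 272) (nat_lit 5) (nat_lit 457) (nat_lit 398) (nat_lit 285))))) (XT.nd (nat_lit 234) (nat_lit 1216) (nat_lit 0) (XT.nd (nat_lit 78) (nat_lit 608) (nat_lit 0) (XT.lf (nat_lit 0) (nat_lit 67108957) (nat_lit 684) (nat_lit 7571600286) (nat_lit 76) (nat_lit 4051360072) (nat_lit 254) (nat_lit 5) (nat_lit 263) (nat_lit 5) (nat_lit 255) (nat_lit 5) (nat_lit 458) (nat_lit 398) (nat_lit 284)) (XT.nd (nat_lit 78) (nat_lit 608) (nat_lit 0) (XT.lf (nat_lit 0) (nat_lit 2603595101) (nat_lit 684) (nat_lit 575384878) (nat_lit 76) (nat_lit 8639427564) (nat_lit 254) (nat_lit 5) (nat_lit 263) (nat_lit 5) (nat_lit 255) (nat_lit 5) (nat_lit 459) (nat_lit 398) (nat_lit 283)) (XT.lf (nat_lit 0) (nat_lit 5224576186) (nat_lit 684) (nat_lit 5333584095) (nat_lit 76) (nat_lit 1390480076) (nat_lit 246) (nat_lit 5) (nat_lit 255) (nat_lit 5) (nat_lit 247) (nat_lit 5) (nat_lit 460) (nat_lit 398) (nat_lit 282)))) (XT.nd (nat_lit 78)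 (nat_lit 684) (nat_lit 0) (XT.lf (nat_lit 0) (nat_lit 1855532731) (nat_lit 532) (nat_lit 6061217267) (nat_lit 608) (nat_lit 4164355433) (nat_lit 239) (nat_lit 5) (nat_lit 246) (nat_lit 5) (nat_lit 247) (nat_lit 5) (nat_lit 461) (nat_lit 398) (nat_lit 281)) (XT.nd (nat_lit 78) (nat_lit 684) (nat_lit 0) (XT.lf (nat_lit 0) (nat_lit 9237454562) (nat_lit 532) (nat_lit 1443096098) (nat_lit 608) (nat_lit 1535316485) (nat_lit 239) (nat_lit 5) (nat_lit 246) (nat_lit 5) (nat_lit 247) (nat_lit 5) (nat_lit 462) (nat_lit 398) (nat_lit 280)) (XT.lf (nat_lit 0) (nat_lit 1163751530) (nat_lit 684) (nat_lit 7932936617) (nat_lit 76) (nat_lit 3255840340) (nat_lit 230) (nat_lit 5) (nat_lit 239) (nat_lit 5) (nat_lit 231) (nat_lit 5) (nat_lit 463) (nat_lit 398) (nat_lit 279))))))) (XT.nd (nat_lit 936) (nat_lit 3040) (nat_lit 0) (XT.nd (nat_lit 468) (nat_lit 1976) (nat_lit 0) (XT.nd (nat_lit 234) (nat_lit 532) (nat_lit 0) (XT.nd (nat_lit 78) (nat_lit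 1064) (nat_lit 0) (XT.lf (nat_lit 0) (nat_lit 3908328903) (nat_lit 684) (nat_lit 528676889) (nat_lit 76) (nat_lit 8054475407) (nat_lit 230) (nat_lit 5) (nat_lit 239) (nat_lit 5) (nat_lit 231) (nat_lit 5) (nat_lit 464) (nat_lit 398) (nat_lit 278)) (XT.nd (nat_lit 78) (nat_lit 532) (nat_lit 0) (XT.lf (nat_lit 0) (nat_lit 6738912411) (nat_lit 608) (nat_lit 5541024477) (nat_lit 76) (nat_lit 352656565) (nat_lit 223) (nat_lit 5) (nat_lit 231) (nat_lit 5) (nat_lit 224) (nat_lit 5) (nat_lit 465) (nat_lit 398) (nat_lit 277)) (XT.lf (nat_lit 0) (nat_lit 2069737333) (nat_lit 532) (nat_lit 7585655262) (nat_lit 608) (nat_lit 3120552378) (nat_lit 216) (nat_lit 5) (nat_lit 223) (nat_lit 5) (nat_lit 224) (nat_lit 5) (nat_lit 466) (nat_lit 398) (nat_lit 276)))) (XT.nd (nat_lit 78) (nat_lit 532) (nat_lit 0) (XT.lf (nat_lit 0) (nat_lit 9885046152) (nat_lit 532) (nat_lit 2765418548) (nat_lit 608) (nat_lit 271296246) (nat_lit 216) (nat_lit 5) (nat_lit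 223) (nat_lit 5) (nat_lit 224) (nat_lit 5) (nat_lit 467) (nat_lit 398) (nat_lit 275)) (XT.nd (nat_lit 78) (nat_lit 0) (nat_lit 0) (XT.lf (nat_lit 0) (nat_lit 2629161946) (nat_lit 532) (nat_lit 8274529914) (nat_lit 76) (nat_lit 2165886292) (nat_lit 209) (nat_lit 5) (nat_lit 216) (nat_lit 5) (nat_lit 210) (nat_lit 5) (nat_lit 468) (nat_lit 398) (nat_lit 274)) (XT.lf (nat_lit 0) (nat_lit 5606269210) (nat_lit 532) (nat_lit 438282230) (nat_lit 76) (nat_lit 7175321462) (nat_lit 209) (nat_lit 5) (nat_lit 216) (nat_lit 5) (nat_lit 210) (nat_lit 5) (nat_lit 469) (nat_lit 398) (nat_lit 273))))) (XT.nd (nat_lit 234) (nat_lit 912) (nat_lit 0) (XT.nd (nat_lit 78) (nat_lit 532) (nat_lit 0) (XT.lf (nat_lit 0) (nat_lit 7632535185) (nat_lit 532) (nat_lit 1043705807) (nat_lit 608) (nat_lit 4696268574) (nat_lit 202) (nat_lit 5) (nat_lit 209) (nat_lit 5) (nat_lit 210) (nat_lit 5) (nat_lit 470) (nat_lit 398) (nat_lit 272)) (XT.nd (nat_lit 78) (nat_lit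 76) (nat_lit 0) (XT.lf (nat_lit 0) (nat_lit 2324297030) (nat_lit 456) (nat_lit 9511610724) (nat_lit 532) (nat_lit 1691727714) (nat_lit 196) (nat_lit 5) (nat_lit 202) (nat_lit 5) (nat_lit 203) (nat_lit 5) (nat_lit 471) (nat_lit 398) (nat_lit 271)) (XT.lf (nat_lit 0) (nat_lit 1384549090) (nat_lit 532) (nat_lit 3095976867) (nat_lit 76) (nat_lit 9204568959) (nat_lit 195) (nat_lit 5) (nat_lit 202) (nat_lit 5) (nat_lit 196) (nat_lit 5) (nat_lit 472) (nat_lit 398) (nat_lit 270)))) (XT.nd (nat_lit 78) (nat_lit 456) (nat_lit 0) (XT.lf (nat_lit 0) (nat_lit 4522303410) (nat_lit 532) (nat_lit 8640987304) (nat_lit 76) (nat_lit 681739386) (nat_lit 189) (nat_lit 5) (nat_lit 196) (nat_lit 5) (nat_lit 190) (nat_lit 5) (nat_lit 473) (nat_lit 398) (nat_lit 269)) (XT.nd (nat_lit 78) (nat_lit 456) (nat_lit 0) (XT.lf (nat_lit 0) (nat_lit 7757803634) (nat_lit 532) (nat_lit 347678915) (nat_lit 76) (nat_lit 5901983856) (nat_lit 189) (nat_lit 5) (nat_lit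 196) (nat_lit 5) (nat_lit 190) (nat_lit 5) (nat_lit 474) (nat_lit 398) (nat_lit 268)) (XT.lf (nat_lit 0) (nat_lit 8197288742) (nat_lit 456) (nat_lit 2898658372) (nat_lit 532) (nat_lit 3076447845) (nat_lit 183) (nat_lit 5) (nat_lit 189) (nat_lit 5) (nat_lit 190) (nat_lit 5) (nat_lit 475) (nat_lit 398) (nat_lit 267)))))) (XT.nd (nat_lit 468) (nat_lit 1216) (nat_lit 0) (XT.nd (nat_lit 234) (nat_lit 912) (nat_lit 0) (XT.nd (nat_lit 78) (nat_lit 380) (nat_lit 0) (XT.lf (nat_lit 0) (nat_lit 177806061) (nat_lit 532) (nat_lit 11767871051) (nat_lit 76) (nat_lit 2394532749) (nat_lit 176) (nat_lit 5) (nat_lit 183) (nat_lit 5) (nat_lit 177) (nat_lit 5) (nat_lit 476) (nat_lit 398) (nat_lit 266)) (XT.nd (nat_lit 78) (nat_lit 380) (nat_lit 0) (XT.lf (nat_lit 0) (nat_lit 3500431995) (nat_lit 532) (nat_lit 3200583171) (nat_lit 76) (nat_lit 7809071640) (nat_lit 176) (nat_lit 5) (nat_lit 183) (nat_lit 5) (nat_lit 177) (nat_lit 5) (nat_lit 477)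 (nat_lit 398) (nat_lit 265)) (XT.lf (nat_lit 0) (nat_lit 5589897158) (nat_lit 380) (nat_lit 1321087022) (nat_lit 456) (nat_lit 7771949657) (nat_lit 171) (nat_lit 5) (nat_lit 176) (nat_lit 5) (nat_lit 177) (nat_lit 5) (nat_lit 478) (nat_lit 398) (nat_lit 264)))) (XT.nd (nat_lit 78) (nat_lit 912) (nat_lit 0) (XT.lf (nat_lit 0) (nat_lit 10423707850) (nat_lit 456) (nat_lit 308006645) (nat_lit 76) (nat_lit 4126846088) (nat_lit 171) (nat_lit 5) (nat_lit 177) (nat_lit 5) (nat_lit 172) (nat_lit 5) (nat_lit 479) (nat_lit 398) (nat_lit 263)) (XT.nd (nat_lit 78) (nat_lit 456) (nat_lit 0) (XT.lf (nat_lit 0) (nat_lit 8737414197) (nat_lit 456) (nat_lit 5320327567) (nat_lit 532) (nat_lit 978938929) (nat_lit 165) (nat_lit 5) (nat_lit 171) (nat_lit 5) (nat_lit 172) (nat_lit 5) (nat_lit 480) (nat_lit 398) (nat_lit 262)) (XT.lf (nat_lit 0) (nat_lit 2519740961) (nat_lit 456) (nat_lit 12471530659) (nat_lit 76) (nat_lit 226622029) (nat_lit 159)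 (nat_lit 5) (nat_lit 165) (nat_lit 5) (nat_lit 160) (nat_lit 5) (nat_lit 481) (nat_lit 398) (nat_lit 261))))) (XT.nd (nat_lit 234) (nat_lit 836) (nat_lit 0) (XT.nd (nat_lit 78) (nat_lit 380) (nat_lit 0) (XT.lf (nat_lit 0) (nat_lit 6138812303) (nat_lit 456) (nat_lit 3406898867) (nat_lit 76) (nat_lit 5855621594) (nat_lit 159) (nat_lit 5) (nat_lit 165) (nat_lit 5) (nat_lit 160) (nat_lit 5) (nat_lit 482) (nat_lit 398) (nat_lit 260)) (XT.nd (nat_lit 78) (nat_lit 0) (nat_lit 0) (XT.lf (nat_lit 0) (nat_lit 5895453559) (nat_lit 380) (nat_lit 3959096844) (nat_lit 456) (nat_lit 5733406349) (nat_lit 154) (nat_lit 5) (nat_lit 159) (nat_lit 5) (nat_lit 160) (nat_lit 5) (nat_lit 483) (nat_lit 398) (nat_lit 259)) (XT.lf (nat_lit 0) (nat_lit 13665012037) (nat_lit 456) (nat_lit 380253780) (nat_lit 76) (nat_lit 1732640986) (nat_lit 154) (nat_lit 5) (nat_lit 160) (nat_lit 5) (nat_lit 155) (nat_lit 5) (nat_lit 484) (nat_lit 398) (nat_lit 258))))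 (XT.nd (nat_lit 78) (nat_lit 380) (nat_lit 0) (XT.lf (nat_lit 0) (nat_lit 1632056798) (nat_lit 456) (nat_lit 6788950079) (nat_lit 76) (nat_lit 7548990458) (nat_lit 148) (nat_lit 5) (nat_lit 154) (nat_lit 5) (nat_lit 149) (nat_lit 5) (nat_lit 485) (nat_lit 398) (nat_lit 257)) (XT.nd (nat_lit 78) (nat_lit 0) (nat_lit 0) (XT.lf (nat_lit 0) (nat_lit 2774606278) (nat_lit 380) (nat_lit 2656037920) (nat_lit 456) (nat_lit 10734867246) (nat_lit 143) (nat_lit 5) (nat_lit 148) (nat_lit 5) (nat_lit 149) (nat_lit 5) (nat_lit 486) (nat_lit 398) (nat_lit 256)) (XT.lf (nat_lit 0) (nat_lit 9358502720) (nat_lit 456) (nat_lit 3784513371) (nat_lit 76) (nat_lit 3220855382) (nat_lit 143) (nat_lit 5) (nat_lit 149) (nat_lit 5) (nat_lit 144) (nat_lit 5) (nat_lit 487) (nat_lit 398) (nat_lit 255))))))))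
noncomputable def xc135 : XT := (XT.nd (nat_lit 52572) (nat_lit 0) (nat_lit 31844) (XT.nd (nat_lit 858) (nat_lit 1824) (nat_lit 0) (XT.nd (nat_lit 390) (nat_lit 1444) (nat_lit 0) (XT.nd (nat_lit 156) (nat_lit 684) (nat_lit 0) (XT.nd (nat_lit 78) (nat_lit 76) (nat_lit 0) (XT.lf (nat_lit 0) (nat_lit 6055529188) (nat_lit 380) (nat_lit 7353066369) (nat_lit 456) (nat_lit 3156731198) (nat_lit 138) (nat_lit 5) (nat_lit 143) (nat_lit 5) (nat_lit 144) (nat_lit 5) (nat_lit 488) (nat_lit 398) (nat_lit 254)) (XT.lf (nat_lit 0) (nat_lit 771170473) (nat_lit 456) (nat_lit 652140788) (nat_lit 76) (nat_lit 15347154068) (nat_lit 137) (nat_lit 5) (nat_lit 143) (nat_lit 5) (nat_lit 138) (nat_lit 5) (nat_lit 489) (nat_lit 398) (nat_lit 253))) (XT.nd (nat_lit 78) (nat_lit 304) (nat_lit 0) (XT.lf (nat_lit 0) (nat_lit 4814591200) (nat_lit 456) (nat_lit 7522620201) (nat_lit 76) (nat_lit 4640494862) (nat_lit 132) (nat_lit 5) (nat_lit 138) (nat_lit 5)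 (nat_lit 133) (nat_lit 5) (nat_lit 490) (nat_lit 398) (nat_lit 252)) (XT.nd (nat_lit 78) (nat_lit 0) (nat_lit 0) (XT.lf (nat_lit 0) (nat_lit 2588758299) (nat_lit 304) (nat_lit 6367910079) (nat_lit 380) (nat_lit 8232069350) (nat_lit 128) (nat_lit 5) (nat_lit 132) (nat_lit 5) (nat_lit 133) (nat_lit 5) (nat_lit 491) (nat_lit 398) (nat_lit 251)) (XT.lf (nat_lit 0) (nat_lit 12984435508) (nat_lit 304) (nat_lit 234904117) (nat_lit 380) (nat_lit 4183896590) (nat_lit 128) (nat_lit 5) (nat_lit 132) (nat_lit 5) (nat_lit 133) (nat_lit 5) (nat_lit 492) (nat_lit 398) (nat_lit 250))))) (XT.nd (nat_lit 234) (nat_lit 684) (nat_lit 0) (XT.nd (nat_lit 78) (nat_lit 304) (nat_lit 0) (XT.lf (nat_lit 0) (nat_lit 11819343) (nat_lit 456) (nat_lit 11635096030) (nat_lit 76) (nat_lit 5973800569) (nat_lit 122) (nat_lit 5) (nat_lit 128) (nat_lit 5) (nat_lit 123) (nat_lit 5) (nat_lit 493) (nat_lit 398) (nat_lit 249)) (XT.nd (nat_lit 78) (nat_lit 304) (nat_lit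 0) (XT.lf (nat_lit 0) (nat_lit 4254394690) (nat_lit 456) (nat_lit 1233137952) (nat_lit 76) (nat_lit 12354081523) (nat_lit 122) (nat_lit 5) (nat_lit 128) (nat_lit 5) (nat_lit 123) (nat_lit 5) (nat_lit 494) (nat_lit 398) (nat_lit 248)) (XT.lf (nat_lit 0) (nat_lit 8636662862) (nat_lit 380) (nat_lit 8589618676) (nat_lit 76) (nat_lit 839553321) (nat_lit 118) (nat_lit 5) (nat_lit 123) (nat_lit 5) (nat_lit 119) (nat_lit 5) (nat_lit 495) (nat_lit 398) (nat_lit 247)))) (XT.nd (nat_lit 78) (nat_lit 380) (nat_lit 0) (XT.lf (nat_lit 0) (nat_lit 2093726198) (nat_lit 304) (nat_lit 11058939651) (nat_lit 380) (nat_lit 5140953639) (nat_lit 114) (nat_lit 5) (nat_lit 118) (nat_lit 5) (nat_lit 119) (nat_lit 5) (nat_lit 496) (nat_lit 398) (nat_lit 246)) (XT.nd (nat_lit 78) (nat_lit 380) (nat_lit 0) (XT.lf (nat_lit 0) (nat_lit 13087864616) (nat_lit 304) (nat_lit 4716703028) (nat_lit 380) (nat_lit 720481872) (nat_lit 114) (nat_lit 5) (nat_lit 118)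 (nat_lit 5) (nat_lit 119) (nat_lit 5) (nat_lit 497) (nat_lit 398) (nat_lit 245)) (XT.lf (nat_lit 0) (nat_lit 3774707070) (nat_lit 380) (nat_lit 13201720044) (nat_lit 76) (nat_lit 1783470463) (nat_lit 109) (nat_lit 5) (nat_lit 114) (nat_lit 5) (nat_lit 110) (nat_lit 5) (nat_lit 498) (nat_lit 398) (nat_lit 244)))))) (XT.nd (nat_lit 468) (nat_lit 836) (nat_lit 0) (XT.nd (nat_lit 234) (nat_lit 380) (nat_lit 0) (XT.nd (nat_lit 78) (nat_lit 608) (nat_lit 0) (XT.lf (nat_lit 0) (nat_lit 8406284618) (nat_lit 380) (nat_lit 2206966397) (nat_lit 76) (nat_lit 8384974903) (nat_lit 109) (nat_lit 5) (nat_lit 114) (nat_lit 5) (nat_lit 110) (nat_lit 5) (nat_lit 499) (nat_lit 398) (nat_lit 243)) (XT.nd (nat_lit 78) (nat_lit 304) (nat_lit 0) (XT.lf (nat_lit 0) (nat_lit 9108361953) (nat_lit 304) (nat_lit 4069660088) (nat_lit 380) (nat_lit 6062349403) (nat_lit 105) (nat_lit 5) (nat_lit 109) (nat_lit 5) (nat_lit 110) (nat_lit 5) (nat_lit 500) (nat_lit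 398) (nat_lit 242)) (XT.lf (nat_lit 0) (nat_lit 1172375515) (nat_lit 304) (nat_lit 16900701504) (nat_lit 380) (nat_lit 1413726367) (nat_lit 101) (nat_lit 5) (nat_lit 105) (nat_lit 5) (nat_lit 106) (nat_lit 5) (nat_lit 501) (nat_lit 398) (nat_lit 241)))) (XT.nd (nat_lit 78) (nat_lit 304) (nat_lit 0) (XT.lf (nat_lit 0) (nat_lit 3368095208) (nat_lit 380) (nat_lit 6964491962) (nat_lit 76) (nat_lit 9403468347) (nat_lit 100) (nat_lit 5) (nat_lit 105) (nat_lit 5) (nat_lit 101) (nat_lit 5) (nat_lit 502) (nat_lit 398) (nat_lit 240)) (XT.nd (nat_lit 78) (nat_lit 0) (nat_lit 0) (XT.lf (nat_lit 0) (nat_lit 4645507200) (nat_lit 304) (nat_lit 3600000433) (nat_lit 380) (nat_lit 11744221571) (nat_lit 96) (nat_lit 5) (nat_lit 100) (nat_lit 5) (nat_lit 101) (nat_lit 5) (nat_lit 503) (nat_lit 398) (nat_lit 239)) (XT.lf (nat_lit 0) (nat_lit 13277486606) (nat_lit 380) (nat_lit 3705508651) (nat_lit 76) (nat_lit 3264341816) (nat_lit 96) (nat_lit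 5) (nat_lit 101) (nat_lit 5) (nat_lit 97) (nat_lit 5) (nat_lit 504) (nat_lit 398) (nat_lit 238))))) (XT.nd (nat_lit 234) (nat_lit 228) (nat_lit 0) (XT.nd (nat_lit 78) (nat_lit 380) (nat_lit 0) (XT.lf (nat_lit 0) (nat_lit 8231908437) (nat_lit 228) (nat_lit 10244465488) (nat_lit 304) (nat_lit 2032398853) (nat_lit 93) (nat_lit 5) (nat_lit 96) (nat_lit 5) (nat_lit 97) (nat_lit 5) (nat_lit 505) (nat_lit 398) (nat_lit 237)) (XT.nd (nat_lit 78) (nat_lit 304) (nat_lit 0) (XT.lf (nat_lit 0) (nat_lit 2978443061) (nat_lit 304) (nat_lit 354524071) (nat_lit 76) (nat_lit 17441800288) (nat_lit 92) (nat_lit 5) (nat_lit 96) (nat_lit 5) (nat_lit 93) (nat_lit 5) (nat_lit 506) (nat_lit 398) (nat_lit 236)) (XT.lf (nat_lit 0) (nat_lit 8153689638) (nat_lit 380) (nat_lit 9137744262) (nat_lit 76) (nat_lit 3752552331) (nat_lit 88) (nat_lit 5) (nat_lit 93) (nat_lit 5) (nat_lit 89) (nat_lit 5) (nat_lit 507) (nat_lit 398) (nat_lit 235)))) (XT.nd (nat_lit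 50856) (nat_lit 0) (nat_lit 40812) (XT.lf (nat_lit 0) (nat_lit 3099130582) (nat_lit 228) (nat_lit 10367171521) (nat_lit 304) (nat_lit 7851611067) (nat_lit 85) (nat_lit 5) (nat_lit 88) (nat_lit 5) (nat_lit 89) (nat_lit 5) (nat_lit 508) (nat_lit 398) (nat_lit 234)) (XT.nd (nat_lit 78) (nat_lit 0) (nat_lit 0) (XT.lf (nat_lit 0) (nat_lit 2212472992) (nat_lit 1140) (nat_lit 676860209) (nat_lit 1140) (nat_lit 676860209) (nat_lit 622) (nat_lit 3) (nat_lit 637) (nat_lit 3) (nat_lit 637) (nat_lit 5) (nat_lit 399) (nat_lit 399) (nat_lit 342)) (XT.lf (nat_lit 76) (nat_lit 2157247158) (nat_lit 0) (nat_lit 4007013770) (nat_lit 1140) (nat_lit 1005062104) (nat_lit 623) (nat_lit 5) (nat_lit 622) (nat_lit 3) (nat_lit 637) (nat_lit 5) (nat_lit 400) (nat_lit 399) (nat_lit 341))))))) (XT.nd (nat_lit 936) (nat_lit 5548) (nat_lit 0) (XT.nd (nat_lit 468) (nat_lit 1140) (nat_lit 0) (XT.nd (nat_lit 234) (nat_lit 1140) (nat_lit 0) (XT.nd (nat_lit 78)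 (nat_lit 0) (nat_lit 0) (XT.lf (nat_lit 0) (nat_lit 686368199) (nat_lit 1140) (nat_lit 1478239017) (nat_lit 1216) (nat_lit 5043016368) (nat_lit 607) (nat_lit 5) (nat_lit 622) (nat_lit 3) (nat_lit 623) (nat_lit 5) (nat_lit 401) (nat_lit 399) (nat_lit 340)) (XT.nd (nat_lit 78) (nat_lit 0) (nat_lit 76) (XT.lf (nat_lit 76) (nat_lit 2124542893) (nat_lit 0) (nat_lit 243758086) (nat_lit 1216) (nat_lit 4878865928) (nat_lit 608) (nat_lit 5) (nat_lit 607) (nat_lit 5) (nat_lit 623) (nat_lit 5) (nat_lit 402) (nat_lit 399) (nat_lit 339)) (XT.lf (nat_lit 0) (nat_lit 4062160637) (nat_lit 1140) (nat_lit 1502879099) (nat_lit 1216) (nat_lit 1722907616) (nat_lit 608) (nat_lit 5) (nat_lit 623) (nat_lit 5) (nat_lit 624) (nat_lit 5) (nat_lit 403) (nat_lit 399) (nat_lit 338)))) (XT.nd (nat_lit 78) (nat_lit 1216) (nat_lit 0) (XT.lf (nat_lit 76) (nat_lit 2193084761) (nat_lit 0) (nat_lit 3570670441) (nat_lit 1216) (nat_lit 1566322837) (nat_lit 609)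 (nat_lit 5) (nat_lit 608) (nat_lit 5) (nat_lit 624) (nat_lit 5) (nat_lit 404) (nat_lit 399) (nat_lit 337)) (XT.nd (nat_lit 78) (nat_lit 0) (nat_lit 76) (XT.lf (nat_lit 0) (nat_lit 93217773) (nat_lit 1216) (nat_lit 1414132007) (nat_lit 1292) (nat_lit 5866325596) (nat_lit 592) (nat_lit 5) (nat_lit 608) (nat_lit 5) (nat_lit 609) (nat_lit 5) (nat_lit 405) (nat_lit 399) (nat_lit 336)) (XT.lf (nat_lit 0) (nat_lit 1743823987) (nat_lit 1216) (nat_lit 5041849579) (nat_lit 1292) (nat_lit 632698177) (nat_lit 593) (nat_lit 5) (nat_lit 609) (nat_lit 5) (nat_lit 610) (nat_lit 5) (nat_lit 406) (nat_lit 399) (nat_lit 335))))) (XT.nd (nat_lit 234) (nat_lit 1216) (nat_lit 0) (XT.nd (nat_lit 78) (nat_lit 0) (nat_lit 0) (XT.lf (nat_lit 0) (nat_lit 3406945713) (nat_lit 1216) (nat_lit 1235700150) (nat_lit 1292) (nat_lit 2821736992) (nat_lit 593) (nat_lit 5) (nat_lit 609) (nat_lit 5) (nat_lit 610) (nat_lit 5) (nat_lit 407) (nat_lit 399) (nat_lit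 334)) (XT.nd (nat_lit 78) (nat_lit 0) (nat_lit 0) (XT.lf (nat_lit 76) (nat_lit 2657861018) (nat_lit 0) (nat_lit 2423478907) (nat_lit 1292) (nat_lit 2430424738) (nat_lit 594) (nat_lit 5) (nat_lit 593) (nat_lit 5) (nat_lit 610) (nat_lit 5) (nat_lit 408) (nat_lit 399) (nat_lit 333)) (XT.lf (nat_lit 76) (nat_lit 6622629143) (nat_lit 0) (nat_lit 136256052) (nat_lit 1292) (nat_lit 801826115) (nat_lit 594) (nat_lit 5) (nat_lit 593) (nat_lit 5) (nat_lit 610) (nat_lit 5) (nat_lit 409) (nat_lit 399) (nat_lit 332)))) (XT.nd (nat_lit 78) (nat_lit 0) (nat_lit 0) (XT.lf (nat_lit 0) (nat_lit 844382522) (nat_lit 1292) (nat_lit 4558194872) (nat_lit 1368) (nat_lit 2208031796) (nat_lit 577) (nat_lit 5) (nat_lit 594) (nat_lit 5) (nat_lit 595) (nat_lit 5) (nat_lit 410) (nat_lit 399) (nat_lit 331)) (XT.nd (nat_lit 78) (nat_lit 0) (nat_lit 0) (XT.lf (nat_lit 0) (nat_lit 2482584080) (nat_lit 1292) (nat_lit 556367295) (nat_lit 1368) (nat_lit 4623061407)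 (nat_lit 577) (nat_lit 5) (nat_lit 594) (nat_lit 5) (nat_lit 595) (nat_lit 5) (nat_lit 411) (nat_lit 399) (nat_lit 330)) (XT.lf (nat_lit 76) (nat_lit 3548337146) (nat_lit 0) (nat_lit 591540968) (nat_lit 1368) (nat_lit 3574849433) (nat_lit 578) (nat_lit 5) (nat_lit 577) (nat_lit 5) (nat_lit 595) (nat_lit 5) (nat_lit 412) (nat_lit 399) (nat_lit 329)))))) (XT.nd (nat_lit 468) (nat_lit 4256) (nat_lit 0) (XT.nd (nat_lit 234) (nat_lit 0) (nat_lit 76) (XT.nd (nat_lit 78) (nat_lit 1368) (nat_lit 0) (XT.lf (nat_lit 0) (nat_lit 5810382673) (nat_lit 1292) (nat_lit 62491640) (nat_lit 1368) (nat_lit 1896030480) (nat_lit 578) (nat_lit 5) (nat_lit 595) (nat_lit 5) (nat_lit 596) (nat_lit 5) (nat_lit 413) (nat_lit 399) (nat_lit 328)) (XT.nd (nat_lit 78) (nat_lit 1368) (nat_lit 0) (XT.lf (nat_lit 76) (nat_lit 4150119703) (nat_lit 0) (nat_lit 3359686578) (nat_lit 1368) (nat_lit 314458417) (nat_lit 579) (nat_lit 5) (nat_lit 578) (nat_lit 5) (nat_lit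 596) (nat_lit 5) (nat_lit 414) (nat_lit 399) (nat_lit 327)) (XT.lf (nat_lit 76) (nat_lit 541160255) (nat_lit 0) (nat_lit 772338540) (nat_lit 1444) (nat_lit 6567687384) (nat_lit 561) (nat_lit 5) (nat_lit 560) (nat_lit 5) (nat_lit 579) (nat_lit 5) (nat_lit 415) (nat_lit 399) (nat_lit 326)))) (XT.nd (nat_lit 78) (nat_lit 0) (nat_lit 0) (XT.lf (nat_lit 0) (nat_lit 2972292598) (nat_lit 1368) (nat_lit 3087346667) (nat_lit 1444) (nat_lit 1879524249) (nat_lit 561) (nat_lit 5) (nat_lit 579) (nat_lit 5) (nat_lit 580) (nat_lit 5) (nat_lit 416) (nat_lit 399) (nat_lit 325)) (XT.nd (nat_lit 78) (nat_lit 0) (nat_lit 0) (XT.lf (nat_lit 76) (nat_lit 1237180241) (nat_lit 0) (nat_lit 3406450201) (nat_lit 1444) (nat_lit 3355091177) (nat_lit 562) (nat_lit 5) (nat_lit 561) (nat_lit 5) (nat_lit 580) (nat_lit 5) (nat_lit 417) (nat_lit 399) (nat_lit 324)) (XT.lf (nat_lit 76) (nat_lit 5665890512) (nat_lit 0) (nat_lit 669948490) (nat_lit 1444) (nat_lit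 1723891420) (nat_lit 562) (nat_lit 5) (nat_lit 561) (nat_lit 5) (nat_lit 580) (nat_lit 5) (nat_lit 418) (nat_lit 399) (nat_lit 323))))) (XT.nd (nat_lit 234) (nat_lit 2964) (nat_lit 0) (XT.nd (nat_lit 78) (nat_lit 1444) (nat_lit 0) (XT.lf (nat_lit 76) (nat_lit 2049925940) (nat_lit 0) (nat_lit 6006484749) (nat_lit 1444) (nat_lit 65666585) (nat_lit 563) (nat_lit 5) (nat_lit 562) (nat_lit 5) (nat_lit 581) (nat_lit 5) (nat_lit 419) (nat_lit 399) (nat_lit 322)) (XT.nd (nat_lit 78) (nat_lit 0) (nat_lit 0) (XT.lf (nat_lit 0) (nat_lit 1592705507) (nat_lit 1444) (nat_lit 1610110638) (nat_lit 1520) (nat_lit 4982885657) (nat_lit 543) (nat_lit 5) (nat_lit 562) (nat_lit 5) (nat_lit 563) (nat_lit 5) (nat_lit 420) (nat_lit 399) (nat_lit 321)) (XT.lf (nat_lit 76) (nat_lit 2955300494) (nat_lit 0) (nat_lit 315584603) (nat_lit 1520) (nat_lit 4979962431) (nat_lit 544) (nat_lit 5) (nat_lit 543) (nat_lit 5) (nat_lit 563) (nat_lit 5) (nat_lit 421)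 (nat_lit 399) (nat_lit 320)))) (XT.nd (nat_lit 78) (nat_lit 3040) (nat_lit 0) (XT.lf (nat_lit 0) (nat_lit 4979418473) (nat_lit 1444) (nat_lit 725091934) (nat_lit 76) (nat_lit 2612857581) (nat_lit 544) (nat_lit 5) (nat_lit 563) (nat_lit 5) (nat_lit 545) (nat_lit 5) (nat_lit 422) (nat_lit 399) (nat_lit 319)) (XT.nd (nat_lit 78) (nat_lit 1596) (nat_lit 0) (XT.lf (nat_lit 0) (nat_lit 3962420876) (nat_lit 1444) (nat_lit 2756971399) (nat_lit 1520) (nat_lit 1665888661) (nat_lit 525) (nat_lit 5) (nat_lit 544) (nat_lit 5) (nat_lit 545) (nat_lit 5) (nat_lit 423) (nat_lit 399) (nat_lit 318)) (XT.lf (nat_lit 0) (nat_lit 17189577) (nat_lit 1596) (nat_lit 8178796562) (nat_lit 76) (nat_lit 259006129) (nat_lit 504) (nat_lit 5) (nat_lit 525) (nat_lit 5) (nat_lit 505) (nat_lit 5) (nat_lit 424) (nat_lit 399) (nat_lit 317))))))))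
noncomputable def xc136 : XT := (XT.nd (nat_lit 1794) (nat_lit 8740) (nat_lit 0) (XT.nd (nat_lit 858) (nat_lit 5776) (nat_lit 0) (XT.nd (nat_lit 390) (nat_lit 5092) (nat_lit 0) (XT.nd (nat_lit 156) (nat_lit 1748) (nat_lit 0) (XT.nd (nat_lit 78) (nat_lit 1596) (nat_lit 0) (XT.lf (nat_lit 0) (nat_lit 1729940066) (nat_lit 1596) (nat_lit 3450765061) (nat_lit 76) (nat_lit 3344813175) (nat_lit 504) (nat_lit 5) (nat_lit 525) (nat_lit 5) (nat_lit 505) (nat_lit 5) (nat_lit 425) (nat_lit 399) (nat_lit 316)) (XT.lf (nat_lit 0) (nat_lit 1365262704) (nat_lit 1596) (nat_lit 2091293835) (nat_lit 1672) (nat_lit 5141313001) (nat_lit 483) (nat_lit 5) (nat_lit 504) (nat_lit 5) (nat_lit 505) (nat_lit 5) (nat_lit 426) (nat_lit 399) (nat_lit 315))) (XT.nd (nat_lit 78) (nat_lit 1748) (nat_lit 0) (XT.lf (nat_lit 0) (nat_lit 5219088705) (nat_lit 1672) (nat_lit 2378774550) (nat_lit 76) (nat_lit 1073783650) (nat_lit 483) (nat_lit 5) (nat_lit 505) (nat_lit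 5) (nat_lit 484) (nat_lit 5) (nat_lit 427) (nat_lit 399) (nat_lit 314)) (XT.nd (nat_lit 78) (nat_lit 76) (nat_lit 0) (XT.lf (nat_lit 0) (nat_lit 2567525008) (nat_lit 1672) (nat_lit 4451623021) (nat_lit 1748) (nat_lit 1727712896) (nat_lit 461) (nat_lit 5) (nat_lit 483) (nat_lit 5) (nat_lit 484) (nat_lit 5) (nat_lit 428) (nat_lit 399) (nat_lit 313)) (XT.lf (nat_lit 0) (nat_lit 19245201) (nat_lit 1748) (nat_lit 1203227108) (nat_lit 76) (nat_lit 7601348573) (nat_lit 460) (nat_lit 5) (nat_lit 483) (nat_lit 5) (nat_lit 461) (nat_lit 5) (nat_lit 429) (nat_lit 399) (nat_lit 312))))) (XT.nd (nat_lit 234) (nat_lit 1900) (nat_lit 0) (XT.nd (nat_lit 78) (nat_lit 1444) (nat_lit 0) (XT.lf (nat_lit 0) (nat_lit 1789496502) (nat_lit 1824) (nat_lit 5028072008) (nat_lit 76) (nat_lit 2084299616) (nat_lit 437) (nat_lit 5) (nat_lit 461) (nat_lit 5) (nat_lit 438) (nat_lit 5) (nat_lit 430) (nat_lit 399) (nat_lit 311)) (XT.nd (nat_lit 78) (nat_lit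 0) (nat_lit 0) (XT.lf (nat_lit 0) (nat_lit 55354200) (nat_lit 1444) (nat_lit 3529296756) (nat_lit 1520) (nat_lit 5397041528) (nat_lit 418) (nat_lit 5) (nat_lit 437) (nat_lit 5) (nat_lit 438) (nat_lit 5) (nat_lit 431) (nat_lit 399) (nat_lit 310)) (XT.lf (nat_lit 0) (nat_lit 5284189961) (nat_lit 1444) (nat_lit 138547227) (nat_lit 1520) (nat_lit 3640241578) (nat_lit 418) (nat_lit 5) (nat_lit 437) (nat_lit 5) (nat_lit 438) (nat_lit 5) (nat_lit 432) (nat_lit 399) (nat_lit 309)))) (XT.nd (nat_lit 78) (nat_lit 988) (nat_lit 0) (XT.lf (nat_lit 0) (nat_lit 1444621020) (nat_lit 912) (nat_lit 5857725385) (nat_lit 988) (nat_lit 1843455036) (nat_lit 406) (nat_lit 5) (nat_lit 418) (nat_lit 5) (nat_lit 419) (nat_lit 5) (nat_lit 433) (nat_lit 399) (nat_lit 308)) (XT.nd (nat_lit 78) (nat_lit 988) (nat_lit 0) (XT.lf (nat_lit 0) (nat_lit 6798471504) (nat_lit 912) (nat_lit 2421526839) (nat_lit 988) (nat_lit 10278993) (nat_lit 406) (nat_lit 5)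 (nat_lit 418) (nat_lit 5) (nat_lit 419) (nat_lit 5) (nat_lit 434) (nat_lit 399) (nat_lit 307)) (XT.lf (nat_lit 0) (nat_lit 1836058647) (nat_lit 988) (nat_lit 6378259708) (nat_lit 76) (nat_lit 1101870748) (nat_lit 393) (nat_lit 5) (nat_lit 406) (nat_lit 5) (nat_lit 394) (nat_lit 5) (nat_lit 435) (nat_lit 399) (nat_lit 306)))))) (XT.nd (nat_lit 468) (nat_lit 3116) (nat_lit 0) (XT.nd (nat_lit 234) (nat_lit 912) (nat_lit 0) (XT.nd (nat_lit 78) (nat_lit 1748) (nat_lit 0) (XT.lf (nat_lit 0) (nat_lit 3726514247) (nat_lit 988) (nat_lit 996226425) (nat_lit 76) (nat_lit 4680935941) (nat_lit 393) (nat_lit 5) (nat_lit 406) (nat_lit 5) (nat_lit 394) (nat_lit 5) (nat_lit 436) (nat_lit 399) (nat_lit 305)) (XT.nd (nat_lit 78) (nat_lit 836) (nat_lit 0) (XT.lf (nat_lit 0) (nat_lit 4528780503) (nat_lit 912) (nat_lit 1130760481) (nat_lit 988) (nat_lit 3833282986) (nat_lit 381) (nat_lit 5) (nat_lit 393) (nat_lit 5) (nat_lit 394) (nat_lit 5) (nat_lit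 437) (nat_lit 399) (nat_lit 304)) (XT.lf (nat_lit 0) (nat_lit 560634710) (nat_lit 836) (nat_lit 7073098142) (nat_lit 912) (nat_lit 1949976563) (nat_lit 370) (nat_lit 5) (nat_lit 381) (nat_lit 5) (nat_lit 382) (nat_lit 5) (nat_lit 438) (nat_lit 399) (nat_lit 303)))) (XT.nd (nat_lit 78) (nat_lit 912) (nat_lit 0) (XT.lf (nat_lit 0) (nat_lit 6231269236) (nat_lit 836) (nat_lit 3432898006) (nat_lit 912) (nat_lit 11915284) (nat_lit 370) (nat_lit 5) (nat_lit 381) (nat_lit 5) (nat_lit 382) (nat_lit 5) (nat_lit 439) (nat_lit 399) (nat_lit 302)) (XT.nd (nat_lit 78) (nat_lit 0) (nat_lit 0) (XT.lf (nat_lit 0) (nat_lit 1931979115) (nat_lit 912) (nat_lit 7534713903) (nat_lit 76) (nat_lit 303503022) (nat_lit 358) (nat_lit 5) (nat_lit 370) (nat_lit 5) (nat_lit 359) (nat_lit 5) (nat_lit 440) (nat_lit 399) (nat_lit 301)) (XT.lf (nat_lit 0) (nat_lit 3937219299) (nat_lit 912) (nat_lit 1837009906) (nat_lit 76) (nat_lit 4091513331) (nat_lit 358)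 (nat_lit 5) (nat_lit 370) (nat_lit 5) (nat_lit 359) (nat_lit 5) (nat_lit 441) (nat_lit 399) (nat_lit 300))))) (XT.nd (nat_lit 234) (nat_lit 1520) (nat_lit 0) (XT.nd (nat_lit 78) (nat_lit 836) (nat_lit 0) (XT.lf (nat_lit 0) (nat_lit 4003236819) (nat_lit 760) (nat_lit 1982400772) (nat_lit 836) (nat_lit 3977505644) (nat_lit 348) (nat_lit 5) (nat_lit 358) (nat_lit 5) (nat_lit 359) (nat_lit 5) (nat_lit 442) (nat_lit 399) (nat_lit 299)) (XT.nd (nat_lit 78) (nat_lit 836) (nat_lit 0) (XT.lf (nat_lit 0) (nat_lit 8077042981) (nat_lit 836) (nat_lit 113584733) (nat_lit 76) (nat_lit 1871828505) (nat_lit 348) (nat_lit 5) (nat_lit 359) (nat_lit 5) (nat_lit 349) (nat_lit 5) (nat_lit 443) (nat_lit 399) (nat_lit 298)) (XT.lf (nat_lit 0) (nat_lit 75283405) (nat_lit 836) (nat_lit 4273619934) (nat_lit 76) (nat_lit 5814263098) (nat_lit 337) (nat_lit 5) (nat_lit 348) (nat_lit 5) (nat_lit 338) (nat_lit 5) (nat_lit 444) (nat_lit 399) (nat_lit 297))))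 (XT.nd (nat_lit 78) (nat_lit 760) (nat_lit 0) (XT.lf (nat_lit 0) (nat_lit 1734120613) (nat_lit 760) (nat_lit 406485491) (nat_lit 836) (nat_lit 8125226727) (nat_lit 327) (nat_lit 5) (nat_lit 337) (nat_lit 5) (nat_lit 338) (nat_lit 5) (nat_lit 445) (nat_lit 399) (nat_lit 296)) (XT.nd (nat_lit 78) (nat_lit 760) (nat_lit 0) (XT.lf (nat_lit 0) (nat_lit 4277784463) (nat_lit 836) (nat_lit 2497836228) (nat_lit 76) (nat_lit 3594325172) (nat_lit 327) (nat_lit 5) (nat_lit 338) (nat_lit 5) (nat_lit 328) (nat_lit 5) (nat_lit 446) (nat_lit 399) (nat_lit 295)) (XT.lf (nat_lit 0) (nat_lit 3678600462) (nat_lit 760) (nat_lit 2784320511) (nat_lit 836) (nat_lit 4013120098) (nat_lit 317) (nat_lit 5) (nat_lit 327) (nat_lit 5) (nat_lit 328) (nat_lit 5) (nat_lit 447) (nat_lit 399) (nat_lit 294))))))) (XT.nd (nat_lit 858) (nat_lit 4636) (nat_lit 0) (XT.nd (nat_lit 390) (nat_lit 1976) (nat_lit 0) (XT.nd (nat_lit 156) (nat_lit 1368) (nat_lit 0) (XT.nd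 (nat_lit 78) (nat_lit 760) (nat_lit 0) (XT.lf (nat_lit 0) (nat_lit 8695876993) (nat_lit 836) (nat_lit 603888999) (nat_lit 76) (nat_lit 1284413983) (nat_lit 317) (nat_lit 5) (nat_lit 328) (nat_lit 5) (nat_lit 318) (nat_lit 5) (nat_lit 448) (nat_lit 399) (nat_lit 293)) (XT.lf (nat_lit 0) (nat_lit 310635107) (nat_lit 760) (nat_lit 4948816558) (nat_lit 76) (nat_lit 5434292048) (nat_lit 307) (nat_lit 5) (nat_lit 317) (nat_lit 5) (nat_lit 308) (nat_lit 5) (nat_lit 449) (nat_lit 399) (nat_lit 292))) (XT.nd (nat_lit 78) (nat_lit 684) (nat_lit 0) (XT.lf (nat_lit 0) (nat_lit 1405814242) (nat_lit 684) (nat_lit 1115102061) (nat_lit 760) (nat_lit 8284483703) (nat_lit 298) (nat_lit 5) (nat_lit 307) (nat_lit 5) (nat_lit 308) (nat_lit 5) (nat_lit 450) (nat_lit 399) (nat_lit 291)) (XT.nd (nat_lit 78) (nat_lit 684) (nat_lit 0) (XT.lf (nat_lit 0) (nat_lit 4808688008) (nat_lit 760) (nat_lit 3008245187) (nat_lit 76) (nat_lit 3101694346) (nat_lit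 298) (nat_lit 5) (nat_lit 308) (nat_lit 5) (nat_lit 299) (nat_lit 5) (nat_lit 451) (nat_lit 399) (nat_lit 290)) (XT.lf (nat_lit 0) (nat_lit 3526440118) (nat_lit 684) (nat_lit 3626104572) (nat_lit 760) (nat_lit 3881372081) (nat_lit 289) (nat_lit 5) (nat_lit 298) (nat_lit 5) (nat_lit 299) (nat_lit 5) (nat_lit 452) (nat_lit 399) (nat_lit 289))))) (XT.nd (nat_lit 234) (nat_lit 608) (nat_lit 0) (XT.nd (nat_lit 78) (nat_lit 1368) (nat_lit 0) (XT.lf (nat_lit 0) (nat_lit 9548076633) (nat_lit 760) (nat_lit 946424669) (nat_lit 76) (nat_lit 656918185) (nat_lit 289) (nat_lit 5) (nat_lit 299) (nat_lit 5) (nat_lit 290) (nat_lit 5) (nat_lit 453) (nat_lit 399) (nat_lit 288)) (XT.nd (nat_lit 78) (nat_lit 608) (nat_lit 0) (XT.lf (nat_lit 0) (nat_lit 753235708) (nat_lit 760) (nat_lit 5500927382) (nat_lit 76) (nat_lit 5016170465) (nat_lit 279) (nat_lit 5) (nat_lit 289) (nat_lit 5) (nat_lit 280) (nat_lit 5) (nat_lit 454) (nat_lit 399) (nat_lit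 287)) (XT.lf (nat_lit 0) (nat_lit 1223050151) (nat_lit 608) (nat_lit 1907534849) (nat_lit 684) (nat_lit 8260930236) (nat_lit 271) (nat_lit 5) (nat_lit 279) (nat_lit 5) (nat_lit 280) (nat_lit 5) (nat_lit 455) (nat_lit 399) (nat_lit 286)))) (XT.nd (nat_lit 78) (nat_lit 608) (nat_lit 0) (XT.lf (nat_lit 0) (nat_lit 5589995823) (nat_lit 684) (nat_lit 3398372329) (nat_lit 76) (nat_lit 2526065493) (nat_lit 271) (nat_lit 5) (nat_lit 280) (nat_lit 5) (nat_lit 272) (nat_lit 5) (nat_lit 456) (nat_lit 399) (nat_lit 285)) (XT.nd (nat_lit 78) (nat_lit 0) (nat_lit 0) (XT.lf (nat_lit 0) (nat_lit 3517664885) (nat_lit 608) (nat_lit 4597730423) (nat_lit 684) (nat_lit 3524082423) (nat_lit 263) (nat_lit 5) (nat_lit 271) (nat_lit 5) (nat_lit 272) (nat_lit 5) (nat_lit 457) (nat_lit 399) (nat_lit 284)) (XT.lf (nat_lit 0) (nat_lit 10595280203) (nat_lit 608) (nat_lit 100374214) (nat_lit 684) (nat_lit 1071284503) (nat_lit 263) (nat_lit 5) (nat_lit 271)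 (nat_lit 5) (nat_lit 272) (nat_lit 5) (nat_lit 458) (nat_lit 399) (nat_lit 283)))))) (XT.nd (nat_lit 468) (nat_lit 2128) (nat_lit 0) (XT.nd (nat_lit 234) (nat_lit 1216) (nat_lit 0) (XT.nd (nat_lit 78) (nat_lit 608) (nat_lit 0) (XT.lf (nat_lit 0) (nat_lit 1461735460) (nat_lit 684) (nat_lit 5961957678) (nat_lit 76) (nat_lit 4472074993) (nat_lit 254) (nat_lit 5) (nat_lit 263) (nat_lit 5) (nat_lit 255) (nat_lit 5) (nat_lit 459) (nat_lit 399) (nat_lit 282)) (XT.nd (nat_lit 78) (nat_lit 0) (nat_lit 0) (XT.lf (nat_lit 0) (nat_lit 1154796526) (nat_lit 608) (nat_lit 2874333204) (nat_lit 684) (nat_lit 7997944469) (nat_lit 246) (nat_lit 5) (nat_lit 254) (nat_lit 5) (nat_lit 255) (nat_lit 5) (nat_lit 460) (nat_lit 399) (nat_lit 281)) (XT.lf (nat_lit 0) (nat_lit 6681754184) (nat_lit 684) (nat_lit 3700205804) (nat_lit 76) (nat_lit 1778371761) (nat_lit 246) (nat_lit 5) (nat_lit 255) (nat_lit 5) (nat_lit 247) (nat_lit 5) (nat_lit 461) (nat_lit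 399) (nat_lit 280)))) (XT.nd (nat_lit 78) (nat_lit 684) (nat_lit 0) (XT.lf (nat_lit 0) (nat_lit 3621245661) (nat_lit 532) (nat_lit 5791225780) (nat_lit 608) (nat_lit 2883285149) (nat_lit 239) (nat_lit 5) (nat_lit 246) (nat_lit 5) (nat_lit 247) (nat_lit 5) (nat_lit 462) (nat_lit 399) (nat_lit 279)) (XT.nd (nat_lit 78) (nat_lit 684) (nat_lit 0) (XT.lf (nat_lit 0) (nat_lit 11116911766) (nat_lit 532) (nat_lit 1088413086) (nat_lit 608) (nat_lit 228417528) (nat_lit 239) (nat_lit 5) (nat_lit 246) (nat_lit 5) (nat_lit 247) (nat_lit 5) (nat_lit 463) (nat_lit 399) (nat_lit 278)) (XT.lf (nat_lit 0) (nat_lit 2494821587) (nat_lit 684) (nat_lit 6366652076) (nat_lit 76) (nat_lit 3711739146) (nat_lit 230) (nat_lit 5) (nat_lit 239) (nat_lit 5) (nat_lit 231) (nat_lit 5) (nat_lit 464) (nat_lit 399) (nat_lit 277))))) (XT.nd (nat_lit 234) (nat_lit 1064) (nat_lit 0) (XT.nd (nat_lit 78) (nat_lit 532) (nat_lit 0) (XT.lf (nat_lit 0) (nat_lit 1167178180)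 (nat_lit 532) (nat_lit 4109047382) (nat_lit 608) (nat_lit 7439084438) (nat_lit 223) (nat_lit 5) (nat_lit 230) (nat_lit 5) (nat_lit 231) (nat_lit 5) (nat_lit 465) (nat_lit 399) (nat_lit 276)) (XT.nd (nat_lit 78) (nat_lit 532) (nat_lit 0) (XT.lf (nat_lit 0) (nat_lit 8144285522) (nat_lit 608) (nat_lit 3948964807) (nat_lit 76) (nat_lit 766380917) (nat_lit 223) (nat_lit 5) (nat_lit 231) (nat_lit 5) (nat_lit 224) (nat_lit 5) (nat_lit 466) (nat_lit 399) (nat_lit 275)) (XT.lf (nat_lit 0) (nat_lit 3802809079) (nat_lit 532) (nat_lit 7302356094) (nat_lit 608) (nat_lit 1900967190) (nat_lit 216) (nat_lit 5) (nat_lit 223) (nat_lit 5) (nat_lit 224) (nat_lit 5) (nat_lit 467) (nat_lit 399) (nat_lit 274)))) (XT.nd (nat_lit 78) (nat_lit 988) (nat_lit 0) (XT.lf (nat_lit 0) (nat_lit 967282211) (nat_lit 608) (nat_lit 1420471114) (nat_lit 76) (nat_lit 10767480753) (nat_lit 215) (nat_lit 5) (nat_lit 223) (nat_lit 5) (nat_lit 216) (nat_lit 5) (nat_lit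 468) (nat_lit 399) (nat_lit 273)) (XT.nd (nat_lit 78) (nat_lit 532) (nat_lit 0) (XT.lf (nat_lit 0) (nat_lit 3911443311) (nat_lit 532) (nat_lit 6753975422) (nat_lit 76) (nat_lit 2640770239) (nat_lit 209) (nat_lit 5) (nat_lit 216) (nat_lit 5) (nat_lit 210) (nat_lit 5) (nat_lit 469) (nat_lit 399) (nat_lit 272)) (XT.lf (nat_lit 0) (nat_lit 1221963782) (nat_lit 532) (nat_lit 5709951009) (nat_lit 608) (nat_lit 6527902047) (nat_lit 202) (nat_lit 5) (nat_lit 209) (nat_lit 5) (nat_lit 210) (nat_lit 5) (nat_lit 470) (nat_lit 399) (nat_lit 271))))))))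
noncomputable def xc137 : XT := (XT.nd (nat_lit 1794) (nat_lit 3040) (nat_lit 0) (XT.nd (nat_lit 858) (nat_lit 2736) (nat_lit 0) (XT.nd (nat_lit 390) (nat_lit 1444) (nat_lit 0) (XT.nd (nat_lit 156) (nat_lit 988) (nat_lit 0) (XT.nd (nat_lit 78) (nat_lit 456) (nat_lit 0) (XT.lf (nat_lit 0) (nat_lit 9427296367) (nat_lit 532) (nat_lit 615078563) (nat_lit 608) (nat_lit 3573553116) (nat_lit 202) (nat_lit 5) (nat_lit 209) (nat_lit 5) (nat_lit 210) (nat_lit 5) (nat_lit 471) (nat_lit 399) (nat_lit 270)) (XT.lf (nat_lit 0) (nat_lit 4023064438) (nat_lit 456) (nat_lit 9232375041) (nat_lit 532) (nat_lit 518916418) (nat_lit 196) (nat_lit 5) (nat_lit 202) (nat_lit 5) (nat_lit 203) (nat_lit 5) (nat_lit 472) (nat_lit 399) (nat_lit 269))) (XT.nd (nat_lit 78) (nat_lit 912) (nat_lit 0) (XT.lf (nat_lit 0) (nat_lit 2579711123) (nat_lit 532) (nat_lit 1522328363) (nat_lit 76) (nat_lit 9833238734) (nat_lit 195) (nat_lit 5) (nat_lit 202) (nat_lit 5)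 (nat_lit 196) (nat_lit 5) (nat_lit 473) (nat_lit 399) (nat_lit 268)) (XT.nd (nat_lit 78) (nat_lit 456) (nat_lit 0) (XT.lf (nat_lit 0) (nat_lit 5770927737) (nat_lit 532) (nat_lit 7168780359) (nat_lit 76) (nat_lit 1158893183) (nat_lit 189) (nat_lit 5) (nat_lit 196) (nat_lit 5) (nat_lit 190) (nat_lit 5) (nat_lit 474) (nat_lit 399) (nat_lit 267)) (XT.lf (nat_lit 0) (nat_lit 1274858773) (nat_lit 456) (nat_lit 7781847043) (nat_lit 532) (nat_lit 5207872390) (nat_lit 183) (nat_lit 5) (nat_lit 189) (nat_lit 5) (nat_lit 190) (nat_lit 5) (nat_lit 475) (nat_lit 399) (nat_lit 266))))) (XT.nd (nat_lit 234) (nat_lit 912) (nat_lit 0) (XT.nd (nat_lit 78) (nat_lit 532) (nat_lit 0) (XT.lf (nat_lit 0) (nat_lit 9963395445) (nat_lit 456) (nat_lit 2478077689) (nat_lit 532) (nat_lit 1991738167) (nat_lit 183) (nat_lit 5) (nat_lit 189) (nat_lit 5) (nat_lit 190) (nat_lit 5) (nat_lit 476) (nat_lit 399) (nat_lit 265)) (XT.nd (nat_lit 78) (nat_lit 0) (nat_lit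 0) (XT.lf (nat_lit 0) (nat_lit 1303982587) (nat_lit 532) (nat_lit 10377139798) (nat_lit 76) (nat_lit 2923286039) (nat_lit 176) (nat_lit 5) (nat_lit 183) (nat_lit 5) (nat_lit 177) (nat_lit 5) (nat_lit 477) (nat_lit 399) (nat_lit 264)) (XT.lf (nat_lit 0) (nat_lit 4671048875) (nat_lit 532) (nat_lit 1670390251) (nat_lit 76) (nat_lit 8436687029) (nat_lit 176) (nat_lit 5) (nat_lit 183) (nat_lit 5) (nat_lit 177) (nat_lit 5) (nat_lit 478) (nat_lit 399) (nat_lit 263)))) (XT.nd (nat_lit 78) (nat_lit 532) (nat_lit 0) (XT.lf (nat_lit 0) (nat_lit 7285411496) (nat_lit 380) (nat_lit 853102591) (nat_lit 456) (nat_lit 6816144946) (nat_lit 171) (nat_lit 5) (nat_lit 176) (nat_lit 5) (nat_lit 177) (nat_lit 5) (nat_lit 479) (nat_lit 399) (nat_lit 262)) (XT.nd (nat_lit 78) (nat_lit 76) (nat_lit 0) (XT.lf (nat_lit 0) (nat_lit 1273555605) (nat_lit 456) (nat_lit 10437993441) (nat_lit 532) (nat_lit 3422451020) (nat_lit 165) (nat_lit 5) (nat_lit 171)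 (nat_lit 5) (nat_lit 172) (nat_lit 5) (nat_lit 480) (nat_lit 399) (nat_lit 261)) (XT.lf (nat_lit 0) (nat_lit 81968456) (nat_lit 532) (nat_lit 4843761131) (nat_lit 76) (nat_lit 10390327791) (nat_lit 164) (nat_lit 5) (nat_lit 171) (nat_lit 5) (nat_lit 165) (nat_lit 5) (nat_lit 481) (nat_lit 399) (nat_lit 260)))))) (XT.nd (nat_lit 468) (nat_lit 1140) (nat_lit 0) (XT.nd (nat_lit 234) (nat_lit 836) (nat_lit 0) (XT.nd (nat_lit 78) (nat_lit 380) (nat_lit 0) (XT.lf (nat_lit 0) (nat_lit 3630054141) (nat_lit 456) (nat_lit 11138345490) (nat_lit 76) (nat_lit 732517464) (nat_lit 159) (nat_lit 5) (nat_lit 165) (nat_lit 5) (nat_lit 160) (nat_lit 5) (nat_lit 482) (nat_lit 399) (nat_lit 259)) (XT.nd (nat_lit 78) (nat_lit 380) (nat_lit 0) (XT.lf (nat_lit 0) (nat_lit 7300724197) (nat_lit 456) (nat_lit 1923452744) (nat_lit 76) (nat_lit 6464266373) (nat_lit 159) (nat_lit 5) (nat_lit 165) (nat_lit 5) (nat_lit 160) (nat_lit 5) (nat_lit 483) (nat_lit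 399) (nat_lit 258)) (XT.lf (nat_lit 0) (nat_lit 7554738940) (nat_lit 380) (nat_lit 3525670547) (nat_lit 456) (nat_lit 4798600262) (nat_lit 154) (nat_lit 5) (nat_lit 159) (nat_lit 5) (nat_lit 160) (nat_lit 5) (nat_lit 484) (nat_lit 399) (nat_lit 257)))) (XT.nd (nat_lit 78) (nat_lit 456) (nat_lit 0) (XT.lf (nat_lit 0) (nat_lit 1155485997) (nat_lit 380) (nat_lit 13802187549) (nat_lit 456) (nat_lit 1115275956) (nat_lit 149) (nat_lit 5) (nat_lit 154) (nat_lit 5) (nat_lit 155) (nat_lit 5) (nat_lit 485) (nat_lit 399) (nat_lit 256)) (XT.nd (nat_lit 78) (nat_lit 380) (nat_lit 0) (XT.lf (nat_lit 0) (nat_lit 2673332384) (nat_lit 456) (nat_lit 5393065064) (nat_lit 76) (nat_lit 8202703912) (nat_lit 148) (nat_lit 5) (nat_lit 154) (nat_lit 5) (nat_lit 149) (nat_lit 5) (nat_lit 486) (nat_lit 399) (nat_lit 255)) (XT.lf (nat_lit 0) (nat_lit 4351685684) (nat_lit 380) (nat_lit 2186307856) (nat_lit 456) (nat_lit 9930732587) (nat_lit 143) (nat_lit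 5) (nat_lit 148) (nat_lit 5) (nat_lit 149) (nat_lit 5) (nat_lit 487) (nat_lit 399) (nat_lit 254))))) (XT.nd (nat_lit 234) (nat_lit 304) (nat_lit 0) (XT.nd (nat_lit 78) (nat_lit 836) (nat_lit 0) (XT.lf (nat_lit 0) (nat_lit 10528154296) (nat_lit 456) (nat_lit 2352078018) (nat_lit 76) (nat_lit 3791148510) (nat_lit 143) (nat_lit 5) (nat_lit 149) (nat_lit 5) (nat_lit 144) (nat_lit 5) (nat_lit 488) (nat_lit 399) (nat_lit 253)) (XT.nd (nat_lit 78) (nat_lit 456) (nat_lit 0) (XT.lf (nat_lit 0) (nat_lit 7674843513) (nat_lit 380) (nat_lit 6974868466) (nat_lit 456) (nat_lit 2227346296) (nat_lit 138) (nat_lit 5) (nat_lit 143) (nat_lit 5) (nat_lit 144) (nat_lit 5) (nat_lit 489) (nat_lit 399) (nat_lit 252)) (XT.lf (nat_lit 0) (nat_lit 827368126) (nat_lit 380) (nat_lit 924894101) (nat_lit 456) (nat_lit 15334187423) (nat_lit 132) (nat_lit 5) (nat_lit 137) (nat_lit 5) (nat_lit 138) (nat_lit 5) (nat_lit 490) (nat_lit 399) (nat_lit 251)))) (XT.nd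 (nat_lit 78) (nat_lit 304) (nat_lit 0) (XT.lf (nat_lit 0) (nat_lit 5865289310) (nat_lit 456) (nat_lit 6185372290) (nat_lit 76) (nat_lit 5247401233) (nat_lit 132) (nat_lit 5) (nat_lit 138) (nat_lit 5) (nat_lit 133) (nat_lit 5) (nat_lit 491) (nat_lit 399) (nat_lit 250)) (XT.nd (nat_lit 78) (nat_lit 0) (nat_lit 0) (XT.lf (nat_lit 0) (nat_lit 4118446278) (nat_lit 304) (nat_lit 5962643495) (nat_lit 380) (nat_lit 7432409665) (nat_lit 128) (nat_lit 5) (nat_lit 132) (nat_lit 5) (nat_lit 133) (nat_lit 5) (nat_lit 492) (nat_lit 399) (nat_lit 249)) (XT.lf (nat_lit 0) (nat_lit 14412314077) (nat_lit 380) (nat_lit 3041437044) (nat_lit 76) (nat_lit 278872887) (nat_lit 128) (nat_lit 5) (nat_lit 133) (nat_lit 5) (nat_lit 129) (nat_lit 5) (nat_lit 493) (nat_lit 399) (nat_lit 248))))))) (XT.nd (nat_lit 936) (nat_lit 608) (nat_lit 0) (XT.nd (nat_lit 468) (nat_lit 988) (nat_lit 0) (XT.nd (nat_lit 234) (nat_lit 684) (nat_lit 0) (XT.nd (nat_lit 78)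 (nat_lit 304) (nat_lit 0) (XT.lf (nat_lit 0) (nat_lit 939608266) (nat_lit 456) (nat_lit 10400818939) (nat_lit 76) (nat_lit 6614050911) (nat_lit 122) (nat_lit 5) (nat_lit 128) (nat_lit 5) (nat_lit 123) (nat_lit 5) (nat_lit 494) (nat_lit 399) (nat_lit 247)) (XT.nd (nat_lit 78) (nat_lit 0) (nat_lit 0) (XT.lf (nat_lit 0) (nat_lit 182811613) (nat_lit 304) (nat_lit 5067223136) (nat_lit 380) (nat_lit 12930101543) (nat_lit 118) (nat_lit 5) (nat_lit 122) (nat_lit 5) (nat_lit 123) (nat_lit 5) (nat_lit 495) (nat_lit 399) (nat_lit 246)) (XT.lf (nat_lit 0) (nat_lit 9713634820) (nat_lit 380) (nat_lit 7317972631) (nat_lit 76) (nat_lit 1377362163) (nat_lit 118) (nat_lit 5) (nat_lit 123) (nat_lit 5) (nat_lit 119) (nat_lit 5) (nat_lit 496) (nat_lit 399) (nat_lit 245)))) (XT.nd (nat_lit 78) (nat_lit 380) (nat_lit 0) (XT.lf (nat_lit 0) (nat_lit 3569542835) (nat_lit 304) (nat_lit 10741994964) (nat_lit 380) (nat_lit 4329942442) (nat_lit 114) (nat_lit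 5) (nat_lit 118) (nat_lit 5) (nat_lit 119) (nat_lit 5) (nat_lit 497) (nat_lit 399) (nat_lit 244)) (XT.nd (nat_lit 78) (nat_lit 304) (nat_lit 0) (XT.lf (nat_lit 0) (nat_lit 158908705) (nat_lit 380) (nat_lit 4123489982) (nat_lit 76) (nat_lit 14595472443) (nat_lit 113) (nat_lit 5) (nat_lit 118) (nat_lit 5) (nat_lit 114) (nat_lit 5) (nat_lit 498) (nat_lit 399) (nat_lit 243)) (XT.lf (nat_lit 0) (nat_lit 4729627070) (nat_lit 380) (nat_lit 12043261339) (nat_lit 76) (nat_lit 2344528833) (nat_lit 109) (nat_lit 5) (nat_lit 114) (nat_lit 5) (nat_lit 110) (nat_lit 5) (nat_lit 499) (nat_lit 399) (nat_lit 242))))) (XT.nd (nat_lit 234) (nat_lit 380) (nat_lit 0) (XT.nd (nat_lit 78) (nat_lit 608) (nat_lit 0) (XT.lf (nat_lit 0) (nat_lit 9436592525) (nat_lit 380) (nat_lit 856504642) (nat_lit 76) (nat_lit 9067761616) (nat_lit 109) (nat_lit 5) (nat_lit 114) (nat_lit 5) (nat_lit 110) (nat_lit 5) (nat_lit 500) (nat_lit 399) (nat_lit 241)) (XT.nd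 (nat_lit 78) (nat_lit 304) (nat_lit 0) (XT.lf (nat_lit 0) (nat_lit 10675955269) (nat_lit 304) (nat_lit 3619898999) (nat_lit 380) (nat_lit 5312152886) (nat_lit 105) (nat_lit 5) (nat_lit 109) (nat_lit 5) (nat_lit 110) (nat_lit 5) (nat_lit 501) (nat_lit 399) (nat_lit 240)) (XT.lf (nat_lit 0) (nat_lit 2585767286) (nat_lit 304) (nat_lit 16698698059) (nat_lit 380) (nat_lit 574990983) (nat_lit 101) (nat_lit 5) (nat_lit 105) (nat_lit 5) (nat_lit 106) (nat_lit 5) (nat_lit 502) (nat_lit 399) (nat_lit 239)))) (XT.nd (nat_lit 78) (nat_lit 304) (nat_lit 0) (XT.lf (nat_lit 0) (nat_lit 4274318799) (nat_lit 380) (nat_lit 5729862012) (nat_lit 76) (nat_lit 10109737274) (nat_lit 100) (nat_lit 5) (nat_lit 105) (nat_lit 5) (nat_lit 101) (nat_lit 5) (nat_lit 503) (nat_lit 399) (nat_lit 238)) (XT.nd (nat_lit 78) (nat_lit 0) (nat_lit 0) (XT.lf (nat_lit 0) (nat_lit 6103298187) (nat_lit 304) (nat_lit 3138394730) (nat_lit 380) (nat_lit 11131125656) (nat_lit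 96) (nat_lit 5) (nat_lit 100) (nat_lit 5) (nat_lit 101) (nat_lit 5) (nat_lit 504) (nat_lit 399) (nat_lit 237)) (XT.lf (nat_lit 0) (nat_lit 14361408547) (nat_lit 380) (nat_lit 2428519279) (nat_lit 76) (nat_lit 3845910395) (nat_lit 96) (nat_lit 5) (nat_lit 101) (nat_lit 5) (nat_lit 97) (nat_lit 5) (nat_lit 505) (nat_lit 399) (nat_lit 236)))))) (XT.nd (nat_lit 51324) (nat_lit 0) (nat_lit 38304) (XT.nd (nat_lit 51090) (nat_lit 0) (nat_lit 39444) (XT.nd (nat_lit 78) (nat_lit 380) (nat_lit 0) (XT.lf (nat_lit 0) (nat_lit 9738757337) (nat_lit 228) (nat_lit 9918184283) (nat_lit 304) (nat_lit 1245709191) (nat_lit 93) (nat_lit 5) (nat_lit 96) (nat_lit 5) (nat_lit 97) (nat_lit 5) (nat_lit 506) (nat_lit 399) (nat_lit 235)) (XT.nd (nat_lit 78) (nat_lit 0) (nat_lit 0) (XT.lf (nat_lit 0) (nat_lit 977814095) (nat_lit 304) (nat_lit 2867023853) (nat_lit 380) (nat_lit 17329214658) (nat_lit 88) (nat_lit 5) (nat_lit 92) (nat_lit 5) (nat_lit 93)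 (nat_lit 5) (nat_lit 507) (nat_lit 399) (nat_lit 234)) (XT.lf (nat_lit 0) (nat_lit 9113507386) (nat_lit 380) (nat_lit 7990089055) (nat_lit 76) (nat_lit 4345262436) (nat_lit 88) (nat_lit 5) (nat_lit 93) (nat_lit 5) (nat_lit 89) (nat_lit 5) (nat_lit 508) (nat_lit 399) (nat_lit 233)))) (XT.nd (nat_lit 78) (nat_lit 0) (nat_lit 0) (XT.lf (nat_lit 0) (nat_lit 160554678) (nat_lit 0) (nat_lit 160554678) (nat_lit 1140) (nat_lit 3282437610) (nat_lit 607) (nat_lit 5) (nat_lit 607) (nat_lit 3) (nat_lit 622) (nat_lit 3) (nat_lit 400) (nat_lit 400) (nat_lit 340)) (XT.nd (nat_lit 78) (nat_lit 0) (nat_lit 0) (XT.lf (nat_lit 0) (nat_lit 2296761370) (nat_lit 1140) (nat_lit 3367944537) (nat_lit 1216) (nat_lit 1581038261) (nat_lit 607) (nat_lit 5) (nat_lit 622) (nat_lit 3) (nat_lit 623) (nat_lit 5) (nat_lit 401) (nat_lit 400) (nat_lit 339)) (XT.lf (nat_lit 76) (nat_lit 198442750) (nat_lit 0) (nat_lit 3746548603) (nat_lit 1216) (nat_lit 3340976145)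 (nat_lit 608) (nat_lit 5) (nat_lit 607) (nat_lit 5) (nat_lit 623) (nat_lit 5) (nat_lit 402) (nat_lit 400) (nat_lit 338))))) (XT.nd (nat_lit 234) (nat_lit 0) (nat_lit 0) (XT.nd (nat_lit 78) (nat_lit 1140) (nat_lit 0) (XT.lf (nat_lit 76) (nat_lit 3859469503) (nat_lit 0) (nat_lit 1747193135) (nat_lit 1216) (nat_lit 1720734908) (nat_lit 608) (nat_lit 5) (nat_lit 607) (nat_lit 5) (nat_lit 623) (nat_lit 5) (nat_lit 403) (nat_lit 400) (nat_lit 337)) (XT.nd (nat_lit 78) (nat_lit 1216) (nat_lit 0) (XT.lf (nat_lit 76) (nat_lit 201945294) (nat_lit 0) (nat_lit 7061657949) (nat_lit 1216) (nat_lit 106823789) (nat_lit 609) (nat_lit 5) (nat_lit 608) (nat_lit 5) (nat_lit 624) (nat_lit 5) (nat_lit 404) (nat_lit 400) (nat_lit 336)) (XT.lf (nat_lit 0) (nat_lit 1513381286) (nat_lit 1216) (nat_lit 3466616199) (nat_lit 1292) (nat_lit 2434246740) (nat_lit 592) (nat_lit 5) (nat_lit 608) (nat_lit 5) (nat_lit 609) (nat_lit 5) (nat_lit 405) (nat_lit 400)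 (nat_lit 335)))) (XT.nd (nat_lit 78) (nat_lit 0) (nat_lit 0) (XT.lf (nat_lit 76) (nat_lit 289563366) (nat_lit 0) (nat_lit 2836886174) (nat_lit 1292) (nat_lit 4333247199) (nat_lit 593) (nat_lit 5) (nat_lit 592) (nat_lit 5) (nat_lit 609) (nat_lit 5) (nat_lit 406) (nat_lit 400) (nat_lit 334)) (XT.nd (nat_lit 78) (nat_lit 0) (nat_lit 76) (XT.lf (nat_lit 76) (nat_lit 4145193992) (nat_lit 0) (nat_lit 610493072) (nat_lit 1292) (nat_lit 2750703757) (nat_lit 593) (nat_lit 5) (nat_lit 592) (nat_lit 5) (nat_lit 609) (nat_lit 5) (nat_lit 407) (nat_lit 400) (nat_lit 333)) (XT.lf (nat_lit 76) (nat_lit 496542667) (nat_lit 0) (nat_lit 5896494150) (nat_lit 1292) (nat_lit 1161481882) (nat_lit 594) (nat_lit 5) (nat_lit 593) (nat_lit 5) (nat_lit 610) (nat_lit 5) (nat_lit 408) (nat_lit 400) (nat_lit 332))))))))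
noncomputable def xc138 : XT := (XT.nd (nat_lit 1794) (nat_lit 12008) (nat_lit 0) (XT.nd (nat_lit 858) (nat_lit 7980) (nat_lit 0) (XT.nd (nat_lit 390) (nat_lit 2584) (nat_lit 0) (XT.nd (nat_lit 156) (nat_lit 0) (nat_lit 76) (XT.nd (nat_lit 78) (nat_lit 0) (nat_lit 0) (XT.lf (nat_lit 0) (nat_lit 442112931) (nat_lit 1292) (nat_lit 3156807298) (nat_lit 1368) (nat_lit 4004866989) (nat_lit 576) (nat_lit 5) (nat_lit 593) (nat_lit 5) (nat_lit 594) (nat_lit 5) (nat_lit 409) (nat_lit 400) (nat_lit 331)) (XT.lf (nat_lit 76) (nat_lit 802201917) (nat_lit 0) (nat_lit 1227863618) (nat_lit 1368) (nat_lit 5624475124) (nat_lit 577) (nat_lit 5) (nat_lit 576) (nat_lit 5) (nat_lit 594) (nat_lit 5) (nat_lit 410) (nat_lit 400) (nat_lit 330))) (XT.nd (nat_lit 78) (nat_lit 0) (nat_lit 0) (XT.lf (nat_lit 0) (nat_lit 3642121863) (nat_lit 1292) (nat_lit 2854270134) (nat_lit 1368) (nat_lit 1210079946) (nat_lit 577) (nat_lit 5) (nat_lit 594) (nat_lit 5)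 (nat_lit 595) (nat_lit 5) (nat_lit 411) (nat_lit 400) (nat_lit 329)) (XT.nd (nat_lit 78) (nat_lit 0) (nat_lit 0) (XT.lf (nat_lit 76) (nat_lit 1208242494) (nat_lit 0) (nat_lit 4058163166) (nat_lit 1368) (nat_lit 2493445945) (nat_lit 578) (nat_lit 5) (nat_lit 577) (nat_lit 5) (nat_lit 595) (nat_lit 5) (nat_lit 412) (nat_lit 400) (nat_lit 328)) (XT.lf (nat_lit 76) (nat_lit 5367616479) (nat_lit 0) (nat_lit 1539278234) (nat_lit 1368) (nat_lit 907739049) (nat_lit 578) (nat_lit 5) (nat_lit 577) (nat_lit 5) (nat_lit 595) (nat_lit 5) (nat_lit 413) (nat_lit 400) (nat_lit 327))))) (XT.nd (nat_lit 234) (nat_lit 1368) (nat_lit 0) (XT.nd (nat_lit 78) (nat_lit 0) (nat_lit 0) (XT.lf (nat_lit 0) (nat_lit 683528479) (nat_lit 1368) (nat_lit 6143063057) (nat_lit 1444) (nat_lit 1044173721) (nat_lit 560) (nat_lit 5) (nat_lit 578) (nat_lit 5) (nat_lit 579) (nat_lit 5) (nat_lit 414) (nat_lit 400) (nat_lit 326)) (XT.nd (nat_lit 78) (nat_lit 0) (nat_lit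 0) (XT.lf (nat_lit 0) (nat_lit 2286834639) (nat_lit 1368) (nat_lit 1948639838) (nat_lit 1444) (nat_lit 3692586300) (nat_lit 560) (nat_lit 5) (nat_lit 578) (nat_lit 5) (nat_lit 579) (nat_lit 5) (nat_lit 415) (nat_lit 400) (nat_lit 325)) (XT.lf (nat_lit 76) (nat_lit 2337067264) (nat_lit 0) (nat_lit 1566620438) (nat_lit 1444) (nat_lit 4083193475) (nat_lit 561) (nat_lit 5) (nat_lit 560) (nat_lit 5) (nat_lit 579) (nat_lit 5) (nat_lit 416) (nat_lit 400) (nat_lit 324)))) (XT.nd (nat_lit 78) (nat_lit 1444) (nat_lit 0) (XT.lf (nat_lit 0) (nat_lit 5540426899) (nat_lit 1368) (nat_lit 1343143362) (nat_lit 1444) (nat_lit 1163565161) (nat_lit 561) (nat_lit 5) (nat_lit 579) (nat_lit 5) (nat_lit 580) (nat_lit 5) (nat_lit 417) (nat_lit 400) (nat_lit 323)) (XT.nd (nat_lit 78) (nat_lit 1444) (nat_lit 0) (XT.lf (nat_lit 76) (nat_lit 3055992832) (nat_lit 0) (nat_lit 4151656983) (nat_lit 1444) (nat_lit 900998208) (nat_lit 562) (nat_lit 5) (nat_lit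 561) (nat_lit 5) (nat_lit 580) (nat_lit 5) (nat_lit 418) (nat_lit 400) (nat_lit 322)) (XT.lf (nat_lit 0) (nat_lit 704034109) (nat_lit 1444) (nat_lit 638390654) (nat_lit 1520) (nat_lit 6829340938) (nat_lit 542) (nat_lit 5) (nat_lit 561) (nat_lit 5) (nat_lit 562) (nat_lit 5) (nat_lit 419) (nat_lit 400) (nat_lit 321)))))) (XT.nd (nat_lit 468) (nat_lit 5092) (nat_lit 0) (XT.nd (nat_lit 234) (nat_lit 2964) (nat_lit 0) (XT.nd (nat_lit 78) (nat_lit 0) (nat_lit 0) (XT.lf (nat_lit 0) (nat_lit 2332923456) (nat_lit 1444) (nat_lit 4360343781) (nat_lit 1520) (nat_lit 1542690744) (nat_lit 543) (nat_lit 5) (nat_lit 562) (nat_lit 5) (nat_lit 563) (nat_lit 5) (nat_lit 420) (nat_lit 400) (nat_lit 320)) (XT.nd (nat_lit 78) (nat_lit 0) (nat_lit 0) (XT.lf (nat_lit 76) (nat_lit 156619379) (nat_lit 0) (nat_lit 3820942330) (nat_lit 1520) (nat_lit 4324216598) (nat_lit 544) (nat_lit 5) (nat_lit 543) (nat_lit 5) (nat_lit 563) (nat_lit 5) (nat_lit 421)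 (nat_lit 400) (nat_lit 319)) (XT.lf (nat_lit 76) (nat_lit 4799463077) (nat_lit 0) (nat_lit 854297352) (nat_lit 1520) (nat_lit 2715188731) (nat_lit 544) (nat_lit 5) (nat_lit 543) (nat_lit 5) (nat_lit 563) (nat_lit 5) (nat_lit 422) (nat_lit 400) (nat_lit 318)))) (XT.nd (nat_lit 78) (nat_lit 1596) (nat_lit 0) (XT.lf (nat_lit 0) (nat_lit 1073930818) (nat_lit 1444) (nat_lit 6280677057) (nat_lit 1520) (nat_lit 1083040388) (nat_lit 525) (nat_lit 5) (nat_lit 544) (nat_lit 5) (nat_lit 545) (nat_lit 5) (nat_lit 423) (nat_lit 400) (nat_lit 317)) (XT.nd (nat_lit 78) (nat_lit 1520) (nat_lit 0) (XT.lf (nat_lit 0) (nat_lit 574174056) (nat_lit 1520) (nat_lit 2682234130) (nat_lit 76) (nat_lit 5251243604) (nat_lit 524) (nat_lit 5) (nat_lit 544) (nat_lit 5) (nat_lit 525) (nat_lit 5) (nat_lit 424) (nat_lit 400) (nat_lit 316)) (XT.lf (nat_lit 0) (nat_lit 2089582346) (nat_lit 1520) (nat_lit 144895262) (nat_lit 1596) (nat_lit 6344752571) (nat_lit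 504) (nat_lit 5) (nat_lit 524) (nat_lit 5) (nat_lit 525) (nat_lit 5) (nat_lit 425) (nat_lit 400) (nat_lit 315))))) (XT.nd (nat_lit 234) (nat_lit 3496) (nat_lit 0) (XT.nd (nat_lit 78) (nat_lit 1596) (nat_lit 0) (XT.lf (nat_lit 0) (nat_lit 3937091302) (nat_lit 1596) (nat_lit 1702461328) (nat_lit 76) (nat_lit 3012512195) (nat_lit 504) (nat_lit 5) (nat_lit 525) (nat_lit 5) (nat_lit 505) (nat_lit 5) (nat_lit 426) (nat_lit 400) (nat_lit 314)) (XT.nd (nat_lit 78) (nat_lit 0) (nat_lit 0) (XT.lf (nat_lit 0) (nat_lit 3197930946) (nat_lit 1596) (nat_lit 2469431706) (nat_lit 1672) (nat_lit 3059128041) (nat_lit 483) (nat_lit 5) (nat_lit 504) (nat_lit 5) (nat_lit 505) (nat_lit 5) (nat_lit 427) (nat_lit 400) (nat_lit 313)) (XT.lf (nat_lit 0) (nat_lit 7421011089) (nat_lit 1672) (nat_lit 611759073) (nat_lit 76) (nat_lit 769865989) (nat_lit 483) (nat_lit 5) (nat_lit 505) (nat_lit 5) (nat_lit 484) (nat_lit 5) (nat_lit 428) (nat_lit 400) (nat_lit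 312)))) (XT.nd (nat_lit 78) (nat_lit 1748) (nat_lit 0) (XT.lf (nat_lit 0) (nat_lit 343134690) (nat_lit 1748) (nat_lit 4460681687) (nat_lit 76) (nat_lit 4076091072) (nat_lit 460) (nat_lit 5) (nat_lit 483) (nat_lit 5) (nat_lit 461) (nat_lit 5) (nat_lit 429) (nat_lit 400) (nat_lit 311)) (XT.nd (nat_lit 78) (nat_lit 0) (nat_lit 0) (XT.lf (nat_lit 0) (nat_lit 575152700) (nat_lit 1748) (nat_lit 1489671868) (nat_lit 1824) (nat_lit 6894104389) (nat_lit 437) (nat_lit 5) (nat_lit 460) (nat_lit 5) (nat_lit 461) (nat_lit 5) (nat_lit 430) (nat_lit 400) (nat_lit 310)) (XT.lf (nat_lit 0) (nat_lit 3836802244) (nat_lit 1824) (nat_lit 3303332603) (nat_lit 76) (nat_lit 1899084979) (nat_lit 437) (nat_lit 5) (nat_lit 461) (nat_lit 5) (nat_lit 438) (nat_lit 5) (nat_lit 431) (nat_lit 400) (nat_lit 309))))))) (XT.nd (nat_lit 936) (nat_lit 5244) (nat_lit 0) (XT.nd (nat_lit 468) (nat_lit 2508) (nat_lit 0) (XT.nd (nat_lit 234) (nat_lit 1824) (nat_lit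 0) (XT.nd (nat_lit 78) (nat_lit 988) (nat_lit 0) (XT.lf (nat_lit 0) (nat_lit 1869753570) (nat_lit 1444) (nat_lit 3770437826) (nat_lit 1520) (nat_lit 3481011571) (nat_lit 418) (nat_lit 5) (nat_lit 437) (nat_lit 5) (nat_lit 438) (nat_lit 5) (nat_lit 432) (nat_lit 400) (nat_lit 308)) (XT.nd (nat_lit 78) (nat_lit 988) (nat_lit 0) (XT.lf (nat_lit 0) (nat_lit 7167611296) (nat_lit 1444) (nat_lit 308529088) (nat_lit 1520) (nat_lit 1728761324) (nat_lit 418) (nat_lit 5) (nat_lit 437) (nat_lit 5) (nat_lit 438) (nat_lit 5) (nat_lit 433) (nat_lit 400) (nat_lit 307)) (XT.lf (nat_lit 0) (nat_lit 74933504) (nat_lit 988) (nat_lit 6010720197) (nat_lit 76) (nat_lit 3204275328) (nat_lit 405) (nat_lit 5) (nat_lit 418) (nat_lit 5) (nat_lit 406) (nat_lit 5) (nat_lit 434) (nat_lit 400) (nat_lit 306)))) (XT.nd (nat_lit 78) (nat_lit 1824) (nat_lit 0) (XT.lf (nat_lit 0) (nat_lit 1882394946) (nat_lit 988) (nat_lit 684025326) (nat_lit 76) (nat_lit 6810196712)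 (nat_lit 405) (nat_lit 5) (nat_lit 418) (nat_lit 5) (nat_lit 406) (nat_lit 5) (nat_lit 435) (nat_lit 400) (nat_lit 305)) (XT.nd (nat_lit 78) (nat_lit 912) (nat_lit 0) (XT.lf (nat_lit 0) (nat_lit 3739458752) (nat_lit 988) (nat_lit 4683008936) (nat_lit 76) (nat_lit 1042307284) (nat_lit 393) (nat_lit 5) (nat_lit 406) (nat_lit 5) (nat_lit 394) (nat_lit 5) (nat_lit 436) (nat_lit 400) (nat_lit 304)) (XT.lf (nat_lit 0) (nat_lit 781168690) (nat_lit 912) (nat_lit 4855025091) (nat_lit 988) (nat_lit 3918456973) (nat_lit 381) (nat_lit 5) (nat_lit 393) (nat_lit 5) (nat_lit 394) (nat_lit 5) (nat_lit 437) (nat_lit 400) (nat_lit 303))))) (XT.nd (nat_lit 234) (nat_lit 1596) (nat_lit 0) (XT.nd (nat_lit 78) (nat_lit 912) (nat_lit 0) (XT.lf (nat_lit 0) (nat_lit 6394673520) (nat_lit 912) (nat_lit 1183778335) (nat_lit 988) (nat_lit 2067725559) (nat_lit 381) (nat_lit 5) (nat_lit 393) (nat_lit 5) (nat_lit 394) (nat_lit 5) (nat_lit 438) (nat_lit 400)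 (nat_lit 302)) (XT.nd (nat_lit 78) (nat_lit 76) (nat_lit 0) (XT.lf (nat_lit 0) (nat_lit 2371944070) (nat_lit 836) (nat_lit 7196271113) (nat_lit 912) (nat_lit 171151253) (nat_lit 370) (nat_lit 5) (nat_lit 381) (nat_lit 5) (nat_lit 382) (nat_lit 5) (nat_lit 439) (nat_lit 400) (nat_lit 301)) (XT.lf (nat_lit 0) (nat_lit 1746813396) (nat_lit 912) (nat_lit 1725090148) (nat_lit 76) (nat_lit 6362159841) (nat_lit 369) (nat_lit 5) (nat_lit 381) (nat_lit 5) (nat_lit 370) (nat_lit 5) (nat_lit 440) (nat_lit 400) (nat_lit 300)))) (XT.nd (nat_lit 78) (nat_lit 760) (nat_lit 0) (XT.lf (nat_lit 0) (nat_lit 3706741516) (nat_lit 912) (nat_lit 5873823874) (nat_lit 76) (nat_lit 349953077) (nat_lit 358) (nat_lit 5) (nat_lit 370) (nat_lit 5) (nat_lit 359) (nat_lit 5) (nat_lit 441) (nat_lit 400) (nat_lit 299)) (XT.nd (nat_lit 78) (nat_lit 760) (nat_lit 0) (XT.lf (nat_lit 0) (nat_lit 5718044879) (nat_lit 912) (nat_lit 97687058) (nat_lit 76) (nat_lit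 4212931828) (nat_lit 358) (nat_lit 5) (nat_lit 370) (nat_lit 5) (nat_lit 359) (nat_lit 5) (nat_lit 442) (nat_lit 400) (nat_lit 298)) (XT.lf (nat_lit 0) (nat_lit 5847679976) (nat_lit 760) (nat_lit 1937832934) (nat_lit 836) (nat_lit 2342944841) (nat_lit 348) (nat_lit 5) (nat_lit 358) (nat_lit 5) (nat_lit 359) (nat_lit 5) (nat_lit 443) (nat_lit 400) (nat_lit 297)))))) (XT.nd (nat_lit 468) (nat_lit 2204) (nat_lit 0) (XT.nd (nat_lit 234) (nat_lit 1444) (nat_lit 0) (XT.nd (nat_lit 78) (nat_lit 836) (nat_lit 0) (XT.lf (nat_lit 0) (nat_lit 1668556384) (nat_lit 760) (nat_lit 8228615099) (nat_lit 836) (nat_lit 333023778) (nat_lit 338) (nat_lit 5) (nat_lit 348) (nat_lit 5) (nat_lit 349) (nat_lit 5) (nat_lit 444) (nat_lit 400) (nat_lit 296)) (XT.nd (nat_lit 78) (nat_lit 760) (nat_lit 0) (XT.lf (nat_lit 0) (nat_lit 1714703602) (nat_lit 836) (nat_lit 2586066313) (nat_lit 76) (nat_lit 6032576370) (nat_lit 337) (nat_lit 5) (nat_lit 348) (nat_lit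 5) (nat_lit 338) (nat_lit 5) (nat_lit 445) (nat_lit 400) (nat_lit 295)) (XT.lf (nat_lit 0) (nat_lit 3530164400) (nat_lit 760) (nat_lit 270488310) (nat_lit 836) (nat_lit 6637833273) (nat_lit 327) (nat_lit 5) (nat_lit 337) (nat_lit 5) (nat_lit 338) (nat_lit 5) (nat_lit 446) (nat_lit 400) (nat_lit 294)))) (XT.nd (nat_lit 78) (nat_lit 1444) (nat_lit 0) (XT.lf (nat_lit 0) (nat_lit 5949781575) (nat_lit 836) (nat_lit 789862450) (nat_lit 76) (nat_lit 3805659362) (nat_lit 327) (nat_lit 5) (nat_lit 338) (nat_lit 5) (nat_lit 328) (nat_lit 5) (nat_lit 447) (nat_lit 400) (nat_lit 293)) (XT.nd (nat_lit 78) (nat_lit 684) (nat_lit 0) (XT.lf (nat_lit 0) (nat_lit 5498537641) (nat_lit 760) (nat_lit 2660315041) (nat_lit 836) (nat_lit 2495069310) (nat_lit 317) (nat_lit 5) (nat_lit 327) (nat_lit 5) (nat_lit 328) (nat_lit 5) (nat_lit 448) (nat_lit 400) (nat_lit 292)) (XT.lf (nat_lit 0) (nat_lit 1140996011) (nat_lit 684) (nat_lit 9273304632) (nat_lit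 760) (nat_lit 350372382) (nat_lit 308) (nat_lit 5) (nat_lit 317) (nat_lit 5) (nat_lit 318) (nat_lit 5) (nat_lit 449) (nat_lit 400) (nat_lit 291))))) (XT.nd (nat_lit 234) (nat_lit 1444) (nat_lit 0) (XT.nd (nat_lit 78) (nat_lit 684) (nat_lit 0) (XT.lf (nat_lit 0) (nat_lit 1845387383) (nat_lit 760) (nat_lit 3296652735) (nat_lit 76) (nat_lit 5734718918) (nat_lit 307) (nat_lit 5) (nat_lit 317) (nat_lit 5) (nat_lit 308) (nat_lit 5) (nat_lit 450) (nat_lit 400) (nat_lit 290)) (XT.nd (nat_lit 78) (nat_lit 0) (nat_lit 0) (XT.lf (nat_lit 0) (nat_lit 3173550022) (nat_lit 684) (nat_lit 907647580) (nat_lit 760) (nat_lit 6909830047) (nat_lit 298) (nat_lit 5) (nat_lit 307) (nat_lit 5) (nat_lit 308) (nat_lit 5) (nat_lit 451) (nat_lit 400) (nat_lit 289)) (XT.lf (nat_lit 0) (nat_lit 6386582066) (nat_lit 760) (nat_lit 1334480559) (nat_lit 76) (nat_lit 3386025511) (nat_lit 298) (nat_lit 5) (nat_lit 308) (nat_lit 5) (nat_lit 299) (nat_lit 5) (nat_lit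 452) (nat_lit 400) (nat_lit 288)))) (XT.nd (nat_lit 78) (nat_lit 760) (nat_lit 0) (XT.lf (nat_lit 0) (nat_lit 5319491020) (nat_lit 684) (nat_lit 3439955279) (nat_lit 760) (nat_lit 2465599687) (nat_lit 289) (nat_lit 5) (nat_lit 298) (nat_lit 5) (nat_lit 299) (nat_lit 5) (nat_lit 453) (nat_lit 400) (nat_lit 287)) (XT.nd (nat_lit 78) (nat_lit 76) (nat_lit 0) (XT.lf (nat_lit 0) (nat_lit 760693819) (nat_lit 684) (nat_lit 10420077570) (nat_lit 760) (nat_lit 164575053) (nat_lit 280) (nat_lit 5) (nat_lit 289) (nat_lit 5) (nat_lit 290) (nat_lit 5) (nat_lit 454) (nat_lit 400) (nat_lit 286)) (XT.lf (nat_lit 0) (nat_lit 2197650878) (nat_lit 760) (nat_lit 3886913793) (nat_lit 76) (nat_lit 5382332134) (nat_lit 279) (nat_lit 5) (nat_lit 289) (nat_lit 5) (nat_lit 280) (nat_lit 5) (nat_lit 455) (nat_lit 400) (nat_lit 285))))))))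
noncomputable def xc139 : XT := (XT.nd (nat_lit 1794) (nat_lit 5396) (nat_lit 0) (XT.nd (nat_lit 858) (nat_lit 3572) (nat_lit 0) (XT.nd (nat_lit 390) (nat_lit 2356) (nat_lit 0) (XT.nd (nat_lit 156) (nat_lit 1292) (nat_lit 0) (XT.nd (nat_lit 78) (nat_lit 0) (nat_lit 0) (XT.lf (nat_lit 0) (nat_lit 2960200973) (nat_lit 608) (nat_lit 1645439621) (nat_lit 684) (nat_lit 6985204685) (nat_lit 271) (nat_lit 5) (nat_lit 279) (nat_lit 5) (nat_lit 280) (nat_lit 5) (nat_lit 456) (nat_lit 400) (nat_lit 284)) (XT.lf (nat_lit 0) (nat_lit 7088455828) (nat_lit 684) (nat_lit 1761201849) (nat_lit 76) (nat_lit 2867084984) (nat_lit 271) (nat_lit 5) (nat_lit 280) (nat_lit 5) (nat_lit 272) (nat_lit 5) (nat_lit 457) (nat_lit 400) (nat_lit 283))) (XT.nd (nat_lit 78) (nat_lit 684) (nat_lit 0) (XT.lf (nat_lit 0) (nat_lit 5281938097) (nat_lit 608) (nat_lit 4366233844) (nat_lit 684) (nat_lit 2196444348) (nat_lit 263) (nat_lit 5) (nat_lit 271) (nat_lit 5)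 (nat_lit 272) (nat_lit 5) (nat_lit 458) (nat_lit 400) (nat_lit 282)) (XT.nd (nat_lit 78) (nat_lit 0) (nat_lit 0) (XT.lf (nat_lit 0) (nat_lit 279006674) (nat_lit 684) (nat_lit 11479053847) (nat_lit 76) (nat_lit 216979115) (nat_lit 254) (nat_lit 5) (nat_lit 263) (nat_lit 5) (nat_lit 255) (nat_lit 5) (nat_lit 459) (nat_lit 400) (nat_lit 281)) (XT.lf (nat_lit 0) (nat_lit 2830151564) (nat_lit 684) (nat_lit 4388506892) (nat_lit 76) (nat_lit 4888013723) (nat_lit 254) (nat_lit 5) (nat_lit 263) (nat_lit 5) (nat_lit 255) (nat_lit 5) (nat_lit 460) (nat_lit 400) (nat_lit 280))))) (XT.nd (nat_lit 234) (nat_lit 1216) (nat_lit 0) (XT.nd (nat_lit 78) (nat_lit 532) (nat_lit 0) (XT.lf (nat_lit 0) (nat_lit 2859446278) (nat_lit 608) (nat_lit 2574106746) (nat_lit 684) (nat_lit 6807362624) (nat_lit 246) (nat_lit 5) (nat_lit 254) (nat_lit 5) (nat_lit 255) (nat_lit 5) (nat_lit 461) (nat_lit 400) (nat_lit 279)) (XT.nd (nat_lit 78) (nat_lit 532) (nat_lit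 0) (XT.lf (nat_lit 0) (nat_lit 8115549277) (nat_lit 684) (nat_lit 2101728208) (nat_lit 76) (nat_lit 2160038853) (nat_lit 246) (nat_lit 5) (nat_lit 255) (nat_lit 5) (nat_lit 247) (nat_lit 5) (nat_lit 462) (nat_lit 400) (nat_lit 278)) (XT.lf (nat_lit 0) (nat_lit 5355149117) (nat_lit 532) (nat_lit 5531025850) (nat_lit 608) (nat_lit 1629573120) (nat_lit 239) (nat_lit 5) (nat_lit 246) (nat_lit 5) (nat_lit 247) (nat_lit 5) (nat_lit 463) (nat_lit 400) (nat_lit 277)))) (XT.nd (nat_lit 78) (nat_lit 532) (nat_lit 0) (XT.lf (nat_lit 0) (nat_lit 308358118) (nat_lit 608) (nat_lit 732516443) (nat_lit 684) (nat_lit 11615950604) (nat_lit 230) (nat_lit 5) (nat_lit 238) (nat_lit 5) (nat_lit 239) (nat_lit 5) (nat_lit 464) (nat_lit 400) (nat_lit 276)) (XT.nd (nat_lit 78) (nat_lit 532) (nat_lit 0) (XT.lf (nat_lit 0) (nat_lit 3801729770) (nat_lit 684) (nat_lit 4836023494) (nat_lit 76) (nat_lit 4161581388) (nat_lit 230) (nat_lit 5) (nat_lit 239)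 (nat_lit 5) (nat_lit 231) (nat_lit 5) (nat_lit 465) (nat_lit 400) (nat_lit 275)) (XT.lf (nat_lit 0) (nat_lit 2837575725) (nat_lit 532) (nat_lit 3787232578) (nat_lit 608) (nat_lit 6319748518) (nat_lit 223) (nat_lit 5) (nat_lit 230) (nat_lit 5) (nat_lit 231) (nat_lit 5) (nat_lit 466) (nat_lit 400) (nat_lit 274)))))) (XT.nd (nat_lit 468) (nat_lit 1976) (nat_lit 0) (XT.nd (nat_lit 234) (nat_lit 532) (nat_lit 0) (XT.nd (nat_lit 78) (nat_lit 1064) (nat_lit 0) (XT.lf (nat_lit 0) (nat_lit 9528427348) (nat_lit 608) (nat_lit 2391188857) (nat_lit 76) (nat_lit 1172588217) (nat_lit 223) (nat_lit 5) (nat_lit 231) (nat_lit 5) (nat_lit 224) (nat_lit 5) (nat_lit 467) (nat_lit 400) (nat_lit 273)) (XT.nd (nat_lit 78) (nat_lit 532) (nat_lit 0) (XT.lf (nat_lit 0) (nat_lit 5504852381) (nat_lit 532) (nat_lit 7030282999) (nat_lit 608) (nat_lit 706771775) (nat_lit 216) (nat_lit 5) (nat_lit 223) (nat_lit 5) (nat_lit 224) (nat_lit 5) (nat_lit 468) (nat_lit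 400) (nat_lit 272)) (XT.lf (nat_lit 0) (nat_lit 163394390) (nat_lit 456) (nat_lit 2016504174) (nat_lit 532) (nat_lit 11214391663) (nat_lit 209) (nat_lit 5) (nat_lit 215) (nat_lit 5) (nat_lit 216) (nat_lit 5) (nat_lit 469) (nat_lit 400) (nat_lit 271)))) (XT.nd (nat_lit 78) (nat_lit 532) (nat_lit 0) (XT.lf (nat_lit 0) (nat_lit 5171619625) (nat_lit 532) (nat_lit 5268481026) (nat_lit 76) (nat_lit 3108393622) (nat_lit 209) (nat_lit 5) (nat_lit 216) (nat_lit 5) (nat_lit 210) (nat_lit 5) (nat_lit 470) (nat_lit 400) (nat_lit 270)) (XT.nd (nat_lit 78) (nat_lit 0) (nat_lit 0) (XT.lf (nat_lit 0) (nat_lit 2856315292) (nat_lit 532) (nat_lit 5383462421) (nat_lit 608) (nat_lit 5465674960) (nat_lit 202) (nat_lit 5) (nat_lit 209) (nat_lit 5) (nat_lit 210) (nat_lit 5) (nat_lit 471) (nat_lit 400) (nat_lit 269)) (XT.lf (nat_lit 0) (nat_lit 11194187622) (nat_lit 532) (nat_lit 195333460) (nat_lit 608) (nat_lit 2475626994) (nat_lit 202) (nat_lit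 5) (nat_lit 209) (nat_lit 5) (nat_lit 210) (nat_lit 5) (nat_lit 472) (nat_lit 400) (nat_lit 268))))) (XT.nd (nat_lit 234) (nat_lit 988) (nat_lit 0) (XT.nd (nat_lit 78) (nat_lit 456) (nat_lit 0) (XT.lf (nat_lit 0) (nat_lit 622226510) (nat_lit 532) (nat_lit 8339382677) (nat_lit 76) (nat_lit 5065245113) (nat_lit 195) (nat_lit 5) (nat_lit 202) (nat_lit 5) (nat_lit 196) (nat_lit 5) (nat_lit 473) (nat_lit 400) (nat_lit 267)) (XT.nd (nat_lit 78) (nat_lit 0) (nat_lit 0) (XT.lf (nat_lit 0) (nat_lit 19538257) (nat_lit 456) (nat_lit 3734030670) (nat_lit 532) (nat_lit 10437806980) (nat_lit 189) (nat_lit 5) (nat_lit 195) (nat_lit 5) (nat_lit 196) (nat_lit 5) (nat_lit 474) (nat_lit 400) (nat_lit 266)) (XT.lf (nat_lit 0) (nat_lit 6999551078) (nat_lit 532) (nat_lit 5731007667) (nat_lit 76) (nat_lit 1627591049) (nat_lit 189) (nat_lit 5) (nat_lit 196) (nat_lit 5) (nat_lit 190) (nat_lit 5) (nat_lit 475) (nat_lit 400) (nat_lit 265)))) (XT.nd (nat_lit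 78) (nat_lit 532) (nat_lit 0) (XT.lf (nat_lit 0) (nat_lit 2871101956) (nat_lit 456) (nat_lit 7468313542) (nat_lit 532) (nat_lit 4188266470) (nat_lit 183) (nat_lit 5) (nat_lit 189) (nat_lit 5) (nat_lit 190) (nat_lit 5) (nat_lit 476) (nat_lit 400) (nat_lit 264)) (XT.nd (nat_lit 78) (nat_lit 532) (nat_lit 0) (XT.lf (nat_lit 0) (nat_lit 11702610421) (nat_lit 456) (nat_lit 2067668221) (nat_lit 532) (nat_lit 929844139) (nat_lit 183) (nat_lit 5) (nat_lit 189) (nat_lit 5) (nat_lit 190) (nat_lit 5) (nat_lit 477) (nat_lit 400) (nat_lit 263)) (XT.lf (nat_lit 0) (nat_lit 2409089925) (nat_lit 532) (nat_lit 9021736925) (nat_lit 76) (nat_lit 3443941913) (nat_lit 176) (nat_lit 5) (nat_lit 183) (nat_lit 5) (nat_lit 177) (nat_lit 5) (nat_lit 478) (nat_lit 400) (nat_lit 262))))))) (XT.nd (nat_lit 936) (nat_lit 2508) (nat_lit 0) (XT.nd (nat_lit 468) (nat_lit 1596) (nat_lit 0) (XT.nd (nat_lit 234) (nat_lit 456) (nat_lit 0) (XT.nd (nat_lit 78) (nat_lit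 836) (nat_lit 0) (XT.lf (nat_lit 0) (nat_lit 5822340133) (nat_lit 532) (nat_lit 171498381) (nat_lit 76) (nat_lit 9058548371) (nat_lit 176) (nat_lit 5) (nat_lit 183) (nat_lit 5) (nat_lit 177) (nat_lit 5) (nat_lit 479) (nat_lit 400) (nat_lit 261)) (XT.nd (nat_lit 78) (nat_lit 456) (nat_lit 0) (XT.lf (nat_lit 0) (nat_lit 8953338482) (nat_lit 380) (nat_lit 394956867) (nat_lit 456) (nat_lit 5884375088) (nat_lit 171) (nat_lit 5) (nat_lit 176) (nat_lit 5) (nat_lit 177) (nat_lit 5) (nat_lit 480) (nat_lit 400) (nat_lit 260)) (XT.lf (nat_lit 0) (nat_lit 2829108891) (nat_lit 456) (nat_lit 10156111663) (nat_lit 532) (nat_lit 2430531921) (nat_lit 165) (nat_lit 5) (nat_lit 171) (nat_lit 5) (nat_lit 172) (nat_lit 5) (nat_lit 481) (nat_lit 400) (nat_lit 259)))) (XT.nd (nat_lit 78) (nat_lit 380) (nat_lit 0) (XT.lf (nat_lit 0) (nat_lit 1109550180) (nat_lit 532) (nat_lit 3426788163) (nat_lit 76) (nat_lit 11065387943) (nat_lit 164) (nat_lit 5)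 (nat_lit 171) (nat_lit 5) (nat_lit 165) (nat_lit 5) (nat_lit 482) (nat_lit 400) (nat_lit 258)) (XT.nd (nat_lit 78) (nat_lit 0) (nat_lit 0) (XT.lf (nat_lit 0) (nat_lit 4721415662) (nat_lit 456) (nat_lit 9839951518) (nat_lit 76) (nat_lit 1229062271) (nat_lit 159) (nat_lit 5) (nat_lit 165) (nat_lit 5) (nat_lit 160) (nat_lit 5) (nat_lit 483) (nat_lit 400) (nat_lit 257)) (XT.lf (nat_lit 0) (nat_lit 8445523425) (nat_lit 456) (nat_lit 470587601) (nat_lit 76) (nat_lit 7065997248) (nat_lit 159) (nat_lit 5) (nat_lit 165) (nat_lit 5) (nat_lit 160) (nat_lit 5) (nat_lit 484) (nat_lit 400) (nat_lit 256))))) (XT.nd (nat_lit 234) (nat_lit 760) (nat_lit 0) (XT.nd (nat_lit 78) (nat_lit 456) (nat_lit 0) (XT.lf (nat_lit 0) (nat_lit 9187356508) (nat_lit 380) (nat_lit 3103480926) (nat_lit 456) (nat_lit 3885850415) (nat_lit 154) (nat_lit 5) (nat_lit 159) (nat_lit 5) (nat_lit 160) (nat_lit 5) (nat_lit 485) (nat_lit 400) (nat_lit 255)) (XT.nd (nat_lit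 78) (nat_lit 76) (nat_lit 0) (XT.lf (nat_lit 0) (nat_lit 2666964895) (nat_lit 380) (nat_lit 13572092967) (nat_lit 456) (nat_lit 135582779) (nat_lit 149) (nat_lit 5) (nat_lit 154) (nat_lit 5) (nat_lit 155) (nat_lit 5) (nat_lit 486) (nat_lit 400) (nat_lit 254)) (XT.lf (nat_lit 0) (nat_lit 3696266975) (nat_lit 456) (nat_lit 4028738729) (nat_lit 76) (nat_lit 8849969875) (nat_lit 148) (nat_lit 5) (nat_lit 154) (nat_lit 5) (nat_lit 149) (nat_lit 5) (nat_lit 487) (nat_lit 400) (nat_lit 253)))) (XT.nd (nat_lit 78) (nat_lit 380) (nat_lit 0) (XT.lf (nat_lit 0) (nat_lit 5901221589) (nat_lit 380) (nat_lit 1727486124) (nat_lit 456) (nat_lit 9150077723) (nat_lit 143) (nat_lit 5) (nat_lit 148) (nat_lit 5) (nat_lit 149) (nat_lit 5) (nat_lit 488) (nat_lit 400) (nat_lit 252)) (XT.nd (nat_lit 78) (nat_lit 380) (nat_lit 0) (XT.lf (nat_lit 0) (nat_lit 11683047948) (nat_lit 456) (nat_lit 949556314) (nat_lit 76) (nat_lit 4353203718) (nat_lit 143)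 (nat_lit 5) (nat_lit 149) (nat_lit 5) (nat_lit 144) (nat_lit 5) (nat_lit 489) (nat_lit 400) (nat_lit 251)) (XT.lf (nat_lit 0) (nat_lit 9268367047) (nat_lit 380) (nat_lit 6609503060) (nat_lit 456) (nat_lit 1317914439) (nat_lit 138) (nat_lit 5) (nat_lit 143) (nat_lit 5) (nat_lit 144) (nat_lit 5) (nat_lit 490) (nat_lit 400) (nat_lit 250)))))) (XT.nd (nat_lit 468) (nat_lit 988) (nat_lit 0) (XT.nd (nat_lit 234) (nat_lit 760) (nat_lit 0) (XT.nd (nat_lit 78) (nat_lit 304) (nat_lit 0) (XT.lf (nat_lit 0) (nat_lit 2287006292) (nat_lit 380) (nat_lit 432677723) (nat_lit 456) (nat_lit 14689739816) (nat_lit 132) (nat_lit 5) (nat_lit 137) (nat_lit 5) (nat_lit 138) (nat_lit 5) (nat_lit 491) (nat_lit 400) (nat_lit 249)) (XT.nd (nat_lit 78) (nat_lit 304) (nat_lit 0) (XT.lf (nat_lit 0) (nat_lit 6899940624) (nat_lit 456) (nat_lit 4879148637) (nat_lit 76) (nat_lit 5846482740) (nat_lit 132) (nat_lit 5) (nat_lit 138) (nat_lit 5) (nat_lit 133) (nat_lit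 5) (nat_lit 492) (nat_lit 400) (nat_lit 248)) (XT.lf (nat_lit 0) (nat_lit 5621338860) (nat_lit 304) (nat_lit 5569954050) (nat_lit 380) (nat_lit 6654201774) (nat_lit 128) (nat_lit 5) (nat_lit 132) (nat_lit 5) (nat_lit 133) (nat_lit 5) (nat_lit 493) (nat_lit 400) (nat_lit 247)))) (XT.nd (nat_lit 78) (nat_lit 760) (nat_lit 0) (XT.lf (nat_lit 0) (nat_lit 15594585075) (nat_lit 380) (nat_lit 1694937813) (nat_lit 76) (nat_lit 779772011) (nat_lit 128) (nat_lit 5) (nat_lit 133) (nat_lit 5) (nat_lit 129) (nat_lit 5) (nat_lit 494) (nat_lit 400) (nat_lit 246)) (XT.nd (nat_lit 78) (nat_lit 304) (nat_lit 0) (XT.lf (nat_lit 0) (nat_lit 1849934973) (nat_lit 456) (nat_lit 9198820889) (nat_lit 76) (nat_lit 7246883957) (nat_lit 122) (nat_lit 5) (nat_lit 128) (nat_lit 5) (nat_lit 123) (nat_lit 5) (nat_lit 495) (nat_lit 400) (nat_lit 245)) (XT.lf (nat_lit 0) (nat_lit 1587205864) (nat_lit 304) (nat_lit 4650977572) (nat_lit 380) (nat_lit 12287797359)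 (nat_lit 118) (nat_lit 5) (nat_lit 122) (nat_lit 5) (nat_lit 123) (nat_lit 5) (nat_lit 496) (nat_lit 400) (nat_lit 244))))) (XT.nd (nat_lit 234) (nat_lit 608) (nat_lit 0) (XT.nd (nat_lit 78) (nat_lit 380) (nat_lit 0) (XT.lf (nat_lit 0) (nat_lit 10777033525) (nat_lit 380) (nat_lit 6076944139) (nat_lit 76) (nat_lit 1905695426) (nat_lit 118) (nat_lit 5) (nat_lit 123) (nat_lit 5) (nat_lit 119) (nat_lit 5) (nat_lit 497) (nat_lit 400) (nat_lit 243)) (XT.nd (nat_lit 78) (nat_lit 76) (nat_lit 0) (XT.lf (nat_lit 0) (nat_lit 5019194085) (nat_lit 304) (nat_lit 10439607373) (nat_lit 380) (nat_lit 3538196165) (nat_lit 114) (nat_lit 5) (nat_lit 118) (nat_lit 5) (nat_lit 119) (nat_lit 5) (nat_lit 498) (nat_lit 400) (nat_lit 242)) (XT.lf (nat_lit 0) (nat_lit 1011915773) (nat_lit 380) (nat_lit 2843342314) (nat_lit 76) (nat_lit 15383085879) (nat_lit 113) (nat_lit 5) (nat_lit 118) (nat_lit 5) (nat_lit 114) (nat_lit 5) (nat_lit 499) (nat_lit 400)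 (nat_lit 241)))) (XT.nd (nat_lit 78) (nat_lit 304) (nat_lit 0) (XT.lf (nat_lit 0) (nat_lit 5669496292) (nat_lit 380) (nat_lit 10916870602) (nat_lit 76) (nat_lit 2896406876) (nat_lit 109) (nat_lit 5) (nat_lit 114) (nat_lit 5) (nat_lit 110) (nat_lit 5) (nat_lit 500) (nat_lit 400) (nat_lit 240)) (XT.nd (nat_lit 78) (nat_lit 0) (nat_lit 0) (XT.lf (nat_lit 0) (nat_lit 473015978) (nat_lit 304) (nat_lit 9984082158) (nat_lit 380) (nat_lit 9274257755) (nat_lit 105) (nat_lit 5) (nat_lit 109) (nat_lit 5) (nat_lit 110) (nat_lit 5) (nat_lit 501) (nat_lit 400) (nat_lit 239)) (XT.lf (nat_lit 0) (nat_lit 12221102667) (nat_lit 304) (nat_lit 3181768057) (nat_lit 380) (nat_lit 4580791652) (nat_lit 105) (nat_lit 5) (nat_lit 109) (nat_lit 5) (nat_lit 110) (nat_lit 5) (nat_lit 502) (nat_lit 400) (nat_lit 238))))))))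
noncomputable def xc140 : XT := (XT.nd (nat_lit 52728) (nat_lit 0) (nat_lit 21356) (XT.nd (nat_lit 51792) (nat_lit 0) (nat_lit 35796) (XT.nd (nat_lit 390) (nat_lit 380) (nat_lit 0) (XT.nd (nat_lit 156) (nat_lit 532) (nat_lit 0) (XT.nd (nat_lit 78) (nat_lit 0) (nat_lit 0) (XT.lf (nat_lit 0) (nat_lit 243614548) (nat_lit 380) (nat_lit 16268374750) (nat_lit 76) (nat_lit 3728204332) (nat_lit 100) (nat_lit 5) (nat_lit 105) (nat_lit 5) (nat_lit 101) (nat_lit 5) (nat_lit 503) (nat_lit 400) (nat_lit 237)) (XT.lf (nat_lit 0) (nat_lit 5166092841) (nat_lit 380) (nat_lit 4523890444) (nat_lit 76) (nat_lit 10810009260) (nat_lit 100) (nat_lit 5) (nat_lit 105) (nat_lit 5) (nat_lit 101) (nat_lit 5) (nat_lit 504) (nat_lit 400) (nat_lit 236))) (XT.nd (nat_lit 78) (nat_lit 228) (nat_lit 0) (XT.lf (nat_lit 0) (nat_lit 7537245007) (nat_lit 304) (nat_lit 2688277473) (nat_lit 380) (nat_lit 10538695934) (nat_lit 96) (nat_lit 5) (nat_lit 100) (nat_lit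 5) (nat_lit 101) (nat_lit 5) (nat_lit 505) (nat_lit 400) (nat_lit 235)) (XT.nd (nat_lit 78) (nat_lit 228) (nat_lit 0) (XT.lf (nat_lit 0) (nat_lit 15435230537) (nat_lit 380) (nat_lit 1178454962) (nat_lit 76) (nat_lit 4419062496) (nat_lit 96) (nat_lit 5) (nat_lit 101) (nat_lit 5) (nat_lit 97) (nat_lit 5) (nat_lit 506) (nat_lit 400) (nat_lit 234)) (XT.lf (nat_lit 0) (nat_lit 11223623537) (nat_lit 228) (nat_lit 9606003453) (nat_lit 304) (nat_lit 475412265) (nat_lit 93) (nat_lit 5) (nat_lit 96) (nat_lit 5) (nat_lit 97) (nat_lit 5) (nat_lit 507) (nat_lit 400) (nat_lit 233))))) (XT.nd (nat_lit 51168) (nat_lit 0) (nat_lit 38228) (XT.nd (nat_lit 51012) (nat_lit 0) (nat_lit 39444) (XT.lf (nat_lit 0) (nat_lit 2289406434) (nat_lit 304) (nat_lit 2410110923) (nat_lit 380) (nat_lit 16882389865) (nat_lit 88) (nat_lit 5) (nat_lit 92) (nat_lit 5) (nat_lit 93) (nat_lit 5) (nat_lit 508) (nat_lit 400) (nat_lit 232)) (XT.nd (nat_lit 78) (nat_lit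 0) (nat_lit 0) (XT.lf (nat_lit 0) (nat_lit 977308644) (nat_lit 0) (nat_lit 977308644) (nat_lit 1140) (nat_lit 1688003582) (nat_lit 607) (nat_lit 5) (nat_lit 607) (nat_lit 3) (nat_lit 622) (nat_lit 3) (nat_lit 401) (nat_lit 401) (nat_lit 338)) (XT.lf (nat_lit 0) (nat_lit 5522703822) (nat_lit 1140) (nat_lit 1765064275) (nat_lit 1216) (nat_lit 38398024) (nat_lit 607) (nat_lit 5) (nat_lit 622) (nat_lit 3) (nat_lit 623) (nat_lit 5) (nat_lit 402) (nat_lit 401) (nat_lit 337)))) (XT.nd (nat_lit 78) (nat_lit 1216) (nat_lit 0) (XT.lf (nat_lit 76) (nat_lit 1861662343) (nat_lit 0) (nat_lit 5290655935) (nat_lit 1216) (nat_lit 215924748) (nat_lit 608) (nat_lit 5) (nat_lit 607) (nat_lit 5) (nat_lit 623) (nat_lit 5) (nat_lit 403) (nat_lit 401) (nat_lit 336)) (XT.nd (nat_lit 78) (nat_lit 0) (nat_lit 0) (XT.lf (nat_lit 0) (nat_lit 1356113573) (nat_lit 1216) (nat_lit 1857292169) (nat_lit 1292) (nat_lit 4198161492) (nat_lit 591) (nat_lit 5) (nat_lit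 607) (nat_lit 5) (nat_lit 608) (nat_lit 5) (nat_lit 404) (nat_lit 401) (nat_lit 335)) (XT.lf (nat_lit 76) (nat_lit 1866435703) (nat_lit 0) (nat_lit 1062418364) (nat_lit 1292) (nat_lit 4527443151) (nat_lit 592) (nat_lit 5) (nat_lit 591) (nat_lit 5) (nat_lit 608) (nat_lit 5) (nat_lit 405) (nat_lit 401) (nat_lit 334)))))) (XT.nd (nat_lit 468) (nat_lit 1216) (nat_lit 0) (XT.nd (nat_lit 234) (nat_lit 0) (nat_lit 76) (XT.nd (nat_lit 78) (nat_lit 1292) (nat_lit 0) (XT.lf (nat_lit 0) (nat_lit 4513734573) (nat_lit 1216) (nat_lit 1841654073) (nat_lit 1292) (nat_lit 1146930126) (nat_lit 592) (nat_lit 5) (nat_lit 608) (nat_lit 5) (nat_lit 609) (nat_lit 5) (nat_lit 406) (nat_lit 401) (nat_lit 333)) (XT.nd (nat_lit 78) (nat_lit 1292) (nat_lit 0) (XT.lf (nat_lit 76) (nat_lit 1978502410) (nat_lit 0) (nat_lit 4133252921) (nat_lit 1292) (nat_lit 1437887038) (nat_lit 593) (nat_lit 5) (nat_lit 592) (nat_lit 5) (nat_lit 609) (nat_lit 5) (nat_lit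 407) (nat_lit 401) (nat_lit 332)) (XT.lf (nat_lit 0) (nat_lit 116290748) (nat_lit 1292) (nat_lit 1720954385) (nat_lit 1368) (nat_lit 5761171629) (nat_lit 575) (nat_lit 5) (nat_lit 592) (nat_lit 5) (nat_lit 593) (nat_lit 5) (nat_lit 408) (nat_lit 401) (nat_lit 331)))) (XT.nd (nat_lit 78) (nat_lit 0) (nat_lit 0) (XT.lf (nat_lit 0) (nat_lit 1662819515) (nat_lit 1292) (nat_lit 5448229021) (nat_lit 1368) (nat_lit 537327466) (nat_lit 576) (nat_lit 5) (nat_lit 593) (nat_lit 5) (nat_lit 594) (nat_lit 5) (nat_lit 409) (nat_lit 401) (nat_lit 330)) (XT.nd (nat_lit 78) (nat_lit 0) (nat_lit 0) (XT.lf (nat_lit 0) (nat_lit 3227419240) (nat_lit 1292) (nat_lit 1510909523) (nat_lit 1368) (nat_lit 2961272523) (nat_lit 576) (nat_lit 5) (nat_lit 593) (nat_lit 5) (nat_lit 594) (nat_lit 5) (nat_lit 410) (nat_lit 401) (nat_lit 329)) (XT.lf (nat_lit 76) (nat_lit 2516036232) (nat_lit 0) (nat_lit 2287677373) (nat_lit 1368) (nat_lit 2948538897) (nat_lit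 577) (nat_lit 5) (nat_lit 576) (nat_lit 5) (nat_lit 594) (nat_lit 5) (nat_lit 411) (nat_lit 401) (nat_lit 328))))) (XT.nd (nat_lit 234) (nat_lit 0) (nat_lit 76) (XT.nd (nat_lit 78) (nat_lit 1368) (nat_lit 0) (XT.lf (nat_lit 0) (nat_lit 6387832132) (nat_lit 1292) (nat_lit 1185972380) (nat_lit 1368) (nat_lit 232635558) (nat_lit 577) (nat_lit 5) (nat_lit 594) (nat_lit 5) (nat_lit 595) (nat_lit 5) (nat_lit 412) (nat_lit 401) (nat_lit 327)) (XT.nd (nat_lit 78) (nat_lit 0) (nat_lit 0) (XT.lf (nat_lit 0) (nat_lit 139737289) (nat_lit 1368) (nat_lit 4916206768) (nat_lit 1444) (nat_lit 2805764295) (nat_lit 559) (nat_lit 5) (nat_lit 577) (nat_lit 5) (nat_lit 578) (nat_lit 5) (nat_lit 413) (nat_lit 401) (nat_lit 326)) (XT.lf (nat_lit 0) (nat_lit 1683990729) (nat_lit 1368) (nat_lit 774336663) (nat_lit 1444) (nat_lit 5460101096) (nat_lit 559) (nat_lit 5) (nat_lit 577) (nat_lit 5) (nat_lit 578) (nat_lit 5) (nat_lit 414) (nat_lit 401) (nat_lit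 325)))) (XT.nd (nat_lit 78) (nat_lit 0) (nat_lit 0) (XT.lf (nat_lit 0) (nat_lit 3249528032) (nat_lit 1368) (nat_lit 4504252209) (nat_lit 1444) (nat_lit 222703395) (nat_lit 560) (nat_lit 5) (nat_lit 578) (nat_lit 5) (nat_lit 579) (nat_lit 5) (nat_lit 415) (nat_lit 401) (nat_lit 324)) (XT.nd (nat_lit 78) (nat_lit 0) (nat_lit 0) (XT.lf (nat_lit 0) (nat_lit 4834854649) (nat_lit 1368) (nat_lit 260483117) (nat_lit 1444) (nat_lit 2940600966) (nat_lit 560) (nat_lit 5) (nat_lit 578) (nat_lit 5) (nat_lit 579) (nat_lit 5) (nat_lit 416) (nat_lit 401) (nat_lit 323)) (XT.lf (nat_lit 76) (nat_lit 4099575433) (nat_lit 0) (nat_lit 2346544858) (nat_lit 1444) (nat_lit 1650586241) (nat_lit 561) (nat_lit 5) (nat_lit 560) (nat_lit 5) (nat_lit 579) (nat_lit 5) (nat_lit 417) (nat_lit 401) (nat_lit 322))))))) (XT.nd (nat_lit 858) (nat_lit 8664) (nat_lit 0) (XT.nd (nat_lit 390) (nat_lit 4484) (nat_lit 0) (XT.nd (nat_lit 156) (nat_lit 0) (nat_lit 0)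 (XT.nd (nat_lit 78) (nat_lit 1444) (nat_lit 0) (XT.lf (nat_lit 76) (nat_lit 370678272) (nat_lit 0) (nat_lit 7694236872) (nat_lit 1444) (nat_lit 94276556) (nat_lit 562) (nat_lit 5) (nat_lit 561) (nat_lit 5) (nat_lit 580) (nat_lit 5) (nat_lit 418) (nat_lit 401) (nat_lit 321)) (XT.lf (nat_lit 0) (nat_lit 1484546708) (nat_lit 1444) (nat_lit 3390967346) (nat_lit 1520) (nat_lit 3347006992) (nat_lit 542) (nat_lit 5) (nat_lit 561) (nat_lit 5) (nat_lit 562) (nat_lit 5) (nat_lit 419) (nat_lit 401) (nat_lit 320))) (XT.nd (nat_lit 78) (nat_lit 0) (nat_lit 76) (XT.lf (nat_lit 76) (nat_lit 1085404328) (nat_lit 0) (nat_lit 1984377032) (nat_lit 1520) (nat_lit 5217808834) (nat_lit 543) (nat_lit 5) (nat_lit 542) (nat_lit 5) (nat_lit 562) (nat_lit 5) (nat_lit 420) (nat_lit 401) (nat_lit 319)) (XT.nd (nat_lit 78) (nat_lit 0) (nat_lit 0) (XT.lf (nat_lit 0) (nat_lit 4685449784) (nat_lit 1444) (nat_lit 2685905422) (nat_lit 1520) (nat_lit 982638412)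 (nat_lit 543) (nat_lit 5) (nat_lit 562) (nat_lit 5) (nat_lit 563) (nat_lit 5) (nat_lit 421) (nat_lit 401) (nat_lit 318)) (XT.lf (nat_lit 76) (nat_lit 1909807230) (nat_lit 0) (nat_lit 4419322998) (nat_lit 1520) (nat_lit 2092688236) (nat_lit 544) (nat_lit 5) (nat_lit 543) (nat_lit 5) (nat_lit 563) (nat_lit 5) (nat_lit 422) (nat_lit 401) (nat_lit 317))))) (XT.nd (nat_lit 234) (nat_lit 3116) (nat_lit 0) (XT.nd (nat_lit 78) (nat_lit 1444) (nat_lit 0) (XT.lf (nat_lit 76) (nat_lit 6611192989) (nat_lit 0) (nat_lit 1383110574) (nat_lit 1520) (nat_lit 496931040) (nat_lit 544) (nat_lit 5) (nat_lit 543) (nat_lit 5) (nat_lit 563) (nat_lit 5) (nat_lit 423) (nat_lit 401) (nat_lit 316)) (XT.nd (nat_lit 78) (nat_lit 0) (nat_lit 0) (XT.lf (nat_lit 0) (nat_lit 1116743132) (nat_lit 1520) (nat_lit 5721416639) (nat_lit 76) (nat_lit 1723722737) (nat_lit 524) (nat_lit 5) (nat_lit 544) (nat_lit 5) (nat_lit 525) (nat_lit 5) (nat_lit 424) (nat_lit 401)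 (nat_lit 315)) (XT.lf (nat_lit 0) (nat_lit 2749339864) (nat_lit 1520) (nat_lit 988425183) (nat_lit 76) (nat_lit 4896253338) (nat_lit 524) (nat_lit 5) (nat_lit 544) (nat_lit 5) (nat_lit 525) (nat_lit 5) (nat_lit 425) (nat_lit 401) (nat_lit 314)))) (XT.nd (nat_lit 78) (nat_lit 1596) (nat_lit 0) (XT.lf (nat_lit 0) (nat_lit 3867331217) (nat_lit 1520) (nat_lit 544364113) (nat_lit 1596) (nat_lit 4295966151) (nat_lit 504) (nat_lit 5) (nat_lit 524) (nat_lit 5) (nat_lit 525) (nat_lit 5) (nat_lit 426) (nat_lit 401) (nat_lit 313)) (XT.nd (nat_lit 78) (nat_lit 0) (nat_lit 0) (XT.lf (nat_lit 0) (nat_lit 10375848) (nat_lit 1596) (nat_lit 6093714224) (nat_lit 1672) (nat_lit 2678758030) (nat_lit 483) (nat_lit 5) (nat_lit 504) (nat_lit 5) (nat_lit 505) (nat_lit 5) (nat_lit 427) (nat_lit 401) (nat_lit 312)) (XT.lf (nat_lit 0) (nat_lit 4997148108) (nat_lit 1596) (nat_lit 2842072929) (nat_lit 1672) (nat_lit 1020146030) (nat_lit 483) (nat_lit 5)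 (nat_lit 504) (nat_lit 5) (nat_lit 505) (nat_lit 5) (nat_lit 428) (nat_lit 401) (nat_lit 311)))))) (XT.nd (nat_lit 468) (nat_lit 3648) (nat_lit 0) (XT.nd (nat_lit 234) (nat_lit 1520) (nat_lit 0) (XT.nd (nat_lit 78) (nat_lit 1748) (nat_lit 0) (XT.lf (nat_lit 0) (nat_lit 646552880) (nat_lit 1748) (nat_lit 7806979648) (nat_lit 76) (nat_lit 484128333) (nat_lit 460) (nat_lit 5) (nat_lit 483) (nat_lit 5) (nat_lit 461) (nat_lit 5) (nat_lit 429) (nat_lit 401) (nat_lit 310)) (XT.nd (nat_lit 78) (nat_lit 1748) (nat_lit 0) (XT.lf (nat_lit 0) (nat_lit 2351428944) (nat_lit 1748) (nat_lit 2790188341) (nat_lit 76) (nat_lit 3875404337) (nat_lit 460) (nat_lit 5) (nat_lit 483) (nat_lit 5) (nat_lit 461) (nat_lit 5) (nat_lit 430) (nat_lit 401) (nat_lit 309)) (XT.lf (nat_lit 0) (nat_lit 2334785714) (nat_lit 1748) (nat_lit 1744873168) (nat_lit 1824) (nat_lit 5018531480) (nat_lit 437) (nat_lit 5) (nat_lit 460) (nat_lit 5) (nat_lit 461) (nat_lit 5)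 (nat_lit 431) (nat_lit 401) (nat_lit 308)))) (XT.nd (nat_lit 78) (nat_lit 1520) (nat_lit 0) (XT.lf (nat_lit 0) (nat_lit 5846944491) (nat_lit 1824) (nat_lit 1614977067) (nat_lit 76) (nat_lit 1718976877) (nat_lit 437) (nat_lit 5) (nat_lit 461) (nat_lit 5) (nat_lit 438) (nat_lit 5) (nat_lit 432) (nat_lit 401) (nat_lit 307)) (XT.nd (nat_lit 78) (nat_lit 76) (nat_lit 0) (XT.lf (nat_lit 0) (nat_lit 3650028579) (nat_lit 1444) (nat_lit 4009778854) (nat_lit 1520) (nat_lit 1605254267) (nat_lit 418) (nat_lit 5) (nat_lit 437) (nat_lit 5) (nat_lit 438) (nat_lit 5) (nat_lit 433) (nat_lit 401) (nat_lit 306)) (XT.lf (nat_lit 0) (nat_lit 142009100) (nat_lit 1520) (nat_lit 332455526) (nat_lit 76) (nat_lit 8876707285) (nat_lit 417) (nat_lit 5) (nat_lit 437) (nat_lit 5) (nat_lit 418) (nat_lit 5) (nat_lit 434) (nat_lit 401) (nat_lit 305))))) (XT.nd (nat_lit 234) (nat_lit 1824) (nat_lit 0) (XT.nd (nat_lit 78) (nat_lit 912) (nat_lit 0) (XT.lf (nat_lit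 0) (nat_lit 1932061599) (nat_lit 988) (nat_lit 4369808571) (nat_lit 76) (nat_lit 3136340517) (nat_lit 405) (nat_lit 5) (nat_lit 418) (nat_lit 5) (nat_lit 406) (nat_lit 5) (nat_lit 435) (nat_lit 401) (nat_lit 304)) (XT.nd (nat_lit 78) (nat_lit 0) (nat_lit 0) (XT.lf (nat_lit 0) (nat_lit 1042561697) (nat_lit 912) (nat_lit 2703494683) (nat_lit 988) (nat_lit 5781176267) (nat_lit 393) (nat_lit 5) (nat_lit 405) (nat_lit 5) (nat_lit 406) (nat_lit 5) (nat_lit 436) (nat_lit 401) (nat_lit 303)) (XT.lf (nat_lit 0) (nat_lit 5608441441) (nat_lit 988) (nat_lit 3024635315) (nat_lit 76) (nat_lit 984721212) (nat_lit 393) (nat_lit 5) (nat_lit 406) (nat_lit 5) (nat_lit 394) (nat_lit 5) (nat_lit 437) (nat_lit 401) (nat_lit 302)))) (XT.nd (nat_lit 78) (nat_lit 912) (nat_lit 0) (XT.lf (nat_lit 0) (nat_lit 2537299326) (nat_lit 912) (nat_lit 4981932107) (nat_lit 988) (nat_lit 2190725047) (nat_lit 381) (nat_lit 5) (nat_lit 393) (nat_lit 5) (nat_lit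 394) (nat_lit 5) (nat_lit 438) (nat_lit 401) (nat_lit 301)) (XT.nd (nat_lit 78) (nat_lit 912) (nat_lit 0) (XT.lf (nat_lit 0) (nat_lit 8228946659) (nat_lit 912) (nat_lit 1236675975) (nat_lit 988) (nat_lit 338392751) (nat_lit 381) (nat_lit 5) (nat_lit 393) (nat_lit 5) (nat_lit 394) (nat_lit 5) (nat_lit 439) (nat_lit 401) (nat_lit 300)) (XT.lf (nat_lit 0) (nat_lit 1552036460) (nat_lit 912) (nat_lit 5760166285) (nat_lit 76) (nat_lit 2587128228) (nat_lit 369) (nat_lit 5) (nat_lit 381) (nat_lit 5) (nat_lit 370) (nat_lit 5) (nat_lit 440) (nat_lit 401) (nat_lit 299))))))))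
noncomputable def xc141 : XT := (XT.nd (nat_lit 1794) (nat_lit 7448) (nat_lit 0) (XT.nd (nat_lit 858) (nat_lit 4636) (nat_lit 0) (XT.nd (nat_lit 390) (nat_lit 2280) (nat_lit 0) (XT.nd (nat_lit 156) (nat_lit 1596) (nat_lit 0) (XT.nd (nat_lit 78) (nat_lit 836) (nat_lit 0) (XT.lf (nat_lit 0) (nat_lit 3472260611) (nat_lit 912) (nat_lit 40502660) (nat_lit 76) (nat_lit 6483819165) (nat_lit 369) (nat_lit 5) (nat_lit 381) (nat_lit 5) (nat_lit 370) (nat_lit 5) (nat_lit 441) (nat_lit 401) (nat_lit 298)) (XT.lf (nat_lit 0) (nat_lit 5449583399) (nat_lit 912) (nat_lit 4250062071) (nat_lit 76) (nat_lit 395764130) (nat_lit 358) (nat_lit 5) (nat_lit 370) (nat_lit 5) (nat_lit 359) (nat_lit 5) (nat_lit 442) (nat_lit 401) (nat_lit 297))) (XT.nd (nat_lit 78) (nat_lit 836) (nat_lit 0) (XT.lf (nat_lit 0) (nat_lit 1628817792) (nat_lit 760) (nat_lit 5850150657) (nat_lit 836) (nat_lit 2716999009) (nat_lit 348) (nat_lit 5) (nat_lit 358) (nat_lit 5)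 (nat_lit 359) (nat_lit 5) (nat_lit 443) (nat_lit 401) (nat_lit 296)) (XT.nd (nat_lit 78) (nat_lit 836) (nat_lit 0) (XT.lf (nat_lit 0) (nat_lit 7660499032) (nat_lit 760) (nat_lit 1895643944) (nat_lit 836) (nat_lit 742253839) (nat_lit 348) (nat_lit 5) (nat_lit 358) (nat_lit 5) (nat_lit 359) (nat_lit 5) (nat_lit 444) (nat_lit 401) (nat_lit 295)) (XT.lf (nat_lit 0) (nat_lit 1270569323) (nat_lit 836) (nat_lit 6992405396) (nat_lit 76) (nat_lit 2139433770) (nat_lit 337) (nat_lit 5) (nat_lit 348) (nat_lit 5) (nat_lit 338) (nat_lit 5) (nat_lit 445) (nat_lit 401) (nat_lit 294))))) (XT.nd (nat_lit 234) (nat_lit 760) (nat_lit 0) (XT.nd (nat_lit 78) (nat_lit 1520) (nat_lit 0) (XT.lf (nat_lit 0) (nat_lit 3323309986) (nat_lit 836) (nat_lit 933610380) (nat_lit 76) (nat_lit 6251294034) (nat_lit 337) (nat_lit 5) (nat_lit 348) (nat_lit 5) (nat_lit 338) (nat_lit 5) (nat_lit 446) (nat_lit 401) (nat_lit 293)) (XT.nd (nat_lit 78) (nat_lit 760) (nat_lit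 0) (XT.lf (nat_lit 0) (nat_lit 5293733255) (nat_lit 760) (nat_lit 137367808) (nat_lit 836) (nat_lit 5184759499) (nat_lit 327) (nat_lit 5) (nat_lit 337) (nat_lit 5) (nat_lit 338) (nat_lit 5) (nat_lit 447) (nat_lit 401) (nat_lit 292)) (XT.lf (nat_lit 0) (nat_lit 895756222) (nat_lit 760) (nat_lit 6703674797) (nat_lit 836) (nat_lit 3125864934) (nat_lit 317) (nat_lit 5) (nat_lit 327) (nat_lit 5) (nat_lit 328) (nat_lit 5) (nat_lit 448) (nat_lit 401) (nat_lit 291)))) (XT.nd (nat_lit 78) (nat_lit 760) (nat_lit 0) (XT.lf (nat_lit 0) (nat_lit 7287060076) (nat_lit 760) (nat_lit 2540807116) (nat_lit 836) (nat_lit 1008721955) (nat_lit 317) (nat_lit 5) (nat_lit 327) (nat_lit 5) (nat_lit 328) (nat_lit 5) (nat_lit 449) (nat_lit 401) (nat_lit 290)) (XT.nd (nat_lit 78) (nat_lit 0) (nat_lit 0) (XT.lf (nat_lit 0) (nat_lit 1145875480) (nat_lit 760) (nat_lit 8097026135) (nat_lit 76) (nat_lit 1706856816) (nat_lit 307) (nat_lit 5) (nat_lit 317) (nat_lit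 5) (nat_lit 308) (nat_lit 5) (nat_lit 450) (nat_lit 401) (nat_lit 289)) (XT.lf (nat_lit 0) (nat_lit 3351479650) (nat_lit 760) (nat_lit 1679444541) (nat_lit 76) (nat_lit 6033708787) (nat_lit 307) (nat_lit 5) (nat_lit 317) (nat_lit 5) (nat_lit 308) (nat_lit 5) (nat_lit 451) (nat_lit 401) (nat_lit 288)))))) (XT.nd (nat_lit 468) (nat_lit 1900) (nat_lit 0) (XT.nd (nat_lit 234) (nat_lit 1368) (nat_lit 0) (XT.nd (nat_lit 78) (nat_lit 684) (nat_lit 0) (XT.lf (nat_lit 0) (nat_lit 4909088973) (nat_lit 684) (nat_lit 704965735) (nat_lit 760) (nat_lit 5567496725) (nat_lit 298) (nat_lit 5) (nat_lit 307) (nat_lit 5) (nat_lit 308) (nat_lit 5) (nat_lit 452) (nat_lit 401) (nat_lit 287)) (XT.nd (nat_lit 78) (nat_lit 0) (nat_lit 0) (XT.lf (nat_lit 0) (nat_lit 309487750) (nat_lit 684) (nat_lit 7631018651) (nat_lit 760) (nat_lit 3359932875) (nat_lit 289) (nat_lit 5) (nat_lit 298) (nat_lit 5) (nat_lit 299) (nat_lit 5) (nat_lit 453) (nat_lit 401)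 (nat_lit 286)) (XT.lf (nat_lit 0) (nat_lit 7081515308) (nat_lit 684) (nat_lit 3260127526) (nat_lit 760) (nat_lit 1079502381) (nat_lit 289) (nat_lit 5) (nat_lit 298) (nat_lit 5) (nat_lit 299) (nat_lit 5) (nat_lit 454) (nat_lit 401) (nat_lit 285)))) (XT.nd (nat_lit 78) (nat_lit 608) (nat_lit 0) (XT.lf (nat_lit 0) (nat_lit 1235659022) (nat_lit 760) (nat_lit 9105028190) (nat_lit 76) (nat_lit 1203310094) (nat_lit 279) (nat_lit 5) (nat_lit 289) (nat_lit 5) (nat_lit 280) (nat_lit 5) (nat_lit 455) (nat_lit 401) (nat_lit 284)) (XT.nd (nat_lit 78) (nat_lit 608) (nat_lit 0) (XT.lf (nat_lit 0) (nat_lit 3615450932) (nat_lit 760) (nat_lit 2307566202) (nat_lit 76) (nat_lit 5745494213) (nat_lit 279) (nat_lit 5) (nat_lit 289) (nat_lit 5) (nat_lit 280) (nat_lit 5) (nat_lit 456) (nat_lit 401) (nat_lit 283)) (XT.lf (nat_lit 0) (nat_lit 4665588980) (nat_lit 608) (nat_lit 1389761404) (nat_lit 684) (nat_lit 5739918240) (nat_lit 271) (nat_lit 5) (nat_lit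 279) (nat_lit 5) (nat_lit 280) (nat_lit 5) (nat_lit 457) (nat_lit 401) (nat_lit 282))))) (XT.nd (nat_lit 234) (nat_lit 608) (nat_lit 0) (XT.nd (nat_lit 78) (nat_lit 1292) (nat_lit 0) (XT.lf (nat_lit 0) (nat_lit 8563039333) (nat_lit 684) (nat_lit 157500543) (nat_lit 76) (nat_lit 3203644467) (nat_lit 271) (nat_lit 5) (nat_lit 280) (nat_lit 5) (nat_lit 272) (nat_lit 5) (nat_lit 458) (nat_lit 401) (nat_lit 281)) (XT.nd (nat_lit 78) (nat_lit 684) (nat_lit 0) (XT.lf (nat_lit 0) (nat_lit 7015719798) (nat_lit 608) (nat_lit 4142667338) (nat_lit 684) (nat_lit 896544204) (nat_lit 263) (nat_lit 5) (nat_lit 271) (nat_lit 5) (nat_lit 272) (nat_lit 5) (nat_lit 459) (nat_lit 401) (nat_lit 280)) (XT.lf (nat_lit 0) (nat_lit 1597509743) (nat_lit 684) (nat_lit 10049134983) (nat_lit 76) (nat_lit 541414022) (nat_lit 254) (nat_lit 5) (nat_lit 263) (nat_lit 5) (nat_lit 255) (nat_lit 5) (nat_lit 460) (nat_lit 401) (nat_lit 279)))) (XT.nd (nat_lit 78)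 (nat_lit 608) (nat_lit 0) (XT.lf (nat_lit 0) (nat_lit 4173933945) (nat_lit 684) (nat_lit 2849316304) (nat_lit 76) (nat_lit 5299592943) (nat_lit 254) (nat_lit 5) (nat_lit 263) (nat_lit 5) (nat_lit 255) (nat_lit 5) (nat_lit 461) (nat_lit 401) (nat_lit 278)) (XT.nd (nat_lit 78) (nat_lit 0) (nat_lit 0) (XT.lf (nat_lit 0) (nat_lit 4532892241) (nat_lit 608) (nat_lit 2281766195) (nat_lit 684) (nat_lit 5645412285) (nat_lit 246) (nat_lit 5) (nat_lit 254) (nat_lit 5) (nat_lit 255) (nat_lit 5) (nat_lit 462) (nat_lit 401) (nat_lit 277)) (XT.lf (nat_lit 0) (nat_lit 9527533475) (nat_lit 684) (nat_lit 536225564) (nat_lit 76) (nat_lit 2535899816) (nat_lit 246) (nat_lit 5) (nat_lit 255) (nat_lit 5) (nat_lit 247) (nat_lit 5) (nat_lit 463) (nat_lit 401) (nat_lit 276))))))) (XT.nd (nat_lit 936) (nat_lit 3116) (nat_lit 0) (XT.nd (nat_lit 468) (nat_lit 1976) (nat_lit 0) (XT.nd (nat_lit 234) (nat_lit 1140) (nat_lit 0) (XT.nd (nat_lit 78) (nat_lit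 684) (nat_lit 0) (XT.lf (nat_lit 0) (nat_lit 7059213405) (nat_lit 532) (nat_lit 5280223409) (nat_lit 608) (nat_lit 401709245) (nat_lit 239) (nat_lit 5) (nat_lit 246) (nat_lit 5) (nat_lit 247) (nat_lit 5) (nat_lit 464) (nat_lit 401) (nat_lit 275)) (XT.nd (nat_lit 78) (nat_lit 0) (nat_lit 0) (XT.lf (nat_lit 0) (nat_lit 1917603451) (nat_lit 608) (nat_lit 374030414) (nat_lit 684) (nat_lit 10593530752) (nat_lit 230) (nat_lit 5) (nat_lit 238) (nat_lit 5) (nat_lit 239) (nat_lit 5) (nat_lit 465) (nat_lit 401) (nat_lit 274)) (XT.lf (nat_lit 0) (nat_lit 5085964819) (nat_lit 684) (nat_lit 3339163010) (nat_lit 76) (nat_lit 4605835179) (nat_lit 230) (nat_lit 5) (nat_lit 239) (nat_lit 5) (nat_lit 231) (nat_lit 5) (nat_lit 466) (nat_lit 401) (nat_lit 273)))) (XT.nd (nat_lit 78) (nat_lit 608) (nat_lit 0) (XT.lf (nat_lit 0) (nat_lit 4477424108) (nat_lit 532) (nat_lit 3474669125) (nat_lit 608) (nat_lit 5227268433) (nat_lit 223) (nat_lit 5) (nat_lit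 230) (nat_lit 5) (nat_lit 231) (nat_lit 5) (nat_lit 467) (nat_lit 401) (nat_lit 272)) (XT.nd (nat_lit 78) (nat_lit 608) (nat_lit 0) (XT.lf (nat_lit 0) (nat_lit 10892829147) (nat_lit 608) (nat_lit 865814588) (nat_lit 76) (nat_lit 1571741328) (nat_lit 223) (nat_lit 5) (nat_lit 231) (nat_lit 5) (nat_lit 224) (nat_lit 5) (nat_lit 468) (nat_lit 401) (nat_lit 271)) (XT.lf (nat_lit 0) (nat_lit 457380797) (nat_lit 608) (nat_lit 6308554497) (nat_lit 76) (nat_lit 6717347424) (nat_lit 215) (nat_lit 5) (nat_lit 223) (nat_lit 5) (nat_lit 216) (nat_lit 5) (nat_lit 469) (nat_lit 401) (nat_lit 270))))) (XT.nd (nat_lit 234) (nat_lit 988) (nat_lit 0) (XT.nd (nat_lit 78) (nat_lit 532) (nat_lit 0) (XT.lf (nat_lit 0) (nat_lit 1734837775) (nat_lit 456) (nat_lit 1644755278) (nat_lit 532) (nat_lit 10259285039) (nat_lit 209) (nat_lit 5) (nat_lit 215) (nat_lit 5) (nat_lit 216) (nat_lit 5) (nat_lit 470) (nat_lit 401) (nat_lit 269)) (XT.nd (nat_lit 78)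 (nat_lit 532) (nat_lit 0) (XT.lf (nat_lit 0) (nat_lit 6411103007) (nat_lit 532) (nat_lit 3816205602) (nat_lit 76) (nat_lit 3569261974) (nat_lit 209) (nat_lit 5) (nat_lit 216) (nat_lit 5) (nat_lit 210) (nat_lit 5) (nat_lit 471) (nat_lit 401) (nat_lit 268)) (XT.lf (nat_lit 0) (nat_lit 4460838977) (nat_lit 532) (nat_lit 5067556499) (nat_lit 608) (nat_lit 4428520632) (nat_lit 202) (nat_lit 5) (nat_lit 209) (nat_lit 5) (nat_lit 210) (nat_lit 5) (nat_lit 472) (nat_lit 401) (nat_lit 267)))) (XT.nd (nat_lit 78) (nat_lit 988) (nat_lit 0) (XT.lf (nat_lit 0) (nat_lit 12720500592) (nat_lit 608) (nat_lit 1186524430) (nat_lit 76) (nat_lit 213196377) (nat_lit 202) (nat_lit 5) (nat_lit 210) (nat_lit 5) (nat_lit 203) (nat_lit 5) (nat_lit 473) (nat_lit 401) (nat_lit 266)) (XT.nd (nat_lit 78) (nat_lit 456) (nat_lit 0) (XT.lf (nat_lit 0) (nat_lit 1734805087) (nat_lit 532) (nat_lit 6964938036) (nat_lit 76) (nat_lit 5585486166) (nat_lit 195) (nat_lit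 5) (nat_lit 202) (nat_lit 5) (nat_lit 196) (nat_lit 5) (nat_lit 474) (nat_lit 401) (nat_lit 265)) (XT.lf (nat_lit 0) (nat_lit 1551021631) (nat_lit 456) (nat_lit 3366122335) (nat_lit 532) (nat_lit 9536133096) (nat_lit 189) (nat_lit 5) (nat_lit 195) (nat_lit 5) (nat_lit 196) (nat_lit 5) (nat_lit 475) (nat_lit 401) (nat_lit 264)))))) (XT.nd (nat_lit 468) (nat_lit 1748) (nat_lit 0) (XT.nd (nat_lit 234) (nat_lit 836) (nat_lit 0) (XT.nd (nat_lit 78) (nat_lit 532) (nat_lit 0) (XT.lf (nat_lit 0) (nat_lit 8209519786) (nat_lit 532) (nat_lit 4325877437) (nat_lit 76) (nat_lit 2088362787) (nat_lit 189) (nat_lit 5) (nat_lit 196) (nat_lit 5) (nat_lit 190) (nat_lit 5) (nat_lit 476) (nat_lit 401) (nat_lit 263)) (XT.nd (nat_lit 78) (nat_lit 76) (nat_lit 0) (XT.lf (nat_lit 0) (nat_lit 4438276021) (nat_lit 456) (nat_lit 7166727831) (nat_lit 532) (nat_lit 3191905534) (nat_lit 183) (nat_lit 5) (nat_lit 189) (nat_lit 5) (nat_lit 190) (nat_lit 5)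 (nat_lit 477) (nat_lit 401) (nat_lit 262)) (XT.lf (nat_lit 0) (nat_lit 109056987) (nat_lit 532) (nat_lit 1557122982) (nat_lit 76) (nat_lit 13307022857) (nat_lit 182) (nat_lit 5) (nat_lit 189) (nat_lit 5) (nat_lit 183) (nat_lit 5) (nat_lit 478) (nat_lit 401) (nat_lit 261)))) (XT.nd (nat_lit 78) (nat_lit 380) (nat_lit 0) (XT.lf (nat_lit 0) (nat_lit 3494399450) (nat_lit 532) (nat_lit 7699917080) (nat_lit 76) (nat_lit 3957063497) (nat_lit 176) (nat_lit 5) (nat_lit 183) (nat_lit 5) (nat_lit 177) (nat_lit 5) (nat_lit 479) (nat_lit 401) (nat_lit 260)) (XT.nd (nat_lit 78) (nat_lit 0) (nat_lit 0) (XT.lf (nat_lit 0) (nat_lit 1315118275) (nat_lit 380) (nat_lit 5648999169) (nat_lit 456) (nat_lit 8368671787) (nat_lit 171) (nat_lit 5) (nat_lit 176) (nat_lit 5) (nat_lit 177) (nat_lit 5) (nat_lit 480) (nat_lit 401) (nat_lit 259)) (XT.lf (nat_lit 0) (nat_lit 10541965471) (nat_lit 456) (nat_lit 4921896249) (nat_lit 76) (nat_lit 53191981) (nat_lit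 171) (nat_lit 5) (nat_lit 177) (nat_lit 5) (nat_lit 172) (nat_lit 5) (nat_lit 481) (nat_lit 401) (nat_lit 258))))) (XT.nd (nat_lit 234) (nat_lit 836) (nat_lit 0) (XT.nd (nat_lit 78) (nat_lit 456) (nat_lit 0) (XT.lf (nat_lit 0) (nat_lit 4356358288) (nat_lit 456) (nat_lit 9887644463) (nat_lit 532) (nat_lit 1459949825) (nat_lit 165) (nat_lit 5) (nat_lit 171) (nat_lit 5) (nat_lit 172) (nat_lit 5) (nat_lit 482) (nat_lit 401) (nat_lit 257)) (XT.nd (nat_lit 78) (nat_lit 380) (nat_lit 0) (XT.lf (nat_lit 0) (nat_lit 2117844946) (nat_lit 532) (nat_lit 2040260307) (nat_lit 76) (nat_lit 11735805271) (nat_lit 164) (nat_lit 5) (nat_lit 171) (nat_lit 5) (nat_lit 165) (nat_lit 5) (nat_lit 483) (nat_lit 401) (nat_lit 256)) (XT.lf (nat_lit 0) (nat_lit 5795044705) (nat_lit 456) (nat_lit 8574658197) (nat_lit 76) (nat_lit 1716825426) (nat_lit 159) (nat_lit 5) (nat_lit 165) (nat_lit 5) (nat_lit 160) (nat_lit 5) (nat_lit 484) (nat_lit 401) (nat_lit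 255)))) (XT.nd (nat_lit 78) (nat_lit 456) (nat_lit 0) (XT.lf (nat_lit 0) (nat_lit 966095030) (nat_lit 380) (nat_lit 8614612107) (nat_lit 456) (nat_lit 6701594603) (nat_lit 154) (nat_lit 5) (nat_lit 159) (nat_lit 5) (nat_lit 160) (nat_lit 5) (nat_lit 485) (nat_lit 401) (nat_lit 254)) (XT.nd (nat_lit 78) (nat_lit 456) (nat_lit 0) (XT.lf (nat_lit 0) (nat_lit 10795097092) (nat_lit 380) (nat_lit 2691979773) (nat_lit 456) (nat_lit 2994015471) (nat_lit 154) (nat_lit 5) (nat_lit 159) (nat_lit 5) (nat_lit 160) (nat_lit 5) (nat_lit 486) (nat_lit 401) (nat_lit 253)) (XT.lf (nat_lit 0) (nat_lit 813978090) (nat_lit 456) (nat_lit 12537610150) (nat_lit 76) (nat_lit 3331437871) (nat_lit 148) (nat_lit 5) (nat_lit 154) (nat_lit 5) (nat_lit 149) (nat_lit 5) (nat_lit 487) (nat_lit 401) (nat_lit 252))))))))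
noncomputable def xc142 : XT := (XT.nd (nat_lit 52728) (nat_lit 0) (nat_lit 31616) (XT.nd (nat_lit 858) (nat_lit 2280) (nat_lit 0) (XT.nd (nat_lit 390) (nat_lit 1064) (nat_lit 0) (XT.nd (nat_lit 156) (nat_lit 836) (nat_lit 0) (XT.nd (nat_lit 78) (nat_lit 380) (nat_lit 0) (XT.lf (nat_lit 0) (nat_lit 4702014637) (nat_lit 456) (nat_lit 2694292707) (nat_lit 76) (nat_lit 9491417451) (nat_lit 148) (nat_lit 5) (nat_lit 154) (nat_lit 5) (nat_lit 149) (nat_lit 5) (nat_lit 488) (nat_lit 401) (nat_lit 251)) (XT.lf (nat_lit 0) (nat_lit 7424957470) (nat_lit 380) (nat_lit 1279002505) (nat_lit 456) (nat_lit 8391835991) (nat_lit 143) (nat_lit 5) (nat_lit 148) (nat_lit 5) (nat_lit 149) (nat_lit 5) (nat_lit 489) (nat_lit 401) (nat_lit 250))) (XT.nd (nat_lit 78) (nat_lit 456) (nat_lit 0) (XT.lf (nat_lit 0) (nat_lit 430371919) (nat_lit 380) (nat_lit 12396792306) (nat_lit 456) (nat_lit 4480041379) (nat_lit 138) (nat_lit 5) (nat_lit 143) (nat_lit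 5) (nat_lit 144) (nat_lit 5) (nat_lit 490) (nat_lit 401) (nat_lit 249)) (XT.nd (nat_lit 78) (nat_lit 456) (nat_lit 0) (XT.lf (nat_lit 0) (nat_lit 10837843061) (nat_lit 380) (nat_lit 6256434783) (nat_lit 456) (nat_lit 427338103) (nat_lit 138) (nat_lit 5) (nat_lit 143) (nat_lit 5) (nat_lit 144) (nat_lit 5) (nat_lit 491) (nat_lit 401) (nat_lit 248)) (XT.lf (nat_lit 0) (nat_lit 3670570640) (nat_lit 456) (nat_lit 14020107241) (nat_lit 76) (nat_lit 48901451) (nat_lit 132) (nat_lit 5) (nat_lit 138) (nat_lit 5) (nat_lit 133) (nat_lit 5) (nat_lit 492) (nat_lit 401) (nat_lit 247))))) (XT.nd (nat_lit 234) (nat_lit 760) (nat_lit 0) (XT.nd (nat_lit 78) (nat_lit 304) (nat_lit 0) (XT.lf (nat_lit 0) (nat_lit 7919663318) (nat_lit 456) (nat_lit 3602326479) (nat_lit 76) (nat_lit 6438358071) (nat_lit 132) (nat_lit 5) (nat_lit 138) (nat_lit 5) (nat_lit 133) (nat_lit 5) (nat_lit 493) (nat_lit 401) (nat_lit 246)) (XT.nd (nat_lit 78) (nat_lit 0) (nat_lit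 0) (XT.lf (nat_lit 0) (nat_lit 7099128629) (nat_lit 304) (nat_lit 5189290160) (nat_lit 380) (nat_lit 5896420675) (nat_lit 128) (nat_lit 5) (nat_lit 132) (nat_lit 5) (nat_lit 133) (nat_lit 5) (nat_lit 494) (nat_lit 401) (nat_lit 245)) (XT.lf (nat_lit 0) (nat_lit 16765785424) (nat_lit 380) (nat_lit 376156857) (nat_lit 76) (nat_lit 1271455174) (nat_lit 128) (nat_lit 5) (nat_lit 133) (nat_lit 5) (nat_lit 129) (nat_lit 5) (nat_lit 495) (nat_lit 401) (nat_lit 244)))) (XT.nd (nat_lit 78) (nat_lit 304) (nat_lit 0) (XT.lf (nat_lit 0) (nat_lit 2743848840) (nat_lit 456) (nat_lit 8027535456) (nat_lit 76) (nat_lit 7872936620) (nat_lit 122) (nat_lit 5) (nat_lit 128) (nat_lit 5) (nat_lit 123) (nat_lit 5) (nat_lit 496) (nat_lit 401) (nat_lit 243)) (XT.nd (nat_lit 78) (nat_lit 0) (nat_lit 0) (XT.lf (nat_lit 0) (nat_lit 2965295635) (nat_lit 304) (nat_lit 4246505748) (nat_lit 380) (nat_lit 11667630377) (nat_lit 118) (nat_lit 5) (nat_lit 122)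 (nat_lit 5) (nat_lit 123) (nat_lit 5) (nat_lit 497) (nat_lit 401) (nat_lit 242)) (XT.lf (nat_lit 0) (nat_lit 11827950983) (nat_lit 380) (nat_lit 4864969041) (nat_lit 76) (nat_lit 2425149223) (nat_lit 118) (nat_lit 5) (nat_lit 123) (nat_lit 5) (nat_lit 119) (nat_lit 5) (nat_lit 498) (nat_lit 401) (nat_lit 241)))))) (XT.nd (nat_lit 468) (nat_lit 912) (nat_lit 0) (XT.nd (nat_lit 234) (nat_lit 684) (nat_lit 0) (XT.nd (nat_lit 78) (nat_lit 380) (nat_lit 0) (XT.lf (nat_lit 0) (nat_lit 6444318829) (nat_lit 304) (nat_lit 10151256605) (nat_lit 380) (nat_lit 2764722174) (nat_lit 114) (nat_lit 5) (nat_lit 118) (nat_lit 5) (nat_lit 119) (nat_lit 5) (nat_lit 499) (nat_lit 401) (nat_lit 240)) (XT.nd (nat_lit 78) (nat_lit 304) (nat_lit 0) (XT.lf (nat_lit 0) (nat_lit 1848983091) (nat_lit 380) (nat_lit 1590503790) (nat_lit 76) (nat_lit 16167202793) (nat_lit 113) (nat_lit 5) (nat_lit 118) (nat_lit 5) (nat_lit 114) (nat_lit 5) (nat_lit 500) (nat_lit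 401) (nat_lit 239)) (XT.lf (nat_lit 0) (nat_lit 6595339774) (nat_lit 380) (nat_lit 9821044265) (nat_lit 76) (nat_lit 3439713201) (nat_lit 109) (nat_lit 5) (nat_lit 114) (nat_lit 5) (nat_lit 110) (nat_lit 5) (nat_lit 501) (nat_lit 401) (nat_lit 238)))) (XT.nd (nat_lit 78) (nat_lit 380) (nat_lit 0) (XT.lf (nat_lit 0) (nat_lit 1787994232) (nat_lit 304) (nat_lit 9683245250) (nat_lit 380) (nat_lit 8638562233) (nat_lit 105) (nat_lit 5) (nat_lit 109) (nat_lit 5) (nat_lit 110) (nat_lit 5) (nat_lit 502) (nat_lit 401) (nat_lit 237)) (XT.nd (nat_lit 78) (nat_lit 380) (nat_lit 0) (XT.lf (nat_lit 0) (nat_lit 13745444264) (nat_lit 304) (nat_lit 2754698956) (nat_lit 380) (nat_lit 3867328390) (nat_lit 105) (nat_lit 5) (nat_lit 109) (nat_lit 5) (nat_lit 110) (nat_lit 5) (nat_lit 503) (nat_lit 401) (nat_lit 236)) (XT.lf (nat_lit 0) (nat_lit 1038964943) (nat_lit 380) (nat_lit 15299066942) (nat_lit 76) (nat_lit 4291079438) (nat_lit 100) (nat_lit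 5) (nat_lit 105) (nat_lit 5) (nat_lit 101) (nat_lit 5) (nat_lit 504) (nat_lit 401) (nat_lit 235))))) (XT.nd (nat_lit 234) (nat_lit 380) (nat_lit 0) (XT.nd (nat_lit 78) (nat_lit 532) (nat_lit 0) (XT.lf (nat_lit 0) (nat_lit 6044393231) (nat_lit 380) (nat_lit 3345078740) (nat_lit 76) (nat_lit 11504945739) (nat_lit 100) (nat_lit 5) (nat_lit 105) (nat_lit 5) (nat_lit 101) (nat_lit 5) (nat_lit 505) (nat_lit 401) (nat_lit 234)) (XT.nd (nat_lit 78) (nat_lit 228) (nat_lit 0) (XT.lf (nat_lit 0) (nat_lit 8948928831) (nat_lit 304) (nat_lit 2249073826) (nat_lit 380) (nat_lit 9966067089) (nat_lit 96) (nat_lit 5) (nat_lit 100) (nat_lit 5) (nat_lit 101) (nat_lit 5) (nat_lit 506) (nat_lit 401) (nat_lit 233)) (XT.lf (nat_lit 0) (nat_lit 46796821) (nat_lit 228) (nat_lit 16453491584) (nat_lit 304) (nat_lit 4937915286) (nat_lit 93) (nat_lit 5) (nat_lit 96) (nat_lit 5) (nat_lit 97) (nat_lit 5) (nat_lit 507) (nat_lit 401) (nat_lit 232)))) (XT.nd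 (nat_lit 78) (nat_lit 304) (nat_lit 0) (XT.lf (nat_lit 0) (nat_lit 275747049) (nat_lit 304) (nat_lit 9029806614) (nat_lit 76) (nat_lit 12410493796) (nat_lit 92) (nat_lit 5) (nat_lit 96) (nat_lit 5) (nat_lit 93) (nat_lit 5) (nat_lit 508) (nat_lit 401) (nat_lit 231)) (XT.nd (nat_lit 51012) (nat_lit 0) (nat_lit 39444) (XT.lf (nat_lit 0) (nat_lit 3577059286) (nat_lit 304) (nat_lit 1964028820) (nat_lit 380) (nat_lit 16457437618) (nat_lit 88) (nat_lit 5) (nat_lit 92) (nat_lit 5) (nat_lit 93) (nat_lit 5) (nat_lit 509) (nat_lit 401) (nat_lit 230)) (XT.lf (nat_lit 0) (nat_lit 1778806828) (nat_lit 0) (nat_lit 1778806828) (nat_lit 1140) (nat_lit 126143912) (nat_lit 607) (nat_lit 5) (nat_lit 607) (nat_lit 3) (nat_lit 622) (nat_lit 3) (nat_lit 402) (nat_lit 402) (nat_lit 336))))))) (XT.nd (nat_lit 936) (nat_lit 4104) (nat_lit 0) (XT.nd (nat_lit 468) (nat_lit 1292) (nat_lit 0) (XT.nd (nat_lit 234) (nat_lit 1140) (nat_lit 0) (XT.nd (nat_lit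 78) (nat_lit 0) (nat_lit 76) (XT.lf (nat_lit 0) (nat_lit 1271968006) (nat_lit 1292) (nat_lit 213049175) (nat_lit 1292) (nat_lit 5925322363) (nat_lit 590) (nat_lit 3) (nat_lit 607) (nat_lit 3) (nat_lit 607) (nat_lit 5) (nat_lit 403) (nat_lit 402) (nat_lit 335)) (XT.nd (nat_lit 78) (nat_lit 0) (nat_lit 0) (XT.lf (nat_lit 0) (nat_lit 2810335558) (nat_lit 1216) (nat_lit 3979401116) (nat_lit 1292) (nat_lit 664521209) (nat_lit 591) (nat_lit 5) (nat_lit 607) (nat_lit 5) (nat_lit 608) (nat_lit 5) (nat_lit 404) (nat_lit 402) (nat_lit 334)) (XT.lf (nat_lit 0) (nat_lit 4351559641) (nat_lit 1216) (nat_lit 290632899) (nat_lit 1292) (nat_lit 2857430940) (nat_lit 591) (nat_lit 5) (nat_lit 607) (nat_lit 5) (nat_lit 608) (nat_lit 5) (nat_lit 405) (nat_lit 402) (nat_lit 333)))) (XT.nd (nat_lit 78) (nat_lit 1216) (nat_lit 0) (XT.lf (nat_lit 76) (nat_lit 3497018181) (nat_lit 0) (nat_lit 2410878796) (nat_lit 1292) (nat_lit 1638324100) (nat_lit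 592) (nat_lit 5) (nat_lit 591) (nat_lit 5) (nat_lit 608) (nat_lit 5) (nat_lit 406) (nat_lit 402) (nat_lit 332)) (XT.nd (nat_lit 78) (nat_lit 1216) (nat_lit 0) (XT.lf (nat_lit 76) (nat_lit 7343741923) (nat_lit 0) (nat_lit 115772630) (nat_lit 1292) (nat_lit 134963265) (nat_lit 592) (nat_lit 5) (nat_lit 591) (nat_lit 5) (nat_lit 608) (nat_lit 5) (nat_lit 407) (nat_lit 402) (nat_lit 331)) (XT.lf (nat_lit 0) (nat_lit 1381228851) (nat_lit 1292) (nat_lit 4016913073) (nat_lit 1368) (nat_lit 2245363931) (nat_lit 575) (nat_lit 5) (nat_lit 592) (nat_lit 5) (nat_lit 593) (nat_lit 5) (nat_lit 408) (nat_lit 402) (nat_lit 330))))) (XT.nd (nat_lit 234) (nat_lit 1292) (nat_lit 0) (XT.nd (nat_lit 78) (nat_lit 0) (nat_lit 0) (XT.lf (nat_lit 0) (nat_lit 2891791388) (nat_lit 1292) (nat_lit 131719301) (nat_lit 1368) (nat_lit 4670678517) (nat_lit 575) (nat_lit 5) (nat_lit 592) (nat_lit 5) (nat_lit 593) (nat_lit 5) (nat_lit 409) (nat_lit 402) (nat_lit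 329)) (XT.nd (nat_lit 78) (nat_lit 0) (nat_lit 76) (XT.lf (nat_lit 76) (nat_lit 3860800023) (nat_lit 0) (nat_lit 560941465) (nat_lit 1368) (nat_lit 3324370687) (nat_lit 576) (nat_lit 5) (nat_lit 575) (nat_lit 5) (nat_lit 593) (nat_lit 5) (nat_lit 410) (nat_lit 402) (nat_lit 328)) (XT.lf (nat_lit 76) (nat_lit 102891781) (nat_lit 0) (nat_lit 5858394453) (nat_lit 1368) (nat_lit 1838216750) (nat_lit 577) (nat_lit 5) (nat_lit 576) (nat_lit 5) (nat_lit 594) (nat_lit 5) (nat_lit 411) (nat_lit 402) (nat_lit 327)))) (XT.nd (nat_lit 78) (nat_lit 1368) (nat_lit 0) (XT.lf (nat_lit 76) (nat_lit 4198219968) (nat_lit 0) (nat_lit 3328487132) (nat_lit 1368) (nat_lit 327361915) (nat_lit 577) (nat_lit 5) (nat_lit 576) (nat_lit 5) (nat_lit 594) (nat_lit 5) (nat_lit 412) (nat_lit 402) (nat_lit 326)) (XT.nd (nat_lit 78) (nat_lit 0) (nat_lit 76) (XT.lf (nat_lit 76) (nat_lit 442062544) (nat_lit 0) (nat_lit 724367931) (nat_lit 1444) (nat_lit 6743774275)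 (nat_lit 559) (nat_lit 5) (nat_lit 558) (nat_lit 5) (nat_lit 577) (nat_lit 5) (nat_lit 413) (nat_lit 402) (nat_lit 325)) (XT.lf (nat_lit 0) (nat_lit 2689337228) (nat_lit 1368) (nat_lit 3332560855) (nat_lit 1444) (nat_lit 1945457986) (nat_lit 559) (nat_lit 5) (nat_lit 577) (nat_lit 5) (nat_lit 578) (nat_lit 5) (nat_lit 414) (nat_lit 402) (nat_lit 324)))))) (XT.nd (nat_lit 468) (nat_lit 2812) (nat_lit 0) (XT.nd (nat_lit 234) (nat_lit 1368) (nat_lit 0) (XT.nd (nat_lit 78) (nat_lit 0) (nat_lit 0) (XT.lf (nat_lit 76) (nat_lit 870584722) (nat_lit 0) (nat_lit 3349606071) (nat_lit 1444) (nat_lit 3805918266) (nat_lit 560) (nat_lit 5) (nat_lit 559) (nat_lit 5) (nat_lit 578) (nat_lit 5) (nat_lit 415) (nat_lit 402) (nat_lit 323)) (XT.nd (nat_lit 78) (nat_lit 0) (nat_lit 76) (XT.lf (nat_lit 76) (nat_lit 5181342025) (nat_lit 0) (nat_lit 590227655) (nat_lit 1444) (nat_lit 2314677514) (nat_lit 560) (nat_lit 5) (nat_lit 559) (nat_lit 5) (nat_lit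 578) (nat_lit 5) (nat_lit 416) (nat_lit 402) (nat_lit 322)) (XT.lf (nat_lit 76) (nat_lit 1412900640) (nat_lit 0) (nat_lit 5932941196) (nat_lit 1444) (nat_lit 801917033) (nat_lit 561) (nat_lit 5) (nat_lit 560) (nat_lit 5) (nat_lit 579) (nat_lit 5) (nat_lit 417) (nat_lit 402) (nat_lit 321)))) (XT.nd (nat_lit 78) (nat_lit 0) (nat_lit 0) (XT.lf (nat_lit 0) (nat_lit 723426963) (nat_lit 1444) (nat_lit 2384717487) (nat_lit 1520) (nat_lit 5102426910) (nat_lit 541) (nat_lit 5) (nat_lit 560) (nat_lit 5) (nat_lit 561) (nat_lit 5) (nat_lit 418) (nat_lit 402) (nat_lit 320)) (XT.nd (nat_lit 78) (nat_lit 0) (nat_lit 76) (XT.lf (nat_lit 76) (nat_lit 2052270168) (nat_lit 0) (nat_lit 198738675) (nat_lit 1520) (nat_lit 6023883493) (nat_lit 542) (nat_lit 5) (nat_lit 541) (nat_lit 5) (nat_lit 561) (nat_lit 5) (nat_lit 419) (nat_lit 402) (nat_lit 319)) (XT.lf (nat_lit 0) (nat_lit 3812884118) (nat_lit 1444) (nat_lit 1770230298) (nat_lit 1520) (nat_lit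 2757317956) (nat_lit 542) (nat_lit 5) (nat_lit 561) (nat_lit 5) (nat_lit 562) (nat_lit 5) (nat_lit 420) (nat_lit 402) (nat_lit 318))))) (XT.nd (nat_lit 234) (nat_lit 1444) (nat_lit 0) (XT.nd (nat_lit 78) (nat_lit 1444) (nat_lit 0) (XT.lf (nat_lit 76) (nat_lit 2784559886) (nat_lit 0) (nat_lit 2611083179) (nat_lit 1520) (nat_lit 3011854547) (nat_lit 543) (nat_lit 5) (nat_lit 542) (nat_lit 5) (nat_lit 562) (nat_lit 5) (nat_lit 421) (nat_lit 402) (nat_lit 317)) (XT.nd (nat_lit 78) (nat_lit 1520) (nat_lit 0) (XT.lf (nat_lit 0) (nat_lit 6995486979) (nat_lit 1444) (nat_lit 1046385127) (nat_lit 1520) (nat_lit 434330639) (nat_lit 543) (nat_lit 5) (nat_lit 562) (nat_lit 5) (nat_lit 563) (nat_lit 5) (nat_lit 422) (nat_lit 402) (nat_lit 316)) (XT.lf (nat_lit 0) (nat_lit 92233698) (nat_lit 1520) (nat_lit 4916550229) (nat_lit 1596) (nat_lit 3537249417) (nat_lit 523) (nat_lit 5) (nat_lit 543) (nat_lit 5) (nat_lit 544) (nat_lit 5) (nat_lit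 423) (nat_lit 402) (nat_lit 315)))) (XT.nd (nat_lit 78) (nat_lit 1444) (nat_lit 0) (XT.lf (nat_lit 0) (nat_lit 1655445472) (nat_lit 1520) (nat_lit 236074684) (nat_lit 1596) (nat_lit 6725978816) (nat_lit 523) (nat_lit 5) (nat_lit 543) (nat_lit 5) (nat_lit 544) (nat_lit 5) (nat_lit 424) (nat_lit 402) (nat_lit 314)) (XT.nd (nat_lit 78) (nat_lit 1520) (nat_lit 0) (XT.lf (nat_lit 0) (nat_lit 3260335179) (nat_lit 1520) (nat_lit 4122655139) (nat_lit 76) (nat_lit 1307201958) (nat_lit 524) (nat_lit 5) (nat_lit 544) (nat_lit 5) (nat_lit 525) (nat_lit 5) (nat_lit 425) (nat_lit 402) (nat_lit 313)) (XT.lf (nat_lit 0) (nat_lit 680326796) (nat_lit 1520) (nat_lit 4208080904) (nat_lit 1596) (nat_lit 3876116551) (nat_lit 504) (nat_lit 5) (nat_lit 524) (nat_lit 5) (nat_lit 525) (nat_lit 5) (nat_lit 426) (nat_lit 402) (nat_lit 312))))))))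
noncomputable def xc143 : XT := (XT.nd (nat_lit 1794) (nat_lit 8740) (nat_lit 0) (XT.nd (nat_lit 858) (nat_lit 5776) (nat_lit 0) (XT.nd (nat_lit 390) (nat_lit 5092) (nat_lit 0) (XT.nd (nat_lit 156) (nat_lit 1748) (nat_lit 0) (XT.nd (nat_lit 78) (nat_lit 1596) (nat_lit 0) (XT.lf (nat_lit 0) (nat_lit 5613225731) (nat_lit 1520) (nat_lit 936423008) (nat_lit 1596) (nat_lit 2290688365) (nat_lit 504) (nat_lit 5) (nat_lit 524) (nat_lit 5) (nat_lit 525) (nat_lit 5) (nat_lit 427) (nat_lit 402) (nat_lit 311)) (XT.lf (nat_lit 0) (nat_lit 1711817230) (nat_lit 1596) (nat_lit 6532502811) (nat_lit 1672) (nat_lit 673348317) (nat_lit 483) (nat_lit 5) (nat_lit 504) (nat_lit 5) (nat_lit 505) (nat_lit 5) (nat_lit 428) (nat_lit 402) (nat_lit 310))) (XT.nd (nat_lit 78) (nat_lit 1672) (nat_lit 0) (XT.lf (nat_lit 0) (nat_lit 965236190) (nat_lit 1672) (nat_lit 2237901251) (nat_lit 76) (nat_lit 5793253977) (nat_lit 482) (nat_lit 5) (nat_lit 504) (nat_lit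 5) (nat_lit 483) (nat_lit 5) (nat_lit 429) (nat_lit 402) (nat_lit 309)) (XT.nd (nat_lit 78) (nat_lit 0) (nat_lit 0) (XT.lf (nat_lit 0) (nat_lit 2621671741) (nat_lit 1748) (nat_lit 6237916319) (nat_lit 76) (nat_lit 217135844) (nat_lit 460) (nat_lit 5) (nat_lit 483) (nat_lit 5) (nat_lit 461) (nat_lit 5) (nat_lit 430) (nat_lit 402) (nat_lit 308)) (XT.lf (nat_lit 0) (nat_lit 4322171055) (nat_lit 1748) (nat_lit 1154616694) (nat_lit 76) (nat_lit 3681662369) (nat_lit 460) (nat_lit 5) (nat_lit 483) (nat_lit 5) (nat_lit 461) (nat_lit 5) (nat_lit 431) (nat_lit 402) (nat_lit 307))))) (XT.nd (nat_lit 234) (nat_lit 1824) (nat_lit 0) (XT.nd (nat_lit 78) (nat_lit 1520) (nat_lit 0) (XT.lf (nat_lit 0) (nat_lit 4061729372) (nat_lit 1748) (nat_lit 1996425632) (nat_lit 1824) (nat_lit 3183632024) (nat_lit 437) (nat_lit 5) (nat_lit 460) (nat_lit 5) (nat_lit 461) (nat_lit 5) (nat_lit 432) (nat_lit 402) (nat_lit 306)) (XT.nd (nat_lit 78) (nat_lit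 76) (nat_lit 0) (XT.lf (nat_lit 0) (nat_lit 39537772) (nat_lit 1444) (nat_lit 7782931995) (nat_lit 1520) (nat_lit 1504454238) (nat_lit 418) (nat_lit 5) (nat_lit 437) (nat_lit 5) (nat_lit 438) (nat_lit 5) (nat_lit 433) (nat_lit 402) (nat_lit 305)) (XT.lf (nat_lit 0) (nat_lit 229427826) (nat_lit 1520) (nat_lit 4016573604) (nat_lit 76) (nat_lit 5167263527) (nat_lit 417) (nat_lit 5) (nat_lit 437) (nat_lit 5) (nat_lit 418) (nat_lit 5) (nat_lit 434) (nat_lit 402) (nat_lit 304)))) (XT.nd (nat_lit 78) (nat_lit 912) (nat_lit 0) (XT.lf (nat_lit 0) (nat_lit 1345333135) (nat_lit 912) (nat_lit 617381253) (nat_lit 988) (nat_lit 7538727254) (nat_lit 405) (nat_lit 5) (nat_lit 417) (nat_lit 5) (nat_lit 418) (nat_lit 5) (nat_lit 435) (nat_lit 402) (nat_lit 303)) (XT.nd (nat_lit 78) (nat_lit 912) (nat_lit 0) (XT.lf (nat_lit 0) (nat_lit 3754275903) (nat_lit 988) (nat_lit 2764465383) (nat_lit 76) (nat_lit 3072173520) (nat_lit 405) (nat_lit 5) (nat_lit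 418) (nat_lit 5) (nat_lit 406) (nat_lit 5) (nat_lit 436) (nat_lit 402) (nat_lit 302)) (XT.lf (nat_lit 0) (nat_lit 2745015848) (nat_lit 912) (nat_lit 2835480792) (nat_lit 988) (nat_lit 4101709264) (nat_lit 393) (nat_lit 5) (nat_lit 405) (nat_lit 5) (nat_lit 406) (nat_lit 5) (nat_lit 437) (nat_lit 402) (nat_lit 301)))))) (XT.nd (nat_lit 468) (nat_lit 3116) (nat_lit 0) (XT.nd (nat_lit 234) (nat_lit 836) (nat_lit 0) (XT.nd (nat_lit 78) (nat_lit 1824) (nat_lit 0) (XT.lf (nat_lit 0) (nat_lit 7445133063) (nat_lit 988) (nat_lit 1401127829) (nat_lit 76) (nat_lit 929029037) (nat_lit 393) (nat_lit 5) (nat_lit 406) (nat_lit 5) (nat_lit 394) (nat_lit 5) (nat_lit 438) (nat_lit 402) (nat_lit 300)) (XT.nd (nat_lit 78) (nat_lit 912) (nat_lit 0) (XT.lf (nat_lit 0) (nat_lit 4260966556) (nat_lit 912) (nat_lit 5110219840) (nat_lit 988) (nat_lit 498571589) (nat_lit 381) (nat_lit 5) (nat_lit 393) (nat_lit 5) (nat_lit 394) (nat_lit 5) (nat_lit 439)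 (nat_lit 402) (nat_lit 299)) (XT.lf (nat_lit 0) (nat_lit 59239824) (nat_lit 836) (nat_lit 1280119298) (nat_lit 912) (nat_lit 8626829536) (nat_lit 369) (nat_lit 5) (nat_lit 380) (nat_lit 5) (nat_lit 381) (nat_lit 5) (nat_lit 440) (nat_lit 402) (nat_lit 298)))) (XT.nd (nat_lit 78) (nat_lit 836) (nat_lit 0) (XT.lf (nat_lit 0) (nat_lit 3240440863) (nat_lit 912) (nat_lit 4189987953) (nat_lit 76) (nat_lit 2633396408) (nat_lit 369) (nat_lit 5) (nat_lit 381) (nat_lit 5) (nat_lit 370) (nat_lit 5) (nat_lit 441) (nat_lit 402) (nat_lit 297)) (XT.nd (nat_lit 78) (nat_lit 0) (nat_lit 0) (XT.lf (nat_lit 0) (nat_lit 1632431882) (nat_lit 836) (nat_lit 3544739119) (nat_lit 912) (nat_lit 4986295452) (nat_lit 358) (nat_lit 5) (nat_lit 369) (nat_lit 5) (nat_lit 370) (nat_lit 5) (nat_lit 442) (nat_lit 402) (nat_lit 296)) (XT.lf (nat_lit 0) (nat_lit 7162484192) (nat_lit 912) (nat_lit 2661439436) (nat_lit 76) (nat_lit 440984287) (nat_lit 358) (nat_lit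 5) (nat_lit 370) (nat_lit 5) (nat_lit 359) (nat_lit 5) (nat_lit 443) (nat_lit 402) (nat_lit 295))))) (XT.nd (nat_lit 234) (nat_lit 1520) (nat_lit 0) (XT.nd (nat_lit 78) (nat_lit 836) (nat_lit 0) (XT.lf (nat_lit 0) (nat_lit 3324007341) (nat_lit 760) (nat_lit 5887795191) (nat_lit 836) (nat_lit 1156093990) (nat_lit 348) (nat_lit 5) (nat_lit 358) (nat_lit 5) (nat_lit 359) (nat_lit 5) (nat_lit 444) (nat_lit 402) (nat_lit 294)) (XT.nd (nat_lit 78) (nat_lit 760) (nat_lit 0) (XT.lf (nat_lit 0) (nat_lit 815635248) (nat_lit 836) (nat_lit 1034645802) (nat_lit 76) (nat_lit 8622613356) (nat_lit 347) (nat_lit 5) (nat_lit 358) (nat_lit 5) (nat_lit 348) (nat_lit 5) (nat_lit 445) (nat_lit 402) (nat_lit 293)) (XT.lf (nat_lit 0) (nat_lit 2839424153) (nat_lit 836) (nat_lit 5461491485) (nat_lit 76) (nat_lit 2278365717) (nat_lit 337) (nat_lit 5) (nat_lit 348) (nat_lit 5) (nat_lit 338) (nat_lit 5) (nat_lit 446) (nat_lit 402) (nat_lit 292)))) (XT.nd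 (nat_lit 78) (nat_lit 760) (nat_lit 0) (XT.lf (nat_lit 0) (nat_lit 694832240) (nat_lit 760) (nat_lit 4212635103) (nat_lit 836) (nat_lit 5780257096) (nat_lit 327) (nat_lit 5) (nat_lit 337) (nat_lit 5) (nat_lit 338) (nat_lit 5) (nat_lit 447) (nat_lit 402) (nat_lit 291)) (XT.nd (nat_lit 78) (nat_lit 760) (nat_lit 0) (XT.lf (nat_lit 0) (nat_lit 7026833570) (nat_lit 760) (nat_lit 6964196) (nat_lit 836) (nat_lit 3764203979) (nat_lit 327) (nat_lit 5) (nat_lit 337) (nat_lit 5) (nat_lit 338) (nat_lit 5) (nat_lit 448) (nat_lit 402) (nat_lit 290)) (XT.lf (nat_lit 0) (nat_lit 2559310250) (nat_lit 760) (nat_lit 6668420621) (nat_lit 836) (nat_lit 1682256016) (nat_lit 317) (nat_lit 5) (nat_lit 327) (nat_lit 5) (nat_lit 328) (nat_lit 5) (nat_lit 449) (nat_lit 402) (nat_lit 289))))))) (XT.nd (nat_lit 936) (nat_lit 3952) (nat_lit 0) (XT.nd (nat_lit 468) (nat_lit 2584) (nat_lit 0) (XT.nd (nat_lit 234) (nat_lit 1444) (nat_lit 0) (XT.nd (nat_lit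 78) (nat_lit 684) (nat_lit 0) (XT.lf (nat_lit 0) (nat_lit 441826297) (nat_lit 836) (nat_lit 1980824553) (nat_lit 76) (nat_lit 8601381568) (nat_lit 316) (nat_lit 5) (nat_lit 327) (nat_lit 5) (nat_lit 317) (nat_lit 5) (nat_lit 450) (nat_lit 402) (nat_lit 288)) (XT.nd (nat_lit 78) (nat_lit 0) (nat_lit 0) (XT.lf (nat_lit 0) (nat_lit 2609169969) (nat_lit 760) (nat_lit 6608828179) (nat_lit 76) (nat_lit 1921675806) (nat_lit 307) (nat_lit 5) (nat_lit 317) (nat_lit 5) (nat_lit 308) (nat_lit 5) (nat_lit 451) (nat_lit 402) (nat_lit 287)) (XT.lf (nat_lit 0) (nat_lit 4830643536) (nat_lit 760) (nat_lit 95250610) (nat_lit 76) (nat_lit 6331522035) (nat_lit 307) (nat_lit 5) (nat_lit 317) (nat_lit 5) (nat_lit 308) (nat_lit 5) (nat_lit 452) (nat_lit 402) (nat_lit 286)))) (XT.nd (nat_lit 78) (nat_lit 760) (nat_lit 0) (XT.lf (nat_lit 0) (nat_lit 6614410266) (nat_lit 684) (nat_lit 506805537) (nat_lit 760) (nat_lit 4255807519) (nat_lit 298) (nat_lit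 5) (nat_lit 307) (nat_lit 5) (nat_lit 308) (nat_lit 5) (nat_lit 453) (nat_lit 402) (nat_lit 285)) (XT.nd (nat_lit 78) (nat_lit 76) (nat_lit 0) (XT.lf (nat_lit 0) (nat_lit 1938848552) (nat_lit 684) (nat_lit 7539887201) (nat_lit 760) (nat_lit 2019867514) (nat_lit 289) (nat_lit 5) (nat_lit 298) (nat_lit 5) (nat_lit 299) (nat_lit 5) (nat_lit 454) (nat_lit 402) (nat_lit 284)) (XT.lf (nat_lit 0) (nat_lit 274924575) (nat_lit 760) (nat_lit 2809588237) (nat_lit 76) (nat_lit 8537720313) (nat_lit 288) (nat_lit 5) (nat_lit 298) (nat_lit 5) (nat_lit 289) (nat_lit 5) (nat_lit 455) (nat_lit 402) (nat_lit 283))))) (XT.nd (nat_lit 234) (nat_lit 1292) (nat_lit 0) (XT.nd (nat_lit 78) (nat_lit 608) (nat_lit 0) (XT.lf (nat_lit 0) (nat_lit 2607281061) (nat_lit 760) (nat_lit 7662534766) (nat_lit 76) (nat_lit 1477881626) (nat_lit 279) (nat_lit 5) (nat_lit 289) (nat_lit 5) (nat_lit 280) (nat_lit 5) (nat_lit 456) (nat_lit 402) (nat_lit 282)) (XT.nd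 (nat_lit 78) (nat_lit 608) (nat_lit 0) (XT.lf (nat_lit 0) (nat_lit 5008258832) (nat_lit 760) (nat_lit 760978322) (nat_lit 76) (nat_lit 6105997558) (nat_lit 279) (nat_lit 5) (nat_lit 289) (nat_lit 5) (nat_lit 280) (nat_lit 5) (nat_lit 457) (nat_lit 402) (nat_lit 281)) (XT.lf (nat_lit 0) (nat_lit 6341161415) (nat_lit 608) (nat_lit 1140175808) (nat_lit 684) (nat_lit 4523506936) (nat_lit 271) (nat_lit 5) (nat_lit 279) (nat_lit 5) (nat_lit 280) (nat_lit 5) (nat_lit 458) (nat_lit 402) (nat_lit 280)))) (XT.nd (nat_lit 78) (nat_lit 684) (nat_lit 0) (XT.lf (nat_lit 0) (nat_lit 1433433052) (nat_lit 608) (nat_lit 8591233446) (nat_lit 684) (nat_lit 2111966519) (nat_lit 263) (nat_lit 5) (nat_lit 271) (nat_lit 5) (nat_lit 272) (nat_lit 5) (nat_lit 459) (nat_lit 402) (nat_lit 279)) (XT.nd (nat_lit 78) (nat_lit 608) (nat_lit 0) (XT.lf (nat_lit 0) (nat_lit 372224751) (nat_lit 684) (nat_lit 3551979209) (nat_lit 76) (nat_lit 8346231783) (nat_lit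 262) (nat_lit 5) (nat_lit 271) (nat_lit 5) (nat_lit 263) (nat_lit 5) (nat_lit 460) (nat_lit 402) (nat_lit 278)) (XT.lf (nat_lit 0) (nat_lit 2891400477) (nat_lit 684) (nat_lit 8655058147) (nat_lit 76) (nat_lit 859907935) (nat_lit 254) (nat_lit 5) (nat_lit 263) (nat_lit 5) (nat_lit 255) (nat_lit 5) (nat_lit 461) (nat_lit 402) (nat_lit 277)))))) (XT.nd (nat_lit 468) (nat_lit 2128) (nat_lit 0) (XT.nd (nat_lit 234) (nat_lit 684) (nat_lit 0) (XT.nd (nat_lit 78) (nat_lit 1140) (nat_lit 0) (XT.lf (nat_lit 0) (nat_lit 5494609230) (nat_lit 684) (nat_lit 1342518772) (nat_lit 76) (nat_lit 5707217775) (nat_lit 254) (nat_lit 5) (nat_lit 263) (nat_lit 5) (nat_lit 255) (nat_lit 5) (nat_lit 462) (nat_lit 402) (nat_lit 276)) (XT.nd (nat_lit 78) (nat_lit 532) (nat_lit 0) (XT.lf (nat_lit 0) (nat_lit 6177045892) (nat_lit 608) (nat_lit 1996929887) (nat_lit 684) (nat_lit 4510629650) (nat_lit 246) (nat_lit 5) (nat_lit 254) (nat_lit 5) (nat_lit 255)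 (nat_lit 5) (nat_lit 463) (nat_lit 402) (nat_lit 275)) (XT.lf (nat_lit 0) (nat_lit 1011429584) (nat_lit 532) (nat_lit 9914368310) (nat_lit 608) (nat_lit 1901497685) (nat_lit 239) (nat_lit 5) (nat_lit 246) (nat_lit 5) (nat_lit 247) (nat_lit 5) (nat_lit 464) (nat_lit 402) (nat_lit 274)))) (XT.nd (nat_lit 78) (nat_lit 608) (nat_lit 0) (XT.lf (nat_lit 0) (nat_lit 791251572) (nat_lit 608) (nat_lit 4241878127) (nat_lit 76) (nat_lit 7938785738) (nat_lit 238) (nat_lit 5) (nat_lit 246) (nat_lit 5) (nat_lit 239) (nat_lit 5) (nat_lit 465) (nat_lit 402) (nat_lit 273)) (XT.nd (nat_lit 78) (nat_lit 0) (nat_lit 0) (XT.lf (nat_lit 0) (nat_lit 3496784211) (nat_lit 608) (nat_lit 22864005) (nat_lit 684) (nat_lit 9599385542) (nat_lit 230) (nat_lit 5) (nat_lit 238) (nat_lit 5) (nat_lit 239) (nat_lit 5) (nat_lit 466) (nat_lit 402) (nat_lit 272)) (XT.lf (nat_lit 0) (nat_lit 6348968672) (nat_lit 684) (nat_lit 1874246008) (nat_lit 76) (nat_lit 5044955116)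 (nat_lit 230) (nat_lit 5) (nat_lit 239) (nat_lit 5) (nat_lit 231) (nat_lit 5) (nat_lit 467) (nat_lit 402) (nat_lit 271))))) (XT.nd (nat_lit 234) (nat_lit 988) (nat_lit 0) (XT.nd (nat_lit 78) (nat_lit 608) (nat_lit 0) (XT.lf (nat_lit 0) (nat_lit 6088595877) (nat_lit 532) (nat_lit 3170932879) (nat_lit 608) (nat_lit 4160269150) (nat_lit 223) (nat_lit 5) (nat_lit 230) (nat_lit 5) (nat_lit 231) (nat_lit 5) (nat_lit 468) (nat_lit 402) (nat_lit 270)) (XT.nd (nat_lit 78) (nat_lit 76) (nat_lit 0) (XT.lf (nat_lit 0) (nat_lit 637336754) (nat_lit 532) (nat_lit 11605738865) (nat_lit 608) (nat_lit 1331089819) (nat_lit 216) (nat_lit 5) (nat_lit 223) (nat_lit 5) (nat_lit 224) (nat_lit 5) (nat_lit 469) (nat_lit 402) (nat_lit 269)) (XT.lf (nat_lit 0) (nat_lit 1589974377) (nat_lit 608) (nat_lit 4917462260) (nat_lit 76) (nat_lit 7222870259) (nat_lit 215) (nat_lit 5) (nat_lit 223) (nat_lit 5) (nat_lit 216) (nat_lit 5) (nat_lit 470) (nat_lit 402)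 (nat_lit 268)))) (XT.nd (nat_lit 78) (nat_lit 532) (nat_lit 0) (XT.lf (nat_lit 0) (nat_lit 3276815861) (nat_lit 456) (nat_lit 1281572934) (nat_lit 532) (nat_lit 9330873607) (nat_lit 209) (nat_lit 5) (nat_lit 215) (nat_lit 5) (nat_lit 216) (nat_lit 5) (nat_lit 471) (nat_lit 402) (nat_lit 267)) (XT.nd (nat_lit 78) (nat_lit 532) (nat_lit 0) (XT.lf (nat_lit 0) (nat_lit 7631261811) (nat_lit 532) (nat_lit 2395369925) (nat_lit 76) (nat_lit 4023865667) (nat_lit 209) (nat_lit 5) (nat_lit 216) (nat_lit 5) (nat_lit 210) (nat_lit 5) (nat_lit 472) (nat_lit 402) (nat_lit 266)) (XT.lf (nat_lit 0) (nat_lit 6037365811) (nat_lit 532) (nat_lit 4761780398) (nat_lit 608) (nat_lit 3415141961) (nat_lit 202) (nat_lit 5) (nat_lit 209) (nat_lit 5) (nat_lit 210) (nat_lit 5) (nat_lit 473) (nat_lit 402) (nat_lit 265))))))))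
noncomputable def xc144 : XT := (XT.nd (nat_lit 1794) (nat_lit 2356) (nat_lit 0) (XT.nd (nat_lit 858) (nat_lit 3116) (nat_lit 0) (XT.nd (nat_lit 390) (nat_lit 1444) (nat_lit 0) (XT.nd (nat_lit 156) (nat_lit 912) (nat_lit 0) (XT.nd (nat_lit 78) (nat_lit 76) (nat_lit 0) (XT.lf (nat_lit 0) (nat_lit 270183661) (nat_lit 456) (nat_lit 13768075432) (nat_lit 532) (nat_lit 342940349) (nat_lit 196) (nat_lit 5) (nat_lit 202) (nat_lit 5) (nat_lit 203) (nat_lit 5) (nat_lit 474) (nat_lit 402) (nat_lit 264)) (XT.lf (nat_lit 0) (nat_lit 2826915690) (nat_lit 532) (nat_lit 5622852430) (nat_lit 76) (nat_lit 6099864239) (nat_lit 195) (nat_lit 5) (nat_lit 202) (nat_lit 5) (nat_lit 196) (nat_lit 5) (nat_lit 475) (nat_lit 402) (nat_lit 263))) (XT.nd (nat_lit 78) (nat_lit 456) (nat_lit 0) (XT.lf (nat_lit 0) (nat_lit 3053680481) (nat_lit 456) (nat_lit 3008042101) (nat_lit 532) (nat_lit 8659545086) (nat_lit 189) (nat_lit 5) (nat_lit 195) (nat_lit 5)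 (nat_lit 196) (nat_lit 5) (nat_lit 476) (nat_lit 402) (nat_lit 262)) (XT.nd (nat_lit 78) (nat_lit 456) (nat_lit 0) (XT.lf (nat_lit 0) (nat_lit 9402139331) (nat_lit 532) (nat_lit 2951658362) (nat_lit 76) (nat_lit 2541721659) (nat_lit 189) (nat_lit 5) (nat_lit 196) (nat_lit 5) (nat_lit 190) (nat_lit 5) (nat_lit 477) (nat_lit 402) (nat_lit 261)) (XT.lf (nat_lit 0) (nat_lit 5978168057) (nat_lit 456) (nat_lit 6876621420) (nat_lit 532) (nat_lit 2217559997) (nat_lit 183) (nat_lit 5) (nat_lit 189) (nat_lit 5) (nat_lit 190) (nat_lit 5) (nat_lit 478) (nat_lit 402) (nat_lit 260))))) (XT.nd (nat_lit 234) (nat_lit 532) (nat_lit 0) (XT.nd (nat_lit 78) (nat_lit 836) (nat_lit 0) (XT.lf (nat_lit 0) (nat_lit 1115716246) (nat_lit 532) (nat_lit 152104621) (nat_lit 76) (nat_lit 13984617672) (nat_lit 182) (nat_lit 5) (nat_lit 189) (nat_lit 5) (nat_lit 183) (nat_lit 5) (nat_lit 479) (nat_lit 402) (nat_lit 259)) (XT.nd (nat_lit 78) (nat_lit 380) (nat_lit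 0) (XT.lf (nat_lit 0) (nat_lit 4561142232) (nat_lit 532) (nat_lit 6409995214) (nat_lit 76) (nat_lit 4463197026) (nat_lit 176) (nat_lit 5) (nat_lit 183) (nat_lit 5) (nat_lit 177) (nat_lit 5) (nat_lit 480) (nat_lit 402) (nat_lit 258)) (XT.lf (nat_lit 0) (nat_lit 2775841373) (nat_lit 380) (nat_lit 5314180251) (nat_lit 456) (nat_lit 7529557563) (nat_lit 171) (nat_lit 5) (nat_lit 176) (nat_lit 5) (nat_lit 177) (nat_lit 5) (nat_lit 481) (nat_lit 402) (nat_lit 257)))) (XT.nd (nat_lit 78) (nat_lit 532) (nat_lit 0) (XT.lf (nat_lit 0) (nat_lit 11722931485) (nat_lit 456) (nat_lit 3597413435) (nat_lit 76) (nat_lit 487516544) (nat_lit 171) (nat_lit 5) (nat_lit 177) (nat_lit 5) (nat_lit 172) (nat_lit 5) (nat_lit 482) (nat_lit 402) (nat_lit 256)) (XT.nd (nat_lit 78) (nat_lit 76) (nat_lit 0) (XT.lf (nat_lit 0) (nat_lit 5857044873) (nat_lit 456) (nat_lit 9632120311) (nat_lit 532) (nat_lit 509532584) (nat_lit 165) (nat_lit 5) (nat_lit 171) (nat_lit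 5) (nat_lit 172) (nat_lit 5) (nat_lit 483) (nat_lit 402) (nat_lit 255)) (XT.lf (nat_lit 0) (nat_lit 3108013996) (nat_lit 532) (nat_lit 682503787) (nat_lit 76) (nat_lit 12402191473) (nat_lit 164) (nat_lit 5) (nat_lit 171) (nat_lit 5) (nat_lit 165) (nat_lit 5) (nat_lit 484) (nat_lit 402) (nat_lit 254)))))) (XT.nd (nat_lit 468) (nat_lit 1520) (nat_lit 0) (XT.nd (nat_lit 234) (nat_lit 836) (nat_lit 0) (XT.nd (nat_lit 78) (nat_lit 380) (nat_lit 0) (XT.lf (nat_lit 0) (nat_lit 6852122770) (nat_lit 456) (nat_lit 7340833837) (nat_lit 76) (nat_lit 2196357925) (nat_lit 159) (nat_lit 5) (nat_lit 165) (nat_lit 5) (nat_lit 160) (nat_lit 5) (nat_lit 485) (nat_lit 402) (nat_lit 253)) (XT.nd (nat_lit 78) (nat_lit 0) (nat_lit 0) (XT.lf (nat_lit 0) (nat_lit 2381488944) (nat_lit 380) (nat_lit 8322619279) (nat_lit 456) (nat_lit 5885085364) (nat_lit 154) (nat_lit 5) (nat_lit 159) (nat_lit 5) (nat_lit 160) (nat_lit 5) (nat_lit 486) (nat_lit 402)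 (nat_lit 252)) (XT.lf (nat_lit 0) (nat_lit 12379697086) (nat_lit 380) (nat_lit 2290637926) (nat_lit 456) (nat_lit 2121992711) (nat_lit 154) (nat_lit 5) (nat_lit 159) (nat_lit 5) (nat_lit 160) (nat_lit 5) (nat_lit 487) (nat_lit 402) (nat_lit 251)))) (XT.nd (nat_lit 78) (nat_lit 380) (nat_lit 0) (XT.lf (nat_lit 0) (nat_lit 1743808948) (nat_lit 456) (nat_lit 11401087062) (nat_lit 76) (nat_lit 3853407979) (nat_lit 148) (nat_lit 5) (nat_lit 154) (nat_lit 5) (nat_lit 149) (nat_lit 5) (nat_lit 488) (nat_lit 402) (nat_lit 250)) (XT.nd (nat_lit 78) (nat_lit 380) (nat_lit 0) (XT.lf (nat_lit 0) (nat_lit 5691693456) (nat_lit 456) (nat_lit 1388104747) (nat_lit 76) (nat_lit 10127658890) (nat_lit 148) (nat_lit 5) (nat_lit 154) (nat_lit 5) (nat_lit 149) (nat_lit 5) (nat_lit 489) (nat_lit 402) (nat_lit 249)) (XT.lf (nat_lit 0) (nat_lit 8924582580) (nat_lit 380) (nat_lit 840305987) (nat_lit 456) (nat_lit 7654979048) (nat_lit 143) (nat_lit 5)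 (nat_lit 148) (nat_lit 5) (nat_lit 149) (nat_lit 5) (nat_lit 490) (nat_lit 402) (nat_lit 248))))) (XT.nd (nat_lit 234) (nat_lit 684) (nat_lit 0) (XT.nd (nat_lit 78) (nat_lit 456) (nat_lit 0) (XT.lf (nat_lit 0) (nat_lit 1795948646) (nat_lit 380) (nat_lit 12168984683) (nat_lit 456) (nat_lit 3670686693) (nat_lit 138) (nat_lit 5) (nat_lit 143) (nat_lit 5) (nat_lit 144) (nat_lit 5) (nat_lit 491) (nat_lit 402) (nat_lit 247)) (XT.nd (nat_lit 78) (nat_lit 380) (nat_lit 0) (XT.lf (nat_lit 0) (nat_lit 439601990) (nat_lit 456) (nat_lit 5472596361) (nat_lit 76) (nat_lit 11942410018) (nat_lit 137) (nat_lit 5) (nat_lit 143) (nat_lit 5) (nat_lit 138) (nat_lit 5) (nat_lit 492) (nat_lit 402) (nat_lit 246)) (XT.lf (nat_lit 0) (nat_lit 4608417231) (nat_lit 456) (nat_lit 12953053375) (nat_lit 76) (nat_lit 515512496) (nat_lit 132) (nat_lit 5) (nat_lit 138) (nat_lit 5) (nat_lit 133) (nat_lit 5) (nat_lit 493) (nat_lit 402) (nat_lit 245)))) (XT.nd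 (nat_lit 78) (nat_lit 684) (nat_lit 0) (XT.lf (nat_lit 0) (nat_lit 8925542054) (nat_lit 456) (nat_lit 2353337704) (nat_lit 76) (nat_lit 7023628189) (nat_lit 132) (nat_lit 5) (nat_lit 138) (nat_lit 5) (nat_lit 133) (nat_lit 5) (nat_lit 494) (nat_lit 402) (nat_lit 244)) (XT.nd (nat_lit 78) (nat_lit 380) (nat_lit 0) (XT.lf (nat_lit 0) (nat_lit 8553455485) (nat_lit 304) (nat_lit 4820120397) (nat_lit 380) (nat_lit 5158077334) (nat_lit 128) (nat_lit 5) (nat_lit 132) (nat_lit 5) (nat_lit 133) (nat_lit 5) (nat_lit 495) (nat_lit 402) (nat_lit 243)) (XT.lf (nat_lit 0) (nat_lit 928652965) (nat_lit 380) (nat_lit 17004418243) (nat_lit 456) (nat_lit 831861399) (nat_lit 123) (nat_lit 5) (nat_lit 128) (nat_lit 5) (nat_lit 129) (nat_lit 5) (nat_lit 496) (nat_lit 402) (nat_lit 242))))))) (XT.nd (nat_lit 858) (nat_lit 304) (nat_lit 0) (XT.nd (nat_lit 390) (nat_lit 1292) (nat_lit 0) (XT.nd (nat_lit 156) (nat_lit 380) (nat_lit 0) (XT.nd (nat_lit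 78) (nat_lit 304) (nat_lit 0) (XT.lf (nat_lit 0) (nat_lit 3622365924) (nat_lit 456) (nat_lit 6885450784) (nat_lit 76) (nat_lit 8492828054) (nat_lit 122) (nat_lit 5) (nat_lit 128) (nat_lit 5) (nat_lit 123) (nat_lit 5) (nat_lit 497) (nat_lit 402) (nat_lit 241)) (XT.lf (nat_lit 0) (nat_lit 4318666959) (nat_lit 304) (nat_lit 3853262684) (nat_lit 380) (nat_lit 11068684898) (nat_lit 118) (nat_lit 5) (nat_lit 122) (nat_lit 5) (nat_lit 123) (nat_lit 5) (nat_lit 498) (nat_lit 402) (nat_lit 240))) (XT.nd (nat_lit 78) (nat_lit 380) (nat_lit 0) (XT.lf (nat_lit 0) (nat_lit 12867448091) (nat_lit 380) (nat_lit 3680536414) (nat_lit 76) (nat_lit 2936301082) (nat_lit 118) (nat_lit 5) (nat_lit 123) (nat_lit 5) (nat_lit 119) (nat_lit 5) (nat_lit 499) (nat_lit 402) (nat_lit 239)) (XT.nd (nat_lit 78) (nat_lit 76) (nat_lit 0) (XT.lf (nat_lit 0) (nat_lit 7846504766) (nat_lit 304) (nat_lit 9876443486) (nat_lit 380) (nat_lit 2008561490) (nat_lit 114)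 (nat_lit 5) (nat_lit 118) (nat_lit 5) (nat_lit 119) (nat_lit 5) (nat_lit 500) (nat_lit 402) (nat_lit 238)) (XT.lf (nat_lit 0) (nat_lit 2671073289) (nat_lit 380) (nat_lit 363465951) (nat_lit 76) (nat_lit 16948500709) (nat_lit 113) (nat_lit 5) (nat_lit 118) (nat_lit 5) (nat_lit 114) (nat_lit 5) (nat_lit 501) (nat_lit 402) (nat_lit 237))))) (XT.nd (nat_lit 234) (nat_lit 684) (nat_lit 0) (XT.nd (nat_lit 78) (nat_lit 304) (nat_lit 0) (XT.lf (nat_lit 0) (nat_lit 7508151565) (nat_lit 380) (nat_lit 8754331982) (nat_lit 76) (nat_lit 3975037826) (nat_lit 109) (nat_lit 5) (nat_lit 114) (nat_lit 5) (nat_lit 110) (nat_lit 5) (nat_lit 502) (nat_lit 402) (nat_lit 236)) (XT.nd (nat_lit 78) (nat_lit 0) (nat_lit 0) (XT.lf (nat_lit 0) (nat_lit 3078577199) (nat_lit 304) (nat_lit 9395827349) (nat_lit 380) (nat_lit 8022040246) (nat_lit 105) (nat_lit 5) (nat_lit 109) (nat_lit 5) (nat_lit 110) (nat_lit 5) (nat_lit 503) (nat_lit 402) (nat_lit 235))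 (XT.lf (nat_lit 0) (nat_lit 15250571858) (nat_lit 304) (nat_lit 2338143125) (nat_lit 380) (nat_lit 3170858064) (nat_lit 105) (nat_lit 5) (nat_lit 109) (nat_lit 5) (nat_lit 110) (nat_lit 5) (nat_lit 504) (nat_lit 402) (nat_lit 234)))) (XT.nd (nat_lit 78) (nat_lit 304) (nat_lit 0) (XT.lf (nat_lit 0) (nat_lit 1819527117) (nat_lit 380) (nat_lit 14360646798) (nat_lit 76) (nat_lit 4846250335) (nat_lit 100) (nat_lit 5) (nat_lit 105) (nat_lit 5) (nat_lit 101) (nat_lit 5) (nat_lit 505) (nat_lit 402) (nat_lit 233)) (XT.nd (nat_lit 78) (nat_lit 304) (nat_lit 0) (XT.lf (nat_lit 0) (nat_lit 6910166268) (nat_lit 380) (nat_lit 2191978861) (nat_lit 76) (nat_lit 12195191034) (nat_lit 100) (nat_lit 5) (nat_lit 105) (nat_lit 5) (nat_lit 101) (nat_lit 5) (nat_lit 506) (nat_lit 402) (nat_lit 232)) (XT.lf (nat_lit 0) (nat_lit 10339882536) (nat_lit 304) (nat_lit 1820228701) (nat_lit 380) (nat_lit 9412406150) (nat_lit 96) (nat_lit 5) (nat_lit 100)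 (nat_lit 5) (nat_lit 101) (nat_lit 5) (nat_lit 507) (nat_lit 402) (nat_lit 231)))))) (XT.nd (nat_lit 51480) (nat_lit 0) (nat_lit 35416) (XT.nd (nat_lit 51246) (nat_lit 0) (nat_lit 37848) (XT.nd (nat_lit 78) (nat_lit 76) (nat_lit 0) (XT.lf (nat_lit 0) (nat_lit 1263414370) (nat_lit 228) (nat_lit 16301463916) (nat_lit 304) (nat_lit 4287328402) (nat_lit 93) (nat_lit 5) (nat_lit 96) (nat_lit 5) (nat_lit 97) (nat_lit 5) (nat_lit 508) (nat_lit 402) (nat_lit 230)) (XT.nd (nat_lit 51090) (nat_lit 0) (nat_lit 37848) (XT.lf (nat_lit 0) (nat_lit 1006279042) (nat_lit 304) (nat_lit 8008856232) (nat_lit 76) (nat_lit 13120666093) (nat_lit 92) (nat_lit 5) (nat_lit 96) (nat_lit 5) (nat_lit 93) (nat_lit 5) (nat_lit 509) (nat_lit 402) (nat_lit 229)) (XT.lf (nat_lit 0) (nat_lit 1386566355) (nat_lit 1292) (nat_lit 1170099879) (nat_lit 1292) (nat_lit 1170099879) (nat_lit 590) (nat_lit 3) (nat_lit 607) (nat_lit 3) (nat_lit 607) (nat_lit 5) (nat_lit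 403) (nat_lit 403) (nat_lit 334)))) (XT.nd (nat_lit 78) (nat_lit 0) (nat_lit 0) (XT.lf (nat_lit 76) (nat_lit 1313871471) (nat_lit 0) (nat_lit 2959803004) (nat_lit 1292) (nat_lit 3224537894) (nat_lit 591) (nat_lit 5) (nat_lit 590) (nat_lit 3) (nat_lit 607) (nat_lit 5) (nat_lit 404) (nat_lit 403) (nat_lit 333)) (XT.nd (nat_lit 78) (nat_lit 0) (nat_lit 76) (XT.lf (nat_lit 76) (nat_lit 5052892149) (nat_lit 0) (nat_lit 728501403) (nat_lit 1292) (nat_lit 1762859694) (nat_lit 591) (nat_lit 5) (nat_lit 590) (nat_lit 3) (nat_lit 607) (nat_lit 5) (nat_lit 405) (nat_lit 403) (nat_lit 332)) (XT.lf (nat_lit 76) (nat_lit 1261628331) (nat_lit 0) (nat_lit 6038213996) (nat_lit 1292) (nat_lit 291771368) (nat_lit 592) (nat_lit 5) (nat_lit 591) (nat_lit 5) (nat_lit 608) (nat_lit 5) (nat_lit 406) (nat_lit 403) (nat_lit 331))))) (XT.nd (nat_lit 234) (nat_lit 1216) (nat_lit 0) (XT.nd (nat_lit 78) (nat_lit 0) (nat_lit 0) (XT.lf (nat_lit 0) (nat_lit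 1177228448) (nat_lit 1292) (nat_lit 2549642904) (nat_lit 1368) (nat_lit 3913216052) (nat_lit 574) (nat_lit 5) (nat_lit 591) (nat_lit 5) (nat_lit 592) (nat_lit 5) (nat_lit 407) (nat_lit 403) (nat_lit 330)) (XT.nd (nat_lit 78) (nat_lit 0) (nat_lit 76) (XT.lf (nat_lit 76) (nat_lit 1301123556) (nat_lit 0) (nat_lit 1342449861) (nat_lit 1368) (nat_lit 5046490827) (nat_lit 575) (nat_lit 5) (nat_lit 574) (nat_lit 5) (nat_lit 592) (nat_lit 5) (nat_lit 408) (nat_lit 403) (nat_lit 329)) (XT.lf (nat_lit 0) (nat_lit 4127652275) (nat_lit 1292) (nat_lit 2505433520) (nat_lit 1368) (nat_lit 1108196166) (nat_lit 575) (nat_lit 5) (nat_lit 592) (nat_lit 5) (nat_lit 593) (nat_lit 5) (nat_lit 409) (nat_lit 403) (nat_lit 328)))) (XT.nd (nat_lit 78) (nat_lit 1292) (nat_lit 0) (XT.lf (nat_lit 76) (nat_lit 1445206152) (nat_lit 0) (nat_lit 4179293366) (nat_lit 1368) (nat_lit 2169372070) (nat_lit 576) (nat_lit 5) (nat_lit 575) (nat_lit 5) (nat_lit 593)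 (nat_lit 5) (nat_lit 410) (nat_lit 403) (nat_lit 327)) (XT.nd (nat_lit 78) (nat_lit 1292) (nat_lit 0) (XT.lf (nat_lit 76) (nat_lit 5488354582) (nat_lit 0) (nat_lit 1645112137) (nat_lit 1368) (nat_lit 714411739) (nat_lit 576) (nat_lit 5) (nat_lit 575) (nat_lit 5) (nat_lit 593) (nat_lit 5) (nat_lit 411) (nat_lit 403) (nat_lit 326)) (XT.lf (nat_lit 0) (nat_lit 742744080) (nat_lit 1368) (nat_lit 6203379364) (nat_lit 1444) (nat_lit 957087030) (nat_lit 558) (nat_lit 5) (nat_lit 576) (nat_lit 5) (nat_lit 577) (nat_lit 5) (nat_lit 412) (nat_lit 403) (nat_lit 325))))))))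
noncomputable def xc145 : XT := (XT.nd (nat_lit 1794) (nat_lit 11096) (nat_lit 0) (XT.nd (nat_lit 858) (nat_lit 7980) (nat_lit 0) (XT.nd (nat_lit 390) (nat_lit 1368) (nat_lit 0) (XT.nd (nat_lit 156) (nat_lit 1368) (nat_lit 0) (XT.nd (nat_lit 78) (nat_lit 0) (nat_lit 0) (XT.lf (nat_lit 0) (nat_lit 2212758803) (nat_lit 1368) (nat_lit 2123866261) (nat_lit 1444) (nat_lit 3623072570) (nat_lit 558) (nat_lit 5) (nat_lit 576) (nat_lit 5) (nat_lit 577) (nat_lit 5) (nat_lit 413) (nat_lit 403) (nat_lit 324)) (XT.lf (nat_lit 76) (nat_lit 2043289998) (nat_lit 0) (nat_lit 1649247794) (nat_lit 1444) (nat_lit 4325177884) (nat_lit 559) (nat_lit 5) (nat_lit 558) (nat_lit 5) (nat_lit 577) (nat_lit 5) (nat_lit 414) (nat_lit 403) (nat_lit 323))) (XT.nd (nat_lit 78) (nat_lit 1444) (nat_lit 0) (XT.lf (nat_lit 0) (nat_lit 5191033615) (nat_lit 1368) (nat_lit 1782554971) (nat_lit 1444) (nat_lit 1103531319) (nat_lit 559) (nat_lit 5) (nat_lit 577) (nat_lit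 5) (nat_lit 578) (nat_lit 5) (nat_lit 415) (nat_lit 403) (nat_lit 322)) (XT.nd (nat_lit 78) (nat_lit 1444) (nat_lit 0) (XT.lf (nat_lit 76) (nat_lit 2494017616) (nat_lit 0) (nat_lit 4220915762) (nat_lit 1444) (nat_lit 1422878251) (nat_lit 560) (nat_lit 5) (nat_lit 559) (nat_lit 5) (nat_lit 578) (nat_lit 5) (nat_lit 416) (nat_lit 403) (nat_lit 321)) (XT.lf (nat_lit 0) (nat_lit 49313177) (nat_lit 1444) (nat_lit 1340934750) (nat_lit 1520) (nat_lit 6809855358) (nat_lit 540) (nat_lit 5) (nat_lit 559) (nat_lit 5) (nat_lit 560) (nat_lit 5) (nat_lit 417) (nat_lit 403) (nat_lit 320))))) (XT.nd (nat_lit 234) (nat_lit 1444) (nat_lit 0) (XT.nd (nat_lit 78) (nat_lit 0) (nat_lit 0) (XT.lf (nat_lit 0) (nat_lit 1530952884) (nat_lit 1444) (nat_lit 5215788606) (nat_lit 1520) (nat_lit 1516737668) (nat_lit 541) (nat_lit 5) (nat_lit 560) (nat_lit 5) (nat_lit 561) (nat_lit 5) (nat_lit 418) (nat_lit 403) (nat_lit 319)) (XT.nd (nat_lit 78) (nat_lit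 0) (nat_lit 0) (XT.lf (nat_lit 0) (nat_lit 3030229449) (nat_lit 1444) (nat_lit 816278426) (nat_lit 1520) (nat_lit 4481862066) (nat_lit 541) (nat_lit 5) (nat_lit 560) (nat_lit 5) (nat_lit 561) (nat_lit 5) (nat_lit 419) (nat_lit 403) (nat_lit 318)) (XT.lf (nat_lit 76) (nat_lit 3698816525) (nat_lit 0) (nat_lit 855022696) (nat_lit 1520) (nat_lit 3840839694) (nat_lit 542) (nat_lit 5) (nat_lit 541) (nat_lit 5) (nat_lit 561) (nat_lit 5) (nat_lit 420) (nat_lit 403) (nat_lit 317)))) (XT.nd (nat_lit 78) (nat_lit 1520) (nat_lit 0) (XT.lf (nat_lit 0) (nat_lit 6098529032) (nat_lit 1444) (nat_lit 182647212) (nat_lit 1520) (nat_lit 2181332851) (nat_lit 542) (nat_lit 5) (nat_lit 561) (nat_lit 5) (nat_lit 562) (nat_lit 5) (nat_lit 421) (nat_lit 403) (nat_lit 316)) (XT.nd (nat_lit 78) (nat_lit 1520) (nat_lit 0) (XT.lf (nat_lit 76) (nat_lit 4452561225) (nat_lit 0) (nat_lit 3227528801) (nat_lit 1520) (nat_lit 851493346) (nat_lit 543) (nat_lit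 5) (nat_lit 542) (nat_lit 5) (nat_lit 562) (nat_lit 5) (nat_lit 422) (nat_lit 403) (nat_lit 315)) (XT.lf (nat_lit 76) (nat_lit 562566796) (nat_lit 0) (nat_lit 96134693) (nat_lit 1596) (nat_lit 7943724172) (nat_lit 523) (nat_lit 5) (nat_lit 522) (nat_lit 5) (nat_lit 543) (nat_lit 5) (nat_lit 423) (nat_lit 403) (nat_lit 314)))))) (XT.nd (nat_lit 468) (nat_lit 4940) (nat_lit 0) (XT.nd (nat_lit 234) (nat_lit 3116) (nat_lit 0) (XT.nd (nat_lit 78) (nat_lit 0) (nat_lit 0) (XT.lf (nat_lit 0) (nat_lit 2207477830) (nat_lit 1520) (nat_lit 3369511793) (nat_lit 1596) (nat_lit 3097193659) (nat_lit 523) (nat_lit 5) (nat_lit 543) (nat_lit 5) (nat_lit 544) (nat_lit 5) (nat_lit 424) (nat_lit 403) (nat_lit 313)) (XT.nd (nat_lit 78) (nat_lit 0) (nat_lit 76) (XT.lf (nat_lit 76) (nat_lit 1390548409) (nat_lit 0) (nat_lit 2378994589) (nat_lit 1596) (nat_lit 4978193300) (nat_lit 524) (nat_lit 5) (nat_lit 523) (nat_lit 5) (nat_lit 544) (nat_lit 5) (nat_lit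 425) (nat_lit 403) (nat_lit 312)) (XT.lf (nat_lit 0) (nat_lit 5364428064) (nat_lit 1520) (nat_lit 2558443658) (nat_lit 76) (nat_lit 899863458) (nat_lit 524) (nat_lit 5) (nat_lit 544) (nat_lit 5) (nat_lit 525) (nat_lit 5) (nat_lit 426) (nat_lit 403) (nat_lit 311)))) (XT.nd (nat_lit 78) (nat_lit 1672) (nat_lit 0) (XT.lf (nat_lit 0) (nat_lit 2329764596) (nat_lit 1520) (nat_lit 4665940181) (nat_lit 1596) (nat_lit 1903445638) (nat_lit 504) (nat_lit 5) (nat_lit 524) (nat_lit 5) (nat_lit 525) (nat_lit 5) (nat_lit 427) (nat_lit 403) (nat_lit 310)) (XT.nd (nat_lit 78) (nat_lit 1672) (nat_lit 0) (XT.lf (nat_lit 0) (nat_lit 7329246387) (nat_lit 1520) (nat_lit 1321521722) (nat_lit 1596) (nat_lit 326508756) (nat_lit 504) (nat_lit 5) (nat_lit 524) (nat_lit 5) (nat_lit 525) (nat_lit 5) (nat_lit 428) (nat_lit 403) (nat_lit 309)) (XT.lf (nat_lit 0) (nat_lit 1275269044) (nat_lit 1672) (nat_lit 5683934230) (nat_lit 76) (nat_lit 2097399686) (nat_lit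 482) (nat_lit 5) (nat_lit 504) (nat_lit 5) (nat_lit 483) (nat_lit 5) (nat_lit 429) (nat_lit 403) (nat_lit 308))))) (XT.nd (nat_lit 234) (nat_lit 1520) (nat_lit 0) (XT.nd (nat_lit 78) (nat_lit 3420) (nat_lit 0) (XT.lf (nat_lit 0) (nat_lit 2899321915) (nat_lit 1672) (nat_lit 653664512) (nat_lit 76) (nat_lit 5584599534) (nat_lit 482) (nat_lit 5) (nat_lit 504) (nat_lit 5) (nat_lit 483) (nat_lit 5) (nat_lit 430) (nat_lit 403) (nat_lit 307)) (XT.nd (nat_lit 78) (nat_lit 1748) (nat_lit 0) (XT.lf (nat_lit 0) (nat_lit 4515347669) (nat_lit 1672) (nat_lit 45043619) (nat_lit 1748) (nat_lit 4659712289) (nat_lit 460) (nat_lit 5) (nat_lit 482) (nat_lit 5) (nat_lit 483) (nat_lit 5) (nat_lit 431) (nat_lit 403) (nat_lit 306)) (XT.lf (nat_lit 0) (nat_lit 453941743) (nat_lit 1748) (nat_lit 5806633415) (nat_lit 1824) (nat_lit 3043584079) (nat_lit 437) (nat_lit 5) (nat_lit 460) (nat_lit 5) (nat_lit 461) (nat_lit 5) (nat_lit 432) (nat_lit 403) (nat_lit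 305)))) (XT.nd (nat_lit 78) (nat_lit 1520) (nat_lit 0) (XT.lf (nat_lit 0) (nat_lit 5757965828) (nat_lit 1748) (nat_lit 2244596167) (nat_lit 1824) (nat_lit 1387183475) (nat_lit 437) (nat_lit 5) (nat_lit 460) (nat_lit 5) (nat_lit 461) (nat_lit 5) (nat_lit 433) (nat_lit 403) (nat_lit 304)) (XT.nd (nat_lit 78) (nat_lit 0) (nat_lit 0) (XT.lf (nat_lit 0) (nat_lit 294712799) (nat_lit 1520) (nat_lit 7796377199) (nat_lit 76) (nat_lit 1385992741) (nat_lit 417) (nat_lit 5) (nat_lit 437) (nat_lit 5) (nat_lit 418) (nat_lit 5) (nat_lit 434) (nat_lit 403) (nat_lit 303)) (XT.lf (nat_lit 0) (nat_lit 2007673551) (nat_lit 1520) (nat_lit 2462793814) (nat_lit 76) (nat_lit 5095201115) (nat_lit 417) (nat_lit 5) (nat_lit 437) (nat_lit 5) (nat_lit 418) (nat_lit 5) (nat_lit 435) (nat_lit 403) (nat_lit 302))))))) (XT.nd (nat_lit 936) (nat_lit 5016) (nat_lit 0) (XT.nd (nat_lit 468) (nat_lit 2432) (nat_lit 0) (XT.nd (nat_lit 234) (nat_lit 1824) (nat_lit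 0) (XT.nd (nat_lit 78) (nat_lit 912) (nat_lit 0) (XT.lf (nat_lit 0) (nat_lit 2995600328) (nat_lit 912) (nat_lit 755787858) (nat_lit 988) (nat_lit 5904712886) (nat_lit 405) (nat_lit 5) (nat_lit 417) (nat_lit 5) (nat_lit 418) (nat_lit 5) (nat_lit 436) (nat_lit 403) (nat_lit 301)) (XT.nd (nat_lit 78) (nat_lit 912) (nat_lit 0) (XT.lf (nat_lit 0) (nat_lit 5543676177) (nat_lit 988) (nat_lit 1192746463) (nat_lit 76) (nat_lit 3011650625) (nat_lit 405) (nat_lit 5) (nat_lit 418) (nat_lit 5) (nat_lit 406) (nat_lit 5) (nat_lit 437) (nat_lit 403) (nat_lit 300)) (XT.lf (nat_lit 0) (nat_lit 4416220390) (nat_lit 912) (nat_lit 2967081042) (nat_lit 988) (nat_lit 2458358473) (nat_lit 393) (nat_lit 5) (nat_lit 405) (nat_lit 5) (nat_lit 406) (nat_lit 5) (nat_lit 438) (nat_lit 403) (nat_lit 299)))) (XT.nd (nat_lit 78) (nat_lit 912) (nat_lit 0) (XT.lf (nat_lit 0) (nat_lit 191975824) (nat_lit 912) (nat_lit 9060863805) (nat_lit 988) (nat_lit 684420983)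 (nat_lit 381) (nat_lit 5) (nat_lit 393) (nat_lit 5) (nat_lit 394) (nat_lit 5) (nat_lit 439) (nat_lit 403) (nat_lit 298)) (XT.nd (nat_lit 78) (nat_lit 836) (nat_lit 0) (XT.lf (nat_lit 0) (nat_lit 1144801379) (nat_lit 988) (nat_lit 4087477250) (nat_lit 76) (nat_lit 4801661961) (nat_lit 380) (nat_lit 5) (nat_lit 393) (nat_lit 5) (nat_lit 381) (nat_lit 5) (nat_lit 440) (nat_lit 403) (nat_lit 297)) (XT.lf (nat_lit 0) (nat_lit 1679887908) (nat_lit 836) (nat_lit 1311160054) (nat_lit 912) (nat_lit 7141628109) (nat_lit 369) (nat_lit 5) (nat_lit 380) (nat_lit 5) (nat_lit 381) (nat_lit 5) (nat_lit 441) (nat_lit 403) (nat_lit 296))))) (XT.nd (nat_lit 234) (nat_lit 1596) (nat_lit 0) (XT.nd (nat_lit 78) (nat_lit 836) (nat_lit 0) (XT.lf (nat_lit 0) (nat_lit 4898255903) (nat_lit 912) (nat_lit 2653851478) (nat_lit 76) (nat_lit 2680802528) (nat_lit 369) (nat_lit 5) (nat_lit 381) (nat_lit 5) (nat_lit 370) (nat_lit 5) (nat_lit 442) (nat_lit 403)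 (nat_lit 295)) (XT.nd (nat_lit 78) (nat_lit 0) (nat_lit 0) (XT.lf (nat_lit 0) (nat_lit 3274359278) (nat_lit 836) (nat_lit 3578574454) (nat_lit 912) (nat_lit 3482032472) (nat_lit 358) (nat_lit 5) (nat_lit 369) (nat_lit 5) (nat_lit 370) (nat_lit 5) (nat_lit 443) (nat_lit 403) (nat_lit 294)) (XT.lf (nat_lit 0) (nat_lit 8847361254) (nat_lit 912) (nat_lit 1106033204) (nat_lit 76) (nat_lit 485660253) (nat_lit 358) (nat_lit 5) (nat_lit 370) (nat_lit 5) (nat_lit 359) (nat_lit 5) (nat_lit 444) (nat_lit 403) (nat_lit 293)))) (XT.nd (nat_lit 78) (nat_lit 760) (nat_lit 0) (XT.lf (nat_lit 0) (nat_lit 368411205) (nat_lit 836) (nat_lit 5558390763) (nat_lit 76) (nat_lit 4617655945) (nat_lit 347) (nat_lit 5) (nat_lit 358) (nat_lit 5) (nat_lit 348) (nat_lit 5) (nat_lit 445) (nat_lit 403) (nat_lit 292)) (XT.nd (nat_lit 78) (nat_lit 0) (nat_lit 0) (XT.lf (nat_lit 0) (nat_lit 538706862) (nat_lit 760) (nat_lit 1798857800) (nat_lit 836) (nat_lit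 8314374872) (nat_lit 337) (nat_lit 5) (nat_lit 347) (nat_lit 5) (nat_lit 348) (nat_lit 5) (nat_lit 446) (nat_lit 403) (nat_lit 291)) (XT.lf (nat_lit 0) (nat_lit 4379722289) (nat_lit 836) (nat_lit 3964837022) (nat_lit 76) (nat_lit 2416342943) (nat_lit 337) (nat_lit 5) (nat_lit 348) (nat_lit 5) (nat_lit 338) (nat_lit 5) (nat_lit 447) (nat_lit 403) (nat_lit 290)))))) (XT.nd (nat_lit 468) (nat_lit 2052) (nat_lit 0) (XT.nd (nat_lit 234) (nat_lit 1444) (nat_lit 0) (XT.nd (nat_lit 78) (nat_lit 760) (nat_lit 0) (XT.lf (nat_lit 0) (nat_lit 2304048149) (nat_lit 760) (nat_lit 4166347640) (nat_lit 836) (nat_lit 4401498796) (nat_lit 327) (nat_lit 5) (nat_lit 337) (nat_lit 5) (nat_lit 338) (nat_lit 5) (nat_lit 448) (nat_lit 403) (nat_lit 289)) (XT.nd (nat_lit 78) (nat_lit 760) (nat_lit 0) (XT.lf (nat_lit 0) (nat_lit 8611316476) (nat_lit 836) (nat_lit 2254333601) (nat_lit 76) (nat_lit 119291749) (nat_lit 327) (nat_lit 5) (nat_lit 338) (nat_lit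 5) (nat_lit 328) (nat_lit 5) (nat_lit 449) (nat_lit 403) (nat_lit 288)) (XT.lf (nat_lit 0) (nat_lit 4192233195) (nat_lit 760) (nat_lit 6639036561) (nat_lit 836) (nat_lit 268259636) (nat_lit 317) (nat_lit 5) (nat_lit 327) (nat_lit 5) (nat_lit 328) (nat_lit 5) (nat_lit 450) (nat_lit 403) (nat_lit 287)))) (XT.nd (nat_lit 78) (nat_lit 1368) (nat_lit 0) (XT.lf (nat_lit 0) (nat_lit 1851305393) (nat_lit 836) (nat_lit 450838177) (nat_lit 76) (nat_lit 8914089874) (nat_lit 316) (nat_lit 5) (nat_lit 327) (nat_lit 5) (nat_lit 317) (nat_lit 5) (nat_lit 451) (nat_lit 403) (nat_lit 286)) (XT.nd (nat_lit 78) (nat_lit 684) (nat_lit 0) (XT.lf (nat_lit 0) (nat_lit 4045798754) (nat_lit 760) (nat_lit 5154943152) (nat_lit 76) (nat_lit 2133775079) (nat_lit 307) (nat_lit 5) (nat_lit 317) (nat_lit 5) (nat_lit 308) (nat_lit 5) (nat_lit 452) (nat_lit 403) (nat_lit 285)) (XT.lf (nat_lit 0) (nat_lit 1477180204) (nat_lit 684) (nat_lit 4816966434) (nat_lit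 760) (nat_lit 5160823652) (nat_lit 298) (nat_lit 5) (nat_lit 307) (nat_lit 5) (nat_lit 308) (nat_lit 5) (nat_lit 453) (nat_lit 403) (nat_lit 284))))) (XT.nd (nat_lit 234) (nat_lit 1292) (nat_lit 0) (XT.nd (nat_lit 78) (nat_lit 760) (nat_lit 0) (XT.lf (nat_lit 0) (nat_lit 8291430799) (nat_lit 684) (nat_lit 312924431) (nat_lit 760) (nat_lit 2973142873) (nat_lit 298) (nat_lit 5) (nat_lit 307) (nat_lit 5) (nat_lit 308) (nat_lit 5) (nat_lit 454) (nat_lit 403) (nat_lit 283)) (XT.nd (nat_lit 78) (nat_lit 76) (nat_lit 0) (XT.lf (nat_lit 0) (nat_lit 3537766859) (nat_lit 684) (nat_lit 7456398303) (nat_lit 760) (nat_lit 707646622) (nat_lit 289) (nat_lit 5) (nat_lit 298) (nat_lit 5) (nat_lit 299) (nat_lit 5) (nat_lit 455) (nat_lit 403) (nat_lit 282)) (XT.lf (nat_lit 0) (nat_lit 1589127390) (nat_lit 760) (nat_lit 1318600796) (nat_lit 76) (nat_lit 8920538631) (nat_lit 288) (nat_lit 5) (nat_lit 298) (nat_lit 5) (nat_lit 289) (nat_lit 5) (nat_lit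 456) (nat_lit 403) (nat_lit 281)))) (XT.nd (nat_lit 78) (nat_lit 608) (nat_lit 0) (XT.lf (nat_lit 0) (nat_lit 3954033429) (nat_lit 760) (nat_lit 6254276438) (nat_lit 76) (nat_lit 1748217161) (nat_lit 279) (nat_lit 5) (nat_lit 289) (nat_lit 5) (nat_lit 280) (nat_lit 5) (nat_lit 457) (nat_lit 403) (nat_lit 280)) (XT.nd (nat_lit 78) (nat_lit 0) (nat_lit 0) (XT.lf (nat_lit 0) (nat_lit 764722786) (nat_lit 608) (nat_lit 5617888610) (nat_lit 684) (nat_lit 5704416577) (nat_lit 271) (nat_lit 5) (nat_lit 279) (nat_lit 5) (nat_lit 280) (nat_lit 5) (nat_lit 458) (nat_lit 403) (nat_lit 279)) (XT.lf (nat_lit 0) (nat_lit 7988804190) (nat_lit 608) (nat_lit 896369536) (nat_lit 684) (nat_lit 3334459901) (nat_lit 271) (nat_lit 5) (nat_lit 279) (nat_lit 5) (nat_lit 280) (nat_lit 5) (nat_lit 459) (nat_lit 403) (nat_lit 278))))))))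
noncomputable def xc146 : XT := (XT.nd (nat_lit 1794) (nat_lit 5016) (nat_lit 0) (XT.nd (nat_lit 858) (nat_lit 3420) (nat_lit 0) (XT.nd (nat_lit 390) (nat_lit 2280) (nat_lit 0) (XT.nd (nat_lit 156) (nat_lit 1216) (nat_lit 0) (XT.nd (nat_lit 78) (nat_lit 76) (nat_lit 0) (XT.lf (nat_lit 0) (nat_lit 2996337169) (nat_lit 608) (nat_lit 8470098409) (nat_lit 684) (nat_lit 887885740) (nat_lit 263) (nat_lit 5) (nat_lit 271) (nat_lit 5) (nat_lit 272) (nat_lit 5) (nat_lit 460) (nat_lit 403) (nat_lit 277)) (XT.lf (nat_lit 0) (nat_lit 1604877181) (nat_lit 684) (nat_lit 2102373671) (nat_lit 76) (nat_lit 8783879102) (nat_lit 262) (nat_lit 5) (nat_lit 271) (nat_lit 5) (nat_lit 263) (nat_lit 5) (nat_lit 461) (nat_lit 403) (nat_lit 276))) (XT.nd (nat_lit 78) (nat_lit 608) (nat_lit 0) (XT.lf (nat_lit 0) (nat_lit 4162166336) (nat_lit 684) (nat_lit 7295037880) (nat_lit 76) (nat_lit 1172824695) (nat_lit 254) (nat_lit 5) (nat_lit 263) (nat_lit 5)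 (nat_lit 255) (nat_lit 5) (nat_lit 462) (nat_lit 403) (nat_lit 275)) (XT.nd (nat_lit 78) (nat_lit 0) (nat_lit 0) (XT.lf (nat_lit 0) (nat_lit 135467761) (nat_lit 608) (nat_lit 6659067954) (nat_lit 684) (nat_lit 5976694113) (nat_lit 246) (nat_lit 5) (nat_lit 254) (nat_lit 5) (nat_lit 255) (nat_lit 5) (nat_lit 463) (nat_lit 403) (nat_lit 274)) (XT.lf (nat_lit 0) (nat_lit 7793758481) (nat_lit 608) (nat_lit 1719229469) (nat_lit 684) (nat_lit 3401600721) (nat_lit 246) (nat_lit 5) (nat_lit 254) (nat_lit 5) (nat_lit 255) (nat_lit 5) (nat_lit 464) (nat_lit 403) (nat_lit 273))))) (XT.nd (nat_lit 234) (nat_lit 1064) (nat_lit 0) (XT.nd (nat_lit 78) (nat_lit 684) (nat_lit 0) (XT.lf (nat_lit 0) (nat_lit 2536510481) (nat_lit 532) (nat_lit 9772078751) (nat_lit 608) (nat_lit 751772423) (nat_lit 239) (nat_lit 5) (nat_lit 246) (nat_lit 5) (nat_lit 247) (nat_lit 5) (nat_lit 465) (nat_lit 403) (nat_lit 272)) (XT.nd (nat_lit 78) (nat_lit 608) (nat_lit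 0) (XT.lf (nat_lit 0) (nat_lit 1956270321) (nat_lit 608) (nat_lit 2835911330) (nat_lit 76) (nat_lit 8416001438) (nat_lit 238) (nat_lit 5) (nat_lit 246) (nat_lit 5) (nat_lit 239) (nat_lit 5) (nat_lit 466) (nat_lit 403) (nat_lit 271)) (XT.lf (nat_lit 0) (nat_lit 4728404036) (nat_lit 684) (nat_lit 8312876197) (nat_lit 76) (nat_lit 317183825) (nat_lit 230) (nat_lit 5) (nat_lit 239) (nat_lit 5) (nat_lit 231) (nat_lit 5) (nat_lit 467) (nat_lit 403) (nat_lit 270)))) (XT.nd (nat_lit 78) (nat_lit 1064) (nat_lit 0) (XT.lf (nat_lit 0) (nat_lit 7592138508) (nat_lit 684) (nat_lit 439508453) (nat_lit 76) (nat_lit 5479382892) (nat_lit 230) (nat_lit 5) (nat_lit 239) (nat_lit 5) (nat_lit 231) (nat_lit 5) (nat_lit 468) (nat_lit 403) (nat_lit 269)) (XT.nd (nat_lit 78) (nat_lit 532) (nat_lit 0) (XT.lf (nat_lit 0) (nat_lit 7672904595) (nat_lit 532) (nat_lit 2875614870) (nat_lit 608) (nat_lit 3117422388) (nat_lit 223) (nat_lit 5) (nat_lit 230) (nat_lit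 5) (nat_lit 231) (nat_lit 5) (nat_lit 469) (nat_lit 403) (nat_lit 268)) (XT.lf (nat_lit 0) (nat_lit 2122790120) (nat_lit 532) (nat_lit 11459149280) (nat_lit 608) (nat_lit 241656744) (nat_lit 216) (nat_lit 5) (nat_lit 223) (nat_lit 5) (nat_lit 224) (nat_lit 5) (nat_lit 470) (nat_lit 403) (nat_lit 267)))))) (XT.nd (nat_lit 468) (nat_lit 1824) (nat_lit 0) (XT.nd (nat_lit 234) (nat_lit 1064) (nat_lit 0) (XT.nd (nat_lit 78) (nat_lit 456) (nat_lit 0) (XT.lf (nat_lit 0) (nat_lit 2701595052) (nat_lit 608) (nat_lit 3557465363) (nat_lit 76) (nat_lit 7724090339) (nat_lit 215) (nat_lit 5) (nat_lit 223) (nat_lit 5) (nat_lit 216) (nat_lit 5) (nat_lit 471) (nat_lit 403) (nat_lit 266)) (XT.nd (nat_lit 78) (nat_lit 0) (nat_lit 0) (XT.lf (nat_lit 0) (nat_lit 4791103939) (nat_lit 456) (nat_lit 926507114) (nat_lit 532) (nat_lit 8427912904) (nat_lit 209) (nat_lit 5) (nat_lit 215) (nat_lit 5) (nat_lit 216) (nat_lit 5) (nat_lit 472) (nat_lit 403)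 (nat_lit 265)) (XT.lf (nat_lit 0) (nat_lit 8833422557) (nat_lit 532) (nat_lit 1004254073) (nat_lit 76) (nat_lit 4472680594) (nat_lit 209) (nat_lit 5) (nat_lit 216) (nat_lit 5) (nat_lit 210) (nat_lit 5) (nat_lit 473) (nat_lit 403) (nat_lit 264)))) (XT.nd (nat_lit 78) (nat_lit 532) (nat_lit 0) (XT.lf (nat_lit 0) (nat_lit 7587669119) (nat_lit 532) (nat_lit 4465698022) (nat_lit 608) (nat_lit 2424285742) (nat_lit 202) (nat_lit 5) (nat_lit 209) (nat_lit 5) (nat_lit 210) (nat_lit 5) (nat_lit 474) (nat_lit 403) (nat_lit 263)) (XT.nd (nat_lit 78) (nat_lit 0) (nat_lit 0) (XT.lf (nat_lit 0) (nat_lit 691469405) (nat_lit 532) (nat_lit 12938627355) (nat_lit 76) (nat_lit 1017888254) (nat_lit 195) (nat_lit 5) (nat_lit 202) (nat_lit 5) (nat_lit 196) (nat_lit 5) (nat_lit 475) (nat_lit 403) (nat_lit 262)) (XT.lf (nat_lit 0) (nat_lit 3899807811) (nat_lit 532) (nat_lit 4311449072) (nat_lit 76) (nat_lit 6608893771) (nat_lit 195) (nat_lit 5) (nat_lit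 202) (nat_lit 5) (nat_lit 196) (nat_lit 5) (nat_lit 476) (nat_lit 403) (nat_lit 261))))) (XT.nd (nat_lit 234) (nat_lit 912) (nat_lit 0) (XT.nd (nat_lit 78) (nat_lit 456) (nat_lit 0) (XT.lf (nat_lit 0) (nat_lit 4529246994) (nat_lit 456) (nat_lit 2659319166) (nat_lit 532) (nat_lit 7806870290) (nat_lit 189) (nat_lit 5) (nat_lit 195) (nat_lit 5) (nat_lit 196) (nat_lit 5) (nat_lit 477) (nat_lit 403) (nat_lit 260)) (XT.nd (nat_lit 78) (nat_lit 456) (nat_lit 0) (XT.lf (nat_lit 0) (nat_lit 10578676110) (nat_lit 532) (nat_lit 1606677088) (nat_lit 76) (nat_lit 2988165104) (nat_lit 189) (nat_lit 5) (nat_lit 196) (nat_lit 5) (nat_lit 190) (nat_lit 5) (nat_lit 478) (nat_lit 403) (nat_lit 259)) (XT.lf (nat_lit 0) (nat_lit 7492508921) (nat_lit 456) (nat_lit 6597543923) (nat_lit 532) (nat_lit 1264041487) (nat_lit 183) (nat_lit 5) (nat_lit 189) (nat_lit 5) (nat_lit 190) (nat_lit 5) (nat_lit 479) (nat_lit 403) (nat_lit 258)))) (XT.nd (nat_lit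 78) (nat_lit 380) (nat_lit 0) (XT.lf (nat_lit 0) (nat_lit 1241529109) (nat_lit 456) (nat_lit 870035301) (nat_lit 532) (nat_lit 13426318829) (nat_lit 176) (nat_lit 5) (nat_lit 182) (nat_lit 5) (nat_lit 183) (nat_lit 5) (nat_lit 480) (nat_lit 403) (nat_lit 257)) (XT.nd (nat_lit 78) (nat_lit 380) (nat_lit 0) (XT.lf (nat_lit 0) (nat_lit 5610510782) (nat_lit 532) (nat_lit 5150344092) (nat_lit 76) (nat_lit 4962872595) (nat_lit 176) (nat_lit 5) (nat_lit 183) (nat_lit 5) (nat_lit 177) (nat_lit 5) (nat_lit 481) (nat_lit 403) (nat_lit 256)) (XT.lf (nat_lit 0) (nat_lit 4210078628) (nat_lit 380) (nat_lit 4990053532) (nat_lit 456) (nat_lit 6712744196) (nat_lit 171) (nat_lit 5) (nat_lit 176) (nat_lit 5) (nat_lit 177) (nat_lit 5) (nat_lit 482) (nat_lit 403) (nat_lit 255))))))) (XT.nd (nat_lit 858) (nat_lit 2432) (nat_lit 0) (XT.nd (nat_lit 390) (nat_lit 1292) (nat_lit 0) (XT.nd (nat_lit 156) (nat_lit 760) (nat_lit 0) (XT.nd (nat_lit 78) (nat_lit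 532) (nat_lit 0) (XT.lf (nat_lit 0) (nat_lit 12889845617) (nat_lit 456) (nat_lit 2301694711) (nat_lit 76) (nat_lit 913703557) (nat_lit 171) (nat_lit 5) (nat_lit 177) (nat_lit 5) (nat_lit 172) (nat_lit 5) (nat_lit 483) (nat_lit 403) (nat_lit 254)) (XT.lf (nat_lit 0) (nat_lit 416320627) (nat_lit 532) (nat_lit 8969972619) (nat_lit 76) (nat_lit 6913740596) (nat_lit 164) (nat_lit 5) (nat_lit 171) (nat_lit 5) (nat_lit 165) (nat_lit 5) (nat_lit 484) (nat_lit 403) (nat_lit 253))) (XT.nd (nat_lit 78) (nat_lit 380) (nat_lit 0) (XT.lf (nat_lit 0) (nat_lit 656712913) (nat_lit 380) (nat_lit 3428732629) (nat_lit 456) (nat_lit 12412694026) (nat_lit 159) (nat_lit 5) (nat_lit 164) (nat_lit 5) (nat_lit 165) (nat_lit 5) (nat_lit 485) (nat_lit 403) (nat_lit 252)) (XT.nd (nat_lit 78) (nat_lit 380) (nat_lit 0) (XT.lf (nat_lit 0) (nat_lit 7893795341) (nat_lit 456) (nat_lit 6136903183) (nat_lit 76) (nat_lit 2668193572) (nat_lit 159) (nat_lit 5) (nat_lit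 165) (nat_lit 5) (nat_lit 160) (nat_lit 5) (nat_lit 486) (nat_lit 403) (nat_lit 251)) (XT.lf (nat_lit 0) (nat_lit 3770979559) (nat_lit 380) (nat_lit 8042815349) (nat_lit 456) (nat_lit 5089156612) (nat_lit 154) (nat_lit 5) (nat_lit 159) (nat_lit 5) (nat_lit 160) (nat_lit 5) (nat_lit 487) (nat_lit 403) (nat_lit 250))))) (XT.nd (nat_lit 234) (nat_lit 836) (nat_lit 0) (XT.nd (nat_lit 78) (nat_lit 456) (nat_lit 0) (XT.lf (nat_lit 0) (nat_lit 13942840867) (nat_lit 380) (nat_lit 1898944493) (nat_lit 456) (nat_lit 1268716428) (nat_lit 154) (nat_lit 5) (nat_lit 159) (nat_lit 5) (nat_lit 160) (nat_lit 5) (nat_lit 488) (nat_lit 403) (nat_lit 249)) (XT.nd (nat_lit 78) (nat_lit 0) (nat_lit 0) (XT.lf (nat_lit 0) (nat_lit 2656762113) (nat_lit 456) (nat_lit 10295703103) (nat_lit 76) (nat_lit 4368136031) (nat_lit 148) (nat_lit 5) (nat_lit 154) (nat_lit 5) (nat_lit 149) (nat_lit 5) (nat_lit 489) (nat_lit 403) (nat_lit 248)) (XT.lf (nat_lit 0)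 (nat_lit 6666387116) (nat_lit 456) (nat_lit 108606351) (nat_lit 76) (nat_lit 10759290393) (nat_lit 148) (nat_lit 5) (nat_lit 154) (nat_lit 5) (nat_lit 149) (nat_lit 5) (nat_lit 490) (nat_lit 403) (nat_lit 247)))) (XT.nd (nat_lit 78) (nat_lit 456) (nat_lit 0) (XT.lf (nat_lit 0) (nat_lit 10401734324) (nat_lit 380) (nat_lit 410863964) (nat_lit 456) (nat_lit 6938515324) (nat_lit 143) (nat_lit 5) (nat_lit 148) (nat_lit 5) (nat_lit 149) (nat_lit 5) (nat_lit 491) (nat_lit 403) (nat_lit 246)) (XT.nd (nat_lit 78) (nat_lit 76) (nat_lit 0) (XT.lf (nat_lit 0) (nat_lit 3136144135) (nat_lit 380) (nat_lit 11955094607) (nat_lit 456) (nat_lit 2880052451) (nat_lit 138) (nat_lit 5) (nat_lit 143) (nat_lit 5) (nat_lit 144) (nat_lit 5) (nat_lit 492) (nat_lit 403) (nat_lit 245)) (XT.lf (nat_lit 0) (nat_lit 1284389943) (nat_lit 456) (nat_lit 4292138707) (nat_lit 76) (nat_lit 12618354800) (nat_lit 137) (nat_lit 5) (nat_lit 143) (nat_lit 5) (nat_lit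 138) (nat_lit 5) (nat_lit 493) (nat_lit 403) (nat_lit 244)))))) (XT.nd (nat_lit 468) (nat_lit 988) (nat_lit 0) (XT.nd (nat_lit 234) (nat_lit 760) (nat_lit 0) (XT.nd (nat_lit 78) (nat_lit 304) (nat_lit 0) (XT.lf (nat_lit 0) (nat_lit 5531453683) (nat_lit 456) (nat_lit 11916981791) (nat_lit 76) (nat_lit 973374665) (nat_lit 132) (nat_lit 5) (nat_lit 138) (nat_lit 5) (nat_lit 133) (nat_lit 5) (nat_lit 494) (nat_lit 403) (nat_lit 243)) (XT.nd (nat_lit 78) (nat_lit 304) (nat_lit 0) (XT.lf (nat_lit 0) (nat_lit 9918629471) (nat_lit 456) (nat_lit 1130666564) (nat_lit 76) (nat_lit 7602877144) (nat_lit 132) (nat_lit 5) (nat_lit 138) (nat_lit 5) (nat_lit 133) (nat_lit 5) (nat_lit 495) (nat_lit 403) (nat_lit 242)) (XT.lf (nat_lit 0) (nat_lit 9985908950) (nat_lit 304) (nat_lit 4461932679) (nat_lit 380) (nat_lit 4438217202) (nat_lit 128) (nat_lit 5) (nat_lit 132) (nat_lit 5) (nat_lit 133) (nat_lit 5) (nat_lit 496) (nat_lit 403) (nat_lit 241))))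 (XT.nd (nat_lit 78) (nat_lit 380) (nat_lit 0) (XT.lf (nat_lit 0) (nat_lit 2213500405) (nat_lit 380) (nat_lit 16880322083) (nat_lit 456) (nat_lit 30277204) (nat_lit 123) (nat_lit 5) (nat_lit 128) (nat_lit 5) (nat_lit 129) (nat_lit 5) (nat_lit 497) (nat_lit 403) (nat_lit 240)) (XT.nd (nat_lit 78) (nat_lit 304) (nat_lit 0) (XT.lf (nat_lit 0) (nat_lit 4486470401) (nat_lit 456) (nat_lit 5771107338) (nat_lit 76) (nat_lit 9107160492) (nat_lit 122) (nat_lit 5) (nat_lit 128) (nat_lit 5) (nat_lit 123) (nat_lit 5) (nat_lit 498) (nat_lit 403) (nat_lit 239)) (XT.lf (nat_lit 0) (nat_lit 5648855573) (nat_lit 304) (nat_lit 3470722807) (nat_lit 380) (nat_lit 10490079659) (nat_lit 118) (nat_lit 5) (nat_lit 122) (nat_lit 5) (nat_lit 123) (nat_lit 5) (nat_lit 499) (nat_lit 403) (nat_lit 238))))) (XT.nd (nat_lit 234) (nat_lit 304) (nat_lit 0) (XT.nd (nat_lit 78) (nat_lit 684) (nat_lit 0) (XT.lf (nat_lit 0) (nat_lit 13896556076) (nat_lit 380) (nat_lit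 2522186351) (nat_lit 76) (nat_lit 3439710758) (nat_lit 118) (nat_lit 5) (nat_lit 123) (nat_lit 5) (nat_lit 119) (nat_lit 5) (nat_lit 500) (nat_lit 403) (nat_lit 237)) (XT.nd (nat_lit 78) (nat_lit 380) (nat_lit 0) (XT.lf (nat_lit 0) (nat_lit 9227290648) (nat_lit 304) (nat_lit 9614689147) (nat_lit 380) (nat_lit 1268787384) (nat_lit 114) (nat_lit 5) (nat_lit 118) (nat_lit 5) (nat_lit 119) (nat_lit 5) (nat_lit 501) (nat_lit 403) (nat_lit 236)) (XT.lf (nat_lit 0) (nat_lit 850382970) (nat_lit 304) (nat_lit 2634256772) (nat_lit 380) (nat_lit 16882779957) (nat_lit 109) (nat_lit 5) (nat_lit 113) (nat_lit 5) (nat_lit 114) (nat_lit 5) (nat_lit 502) (nat_lit 403) (nat_lit 235)))) (XT.nd (nat_lit 78) (nat_lit 304) (nat_lit 0) (XT.lf (nat_lit 0) (nat_lit 8408896099) (nat_lit 380) (nat_lit 7715334453) (nat_lit 76) (nat_lit 4502953001) (nat_lit 109) (nat_lit 5) (nat_lit 114) (nat_lit 5) (nat_lit 110) (nat_lit 5) (nat_lit 503) (nat_lit 403)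 (nat_lit 234)) (XT.nd (nat_lit 78) (nat_lit 0) (nat_lit 0) (XT.lf (nat_lit 0) (nat_lit 4346245515) (nat_lit 304) (nat_lit 9121342122) (nat_lit 380) (nat_lit 7423837038) (nat_lit 105) (nat_lit 5) (nat_lit 109) (nat_lit 5) (nat_lit 110) (nat_lit 5) (nat_lit 504) (nat_lit 403) (nat_lit 233)) (XT.lf (nat_lit 0) (nat_lit 16738031111) (nat_lit 304) (nat_lit 1931570915) (nat_lit 380) (nat_lit 2490506585) (nat_lit 105) (nat_lit 5) (nat_lit 109) (nat_lit 5) (nat_lit 110) (nat_lit 5) (nat_lit 505) (nat_lit 403) (nat_lit 232))))))))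
noncomputable def xc147 : XT := (XT.nd (nat_lit 52806) (nat_lit 0) (nat_lit 19760) (XT.nd (nat_lit 51870) (nat_lit 0) (nat_lit 34352) (XT.nd (nat_lit 51402) (nat_lit 0) (nat_lit 36860) (XT.nd (nat_lit 156) (nat_lit 912) (nat_lit 0) (XT.nd (nat_lit 78) (nat_lit 0) (nat_lit 0) (XT.lf (nat_lit 0) (nat_lit 2586197240) (nat_lit 380) (nat_lit 13451779878) (nat_lit 76) (nat_lit 5394299244) (nat_lit 100) (nat_lit 5) (nat_lit 105) (nat_lit 5) (nat_lit 101) (nat_lit 5) (nat_lit 506) (nat_lit 403) (nat_lit 231)) (XT.lf (nat_lit 0) (nat_lit 7764329966) (nat_lit 380) (nat_lit 1063191128) (nat_lit 76) (nat_lit 12881373190) (nat_lit 100) (nat_lit 5) (nat_lit 105) (nat_lit 5) (nat_lit 101) (nat_lit 5) (nat_lit 507) (nat_lit 403) (nat_lit 230))) (XT.nd (nat_lit 78) (nat_lit 608) (nat_lit 0) (XT.lf (nat_lit 0) (nat_lit 11711592843) (nat_lit 304) (nat_lit 1401205938) (nat_lit 380) (nat_lit 8876911213) (nat_lit 96) (nat_lit 5) (nat_lit 100) (nat_lit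 5) (nat_lit 101) (nat_lit 5) (nat_lit 508) (nat_lit 403) (nat_lit 229)) (XT.nd (nat_lit 156) (nat_lit 380) (nat_lit 0) (XT.lf (nat_lit 0) (nat_lit 2457157872) (nat_lit 228) (nat_lit 16165077296) (nat_lit 304) (nat_lit 3652827768) (nat_lit 93) (nat_lit 5) (nat_lit 96) (nat_lit 5) (nat_lit 97) (nat_lit 5) (nat_lit 509) (nat_lit 403) (nat_lit 228)) (XT.lf (nat_lit 0) (nat_lit 6086377960) (nat_lit 304) (nat_lit 1102140804) (nat_lit 380) (nat_lit 15670146433) (nat_lit 88) (nat_lit 5) (nat_lit 92) (nat_lit 5) (nat_lit 93) (nat_lit 5) (nat_lit 511) (nat_lit 403) (nat_lit 226))))) (XT.nd (nat_lit 234) (nat_lit 0) (nat_lit 76) (XT.nd (nat_lit 78) (nat_lit 1292) (nat_lit 0) (XT.lf (nat_lit 0) (nat_lit 2869070518) (nat_lit 1292) (nat_lit 451369539) (nat_lit 1292) (nat_lit 451369539) (nat_lit 590) (nat_lit 3) (nat_lit 607) (nat_lit 3) (nat_lit 607) (nat_lit 5) (nat_lit 404) (nat_lit 404) (nat_lit 332)) (XT.nd (nat_lit 78) (nat_lit 1292)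 (nat_lit 0) (XT.lf (nat_lit 76) (nat_lit 2814648678) (nat_lit 0) (nat_lit 4406568473) (nat_lit 1292) (nat_lit 368940858) (nat_lit 591) (nat_lit 5) (nat_lit 590) (nat_lit 3) (nat_lit 607) (nat_lit 5) (nat_lit 405) (nat_lit 404) (nat_lit 331)) (XT.lf (nat_lit 0) (nat_lit 1050750363) (nat_lit 1292) (nat_lit 1045632146) (nat_lit 1368) (nat_lit 5541736558) (nat_lit 573) (nat_lit 5) (nat_lit 590) (nat_lit 3) (nat_lit 591) (nat_lit 5) (nat_lit 406) (nat_lit 404) (nat_lit 330)))) (XT.nd (nat_lit 78) (nat_lit 0) (nat_lit 0) (XT.lf (nat_lit 0) (nat_lit 2477279093) (nat_lit 1292) (nat_lit 4915736906) (nat_lit 1368) (nat_lit 294316564) (nat_lit 574) (nat_lit 5) (nat_lit 591) (nat_lit 5) (nat_lit 592) (nat_lit 5) (nat_lit 407) (nat_lit 404) (nat_lit 329)) (XT.nd (nat_lit 78) (nat_lit 0) (nat_lit 0) (XT.lf (nat_lit 0) (nat_lit 3917422746) (nat_lit 1292) (nat_lit 1091894679) (nat_lit 1368) (nat_lit 2728520698) (nat_lit 574) (nat_lit 5) (nat_lit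 591) (nat_lit 5) (nat_lit 592) (nat_lit 5) (nat_lit 408) (nat_lit 404) (nat_lit 328)) (XT.lf (nat_lit 76) (nat_lit 2825961182) (nat_lit 0) (nat_lit 2543597093) (nat_lit 1368) (nat_lit 2420141031) (nat_lit 575) (nat_lit 5) (nat_lit 574) (nat_lit 5) (nat_lit 592) (nat_lit 5) (nat_lit 409) (nat_lit 404) (nat_lit 327)))))) (XT.nd (nat_lit 468) (nat_lit 1292) (nat_lit 0) (XT.nd (nat_lit 234) (nat_lit 0) (nat_lit 76) (XT.nd (nat_lit 78) (nat_lit 1292) (nat_lit 0) (XT.lf (nat_lit 76) (nat_lit 6817577344) (nat_lit 0) (nat_lit 5890798) (nat_lit 1368) (nat_lit 1019684049) (nat_lit 575) (nat_lit 5) (nat_lit 574) (nat_lit 5) (nat_lit 592) (nat_lit 5) (nat_lit 410) (nat_lit 404) (nat_lit 326)) (XT.nd (nat_lit 78) (nat_lit 0) (nat_lit 0) (XT.lf (nat_lit 0) (nat_lit 405814449) (nat_lit 1368) (nat_lit 4906255126) (nat_lit 1444) (nat_lit 2585512360) (nat_lit 557) (nat_lit 5) (nat_lit 575) (nat_lit 5) (nat_lit 576) (nat_lit 5) (nat_lit 411)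 (nat_lit 404) (nat_lit 325)) (XT.lf (nat_lit 0) (nat_lit 1819634725) (nat_lit 1368) (nat_lit 877456762) (nat_lit 1444) (nat_lit 5256413264) (nat_lit 557) (nat_lit 5) (nat_lit 575) (nat_lit 5) (nat_lit 576) (nat_lit 5) (nat_lit 412) (nat_lit 404) (nat_lit 324)))) (XT.nd (nat_lit 78) (nat_lit 0) (nat_lit 0) (XT.lf (nat_lit 0) (nat_lit 3250038841) (nat_lit 1368) (nat_lit 4755945180) (nat_lit 1444) (nat_lit 4804270) (nat_lit 558) (nat_lit 5) (nat_lit 576) (nat_lit 5) (nat_lit 577) (nat_lit 5) (nat_lit 413) (nat_lit 404) (nat_lit 323)) (XT.nd (nat_lit 78) (nat_lit 0) (nat_lit 0) (XT.lf (nat_lit 0) (nat_lit 4700582489) (nat_lit 1368) (nat_lit 625655575) (nat_lit 1444) (nat_lit 2743157060) (nat_lit 558) (nat_lit 5) (nat_lit 576) (nat_lit 5) (nat_lit 577) (nat_lit 5) (nat_lit 414) (nat_lit 404) (nat_lit 322)) (XT.lf (nat_lit 76) (nat_lit 3614707703) (nat_lit 0) (nat_lit 2557273604) (nat_lit 1444) (nat_lit 1957363990) (nat_lit 559)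 (nat_lit 5) (nat_lit 558) (nat_lit 5) (nat_lit 577) (nat_lit 5) (nat_lit 415) (nat_lit 404) (nat_lit 321))))) (XT.nd (nat_lit 234) (nat_lit 0) (nat_lit 76) (XT.nd (nat_lit 78) (nat_lit 1444) (nat_lit 0) (XT.lf (nat_lit 0) (nat_lit 7647708615) (nat_lit 1368) (nat_lit 264325734) (nat_lit 1444) (nat_lit 278970047) (nat_lit 559) (nat_lit 5) (nat_lit 577) (nat_lit 5) (nat_lit 578) (nat_lit 5) (nat_lit 416) (nat_lit 404) (nat_lit 320)) (XT.nd (nat_lit 78) (nat_lit 0) (nat_lit 0) (XT.lf (nat_lit 0) (nat_lit 900365069) (nat_lit 1444) (nat_lit 4172012022) (nat_lit 1520) (nat_lit 3181148414) (nat_lit 540) (nat_lit 5) (nat_lit 559) (nat_lit 5) (nat_lit 560) (nat_lit 5) (nat_lit 417) (nat_lit 404) (nat_lit 319)) (XT.lf (nat_lit 76) (nat_lit 178941280) (nat_lit 0) (nat_lit 2159447765) (nat_lit 1520) (nat_lit 5979388348) (nat_lit 541) (nat_lit 5) (nat_lit 540) (nat_lit 5) (nat_lit 560) (nat_lit 5) (nat_lit 418) (nat_lit 404) (nat_lit 318))))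 (XT.nd (nat_lit 78) (nat_lit 0) (nat_lit 0) (XT.lf (nat_lit 0) (nat_lit 3808958165) (nat_lit 1444) (nat_lit 3735659859) (nat_lit 1520) (nat_lit 838627929) (nat_lit 541) (nat_lit 5) (nat_lit 560) (nat_lit 5) (nat_lit 561) (nat_lit 5) (nat_lit 419) (nat_lit 404) (nat_lit 317)) (XT.nd (nat_lit 78) (nat_lit 0) (nat_lit 0) (XT.lf (nat_lit 76) (nat_lit 730351678) (nat_lit 0) (nat_lit 4568544114) (nat_lit 1520) (nat_lit 3151336133) (nat_lit 542) (nat_lit 5) (nat_lit 541) (nat_lit 5) (nat_lit 561) (nat_lit 5) (nat_lit 420) (nat_lit 404) (nat_lit 316)) (XT.lf (nat_lit 76) (nat_lit 5315950250) (nat_lit 0) (nat_lit 1499102433) (nat_lit 1520) (nat_lit 1703583566) (nat_lit 542) (nat_lit 5) (nat_lit 541) (nat_lit 5) (nat_lit 561) (nat_lit 5) (nat_lit 421) (nat_lit 404) (nat_lit 315))))))) (XT.nd (nat_lit 936) (nat_lit 6764) (nat_lit 0) (XT.nd (nat_lit 468) (nat_lit 6460) (nat_lit 0) (XT.nd (nat_lit 234) (nat_lit 0) (nat_lit 76) (XT.nd (nat_lit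 78) (nat_lit 1520) (nat_lit 0) (XT.lf (nat_lit 76) (nat_lit 1391920230) (nat_lit 0) (nat_lit 6961210684) (nat_lit 1520) (nat_lit 235452686) (nat_lit 543) (nat_lit 5) (nat_lit 542) (nat_lit 5) (nat_lit 562) (nat_lit 5) (nat_lit 422) (nat_lit 404) (nat_lit 314)) (XT.nd (nat_lit 78) (nat_lit 0) (nat_lit 0) (XT.lf (nat_lit 0) (nat_lit 1249244736) (nat_lit 1520) (nat_lit 2576766005) (nat_lit 1596) (nat_lit 4833686797) (nat_lit 522) (nat_lit 5) (nat_lit 542) (nat_lit 5) (nat_lit 543) (nat_lit 5) (nat_lit 423) (nat_lit 404) (nat_lit 313)) (XT.lf (nat_lit 76) (nat_lit 2141632809) (nat_lit 0) (nat_lit 605497601) (nat_lit 1596) (nat_lit 5985345785) (nat_lit 523) (nat_lit 5) (nat_lit 522) (nat_lit 5) (nat_lit 543) (nat_lit 5) (nat_lit 424) (nat_lit 404) (nat_lit 312)))) (XT.nd (nat_lit 78) (nat_lit 0) (nat_lit 0) (XT.lf (nat_lit 0) (nat_lit 4282960969) (nat_lit 1520) (nat_lit 1855424289) (nat_lit 1596) (nat_lit 2668171802) (nat_lit 523)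 (nat_lit 5) (nat_lit 543) (nat_lit 5) (nat_lit 544) (nat_lit 5) (nat_lit 425) (nat_lit 404) (nat_lit 311)) (XT.nd (nat_lit 78) (nat_lit 0) (nat_lit 76) (XT.lf (nat_lit 76) (nat_lit 2989432659) (nat_lit 0) (nat_lit 2857205161) (nat_lit 1596) (nat_lit 3035545383) (nat_lit 524) (nat_lit 5) (nat_lit 523) (nat_lit 5) (nat_lit 544) (nat_lit 5) (nat_lit 426) (nat_lit 404) (nat_lit 310)) (XT.lf (nat_lit 0) (nat_lit 7431430372) (nat_lit 1520) (nat_lit 1026889940) (nat_lit 76) (nat_lit 501210844) (nat_lit 524) (nat_lit 5) (nat_lit 544) (nat_lit 5) (nat_lit 525) (nat_lit 5) (nat_lit 427) (nat_lit 404) (nat_lit 309))))) (XT.nd (nat_lit 234) (nat_lit 3420) (nat_lit 0) (XT.nd (nat_lit 78) (nat_lit 1596) (nat_lit 0) (XT.lf (nat_lit 0) (nat_lit 28685968) (nat_lit 1596) (nat_lit 5089567042) (nat_lit 76) (nat_lit 3919791364) (nat_lit 503) (nat_lit 5) (nat_lit 524) (nat_lit 5) (nat_lit 504) (nat_lit 5) (nat_lit 428) (nat_lit 404) (nat_lit 308))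 (XT.nd (nat_lit 78) (nat_lit 1596) (nat_lit 0) (XT.lf (nat_lit 0) (nat_lit 1577934039) (nat_lit 1596) (nat_lit 111573000) (nat_lit 76) (nat_lit 7428788843) (nat_lit 503) (nat_lit 5) (nat_lit 524) (nat_lit 5) (nat_lit 504) (nat_lit 5) (nat_lit 429) (nat_lit 404) (nat_lit 307)) (XT.lf (nat_lit 0) (nat_lit 3178010701) (nat_lit 1672) (nat_lit 4200559224) (nat_lit 76) (nat_lit 1821191285) (nat_lit 482) (nat_lit 5) (nat_lit 504) (nat_lit 5) (nat_lit 483) (nat_lit 5) (nat_lit 430) (nat_lit 404) (nat_lit 306)))) (XT.nd (nat_lit 78) (nat_lit 1748) (nat_lit 0) (XT.lf (nat_lit 0) (nat_lit 910948361) (nat_lit 1672) (nat_lit 3892702195) (nat_lit 1748) (nat_lit 4479339611) (nat_lit 460) (nat_lit 5) (nat_lit 482) (nat_lit 5) (nat_lit 483) (nat_lit 5) (nat_lit 431) (nat_lit 404) (nat_lit 305)) (XT.nd (nat_lit 78) (nat_lit 1748) (nat_lit 0) (XT.lf (nat_lit 0) (nat_lit 6161092621) (nat_lit 1672) (nat_lit 304946332) (nat_lit 1748) (nat_lit 2901765478)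 (nat_lit 460) (nat_lit 5) (nat_lit 482) (nat_lit 5) (nat_lit 483) (nat_lit 5) (nat_lit 432) (nat_lit 404) (nat_lit 304)) (XT.lf (nat_lit 0) (nat_lit 2046355743) (nat_lit 1748) (nat_lit 6126924929) (nat_lit 1824) (nat_lit 1280807536) (nat_lit 437) (nat_lit 5) (nat_lit 460) (nat_lit 5) (nat_lit 461) (nat_lit 5) (nat_lit 433) (nat_lit 404) (nat_lit 303)))))) (XT.nd (nat_lit 468) (nat_lit 3420) (nat_lit 0) (XT.nd (nat_lit 234) (nat_lit 1824) (nat_lit 0) (XT.nd (nat_lit 78) (nat_lit 1444) (nat_lit 0) (XT.lf (nat_lit 0) (nat_lit 368071791) (nat_lit 1824) (nat_lit 2119102074) (nat_lit 76) (nat_lit 7054872775) (nat_lit 436) (nat_lit 5) (nat_lit 460) (nat_lit 5) (nat_lit 437) (nat_lit 5) (nat_lit 434) (nat_lit 404) (nat_lit 302)) (XT.nd (nat_lit 78) (nat_lit 0) (nat_lit 0) (XT.lf (nat_lit 0) (nat_lit 2039486631) (nat_lit 1520) (nat_lit 6350234878) (nat_lit 76) (nat_lit 1241744280) (nat_lit 417) (nat_lit 5) (nat_lit 437) (nat_lit 5)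 (nat_lit 418) (nat_lit 5) (nat_lit 435) (nat_lit 404) (nat_lit 301)) (XT.lf (nat_lit 0) (nat_lit 3752610920) (nat_lit 1520) (nat_lit 941392960) (nat_lit 76) (nat_lit 5028508748) (nat_lit 417) (nat_lit 5) (nat_lit 437) (nat_lit 5) (nat_lit 418) (nat_lit 5) (nat_lit 436) (nat_lit 404) (nat_lit 300)))) (XT.nd (nat_lit 78) (nat_lit 912) (nat_lit 0) (XT.lf (nat_lit 0) (nat_lit 4615835797) (nat_lit 912) (nat_lit 892067571) (nat_lit 988) (nat_lit 4307323759) (nat_lit 405) (nat_lit 5) (nat_lit 417) (nat_lit 5) (nat_lit 418) (nat_lit 5) (nat_lit 437) (nat_lit 404) (nat_lit 299)) (XT.nd (nat_lit 78) (nat_lit 0) (nat_lit 0) (XT.lf (nat_lit 0) (nat_lit 351842600) (nat_lit 912) (nat_lit 6952737320) (nat_lit 988) (nat_lit 2605095168) (nat_lit 393) (nat_lit 5) (nat_lit 405) (nat_lit 5) (nat_lit 406) (nat_lit 5) (nat_lit 438) (nat_lit 404) (nat_lit 298)) (XT.lf (nat_lit 0) (nat_lit 6058085961) (nat_lit 912) (nat_lit 3098405203) (nat_lit 988)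 (nat_lit 849139469) (nat_lit 393) (nat_lit 5) (nat_lit 405) (nat_lit 5) (nat_lit 406) (nat_lit 5) (nat_lit 439) (nat_lit 404) (nat_lit 297))))) (XT.nd (nat_lit 234) (nat_lit 1596) (nat_lit 0) (XT.nd (nat_lit 78) (nat_lit 836) (nat_lit 0) (XT.lf (nat_lit 0) (nat_lit 925433454) (nat_lit 988) (nat_lit 8337434160) (nat_lit 76) (nat_lit 840602793) (nat_lit 380) (nat_lit 5) (nat_lit 393) (nat_lit 5) (nat_lit 381) (nat_lit 5) (nat_lit 440) (nat_lit 404) (nat_lit 296)) (XT.nd (nat_lit 78) (nat_lit 836) (nat_lit 0) (XT.lf (nat_lit 0) (nat_lit 2750429786) (nat_lit 988) (nat_lit 2602340780) (nat_lit 76) (nat_lit 4849862493) (nat_lit 380) (nat_lit 5) (nat_lit 393) (nat_lit 5) (nat_lit 381) (nat_lit 5) (nat_lit 441) (nat_lit 404) (nat_lit 295)) (XT.lf (nat_lit 0) (nat_lit 3270063220) (nat_lit 836) (nat_lit 1342610445) (nat_lit 912) (nat_lit 5691094640) (nat_lit 369) (nat_lit 5) (nat_lit 380) (nat_lit 5) (nat_lit 381) (nat_lit 5) (nat_lit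 442) (nat_lit 404) (nat_lit 294)))) (XT.nd (nat_lit 78) (nat_lit 1596) (nat_lit 0) (XT.lf (nat_lit 0) (nat_lit 6527368871) (nat_lit 912) (nat_lit 1149896372) (nat_lit 76) (nat_lit 2729361093) (nat_lit 369) (nat_lit 5) (nat_lit 381) (nat_lit 5) (nat_lit 370) (nat_lit 5) (nat_lit 443) (nat_lit 404) (nat_lit 293)) (XT.nd (nat_lit 78) (nat_lit 760) (nat_lit 0) (XT.lf (nat_lit 0) (nat_lit 4886634967) (nat_lit 836) (nat_lit 3614525559) (nat_lit 912) (nat_lit 2009969076) (nat_lit 358) (nat_lit 5) (nat_lit 369) (nat_lit 5) (nat_lit 370) (nat_lit 5) (nat_lit 444) (nat_lit 404) (nat_lit 292)) (XT.lf (nat_lit 0) (nat_lit 423571105) (nat_lit 760) (nat_lit 10085251586) (nat_lit 836) (nat_lit 109016394) (nat_lit 348) (nat_lit 5) (nat_lit 358) (nat_lit 5) (nat_lit 359) (nat_lit 5) (nat_lit 445) (nat_lit 404) (nat_lit 291))))))))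
noncomputable def xc148 : XT := (XT.nd (nat_lit 1794) (nat_lit 6612) (nat_lit 0) (XT.nd (nat_lit 858) (nat_lit 4408) (nat_lit 0) (XT.nd (nat_lit 390) (nat_lit 2964) (nat_lit 0) (XT.nd (nat_lit 156) (nat_lit 760) (nat_lit 0) (XT.nd (nat_lit 78) (nat_lit 760) (nat_lit 0) (XT.lf (nat_lit 0) (nat_lit 1848445181) (nat_lit 836) (nat_lit 4113695496) (nat_lit 76) (nat_lit 4763458543) (nat_lit 347) (nat_lit 5) (nat_lit 358) (nat_lit 5) (nat_lit 348) (nat_lit 5) (nat_lit 446) (nat_lit 404) (nat_lit 290)) (XT.lf (nat_lit 0) (nat_lit 2095108140) (nat_lit 760) (nat_lit 1743033005) (nat_lit 836) (nat_lit 6997471916) (nat_lit 337) (nat_lit 5) (nat_lit 347) (nat_lit 5) (nat_lit 348) (nat_lit 5) (nat_lit 447) (nat_lit 404) (nat_lit 289))) (XT.nd (nat_lit 78) (nat_lit 760) (nat_lit 0) (XT.lf (nat_lit 0) (nat_lit 5893219900) (nat_lit 836) (nat_lit 2500607914) (nat_lit 76) (nat_lit 2553491323) (nat_lit 337) (nat_lit 5) (nat_lit 348) (nat_lit 5)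 (nat_lit 338) (nat_lit 5) (nat_lit 448) (nat_lit 404) (nat_lit 288)) (XT.nd (nat_lit 78) (nat_lit 0) (nat_lit 0) (XT.lf (nat_lit 0) (nat_lit 3883500185) (nat_lit 760) (nat_lit 4124203461) (nat_lit 836) (nat_lit 3053193284) (nat_lit 327) (nat_lit 5) (nat_lit 337) (nat_lit 5) (nat_lit 338) (nat_lit 5) (nat_lit 449) (nat_lit 404) (nat_lit 287)) (XT.lf (nat_lit 0) (nat_lit 10164635534) (nat_lit 836) (nat_lit 769035981) (nat_lit 76) (nat_lit 243075187) (nat_lit 327) (nat_lit 5) (nat_lit 338) (nat_lit 5) (nat_lit 328) (nat_lit 5) (nat_lit 450) (nat_lit 404) (nat_lit 286))))) (XT.nd (nat_lit 234) (nat_lit 1444) (nat_lit 0) (XT.nd (nat_lit 78) (nat_lit 684) (nat_lit 0) (XT.lf (nat_lit 0) (nat_lit 1103142800) (nat_lit 836) (nat_lit 5504839227) (nat_lit 76) (nat_lit 4685848364) (nat_lit 316) (nat_lit 5) (nat_lit 327) (nat_lit 5) (nat_lit 317) (nat_lit 5) (nat_lit 451) (nat_lit 404) (nat_lit 285)) (XT.nd (nat_lit 78) (nat_lit 0) (nat_lit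 0) (XT.lf (nat_lit 0) (nat_lit 1062736310) (nat_lit 684) (nat_lit 2178749091) (nat_lit 760) (nat_lit 8171753223) (nat_lit 307) (nat_lit 5) (nat_lit 316) (nat_lit 5) (nat_lit 317) (nat_lit 5) (nat_lit 452) (nat_lit 404) (nat_lit 284)) (XT.lf (nat_lit 0) (nat_lit 5457400413) (nat_lit 760) (nat_lit 3733569130) (nat_lit 76) (nat_lit 2343372685) (nat_lit 307) (nat_lit 5) (nat_lit 317) (nat_lit 5) (nat_lit 308) (nat_lit 5) (nat_lit 453) (nat_lit 404) (nat_lit 283)))) (XT.nd (nat_lit 78) (nat_lit 760) (nat_lit 0) (XT.lf (nat_lit 0) (nat_lit 3021167267) (nat_lit 684) (nat_lit 4713288883) (nat_lit 760) (nat_lit 3923078560) (nat_lit 298) (nat_lit 5) (nat_lit 307) (nat_lit 5) (nat_lit 308) (nat_lit 5) (nat_lit 454) (nat_lit 404) (nat_lit 282)) (XT.nd (nat_lit 78) (nat_lit 760) (nat_lit 0) (XT.lf (nat_lit 0) (nat_lit 9942007904) (nat_lit 684) (nat_lit 123087940) (nat_lit 760) (nat_lit 1717937529) (nat_lit 298) (nat_lit 5) (nat_lit 307)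 (nat_lit 5) (nat_lit 308) (nat_lit 5) (nat_lit 455) (nat_lit 404) (nat_lit 281)) (XT.lf (nat_lit 0) (nat_lit 570710431) (nat_lit 760) (nat_lit 6805797063) (nat_lit 76) (nat_lit 4533541144) (nat_lit 288) (nat_lit 5) (nat_lit 298) (nat_lit 5) (nat_lit 289) (nat_lit 5) (nat_lit 456) (nat_lit 404) (nat_lit 280)))))) (XT.nd (nat_lit 468) (nat_lit 2432) (nat_lit 0) (XT.nd (nat_lit 234) (nat_lit 684) (nat_lit 0) (XT.nd (nat_lit 78) (nat_lit 608) (nat_lit 0) (XT.lf (nat_lit 0) (nat_lit 144016339) (nat_lit 684) (nat_lit 2735714389) (nat_lit 760) (nat_lit 9159697324) (nat_lit 279) (nat_lit 5) (nat_lit 288) (nat_lit 5) (nat_lit 289) (nat_lit 5) (nat_lit 457) (nat_lit 404) (nat_lit 279)) (XT.nd (nat_lit 78) (nat_lit 608) (nat_lit 0) (XT.lf (nat_lit 0) (nat_lit 5277449686) (nat_lit 760) (nat_lit 4878488243) (nat_lit 76) (nat_lit 2014609707) (nat_lit 279) (nat_lit 5) (nat_lit 289) (nat_lit 5) (nat_lit 280) (nat_lit 5) (nat_lit 458) (nat_lit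 404) (nat_lit 278)) (XT.lf (nat_lit 0) (nat_lit 2271016798) (nat_lit 608) (nat_lit 5468864236) (nat_lit 684) (nat_lit 4564076306) (nat_lit 271) (nat_lit 5) (nat_lit 279) (nat_lit 5) (nat_lit 280) (nat_lit 5) (nat_lit 459) (nat_lit 404) (nat_lit 277)))) (XT.nd (nat_lit 78) (nat_lit 684) (nat_lit 0) (XT.lf (nat_lit 0) (nat_lit 9610344544) (nat_lit 608) (nat_lit 658039921) (nat_lit 684) (nat_lit 2171317136) (nat_lit 271) (nat_lit 5) (nat_lit 279) (nat_lit 5) (nat_lit 280) (nat_lit 5) (nat_lit 460) (nat_lit 404) (nat_lit 276)) (XT.nd (nat_lit 78) (nat_lit 0) (nat_lit 0) (XT.lf (nat_lit 0) (nat_lit 307418471) (nat_lit 684) (nat_lit 8048435243) (nat_lit 76) (nat_lit 4221441723) (nat_lit 262) (nat_lit 5) (nat_lit 271) (nat_lit 5) (nat_lit 263) (nat_lit 5) (nat_lit 461) (nat_lit 404) (nat_lit 275)) (XT.lf (nat_lit 0) (nat_lit 2814606342) (nat_lit 684) (nat_lit 682824526) (nat_lit 76) (nat_lit 9219766874) (nat_lit 262) (nat_lit 5) (nat_lit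 271) (nat_lit 5) (nat_lit 263) (nat_lit 5) (nat_lit 462) (nat_lit 404) (nat_lit 274))))) (XT.nd (nat_lit 234) (nat_lit 1216) (nat_lit 0) (XT.nd (nat_lit 78) (nat_lit 608) (nat_lit 0) (XT.lf (nat_lit 0) (nat_lit 5411247657) (nat_lit 684) (nat_lit 5967350182) (nat_lit 76) (nat_lit 1480516676) (nat_lit 254) (nat_lit 5) (nat_lit 263) (nat_lit 5) (nat_lit 255) (nat_lit 5) (nat_lit 463) (nat_lit 404) (nat_lit 273)) (XT.nd (nat_lit 78) (nat_lit 0) (nat_lit 0) (XT.lf (nat_lit 0) (nat_lit 1602070911) (nat_lit 608) (nat_lit 6480838514) (nat_lit 684) (nat_lit 4920501012) (nat_lit 246) (nat_lit 5) (nat_lit 254) (nat_lit 5) (nat_lit 255) (nat_lit 5) (nat_lit 464) (nat_lit 404) (nat_lit 272)) (XT.lf (nat_lit 0) (nat_lit 9384823646) (nat_lit 608) (nat_lit 1448309353) (nat_lit 684) (nat_lit 2316959222) (nat_lit 246) (nat_lit 5) (nat_lit 254) (nat_lit 5) (nat_lit 255) (nat_lit 5) (nat_lit 465) (nat_lit 404) (nat_lit 271)))) (XT.nd (nat_lit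 78) (nat_lit 608) (nat_lit 0) (XT.lf (nat_lit 0) (nat_lit 369909458) (nat_lit 608) (nat_lit 9267776672) (nat_lit 76) (nat_lit 3661266002) (nat_lit 238) (nat_lit 5) (nat_lit 246) (nat_lit 5) (nat_lit 239) (nat_lit 5) (nat_lit 466) (nat_lit 404) (nat_lit 270)) (XT.nd (nat_lit 78) (nat_lit 608) (nat_lit 0) (XT.lf (nat_lit 0) (nat_lit 3099964852) (nat_lit 608) (nat_lit 1459714948) (nat_lit 76) (nat_lit 8890396040) (nat_lit 238) (nat_lit 5) (nat_lit 246) (nat_lit 5) (nat_lit 239) (nat_lit 5) (nat_lit 467) (nat_lit 404) (nat_lit 269)) (XT.lf (nat_lit 0) (nat_lit 5917276492) (nat_lit 684) (nat_lit 7035778354) (nat_lit 76) (nat_lit 650516397) (nat_lit 230) (nat_lit 5) (nat_lit 239) (nat_lit 5) (nat_lit 231) (nat_lit 5) (nat_lit 468) (nat_lit 404) (nat_lit 268))))))) (XT.nd (nat_lit 858) (nat_lit 3496) (nat_lit 0) (XT.nd (nat_lit 390) (nat_lit 1520) (nat_lit 0) (XT.nd (nat_lit 156) (nat_lit 1064) (nat_lit 0) (XT.nd (nat_lit 78) (nat_lit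 0) (nat_lit 0) (XT.lf (nat_lit 0) (nat_lit 979603333) (nat_lit 532) (nat_lit 7843585607) (nat_lit 608) (nat_lit 4936304801) (nat_lit 223) (nat_lit 5) (nat_lit 230) (nat_lit 5) (nat_lit 231) (nat_lit 5) (nat_lit 469) (nat_lit 404) (nat_lit 267)) (XT.lf (nat_lit 0) (nat_lit 9232107401) (nat_lit 532) (nat_lit 2588320683) (nat_lit 608) (nat_lit 2097444668) (nat_lit 223) (nat_lit 5) (nat_lit 230) (nat_lit 5) (nat_lit 231) (nat_lit 5) (nat_lit 470) (nat_lit 404) (nat_lit 266))) (XT.nd (nat_lit 78) (nat_lit 456) (nat_lit 0) (XT.lf (nat_lit 0) (nat_lit 815391102) (nat_lit 608) (nat_lit 10503470649) (nat_lit 76) (nat_lit 2759902754) (nat_lit 215) (nat_lit 5) (nat_lit 223) (nat_lit 5) (nat_lit 216) (nat_lit 5) (nat_lit 471) (nat_lit 404) (nat_lit 265)) (XT.nd (nat_lit 78) (nat_lit 456) (nat_lit 0) (XT.lf (nat_lit 0) (nat_lit 3793517368) (nat_lit 608) (nat_lit 2226897886) (nat_lit 76) (nat_lit 8221481291) (nat_lit 215) (nat_lit 5) (nat_lit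 223) (nat_lit 5) (nat_lit 216) (nat_lit 5) (nat_lit 472) (nat_lit 404) (nat_lit 264)) (XT.lf (nat_lit 0) (nat_lit 6279420981) (nat_lit 456) (nat_lit 579122916) (nat_lit 532) (nat_lit 7549202636) (nat_lit 209) (nat_lit 5) (nat_lit 215) (nat_lit 5) (nat_lit 216) (nat_lit 5) (nat_lit 473) (nat_lit 404) (nat_lit 263))))) (XT.nd (nat_lit 234) (nat_lit 456) (nat_lit 0) (XT.nd (nat_lit 78) (nat_lit 532) (nat_lit 0) (XT.lf (nat_lit 0) (nat_lit 363573398) (nat_lit 532) (nat_lit 9657658935) (nat_lit 608) (nat_lit 4554955982) (nat_lit 202) (nat_lit 5) (nat_lit 209) (nat_lit 5) (nat_lit 210) (nat_lit 5) (nat_lit 474) (nat_lit 404) (nat_lit 262)) (XT.nd (nat_lit 78) (nat_lit 532) (nat_lit 0) (XT.lf (nat_lit 0) (nat_lit 9113467091) (nat_lit 532) (nat_lit 4178889353) (nat_lit 608) (nat_lit 1454740835) (nat_lit 202) (nat_lit 5) (nat_lit 209) (nat_lit 5) (nat_lit 210) (nat_lit 5) (nat_lit 475) (nat_lit 404) (nat_lit 261)) (XT.lf (nat_lit 0)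 (nat_lit 1701724094) (nat_lit 532) (nat_lit 11801458327) (nat_lit 76) (nat_lit 1417689399) (nat_lit 195) (nat_lit 5) (nat_lit 202) (nat_lit 5) (nat_lit 196) (nat_lit 5) (nat_lit 476) (nat_lit 404) (nat_lit 260)))) (XT.nd (nat_lit 78) (nat_lit 456) (nat_lit 0) (XT.lf (nat_lit 0) (nat_lit 4954691517) (nat_lit 532) (nat_lit 3029107883) (nat_lit 76) (nat_lit 7113074960) (nat_lit 195) (nat_lit 5) (nat_lit 202) (nat_lit 5) (nat_lit 196) (nat_lit 5) (nat_lit 477) (nat_lit 404) (nat_lit 259)) (XT.nd (nat_lit 78) (nat_lit 0) (nat_lit 0) (XT.lf (nat_lit 0) (nat_lit 5979398354) (nat_lit 456) (nat_lit 2319499229) (nat_lit 532) (nat_lit 6976977613) (nat_lit 189) (nat_lit 5) (nat_lit 195) (nat_lit 5) (nat_lit 196) (nat_lit 5) (nat_lit 478) (nat_lit 404) (nat_lit 258)) (XT.lf (nat_lit 0) (nat_lit 11740359198) (nat_lit 532) (nat_lit 289315781) (nat_lit 76) (nat_lit 3428175437) (nat_lit 189) (nat_lit 5) (nat_lit 196) (nat_lit 5) (nat_lit 190)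 (nat_lit 5) (nat_lit 479) (nat_lit 404) (nat_lit 257)))))) (XT.nd (nat_lit 468) (nat_lit 1596) (nat_lit 0) (XT.nd (nat_lit 234) (nat_lit 912) (nat_lit 0) (XT.nd (nat_lit 78) (nat_lit 532) (nat_lit 0) (XT.lf (nat_lit 0) (nat_lit 8982975693) (nat_lit 456) (nat_lit 6329062346) (nat_lit 532) (nat_lit 330201103) (nat_lit 183) (nat_lit 5) (nat_lit 189) (nat_lit 5) (nat_lit 190) (nat_lit 5) (nat_lit 480) (nat_lit 404) (nat_lit 256)) (XT.nd (nat_lit 78) (nat_lit 0) (nat_lit 0) (XT.lf (nat_lit 0) (nat_lit 2610782645) (nat_lit 456) (nat_lit 479724455) (nat_lit 532) (nat_lit 12739271364) (nat_lit 176) (nat_lit 5) (nat_lit 182) (nat_lit 5) (nat_lit 183) (nat_lit 5) (nat_lit 481) (nat_lit 404) (nat_lit 255)) (XT.lf (nat_lit 0) (nat_lit 6643660739) (nat_lit 532) (nat_lit 3919391895) (nat_lit 76) (nat_lit 5456604892) (nat_lit 176) (nat_lit 5) (nat_lit 183) (nat_lit 5) (nat_lit 177) (nat_lit 5) (nat_lit 482) (nat_lit 404) (nat_lit 254))))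 (XT.nd (nat_lit 78) (nat_lit 532) (nat_lit 0) (XT.lf (nat_lit 0) (nat_lit 5619463233) (nat_lit 380) (nat_lit 4676157636) (nat_lit 456) (nat_lit 5917160059) (nat_lit 171) (nat_lit 5) (nat_lit 176) (nat_lit 5) (nat_lit 177) (nat_lit 5) (nat_lit 483) (nat_lit 404) (nat_lit 253)) (XT.nd (nat_lit 78) (nat_lit 532) (nat_lit 0) (XT.lf (nat_lit 0) (nat_lit 14043889648) (nat_lit 456) (nat_lit 1033169789) (nat_lit 76) (nat_lit 1332243566) (nat_lit 171) (nat_lit 5) (nat_lit 177) (nat_lit 5) (nat_lit 172) (nat_lit 5) (nat_lit 484) (nat_lit 404) (nat_lit 252)) (XT.lf (nat_lit 0) (nat_lit 1317791598) (nat_lit 532) (nat_lit 7831476121) (nat_lit 76) (nat_lit 7458787782) (nat_lit 164) (nat_lit 5) (nat_lit 171) (nat_lit 5) (nat_lit 165) (nat_lit 5) (nat_lit 485) (nat_lit 404) (nat_lit 251))))) (XT.nd (nat_lit 234) (nat_lit 836) (nat_lit 0) (XT.nd (nat_lit 78) (nat_lit 380) (nat_lit 0) (XT.lf (nat_lit 0) (nat_lit 1979072754) (nat_lit 380) (nat_lit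 3072213981) (nat_lit 456) (nat_lit 11759019130) (nat_lit 159) (nat_lit 5) (nat_lit 164) (nat_lit 5) (nat_lit 165) (nat_lit 5) (nat_lit 486) (nat_lit 404) (nat_lit 250)) (XT.nd (nat_lit 78) (nat_lit 380) (nat_lit 0) (XT.lf (nat_lit 0) (nat_lit 8921173473) (nat_lit 456) (nat_lit 4961345080) (nat_lit 76) (nat_lit 3132849723) (nat_lit 159) (nat_lit 5) (nat_lit 165) (nat_lit 5) (nat_lit 160) (nat_lit 5) (nat_lit 487) (nat_lit 404) (nat_lit 249)) (XT.lf (nat_lit 0) (nat_lit 5136153894) (nat_lit 380) (nat_lit 7774744017) (nat_lit 456) (nat_lit 4312786669) (nat_lit 154) (nat_lit 5) (nat_lit 159) (nat_lit 5) (nat_lit 160) (nat_lit 5) (nat_lit 488) (nat_lit 404) (nat_lit 248)))) (XT.nd (nat_lit 78) (nat_lit 836) (nat_lit 0) (XT.lf (nat_lit 0) (nat_lit 15486163119) (nat_lit 380) (nat_lit 1516406090) (nat_lit 456) (nat_lit 433156369) (nat_lit 154) (nat_lit 5) (nat_lit 159) (nat_lit 5) (nat_lit 160) (nat_lit 5) (nat_lit 489) (nat_lit 404)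 (nat_lit 247)) (XT.nd (nat_lit 78) (nat_lit 380) (nat_lit 0) (XT.lf (nat_lit 0) (nat_lit 3553877542) (nat_lit 456) (nat_lit 9219989233) (nat_lit 76) (nat_lit 4876163776) (nat_lit 148) (nat_lit 5) (nat_lit 154) (nat_lit 5) (nat_lit 149) (nat_lit 5) (nat_lit 490) (nat_lit 404) (nat_lit 246)) (XT.lf (nat_lit 0) (nat_lit 1160945502) (nat_lit 380) (nat_lit 6473738539) (nat_lit 456) (nat_lit 10233485017) (nat_lit 143) (nat_lit 5) (nat_lit 148) (nat_lit 5) (nat_lit 149) (nat_lit 5) (nat_lit 491) (nat_lit 404) (nat_lit 245))))))))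
noncomputable def xc149 : XT := (XT.nd (nat_lit 52884) (nat_lit 0) (nat_lit 27968) (XT.nd (nat_lit 858) (nat_lit 1672) (nat_lit 0) (XT.nd (nat_lit 390) (nat_lit 1064) (nat_lit 0) (XT.nd (nat_lit 156) (nat_lit 760) (nat_lit 0) (XT.nd (nat_lit 78) (nat_lit 380) (nat_lit 0) (XT.lf (nat_lit 0) (nat_lit 11848225887) (nat_lit 456) (nat_lit 6231713867) (nat_lit 76) (nat_lit 9709505) (nat_lit 143) (nat_lit 5) (nat_lit 149) (nat_lit 5) (nat_lit 144) (nat_lit 5) (nat_lit 492) (nat_lit 404) (nat_lit 244)) (XT.lf (nat_lit 0) (nat_lit 4452496887) (nat_lit 380) (nat_lit 11754683071) (nat_lit 456) (nat_lit 2107157560) (nat_lit 138) (nat_lit 5) (nat_lit 143) (nat_lit 5) (nat_lit 144) (nat_lit 5) (nat_lit 493) (nat_lit 404) (nat_lit 243))) (XT.nd (nat_lit 78) (nat_lit 684) (nat_lit 0) (XT.lf (nat_lit 0) (nat_lit 2113610915) (nat_lit 456) (nat_lit 3138160660) (nat_lit 76) (nat_lit 13290845484) (nat_lit 137) (nat_lit 5) (nat_lit 143) (nat_lit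 5) (nat_lit 138) (nat_lit 5) (nat_lit 494) (nat_lit 404) (nat_lit 242)) (XT.nd (nat_lit 78) (nat_lit 304) (nat_lit 0) (XT.lf (nat_lit 0) (nat_lit 6440687242) (nat_lit 456) (nat_lit 10910480354) (nat_lit 76) (nat_lit 1423015090) (nat_lit 132) (nat_lit 5) (nat_lit 138) (nat_lit 5) (nat_lit 133) (nat_lit 5) (nat_lit 495) (nat_lit 404) (nat_lit 241)) (XT.lf (nat_lit 0) (nat_lit 68044949) (nat_lit 304) (nat_lit 10832344478) (nat_lit 380) (nat_lit 8109069698) (nat_lit 128) (nat_lit 5) (nat_lit 132) (nat_lit 5) (nat_lit 133) (nat_lit 5) (nat_lit 496) (nat_lit 404) (nat_lit 240))))) (XT.nd (nat_lit 234) (nat_lit 608) (nat_lit 0) (XT.nd (nat_lit 78) (nat_lit 456) (nat_lit 0) (XT.lf (nat_lit 0) (nat_lit 11398030392) (nat_lit 304) (nat_lit 4114233496) (nat_lit 380) (nat_lit 3735918801) (nat_lit 128) (nat_lit 5) (nat_lit 132) (nat_lit 5) (nat_lit 133) (nat_lit 5) (nat_lit 497) (nat_lit 404) (nat_lit 239)) (XT.nd (nat_lit 78) (nat_lit 0)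 (nat_lit 0) (XT.lf (nat_lit 0) (nat_lit 745656753) (nat_lit 456) (nat_lit 16021108349) (nat_lit 76) (nat_lit 2724213314) (nat_lit 122) (nat_lit 5) (nat_lit 128) (nat_lit 5) (nat_lit 123) (nat_lit 5) (nat_lit 498) (nat_lit 404) (nat_lit 238)) (XT.lf (nat_lit 0) (nat_lit 5337115956) (nat_lit 456) (nat_lit 4683095746) (nat_lit 76) (nat_lit 9716520038) (nat_lit 122) (nat_lit 5) (nat_lit 128) (nat_lit 5) (nat_lit 123) (nat_lit 5) (nat_lit 499) (nat_lit 404) (nat_lit 237)))) (XT.nd (nat_lit 78) (nat_lit 304) (nat_lit 0) (XT.lf (nat_lit 0) (nat_lit 6957349095) (nat_lit 304) (nat_lit 3098379159) (nat_lit 380) (nat_lit 9930966472) (nat_lit 118) (nat_lit 5) (nat_lit 122) (nat_lit 5) (nat_lit 123) (nat_lit 5) (nat_lit 500) (nat_lit 404) (nat_lit 236)) (XT.nd (nat_lit 78) (nat_lit 304) (nat_lit 0) (XT.lf (nat_lit 0) (nat_lit 14916277878) (nat_lit 380) (nat_lit 1388507825) (nat_lit 76) (nat_lit 3935921019) (nat_lit 118) (nat_lit 5) (nat_lit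 123) (nat_lit 5) (nat_lit 119) (nat_lit 5) (nat_lit 501) (nat_lit 404) (nat_lit 235)) (XT.lf (nat_lit 0) (nat_lit 10588168435) (nat_lit 304) (nat_lit 9365534247) (nat_lit 380) (nat_lit 544504024) (nat_lit 114) (nat_lit 5) (nat_lit 118) (nat_lit 5) (nat_lit 119) (nat_lit 5) (nat_lit 502) (nat_lit 404) (nat_lit 234)))))) (XT.nd (nat_lit 468) (nat_lit 304) (nat_lit 0) (XT.nd (nat_lit 234) (nat_lit 684) (nat_lit 0) (XT.nd (nat_lit 78) (nat_lit 304) (nat_lit 0) (XT.lf (nat_lit 0) (nat_lit 2045826921) (nat_lit 304) (nat_lit 2241477584) (nat_lit 380) (nat_lit 16472729034) (nat_lit 109) (nat_lit 5) (nat_lit 113) (nat_lit 5) (nat_lit 114) (nat_lit 5) (nat_lit 503) (nat_lit 404) (nat_lit 233)) (XT.nd (nat_lit 78) (nat_lit 304) (nat_lit 0) (XT.lf (nat_lit 0) (nat_lit 9298509529) (nat_lit 380) (nat_lit 6702701342) (nat_lit 76) (nat_lit 5024014002) (nat_lit 109) (nat_lit 5) (nat_lit 114) (nat_lit 5) (nat_lit 110) (nat_lit 5) (nat_lit 504)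 (nat_lit 404) (nat_lit 232)) (XT.lf (nat_lit 0) (nat_lit 5592432990) (nat_lit 304) (nat_lit 8859322815) (nat_lit 380) (nat_lit 6843128837) (nat_lit 105) (nat_lit 5) (nat_lit 109) (nat_lit 5) (nat_lit 110) (nat_lit 5) (nat_lit 505) (nat_lit 404) (nat_lit 231)))) (XT.nd (nat_lit 78) (nat_lit 684) (nat_lit 0) (XT.lf (nat_lit 0) (nat_lit 18209323659) (nat_lit 304) (nat_lit 1534470814) (nat_lit 380) (nat_lit 1825429519) (nat_lit 105) (nat_lit 5) (nat_lit 109) (nat_lit 5) (nat_lit 110) (nat_lit 5) (nat_lit 506) (nat_lit 404) (nat_lit 230)) (XT.nd (nat_lit 78) (nat_lit 304) (nat_lit 0) (XT.lf (nat_lit 0) (nat_lit 3339843119) (nat_lit 380) (nat_lit 12571180857) (nat_lit 76) (nat_lit 5935791440) (nat_lit 100) (nat_lit 5) (nat_lit 105) (nat_lit 5) (nat_lit 101) (nat_lit 5) (nat_lit 507) (nat_lit 404) (nat_lit 229)) (XT.lf (nat_lit 0) (nat_lit 43204445) (nat_lit 304) (nat_lit 8564851391) (nat_lit 380) (nat_lit 13521180849) (nat_lit 96)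 (nat_lit 5) (nat_lit 100) (nat_lit 5) (nat_lit 101) (nat_lit 5) (nat_lit 508) (nat_lit 404) (nat_lit 228))))) (XT.nd (nat_lit 51324) (nat_lit 0) (nat_lit 36556) (XT.nd (nat_lit 156) (nat_lit 304) (nat_lit 0) (XT.lf (nat_lit 0) (nat_lit 13065502379) (nat_lit 304) (nat_lit 991487518) (nat_lit 380) (nat_lit 8358810202) (nat_lit 96) (nat_lit 5) (nat_lit 100) (nat_lit 5) (nat_lit 101) (nat_lit 5) (nat_lit 509) (nat_lit 404) (nat_lit 227)) (XT.nd (nat_lit 51090) (nat_lit 0) (nat_lit 36556) (XT.lf (nat_lit 0) (nat_lit 2427537433) (nat_lit 304) (nat_lit 6044383995) (nat_lit 76) (nat_lit 14530427208) (nat_lit 92) (nat_lit 5) (nat_lit 96) (nat_lit 5) (nat_lit 93) (nat_lit 5) (nat_lit 511) (nat_lit 404) (nat_lit 225)) (XT.lf (nat_lit 0) (nat_lit 251253574) (nat_lit 0) (nat_lit 251253574) (nat_lit 1292) (nat_lit 3316260194) (nat_lit 573) (nat_lit 5) (nat_lit 573) (nat_lit 3) (nat_lit 590) (nat_lit 3) (nat_lit 405) (nat_lit 405) (nat_lit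 330)))) (XT.nd (nat_lit 78) (nat_lit 0) (nat_lit 0) (XT.lf (nat_lit 0) (nat_lit 2398502712) (nat_lit 1292) (nat_lit 3413790312) (nat_lit 1368) (nat_lit 1873586877) (nat_lit 573) (nat_lit 5) (nat_lit 590) (nat_lit 3) (nat_lit 591) (nat_lit 5) (nat_lit 406) (nat_lit 405) (nat_lit 329)) (XT.nd (nat_lit 78) (nat_lit 0) (nat_lit 0) (XT.lf (nat_lit 76) (nat_lit 364496320) (nat_lit 0) (nat_lit 3425210981) (nat_lit 1368) (nat_lit 3946097272) (nat_lit 574) (nat_lit 5) (nat_lit 573) (nat_lit 5) (nat_lit 591) (nat_lit 5) (nat_lit 407) (nat_lit 405) (nat_lit 328)) (XT.lf (nat_lit 76) (nat_lit 4245919472) (nat_lit 0) (nat_lit 950458296) (nat_lit 1368) (nat_lit 2590606430) (nat_lit 574) (nat_lit 5) (nat_lit 573) (nat_lit 5) (nat_lit 591) (nat_lit 5) (nat_lit 408) (nat_lit 405) (nat_lit 327))))))) (XT.nd (nat_lit 936) (nat_lit 6004) (nat_lit 0) (XT.nd (nat_lit 468) (nat_lit 1292) (nat_lit 0) (XT.nd (nat_lit 234) (nat_lit 0) (nat_lit 76) (XT.nd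 (nat_lit 78) (nat_lit 1368) (nat_lit 0) (XT.lf (nat_lit 76) (nat_lit 340893129) (nat_lit 0) (nat_lit 6268250285) (nat_lit 1368) (nat_lit 1230493874) (nat_lit 575) (nat_lit 5) (nat_lit 574) (nat_lit 5) (nat_lit 592) (nat_lit 5) (nat_lit 409) (nat_lit 405) (nat_lit 326)) (XT.nd (nat_lit 78) (nat_lit 0) (nat_lit 0) (XT.lf (nat_lit 0) (nat_lit 150827748) (nat_lit 1368) (nat_lit 3571327956) (nat_lit 1444) (nat_lit 4171254859) (nat_lit 556) (nat_lit 5) (nat_lit 574) (nat_lit 5) (nat_lit 575) (nat_lit 5) (nat_lit 410) (nat_lit 405) (nat_lit 325)) (XT.lf (nat_lit 76) (nat_lit 412803568) (nat_lit 0) (nat_lit 1099710490) (nat_lit 1444) (nat_lit 6436206868) (nat_lit 557) (nat_lit 5) (nat_lit 556) (nat_lit 5) (nat_lit 575) (nat_lit 5) (nat_lit 411) (nat_lit 405) (nat_lit 324)))) (XT.nd (nat_lit 78) (nat_lit 0) (nat_lit 0) (XT.lf (nat_lit 0) (nat_lit 2902928452) (nat_lit 1368) (nat_lit 3509746515) (nat_lit 1444) (nat_lit 1592441059) (nat_lit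 557) (nat_lit 5) (nat_lit 575) (nat_lit 5) (nat_lit 576) (nat_lit 5) (nat_lit 412) (nat_lit 405) (nat_lit 323)) (XT.nd (nat_lit 78) (nat_lit 0) (nat_lit 0) (XT.lf (nat_lit 76) (nat_lit 577900542) (nat_lit 0) (nat_lit 3722072828) (nat_lit 1444) (nat_lit 3763097464) (nat_lit 558) (nat_lit 5) (nat_lit 557) (nat_lit 5) (nat_lit 576) (nat_lit 5) (nat_lit 413) (nat_lit 405) (nat_lit 322)) (XT.lf (nat_lit 76) (nat_lit 4775659718) (nat_lit 0) (nat_lit 941145845) (nat_lit 1444) (nat_lit 2405550339) (nat_lit 558) (nat_lit 5) (nat_lit 557) (nat_lit 5) (nat_lit 576) (nat_lit 5) (nat_lit 414) (nat_lit 405) (nat_lit 321))))) (XT.nd (nat_lit 234) (nat_lit 0) (nat_lit 76) (XT.nd (nat_lit 78) (nat_lit 1444) (nat_lit 0) (XT.lf (nat_lit 76) (nat_lit 853891470) (nat_lit 0) (nat_lit 6294928464) (nat_lit 1444) (nat_lit 1034277757) (nat_lit 559) (nat_lit 5) (nat_lit 558) (nat_lit 5) (nat_lit 577) (nat_lit 5) (nat_lit 415) (nat_lit 405) (nat_lit 320))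 (XT.nd (nat_lit 78) (nat_lit 0) (nat_lit 0) (XT.lf (nat_lit 0) (nat_lit 357747763) (nat_lit 1444) (nat_lit 3089332589) (nat_lit 1520) (nat_lit 4797972128) (nat_lit 539) (nat_lit 5) (nat_lit 558) (nat_lit 5) (nat_lit 559) (nat_lit 5) (nat_lit 416) (nat_lit 405) (nat_lit 319)) (XT.lf (nat_lit 76) (nat_lit 1225109348) (nat_lit 0) (nat_lit 516492583) (nat_lit 1520) (nat_lit 6566958433) (nat_lit 540) (nat_lit 5) (nat_lit 539) (nat_lit 5) (nat_lit 559) (nat_lit 5) (nat_lit 417) (nat_lit 405) (nat_lit 318)))) (XT.nd (nat_lit 78) (nat_lit 0) (nat_lit 0) (XT.lf (nat_lit 0) (nat_lit 3160458449) (nat_lit 1444) (nat_lit 2741385715) (nat_lit 1520) (nat_lit 2471355066) (nat_lit 540) (nat_lit 5) (nat_lit 559) (nat_lit 5) (nat_lit 560) (nat_lit 5) (nat_lit 418) (nat_lit 405) (nat_lit 317)) (XT.nd (nat_lit 78) (nat_lit 0) (nat_lit 76) (XT.lf (nat_lit 76) (nat_lit 1686625689) (nat_lit 0) (nat_lit 2906420394) (nat_lit 1520) (nat_lit 3846384891)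 (nat_lit 541) (nat_lit 5) (nat_lit 540) (nat_lit 5) (nat_lit 560) (nat_lit 5) (nat_lit 419) (nat_lit 405) (nat_lit 316)) (XT.lf (nat_lit 0) (nat_lit 6045254805) (nat_lit 1444) (nat_lit 2287454448) (nat_lit 1520) (nat_lit 174465758) (nat_lit 541) (nat_lit 5) (nat_lit 560) (nat_lit 5) (nat_lit 561) (nat_lit 5) (nat_lit 420) (nat_lit 405) (nat_lit 315)))))) (XT.nd (nat_lit 468) (nat_lit 4636) (nat_lit 0) (XT.nd (nat_lit 234) (nat_lit 0) (nat_lit 76) (XT.nd (nat_lit 78) (nat_lit 1520) (nat_lit 0) (XT.lf (nat_lit 76) (nat_lit 2257858118) (nat_lit 0) (nat_lit 5274600569) (nat_lit 1520) (nat_lit 1043703127) (nat_lit 542) (nat_lit 5) (nat_lit 541) (nat_lit 5) (nat_lit 561) (nat_lit 5) (nat_lit 421) (nat_lit 405) (nat_lit 314)) (XT.nd (nat_lit 78) (nat_lit 0) (nat_lit 76) (XT.lf (nat_lit 0) (nat_lit 385321811) (nat_lit 1520) (nat_lit 1743809873) (nat_lit 1596) (nat_lit 6517596444) (nat_lit 521) (nat_lit 5) (nat_lit 541) (nat_lit 5)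 (nat_lit 542) (nat_lit 5) (nat_lit 422) (nat_lit 405) (nat_lit 313)) (XT.lf (nat_lit 0) (nat_lit 1828063623) (nat_lit 1520) (nat_lit 5791784843) (nat_lit 1596) (nat_lit 1098743599) (nat_lit 522) (nat_lit 5) (nat_lit 542) (nat_lit 5) (nat_lit 543) (nat_lit 5) (nat_lit 423) (nat_lit 405) (nat_lit 312)))) (XT.nd (nat_lit 78) (nat_lit 0) (nat_lit 0) (XT.lf (nat_lit 0) (nat_lit 3298813552) (nat_lit 1520) (nat_lit 1111387104) (nat_lit 1596) (nat_lit 4381715938) (nat_lit 522) (nat_lit 5) (nat_lit 542) (nat_lit 5) (nat_lit 543) (nat_lit 5) (nat_lit 424) (nat_lit 405) (nat_lit 311)) (XT.nd (nat_lit 78) (nat_lit 0) (nat_lit 76) (XT.lf (nat_lit 76) (nat_lit 3691399988) (nat_lit 0) (nat_lit 1105343246) (nat_lit 1596) (nat_lit 4070015338) (nat_lit 523) (nat_lit 5) (nat_lit 522) (nat_lit 5) (nat_lit 543) (nat_lit 5) (nat_lit 425) (nat_lit 405) (nat_lit 310)) (XT.lf (nat_lit 0) (nat_lit 6321074612) (nat_lit 1520) (nat_lit 372465742) (nat_lit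 1596) (nat_lit 2249634306) (nat_lit 523) (nat_lit 5) (nat_lit 543) (nat_lit 5) (nat_lit 544) (nat_lit 5) (nat_lit 426) (nat_lit 405) (nat_lit 309))))) (XT.nd (nat_lit 234) (nat_lit 3268) (nat_lit 0) (XT.nd (nat_lit 78) (nat_lit 1520) (nat_lit 0) (XT.lf (nat_lit 76) (nat_lit 4559287903) (nat_lit 0) (nat_lit 3328258030) (nat_lit 1596) (nat_lit 1133346081) (nat_lit 524) (nat_lit 5) (nat_lit 523) (nat_lit 5) (nat_lit 544) (nat_lit 5) (nat_lit 427) (nat_lit 405) (nat_lit 308)) (XT.nd (nat_lit 78) (nat_lit 0) (nat_lit 0) (XT.lf (nat_lit 0) (nat_lit 361447840) (nat_lit 1596) (nat_lit 8622785816) (nat_lit 76) (nat_lit 116259487) (nat_lit 503) (nat_lit 5) (nat_lit 524) (nat_lit 5) (nat_lit 504) (nat_lit 5) (nat_lit 428) (nat_lit 405) (nat_lit 307)) (XT.lf (nat_lit 0) (nat_lit 1898480379) (nat_lit 1596) (nat_lit 3654833110) (nat_lit 76) (nat_lit 3627678276) (nat_lit 503) (nat_lit 5) (nat_lit 524) (nat_lit 5) (nat_lit 504) (nat_lit 5)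 (nat_lit 429) (nat_lit 405) (nat_lit 306)))) (XT.nd (nat_lit 78) (nat_lit 1672) (nat_lit 0) (XT.lf (nat_lit 0) (nat_lit 1411099692) (nat_lit 1596) (nat_lit 2040124127) (nat_lit 1672) (nat_lit 5812182688) (nat_lit 482) (nat_lit 5) (nat_lit 503) (nat_lit 5) (nat_lit 504) (nat_lit 5) (nat_lit 430) (nat_lit 405) (nat_lit 305)) (XT.nd (nat_lit 78) (nat_lit 1672) (nat_lit 0) (XT.lf (nat_lit 0) (nat_lit 5045911819) (nat_lit 1672) (nat_lit 2749532259) (nat_lit 76) (nat_lit 1551813117) (nat_lit 482) (nat_lit 5) (nat_lit 504) (nat_lit 5) (nat_lit 483) (nat_lit 5) (nat_lit 431) (nat_lit 405) (nat_lit 304)) (XT.lf (nat_lit 0) (nat_lit 2454106543) (nat_lit 1672) (nat_lit 4224479612) (nat_lit 1748) (nat_lit 2754082230) (nat_lit 460) (nat_lit 5) (nat_lit 482) (nat_lit 5) (nat_lit 483) (nat_lit 5) (nat_lit 432) (nat_lit 405) (nat_lit 303))))))))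
noncomputable def xc150 : XT := (XT.nd (nat_lit 1794) (nat_lit 8284) (nat_lit 0) (XT.nd (nat_lit 858) (nat_lit 5396) (nat_lit 0) (XT.nd (nat_lit 390) (nat_lit 2736) (nat_lit 0) (XT.nd (nat_lit 156) (nat_lit 2356) (nat_lit 0) (XT.nd (nat_lit 78) (nat_lit 1824) (nat_lit 0) (XT.lf (nat_lit 0) (nat_lit 7779352919) (nat_lit 1672) (nat_lit 559989742) (nat_lit 1748) (nat_lit 1180541794) (nat_lit 460) (nat_lit 5) (nat_lit 482) (nat_lit 5) (nat_lit 483) (nat_lit 5) (nat_lit 433) (nat_lit 405) (nat_lit 302)) (XT.lf (nat_lit 0) (nat_lit 440555306) (nat_lit 1824) (nat_lit 6002182872) (nat_lit 76) (nat_lit 3165623524) (nat_lit 436) (nat_lit 5) (nat_lit 460) (nat_lit 5) (nat_lit 437) (nat_lit 5) (nat_lit 434) (nat_lit 405) (nat_lit 301))) (XT.nd (nat_lit 78) (nat_lit 2356) (nat_lit 0) (XT.lf (nat_lit 0) (nat_lit 2071359709) (nat_lit 1824) (nat_lit 646560514) (nat_lit 76) (nat_lit 6980675277) (nat_lit 436) (nat_lit 5) (nat_lit 460) (nat_lit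 5) (nat_lit 437) (nat_lit 5) (nat_lit 435) (nat_lit 405) (nat_lit 300)) (XT.nd (nat_lit 78) (nat_lit 912) (nat_lit 0) (XT.lf (nat_lit 0) (nat_lit 3751633127) (nat_lit 1520) (nat_lit 4937380036) (nat_lit 76) (nat_lit 1101288588) (nat_lit 417) (nat_lit 5) (nat_lit 437) (nat_lit 5) (nat_lit 418) (nat_lit 5) (nat_lit 436) (nat_lit 405) (nat_lit 299)) (XT.lf (nat_lit 0) (nat_lit 556747234) (nat_lit 912) (nat_lit 4913115738) (nat_lit 988) (nat_lit 4413896875) (nat_lit 405) (nat_lit 5) (nat_lit 417) (nat_lit 5) (nat_lit 418) (nat_lit 5) (nat_lit 437) (nat_lit 405) (nat_lit 298))))) (XT.nd (nat_lit 234) (nat_lit 1748) (nat_lit 0) (XT.nd (nat_lit 78) (nat_lit 988) (nat_lit 0) (XT.lf (nat_lit 0) (nat_lit 6207886713) (nat_lit 912) (nat_lit 1026367934) (nat_lit 988) (nat_lit 2744601160) (nat_lit 405) (nat_lit 5) (nat_lit 417) (nat_lit 5) (nat_lit 418) (nat_lit 5) (nat_lit 438) (nat_lit 405) (nat_lit 297)) (XT.nd (nat_lit 78) (nat_lit 76)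 (nat_lit 0) (XT.lf (nat_lit 0) (nat_lit 1881959024) (nat_lit 912) (nat_lit 7162363184) (nat_lit 988) (nat_lit 1031328274) (nat_lit 393) (nat_lit 5) (nat_lit 405) (nat_lit 5) (nat_lit 406) (nat_lit 5) (nat_lit 439) (nat_lit 405) (nat_lit 296)) (XT.lf (nat_lit 0) (nat_lit 718320655) (nat_lit 988) (nat_lit 2506419712) (nat_lit 76) (nat_lit 6949321981) (nat_lit 392) (nat_lit 5) (nat_lit 405) (nat_lit 5) (nat_lit 393) (nat_lit 5) (nat_lit 440) (nat_lit 405) (nat_lit 295)))) (XT.nd (nat_lit 78) (nat_lit 836) (nat_lit 0) (XT.lf (nat_lit 0) (nat_lit 2495640534) (nat_lit 988) (nat_lit 6968020084) (nat_lit 76) (nat_lit 810520038) (nat_lit 380) (nat_lit 5) (nat_lit 393) (nat_lit 5) (nat_lit 381) (nat_lit 5) (nat_lit 441) (nat_lit 405) (nat_lit 294)) (XT.nd (nat_lit 78) (nat_lit 836) (nat_lit 0) (XT.lf (nat_lit 0) (nat_lit 4326711333) (nat_lit 988) (nat_lit 1148345675) (nat_lit 76) (nat_lit 4900884438) (nat_lit 380) (nat_lit 5) (nat_lit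 393) (nat_lit 5) (nat_lit 381) (nat_lit 5) (nat_lit 442) (nat_lit 405) (nat_lit 293)) (XT.lf (nat_lit 0) (nat_lit 4831598234) (nat_lit 836) (nat_lit 1374486867) (nat_lit 912) (nat_lit 4273422847) (nat_lit 369) (nat_lit 5) (nat_lit 380) (nat_lit 5) (nat_lit 381) (nat_lit 5) (nat_lit 443) (nat_lit 405) (nat_lit 292)))))) (XT.nd (nat_lit 468) (nat_lit 2964) (nat_lit 0) (XT.nd (nat_lit 234) (nat_lit 760) (nat_lit 0) (XT.nd (nat_lit 78) (nat_lit 836) (nat_lit 0) (XT.lf (nat_lit 0) (nat_lit 327977868) (nat_lit 836) (nat_lit 7803759341) (nat_lit 912) (nat_lit 2453238799) (nat_lit 358) (nat_lit 5) (nat_lit 369) (nat_lit 5) (nat_lit 370) (nat_lit 5) (nat_lit 444) (nat_lit 405) (nat_lit 291)) (XT.nd (nat_lit 78) (nat_lit 836) (nat_lit 0) (XT.lf (nat_lit 0) (nat_lit 6471092487) (nat_lit 836) (nat_lit 3652578869) (nat_lit 912) (nat_lit 568330659) (nat_lit 358) (nat_lit 5) (nat_lit 369) (nat_lit 5) (nat_lit 370) (nat_lit 5) (nat_lit 445)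 (nat_lit 405) (nat_lit 290)) (XT.lf (nat_lit 0) (nat_lit 1334051595) (nat_lit 836) (nat_lit 8872075415) (nat_lit 76) (nat_lit 594918737) (nat_lit 347) (nat_lit 5) (nat_lit 358) (nat_lit 5) (nat_lit 348) (nat_lit 5) (nat_lit 446) (nat_lit 405) (nat_lit 289)))) (XT.nd (nat_lit 78) (nat_lit 760) (nat_lit 0) (XT.lf (nat_lit 0) (nat_lit 3300894430) (nat_lit 836) (nat_lit 2700522384) (nat_lit 76) (nat_lit 4910101685) (nat_lit 347) (nat_lit 5) (nat_lit 358) (nat_lit 5) (nat_lit 348) (nat_lit 5) (nat_lit 447) (nat_lit 405) (nat_lit 288)) (XT.nd (nat_lit 78) (nat_lit 0) (nat_lit 0) (XT.lf (nat_lit 0) (nat_lit 3622618857) (nat_lit 760) (nat_lit 1689656495) (nat_lit 836) (nat_lit 5711824994) (nat_lit 337) (nat_lit 5) (nat_lit 347) (nat_lit 5) (nat_lit 348) (nat_lit 5) (nat_lit 448) (nat_lit 405) (nat_lit 287)) (XT.lf (nat_lit 0) (nat_lit 7381617905) (nat_lit 836) (nat_lit 1067031214) (nat_lit 76) (nat_lit 2689933624) (nat_lit 337) (nat_lit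 5) (nat_lit 348) (nat_lit 5) (nat_lit 338) (nat_lit 5) (nat_lit 449) (nat_lit 405) (nat_lit 286))))) (XT.nd (nat_lit 234) (nat_lit 1368) (nat_lit 0) (XT.nd (nat_lit 78) (nat_lit 836) (nat_lit 0) (XT.lf (nat_lit 0) (nat_lit 5434998595) (nat_lit 760) (nat_lit 4086088595) (nat_lit 836) (nat_lit 1733696320) (nat_lit 327) (nat_lit 5) (nat_lit 337) (nat_lit 5) (nat_lit 338) (nat_lit 5) (nat_lit 450) (nat_lit 405) (nat_lit 285)) (XT.nd (nat_lit 78) (nat_lit 0) (nat_lit 0) (XT.lf (nat_lit 0) (nat_lit 322245207) (nat_lit 836) (nat_lit 10679835862) (nat_lit 76) (nat_lit 371257028) (nat_lit 316) (nat_lit 5) (nat_lit 327) (nat_lit 5) (nat_lit 317) (nat_lit 5) (nat_lit 451) (nat_lit 405) (nat_lit 284)) (XT.lf (nat_lit 0) (nat_lit 2445062433) (nat_lit 836) (nat_lit 4135864174) (nat_lit 76) (nat_lit 4912131873) (nat_lit 316) (nat_lit 5) (nat_lit 327) (nat_lit 5) (nat_lit 317) (nat_lit 5) (nat_lit 452) (nat_lit 405) (nat_lit 283)))) (XT.nd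 (nat_lit 78) (nat_lit 684) (nat_lit 0) (XT.lf (nat_lit 0) (nat_lit 2553332138) (nat_lit 684) (nat_lit 2056500141) (nat_lit 760) (nat_lit 7005354320) (nat_lit 307) (nat_lit 5) (nat_lit 316) (nat_lit 5) (nat_lit 317) (nat_lit 5) (nat_lit 453) (nat_lit 405) (nat_lit 282)) (XT.nd (nat_lit 78) (nat_lit 684) (nat_lit 0) (XT.lf (nat_lit 0) (nat_lit 6845561959) (nat_lit 760) (nat_lit 2342964767) (nat_lit 76) (nat_lit 2550680455) (nat_lit 307) (nat_lit 5) (nat_lit 317) (nat_lit 5) (nat_lit 308) (nat_lit 5) (nat_lit 454) (nat_lit 405) (nat_lit 281)) (XT.lf (nat_lit 0) (nat_lit 4537226385) (nat_lit 684) (nat_lit 4615304681) (nat_lit 760) (nat_lit 2712649737) (nat_lit 298) (nat_lit 5) (nat_lit 307) (nat_lit 5) (nat_lit 308) (nat_lit 5) (nat_lit 455) (nat_lit 405) (nat_lit 280))))))) (XT.nd (nat_lit 936) (nat_lit 3724) (nat_lit 0) (XT.nd (nat_lit 468) (nat_lit 2508) (nat_lit 0) (XT.nd (nat_lit 234) (nat_lit 608) (nat_lit 0) (XT.nd (nat_lit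 78) (nat_lit 1444) (nat_lit 0) (XT.lf (nat_lit 0) (nat_lit 11505419873) (nat_lit 760) (nat_lit 426156161) (nat_lit 76) (nat_lit 62105325) (nat_lit 298) (nat_lit 5) (nat_lit 308) (nat_lit 5) (nat_lit 299) (nat_lit 5) (nat_lit 456) (nat_lit 405) (nat_lit 279)) (XT.nd (nat_lit 78) (nat_lit 684) (nat_lit 0) (XT.lf (nat_lit 0) (nat_lit 1815345954) (nat_lit 760) (nat_lit 5483971483) (nat_lit 76) (nat_lit 4824044527) (nat_lit 288) (nat_lit 5) (nat_lit 298) (nat_lit 5) (nat_lit 289) (nat_lit 5) (nat_lit 457) (nat_lit 405) (nat_lit 278)) (XT.lf (nat_lit 0) (nat_lit 1595246466) (nat_lit 684) (nat_lit 2560523028) (nat_lit 760) (nat_lit 8099859392) (nat_lit 279) (nat_lit 5) (nat_lit 288) (nat_lit 5) (nat_lit 289) (nat_lit 5) (nat_lit 458) (nat_lit 405) (nat_lit 277)))) (XT.nd (nat_lit 78) (nat_lit 608) (nat_lit 0) (XT.lf (nat_lit 0) (nat_lit 6579015201) (nat_lit 760) (nat_lit 3533465039) (nat_lit 76) (nat_lit 2277343465) (nat_lit 279)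 (nat_lit 5) (nat_lit 289) (nat_lit 5) (nat_lit 280) (nat_lit 5) (nat_lit 459) (nat_lit 405) (nat_lit 276)) (XT.nd (nat_lit 78) (nat_lit 0) (nat_lit 0) (XT.lf (nat_lit 0) (nat_lit 3749539359) (nat_lit 608) (nat_lit 5327009162) (nat_lit 684) (nat_lit 3449640221) (nat_lit 271) (nat_lit 5) (nat_lit 279) (nat_lit 5) (nat_lit 280) (nat_lit 5) (nat_lit 460) (nat_lit 405) (nat_lit 275)) (XT.lf (nat_lit 0) (nat_lit 11207553617) (nat_lit 608) (nat_lit 424894485) (nat_lit 684) (nat_lit 1032667390) (nat_lit 271) (nat_lit 5) (nat_lit 279) (nat_lit 5) (nat_lit 280) (nat_lit 5) (nat_lit 461) (nat_lit 405) (nat_lit 274))))) (XT.nd (nat_lit 234) (nat_lit 1216) (nat_lit 0) (XT.nd (nat_lit 78) (nat_lit 608) (nat_lit 0) (XT.lf (nat_lit 0) (nat_lit 1468107642) (nat_lit 684) (nat_lit 6776466086) (nat_lit 76) (nat_lit 4560978588) (nat_lit 262) (nat_lit 5) (nat_lit 271) (nat_lit 5) (nat_lit 263) (nat_lit 5) (nat_lit 462) (nat_lit 405) (nat_lit 273))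 (XT.nd (nat_lit 78) (nat_lit 0) (nat_lit 0) (XT.lf (nat_lit 0) (nat_lit 717773756) (nat_lit 608) (nat_lit 3289687722) (nat_lit 684) (nat_lit 8941154631) (nat_lit 254) (nat_lit 5) (nat_lit 262) (nat_lit 5) (nat_lit 263) (nat_lit 5) (nat_lit 463) (nat_lit 405) (nat_lit 272)) (XT.lf (nat_lit 0) (nat_lit 6640039695) (nat_lit 684) (nat_lit 4670329965) (nat_lit 76) (nat_lit 1783325287) (nat_lit 254) (nat_lit 5) (nat_lit 263) (nat_lit 5) (nat_lit 255) (nat_lit 5) (nat_lit 464) (nat_lit 405) (nat_lit 271)))) (XT.nd (nat_lit 78) (nat_lit 608) (nat_lit 0) (XT.lf (nat_lit 0) (nat_lit 3041161345) (nat_lit 608) (nat_lit 6311136945) (nat_lit 684) (nat_lit 3888838961) (nat_lit 246) (nat_lit 5) (nat_lit 254) (nat_lit 5) (nat_lit 255) (nat_lit 5) (nat_lit 465) (nat_lit 405) (nat_lit 270)) (XT.nd (nat_lit 78) (nat_lit 608) (nat_lit 0) (XT.lf (nat_lit 0) (nat_lit 10951979938) (nat_lit 608) (nat_lit 1183826188) (nat_lit 684) (nat_lit 1255384611)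 (nat_lit 246) (nat_lit 5) (nat_lit 254) (nat_lit 5) (nat_lit 255) (nat_lit 5) (nat_lit 466) (nat_lit 405) (nat_lit 269)) (XT.lf (nat_lit 0) (nat_lit 1460218554) (nat_lit 608) (nat_lit 8048313961) (nat_lit 76) (nat_lit 4034564432) (nat_lit 238) (nat_lit 5) (nat_lit 246) (nat_lit 5) (nat_lit 239) (nat_lit 5) (nat_lit 467) (nat_lit 405) (nat_lit 268)))))) (XT.nd (nat_lit 468) (nat_lit 1976) (nat_lit 0) (XT.nd (nat_lit 234) (nat_lit 608) (nat_lit 0) (XT.nd (nat_lit 78) (nat_lit 1140) (nat_lit 0) (XT.lf (nat_lit 0) (nat_lit 4223641509) (nat_lit 608) (nat_lit 111636459) (nat_lit 76) (nat_lit 9362393284) (nat_lit 238) (nat_lit 5) (nat_lit 246) (nat_lit 5) (nat_lit 239) (nat_lit 5) (nat_lit 468) (nat_lit 405) (nat_lit 267)) (XT.nd (nat_lit 78) (nat_lit 532) (nat_lit 0) (XT.lf (nat_lit 0) (nat_lit 7087433224) (nat_lit 684) (nat_lit 5789185802) (nat_lit 76) (nat_lit 977818244) (nat_lit 230) (nat_lit 5) (nat_lit 239) (nat_lit 5) (nat_lit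 231) (nat_lit 5) (nat_lit 469) (nat_lit 405) (nat_lit 266)) (XT.lf (nat_lit 0) (nat_lit 2377376492) (nat_lit 532) (nat_lit 7662411746) (nat_lit 608) (nat_lit 3973926811) (nat_lit 223) (nat_lit 5) (nat_lit 230) (nat_lit 5) (nat_lit 231) (nat_lit 5) (nat_lit 470) (nat_lit 405) (nat_lit 265)))) (XT.nd (nat_lit 78) (nat_lit 608) (nat_lit 0) (XT.lf (nat_lit 0) (nat_lit 10767907483) (nat_lit 532) (nat_lit 2308669868) (nat_lit 608) (nat_lit 1099095437) (nat_lit 223) (nat_lit 5) (nat_lit 230) (nat_lit 5) (nat_lit 231) (nat_lit 5) (nat_lit 471) (nat_lit 405) (nat_lit 264)) (XT.nd (nat_lit 78) (nat_lit 0) (nat_lit 0) (XT.lf (nat_lit 0) (nat_lit 1849238547) (nat_lit 608) (nat_lit 9339307920) (nat_lit 76) (nat_lit 3151286246) (nat_lit 215) (nat_lit 5) (nat_lit 223) (nat_lit 5) (nat_lit 216) (nat_lit 5) (nat_lit 472) (nat_lit 405) (nat_lit 263)) (XT.lf (nat_lit 0) (nat_lit 4866975580) (nat_lit 608) (nat_lit 924149430) (nat_lit 76) (nat_lit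 8715504481) (nat_lit 215) (nat_lit 5) (nat_lit 223) (nat_lit 5) (nat_lit 216) (nat_lit 5) (nat_lit 473) (nat_lit 405) (nat_lit 262))))) (XT.nd (nat_lit 234) (nat_lit 988) (nat_lit 0) (XT.nd (nat_lit 78) (nat_lit 532) (nat_lit 0) (XT.lf (nat_lit 0) (nat_lit 7743432088) (nat_lit 456) (nat_lit 238999934) (nat_lit 532) (nat_lit 6693584876) (nat_lit 209) (nat_lit 5) (nat_lit 215) (nat_lit 5) (nat_lit 216) (nat_lit 5) (nat_lit 474) (nat_lit 405) (nat_lit 261)) (XT.nd (nat_lit 78) (nat_lit 0) (nat_lit 0) (XT.lf (nat_lit 0) (nat_lit 1717947406) (nat_lit 532) (nat_lit 9482064438) (nat_lit 608) (nat_lit 3647985865) (nat_lit 202) (nat_lit 5) (nat_lit 209) (nat_lit 5) (nat_lit 210) (nat_lit 5) (nat_lit 475) (nat_lit 405) (nat_lit 260)) (XT.lf (nat_lit 0) (nat_lit 10616425198) (nat_lit 532) (nat_lit 3900949810) (nat_lit 608) (nat_lit 505336401) (nat_lit 202) (nat_lit 5) (nat_lit 209) (nat_lit 5) (nat_lit 210) (nat_lit 5) (nat_lit 476) (nat_lit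 405) (nat_lit 259)))) (XT.nd (nat_lit 78) (nat_lit 456) (nat_lit 0) (XT.lf (nat_lit 0) (nat_lit 2693491468) (nat_lit 532) (nat_lit 10695752032) (nat_lit 76) (nat_lit 1810752317) (nat_lit 195) (nat_lit 5) (nat_lit 202) (nat_lit 5) (nat_lit 196) (nat_lit 5) (nat_lit 477) (nat_lit 405) (nat_lit 258)) (XT.nd (nat_lit 78) (nat_lit 456) (nat_lit 0) (XT.lf (nat_lit 0) (nat_lit 5992739163) (nat_lit 532) (nat_lit 1774263117) (nat_lit 76) (nat_lit 7612894430) (nat_lit 195) (nat_lit 5) (nat_lit 202) (nat_lit 5) (nat_lit 196) (nat_lit 5) (nat_lit 478) (nat_lit 405) (nat_lit 257)) (XT.lf (nat_lit 0) (nat_lit 7405759120) (nat_lit 456) (nat_lit 1988143807) (nat_lit 532) (nat_lit 6168775832) (nat_lit 189) (nat_lit 5) (nat_lit 195) (nat_lit 5) (nat_lit 196) (nat_lit 5) (nat_lit 479) (nat_lit 405) (nat_lit 256))))))))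
noncomputable def xc151 : XT := (XT.nd (nat_lit 1794) (nat_lit 1900) (nat_lit 0) (XT.nd (nat_lit 858) (nat_lit 2660) (nat_lit 0) (XT.nd (nat_lit 390) (nat_lit 1368) (nat_lit 0) (XT.nd (nat_lit 156) (nat_lit 836) (nat_lit 0) (XT.nd (nat_lit 78) (nat_lit 76) (nat_lit 0) (XT.lf (nat_lit 0) (nat_lit 1015306144) (nat_lit 456) (nat_lit 11879667931) (nat_lit 532) (nat_lit 2853506418) (nat_lit 183) (nat_lit 5) (nat_lit 189) (nat_lit 5) (nat_lit 190) (nat_lit 5) (nat_lit 480) (nat_lit 405) (nat_lit 255)) (XT.lf (nat_lit 0) (nat_lit 577398914) (nat_lit 532) (nat_lit 5489486853) (nat_lit 76) (nat_lit 9869920459) (nat_lit 182) (nat_lit 5) (nat_lit 189) (nat_lit 5) (nat_lit 183) (nat_lit 5) (nat_lit 481) (nat_lit 405) (nat_lit 254))) (XT.nd (nat_lit 78) (nat_lit 380) (nat_lit 0) (XT.lf (nat_lit 0) (nat_lit 3955215671) (nat_lit 456) (nat_lit 97439328) (nat_lit 532) (nat_lit 12075589046) (nat_lit 176) (nat_lit 5) (nat_lit 182) (nat_lit 5)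 (nat_lit 183) (nat_lit 5) (nat_lit 482) (nat_lit 405) (nat_lit 253)) (XT.nd (nat_lit 78) (nat_lit 380) (nat_lit 0) (XT.lf (nat_lit 0) (nat_lit 7661712482) (nat_lit 532) (nat_lit 2715619910) (nat_lit 76) (nat_lit 5944893897) (nat_lit 176) (nat_lit 5) (nat_lit 183) (nat_lit 5) (nat_lit 177) (nat_lit 5) (nat_lit 483) (nat_lit 405) (nat_lit 252)) (XT.lf (nat_lit 0) (nat_lit 7005577058) (nat_lit 380) (nat_lit 4372048179) (nat_lit 456) (nat_lit 5141771021) (nat_lit 171) (nat_lit 5) (nat_lit 176) (nat_lit 5) (nat_lit 177) (nat_lit 5) (nat_lit 484) (nat_lit 405) (nat_lit 251))))) (XT.nd (nat_lit 234) (nat_lit 456) (nat_lit 0) (XT.nd (nat_lit 78) (nat_lit 456) (nat_lit 0) (XT.lf (nat_lit 0) (nat_lit 212466243) (nat_lit 456) (nat_lit 14975125420) (nat_lit 532) (nat_lit 1532524789) (nat_lit 165) (nat_lit 5) (nat_lit 171) (nat_lit 5) (nat_lit 172) (nat_lit 5) (nat_lit 485) (nat_lit 405) (nat_lit 250)) (XT.nd (nat_lit 78) (nat_lit 380)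 (nat_lit 0) (XT.lf (nat_lit 0) (nat_lit 2202610098) (nat_lit 532) (nat_lit 6721385198) (nat_lit 76) (nat_lit 7998940444) (nat_lit 164) (nat_lit 5) (nat_lit 171) (nat_lit 5) (nat_lit 165) (nat_lit 5) (nat_lit 486) (nat_lit 405) (nat_lit 249)) (XT.lf (nat_lit 0) (nat_lit 3277040966) (nat_lit 380) (nat_lit 2725071851) (nat_lit 456) (nat_lit 11127293730) (nat_lit 159) (nat_lit 5) (nat_lit 164) (nat_lit 5) (nat_lit 165) (nat_lit 5) (nat_lit 487) (nat_lit 405) (nat_lit 248)))) (XT.nd (nat_lit 78) (nat_lit 456) (nat_lit 0) (XT.lf (nat_lit 0) (nat_lit 9935335336) (nat_lit 456) (nat_lit 3812690238) (nat_lit 76) (nat_lit 3590828017) (nat_lit 159) (nat_lit 5) (nat_lit 165) (nat_lit 5) (nat_lit 160) (nat_lit 5) (nat_lit 488) (nat_lit 405) (nat_lit 247)) (XT.nd (nat_lit 78) (nat_lit 76) (nat_lit 0) (XT.lf (nat_lit 0) (nat_lit 6478548967) (nat_lit 380) (nat_lit 7517967041) (nat_lit 456) (nat_lit 3554989081) (nat_lit 154) (nat_lit 5) (nat_lit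 159) (nat_lit 5) (nat_lit 160) (nat_lit 5) (nat_lit 489) (nat_lit 405) (nat_lit 246)) (XT.lf (nat_lit 0) (nat_lit 380625446) (nat_lit 456) (nat_lit 759366474) (nat_lit 76) (nat_lit 16628071439) (nat_lit 153) (nat_lit 5) (nat_lit 159) (nat_lit 5) (nat_lit 154) (nat_lit 5) (nat_lit 490) (nat_lit 405) (nat_lit 245)))))) (XT.nd (nat_lit 468) (nat_lit 1064) (nat_lit 0) (XT.nd (nat_lit 234) (nat_lit 836) (nat_lit 0) (XT.nd (nat_lit 78) (nat_lit 380) (nat_lit 0) (XT.lf (nat_lit 0) (nat_lit 4436162501) (nat_lit 456) (nat_lit 8172528261) (nat_lit 76) (nat_lit 5378017141) (nat_lit 148) (nat_lit 5) (nat_lit 154) (nat_lit 5) (nat_lit 149) (nat_lit 5) (nat_lit 491) (nat_lit 405) (nat_lit 244)) (XT.nd (nat_lit 78) (nat_lit 0) (nat_lit 0) (XT.lf (nat_lit 0) (nat_lit 2407920823) (nat_lit 380) (nat_lit 6182703718) (nat_lit 456) (nat_lit 9618745793) (nat_lit 143) (nat_lit 5) (nat_lit 148) (nat_lit 5) (nat_lit 149) (nat_lit 5) (nat_lit 492) (nat_lit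 405) (nat_lit 243)) (XT.lf (nat_lit 0) (nat_lit 12875363979) (nat_lit 456) (nat_lit 5143418450) (nat_lit 76) (nat_lit 416761081) (nat_lit 143) (nat_lit 5) (nat_lit 149) (nat_lit 5) (nat_lit 144) (nat_lit 5) (nat_lit 493) (nat_lit 405) (nat_lit 242)))) (XT.nd (nat_lit 78) (nat_lit 456) (nat_lit 0) (XT.lf (nat_lit 0) (nat_lit 5746496719) (nat_lit 380) (nat_lit 11567330147) (nat_lit 456) (nat_lit 1351053940) (nat_lit 138) (nat_lit 5) (nat_lit 143) (nat_lit 5) (nat_lit 144) (nat_lit 5) (nat_lit 494) (nat_lit 405) (nat_lit 241)) (XT.nd (nat_lit 78) (nat_lit 380) (nat_lit 0) (XT.lf (nat_lit 0) (nat_lit 2928214134) (nat_lit 456) (nat_lit 2009246806) (nat_lit 76) (nat_lit 13960472071) (nat_lit 137) (nat_lit 5) (nat_lit 143) (nat_lit 5) (nat_lit 138) (nat_lit 5) (nat_lit 495) (nat_lit 405) (nat_lit 240)) (XT.lf (nat_lit 0) (nat_lit 7337094688) (nat_lit 456) (nat_lit 9932187585) (nat_lit 76) (nat_lit 1864944185) (nat_lit 132) (nat_lit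 5) (nat_lit 138) (nat_lit 5) (nat_lit 133) (nat_lit 5) (nat_lit 496) (nat_lit 405) (nat_lit 239))))) (XT.nd (nat_lit 234) (nat_lit 304) (nat_lit 0) (XT.nd (nat_lit 78) (nat_lit 456) (nat_lit 0) (XT.lf (nat_lit 0) (nat_lit 1258036499) (nat_lit 304) (nat_lit 10620620939) (nat_lit 380) (nat_lit 7495699382) (nat_lit 128) (nat_lit 5) (nat_lit 132) (nat_lit 5) (nat_lit 133) (nat_lit 5) (nat_lit 497) (nat_lit 405) (nat_lit 238)) (XT.nd (nat_lit 78) (nat_lit 456) (nat_lit 0) (XT.lf (nat_lit 0) (nat_lit 12791315167) (nat_lit 304) (nat_lit 3776547158) (nat_lit 380) (nat_lit 3050292364) (nat_lit 128) (nat_lit 5) (nat_lit 132) (nat_lit 5) (nat_lit 133) (nat_lit 5) (nat_lit 498) (nat_lit 405) (nat_lit 237)) (XT.lf (nat_lit 0) (nat_lit 1506566109) (nat_lit 456) (nat_lit 15161693518) (nat_lit 76) (nat_lit 3197537126) (nat_lit 122) (nat_lit 5) (nat_lit 128) (nat_lit 5) (nat_lit 123) (nat_lit 5) (nat_lit 499) (nat_lit 405) (nat_lit 236))))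 (XT.nd (nat_lit 78) (nat_lit 304) (nat_lit 0) (XT.lf (nat_lit 0) (nat_lit 6175227120) (nat_lit 456) (nat_lit 3620054721) (nat_lit 76) (nat_lit 10321477444) (nat_lit 122) (nat_lit 5) (nat_lit 128) (nat_lit 5) (nat_lit 123) (nat_lit 5) (nat_lit 500) (nat_lit 405) (nat_lit 235)) (XT.nd (nat_lit 78) (nat_lit 0) (nat_lit 0) (XT.lf (nat_lit 0) (nat_lit 8245589129) (nat_lit 304) (nat_lit 2735742643) (nat_lit 380) (nat_lit 9390528919) (nat_lit 118) (nat_lit 5) (nat_lit 122) (nat_lit 5) (nat_lit 123) (nat_lit 5) (nat_lit 501) (nat_lit 405) (nat_lit 234)) (XT.lf (nat_lit 0) (nat_lit 15927589480) (nat_lit 380) (nat_lit 278136639) (nat_lit 76) (nat_lit 4425458400) (nat_lit 118) (nat_lit 5) (nat_lit 123) (nat_lit 5) (nat_lit 119) (nat_lit 5) (nat_lit 502) (nat_lit 405) (nat_lit 233))))))) (XT.nd (nat_lit 52104) (nat_lit 0) (nat_lit 33896) (XT.nd (nat_lit 468) (nat_lit 532) (nat_lit 0) (XT.nd (nat_lit 234) (nat_lit 684) (nat_lit 0) (XT.nd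 (nat_lit 78) (nat_lit 304) (nat_lit 0) (XT.lf (nat_lit 0) (nat_lit 162988790) (nat_lit 380) (nat_lit 8964455709) (nat_lit 76) (nat_lit 11766502843) (nat_lit 113) (nat_lit 5) (nat_lit 118) (nat_lit 5) (nat_lit 114) (nat_lit 5) (nat_lit 503) (nat_lit 405) (nat_lit 232)) (XT.nd (nat_lit 78) (nat_lit 0) (nat_lit 0) (XT.lf (nat_lit 0) (nat_lit 3219419634) (nat_lit 304) (nat_lit 1858140735) (nat_lit 380) (nat_lit 16083511447) (nat_lit 109) (nat_lit 5) (nat_lit 113) (nat_lit 5) (nat_lit 114) (nat_lit 5) (nat_lit 504) (nat_lit 405) (nat_lit 231)) (XT.lf (nat_lit 0) (nat_lit 10177901007) (nat_lit 380) (nat_lit 5715129263) (nat_lit 76) (nat_lit 5538759891) (nat_lit 109) (nat_lit 5) (nat_lit 114) (nat_lit 5) (nat_lit 110) (nat_lit 5) (nat_lit 505) (nat_lit 405) (nat_lit 230)))) (XT.nd (nat_lit 78) (nat_lit 380) (nat_lit 0) (XT.lf (nat_lit 0) (nat_lit 6818528637) (nat_lit 304) (nat_lit 8609321507) (nat_lit 380) (nat_lit 6279121612) (nat_lit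 105) (nat_lit 5) (nat_lit 109) (nat_lit 5) (nat_lit 110) (nat_lit 5) (nat_lit 506) (nat_lit 405) (nat_lit 229)) (XT.nd (nat_lit 78) (nat_lit 380) (nat_lit 0) (XT.lf (nat_lit 0) (nat_lit 19665909139) (nat_lit 304) (nat_lit 1146348697) (nat_lit 380) (nat_lit 1174810853) (nat_lit 105) (nat_lit 5) (nat_lit 109) (nat_lit 5) (nat_lit 110) (nat_lit 5) (nat_lit 507) (nat_lit 405) (nat_lit 228)) (XT.lf (nat_lit 0) (nat_lit 4081305432) (nat_lit 380) (nat_lit 11717611570) (nat_lit 76) (nat_lit 6471276022) (nat_lit 100) (nat_lit 5) (nat_lit 105) (nat_lit 5) (nat_lit 101) (nat_lit 5) (nat_lit 508) (nat_lit 405) (nat_lit 227))))) (XT.nd (nat_lit 51402) (nat_lit 0) (nat_lit 36480) (XT.nd (nat_lit 156) (nat_lit 228) (nat_lit 0) (XT.lf (nat_lit 0) (nat_lit 1141791749) (nat_lit 304) (nat_lit 8306989067) (nat_lit 380) (nat_lit 13109605216) (nat_lit 96) (nat_lit 5) (nat_lit 100) (nat_lit 5) (nat_lit 101) (nat_lit 5) (nat_lit 509) (nat_lit 405)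 (nat_lit 226)) (XT.nd (nat_lit 51168) (nat_lit 0) (nat_lit 36480) (XT.lf (nat_lit 0) (nat_lit 4781481469) (nat_lit 228) (nat_lit 15937596687) (nat_lit 304) (nat_lit 2428880217) (nat_lit 93) (nat_lit 5) (nat_lit 96) (nat_lit 5) (nat_lit 97) (nat_lit 5) (nat_lit 511) (nat_lit 405) (nat_lit 224)) (XT.lf (nat_lit 0) (nat_lit 937383583) (nat_lit 0) (nat_lit 937383583) (nat_lit 1292) (nat_lit 1992772308) (nat_lit 573) (nat_lit 5) (nat_lit 573) (nat_lit 3) (nat_lit 590) (nat_lit 3) (nat_lit 406) (nat_lit 406) (nat_lit 328)))) (XT.nd (nat_lit 78) (nat_lit 0) (nat_lit 0) (XT.lf (nat_lit 0) (nat_lit 5108801570) (nat_lit 1292) (nat_lit 2083771339) (nat_lit 1368) (nat_lit 593074058) (nat_lit 573) (nat_lit 5) (nat_lit 590) (nat_lit 3) (nat_lit 591) (nat_lit 5) (nat_lit 407) (nat_lit 406) (nat_lit 327)) (XT.nd (nat_lit 78) (nat_lit 0) (nat_lit 0) (XT.lf (nat_lit 76) (nat_lit 1760881719) (nat_lit 0) (nat_lit 4723764937) (nat_lit 1368) (nat_lit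 1352800953) (nat_lit 574) (nat_lit 5) (nat_lit 573) (nat_lit 5) (nat_lit 591) (nat_lit 5) (nat_lit 408) (nat_lit 406) (nat_lit 326)) (XT.lf (nat_lit 76) (nat_lit 5692696167) (nat_lit 0) (nat_lit 2175398575) (nat_lit 1368) (nat_lit 22596730) (nat_lit 574) (nat_lit 5) (nat_lit 573) (nat_lit 5) (nat_lit 591) (nat_lit 5) (nat_lit 409) (nat_lit 406) (nat_lit 325)))))) (XT.nd (nat_lit 468) (nat_lit 1292) (nat_lit 0) (XT.nd (nat_lit 234) (nat_lit 0) (nat_lit 76) (XT.nd (nat_lit 78) (nat_lit 0) (nat_lit 0) (XT.lf (nat_lit 0) (nat_lit 1297627946) (nat_lit 1368) (nat_lit 6193847031) (nat_lit 1444) (nat_lit 453742273) (nat_lit 556) (nat_lit 5) (nat_lit 574) (nat_lit 5) (nat_lit 575) (nat_lit 5) (nat_lit 410) (nat_lit 406) (nat_lit 324)) (XT.nd (nat_lit 78) (nat_lit 0) (nat_lit 0) (XT.lf (nat_lit 0) (nat_lit 2640384291) (nat_lit 1368) (nat_lit 2224398588) (nat_lit 1444) (nat_lit 3136127501) (nat_lit 556) (nat_lit 5) (nat_lit 574) (nat_lit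 5) (nat_lit 575) (nat_lit 5) (nat_lit 411) (nat_lit 406) (nat_lit 323)) (XT.lf (nat_lit 76) (nat_lit 1830084278) (nat_lit 0) (nat_lit 2159612686) (nat_lit 1444) (nat_lit 4068434635) (nat_lit 557) (nat_lit 5) (nat_lit 556) (nat_lit 5) (nat_lit 575) (nat_lit 5) (nat_lit 412) (nat_lit 406) (nat_lit 322)))) (XT.nd (nat_lit 78) (nat_lit 0) (nat_lit 0) (XT.lf (nat_lit 0) (nat_lit 5353333921) (nat_lit 1368) (nat_lit 2143346180) (nat_lit 1444) (nat_lit 620078472) (nat_lit 557) (nat_lit 5) (nat_lit 575) (nat_lit 5) (nat_lit 576) (nat_lit 5) (nat_lit 413) (nat_lit 406) (nat_lit 321)) (XT.nd (nat_lit 78) (nat_lit 0) (nat_lit 0) (XT.lf (nat_lit 76) (nat_lit 2016602534) (nat_lit 0) (nat_lit 4724074406) (nat_lit 1444) (nat_lit 1435960409) (nat_lit 558) (nat_lit 5) (nat_lit 557) (nat_lit 5) (nat_lit 576) (nat_lit 5) (nat_lit 414) (nat_lit 406) (nat_lit 320)) (XT.lf (nat_lit 76) (nat_lit 6270333678) (nat_lit 0) (nat_lit 1869341430) (nat_lit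 1444) (nat_lit 98368205) (nat_lit 558) (nat_lit 5) (nat_lit 557) (nat_lit 5) (nat_lit 576) (nat_lit 5) (nat_lit 415) (nat_lit 406) (nat_lit 319))))) (XT.nd (nat_lit 234) (nat_lit 0) (nat_lit 76) (XT.nd (nat_lit 78) (nat_lit 0) (nat_lit 0) (XT.lf (nat_lit 0) (nat_lit 1241298632) (nat_lit 1444) (nat_lit 5995769174) (nat_lit 1520) (nat_lit 1063614145) (nat_lit 539) (nat_lit 5) (nat_lit 558) (nat_lit 5) (nat_lit 559) (nat_lit 5) (nat_lit 416) (nat_lit 406) (nat_lit 318)) (XT.nd (nat_lit 78) (nat_lit 0) (nat_lit 0) (XT.lf (nat_lit 0) (nat_lit 2602575180) (nat_lit 1444) (nat_lit 1706833309) (nat_lit 1520) (nat_lit 4055236526) (nat_lit 539) (nat_lit 5) (nat_lit 558) (nat_lit 5) (nat_lit 559) (nat_lit 5) (nat_lit 417) (nat_lit 406) (nat_lit 317)) (XT.lf (nat_lit 76) (nat_lit 2684395585) (nat_lit 0) (nat_lit 1295150486) (nat_lit 1520) (nat_lit 4450579078) (nat_lit 540) (nat_lit 5) (nat_lit 539) (nat_lit 5) (nat_lit 559) (nat_lit 5)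 (nat_lit 418) (nat_lit 406) (nat_lit 316)))) (XT.nd (nat_lit 78) (nat_lit 0) (nat_lit 0) (XT.lf (nat_lit 0) (nat_lit 5378690761) (nat_lit 1444) (nat_lit 1340939931) (nat_lit 1520) (nat_lit 1777398549) (nat_lit 540) (nat_lit 5) (nat_lit 559) (nat_lit 5) (nat_lit 560) (nat_lit 5) (nat_lit 419) (nat_lit 406) (nat_lit 315)) (XT.nd (nat_lit 78) (nat_lit 0) (nat_lit 0) (XT.lf (nat_lit 76) (nat_lit 3166057534) (nat_lit 0) (nat_lit 3641003698) (nat_lit 1520) (nat_lit 1758192229) (nat_lit 541) (nat_lit 5) (nat_lit 540) (nat_lit 5) (nat_lit 560) (nat_lit 5) (nat_lit 420) (nat_lit 406) (nat_lit 314)) (XT.lf (nat_lit 76) (nat_lit 7762661432) (nat_lit 0) (nat_lit 482871071) (nat_lit 1520) (nat_lit 389685763) (nat_lit 541) (nat_lit 5) (nat_lit 540) (nat_lit 5) (nat_lit 560) (nat_lit 5) (nat_lit 421) (nat_lit 406) (nat_lit 313))))))))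
noncomputable def xc152 : XT := (XT.nd (nat_lit 1794) (nat_lit 9348) (nat_lit 0) (XT.nd (nat_lit 858) (nat_lit 8588) (nat_lit 0) (XT.nd (nat_lit 390) (nat_lit 2964) (nat_lit 0) (XT.nd (nat_lit 156) (nat_lit 0) (nat_lit 76) (XT.nd (nat_lit 78) (nat_lit 0) (nat_lit 0) (XT.lf (nat_lit 0) (nat_lit 1008392173) (nat_lit 1520) (nat_lit 4955750147) (nat_lit 1596) (nat_lit 2742007943) (nat_lit 521) (nat_lit 5) (nat_lit 541) (nat_lit 5) (nat_lit 542) (nat_lit 5) (nat_lit 422) (nat_lit 406) (nat_lit 312)) (XT.lf (nat_lit 0) (nat_lit 2411662798) (nat_lit 1520) (nat_lit 325737362) (nat_lit 1596) (nat_lit 6041406621) (nat_lit 521) (nat_lit 5) (nat_lit 541) (nat_lit 5) (nat_lit 542) (nat_lit 5) (nat_lit 423) (nat_lit 406) (nat_lit 311))) (XT.nd (nat_lit 78) (nat_lit 0) (nat_lit 0) (XT.lf (nat_lit 0) (nat_lit 3849511092) (nat_lit 1520) (nat_lit 4420449735) (nat_lit 1596) (nat_lit 582831613) (nat_lit 522) (nat_lit 5) (nat_lit 542) (nat_lit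 5) (nat_lit 543) (nat_lit 5) (nat_lit 424) (nat_lit 406) (nat_lit 310)) (XT.nd (nat_lit 78) (nat_lit 0) (nat_lit 0) (XT.lf (nat_lit 76) (nat_lit 328706795) (nat_lit 0) (nat_lit 4984184069) (nat_lit 1596) (nat_lit 3615437587) (nat_lit 523) (nat_lit 5) (nat_lit 522) (nat_lit 5) (nat_lit 543) (nat_lit 5) (nat_lit 425) (nat_lit 406) (nat_lit 309)) (XT.lf (nat_lit 76) (nat_lit 5213646406) (nat_lit 0) (nat_lit 1596246432) (nat_lit 1596) (nat_lit 2195401264) (nat_lit 523) (nat_lit 5) (nat_lit 522) (nat_lit 5) (nat_lit 543) (nat_lit 5) (nat_lit 426) (nat_lit 406) (nat_lit 308))))) (XT.nd (nat_lit 234) (nat_lit 1520) (nat_lit 0) (XT.nd (nat_lit 78) (nat_lit 1596) (nat_lit 0) (XT.lf (nat_lit 76) (nat_lit 1095493513) (nat_lit 0) (nat_lit 7235753500) (nat_lit 1596) (nat_lit 752669704) (nat_lit 524) (nat_lit 5) (nat_lit 523) (nat_lit 5) (nat_lit 544) (nat_lit 5) (nat_lit 427) (nat_lit 406) (nat_lit 307)) (XT.nd (nat_lit 78) (nat_lit 0)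 (nat_lit 0) (XT.lf (nat_lit 0) (nat_lit 721092077) (nat_lit 1596) (nat_lit 3066728389) (nat_lit 1672) (nat_lit 5375971541) (nat_lit 502) (nat_lit 5) (nat_lit 523) (nat_lit 5) (nat_lit 524) (nat_lit 5) (nat_lit 428) (nat_lit 406) (nat_lit 306)) (XT.lf (nat_lit 76) (nat_lit 1954944952) (nat_lit 0) (nat_lit 247910751) (nat_lit 1672) (nat_lit 7042543055) (nat_lit 503) (nat_lit 5) (nat_lit 502) (nat_lit 5) (nat_lit 524) (nat_lit 5) (nat_lit 429) (nat_lit 406) (nat_lit 305)))) (XT.nd (nat_lit 78) (nat_lit 1596) (nat_lit 0) (XT.lf (nat_lit 0) (nat_lit 3733086560) (nat_lit 1596) (nat_lit 2251069648) (nat_lit 76) (nat_lit 3344110239) (nat_lit 503) (nat_lit 5) (nat_lit 524) (nat_lit 5) (nat_lit 504) (nat_lit 5) (nat_lit 430) (nat_lit 406) (nat_lit 304)) (XT.nd (nat_lit 78) (nat_lit 0) (nat_lit 0) (XT.lf (nat_lit 0) (nat_lit 2906465625) (nat_lit 1596) (nat_lit 2384716748) (nat_lit 1672) (nat_lit 4121669248) (nat_lit 482) (nat_lit 5) (nat_lit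 503) (nat_lit 5) (nat_lit 504) (nat_lit 5) (nat_lit 431) (nat_lit 406) (nat_lit 303)) (XT.lf (nat_lit 0) (nat_lit 6881106203) (nat_lit 1672) (nat_lit 1329092157) (nat_lit 76) (nat_lit 1288922050) (nat_lit 482) (nat_lit 5) (nat_lit 504) (nat_lit 5) (nat_lit 483) (nat_lit 5) (nat_lit 432) (nat_lit 406) (nat_lit 302)))))) (XT.nd (nat_lit 468) (nat_lit 2736) (nat_lit 0) (XT.nd (nat_lit 234) (nat_lit 2356) (nat_lit 0) (XT.nd (nat_lit 78) (nat_lit 1824) (nat_lit 0) (XT.lf (nat_lit 0) (nat_lit 3968912639) (nat_lit 1672) (nat_lit 4553032423) (nat_lit 1748) (nat_lit 1064792312) (nat_lit 460) (nat_lit 5) (nat_lit 482) (nat_lit 5) (nat_lit 483) (nat_lit 5) (nat_lit 433) (nat_lit 406) (nat_lit 301)) (XT.nd (nat_lit 78) (nat_lit 1748) (nat_lit 0) (XT.lf (nat_lit 0) (nat_lit 499379082) (nat_lit 1748) (nat_lit 307737024) (nat_lit 76) (nat_lit 8869194079) (nat_lit 459) (nat_lit 5) (nat_lit 482) (nat_lit 5) (nat_lit 460) (nat_lit 5) (nat_lit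 434) (nat_lit 406) (nat_lit 300)) (XT.lf (nat_lit 0) (nat_lit 2112039434) (nat_lit 1824) (nat_lit 4637007312) (nat_lit 76) (nat_lit 3017862511) (nat_lit 436) (nat_lit 5) (nat_lit 460) (nat_lit 5) (nat_lit 437) (nat_lit 5) (nat_lit 435) (nat_lit 406) (nat_lit 299)))) (XT.nd (nat_lit 78) (nat_lit 912) (nat_lit 0) (XT.lf (nat_lit 0) (nat_lit 807192015) (nat_lit 1444) (nat_lit 2940907304) (nat_lit 1520) (nat_lit 6111402806) (nat_lit 417) (nat_lit 5) (nat_lit 436) (nat_lit 5) (nat_lit 437) (nat_lit 5) (nat_lit 436) (nat_lit 406) (nat_lit 298)) (XT.nd (nat_lit 78) (nat_lit 912) (nat_lit 0) (XT.lf (nat_lit 0) (nat_lit 5433121732) (nat_lit 1520) (nat_lit 3556062721) (nat_lit 76) (nat_lit 964442217) (nat_lit 417) (nat_lit 5) (nat_lit 437) (nat_lit 5) (nat_lit 418) (nat_lit 5) (nat_lit 437) (nat_lit 406) (nat_lit 297)) (XT.lf (nat_lit 0) (nat_lit 2038209826) (nat_lit 912) (nat_lit 5125553554) (nat_lit 988) (nat_lit 2885636505) (nat_lit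 405) (nat_lit 5) (nat_lit 417) (nat_lit 5) (nat_lit 418) (nat_lit 5) (nat_lit 438) (nat_lit 406) (nat_lit 296))))) (XT.nd (nat_lit 234) (nat_lit 1748) (nat_lit 0) (XT.nd (nat_lit 78) (nat_lit 988) (nat_lit 0) (XT.lf (nat_lit 0) (nat_lit 7773542141) (nat_lit 912) (nat_lit 1158832059) (nat_lit 988) (nat_lit 1214651706) (nat_lit 405) (nat_lit 5) (nat_lit 417) (nat_lit 5) (nat_lit 418) (nat_lit 5) (nat_lit 439) (nat_lit 406) (nat_lit 295)) (XT.nd (nat_lit 78) (nat_lit 0) (nat_lit 0) (XT.lf (nat_lit 0) (nat_lit 504080526) (nat_lit 988) (nat_lit 6865978030) (nat_lit 76) (nat_lit 2876071567) (nat_lit 392) (nat_lit 5) (nat_lit 405) (nat_lit 5) (nat_lit 393) (nat_lit 5) (nat_lit 440) (nat_lit 406) (nat_lit 294)) (XT.lf (nat_lit 0) (nat_lit 2244685881) (nat_lit 988) (nat_lit 1100903725) (nat_lit 76) (nat_lit 7001395197) (nat_lit 392) (nat_lit 5) (nat_lit 405) (nat_lit 5) (nat_lit 393) (nat_lit 5) (nat_lit 441) (nat_lit 406) (nat_lit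 293)))) (XT.nd (nat_lit 78) (nat_lit 836) (nat_lit 0) (XT.lf (nat_lit 0) (nat_lit 4036997415) (nat_lit 988) (nat_lit 5630868798) (nat_lit 76) (nat_lit 781656610) (nat_lit 380) (nat_lit 5) (nat_lit 393) (nat_lit 5) (nat_lit 381) (nat_lit 5) (nat_lit 442) (nat_lit 406) (nat_lit 292)) (XT.nd (nat_lit 78) (nat_lit 0) (nat_lit 0) (XT.lf (nat_lit 0) (nat_lit 279919077) (nat_lit 836) (nat_lit 5597343971) (nat_lit 912) (nat_lit 4676610442) (nat_lit 369) (nat_lit 5) (nat_lit 380) (nat_lit 5) (nat_lit 381) (nat_lit 5) (nat_lit 443) (nat_lit 406) (nat_lit 291)) (XT.lf (nat_lit 0) (nat_lit 6366267253) (nat_lit 836) (nat_lit 1406805721) (nat_lit 912) (nat_lit 2886867384) (nat_lit 369) (nat_lit 5) (nat_lit 380) (nat_lit 5) (nat_lit 381) (nat_lit 5) (nat_lit 444) (nat_lit 406) (nat_lit 290))))))) (XT.nd (nat_lit 858) (nat_lit 4636) (nat_lit 0) (XT.nd (nat_lit 390) (nat_lit 2280) (nat_lit 0) (XT.nd (nat_lit 156) (nat_lit 1520) (nat_lit 0)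 (XT.nd (nat_lit 78) (nat_lit 76) (nat_lit 0) (XT.lf (nat_lit 0) (nat_lit 1792110779) (nat_lit 836) (nat_lit 7926268645) (nat_lit 912) (nat_lit 1049521419) (nat_lit 358) (nat_lit 5) (nat_lit 369) (nat_lit 5) (nat_lit 370) (nat_lit 5) (nat_lit 445) (nat_lit 406) (nat_lit 289)) (XT.lf (nat_lit 0) (nat_lit 833521890) (nat_lit 912) (nat_lit 2853607457) (nat_lit 76) (nat_lit 7190392559) (nat_lit 357) (nat_lit 5) (nat_lit 369) (nat_lit 5) (nat_lit 358) (nat_lit 5) (nat_lit 446) (nat_lit 406) (nat_lit 288))) (XT.nd (nat_lit 78) (nat_lit 760) (nat_lit 0) (XT.lf (nat_lit 0) (nat_lit 2748458456) (nat_lit 836) (nat_lit 7583392392) (nat_lit 76) (nat_lit 657183750) (nat_lit 347) (nat_lit 5) (nat_lit 358) (nat_lit 5) (nat_lit 348) (nat_lit 5) (nat_lit 447) (nat_lit 406) (nat_lit 287)) (XT.nd (nat_lit 78) (nat_lit 760) (nat_lit 0) (XT.lf (nat_lit 0) (nat_lit 4727427838) (nat_lit 836) (nat_lit 1317155840) (nat_lit 76) (nat_lit 5057682776) (nat_lit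 347) (nat_lit 5) (nat_lit 358) (nat_lit 5) (nat_lit 348) (nat_lit 5) (nat_lit 448) (nat_lit 406) (nat_lit 286)) (XT.lf (nat_lit 0) (nat_lit 5122991798) (nat_lit 760) (nat_lit 1638638812) (nat_lit 836) (nat_lit 4455822778) (nat_lit 337) (nat_lit 5) (nat_lit 347) (nat_lit 5) (nat_lit 348) (nat_lit 5) (nat_lit 449) (nat_lit 406) (nat_lit 285))))) (XT.nd (nat_lit 234) (nat_lit 684) (nat_lit 0) (XT.nd (nat_lit 78) (nat_lit 836) (nat_lit 0) (XT.lf (nat_lit 0) (nat_lit 342094082) (nat_lit 760) (nat_lit 8506691399) (nat_lit 836) (nat_lit 2485916672) (nat_lit 327) (nat_lit 5) (nat_lit 337) (nat_lit 5) (nat_lit 338) (nat_lit 5) (nat_lit 450) (nat_lit 406) (nat_lit 284)) (XT.nd (nat_lit 78) (nat_lit 836) (nat_lit 0) (XT.lf (nat_lit 0) (nat_lit 6960296419) (nat_lit 760) (nat_lit 4051894436) (nat_lit 836) (nat_lit 441418275) (nat_lit 327) (nat_lit 5) (nat_lit 337) (nat_lit 5) (nat_lit 338) (nat_lit 5) (nat_lit 451) (nat_lit 406) (nat_lit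 283)) (XT.lf (nat_lit 0) (nat_lit 1622667343) (nat_lit 836) (nat_lit 9443362151) (nat_lit 76) (nat_lit 508649367) (nat_lit 316) (nat_lit 5) (nat_lit 327) (nat_lit 5) (nat_lit 317) (nat_lit 5) (nat_lit 452) (nat_lit 406) (nat_lit 282)))) (XT.nd (nat_lit 78) (nat_lit 684) (nat_lit 0) (XT.lf (nat_lit 0) (nat_lit 3762568811) (nat_lit 836) (nat_lit 2796943783) (nat_lit 76) (nat_lit 5137793332) (nat_lit 316) (nat_lit 5) (nat_lit 327) (nat_lit 5) (nat_lit 317) (nat_lit 5) (nat_lit 453) (nat_lit 406) (nat_lit 281)) (XT.nd (nat_lit 78) (nat_lit 0) (nat_lit 0) (XT.lf (nat_lit 0) (nat_lit 4016683577) (nat_lit 684) (nat_lit 1938245356) (nat_lit 760) (nat_lit 5867266514) (nat_lit 307) (nat_lit 5) (nat_lit 316) (nat_lit 5) (nat_lit 317) (nat_lit 5) (nat_lit 454) (nat_lit 406) (nat_lit 280)) (XT.lf (nat_lit 0) (nat_lit 8211821081) (nat_lit 760) (nat_lit 981446760) (nat_lit 76) (nat_lit 2755904286) (nat_lit 307) (nat_lit 5) (nat_lit 317) (nat_lit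 5) (nat_lit 308) (nat_lit 5) (nat_lit 455) (nat_lit 406) (nat_lit 279)))))) (XT.nd (nat_lit 468) (nat_lit 1900) (nat_lit 0) (XT.nd (nat_lit 234) (nat_lit 1292) (nat_lit 0) (XT.nd (nat_lit 78) (nat_lit 760) (nat_lit 0) (XT.lf (nat_lit 0) (nat_lit 6027082575) (nat_lit 684) (nat_lit 4522826096) (nat_lit 760) (nat_lit 1528061523) (nat_lit 298) (nat_lit 5) (nat_lit 307) (nat_lit 5) (nat_lit 308) (nat_lit 5) (nat_lit 456) (nat_lit 406) (nat_lit 278)) (XT.nd (nat_lit 78) (nat_lit 0) (nat_lit 0) (XT.lf (nat_lit 0) (nat_lit 714666825) (nat_lit 760) (nat_lit 11241461235) (nat_lit 76) (nat_lit 253149516) (nat_lit 288) (nat_lit 5) (nat_lit 298) (nat_lit 5) (nat_lit 289) (nat_lit 5) (nat_lit 457) (nat_lit 406) (nat_lit 277)) (XT.lf (nat_lit 0) (nat_lit 3036986700) (nat_lit 760) (nat_lit 4192323038) (nat_lit 76) (nat_lit 5112598235) (nat_lit 288) (nat_lit 5) (nat_lit 298) (nat_lit 5) (nat_lit 289) (nat_lit 5) (nat_lit 458) (nat_lit 406)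 (nat_lit 276)))) (XT.nd (nat_lit 78) (nat_lit 608) (nat_lit 0) (XT.lf (nat_lit 0) (nat_lit 3019260008) (nat_lit 684) (nat_lit 2390755356) (nat_lit 760) (nat_lit 7067093144) (nat_lit 279) (nat_lit 5) (nat_lit 288) (nat_lit 5) (nat_lit 289) (nat_lit 5) (nat_lit 459) (nat_lit 406) (nat_lit 275)) (XT.nd (nat_lit 78) (nat_lit 608) (nat_lit 0) (XT.lf (nat_lit 0) (nat_lit 7860169247) (nat_lit 760) (nat_lit 2217559014) (nat_lit 76) (nat_lit 2536694221) (nat_lit 279) (nat_lit 5) (nat_lit 289) (nat_lit 5) (nat_lit 280) (nat_lit 5) (nat_lit 460) (nat_lit 406) (nat_lit 274)) (XT.lf (nat_lit 0) (nat_lit 5201983266) (nat_lit 608) (nat_lit 5192072646) (nat_lit 684) (nat_lit 2359734899) (nat_lit 271) (nat_lit 5) (nat_lit 279) (nat_lit 5) (nat_lit 280) (nat_lit 5) (nat_lit 461) (nat_lit 406) (nat_lit 273))))) (XT.nd (nat_lit 234) (nat_lit 608) (nat_lit 0) (XT.nd (nat_lit 78) (nat_lit 1216) (nat_lit 0) (XT.lf (nat_lit 0) (nat_lit 81767251) (nat_lit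 684) (nat_lit 114334559) (nat_lit 76) (nat_lit 12699832971) (nat_lit 270) (nat_lit 5) (nat_lit 279) (nat_lit 5) (nat_lit 271) (nat_lit 5) (nat_lit 462) (nat_lit 406) (nat_lit 272)) (XT.nd (nat_lit 78) (nat_lit 608) (nat_lit 0) (XT.lf (nat_lit 0) (nat_lit 2607178370) (nat_lit 684) (nat_lit 5534700269) (nat_lit 76) (nat_lit 4897400034) (nat_lit 262) (nat_lit 5) (nat_lit 271) (nat_lit 5) (nat_lit 263) (nat_lit 5) (nat_lit 463) (nat_lit 406) (nat_lit 271)) (XT.lf (nat_lit 0) (nat_lit 2100363217) (nat_lit 608) (nat_lit 3084080557) (nat_lit 684) (nat_lit 8001021215) (nat_lit 254) (nat_lit 5) (nat_lit 262) (nat_lit 5) (nat_lit 263) (nat_lit 5) (nat_lit 464) (nat_lit 406) (nat_lit 270)))) (XT.nd (nat_lit 78) (nat_lit 608) (nat_lit 0) (XT.lf (nat_lit 0) (nat_lit 7849894587) (nat_lit 684) (nat_lit 3402368610) (nat_lit 76) (nat_lit 2081581448) (nat_lit 254) (nat_lit 5) (nat_lit 263) (nat_lit 5) (nat_lit 255) (nat_lit 5) (nat_lit 465)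 (nat_lit 406) (nat_lit 269)) (XT.nd (nat_lit 78) (nat_lit 0) (nat_lit 0) (XT.lf (nat_lit 0) (nat_lit 4454396158) (nat_lit 608) (nat_lit 6149664241) (nat_lit 684) (nat_lit 2880425745) (nat_lit 246) (nat_lit 5) (nat_lit 254) (nat_lit 5) (nat_lit 255) (nat_lit 5) (nat_lit 466) (nat_lit 406) (nat_lit 268)) (XT.lf (nat_lit 0) (nat_lit 12496913249) (nat_lit 608) (nat_lit 925448356) (nat_lit 684) (nat_lit 215600151) (nat_lit 246) (nat_lit 5) (nat_lit 254) (nat_lit 5) (nat_lit 255) (nat_lit 5) (nat_lit 467) (nat_lit 406) (nat_lit 267))))))))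
noncomputable def xc153 : XT := (XT.nd (nat_lit 1794) (nat_lit 4408) (nat_lit 0) (XT.nd (nat_lit 858) (nat_lit 3116) (nat_lit 0) (XT.nd (nat_lit 390) (nat_lit 2128) (nat_lit 0) (XT.nd (nat_lit 156) (nat_lit 532) (nat_lit 0) (XT.nd (nat_lit 78) (nat_lit 608) (nat_lit 0) (XT.lf (nat_lit 0) (nat_lit 2530283082) (nat_lit 608) (nat_lit 6859012801) (nat_lit 76) (nat_lit 4403676627) (nat_lit 238) (nat_lit 5) (nat_lit 246) (nat_lit 5) (nat_lit 239) (nat_lit 5) (nat_lit 468) (nat_lit 406) (nat_lit 266)) (XT.lf (nat_lit 0) (nat_lit 1226001651) (nat_lit 608) (nat_lit 4110523838) (nat_lit 684) (nat_lit 8614365109) (nat_lit 230) (nat_lit 5) (nat_lit 238) (nat_lit 5) (nat_lit 239) (nat_lit 5) (nat_lit 469) (nat_lit 406) (nat_lit 265))) (XT.nd (nat_lit 78) (nat_lit 532) (nat_lit 0) (XT.lf (nat_lit 0) (nat_lit 8240149980) (nat_lit 684) (nat_lit 4571532263) (nat_lit 76) (nat_lit 1299461806) (nat_lit 230) (nat_lit 5) (nat_lit 239) (nat_lit 5)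 (nat_lit 231) (nat_lit 5) (nat_lit 470) (nat_lit 406) (nat_lit 264)) (XT.nd (nat_lit 78) (nat_lit 0) (nat_lit 0) (XT.lf (nat_lit 0) (nat_lit 3749588662) (nat_lit 532) (nat_lit 7490741129) (nat_lit 608) (nat_lit 3033505226) (nat_lit 223) (nat_lit 5) (nat_lit 230) (nat_lit 5) (nat_lit 231) (nat_lit 5) (nat_lit 471) (nat_lit 406) (nat_lit 263)) (XT.lf (nat_lit 0) (nat_lit 12281956457) (nat_lit 532) (nat_lit 2036295372) (nat_lit 608) (nat_lit 121175266) (nat_lit 223) (nat_lit 5) (nat_lit 230) (nat_lit 5) (nat_lit 231) (nat_lit 5) (nat_lit 472) (nat_lit 406) (nat_lit 262))))) (XT.nd (nat_lit 234) (nat_lit 1064) (nat_lit 0) (XT.nd (nat_lit 78) (nat_lit 456) (nat_lit 0) (XT.lf (nat_lit 0) (nat_lit 2864250637) (nat_lit 608) (nat_lit 8205225046) (nat_lit 76) (nat_lit 3537442917) (nat_lit 215) (nat_lit 5) (nat_lit 223) (nat_lit 5) (nat_lit 216) (nat_lit 5) (nat_lit 473) (nat_lit 406) (nat_lit 261)) (XT.nd (nat_lit 78) (nat_lit 0) (nat_lit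 0) (XT.lf (nat_lit 0) (nat_lit 357019596) (nat_lit 456) (nat_lit 5568463816) (nat_lit 532) (nat_lit 8851908028) (nat_lit 209) (nat_lit 5) (nat_lit 215) (nat_lit 5) (nat_lit 216) (nat_lit 5) (nat_lit 474) (nat_lit 406) (nat_lit 260)) (XT.lf (nat_lit 0) (nat_lit 9091094528) (nat_lit 532) (nat_lit 5766286031) (nat_lit 76) (nat_lit 93032010) (nat_lit 209) (nat_lit 5) (nat_lit 216) (nat_lit 5) (nat_lit 210) (nat_lit 5) (nat_lit 475) (nat_lit 406) (nat_lit 259)))) (XT.nd (nat_lit 78) (nat_lit 532) (nat_lit 0) (XT.lf (nat_lit 0) (nat_lit 3047099260) (nat_lit 532) (nat_lit 9317276972) (nat_lit 608) (nat_lit 2761632591) (nat_lit 202) (nat_lit 5) (nat_lit 209) (nat_lit 5) (nat_lit 210) (nat_lit 5) (nat_lit 476) (nat_lit 406) (nat_lit 258)) (XT.nd (nat_lit 78) (nat_lit 456) (nat_lit 0) (XT.lf (nat_lit 0) (nat_lit 419485068) (nat_lit 608) (nat_lit 3209189602) (nat_lit 76) (nat_lit 11675858478) (nat_lit 201) (nat_lit 5) (nat_lit 209) (nat_lit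 5) (nat_lit 202) (nat_lit 5) (nat_lit 477) (nat_lit 406) (nat_lit 257)) (XT.lf (nat_lit 0) (nat_lit 3667904254) (nat_lit 532) (nat_lit 9620032833) (nat_lit 76) (nat_lit 2197514394) (nat_lit 195) (nat_lit 5) (nat_lit 202) (nat_lit 5) (nat_lit 196) (nat_lit 5) (nat_lit 478) (nat_lit 406) (nat_lit 256)))))) (XT.nd (nat_lit 468) (nat_lit 1672) (nat_lit 0) (XT.nd (nat_lit 234) (nat_lit 532) (nat_lit 0) (XT.nd (nat_lit 78) (nat_lit 912) (nat_lit 0) (XT.lf (nat_lit 0) (nat_lit 7015087041) (nat_lit 532) (nat_lit 545401086) (nat_lit 76) (nat_lit 8108825878) (nat_lit 195) (nat_lit 5) (nat_lit 202) (nat_lit 5) (nat_lit 196) (nat_lit 5) (nat_lit 479) (nat_lit 406) (nat_lit 255)) (XT.nd (nat_lit 78) (nat_lit 456) (nat_lit 0) (XT.lf (nat_lit 0) (nat_lit 8809903521) (nat_lit 456) (nat_lit 1664829591) (nat_lit 532) (nat_lit 5381211967) (nat_lit 189) (nat_lit 5) (nat_lit 195) (nat_lit 5) (nat_lit 196) (nat_lit 5) (nat_lit 480) (nat_lit 406)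 (nat_lit 254)) (XT.lf (nat_lit 0) (nat_lit 2298905225) (nat_lit 456) (nat_lit 11739924844) (nat_lit 532) (nat_lit 2006775206) (nat_lit 183) (nat_lit 5) (nat_lit 189) (nat_lit 5) (nat_lit 190) (nat_lit 5) (nat_lit 481) (nat_lit 406) (nat_lit 253)))) (XT.nd (nat_lit 78) (nat_lit 456) (nat_lit 0) (XT.lf (nat_lit 0) (nat_lit 1463405543) (nat_lit 532) (nat_lit 4349012170) (nat_lit 76) (nat_lit 10425514647) (nat_lit 182) (nat_lit 5) (nat_lit 189) (nat_lit 5) (nat_lit 183) (nat_lit 5) (nat_lit 482) (nat_lit 406) (nat_lit 252)) (XT.nd (nat_lit 78) (nat_lit 0) (nat_lit 0) (XT.lf (nat_lit 0) (nat_lit 5000884892) (nat_lit 532) (nat_lit 11158824214) (nat_lit 76) (nat_lit 273637834) (nat_lit 176) (nat_lit 5) (nat_lit 183) (nat_lit 5) (nat_lit 177) (nat_lit 5) (nat_lit 483) (nat_lit 406) (nat_lit 251)) (XT.lf (nat_lit 0) (nat_lit 8665752698) (nat_lit 532) (nat_lit 1537560314) (nat_lit 76) (nat_lit 6428225556) (nat_lit 176) (nat_lit 5) (nat_lit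 183) (nat_lit 5) (nat_lit 177) (nat_lit 5) (nat_lit 484) (nat_lit 406) (nat_lit 250))))) (XT.nd (nat_lit 234) (nat_lit 760) (nat_lit 0) (XT.nd (nat_lit 78) (nat_lit 532) (nat_lit 0) (XT.lf (nat_lit 0) (nat_lit 8369952883) (nat_lit 380) (nat_lit 4077297092) (nat_lit 456) (nat_lit 4385578915) (nat_lit 171) (nat_lit 5) (nat_lit 176) (nat_lit 5) (nat_lit 177) (nat_lit 5) (nat_lit 485) (nat_lit 406) (nat_lit 249)) (XT.nd (nat_lit 78) (nat_lit 76) (nat_lit 0) (XT.lf (nat_lit 0) (nat_lit 1447304108) (nat_lit 456) (nat_lit 14880022987) (nat_lit 532) (nat_lit 710360398) (nat_lit 165) (nat_lit 5) (nat_lit 171) (nat_lit 5) (nat_lit 172) (nat_lit 5) (nat_lit 486) (nat_lit 406) (nat_lit 248)) (XT.lf (nat_lit 0) (nat_lit 3071789816) (nat_lit 532) (nat_lit 5638280757) (nat_lit 76) (nat_lit 8534714050) (nat_lit 164) (nat_lit 5) (nat_lit 171) (nat_lit 5) (nat_lit 165) (nat_lit 5) (nat_lit 487) (nat_lit 406) (nat_lit 247)))) (XT.nd (nat_lit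 78) (nat_lit 380) (nat_lit 0) (XT.lf (nat_lit 0) (nat_lit 4552103852) (nat_lit 380) (nat_lit 2386852787) (nat_lit 456) (nat_lit 10516596829) (nat_lit 159) (nat_lit 5) (nat_lit 164) (nat_lit 5) (nat_lit 165) (nat_lit 5) (nat_lit 488) (nat_lit 406) (nat_lit 246)) (XT.nd (nat_lit 78) (nat_lit 380) (nat_lit 0) (XT.lf (nat_lit 0) (nat_lit 10937327696) (nat_lit 456) (nat_lit 2689519068) (nat_lit 76) (nat_lit 4042615068) (nat_lit 159) (nat_lit 5) (nat_lit 165) (nat_lit 5) (nat_lit 160) (nat_lit 5) (nat_lit 489) (nat_lit 406) (nat_lit 245)) (XT.lf (nat_lit 0) (nat_lit 7799653968) (nat_lit 380) (nat_lit 7272063545) (nat_lit 456) (nat_lit 2814811161) (nat_lit 154) (nat_lit 5) (nat_lit 159) (nat_lit 5) (nat_lit 160) (nat_lit 5) (nat_lit 490) (nat_lit 406) (nat_lit 244))))))) (XT.nd (nat_lit 936) (nat_lit 1672) (nat_lit 0) (XT.nd (nat_lit 468) (nat_lit 1444) (nat_lit 0) (XT.nd (nat_lit 234) (nat_lit 456) (nat_lit 0) (XT.nd (nat_lit 78)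 (nat_lit 380) (nat_lit 0) (XT.lf (nat_lit 0) (nat_lit 409516278) (nat_lit 380) (nat_lit 766319400) (nat_lit 456) (nat_lit 16931739825) (nat_lit 148) (nat_lit 5) (nat_lit 153) (nat_lit 5) (nat_lit 154) (nat_lit 5) (nat_lit 491) (nat_lit 406) (nat_lit 243)) (XT.nd (nat_lit 78) (nat_lit 380) (nat_lit 0) (XT.lf (nat_lit 0) (nat_lit 5304592986) (nat_lit 456) (nat_lit 7151952723) (nat_lit 76) (nat_lit 5874206943) (nat_lit 148) (nat_lit 5) (nat_lit 154) (nat_lit 5) (nat_lit 149) (nat_lit 5) (nat_lit 492) (nat_lit 406) (nat_lit 242)) (XT.lf (nat_lit 0) (nat_lit 3632315697) (nat_lit 380) (nat_lit 5902177100) (nat_lit 456) (nat_lit 9023530433) (nat_lit 143) (nat_lit 5) (nat_lit 148) (nat_lit 5) (nat_lit 149) (nat_lit 5) (nat_lit 493) (nat_lit 406) (nat_lit 241)))) (XT.nd (nat_lit 78) (nat_lit 456) (nat_lit 0) (XT.lf (nat_lit 0) (nat_lit 13892361429) (nat_lit 456) (nat_lit 4080456662) (nat_lit 76) (nat_lit 816154919) (nat_lit 143) (nat_lit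 5) (nat_lit 149) (nat_lit 5) (nat_lit 144) (nat_lit 5) (nat_lit 494) (nat_lit 406) (nat_lit 240)) (XT.nd (nat_lit 78) (nat_lit 76) (nat_lit 0) (XT.lf (nat_lit 0) (nat_lit 7019586875) (nat_lit 380) (nat_lit 11392634280) (nat_lit 456) (nat_lit 610825144) (nat_lit 138) (nat_lit 5) (nat_lit 143) (nat_lit 5) (nat_lit 144) (nat_lit 5) (nat_lit 495) (nat_lit 406) (nat_lit 239)) (XT.lf (nat_lit 0) (nat_lit 3729118863) (nat_lit 456) (nat_lit 904028948) (nat_lit 76) (nat_lit 14627810768) (nat_lit 137) (nat_lit 5) (nat_lit 143) (nat_lit 5) (nat_lit 138) (nat_lit 5) (nat_lit 496) (nat_lit 406) (nat_lit 238))))) (XT.nd (nat_lit 234) (nat_lit 760) (nat_lit 0) (XT.nd (nat_lit 78) (nat_lit 304) (nat_lit 0) (XT.lf (nat_lit 0) (nat_lit 8221623683) (nat_lit 456) (nat_lit 8980790606) (nat_lit 76) (nat_lit 2299656364) (nat_lit 132) (nat_lit 5) (nat_lit 138) (nat_lit 5) (nat_lit 133) (nat_lit 5) (nat_lit 497) (nat_lit 406) (nat_lit 237)) (XT.nd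 (nat_lit 78) (nat_lit 0) (nat_lit 0) (XT.lf (nat_lit 0) (nat_lit 2425671902) (nat_lit 304) (nat_lit 10421297076) (nat_lit 380) (nat_lit 6900177278) (nat_lit 128) (nat_lit 5) (nat_lit 132) (nat_lit 5) (nat_lit 133) (nat_lit 5) (nat_lit 498) (nat_lit 406) (nat_lit 236)) (XT.lf (nat_lit 0) (nat_lit 14167214679) (nat_lit 304) (nat_lit 3448415080) (nat_lit 380) (nat_lit 2380478513) (nat_lit 128) (nat_lit 5) (nat_lit 132) (nat_lit 5) (nat_lit 133) (nat_lit 5) (nat_lit 499) (nat_lit 406) (nat_lit 235)))) (XT.nd (nat_lit 78) (nat_lit 304) (nat_lit 0) (XT.lf (nat_lit 0) (nat_lit 2253725711) (nat_lit 456) (nat_lit 14330904898) (nat_lit 76) (nat_lit 3664063364) (nat_lit 122) (nat_lit 5) (nat_lit 128) (nat_lit 5) (nat_lit 123) (nat_lit 5) (nat_lit 500) (nat_lit 406) (nat_lit 234)) (XT.nd (nat_lit 78) (nat_lit 304) (nat_lit 0) (XT.lf (nat_lit 0) (nat_lit 7001700563) (nat_lit 456) (nat_lit 2580669061) (nat_lit 76) (nat_lit 10922588852) (nat_lit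 122) (nat_lit 5) (nat_lit 128) (nat_lit 5) (nat_lit 123) (nat_lit 5) (nat_lit 501) (nat_lit 406) (nat_lit 233)) (XT.lf (nat_lit 0) (nat_lit 9514973280) (nat_lit 304) (nat_lit 2382341292) (nat_lit 380) (nat_lit 8867981095) (nat_lit 118) (nat_lit 5) (nat_lit 122) (nat_lit 5) (nat_lit 123) (nat_lit 5) (nat_lit 502) (nat_lit 406) (nat_lit 232)))))) (XT.nd (nat_lit 468) (nat_lit 684) (nat_lit 0) (XT.nd (nat_lit 234) (nat_lit 304) (nat_lit 0) (XT.nd (nat_lit 78) (nat_lit 380) (nat_lit 0) (XT.lf (nat_lit 0) (nat_lit 821014304) (nat_lit 304) (nat_lit 16115757461) (nat_lit 380) (nat_lit 4093150192) (nat_lit 114) (nat_lit 5) (nat_lit 118) (nat_lit 5) (nat_lit 119) (nat_lit 5) (nat_lit 503) (nat_lit 406) (nat_lit 231)) (XT.nd (nat_lit 78) (nat_lit 304) (nat_lit 0) (XT.lf (nat_lit 0) (nat_lit 849734535) (nat_lit 380) (nat_lit 8047841958) (nat_lit 76) (nat_lit 12400509295) (nat_lit 113) (nat_lit 5) (nat_lit 118) (nat_lit 5) (nat_lit 114)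 (nat_lit 5) (nat_lit 504) (nat_lit 406) (nat_lit 230)) (XT.lf (nat_lit 0) (nat_lit 4372501005) (nat_lit 304) (nat_lit 1483763371) (nat_lit 380) (nat_lit 15714416426) (nat_lit 109) (nat_lit 5) (nat_lit 113) (nat_lit 5) (nat_lit 114) (nat_lit 5) (nat_lit 505) (nat_lit 406) (nat_lit 229)))) (XT.nd (nat_lit 78) (nat_lit 304) (nat_lit 0) (XT.lf (nat_lit 0) (nat_lit 11047953922) (nat_lit 380) (nat_lit 4751359851) (nat_lit 76) (nat_lit 6047714260) (nat_lit 109) (nat_lit 5) (nat_lit 114) (nat_lit 5) (nat_lit 110) (nat_lit 5) (nat_lit 506) (nat_lit 406) (nat_lit 228)) (XT.nd (nat_lit 78) (nat_lit 0) (nat_lit 0) (XT.lf (nat_lit 0) (nat_lit 8025878628) (nat_lit 304) (nat_lit 8370908395) (nat_lit 380) (nat_lit 5731049871) (nat_lit 105) (nat_lit 5) (nat_lit 109) (nat_lit 5) (nat_lit 110) (nat_lit 5) (nat_lit 507) (nat_lit 406) (nat_lit 227)) (XT.lf (nat_lit 0) (nat_lit 21109207143) (nat_lit 304) (nat_lit 766727100) (nat_lit 380) (nat_lit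 537861802) (nat_lit 105) (nat_lit 5) (nat_lit 109) (nat_lit 5) (nat_lit 110) (nat_lit 5) (nat_lit 508) (nat_lit 406) (nat_lit 226))))) (XT.nd (nat_lit 51480) (nat_lit 0) (nat_lit 34884) (XT.nd (nat_lit 156) (nat_lit 304) (nat_lit 0) (XT.lf (nat_lit 0) (nat_lit 4811398909) (nat_lit 380) (nat_lit 10889879118) (nat_lit 76) (nat_lit 7001286658) (nat_lit 100) (nat_lit 5) (nat_lit 105) (nat_lit 5) (nat_lit 101) (nat_lit 5) (nat_lit 509) (nat_lit 406) (nat_lit 225)) (XT.nd (nat_lit 51246) (nat_lit 0) (nat_lit 36252) (XT.lf (nat_lit 0) (nat_lit 15725480992) (nat_lit 304) (nat_lit 197977820) (nat_lit 380) (nat_lit 7371843759) (nat_lit 96) (nat_lit 5) (nat_lit 100) (nat_lit 5) (nat_lit 101) (nat_lit 5) (nat_lit 511) (nat_lit 406) (nat_lit 223)) (XT.lf (nat_lit 0) (nat_lit 1610788057) (nat_lit 0) (nat_lit 1610788057) (nat_lit 1292) (nat_lit 696782800) (nat_lit 573) (nat_lit 5) (nat_lit 573) (nat_lit 3) (nat_lit 590) (nat_lit 3) (nat_lit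 407) (nat_lit 407) (nat_lit 326)))) (XT.nd (nat_lit 78) (nat_lit 1368) (nat_lit 0) (XT.lf (nat_lit 0) (nat_lit 7103613367) (nat_lit 0) (nat_lit 670665974) (nat_lit 1292) (nat_lit 115137910) (nat_lit 573) (nat_lit 5) (nat_lit 573) (nat_lit 3) (nat_lit 590) (nat_lit 3) (nat_lit 408) (nat_lit 407) (nat_lit 325)) (XT.nd (nat_lit 78) (nat_lit 0) (nat_lit 0) (XT.lf (nat_lit 0) (nat_lit 1173007152) (nat_lit 1368) (nat_lit 4819646993) (nat_lit 1444) (nat_lit 1950375907) (nat_lit 555) (nat_lit 5) (nat_lit 573) (nat_lit 5) (nat_lit 574) (nat_lit 5) (nat_lit 409) (nat_lit 407) (nat_lit 324)) (XT.lf (nat_lit 0) (nat_lit 2462319359) (nat_lit 1368) (nat_lit 899167067) (nat_lit 1444) (nat_lit 4636682959) (nat_lit 555) (nat_lit 5) (nat_lit 573) (nat_lit 5) (nat_lit 574) (nat_lit 5) (nat_lit 410) (nat_lit 407) (nat_lit 323))))))))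
noncomputable def xc154 : XT := (XT.nd (nat_lit 1794) (nat_lit 12312) (nat_lit 0) (XT.nd (nat_lit 858) (nat_lit 4560) (nat_lit 0) (XT.nd (nat_lit 390) (nat_lit 1368) (nat_lit 0) (XT.nd (nat_lit 156) (nat_lit 1292) (nat_lit 0) (XT.nd (nat_lit 78) (nat_lit 0) (nat_lit 76) (XT.lf (nat_lit 76) (nat_lit 3123308722) (nat_lit 0) (nat_lit 642225842) (nat_lit 1444) (nat_lit 4289122859) (nat_lit 556) (nat_lit 5) (nat_lit 555) (nat_lit 5) (nat_lit 574) (nat_lit 5) (nat_lit 411) (nat_lit 407) (nat_lit 322)) (XT.lf (nat_lit 0) (nat_lit 5083176587) (nat_lit 1368) (nat_lit 905607121) (nat_lit 1444) (nat_lit 2123732351) (nat_lit 556) (nat_lit 5) (nat_lit 574) (nat_lit 5) (nat_lit 575) (nat_lit 5) (nat_lit 412) (nat_lit 407) (nat_lit 321))) (XT.nd (nat_lit 78) (nat_lit 1368) (nat_lit 0) (XT.lf (nat_lit 76) (nat_lit 3220996458) (nat_lit 0) (nat_lit 3200409694) (nat_lit 1444) (nat_lit 1750248955) (nat_lit 557) (nat_lit 5) (nat_lit 556) (nat_lit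 5) (nat_lit 575) (nat_lit 5) (nat_lit 413) (nat_lit 407) (nat_lit 320)) (XT.nd (nat_lit 78) (nat_lit 1368) (nat_lit 0) (XT.lf (nat_lit 76) (nat_lit 7424880301) (nat_lit 0) (nat_lit 337158508) (nat_lit 1444) (nat_lit 470433131) (nat_lit 557) (nat_lit 5) (nat_lit 556) (nat_lit 5) (nat_lit 575) (nat_lit 5) (nat_lit 414) (nat_lit 407) (nat_lit 319)) (XT.lf (nat_lit 0) (nat_lit 833356435) (nat_lit 1444) (nat_lit 4871149029) (nat_lit 1520) (nat_lit 2589712129) (nat_lit 538) (nat_lit 5) (nat_lit 557) (nat_lit 5) (nat_lit 558) (nat_lit 5) (nat_lit 415) (nat_lit 407) (nat_lit 318))))) (XT.nd (nat_lit 234) (nat_lit 1368) (nat_lit 0) (XT.nd (nat_lit 78) (nat_lit 0) (nat_lit 76) (XT.lf (nat_lit 0) (nat_lit 2135123994) (nat_lit 1444) (nat_lit 631337077) (nat_lit 1520) (nat_lit 5591118199) (nat_lit 538) (nat_lit 5) (nat_lit 557) (nat_lit 5) (nat_lit 558) (nat_lit 5) (nat_lit 416) (nat_lit 407) (nat_lit 317)) (XT.nd (nat_lit 78) (nat_lit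 0) (nat_lit 0) (XT.lf (nat_lit 0) (nat_lit 3459921136) (nat_lit 1444) (nat_lit 4699717958) (nat_lit 1520) (nat_lit 262636384) (nat_lit 539) (nat_lit 5) (nat_lit 558) (nat_lit 5) (nat_lit 559) (nat_lit 5) (nat_lit 417) (nat_lit 407) (nat_lit 316)) (XT.lf (nat_lit 0) (nat_lit 4805407597) (nat_lit 1444) (nat_lit 352767427) (nat_lit 1520) (nat_lit 3330213763) (nat_lit 539) (nat_lit 5) (nat_lit 558) (nat_lit 5) (nat_lit 559) (nat_lit 5) (nat_lit 418) (nat_lit 407) (nat_lit 315)))) (XT.nd (nat_lit 78) (nat_lit 1444) (nat_lit 0) (XT.lf (nat_lit 76) (nat_lit 4117153134) (nat_lit 0) (nat_lit 2059546432) (nat_lit 1520) (nat_lit 2379153785) (nat_lit 540) (nat_lit 5) (nat_lit 539) (nat_lit 5) (nat_lit 559) (nat_lit 5) (nat_lit 419) (nat_lit 407) (nat_lit 314)) (XT.nd (nat_lit 78) (nat_lit 1520) (nat_lit 0) (XT.lf (nat_lit 76) (nat_lit 31416761) (nat_lit 0) (nat_lit 7526392761) (nat_lit 1520) (nat_lit 1067216611) (nat_lit 541) (nat_lit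 5) (nat_lit 540) (nat_lit 5) (nat_lit 560) (nat_lit 5) (nat_lit 420) (nat_lit 407) (nat_lit 313)) (XT.lf (nat_lit 0) (nat_lit 283916917) (nat_lit 1520) (nat_lit 4078188949) (nat_lit 1596) (nat_lit 4333117598) (nat_lit 520) (nat_lit 5) (nat_lit 540) (nat_lit 5) (nat_lit 541) (nat_lit 5) (nat_lit 421) (nat_lit 407) (nat_lit 312)))))) (XT.nd (nat_lit 468) (nat_lit 4560) (nat_lit 0) (XT.nd (nat_lit 234) (nat_lit 0) (nat_lit 152) (XT.nd (nat_lit 78) (nat_lit 0) (nat_lit 76) (XT.lf (nat_lit 76) (nat_lit 508801873) (nat_lit 0) (nat_lit 1115718283) (nat_lit 1596) (nat_lit 7142635140) (nat_lit 521) (nat_lit 5) (nat_lit 520) (nat_lit 5) (nat_lit 541) (nat_lit 5) (nat_lit 422) (nat_lit 407) (nat_lit 311)) (XT.nd (nat_lit 78) (nat_lit 0) (nat_lit 0) (XT.lf (nat_lit 0) (nat_lit 3007613499) (nat_lit 1520) (nat_lit 3630405631) (nat_lit 1596) (nat_lit 2202199326) (nat_lit 521) (nat_lit 5) (nat_lit 541) (nat_lit 5) (nat_lit 542) (nat_lit 5)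 (nat_lit 423) (nat_lit 407) (nat_lit 310)) (XT.lf (nat_lit 76) (nat_lit 1078420508) (nat_lit 0) (nat_lit 3328725879) (nat_lit 1596) (nat_lit 4507827071) (nat_lit 522) (nat_lit 5) (nat_lit 521) (nat_lit 5) (nat_lit 542) (nat_lit 5) (nat_lit 424) (nat_lit 407) (nat_lit 309)))) (XT.nd (nat_lit 78) (nat_lit 0) (nat_lit 0) (XT.lf (nat_lit 0) (nat_lit 5834311961) (nat_lit 1520) (nat_lit 3079436579) (nat_lit 1596) (nat_lit 77488190) (nat_lit 522) (nat_lit 5) (nat_lit 542) (nat_lit 5) (nat_lit 543) (nat_lit 5) (nat_lit 425) (nat_lit 407) (nat_lit 308)) (XT.nd (nat_lit 78) (nat_lit 0) (nat_lit 0) (XT.lf (nat_lit 76) (nat_lit 1755298989) (nat_lit 0) (nat_lit 5543471987) (nat_lit 1596) (nat_lit 1770085181) (nat_lit 523) (nat_lit 5) (nat_lit 522) (nat_lit 5) (nat_lit 543) (nat_lit 5) (nat_lit 426) (nat_lit 407) (nat_lit 307)) (XT.lf (nat_lit 76) (nat_lit 6710093900) (nat_lit 0) (nat_lit 2078763750) (nat_lit 1596) (nat_lit 359249331) (nat_lit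 523) (nat_lit 5) (nat_lit 522) (nat_lit 5) (nat_lit 543) (nat_lit 5) (nat_lit 427) (nat_lit 407) (nat_lit 306))))) (XT.nd (nat_lit 234) (nat_lit 3192) (nat_lit 0) (XT.nd (nat_lit 78) (nat_lit 0) (nat_lit 0) (XT.lf (nat_lit 0) (nat_lit 1067780788) (nat_lit 1596) (nat_lit 6695557885) (nat_lit 1672) (nat_lit 1465426699) (nat_lit 502) (nat_lit 5) (nat_lit 523) (nat_lit 5) (nat_lit 524) (nat_lit 5) (nat_lit 428) (nat_lit 407) (nat_lit 305)) (XT.nd (nat_lit 78) (nat_lit 0) (nat_lit 0) (XT.lf (nat_lit 0) (nat_lit 2525156135) (nat_lit 1596) (nat_lit 1708799020) (nat_lit 1672) (nat_lit 5076907427) (nat_lit 502) (nat_lit 5) (nat_lit 523) (nat_lit 5) (nat_lit 524) (nat_lit 5) (nat_lit 429) (nat_lit 407) (nat_lit 304)) (XT.lf (nat_lit 76) (nat_lit 3403970525) (nat_lit 0) (nat_lit 606647663) (nat_lit 1672) (nat_lit 5384010102) (nat_lit 503) (nat_lit 5) (nat_lit 502) (nat_lit 5) (nat_lit 524) (nat_lit 5) (nat_lit 430) (nat_lit 407) (nat_lit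 303)))) (XT.nd (nat_lit 78) (nat_lit 3268) (nat_lit 0) (XT.lf (nat_lit 0) (nat_lit 5534619278) (nat_lit 1596) (nat_lit 876579195) (nat_lit 76) (nat_lit 3068699478) (nat_lit 503) (nat_lit 5) (nat_lit 524) (nat_lit 5) (nat_lit 504) (nat_lit 5) (nat_lit 431) (nat_lit 407) (nat_lit 302)) (XT.nd (nat_lit 78) (nat_lit 1672) (nat_lit 0) (XT.lf (nat_lit 0) (nat_lit 4374767890) (nat_lit 1596) (nat_lit 2724404680) (nat_lit 1672) (nat_lit 2467504120) (nat_lit 482) (nat_lit 5) (nat_lit 503) (nat_lit 5) (nat_lit 504) (nat_lit 5) (nat_lit 432) (nat_lit 407) (nat_lit 301)) (XT.lf (nat_lit 0) (nat_lit 63294085) (nat_lit 1672) (nat_lit 8622777280) (nat_lit 1748) (nat_lit 969303580) (nat_lit 460) (nat_lit 5) (nat_lit 482) (nat_lit 5) (nat_lit 483) (nat_lit 5) (nat_lit 433) (nat_lit 407) (nat_lit 300))))))) (XT.nd (nat_lit 936) (nat_lit 5396) (nat_lit 0) (XT.nd (nat_lit 468) (nat_lit 2736) (nat_lit 0) (XT.nd (nat_lit 234) (nat_lit 2356) (nat_lit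 0) (XT.nd (nat_lit 78) (nat_lit 1748) (nat_lit 0) (XT.lf (nat_lit 0) (nat_lit 582802195) (nat_lit 1748) (nat_lit 4291965913) (nat_lit 76) (nat_lit 4870385905) (nat_lit 459) (nat_lit 5) (nat_lit 482) (nat_lit 5) (nat_lit 460) (nat_lit 5) (nat_lit 434) (nat_lit 407) (nat_lit 299)) (XT.nd (nat_lit 78) (nat_lit 0) (nat_lit 0) (XT.lf (nat_lit 0) (nat_lit 1103684940) (nat_lit 1748) (nat_lit 1035049649) (nat_lit 1824) (nat_lit 7698155403) (nat_lit 436) (nat_lit 5) (nat_lit 459) (nat_lit 5) (nat_lit 460) (nat_lit 5) (nat_lit 435) (nat_lit 407) (nat_lit 298)) (XT.lf (nat_lit 0) (nat_lit 3752389625) (nat_lit 1824) (nat_lit 3302201113) (nat_lit 76) (nat_lit 2875342519) (nat_lit 436) (nat_lit 5) (nat_lit 460) (nat_lit 5) (nat_lit 437) (nat_lit 5) (nat_lit 436) (nat_lit 407) (nat_lit 297)))) (XT.nd (nat_lit 78) (nat_lit 912) (nat_lit 0) (XT.lf (nat_lit 0) (nat_lit 2241490448) (nat_lit 1444) (nat_lit 3157552381) (nat_lit 1520) (nat_lit 4625784612)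 (nat_lit 417) (nat_lit 5) (nat_lit 436) (nat_lit 5) (nat_lit 437) (nat_lit 5) (nat_lit 437) (nat_lit 407) (nat_lit 296)) (XT.nd (nat_lit 78) (nat_lit 912) (nat_lit 0) (XT.lf (nat_lit 0) (nat_lit 7085859468) (nat_lit 1520) (nat_lit 2204591783) (nat_lit 76) (nat_lit 831028118) (nat_lit 417) (nat_lit 5) (nat_lit 437) (nat_lit 5) (nat_lit 418) (nat_lit 5) (nat_lit 438) (nat_lit 407) (nat_lit 295)) (XT.lf (nat_lit 0) (nat_lit 3492207056) (nat_lit 912) (nat_lit 5337806553) (nat_lit 988) (nat_lit 1389583080) (nat_lit 405) (nat_lit 5) (nat_lit 417) (nat_lit 5) (nat_lit 418) (nat_lit 5) (nat_lit 439) (nat_lit 407) (nat_lit 294))))) (XT.nd (nat_lit 234) (nat_lit 836) (nat_lit 0) (XT.nd (nat_lit 78) (nat_lit 1824) (nat_lit 0) (XT.lf (nat_lit 0) (nat_lit 280626039) (nat_lit 988) (nat_lit 1007089638) (nat_lit 76) (nat_lit 9032026377) (nat_lit 404) (nat_lit 5) (nat_lit 417) (nat_lit 5) (nat_lit 405) (nat_lit 5) (nat_lit 440) (nat_lit 407)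 (nat_lit 293)) (XT.nd (nat_lit 78) (nat_lit 912) (nat_lit 0) (XT.lf (nat_lit 0) (nat_lit 1996513914) (nat_lit 988) (nat_lit 5576195256) (nat_lit 76) (nat_lit 2848383956) (nat_lit 392) (nat_lit 5) (nat_lit 405) (nat_lit 5) (nat_lit 393) (nat_lit 5) (nat_lit 441) (nat_lit 407) (nat_lit 292)) (XT.lf (nat_lit 0) (nat_lit 279868662) (nat_lit 912) (nat_lit 3464814085) (nat_lit 988) (nat_lit 6779833254) (nat_lit 380) (nat_lit 5) (nat_lit 392) (nat_lit 5) (nat_lit 393) (nat_lit 5) (nat_lit 442) (nat_lit 407) (nat_lit 291)))) (XT.nd (nat_lit 78) (nat_lit 836) (nat_lit 0) (XT.lf (nat_lit 0) (nat_lit 5551266842) (nat_lit 988) (nat_lit 4324309235) (nat_lit 76) (nat_lit 753966186) (nat_lit 380) (nat_lit 5) (nat_lit 393) (nat_lit 5) (nat_lit 381) (nat_lit 5) (nat_lit 443) (nat_lit 407) (nat_lit 290)) (XT.nd (nat_lit 78) (nat_lit 0) (nat_lit 0) (XT.lf (nat_lit 0) (nat_lit 1695357707) (nat_lit 836) (nat_lit 5714025279) (nat_lit 912) (nat_lit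 3326981945) (nat_lit 369) (nat_lit 5) (nat_lit 380) (nat_lit 5) (nat_lit 381) (nat_lit 5) (nat_lit 444) (nat_lit 407) (nat_lit 289)) (XT.lf (nat_lit 0) (nat_lit 7875788920) (nat_lit 836) (nat_lit 1439583431) (nat_lit 912) (nat_lit 1529741295) (nat_lit 369) (nat_lit 5) (nat_lit 380) (nat_lit 5) (nat_lit 381) (nat_lit 5) (nat_lit 445) (nat_lit 407) (nat_lit 288)))))) (XT.nd (nat_lit 468) (nat_lit 2204) (nat_lit 0) (XT.nd (nat_lit 234) (nat_lit 1520) (nat_lit 0) (XT.nd (nat_lit 78) (nat_lit 760) (nat_lit 0) (XT.lf (nat_lit 0) (nat_lit 321583332) (nat_lit 912) (nat_lit 7728790213) (nat_lit 76) (nat_lit 2905185673) (nat_lit 357) (nat_lit 5) (nat_lit 369) (nat_lit 5) (nat_lit 358) (nat_lit 5) (nat_lit 446) (nat_lit 407) (nat_lit 287)) (XT.nd (nat_lit 78) (nat_lit 760) (nat_lit 0) (XT.lf (nat_lit 0) (nat_lit 2201226862) (nat_lit 912) (nat_lit 1518949038) (nat_lit 76) (nat_lit 7347603649) (nat_lit 357) (nat_lit 5) (nat_lit 369) (nat_lit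 5) (nat_lit 358) (nat_lit 5) (nat_lit 447) (nat_lit 407) (nat_lit 286)) (XT.lf (nat_lit 0) (nat_lit 4137266369) (nat_lit 836) (nat_lit 6325867111) (nat_lit 76) (nat_lit 718738266) (nat_lit 347) (nat_lit 5) (nat_lit 358) (nat_lit 5) (nat_lit 348) (nat_lit 5) (nat_lit 448) (nat_lit 407) (nat_lit 285)))) (XT.nd (nat_lit 78) (nat_lit 760) (nat_lit 0) (XT.lf (nat_lit 0) (nat_lit 38568770) (nat_lit 760) (nat_lit 6091343081) (nat_lit 836) (nat_lit 5167979684) (nat_lit 337) (nat_lit 5) (nat_lit 347) (nat_lit 5) (nat_lit 348) (nat_lit 5) (nat_lit 449) (nat_lit 407) (nat_lit 284)) (XT.nd (nat_lit 78) (nat_lit 760) (nat_lit 0) (XT.lf (nat_lit 0) (nat_lit 6597924303) (nat_lit 760) (nat_lit 1589894083) (nat_lit 836) (nat_lit 3227908556) (nat_lit 337) (nat_lit 5) (nat_lit 347) (nat_lit 5) (nat_lit 348) (nat_lit 5) (nat_lit 450) (nat_lit 407) (nat_lit 283)) (XT.lf (nat_lit 0) (nat_lit 1737757387) (nat_lit 760) (nat_lit 8563182158) (nat_lit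 836) (nat_lit 1234701701) (nat_lit 327) (nat_lit 5) (nat_lit 337) (nat_lit 5) (nat_lit 338) (nat_lit 5) (nat_lit 451) (nat_lit 407) (nat_lit 282))))) (XT.nd (nat_lit 234) (nat_lit 1368) (nat_lit 0) (XT.nd (nat_lit 78) (nat_lit 760) (nat_lit 0) (XT.lf (nat_lit 0) (nat_lit 814355807) (nat_lit 836) (nat_lit 3201696987) (nat_lit 76) (nat_lit 7641271416) (nat_lit 326) (nat_lit 5) (nat_lit 337) (nat_lit 5) (nat_lit 327) (nat_lit 5) (nat_lit 452) (nat_lit 407) (nat_lit 281)) (XT.nd (nat_lit 78) (nat_lit 0) (nat_lit 0) (XT.lf (nat_lit 0) (nat_lit 2898851209) (nat_lit 836) (nat_lit 8238466967) (nat_lit 76) (nat_lit 643742767) (nat_lit 316) (nat_lit 5) (nat_lit 327) (nat_lit 5) (nat_lit 317) (nat_lit 5) (nat_lit 453) (nat_lit 407) (nat_lit 280)) (XT.lf (nat_lit 0) (nat_lit 5057163833) (nat_lit 836) (nat_lit 1486448907) (nat_lit 76) (nat_lit 5363020192) (nat_lit 316) (nat_lit 5) (nat_lit 327) (nat_lit 5) (nat_lit 317) (nat_lit 5) (nat_lit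 454) (nat_lit 407) (nat_lit 279)))) (XT.nd (nat_lit 78) (nat_lit 684) (nat_lit 0) (XT.lf (nat_lit 0) (nat_lit 5454461304) (nat_lit 684) (nat_lit 1823814582) (nat_lit 760) (nat_lit 4756050816) (nat_lit 307) (nat_lit 5) (nat_lit 316) (nat_lit 5) (nat_lit 317) (nat_lit 5) (nat_lit 455) (nat_lit 407) (nat_lit 278)) (XT.nd (nat_lit 78) (nat_lit 0) (nat_lit 0) (XT.lf (nat_lit 0) (nat_lit 357298635) (nat_lit 684) (nat_lit 9202689493) (nat_lit 760) (nat_lit 2604265608) (nat_lit 298) (nat_lit 5) (nat_lit 307) (nat_lit 5) (nat_lit 308) (nat_lit 5) (nat_lit 456) (nat_lit 407) (nat_lit 277)) (XT.lf (nat_lit 0) (nat_lit 7492406678) (nat_lit 684) (nat_lit 4435673353) (nat_lit 760) (nat_lit 367887259) (nat_lit 298) (nat_lit 5) (nat_lit 307) (nat_lit 5) (nat_lit 308) (nat_lit 5) (nat_lit 457) (nat_lit 407) (nat_lit 276))))))))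
noncomputable def xc155 : XT := (XT.nd (nat_lit 1794) (nat_lit 5700) (nat_lit 0) (XT.nd (nat_lit 858) (nat_lit 3724) (nat_lit 0) (XT.nd (nat_lit 390) (nat_lit 2508) (nat_lit 0) (XT.nd (nat_lit 156) (nat_lit 1292) (nat_lit 0) (XT.nd (nat_lit 78) (nat_lit 0) (nat_lit 0) (XT.lf (nat_lit 0) (nat_lit 1891052149) (nat_lit 760) (nat_lit 10092439602) (nat_lit 76) (nat_lit 446519190) (nat_lit 288) (nat_lit 5) (nat_lit 298) (nat_lit 5) (nat_lit 289) (nat_lit 5) (nat_lit 458) (nat_lit 407) (nat_lit 275)) (XT.lf (nat_lit 0) (nat_lit 4237032305) (nat_lit 760) (nat_lit 2929256893) (nat_lit 76) (nat_lit 5399464596) (nat_lit 288) (nat_lit 5) (nat_lit 298) (nat_lit 5) (nat_lit 289) (nat_lit 5) (nat_lit 459) (nat_lit 407) (nat_lit 274))) (XT.nd (nat_lit 78) (nat_lit 608) (nat_lit 0) (XT.lf (nat_lit 0) (nat_lit 4417696547) (nat_lit 684) (nat_lit 2226173181) (nat_lit 760) (nat_lit 6060065691) (nat_lit 279) (nat_lit 5) (nat_lit 288) (nat_lit 5)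 (nat_lit 289) (nat_lit 5) (nat_lit 460) (nat_lit 407) (nat_lit 273)) (XT.nd (nat_lit 78) (nat_lit 608) (nat_lit 0) (XT.lf (nat_lit 0) (nat_lit 9122307025) (nat_lit 760) (nat_lit 929177279) (nat_lit 76) (nat_lit 2792929727) (nat_lit 279) (nat_lit 5) (nat_lit 289) (nat_lit 5) (nat_lit 280) (nat_lit 5) (nat_lit 461) (nat_lit 407) (nat_lit 272)) (XT.lf (nat_lit 0) (nat_lit 6629987867) (nat_lit 608) (nat_lit 5063814233) (nat_lit 684) (nat_lit 1293032898) (nat_lit 271) (nat_lit 5) (nat_lit 279) (nat_lit 5) (nat_lit 280) (nat_lit 5) (nat_lit 462) (nat_lit 407) (nat_lit 271))))) (XT.nd (nat_lit 234) (nat_lit 1216) (nat_lit 0) (XT.nd (nat_lit 78) (nat_lit 608) (nat_lit 0) (XT.lf (nat_lit 0) (nat_lit 1169281166) (nat_lit 684) (nat_lit 11920446789) (nat_lit 76) (nat_lit 42221169) (nat_lit 262) (nat_lit 5) (nat_lit 271) (nat_lit 5) (nat_lit 263) (nat_lit 5) (nat_lit 463) (nat_lit 407) (nat_lit 270)) (XT.nd (nat_lit 78) (nat_lit 608) (nat_lit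 0) (XT.lf (nat_lit 0) (nat_lit 3725939176) (nat_lit 684) (nat_lit 4321581185) (nat_lit 76) (nat_lit 5231028422) (nat_lit 262) (nat_lit 5) (nat_lit 271) (nat_lit 5) (nat_lit 263) (nat_lit 5) (nat_lit 464) (nat_lit 407) (nat_lit 269)) (XT.lf (nat_lit 0) (nat_lit 3457474274) (nat_lit 608) (nat_lit 2884900076) (nat_lit 684) (nat_lit 7085535575) (nat_lit 254) (nat_lit 5) (nat_lit 262) (nat_lit 5) (nat_lit 263) (nat_lit 5) (nat_lit 465) (nat_lit 407) (nat_lit 268)))) (XT.nd (nat_lit 78) (nat_lit 1216) (nat_lit 0) (XT.lf (nat_lit 0) (nat_lit 9042123255) (nat_lit 684) (nat_lit 2161911604) (nat_lit 76) (nat_lit 2375606056) (nat_lit 254) (nat_lit 5) (nat_lit 263) (nat_lit 5) (nat_lit 255) (nat_lit 5) (nat_lit 466) (nat_lit 407) (nat_lit 267)) (XT.nd (nat_lit 78) (nat_lit 608) (nat_lit 0) (XT.lf (nat_lit 0) (nat_lit 5843379878) (nat_lit 608) (nat_lit 5996133648) (nat_lit 684) (nat_lit 1894022346) (nat_lit 246) (nat_lit 5) (nat_lit 254)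 (nat_lit 5) (nat_lit 255) (nat_lit 5) (nat_lit 467) (nat_lit 407) (nat_lit 266)) (XT.lf (nat_lit 0) (nat_lit 127224332) (nat_lit 532) (nat_lit 666690891) (nat_lit 608) (nat_lit 13096449604) (nat_lit 238) (nat_lit 5) (nat_lit 245) (nat_lit 5) (nat_lit 246) (nat_lit 5) (nat_lit 468) (nat_lit 407) (nat_lit 265)))))) (XT.nd (nat_lit 468) (nat_lit 1976) (nat_lit 0) (XT.nd (nat_lit 234) (nat_lit 1140) (nat_lit 0) (XT.nd (nat_lit 78) (nat_lit 608) (nat_lit 0) (XT.lf (nat_lit 0) (nat_lit 3581331032) (nat_lit 608) (nat_lit 5698358148) (nat_lit 76) (nat_lit 4768971330) (nat_lit 238) (nat_lit 5) (nat_lit 246) (nat_lit 5) (nat_lit 239) (nat_lit 5) (nat_lit 469) (nat_lit 407) (nat_lit 264)) (XT.nd (nat_lit 78) (nat_lit 0) (nat_lit 0) (XT.lf (nat_lit 0) (nat_lit 2539818205) (nat_lit 608) (nat_lit 3892634534) (nat_lit 684) (nat_lit 7777512319) (nat_lit 230) (nat_lit 5) (nat_lit 238) (nat_lit 5) (nat_lit 239) (nat_lit 5) (nat_lit 470) (nat_lit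 407) (nat_lit 263)) (XT.lf (nat_lit 0) (nat_lit 9376663948) (nat_lit 684) (nat_lit 3381304648) (nat_lit 76) (nat_lit 1615807824) (nat_lit 230) (nat_lit 5) (nat_lit 239) (nat_lit 5) (nat_lit 231) (nat_lit 5) (nat_lit 471) (nat_lit 407) (nat_lit 262)))) (XT.nd (nat_lit 78) (nat_lit 608) (nat_lit 0) (XT.lf (nat_lit 0) (nat_lit 5097806734) (nat_lit 532) (nat_lit 7328254095) (nat_lit 608) (nat_lit 2113879174) (nat_lit 223) (nat_lit 5) (nat_lit 230) (nat_lit 5) (nat_lit 231) (nat_lit 5) (nat_lit 472) (nat_lit 407) (nat_lit 261)) (XT.nd (nat_lit 78) (nat_lit 532) (nat_lit 0) (XT.lf (nat_lit 0) (nat_lit 826492244) (nat_lit 608) (nat_lit 938804547) (nat_lit 76) (nat_lit 12943818221) (nat_lit 222) (nat_lit 5) (nat_lit 230) (nat_lit 5) (nat_lit 223) (nat_lit 5) (nat_lit 473) (nat_lit 407) (nat_lit 260)) (XT.lf (nat_lit 0) (nat_lit 3861584975) (nat_lit 608) (nat_lit 7099751468) (nat_lit 76) (nat_lit 3918775153) (nat_lit 215) (nat_lit 5)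 (nat_lit 223) (nat_lit 5) (nat_lit 216) (nat_lit 5) (nat_lit 474) (nat_lit 407) (nat_lit 259))))) (XT.nd (nat_lit 234) (nat_lit 988) (nat_lit 0) (XT.nd (nat_lit 78) (nat_lit 532) (nat_lit 0) (XT.lf (nat_lit 0) (nat_lit 1625385579) (nat_lit 456) (nat_lit 5348413200) (nat_lit 532) (nat_lit 8080402818) (nat_lit 209) (nat_lit 5) (nat_lit 215) (nat_lit 5) (nat_lit 216) (nat_lit 5) (nat_lit 475) (nat_lit 407) (nat_lit 258)) (XT.nd (nat_lit 78) (nat_lit 532) (nat_lit 0) (XT.lf (nat_lit 0) (nat_lit 10186600240) (nat_lit 532) (nat_lit 4628855415) (nat_lit 76) (nat_lit 415552709) (nat_lit 209) (nat_lit 5) (nat_lit 216) (nat_lit 5) (nat_lit 210) (nat_lit 5) (nat_lit 476) (nat_lit 407) (nat_lit 257)) (XT.lf (nat_lit 0) (nat_lit 4352555765) (nat_lit 532) (nat_lit 9162956657) (nat_lit 608) (nat_lit 1894803544) (nat_lit 202) (nat_lit 5) (nat_lit 209) (nat_lit 5) (nat_lit 210) (nat_lit 5) (nat_lit 477) (nat_lit 407) (nat_lit 256)))) (XT.nd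 (nat_lit 78) (nat_lit 912) (nat_lit 0) (XT.lf (nat_lit 0) (nat_lit 1320000939) (nat_lit 608) (nat_lit 2041274455) (nat_lit 76) (nat_lit 12231375115) (nat_lit 201) (nat_lit 5) (nat_lit 209) (nat_lit 5) (nat_lit 202) (nat_lit 5) (nat_lit 478) (nat_lit 407) (nat_lit 255)) (XT.nd (nat_lit 78) (nat_lit 456) (nat_lit 0) (XT.lf (nat_lit 0) (nat_lit 4626059491) (nat_lit 532) (nat_lit 8572877321) (nat_lit 76) (nat_lit 2578399544) (nat_lit 195) (nat_lit 5) (nat_lit 202) (nat_lit 5) (nat_lit 196) (nat_lit 5) (nat_lit 479) (nat_lit 407) (nat_lit 254)) (XT.lf (nat_lit 0) (nat_lit 667699031) (nat_lit 456) (nat_lit 7359473084) (nat_lit 532) (nat_lit 7937966805) (nat_lit 189) (nat_lit 5) (nat_lit 195) (nat_lit 5) (nat_lit 196) (nat_lit 5) (nat_lit 480) (nat_lit 407) (nat_lit 253))))))) (XT.nd (nat_lit 936) (nat_lit 2584) (nat_lit 0) (XT.nd (nat_lit 468) (nat_lit 1748) (nat_lit 0) (XT.nd (nat_lit 234) (nat_lit 836) (nat_lit 0) (XT.nd (nat_lit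 78) (nat_lit 532) (nat_lit 0) (XT.lf (nat_lit 0) (nat_lit 10193357665) (nat_lit 456) (nat_lit 1349147817) (nat_lit 532) (nat_lit 4613269711) (nat_lit 189) (nat_lit 5) (nat_lit 195) (nat_lit 5) (nat_lit 196) (nat_lit 5) (nat_lit 481) (nat_lit 407) (nat_lit 252)) (XT.nd (nat_lit 78) (nat_lit 76) (nat_lit 0) (XT.lf (nat_lit 0) (nat_lit 3559121082) (nat_lit 456) (nat_lit 11612039330) (nat_lit 532) (nat_lit 1178205076) (nat_lit 183) (nat_lit 5) (nat_lit 189) (nat_lit 5) (nat_lit 190) (nat_lit 5) (nat_lit 482) (nat_lit 407) (nat_lit 251)) (XT.lf (nat_lit 0) (nat_lit 2333176010) (nat_lit 532) (nat_lit 3234277284) (nat_lit 76) (nat_lit 10978311540) (nat_lit 182) (nat_lit 5) (nat_lit 189) (nat_lit 5) (nat_lit 183) (nat_lit 5) (nat_lit 483) (nat_lit 407) (nat_lit 250)))) (XT.nd (nat_lit 78) (nat_lit 380) (nat_lit 0) (XT.lf (nat_lit 0) (nat_lit 5935026087) (nat_lit 532) (nat_lit 10173792862) (nat_lit 76) (nat_lit 636398612) (nat_lit 176)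 (nat_lit 5) (nat_lit 183) (nat_lit 5) (nat_lit 177) (nat_lit 5) (nat_lit 484) (nat_lit 407) (nat_lit 249)) (XT.nd (nat_lit 78) (nat_lit 380) (nat_lit 0) (XT.lf (nat_lit 0) (nat_lit 9656835887) (nat_lit 532) (nat_lit 383794033) (nat_lit 76) (nat_lit 6907072441) (nat_lit 176) (nat_lit 5) (nat_lit 183) (nat_lit 5) (nat_lit 177) (nat_lit 5) (nat_lit 485) (nat_lit 407) (nat_lit 248)) (XT.lf (nat_lit 0) (nat_lit 9714076549) (nat_lit 380) (nat_lit 3791491966) (nat_lit 456) (nat_lit 3647620053) (nat_lit 171) (nat_lit 5) (nat_lit 176) (nat_lit 5) (nat_lit 177) (nat_lit 5) (nat_lit 486) (nat_lit 407) (nat_lit 247))))) (XT.nd (nat_lit 234) (nat_lit 836) (nat_lit 0) (XT.nd (nat_lit 78) (nat_lit 380) (nat_lit 0) (XT.lf (nat_lit 0) (nat_lit 93883772) (nat_lit 532) (nat_lit 14703827713) (nat_lit 76) (nat_lit 2564539695) (nat_lit 164) (nat_lit 5) (nat_lit 171) (nat_lit 5) (nat_lit 165) (nat_lit 5) (nat_lit 487) (nat_lit 407) (nat_lit 246))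 (XT.nd (nat_lit 78) (nat_lit 380) (nat_lit 0) (XT.lf (nat_lit 0) (nat_lit 3926312421) (nat_lit 532) (nat_lit 4580792483) (nat_lit 76) (nat_lit 9066610558) (nat_lit 164) (nat_lit 5) (nat_lit 171) (nat_lit 5) (nat_lit 165) (nat_lit 5) (nat_lit 488) (nat_lit 407) (nat_lit 245)) (XT.lf (nat_lit 0) (nat_lit 5805700779) (nat_lit 380) (nat_lit 2057119157) (nat_lit 456) (nat_lit 9926041824) (nat_lit 159) (nat_lit 5) (nat_lit 164) (nat_lit 5) (nat_lit 165) (nat_lit 5) (nat_lit 489) (nat_lit 407) (nat_lit 244)))) (XT.nd (nat_lit 78) (nat_lit 836) (nat_lit 0) (XT.lf (nat_lit 0) (nat_lit 11928167343) (nat_lit 456) (nat_lit 1590459608) (nat_lit 76) (nat_lit 4488683144) (nat_lit 159) (nat_lit 5) (nat_lit 165) (nat_lit 5) (nat_lit 160) (nat_lit 5) (nat_lit 490) (nat_lit 407) (nat_lit 243)) (XT.nd (nat_lit 78) (nat_lit 456) (nat_lit 0) (XT.lf (nat_lit 0) (nat_lit 9100912350) (nat_lit 380) (nat_lit 7036629347) (nat_lit 456) (nat_lit 2091332584)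 (nat_lit 154) (nat_lit 5) (nat_lit 159) (nat_lit 5) (nat_lit 160) (nat_lit 5) (nat_lit 491) (nat_lit 407) (nat_lit 242)) (XT.lf (nat_lit 0) (nat_lit 1565691508) (nat_lit 380) (nat_lit 395573102) (nat_lit 456) (nat_lit 16493130763) (nat_lit 148) (nat_lit 5) (nat_lit 153) (nat_lit 5) (nat_lit 154) (nat_lit 5) (nat_lit 492) (nat_lit 407) (nat_lit 241)))))) (XT.nd (nat_lit 468) (nat_lit 1368) (nat_lit 0) (XT.nd (nat_lit 234) (nat_lit 836) (nat_lit 0) (XT.nd (nat_lit 78) (nat_lit 380) (nat_lit 0) (XT.lf (nat_lit 0) (nat_lit 6160115099) (nat_lit 456) (nat_lit 6156942851) (nat_lit 76) (nat_lit 6365229585) (nat_lit 148) (nat_lit 5) (nat_lit 154) (nat_lit 5) (nat_lit 149) (nat_lit 5) (nat_lit 493) (nat_lit 407) (nat_lit 240)) (XT.nd (nat_lit 78) (nat_lit 0) (nat_lit 0) (XT.lf (nat_lit 0) (nat_lit 4835523773) (nat_lit 380) (nat_lit 5631734779) (nat_lit 456) (nat_lit 8446993855) (nat_lit 143) (nat_lit 5) (nat_lit 148) (nat_lit 5) (nat_lit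 149) (nat_lit 5) (nat_lit 494) (nat_lit 407) (nat_lit 239)) (XT.lf (nat_lit 0) (nat_lit 14900206900) (nat_lit 456) (nat_lit 3041506245) (nat_lit 76) (nat_lit 1208351352) (nat_lit 143) (nat_lit 5) (nat_lit 149) (nat_lit 5) (nat_lit 144) (nat_lit 5) (nat_lit 495) (nat_lit 407) (nat_lit 238)))) (XT.nd (nat_lit 78) (nat_lit 380) (nat_lit 0) (XT.lf (nat_lit 0) (nat_lit 112914407) (nat_lit 456) (nat_lit 11116539498) (nat_lit 76) (nat_lit 8159493938) (nat_lit 137) (nat_lit 5) (nat_lit 143) (nat_lit 5) (nat_lit 138) (nat_lit 5) (nat_lit 496) (nat_lit 407) (nat_lit 237)) (XT.nd (nat_lit 78) (nat_lit 0) (nat_lit 0) (XT.lf (nat_lit 0) (nat_lit 181192249) (nat_lit 380) (nat_lit 4337199873) (nat_lit 456) (nat_lit 15113408878) (nat_lit 132) (nat_lit 5) (nat_lit 137) (nat_lit 5) (nat_lit 138) (nat_lit 5) (nat_lit 497) (nat_lit 407) (nat_lit 236)) (XT.lf (nat_lit 0) (nat_lit 9095194086) (nat_lit 456) (nat_lit 8055023170) (nat_lit 76) (nat_lit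 2727630745) (nat_lit 132) (nat_lit 5) (nat_lit 138) (nat_lit 5) (nat_lit 133) (nat_lit 5) (nat_lit 498) (nat_lit 407) (nat_lit 235))))) (XT.nd (nat_lit 234) (nat_lit 608) (nat_lit 0) (XT.nd (nat_lit 78) (nat_lit 456) (nat_lit 0) (XT.lf (nat_lit 0) (nat_lit 3572296330) (nat_lit 304) (nat_lit 10233974956) (nat_lit 380) (nat_lit 6321690924) (nat_lit 128) (nat_lit 5) (nat_lit 132) (nat_lit 5) (nat_lit 133) (nat_lit 5) (nat_lit 499) (nat_lit 407) (nat_lit 234)) (XT.nd (nat_lit 78) (nat_lit 456) (nat_lit 0) (XT.lf (nat_lit 0) (nat_lit 15527138374) (nat_lit 304) (nat_lit 3129395087) (nat_lit 380) (nat_lit 1725647005) (nat_lit 128) (nat_lit 5) (nat_lit 132) (nat_lit 5) (nat_lit 133) (nat_lit 5) (nat_lit 500) (nat_lit 407) (nat_lit 233)) (XT.lf (nat_lit 0) (nat_lit 2987985422) (nat_lit 456) (nat_lit 13527535981) (nat_lit 76) (nat_lit 4124287630) (nat_lit 122) (nat_lit 5) (nat_lit 128) (nat_lit 5) (nat_lit 123) (nat_lit 5) (nat_lit 501)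 (nat_lit 407) (nat_lit 232)))) (XT.nd (nat_lit 78) (nat_lit 608) (nat_lit 0) (XT.lf (nat_lit 0) (nat_lit 7817406336) (nat_lit 456) (nat_lit 1563667722) (nat_lit 76) (nat_lit 11520396510) (nat_lit 122) (nat_lit 5) (nat_lit 128) (nat_lit 5) (nat_lit 123) (nat_lit 5) (nat_lit 502) (nat_lit 407) (nat_lit 231)) (XT.nd (nat_lit 78) (nat_lit 304) (nat_lit 0) (XT.lf (nat_lit 0) (nat_lit 10766857106) (nat_lit 304) (nat_lit 2037719564) (nat_lit 380) (nat_lit 8362566397) (nat_lit 118) (nat_lit 5) (nat_lit 122) (nat_lit 5) (nat_lit 123) (nat_lit 5) (nat_lit 503) (nat_lit 407) (nat_lit 230)) (XT.lf (nat_lit 0) (nat_lit 1902874702) (nat_lit 304) (nat_lit 16038238938) (nat_lit 380) (nat_lit 3496023845) (nat_lit 114) (nat_lit 5) (nat_lit 118) (nat_lit 5) (nat_lit 119) (nat_lit 5) (nat_lit 504) (nat_lit 407) (nat_lit 229))))))))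
noncomputable def xc156 : XT := (XT.nd (nat_lit 53118) (nat_lit 0) (nat_lit 19836) (XT.nd (nat_lit 52182) (nat_lit 0) (nat_lit 32224) (XT.nd (nat_lit 468) (nat_lit 608) (nat_lit 0) (XT.nd (nat_lit 156) (nat_lit 380) (nat_lit 0) (XT.nd (nat_lit 78) (nat_lit 304) (nat_lit 0) (XT.lf (nat_lit 0) (nat_lit 1523674601) (nat_lit 380) (nat_lit 7155451176) (nat_lit 76) (nat_lit 13031714785) (nat_lit 113) (nat_lit 5) (nat_lit 118) (nat_lit 5) (nat_lit 114) (nat_lit 5) (nat_lit 505) (nat_lit 407) (nat_lit 228)) (XT.lf (nat_lit 0) (nat_lit 5506368728) (nat_lit 304) (nat_lit 1117879068) (nat_lit 380) (nat_lit 15364762760) (nat_lit 109) (nat_lit 5) (nat_lit 113) (nat_lit 5) (nat_lit 114) (nat_lit 5) (nat_lit 506) (nat_lit 407) (nat_lit 227))) (XT.nd (nat_lit 78) (nat_lit 380) (nat_lit 0) (XT.lf (nat_lit 0) (nat_lit 11909527085) (nat_lit 380) (nat_lit 3810177901) (nat_lit 76) (nat_lit 6551385934) (nat_lit 109) (nat_lit 5) (nat_lit 114) (nat_lit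 5) (nat_lit 110) (nat_lit 5) (nat_lit 507) (nat_lit 407) (nat_lit 226)) (XT.nd (nat_lit 78) (nat_lit 76) (nat_lit 0) (XT.lf (nat_lit 0) (nat_lit 9215788182) (nat_lit 304) (nat_lit 8143671101) (nat_lit 380) (nat_lit 5198175508) (nat_lit 105) (nat_lit 5) (nat_lit 109) (nat_lit 5) (nat_lit 110) (nat_lit 5) (nat_lit 508) (nat_lit 407) (nat_lit 225)) (XT.lf (nat_lit 0) (nat_lit 85050063) (nat_lit 380) (nat_lit 309523728) (nat_lit 76) (nat_lit 22454978318) (nat_lit 104) (nat_lit 5) (nat_lit 109) (nat_lit 5) (nat_lit 105) (nat_lit 5) (nat_lit 509) (nat_lit 407) (nat_lit 224))))) (XT.nd (nat_lit 51480) (nat_lit 0) (nat_lit 34884) (XT.nd (nat_lit 51324) (nat_lit 0) (nat_lit 34808) (XT.lf (nat_lit 0) (nat_lit 3278245936) (nat_lit 304) (nat_lit 7825370059) (nat_lit 380) (nat_lit 12340544663) (nat_lit 96) (nat_lit 5) (nat_lit 100) (nat_lit 5) (nat_lit 101) (nat_lit 5) (nat_lit 511) (nat_lit 407) (nat_lit 222)) (XT.nd (nat_lit 78) (nat_lit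 0) (nat_lit 0) (XT.lf (nat_lit 0) (nat_lit 565735680) (nat_lit 1444) (nat_lit 1702707435) (nat_lit 1444) (nat_lit 1702707435) (nat_lit 554) (nat_lit 3) (nat_lit 573) (nat_lit 3) (nat_lit 573) (nat_lit 5) (nat_lit 408) (nat_lit 408) (nat_lit 324)) (XT.lf (nat_lit 76) (nat_lit 472896394) (nat_lit 0) (nat_lit 1898847934) (nat_lit 1444) (nat_lit 5625086029) (nat_lit 555) (nat_lit 5) (nat_lit 554) (nat_lit 3) (nat_lit 573) (nat_lit 5) (nat_lit 409) (nat_lit 408) (nat_lit 323)))) (XT.nd (nat_lit 78) (nat_lit 0) (nat_lit 0) (XT.lf (nat_lit 0) (nat_lit 3632806253) (nat_lit 1368) (nat_lit 3599727680) (nat_lit 1444) (nat_lit 820004848) (nat_lit 555) (nat_lit 5) (nat_lit 573) (nat_lit 5) (nat_lit 574) (nat_lit 5) (nat_lit 410) (nat_lit 408) (nat_lit 322)) (XT.nd (nat_lit 78) (nat_lit 0) (nat_lit 0) (XT.lf (nat_lit 76) (nat_lit 378313449) (nat_lit 0) (nat_lit 4524276165) (nat_lit 1444) (nat_lit 3207109845) (nat_lit 556) (nat_lit 5) (nat_lit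 555) (nat_lit 5) (nat_lit 574) (nat_lit 5) (nat_lit 411) (nat_lit 408) (nat_lit 321)) (XT.lf (nat_lit 76) (nat_lit 4467786959) (nat_lit 0) (nat_lit 1723114916) (nat_lit 1444) (nat_lit 1977246744) (nat_lit 556) (nat_lit 5) (nat_lit 555) (nat_lit 5) (nat_lit 574) (nat_lit 5) (nat_lit 412) (nat_lit 408) (nat_lit 320)))))) (XT.nd (nat_lit 468) (nat_lit 1292) (nat_lit 0) (XT.nd (nat_lit 234) (nat_lit 0) (nat_lit 76) (XT.nd (nat_lit 78) (nat_lit 1444) (nat_lit 0) (XT.lf (nat_lit 76) (nat_lit 391760379) (nat_lit 0) (nat_lit 7092801902) (nat_lit 1444) (nat_lit 743620617) (nat_lit 557) (nat_lit 5) (nat_lit 556) (nat_lit 5) (nat_lit 575) (nat_lit 5) (nat_lit 413) (nat_lit 408) (nat_lit 319)) (XT.nd (nat_lit 78) (nat_lit 0) (nat_lit 0) (XT.lf (nat_lit 0) (nat_lit 514288198) (nat_lit 1444) (nat_lit 3705545090) (nat_lit 1520) (nat_lit 4069398011) (nat_lit 537) (nat_lit 5) (nat_lit 556) (nat_lit 5) (nat_lit 557) (nat_lit 5) (nat_lit 414)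 (nat_lit 408) (nat_lit 318)) (XT.lf (nat_lit 76) (nat_lit 492235260) (nat_lit 0) (nat_lit 1268910315) (nat_lit 1520) (nat_lit 6590789165) (nat_lit 538) (nat_lit 5) (nat_lit 537) (nat_lit 5) (nat_lit 557) (nat_lit 5) (nat_lit 415) (nat_lit 408) (nat_lit 317)))) (XT.nd (nat_lit 78) (nat_lit 0) (nat_lit 0) (XT.lf (nat_lit 0) (nat_lit 3040360471) (nat_lit 1444) (nat_lit 3620458966) (nat_lit 1520) (nat_lit 1754931590) (nat_lit 538) (nat_lit 5) (nat_lit 557) (nat_lit 5) (nat_lit 558) (nat_lit 5) (nat_lit 416) (nat_lit 408) (nat_lit 316)) (XT.nd (nat_lit 78) (nat_lit 0) (nat_lit 0) (XT.lf (nat_lit 76) (nat_lit 686722120) (nat_lit 0) (nat_lit 3642952133) (nat_lit 1520) (nat_lit 4151486136) (nat_lit 539) (nat_lit 5) (nat_lit 538) (nat_lit 5) (nat_lit 558) (nat_lit 5) (nat_lit 417) (nat_lit 408) (nat_lit 315)) (XT.lf (nat_lit 76) (nat_lit 5111790544) (nat_lit 0) (nat_lit 529374805) (nat_lit 1520) (nat_lit 2906791674) (nat_lit 539) (nat_lit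 5) (nat_lit 538) (nat_lit 5) (nat_lit 558) (nat_lit 5) (nat_lit 418) (nat_lit 408) (nat_lit 314))))) (XT.nd (nat_lit 234) (nat_lit 0) (nat_lit 0) (XT.nd (nat_lit 78) (nat_lit 1444) (nat_lit 0) (XT.lf (nat_lit 76) (nat_lit 987424424) (nat_lit 0) (nat_lit 5987765808) (nat_lit 1520) (nat_lit 1640980048) (nat_lit 540) (nat_lit 5) (nat_lit 539) (nat_lit 5) (nat_lit 559) (nat_lit 5) (nat_lit 419) (nat_lit 408) (nat_lit 313)) (XT.nd (nat_lit 78) (nat_lit 1444) (nat_lit 0) (XT.lf (nat_lit 76) (nat_lit 5525014879) (nat_lit 0) (nat_lit 2810553717) (nat_lit 1520) (nat_lit 350192383) (nat_lit 540) (nat_lit 5) (nat_lit 539) (nat_lit 5) (nat_lit 559) (nat_lit 5) (nat_lit 420) (nat_lit 408) (nat_lit 312)) (XT.lf (nat_lit 0) (nat_lit 939198870) (nat_lit 1520) (nat_lit 7368857783) (nat_lit 1596) (nat_lit 448858475) (nat_lit 520) (nat_lit 5) (nat_lit 540) (nat_lit 5) (nat_lit 541) (nat_lit 5) (nat_lit 421) (nat_lit 408) (nat_lit 311)))) (XT.nd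 (nat_lit 78) (nat_lit 0) (nat_lit 0) (XT.lf (nat_lit 0) (nat_lit 2263598335) (nat_lit 1520) (nat_lit 2797442810) (nat_lit 1596) (nat_lit 3768132985) (nat_lit 520) (nat_lit 5) (nat_lit 540) (nat_lit 5) (nat_lit 541) (nat_lit 5) (nat_lit 422) (nat_lit 408) (nat_lit 310)) (XT.nd (nat_lit 78) (nat_lit 0) (nat_lit 76) (XT.lf (nat_lit 76) (nat_lit 1872325263) (nat_lit 0) (nat_lit 1728769261) (nat_lit 1596) (nat_lit 5302057745) (nat_lit 521) (nat_lit 5) (nat_lit 520) (nat_lit 5) (nat_lit 541) (nat_lit 5) (nat_lit 423) (nat_lit 408) (nat_lit 309)) (XT.lf (nat_lit 0) (nat_lit 4969970192) (nat_lit 1520) (nat_lit 2333867725) (nat_lit 1596) (nat_lit 1674685473) (nat_lit 521) (nat_lit 5) (nat_lit 541) (nat_lit 5) (nat_lit 542) (nat_lit 5) (nat_lit 424) (nat_lit 408) (nat_lit 308))))))) (XT.nd (nat_lit 858) (nat_lit 7752) (nat_lit 0) (XT.nd (nat_lit 390) (nat_lit 3192) (nat_lit 0) (XT.nd (nat_lit 156) (nat_lit 1520) (nat_lit 0) (XT.nd (nat_lit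 78) (nat_lit 0) (nat_lit 0) (XT.lf (nat_lit 76) (nat_lit 2460127398) (nat_lit 0) (nat_lit 3908899136) (nat_lit 1596) (nat_lit 2686325231) (nat_lit 522) (nat_lit 5) (nat_lit 521) (nat_lit 5) (nat_lit 542) (nat_lit 5) (nat_lit 425) (nat_lit 408) (nat_lit 307)) (XT.lf (nat_lit 76) (nat_lit 7364035638) (nat_lit 0) (nat_lit 423439848) (nat_lit 1596) (nat_lit 1346418768) (nat_lit 522) (nat_lit 5) (nat_lit 521) (nat_lit 5) (nat_lit 542) (nat_lit 5) (nat_lit 426) (nat_lit 408) (nat_lit 306))) (XT.nd (nat_lit 78) (nat_lit 0) (nat_lit 0) (XT.lf (nat_lit 0) (nat_lit 37214590) (nat_lit 1596) (nat_lit 6058634351) (nat_lit 1672) (nat_lit 3117817675) (nat_lit 501) (nat_lit 5) (nat_lit 522) (nat_lit 5) (nat_lit 523) (nat_lit 5) (nat_lit 427) (nat_lit 408) (nat_lit 305)) (XT.nd (nat_lit 78) (nat_lit 0) (nat_lit 76) (XT.lf (nat_lit 0) (nat_lit 1421726622) (nat_lit 1596) (nat_lit 1122167206) (nat_lit 1672) (nat_lit 6751143353) (nat_lit 501) (nat_lit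 5) (nat_lit 522) (nat_lit 5) (nat_lit 523) (nat_lit 5) (nat_lit 428) (nat_lit 408) (nat_lit 304)) (XT.lf (nat_lit 0) (nat_lit 2843687596) (nat_lit 1596) (nat_lit 5438033810) (nat_lit 1672) (nat_lit 1096123915) (nat_lit 502) (nat_lit 5) (nat_lit 523) (nat_lit 5) (nat_lit 524) (nat_lit 5) (nat_lit 429) (nat_lit 408) (nat_lit 303))))) (XT.nd (nat_lit 234) (nat_lit 1748) (nat_lit 0) (XT.nd (nat_lit 78) (nat_lit 1520) (nat_lit 0) (XT.lf (nat_lit 0) (nat_lit 4295807486) (nat_lit 1596) (nat_lit 378822811) (nat_lit 1672) (nat_lit 4787650166) (nat_lit 502) (nat_lit 5) (nat_lit 523) (nat_lit 5) (nat_lit 524) (nat_lit 5) (nat_lit 430) (nat_lit 408) (nat_lit 302)) (XT.nd (nat_lit 78) (nat_lit 1520) (nat_lit 0) (XT.lf (nat_lit 76) (nat_lit 4827227439) (nat_lit 0) (nat_lit 958821656) (nat_lit 1672) (nat_lit 3762178757) (nat_lit 503) (nat_lit 5) (nat_lit 502) (nat_lit 5) (nat_lit 524) (nat_lit 5) (nat_lit 431) (nat_lit 408) (nat_lit 301))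 (XT.lf (nat_lit 0) (nat_lit 476529460) (nat_lit 1596) (nat_lit 6831690629) (nat_lit 1672) (nat_lit 2327636638) (nat_lit 482) (nat_lit 5) (nat_lit 503) (nat_lit 5) (nat_lit 504) (nat_lit 5) (nat_lit 432) (nat_lit 408) (nat_lit 300)))) (XT.nd (nat_lit 78) (nat_lit 1748) (nat_lit 0) (XT.lf (nat_lit 0) (nat_lit 5817677465) (nat_lit 1596) (nat_lit 3059547904) (nat_lit 1672) (nat_lit 847689925) (nat_lit 482) (nat_lit 5) (nat_lit 503) (nat_lit 5) (nat_lit 504) (nat_lit 5) (nat_lit 433) (nat_lit 408) (nat_lit 299)) (XT.nd (nat_lit 78) (nat_lit 0) (nat_lit 0) (XT.lf (nat_lit 0) (nat_lit 646479261) (nat_lit 1748) (nat_lit 8374401570) (nat_lit 76) (nat_lit 794926918) (nat_lit 459) (nat_lit 5) (nat_lit 482) (nat_lit 5) (nat_lit 460) (nat_lit 5) (nat_lit 434) (nat_lit 408) (nat_lit 298)) (XT.lf (nat_lit 0) (nat_lit 2184852426) (nat_lit 1748) (nat_lit 3002215351) (nat_lit 76) (nat_lit 4720829436) (nat_lit 459) (nat_lit 5) (nat_lit 482) (nat_lit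 5) (nat_lit 460) (nat_lit 5) (nat_lit 435) (nat_lit 408) (nat_lit 297)))))) (XT.nd (nat_lit 468) (nat_lit 2660) (nat_lit 0) (XT.nd (nat_lit 234) (nat_lit 1900) (nat_lit 0) (XT.nd (nat_lit 78) (nat_lit 1444) (nat_lit 0) (XT.lf (nat_lit 0) (nat_lit 2492298586) (nat_lit 1748) (nat_lit 1257293166) (nat_lit 1824) (nat_lit 6252329295) (nat_lit 436) (nat_lit 5) (nat_lit 459) (nat_lit 5) (nat_lit 460) (nat_lit 5) (nat_lit 436) (nat_lit 408) (nat_lit 296)) (XT.nd (nat_lit 78) (nat_lit 1444) (nat_lit 0) (XT.lf (nat_lit 0) (nat_lit 5363490284) (nat_lit 1824) (nat_lit 1996132155) (nat_lit 76) (nat_lit 2737850097) (nat_lit 436) (nat_lit 5) (nat_lit 460) (nat_lit 5) (nat_lit 437) (nat_lit 5) (nat_lit 437) (nat_lit 408) (nat_lit 295)) (XT.lf (nat_lit 0) (nat_lit 3649406178) (nat_lit 1444) (nat_lit 3372401748) (nat_lit 1520) (nat_lit 3172888684) (nat_lit 417) (nat_lit 5) (nat_lit 436) (nat_lit 5) (nat_lit 437) (nat_lit 5) (nat_lit 438) (nat_lit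 408) (nat_lit 294)))) (XT.nd (nat_lit 78) (nat_lit 1900) (nat_lit 0) (XT.lf (nat_lit 0) (nat_lit 8711693632) (nat_lit 1520) (nat_lit 881332415) (nat_lit 76) (nat_lit 700875378) (nat_lit 417) (nat_lit 5) (nat_lit 437) (nat_lit 5) (nat_lit 418) (nat_lit 5) (nat_lit 439) (nat_lit 408) (nat_lit 293)) (XT.nd (nat_lit 78) (nat_lit 912) (nat_lit 0) (XT.lf (nat_lit 0) (nat_lit 75059280) (nat_lit 988) (nat_lit 5474480231) (nat_lit 76) (nat_lit 4844843700) (nat_lit 404) (nat_lit 5) (nat_lit 417) (nat_lit 5) (nat_lit 405) (nat_lit 5) (nat_lit 440) (nat_lit 408) (nat_lit 292)) (XT.lf (nat_lit 0) (nat_lit 328304397) (nat_lit 912) (nat_lit 1405011711) (nat_lit 988) (nat_lit 8763572801) (nat_lit 392) (nat_lit 5) (nat_lit 404) (nat_lit 5) (nat_lit 405) (nat_lit 5) (nat_lit 441) (nat_lit 408) (nat_lit 291))))) (XT.nd (nat_lit 234) (nat_lit 1748) (nat_lit 0) (XT.nd (nat_lit 78) (nat_lit 912) (nat_lit 0) (XT.lf (nat_lit 0) (nat_lit 3461234444)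 (nat_lit 988) (nat_lit 4316032950) (nat_lit 76) (nat_lit 2823451363) (nat_lit 392) (nat_lit 5) (nat_lit 405) (nat_lit 5) (nat_lit 393) (nat_lit 5) (nat_lit 442) (nat_lit 408) (nat_lit 290)) (XT.nd (nat_lit 78) (nat_lit 0) (nat_lit 0) (XT.lf (nat_lit 0) (nat_lit 1648127996) (nat_lit 912) (nat_lit 3577148900) (nat_lit 988) (nat_lit 5481320881) (nat_lit 380) (nat_lit 5) (nat_lit 392) (nat_lit 5) (nat_lit 393) (nat_lit 5) (nat_lit 443) (nat_lit 408) (nat_lit 289)) (XT.lf (nat_lit 0) (nat_lit 7040155962) (nat_lit 988) (nat_lit 3046726851) (nat_lit 76) (nat_lit 727404260) (nat_lit 380) (nat_lit 5) (nat_lit 393) (nat_lit 5) (nat_lit 381) (nat_lit 5) (nat_lit 444) (nat_lit 408) (nat_lit 288)))) (XT.nd (nat_lit 78) (nat_lit 912) (nat_lit 0) (XT.lf (nat_lit 0) (nat_lit 3084359295) (nat_lit 836) (nat_lit 5832856368) (nat_lit 912) (nat_lit 2006400568) (nat_lit 369) (nat_lit 5) (nat_lit 380) (nat_lit 5) (nat_lit 381) (nat_lit 5) (nat_lit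 445) (nat_lit 408) (nat_lit 287)) (XT.nd (nat_lit 78) (nat_lit 912) (nat_lit 0) (XT.lf (nat_lit 0) (nat_lit 9361828652) (nat_lit 836) (nat_lit 1472836457) (nat_lit 912) (nat_lit 200413556) (nat_lit 369) (nat_lit 5) (nat_lit 380) (nat_lit 5) (nat_lit 381) (nat_lit 5) (nat_lit 446) (nat_lit 408) (nat_lit 286)) (XT.lf (nat_lit 0) (nat_lit 1652558659) (nat_lit 912) (nat_lit 6518924284) (nat_lit 76) (nat_lit 2976429816) (nat_lit 357) (nat_lit 5) (nat_lit 369) (nat_lit 5) (nat_lit 358) (nat_lit 5) (nat_lit 447) (nat_lit 408) (nat_lit 285))))))))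
noncomputable def xc157 : XT := (XT.nd (nat_lit 1794) (nat_lit 6840) (nat_lit 0) (XT.nd (nat_lit 858) (nat_lit 4484) (nat_lit 0) (XT.nd (nat_lit 390) (nat_lit 2280) (nat_lit 0) (XT.nd (nat_lit 156) (nat_lit 1520) (nat_lit 0) (XT.nd (nat_lit 78) (nat_lit 760) (nat_lit 0) (XT.lf (nat_lit 0) (nat_lit 3543823616) (nat_lit 912) (nat_lit 211640044) (nat_lit 76) (nat_lit 7507438495) (nat_lit 357) (nat_lit 5) (nat_lit 369) (nat_lit 5) (nat_lit 358) (nat_lit 5) (nat_lit 448) (nat_lit 408) (nat_lit 284)) (XT.lf (nat_lit 0) (nat_lit 5502055856) (nat_lit 836) (nat_lit 5097912011) (nat_lit 76) (nat_lit 779644019) (nat_lit 347) (nat_lit 5) (nat_lit 358) (nat_lit 5) (nat_lit 348) (nat_lit 5) (nat_lit 449) (nat_lit 408) (nat_lit 283))) (XT.nd (nat_lit 78) (nat_lit 760) (nat_lit 0) (XT.lf (nat_lit 0) (nat_lit 1384901584) (nat_lit 760) (nat_lit 6133250820) (nat_lit 836) (nat_lit 3980132731) (nat_lit 337) (nat_lit 5) (nat_lit 347) (nat_lit 5)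 (nat_lit 348) (nat_lit 5) (nat_lit 450) (nat_lit 408) (nat_lit 282)) (XT.nd (nat_lit 78) (nat_lit 760) (nat_lit 0) (XT.lf (nat_lit 0) (nat_lit 8049060671) (nat_lit 760) (nat_lit 1543339883) (nat_lit 836) (nat_lit 2026577957) (nat_lit 337) (nat_lit 5) (nat_lit 347) (nat_lit 5) (nat_lit 348) (nat_lit 5) (nat_lit 451) (nat_lit 408) (nat_lit 281)) (XT.lf (nat_lit 0) (nat_lit 3107404331) (nat_lit 760) (nat_lit 8625215630) (nat_lit 836) (nat_lit 8979256) (nat_lit 327) (nat_lit 5) (nat_lit 337) (nat_lit 5) (nat_lit 338) (nat_lit 5) (nat_lit 452) (nat_lit 408) (nat_lit 280))))) (XT.nd (nat_lit 234) (nat_lit 1444) (nat_lit 0) (XT.nd (nat_lit 78) (nat_lit 760) (nat_lit 0) (XT.lf (nat_lit 0) (nat_lit 2040463552) (nat_lit 836) (nat_lit 1940703361) (nat_lit 76) (nat_lit 7884875128) (nat_lit 326) (nat_lit 5) (nat_lit 337) (nat_lit 5) (nat_lit 327) (nat_lit 5) (nat_lit 453) (nat_lit 408) (nat_lit 279)) (XT.nd (nat_lit 78) (nat_lit 0) (nat_lit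 0) (XT.lf (nat_lit 0) (nat_lit 4152263180) (nat_lit 836) (nat_lit 7063595373) (nat_lit 76) (nat_lit 776687224) (nat_lit 316) (nat_lit 5) (nat_lit 327) (nat_lit 5) (nat_lit 317) (nat_lit 5) (nat_lit 454) (nat_lit 408) (nat_lit 278)) (XT.lf (nat_lit 0) (nat_lit 6330302156) (nat_lit 836) (nat_lit 202804421) (nat_lit 76) (nat_lit 5587995892) (nat_lit 316) (nat_lit 5) (nat_lit 327) (nat_lit 5) (nat_lit 317) (nat_lit 5) (nat_lit 455) (nat_lit 408) (nat_lit 277)))) (XT.nd (nat_lit 78) (nat_lit 760) (nat_lit 0) (XT.lf (nat_lit 0) (nat_lit 6868283379) (nat_lit 684) (nat_lit 1713043967) (nat_lit 760) (nat_lit 3670317327) (nat_lit 307) (nat_lit 5) (nat_lit 316) (nat_lit 5) (nat_lit 317) (nat_lit 5) (nat_lit 456) (nat_lit 408) (nat_lit 276)) (XT.nd (nat_lit 78) (nat_lit 76) (nat_lit 0) (XT.lf (nat_lit 0) (nat_lit 1682858776) (nat_lit 684) (nat_lit 9212616552) (nat_lit 760) (nat_lit 1488963180) (nat_lit 298) (nat_lit 5) (nat_lit 307) (nat_lit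 5) (nat_lit 308) (nat_lit 5) (nat_lit 457) (nat_lit 408) (nat_lit 275)) (XT.lf (nat_lit 0) (nat_lit 759163890) (nat_lit 760) (nat_lit 3589416060) (nat_lit 76) (nat_lit 8170559442) (nat_lit 297) (nat_lit 5) (nat_lit 307) (nat_lit 5) (nat_lit 298) (nat_lit 5) (nat_lit 458) (nat_lit 408) (nat_lit 274)))))) (XT.nd (nat_lit 468) (nat_lit 1824) (nat_lit 0) (XT.nd (nat_lit 234) (nat_lit 1292) (nat_lit 0) (XT.nd (nat_lit 78) (nat_lit 684) (nat_lit 0) (XT.lf (nat_lit 0) (nat_lit 3045839732) (nat_lit 760) (nat_lit 8973785839) (nat_lit 76) (nat_lit 636444080) (nat_lit 288) (nat_lit 5) (nat_lit 298) (nat_lit 5) (nat_lit 289) (nat_lit 5) (nat_lit 459) (nat_lit 408) (nat_lit 273)) (XT.nd (nat_lit 78) (nat_lit 684) (nat_lit 0) (XT.lf (nat_lit 0) (nat_lit 5416838186) (nat_lit 760) (nat_lit 1693231683) (nat_lit 76) (nat_lit 5684899482) (nat_lit 288) (nat_lit 5) (nat_lit 298) (nat_lit 5) (nat_lit 289) (nat_lit 5) (nat_lit 460) (nat_lit 408)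 (nat_lit 272)) (XT.lf (nat_lit 0) (nat_lit 5792143652) (nat_lit 684) (nat_lit 2066547007) (nat_lit 760) (nat_lit 5077490269) (nat_lit 279) (nat_lit 5) (nat_lit 288) (nat_lit 5) (nat_lit 289) (nat_lit 5) (nat_lit 461) (nat_lit 408) (nat_lit 271)))) (XT.nd (nat_lit 78) (nat_lit 684) (nat_lit 0) (XT.lf (nat_lit 0) (nat_lit 337648772) (nat_lit 608) (nat_lit 10031325076) (nat_lit 684) (nat_lit 2710853532) (nat_lit 271) (nat_lit 5) (nat_lit 279) (nat_lit 5) (nat_lit 280) (nat_lit 5) (nat_lit 462) (nat_lit 408) (nat_lit 270)) (XT.nd (nat_lit 78) (nat_lit 684) (nat_lit 0) (XT.lf (nat_lit 0) (nat_lit 8035141388) (nat_lit 608) (nat_lit 4942003373) (nat_lit 684) (nat_lit 248250822) (nat_lit 271) (nat_lit 5) (nat_lit 279) (nat_lit 5) (nat_lit 280) (nat_lit 5) (nat_lit 463) (nat_lit 408) (nat_lit 269)) (XT.lf (nat_lit 0) (nat_lit 2238369964) (nat_lit 684) (nat_lit 10860999755) (nat_lit 76) (nat_lit 274124795) (nat_lit 262) (nat_lit 5) (nat_lit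 271) (nat_lit 5) (nat_lit 263) (nat_lit 5) (nat_lit 464) (nat_lit 408) (nat_lit 268))))) (XT.nd (nat_lit 234) (nat_lit 1216) (nat_lit 0) (XT.nd (nat_lit 78) (nat_lit 608) (nat_lit 0) (XT.lf (nat_lit 0) (nat_lit 4825657151) (nat_lit 684) (nat_lit 3135604995) (nat_lit 76) (nat_lit 5562177621) (nat_lit 262) (nat_lit 5) (nat_lit 271) (nat_lit 5) (nat_lit 263) (nat_lit 5) (nat_lit 465) (nat_lit 408) (nat_lit 267)) (XT.nd (nat_lit 78) (nat_lit 0) (nat_lit 0) (XT.lf (nat_lit 0) (nat_lit 4790660469) (nat_lit 608) (nat_lit 2691865579) (nat_lit 684) (nat_lit 6193503434) (nat_lit 254) (nat_lit 5) (nat_lit 262) (nat_lit 5) (nat_lit 263) (nat_lit 5) (nat_lit 466) (nat_lit 408) (nat_lit 266)) (XT.lf (nat_lit 0) (nat_lit 10217997222) (nat_lit 684) (nat_lit 947456277) (nat_lit 76) (nat_lit 2665710429) (nat_lit 254) (nat_lit 5) (nat_lit 263) (nat_lit 5) (nat_lit 255) (nat_lit 5) (nat_lit 467) (nat_lit 408) (nat_lit 265)))) (XT.nd (nat_lit 78)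 (nat_lit 608) (nat_lit 0) (XT.lf (nat_lit 0) (nat_lit 7209666734) (nat_lit 608) (nat_lit 5850270202) (nat_lit 684) (nat_lit 928431134) (nat_lit 246) (nat_lit 5) (nat_lit 254) (nat_lit 5) (nat_lit 255) (nat_lit 5) (nat_lit 468) (nat_lit 408) (nat_lit 264)) (XT.nd (nat_lit 78) (nat_lit 0) (nat_lit 0) (XT.lf (nat_lit 0) (nat_lit 1384203877) (nat_lit 532) (nat_lit 404627362) (nat_lit 608) (nat_lit 12359600715) (nat_lit 238) (nat_lit 5) (nat_lit 245) (nat_lit 5) (nat_lit 246) (nat_lit 5) (nat_lit 469) (nat_lit 408) (nat_lit 263)) (XT.lf (nat_lit 0) (nat_lit 4614551547) (nat_lit 608) (nat_lit 4564886913) (nat_lit 76) (nat_lit 5130807091) (nat_lit 238) (nat_lit 5) (nat_lit 246) (nat_lit 5) (nat_lit 239) (nat_lit 5) (nat_lit 470) (nat_lit 408) (nat_lit 262))))))) (XT.nd (nat_lit 936) (nat_lit 3116) (nat_lit 0) (XT.nd (nat_lit 468) (nat_lit 1520) (nat_lit 0) (XT.nd (nat_lit 234) (nat_lit 1064) (nat_lit 0) (XT.nd (nat_lit 78) (nat_lit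 532) (nat_lit 0) (XT.lf (nat_lit 0) (nat_lit 3829846136) (nat_lit 608) (nat_lit 3682040685) (nat_lit 684) (nat_lit 6963108613) (nat_lit 230) (nat_lit 5) (nat_lit 238) (nat_lit 5) (nat_lit 239) (nat_lit 5) (nat_lit 471) (nat_lit 408) (nat_lit 261)) (XT.nd (nat_lit 78) (nat_lit 532) (nat_lit 0) (XT.lf (nat_lit 0) (nat_lit 10498175474) (nat_lit 684) (nat_lit 2217040833) (nat_lit 76) (nat_lit 1927205855) (nat_lit 230) (nat_lit 5) (nat_lit 239) (nat_lit 5) (nat_lit 231) (nat_lit 5) (nat_lit 472) (nat_lit 408) (nat_lit 260)) (XT.lf (nat_lit 0) (nat_lit 6423548238) (nat_lit 532) (nat_lit 7174644382) (nat_lit 608) (nat_lit 1213926695) (nat_lit 223) (nat_lit 5) (nat_lit 230) (nat_lit 5) (nat_lit 231) (nat_lit 5) (nat_lit 473) (nat_lit 408) (nat_lit 259)))) (XT.nd (nat_lit 78) (nat_lit 456) (nat_lit 0) (XT.lf (nat_lit 0) (nat_lit 257847424) (nat_lit 532) (nat_lit 1498488531) (nat_lit 608) (nat_lit 13228553522) (nat_lit 215) (nat_lit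 5) (nat_lit 222) (nat_lit 5) (nat_lit 223) (nat_lit 5) (nat_lit 474) (nat_lit 408) (nat_lit 258)) (XT.nd (nat_lit 78) (nat_lit 456) (nat_lit 0) (XT.lf (nat_lit 0) (nat_lit 4842362740) (nat_lit 608) (nat_lit 6021467683) (nat_lit 76) (nat_lit 4295673702) (nat_lit 215) (nat_lit 5) (nat_lit 223) (nat_lit 5) (nat_lit 216) (nat_lit 5) (nat_lit 475) (nat_lit 408) (nat_lit 257)) (XT.lf (nat_lit 0) (nat_lit 2870143955) (nat_lit 456) (nat_lit 5136831011) (nat_lit 532) (nat_lit 7330300599) (nat_lit 209) (nat_lit 5) (nat_lit 215) (nat_lit 5) (nat_lit 216) (nat_lit 5) (nat_lit 476) (nat_lit 408) (nat_lit 256))))) (XT.nd (nat_lit 234) (nat_lit 912) (nat_lit 0) (XT.nd (nat_lit 78) (nat_lit 608) (nat_lit 0) (XT.lf (nat_lit 0) (nat_lit 11268536609) (nat_lit 532) (nat_lit 3517322241) (nat_lit 76) (nat_lit 732072201) (nat_lit 209) (nat_lit 5) (nat_lit 216) (nat_lit 5) (nat_lit 210) (nat_lit 5) (nat_lit 477) (nat_lit 408) (nat_lit 255)) (XT.nd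 (nat_lit 78) (nat_lit 76) (nat_lit 0) (XT.lf (nat_lit 0) (nat_lit 5635795384) (nat_lit 532) (nat_lit 9018778407) (nat_lit 608) (nat_lit 1046442695) (nat_lit 202) (nat_lit 5) (nat_lit 209) (nat_lit 5) (nat_lit 210) (nat_lit 5) (nat_lit 478) (nat_lit 408) (nat_lit 254)) (XT.lf (nat_lit 0) (nat_lit 2203884782) (nat_lit 608) (nat_lit 897844910) (nat_lit 76) (nat_lit 12785498453) (nat_lit 201) (nat_lit 5) (nat_lit 209) (nat_lit 5) (nat_lit 202) (nat_lit 5) (nat_lit 479) (nat_lit 408) (nat_lit 253)))) (XT.nd (nat_lit 78) (nat_lit 456) (nat_lit 0) (XT.lf (nat_lit 0) (nat_lit 5569020081) (nat_lit 532) (nat_lit 7552912174) (nat_lit 76) (nat_lit 2953818805) (nat_lit 195) (nat_lit 5) (nat_lit 202) (nat_lit 5) (nat_lit 196) (nat_lit 5) (nat_lit 480) (nat_lit 408) (nat_lit 252)) (XT.nd (nat_lit 78) (nat_lit 0) (nat_lit 0) (XT.lf (nat_lit 0) (nat_lit 1864637397) (nat_lit 456) (nat_lit 7164526893) (nat_lit 532) (nat_lit 7238327617) (nat_lit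 189) (nat_lit 5) (nat_lit 195) (nat_lit 5) (nat_lit 196) (nat_lit 5) (nat_lit 481) (nat_lit 408) (nat_lit 251)) (XT.lf (nat_lit 0) (nat_lit 11557601667) (nat_lit 456) (nat_lit 1040703663) (nat_lit 532) (nat_lit 3863967924) (nat_lit 189) (nat_lit 5) (nat_lit 195) (nat_lit 5) (nat_lit 196) (nat_lit 5) (nat_lit 482) (nat_lit 408) (nat_lit 250)))))) (XT.nd (nat_lit 468) (nat_lit 1216) (nat_lit 0) (XT.nd (nat_lit 234) (nat_lit 912) (nat_lit 0) (XT.nd (nat_lit 78) (nat_lit 532) (nat_lit 0) (XT.lf (nat_lit 0) (nat_lit 4797390925) (nat_lit 456) (nat_lit 11495679567) (nat_lit 532) (nat_lit 366796443) (nat_lit 183) (nat_lit 5) (nat_lit 189) (nat_lit 5) (nat_lit 190) (nat_lit 5) (nat_lit 483) (nat_lit 408) (nat_lit 249)) (XT.nd (nat_lit 78) (nat_lit 456) (nat_lit 0) (XT.lf (nat_lit 0) (nat_lit 3187704155) (nat_lit 532) (nat_lit 2143911763) (nat_lit 76) (nat_lit 11528795303) (nat_lit 182) (nat_lit 5) (nat_lit 189) (nat_lit 5) (nat_lit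 183) (nat_lit 5) (nat_lit 484) (nat_lit 408) (nat_lit 248)) (XT.lf (nat_lit 0) (nat_lit 6855460074) (nat_lit 532) (nat_lit 9215977064) (nat_lit 76) (nat_lit 992540676) (nat_lit 176) (nat_lit 5) (nat_lit 183) (nat_lit 5) (nat_lit 177) (nat_lit 5) (nat_lit 485) (nat_lit 408) (nat_lit 247)))) (XT.nd (nat_lit 78) (nat_lit 532) (nat_lit 0) (XT.lf (nat_lit 0) (nat_lit 756979233) (nat_lit 380) (nat_lit 9883921383) (nat_lit 456) (nat_lit 6629829949) (nat_lit 171) (nat_lit 5) (nat_lit 176) (nat_lit 5) (nat_lit 177) (nat_lit 5) (nat_lit 486) (nat_lit 408) (nat_lit 246)) (XT.nd (nat_lit 78) (nat_lit 532) (nat_lit 0) (XT.lf (nat_lit 0) (nat_lit 11039389039) (nat_lit 380) (nat_lit 3514235428) (nat_lit 456) (nat_lit 2926963802) (nat_lit 171) (nat_lit 5) (nat_lit 176) (nat_lit 5) (nat_lit 177) (nat_lit 5) (nat_lit 487) (nat_lit 408) (nat_lit 245)) (XT.lf (nat_lit 0) (nat_lit 873297535) (nat_lit 532) (nat_lit 13850596533) (nat_lit 76) (nat_lit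 2969950319) (nat_lit 164) (nat_lit 5) (nat_lit 171) (nat_lit 5) (nat_lit 165) (nat_lit 5) (nat_lit 488) (nat_lit 408) (nat_lit 244))))) (XT.nd (nat_lit 234) (nat_lit 836) (nat_lit 0) (XT.nd (nat_lit 78) (nat_lit 380) (nat_lit 0) (XT.lf (nat_lit 0) (nat_lit 4767128951) (nat_lit 532) (nat_lit 3547596829) (nat_lit 76) (nat_lit 9595119074) (nat_lit 164) (nat_lit 5) (nat_lit 171) (nat_lit 5) (nat_lit 165) (nat_lit 5) (nat_lit 489) (nat_lit 408) (nat_lit 243)) (XT.nd (nat_lit 78) (nat_lit 0) (nat_lit 0) (XT.lf (nat_lit 0) (nat_lit 7039226223) (nat_lit 380) (nat_lit 1735448501) (nat_lit 456) (nat_lit 9354775134) (nat_lit 159) (nat_lit 5) (nat_lit 164) (nat_lit 5) (nat_lit 165) (nat_lit 5) (nat_lit 490) (nat_lit 408) (nat_lit 242)) (XT.lf (nat_lit 0) (nat_lit 12908842466) (nat_lit 456) (nat_lit 514185524) (nat_lit 76) (nat_lit 4929490808) (nat_lit 159) (nat_lit 5) (nat_lit 165) (nat_lit 5) (nat_lit 160) (nat_lit 5) (nat_lit 491) (nat_lit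 408) (nat_lit 241)))) (XT.nd (nat_lit 78) (nat_lit 456) (nat_lit 0) (XT.lf (nat_lit 0) (nat_lit 10383723852) (nat_lit 380) (nat_lit 6811276324) (nat_lit 456) (nat_lit 1383664041) (nat_lit 154) (nat_lit 5) (nat_lit 159) (nat_lit 5) (nat_lit 160) (nat_lit 5) (nat_lit 492) (nat_lit 408) (nat_lit 240)) (XT.nd (nat_lit 78) (nat_lit 0) (nat_lit 0) (XT.lf (nat_lit 0) (nat_lit 2700412589) (nat_lit 380) (nat_lit 32403550) (nat_lit 456) (nat_lit 16075930846) (nat_lit 148) (nat_lit 5) (nat_lit 153) (nat_lit 5) (nat_lit 154) (nat_lit 5) (nat_lit 493) (nat_lit 408) (nat_lit 239)) (XT.lf (nat_lit 0) (nat_lit 7003646364) (nat_lit 456) (nat_lit 5186224609) (nat_lit 76) (nat_lit 6851567725) (nat_lit 148) (nat_lit 5) (nat_lit 154) (nat_lit 5) (nat_lit 149) (nat_lit 5) (nat_lit 494) (nat_lit 408) (nat_lit 238))))))))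
noncomputable def xc158 : XT := (XT.nd (nat_lit 53196) (nat_lit 0) (nat_lit 24092) (XT.nd (nat_lit 858) (nat_lit 1064) (nat_lit 0) (XT.nd (nat_lit 390) (nat_lit 1368) (nat_lit 0) (XT.nd (nat_lit 156) (nat_lit 836) (nat_lit 0) (XT.nd (nat_lit 78) (nat_lit 0) (nat_lit 0) (XT.lf (nat_lit 0) (nat_lit 6018894919) (nat_lit 380) (nat_lit 5370968991) (nat_lit 456) (nat_lit 7888322058) (nat_lit 143) (nat_lit 5) (nat_lit 148) (nat_lit 5) (nat_lit 149) (nat_lit 5) (nat_lit 495) (nat_lit 408) (nat_lit 237)) (XT.lf (nat_lit 0) (nat_lit 15899862559) (nat_lit 456) (nat_lit 2025289513) (nat_lit 76) (nat_lit 1593796094) (nat_lit 143) (nat_lit 5) (nat_lit 149) (nat_lit 5) (nat_lit 144) (nat_lit 5) (nat_lit 496) (nat_lit 408) (nat_lit 236))) (XT.nd (nat_lit 78) (nat_lit 380) (nat_lit 0) (XT.lf (nat_lit 0) (nat_lit 814696678) (nat_lit 456) (nat_lit 10259531652) (nat_lit 76) (nat_lit 8688426682) (nat_lit 137) (nat_lit 5) (nat_lit 143) (nat_lit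 5) (nat_lit 138) (nat_lit 5) (nat_lit 497) (nat_lit 408) (nat_lit 235)) (XT.nd (nat_lit 78) (nat_lit 0) (nat_lit 0) (XT.lf (nat_lit 0) (nat_lit 1257053817) (nat_lit 380) (nat_lit 4044475652) (nat_lit 456) (nat_lit 14708972449) (nat_lit 132) (nat_lit 5) (nat_lit 137) (nat_lit 5) (nat_lit 138) (nat_lit 5) (nat_lit 498) (nat_lit 408) (nat_lit 234)) (XT.lf (nat_lit 0) (nat_lit 9958699207) (nat_lit 456) (nat_lit 7153663765) (nat_lit 76) (nat_lit 3149331815) (nat_lit 132) (nat_lit 5) (nat_lit 138) (nat_lit 5) (nat_lit 133) (nat_lit 5) (nat_lit 499) (nat_lit 408) (nat_lit 233))))) (XT.nd (nat_lit 234) (nat_lit 608) (nat_lit 0) (XT.nd (nat_lit 78) (nat_lit 456) (nat_lit 0) (XT.lf (nat_lit 0) (nat_lit 4699212258) (nat_lit 304) (nat_lit 10058273774) (nat_lit 380) (nat_lit 5759457018) (nat_lit 128) (nat_lit 5) (nat_lit 132) (nat_lit 5) (nat_lit 133) (nat_lit 5) (nat_lit 500) (nat_lit 408) (nat_lit 232)) (XT.nd (nat_lit 78) (nat_lit 456)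 (nat_lit 0) (XT.lf (nat_lit 0) (nat_lit 16872455653) (nat_lit 304) (nat_lit 2819060752) (nat_lit 380) (nat_lit 1084995510) (nat_lit 128) (nat_lit 5) (nat_lit 132) (nat_lit 5) (nat_lit 133) (nat_lit 5) (nat_lit 501) (nat_lit 408) (nat_lit 231)) (XT.lf (nat_lit 0) (nat_lit 3710168427) (nat_lit 456) (nat_lit 12750425211) (nat_lit 76) (nat_lit 4578690912) (nat_lit 122) (nat_lit 5) (nat_lit 128) (nat_lit 5) (nat_lit 123) (nat_lit 5) (nat_lit 502) (nat_lit 408) (nat_lit 230)))) (XT.nd (nat_lit 78) (nat_lit 608) (nat_lit 0) (XT.lf (nat_lit 0) (nat_lit 8623189067) (nat_lit 456) (nat_lit 567821968) (nat_lit 76) (nat_lit 12115429470) (nat_lit 122) (nat_lit 5) (nat_lit 128) (nat_lit 5) (nat_lit 123) (nat_lit 5) (nat_lit 503) (nat_lit 408) (nat_lit 229)) (XT.nd (nat_lit 78) (nat_lit 304) (nat_lit 0) (XT.lf (nat_lit 0) (nat_lit 12002555994) (nat_lit 304) (nat_lit 1701437667) (nat_lit 380) (nat_lit 7873556364) (nat_lit 118) (nat_lit 5) (nat_lit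 122) (nat_lit 5) (nat_lit 123) (nat_lit 5) (nat_lit 504) (nat_lit 408) (nat_lit 228)) (XT.lf (nat_lit 0) (nat_lit 2964999970) (nat_lit 304) (nat_lit 15974696073) (nat_lit 380) (nat_lit 2913320955) (nat_lit 114) (nat_lit 5) (nat_lit 118) (nat_lit 5) (nat_lit 119) (nat_lit 5) (nat_lit 505) (nat_lit 408) (nat_lit 227)))))) (XT.nd (nat_lit 51870) (nat_lit 0) (nat_lit 33136) (XT.nd (nat_lit 234) (nat_lit 684) (nat_lit 0) (XT.nd (nat_lit 78) (nat_lit 304) (nat_lit 0) (XT.lf (nat_lit 0) (nat_lit 2185583480) (nat_lit 380) (nat_lit 6286115350) (nat_lit 76) (nat_lit 13660664444) (nat_lit 113) (nat_lit 5) (nat_lit 118) (nat_lit 5) (nat_lit 114) (nat_lit 5) (nat_lit 506) (nat_lit 408) (nat_lit 226)) (XT.nd (nat_lit 78) (nat_lit 0) (nat_lit 0) (XT.lf (nat_lit 0) (nat_lit 6622280131) (nat_lit 304) (nat_lit 760037138) (nat_lit 380) (nat_lit 15033897698) (nat_lit 109) (nat_lit 5) (nat_lit 113) (nat_lit 5) (nat_lit 114) (nat_lit 5) (nat_lit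 507) (nat_lit 408) (nat_lit 225)) (XT.lf (nat_lit 0) (nat_lit 12763455886) (nat_lit 380) (nat_lit 2890409576) (nat_lit 76) (nat_lit 7050269659) (nat_lit 109) (nat_lit 5) (nat_lit 114) (nat_lit 5) (nat_lit 110) (nat_lit 5) (nat_lit 508) (nat_lit 408) (nat_lit 224)))) (XT.nd (nat_lit 156) (nat_lit 380) (nat_lit 0) (XT.lf (nat_lit 0) (nat_lit 10389523383) (nat_lit 304) (nat_lit 7927214014) (nat_lit 380) (nat_lit 4679786692) (nat_lit 105) (nat_lit 5) (nat_lit 109) (nat_lit 5) (nat_lit 110) (nat_lit 5) (nat_lit 509) (nat_lit 408) (nat_lit 223)) (XT.nd (nat_lit 51402) (nat_lit 0) (nat_lit 34504) (XT.lf (nat_lit 0) (nat_lit 6240615359) (nat_lit 380) (nat_lit 9307368663) (nat_lit 76) (nat_lit 8046947869) (nat_lit 100) (nat_lit 5) (nat_lit 105) (nat_lit 5) (nat_lit 101) (nat_lit 5) (nat_lit 511) (nat_lit 408) (nat_lit 221)) (XT.lf (nat_lit 0) (nat_lit 1794979014) (nat_lit 1444) (nat_lit 1115461714) (nat_lit 1444) (nat_lit 1115461714)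 (nat_lit 554) (nat_lit 3) (nat_lit 573) (nat_lit 3) (nat_lit 573) (nat_lit 5) (nat_lit 409) (nat_lit 409) (nat_lit 322))))) (XT.nd (nat_lit 234) (nat_lit 1368) (nat_lit 0) (XT.nd (nat_lit 78) (nat_lit 0) (nat_lit 0) (XT.lf (nat_lit 76) (nat_lit 1716779063) (nat_lit 0) (nat_lit 3098510190) (nat_lit 1444) (nat_lit 3292942675) (nat_lit 555) (nat_lit 5) (nat_lit 554) (nat_lit 3) (nat_lit 573) (nat_lit 5) (nat_lit 410) (nat_lit 409) (nat_lit 321)) (XT.nd (nat_lit 78) (nat_lit 0) (nat_lit 76) (XT.lf (nat_lit 76) (nat_lit 5757700375) (nat_lit 0) (nat_lit 291386827) (nat_lit 1444) (nat_lit 2117029039) (nat_lit 555) (nat_lit 5) (nat_lit 554) (nat_lit 3) (nat_lit 573) (nat_lit 5) (nat_lit 411) (nat_lit 409) (nat_lit 320)) (XT.lf (nat_lit 76) (nat_lit 1642754289) (nat_lit 0) (nat_lit 5661864196) (nat_lit 1444) (nat_lit 920606383) (nat_lit 556) (nat_lit 5) (nat_lit 555) (nat_lit 5) (nat_lit 574) (nat_lit 5) (nat_lit 412) (nat_lit 409)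 (nat_lit 319)))) (XT.nd (nat_lit 78) (nat_lit 0) (nat_lit 76) (XT.lf (nat_lit 0) (nat_lit 283988826) (nat_lit 1444) (nat_lit 2498253759) (nat_lit 1520) (nat_lit 5503478129) (nat_lit 536) (nat_lit 5) (nat_lit 555) (nat_lit 5) (nat_lit 556) (nat_lit 5) (nat_lit 413) (nat_lit 409) (nat_lit 318)) (XT.nd (nat_lit 78) (nat_lit 0) (nat_lit 0) (XT.lf (nat_lit 0) (nat_lit 1482952983) (nat_lit 1444) (nat_lit 6681818802) (nat_lit 1520) (nat_lit 182888234) (nat_lit 537) (nat_lit 5) (nat_lit 556) (nat_lit 5) (nat_lit 557) (nat_lit 5) (nat_lit 414) (nat_lit 409) (nat_lit 317)) (XT.lf (nat_lit 0) (nat_lit 2712317336) (nat_lit 1444) (nat_lit 2498864298) (nat_lit 1520) (nat_lit 3199535243) (nat_lit 537) (nat_lit 5) (nat_lit 556) (nat_lit 5) (nat_lit 557) (nat_lit 5) (nat_lit 415) (nat_lit 409) (nat_lit 316))))))) (XT.nd (nat_lit 936) (nat_lit 6308) (nat_lit 0) (XT.nd (nat_lit 468) (nat_lit 1444) (nat_lit 0) (XT.nd (nat_lit 234) (nat_lit 1368)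 (nat_lit 0) (XT.nd (nat_lit 78) (nat_lit 0) (nat_lit 76) (XT.lf (nat_lit 76) (nat_lit 1774445399) (nat_lit 0) (nat_lit 2175030574) (nat_lit 1520) (nat_lit 4525901802) (nat_lit 538) (nat_lit 5) (nat_lit 537) (nat_lit 5) (nat_lit 557) (nat_lit 5) (nat_lit 416) (nat_lit 409) (nat_lit 315)) (XT.nd (nat_lit 78) (nat_lit 0) (nat_lit 0) (XT.lf (nat_lit 0) (nat_lit 5206451135) (nat_lit 1444) (nat_lit 2397103973) (nat_lit 1520) (nat_lit 937882220) (nat_lit 538) (nat_lit 5) (nat_lit 557) (nat_lit 5) (nat_lit 558) (nat_lit 5) (nat_lit 417) (nat_lit 409) (nat_lit 314)) (XT.lf (nat_lit 76) (nat_lit 1987695970) (nat_lit 0) (nat_lit 4500932767) (nat_lit 1520) (nat_lit 2120194846) (nat_lit 539) (nat_lit 5) (nat_lit 538) (nat_lit 5) (nat_lit 558) (nat_lit 5) (nat_lit 418) (nat_lit 409) (nat_lit 313)))) (XT.nd (nat_lit 78) (nat_lit 1444) (nat_lit 0) (XT.lf (nat_lit 76) (nat_lit 6476025774) (nat_lit 0) (nat_lit 1309689352) (nat_lit 1520) (nat_lit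 892063769) (nat_lit 539) (nat_lit 5) (nat_lit 538) (nat_lit 5) (nat_lit 558) (nat_lit 5) (nat_lit 419) (nat_lit 409) (nat_lit 312)) (XT.nd (nat_lit 78) (nat_lit 0) (nat_lit 0) (XT.lf (nat_lit 0) (nat_lit 357280204) (nat_lit 1520) (nat_lit 6443741770) (nat_lit 1596) (nat_lit 1947023289) (nat_lit 519) (nat_lit 5) (nat_lit 539) (nat_lit 5) (nat_lit 540) (nat_lit 5) (nat_lit 420) (nat_lit 409) (nat_lit 311)) (XT.lf (nat_lit 0) (nat_lit 1617221471) (nat_lit 1520) (nat_lit 1920944234) (nat_lit 1596) (nat_lit 5281488474) (nat_lit 519) (nat_lit 5) (nat_lit 539) (nat_lit 5) (nat_lit 540) (nat_lit 5) (nat_lit 421) (nat_lit 409) (nat_lit 310))))) (XT.nd (nat_lit 234) (nat_lit 1444) (nat_lit 0) (XT.nd (nat_lit 78) (nat_lit 0) (nat_lit 76) (XT.lf (nat_lit 76) (nat_lit 2711031223) (nat_lit 0) (nat_lit 183439774) (nat_lit 1596) (nat_lit 5998388218) (nat_lit 520) (nat_lit 5) (nat_lit 519) (nat_lit 5) (nat_lit 540) (nat_lit 5) (nat_lit 422)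 (nat_lit 409) (nat_lit 309)) (XT.nd (nat_lit 78) (nat_lit 0) (nat_lit 0) (XT.lf (nat_lit 0) (nat_lit 4206220436) (nat_lit 1520) (nat_lit 1543981903) (nat_lit 1596) (nat_lit 3217152925) (nat_lit 520) (nat_lit 5) (nat_lit 540) (nat_lit 5) (nat_lit 541) (nat_lit 5) (nat_lit 423) (nat_lit 409) (nat_lit 308)) (XT.lf (nat_lit 76) (nat_lit 3210566995) (nat_lit 0) (nat_lit 2331142237) (nat_lit 1596) (nat_lit 3501687809) (nat_lit 521) (nat_lit 5) (nat_lit 520) (nat_lit 5) (nat_lit 541) (nat_lit 5) (nat_lit 424) (nat_lit 409) (nat_lit 307)))) (XT.nd (nat_lit 78) (nat_lit 1596) (nat_lit 0) (XT.lf (nat_lit 0) (nat_lit 6897709103) (nat_lit 1520) (nat_lit 1064564669) (nat_lit 1596) (nat_lit 1158815631) (nat_lit 521) (nat_lit 5) (nat_lit 541) (nat_lit 5) (nat_lit 542) (nat_lit 5) (nat_lit 425) (nat_lit 409) (nat_lit 306)) (XT.nd (nat_lit 78) (nat_lit 1596) (nat_lit 0) (XT.lf (nat_lit 76) (nat_lit 3816652590) (nat_lit 0) (nat_lit 4480732193)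 (nat_lit 1596) (nat_lit 902625380) (nat_lit 522) (nat_lit 5) (nat_lit 521) (nat_lit 5) (nat_lit 542) (nat_lit 5) (nat_lit 426) (nat_lit 409) (nat_lit 305)) (XT.lf (nat_lit 0) (nat_lit 422437275) (nat_lit 1596) (nat_lit 490612156) (nat_lit 1672) (nat_lit 8367733166) (nat_lit 500) (nat_lit 5) (nat_lit 521) (nat_lit 5) (nat_lit 522) (nat_lit 5) (nat_lit 427) (nat_lit 409) (nat_lit 304)))))) (XT.nd (nat_lit 468) (nat_lit 4940) (nat_lit 0) (XT.nd (nat_lit 234) (nat_lit 1444) (nat_lit 0) (XT.nd (nat_lit 78) (nat_lit 0) (nat_lit 0) (XT.lf (nat_lit 0) (nat_lit 1786346223) (nat_lit 1596) (nat_lit 4844290369) (nat_lit 1672) (nat_lit 2731931274) (nat_lit 501) (nat_lit 5) (nat_lit 522) (nat_lit 5) (nat_lit 523) (nat_lit 5) (nat_lit 428) (nat_lit 409) (nat_lit 303)) (XT.nd (nat_lit 78) (nat_lit 0) (nat_lit 76) (XT.lf (nat_lit 76) (nat_lit 166908553) (nat_lit 0) (nat_lit 2998441519) (nat_lit 1672) (nat_lit 6280887668) (nat_lit 502) (nat_lit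 5) (nat_lit 501) (nat_lit 5) (nat_lit 523) (nat_lit 5) (nat_lit 429) (nat_lit 409) (nat_lit 302)) (XT.lf (nat_lit 0) (nat_lit 4586981180) (nat_lit 1596) (nat_lit 4209390379) (nat_lit 1672) (nat_lit 734913639) (nat_lit 502) (nat_lit 5) (nat_lit 523) (nat_lit 5) (nat_lit 524) (nat_lit 5) (nat_lit 430) (nat_lit 409) (nat_lit 301)))) (XT.nd (nat_lit 78) (nat_lit 1520) (nat_lit 0) (XT.lf (nat_lit 76) (nat_lit 937071084) (nat_lit 0) (nat_lit 5104089414) (nat_lit 1672) (nat_lit 3576795824) (nat_lit 503) (nat_lit 5) (nat_lit 502) (nat_lit 5) (nat_lit 524) (nat_lit 5) (nat_lit 431) (nat_lit 409) (nat_lit 300)) (XT.nd (nat_lit 78) (nat_lit 1520) (nat_lit 0) (XT.lf (nat_lit 76) (nat_lit 6226326298) (nat_lit 0) (nat_lit 1304834920) (nat_lit 1672) (nat_lit 2175069826) (nat_lit 503) (nat_lit 5) (nat_lit 502) (nat_lit 5) (nat_lit 524) (nat_lit 5) (nat_lit 432) (nat_lit 409) (nat_lit 299)) (XT.lf (nat_lit 0) (nat_lit 1814897518) (nat_lit 1596)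 (nat_lit 7243476530) (nat_lit 1672) (nat_lit 737753806) (nat_lit 482) (nat_lit 5) (nat_lit 503) (nat_lit 5) (nat_lit 504) (nat_lit 5) (nat_lit 433) (nat_lit 409) (nat_lit 298))))) (XT.nd (nat_lit 234) (nat_lit 3192) (nat_lit 0) (XT.nd (nat_lit 78) (nat_lit 1672) (nat_lit 0) (XT.lf (nat_lit 0) (nat_lit 730003506) (nat_lit 1672) (nat_lit 2655593596) (nat_lit 76) (nat_lit 6501910631) (nat_lit 481) (nat_lit 5) (nat_lit 503) (nat_lit 5) (nat_lit 482) (nat_lit 5) (nat_lit 434) (nat_lit 409) (nat_lit 297)) (XT.nd (nat_lit 78) (nat_lit 0) (nat_lit 0) (XT.lf (nat_lit 0) (nat_lit 2218618834) (nat_lit 1748) (nat_lit 7193272071) (nat_lit 76) (nat_lit 568703704) (nat_lit 459) (nat_lit 5) (nat_lit 482) (nat_lit 5) (nat_lit 460) (nat_lit 5) (nat_lit 435) (nat_lit 409) (nat_lit 296)) (XT.lf (nat_lit 0) (nat_lit 3757186718) (nat_lit 1748) (nat_lit 1740085608) (nat_lit 76) (nat_lit 4577871757) (nat_lit 459) (nat_lit 5) (nat_lit 482) (nat_lit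 5) (nat_lit 460) (nat_lit 5) (nat_lit 436) (nat_lit 409) (nat_lit 295)))) (XT.nd (nat_lit 78) (nat_lit 1444) (nat_lit 0) (XT.lf (nat_lit 0) (nat_lit 3855620094) (nat_lit 1748) (nat_lit 1476155411) (nat_lit 1824) (nat_lit 4839708430) (nat_lit 436) (nat_lit 5) (nat_lit 459) (nat_lit 5) (nat_lit 460) (nat_lit 5) (nat_lit 437) (nat_lit 409) (nat_lit 294)) (XT.nd (nat_lit 78) (nat_lit 1444) (nat_lit 0) (XT.lf (nat_lit 0) (nat_lit 6947166151) (nat_lit 1824) (nat_lit 717222637) (nat_lit 76) (nat_lit 2605179886) (nat_lit 436) (nat_lit 5) (nat_lit 460) (nat_lit 5) (nat_lit 437) (nat_lit 5) (nat_lit 438) (nat_lit 409) (nat_lit 293)) (XT.lf (nat_lit 0) (nat_lit 5032549936) (nat_lit 1444) (nat_lit 3585657471) (nat_lit 1520) (nat_lit 1750945054) (nat_lit 417) (nat_lit 5) (nat_lit 436) (nat_lit 5) (nat_lit 437) (nat_lit 5) (nat_lit 439) (nat_lit 409) (nat_lit 292))))))))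
noncomputable def xc159 : XT := (XT.nd (nat_lit 1794) (nat_lit 7828) (nat_lit 0) (XT.nd (nat_lit 858) (nat_lit 5168) (nat_lit 0) (XT.nd (nat_lit 390) (nat_lit 2508) (nat_lit 0) (XT.nd (nat_lit 156) (nat_lit 1824) (nat_lit 0) (XT.nd (nat_lit 78) (nat_lit 76) (nat_lit 0) (XT.lf (nat_lit 0) (nat_lit 420815293) (nat_lit 912) (nat_lit 9894331327) (nat_lit 988) (nat_lit 155735887) (nat_lit 405) (nat_lit 5) (nat_lit 417) (nat_lit 5) (nat_lit 418) (nat_lit 5) (nat_lit 440) (nat_lit 409) (nat_lit 291)) (XT.lf (nat_lit 0) (nat_lit 1493174171) (nat_lit 988) (nat_lit 4259234486) (nat_lit 76) (nat_lit 4821229519) (nat_lit 404) (nat_lit 5) (nat_lit 417) (nat_lit 5) (nat_lit 405) (nat_lit 5) (nat_lit 441) (nat_lit 409) (nat_lit 290))) (XT.nd (nat_lit 78) (nat_lit 912) (nat_lit 0) (XT.lf (nat_lit 0) (nat_lit 1650890471) (nat_lit 912) (nat_lit 1514473399) (nat_lit 988) (nat_lit 7513220652) (nat_lit 392) (nat_lit 5) (nat_lit 404) (nat_lit 5)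 (nat_lit 405) (nat_lit 5) (nat_lit 442) (nat_lit 409) (nat_lit 289)) (XT.nd (nat_lit 78) (nat_lit 912) (nat_lit 0) (XT.lf (nat_lit 0) (nat_lit 4899923042) (nat_lit 988) (nat_lit 3083931645) (nat_lit 76) (nat_lit 2801200406) (nat_lit 392) (nat_lit 5) (nat_lit 405) (nat_lit 5) (nat_lit 393) (nat_lit 5) (nat_lit 443) (nat_lit 409) (nat_lit 288)) (XT.lf (nat_lit 0) (nat_lit 2990838691) (nat_lit 912) (nat_lit 3690059173) (nat_lit 988) (nat_lit 4212526462) (nat_lit 380) (nat_lit 5) (nat_lit 392) (nat_lit 5) (nat_lit 393) (nat_lit 5) (nat_lit 444) (nat_lit 409) (nat_lit 287))))) (XT.nd (nat_lit 234) (nat_lit 1596) (nat_lit 0) (XT.nd (nat_lit 78) (nat_lit 912) (nat_lit 0) (XT.lf (nat_lit 0) (nat_lit 8505318734) (nat_lit 988) (nat_lit 1796561265) (nat_lit 76) (nat_lit 701928075) (nat_lit 380) (nat_lit 5) (nat_lit 393) (nat_lit 5) (nat_lit 381) (nat_lit 5) (nat_lit 445) (nat_lit 409) (nat_lit 286)) (XT.nd (nat_lit 78) (nat_lit 76) (nat_lit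 0) (XT.lf (nat_lit 0) (nat_lit 4448520946) (nat_lit 836) (nat_lit 5953887375) (nat_lit 912) (nat_lit 713271162) (nat_lit 369) (nat_lit 5) (nat_lit 380) (nat_lit 5) (nat_lit 381) (nat_lit 5) (nat_lit 446) (nat_lit 409) (nat_lit 285)) (XT.lf (nat_lit 0) (nat_lit 1088231266) (nat_lit 912) (nat_lit 411047432) (nat_lit 76) (nat_lit 9730467105) (nat_lit 368) (nat_lit 5) (nat_lit 380) (nat_lit 5) (nat_lit 369) (nat_lit 5) (nat_lit 447) (nat_lit 409) (nat_lit 284)))) (XT.nd (nat_lit 78) (nat_lit 760) (nat_lit 0) (XT.lf (nat_lit 0) (nat_lit 2958719849) (nat_lit 912) (nat_lit 5337843971) (nat_lit 76) (nat_lit 3048588583) (nat_lit 357) (nat_lit 5) (nat_lit 369) (nat_lit 5) (nat_lit 358) (nat_lit 5) (nat_lit 448) (nat_lit 409) (nat_lit 283)) (XT.nd (nat_lit 78) (nat_lit 0) (nat_lit 0) (XT.lf (nat_lit 0) (nat_lit 1084089098) (nat_lit 760) (nat_lit 3785796691) (nat_lit 836) (nat_lit 6592919313) (nat_lit 347) (nat_lit 5) (nat_lit 357) (nat_lit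 5) (nat_lit 358) (nat_lit 5) (nat_lit 449) (nat_lit 409) (nat_lit 282)) (XT.lf (nat_lit 0) (nat_lit 6844357795) (nat_lit 836) (nat_lit 3897993624) (nat_lit 76) (nat_lit 839961033) (nat_lit 347) (nat_lit 5) (nat_lit 358) (nat_lit 5) (nat_lit 348) (nat_lit 5) (nat_lit 450) (nat_lit 409) (nat_lit 281)))))) (XT.nd (nat_lit 468) (nat_lit 2128) (nat_lit 0) (XT.nd (nat_lit 234) (nat_lit 1444) (nat_lit 0) (XT.nd (nat_lit 78) (nat_lit 836) (nat_lit 0) (XT.lf (nat_lit 0) (nat_lit 2705911265) (nat_lit 760) (nat_lit 6179100070) (nat_lit 836) (nat_lit 2818667964) (nat_lit 337) (nat_lit 5) (nat_lit 347) (nat_lit 5) (nat_lit 348) (nat_lit 5) (nat_lit 451) (nat_lit 409) (nat_lit 280)) (XT.nd (nat_lit 78) (nat_lit 836) (nat_lit 0) (XT.lf (nat_lit 0) (nat_lit 9477994481) (nat_lit 760) (nat_lit 1498897106) (nat_lit 836) (nat_lit 850376749) (nat_lit 337) (nat_lit 5) (nat_lit 347) (nat_lit 5) (nat_lit 348) (nat_lit 5) (nat_lit 452) (nat_lit 409)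 (nat_lit 279)) (XT.lf (nat_lit 0) (nat_lit 1177059934) (nat_lit 836) (nat_lit 7507772686) (nat_lit 76) (nat_lit 3267650111) (nat_lit 326) (nat_lit 5) (nat_lit 337) (nat_lit 5) (nat_lit 327) (nat_lit 5) (nat_lit 453) (nat_lit 409) (nat_lit 278)))) (XT.nd (nat_lit 78) (nat_lit 1444) (nat_lit 0) (XT.lf (nat_lit 0) (nat_lit 3244114643) (nat_lit 836) (nat_lit 705942298) (nat_lit 76) (nat_lit 8129825883) (nat_lit 326) (nat_lit 5) (nat_lit 337) (nat_lit 5) (nat_lit 327) (nat_lit 5) (nat_lit 454) (nat_lit 409) (nat_lit 277)) (XT.nd (nat_lit 78) (nat_lit 684) (nat_lit 0) (XT.lf (nat_lit 0) (nat_lit 5384323195) (nat_lit 836) (nat_lit 5917246238) (nat_lit 76) (nat_lit 907628121) (nat_lit 316) (nat_lit 5) (nat_lit 327) (nat_lit 5) (nat_lit 317) (nat_lit 5) (nat_lit 455) (nat_lit 409) (nat_lit 276)) (XT.lf (nat_lit 0) (nat_lit 1069540274) (nat_lit 684) (nat_lit 6520797139) (nat_lit 760) (nat_lit 4750303967) (nat_lit 307) (nat_lit 5) (nat_lit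 316) (nat_lit 5) (nat_lit 317) (nat_lit 5) (nat_lit 456) (nat_lit 409) (nat_lit 275))))) (XT.nd (nat_lit 234) (nat_lit 1368) (nat_lit 0) (XT.nd (nat_lit 78) (nat_lit 760) (nat_lit 0) (XT.lf (nat_lit 0) (nat_lit 8259717529) (nat_lit 684) (nat_lit 1605775716) (nat_lit 760) (nat_lit 2608723188) (nat_lit 307) (nat_lit 5) (nat_lit 316) (nat_lit 5) (nat_lit 317) (nat_lit 5) (nat_lit 457) (nat_lit 409) (nat_lit 274)) (XT.nd (nat_lit 78) (nat_lit 76) (nat_lit 0) (XT.lf (nat_lit 0) (nat_lit 2983734490) (nat_lit 684) (nat_lit 9229503706) (nat_lit 760) (nat_lit 396685793) (nat_lit 298) (nat_lit 5) (nat_lit 307) (nat_lit 5) (nat_lit 308) (nat_lit 5) (nat_lit 458) (nat_lit 409) (nat_lit 273)) (XT.lf (nat_lit 0) (nat_lit 1859975282) (nat_lit 760) (nat_lit 2404207624) (nat_lit 76) (nat_lit 8483428497) (nat_lit 297) (nat_lit 5) (nat_lit 307) (nat_lit 5) (nat_lit 298) (nat_lit 5) (nat_lit 459) (nat_lit 409) (nat_lit 272)))) (XT.nd (nat_lit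 78) (nat_lit 684) (nat_lit 0) (XT.lf (nat_lit 0) (nat_lit 4180349894) (nat_lit 760) (nat_lit 7884035725) (nat_lit 76) (nat_lit 823139230) (nat_lit 288) (nat_lit 5) (nat_lit 298) (nat_lit 5) (nat_lit 289) (nat_lit 5) (nat_lit 460) (nat_lit 409) (nat_lit 271)) (XT.nd (nat_lit 78) (nat_lit 684) (nat_lit 0) (XT.lf (nat_lit 0) (nat_lit 6577717466) (nat_lit 760) (nat_lit 482757266) (nat_lit 76) (nat_lit 5969152637) (nat_lit 288) (nat_lit 5) (nat_lit 298) (nat_lit 5) (nat_lit 289) (nat_lit 5) (nat_lit 461) (nat_lit 409) (nat_lit 270)) (XT.lf (nat_lit 0) (nat_lit 7144139134) (nat_lit 684) (nat_lit 1911655690) (nat_lit 760) (nat_lit 4118124334) (nat_lit 279) (nat_lit 5) (nat_lit 288) (nat_lit 5) (nat_lit 289) (nat_lit 5) (nat_lit 462) (nat_lit 409) (nat_lit 269))))))) (XT.nd (nat_lit 936) (nat_lit 3572) (nat_lit 0) (XT.nd (nat_lit 468) (nat_lit 1748) (nat_lit 0) (XT.nd (nat_lit 234) (nat_lit 1216) (nat_lit 0) (XT.nd (nat_lit 78) (nat_lit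 684) (nat_lit 0) (XT.lf (nat_lit 0) (nat_lit 1592003476) (nat_lit 608) (nat_lit 10013238691) (nat_lit 684) (nat_lit 1715420864) (nat_lit 271) (nat_lit 5) (nat_lit 279) (nat_lit 5) (nat_lit 280) (nat_lit 5) (nat_lit 463) (nat_lit 409) (nat_lit 268)) (XT.nd (nat_lit 78) (nat_lit 608) (nat_lit 0) (XT.lf (nat_lit 0) (nat_lit 765677086) (nat_lit 684) (nat_lit 4055603859) (nat_lit 76) (nat_lit 8648167984) (nat_lit 270) (nat_lit 5) (nat_lit 279) (nat_lit 5) (nat_lit 271) (nat_lit 5) (nat_lit 464) (nat_lit 409) (nat_lit 267)) (XT.lf (nat_lit 0) (nat_lit 3288234610) (nat_lit 684) (nat_lit 9830761109) (nat_lit 76) (nat_lit 501694183) (nat_lit 262) (nat_lit 5) (nat_lit 271) (nat_lit 5) (nat_lit 263) (nat_lit 5) (nat_lit 465) (nat_lit 409) (nat_lit 266)))) (XT.nd (nat_lit 78) (nat_lit 1216) (nat_lit 0) (XT.lf (nat_lit 0) (nat_lit 5907559751) (nat_lit 684) (nat_lit 1975318428) (nat_lit 76) (nat_lit 5891153421) (nat_lit 262) (nat_lit 5)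 (nat_lit 271) (nat_lit 5) (nat_lit 263) (nat_lit 5) (nat_lit 466) (nat_lit 409) (nat_lit 265)) (XT.nd (nat_lit 78) (nat_lit 608) (nat_lit 0) (XT.lf (nat_lit 0) (nat_lit 6101426302) (nat_lit 608) (nat_lit 2504706641) (nat_lit 684) (nat_lit 5323772145) (nat_lit 254) (nat_lit 5) (nat_lit 262) (nat_lit 5) (nat_lit 263) (nat_lit 5) (nat_lit 467) (nat_lit 409) (nat_lit 264)) (XT.lf (nat_lit 0) (nat_lit 245672419) (nat_lit 608) (nat_lit 11134673033) (nat_lit 684) (nat_lit 2708119385) (nat_lit 246) (nat_lit 5) (nat_lit 254) (nat_lit 5) (nat_lit 255) (nat_lit 5) (nat_lit 468) (nat_lit 409) (nat_lit 263))))) (XT.nd (nat_lit 234) (nat_lit 1140) (nat_lit 0) (XT.nd (nat_lit 78) (nat_lit 532) (nat_lit 0) (XT.lf (nat_lit 0) (nat_lit 17276281) (nat_lit 684) (nat_lit 5694418071) (nat_lit 76) (nat_lit 8537370640) (nat_lit 245) (nat_lit 5) (nat_lit 254) (nat_lit 5) (nat_lit 246) (nat_lit 5) (nat_lit 469) (nat_lit 409) (nat_lit 262)) (XT.nd (nat_lit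 78) (nat_lit 0) (nat_lit 0) (XT.lf (nat_lit 0) (nat_lit 2617611770) (nat_lit 532) (nat_lit 148016577) (nat_lit 608) (nat_lit 11646798611) (nat_lit 238) (nat_lit 5) (nat_lit 245) (nat_lit 5) (nat_lit 246) (nat_lit 5) (nat_lit 470) (nat_lit 409) (nat_lit 261)) (XT.lf (nat_lit 0) (nat_lit 5631096610) (nat_lit 608) (nat_lit 3457185807) (nat_lit 76) (nat_lit 5489532743) (nat_lit 238) (nat_lit 5) (nat_lit 246) (nat_lit 5) (nat_lit 239) (nat_lit 5) (nat_lit 471) (nat_lit 409) (nat_lit 260)))) (XT.nd (nat_lit 78) (nat_lit 532) (nat_lit 0) (XT.lf (nat_lit 0) (nat_lit 5097553753) (nat_lit 608) (nat_lit 3478435689) (nat_lit 684) (nat_lit 6170081327) (nat_lit 230) (nat_lit 5) (nat_lit 238) (nat_lit 5) (nat_lit 239) (nat_lit 5) (nat_lit 472) (nat_lit 409) (nat_lit 259)) (XT.nd (nat_lit 78) (nat_lit 532) (nat_lit 0) (XT.lf (nat_lit 0) (nat_lit 11605849717) (nat_lit 684) (nat_lit 1077327528) (nat_lit 76) (nat_lit 2233994757) (nat_lit 230)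 (nat_lit 5) (nat_lit 239) (nat_lit 5) (nat_lit 231) (nat_lit 5) (nat_lit 473) (nat_lit 409) (nat_lit 258)) (XT.lf (nat_lit 0) (nat_lit 7728283495) (nat_lit 532) (nat_lit 7029618628) (nat_lit 608) (nat_lit 332563109) (nat_lit 223) (nat_lit 5) (nat_lit 230) (nat_lit 5) (nat_lit 231) (nat_lit 5) (nat_lit 474) (nat_lit 409) (nat_lit 257)))))) (XT.nd (nat_lit 468) (nat_lit 1444) (nat_lit 0) (XT.nd (nat_lit 234) (nat_lit 1064) (nat_lit 0) (XT.nd (nat_lit 78) (nat_lit 456) (nat_lit 0) (XT.lf (nat_lit 0) (nat_lit 1443467469) (nat_lit 532) (nat_lit 1231899222) (nat_lit 608) (nat_lit 12591406434) (nat_lit 215) (nat_lit 5) (nat_lit 222) (nat_lit 5) (nat_lit 223) (nat_lit 5) (nat_lit 475) (nat_lit 409) (nat_lit 256)) (XT.nd (nat_lit 78) (nat_lit 456) (nat_lit 0) (XT.lf (nat_lit 0) (nat_lit 5807670265) (nat_lit 608) (nat_lit 4969003136) (nat_lit 76) (nat_lit 4668518209) (nat_lit 215) (nat_lit 5) (nat_lit 223) (nat_lit 5) (nat_lit 216) (nat_lit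 5) (nat_lit 476) (nat_lit 409) (nat_lit 255)) (XT.lf (nat_lit 0) (nat_lit 4092724327) (nat_lit 456) (nat_lit 4933386880) (nat_lit 532) (nat_lit 6600599157) (nat_lit 209) (nat_lit 5) (nat_lit 215) (nat_lit 5) (nat_lit 216) (nat_lit 5) (nat_lit 477) (nat_lit 409) (nat_lit 254)))) (XT.nd (nat_lit 78) (nat_lit 1064) (nat_lit 0) (XT.lf (nat_lit 0) (nat_lit 12338009960) (nat_lit 532) (nat_lit 2430315473) (nat_lit 76) (nat_lit 1042953974) (nat_lit 209) (nat_lit 5) (nat_lit 216) (nat_lit 5) (nat_lit 210) (nat_lit 5) (nat_lit 478) (nat_lit 409) (nat_lit 253)) (XT.nd (nat_lit 78) (nat_lit 532) (nat_lit 0) (XT.lf (nat_lit 0) (nat_lit 6898250338) (nat_lit 532) (nat_lit 8884431384) (nat_lit 608) (nat_lit 215529066) (nat_lit 202) (nat_lit 5) (nat_lit 209) (nat_lit 5) (nat_lit 210) (nat_lit 5) (nat_lit 479) (nat_lit 409) (nat_lit 252)) (XT.lf (nat_lit 0) (nat_lit 225423631) (nat_lit 456) (nat_lit 2848189128) (nat_lit 532) (nat_lit 13114726125)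 (nat_lit 195) (nat_lit 5) (nat_lit 201) (nat_lit 5) (nat_lit 202) (nat_lit 5) (nat_lit 480) (nat_lit 409) (nat_lit 251))))) (XT.nd (nat_lit 234) (nat_lit 988) (nat_lit 0) (XT.nd (nat_lit 78) (nat_lit 456) (nat_lit 0) (XT.lf (nat_lit 0) (nat_lit 6497816284) (nat_lit 532) (nat_lit 6558812120) (nat_lit 76) (nat_lit 3324170913) (nat_lit 195) (nat_lit 5) (nat_lit 202) (nat_lit 5) (nat_lit 196) (nat_lit 5) (nat_lit 481) (nat_lit 409) (nat_lit 250)) (XT.nd (nat_lit 78) (nat_lit 0) (nat_lit 0) (XT.lf (nat_lit 0) (nat_lit 3039554506) (nat_lit 456) (nat_lit 6978967322) (nat_lit 532) (nat_lit 6558028305) (nat_lit 189) (nat_lit 5) (nat_lit 195) (nat_lit 5) (nat_lit 196) (nat_lit 5) (nat_lit 482) (nat_lit 409) (nat_lit 249)) (XT.lf (nat_lit 0) (nat_lit 12904071701) (nat_lit 456) (nat_lit 739115669) (nat_lit 532) (nat_lit 3132359181) (nat_lit 189) (nat_lit 5) (nat_lit 195) (nat_lit 5) (nat_lit 196) (nat_lit 5) (nat_lit 483) (nat_lit 409)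 (nat_lit 248)))) (XT.nd (nat_lit 78) (nat_lit 456) (nat_lit 0) (XT.lf (nat_lit 0) (nat_lit 422798583) (nat_lit 532) (nat_lit 10964893408) (nat_lit 76) (nat_lit 5589470953) (nat_lit 182) (nat_lit 5) (nat_lit 189) (nat_lit 5) (nat_lit 183) (nat_lit 5) (nat_lit 484) (nat_lit 409) (nat_lit 247)) (XT.nd (nat_lit 78) (nat_lit 456) (nat_lit 0) (XT.lf (nat_lit 0) (nat_lit 4027952495) (nat_lit 532) (nat_lit 1076590973) (nat_lit 76) (nat_lit 12077438810) (nat_lit 182) (nat_lit 5) (nat_lit 189) (nat_lit 5) (nat_lit 183) (nat_lit 5) (nat_lit 485) (nat_lit 409) (nat_lit 246)) (XT.lf (nat_lit 0) (nat_lit 7763170453) (nat_lit 532) (nat_lit 8284099322) (nat_lit 76) (nat_lit 1342470393) (nat_lit 176) (nat_lit 5) (nat_lit 183) (nat_lit 5) (nat_lit 177) (nat_lit 5) (nat_lit 486) (nat_lit 409) (nat_lit 245))))))))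
noncomputable def xc160 : XT := (XT.nd (nat_lit 1872) (nat_lit 684) (nat_lit 0) (XT.nd (nat_lit 858) (nat_lit 2584) (nat_lit 0) (XT.nd (nat_lit 390) (nat_lit 1216) (nat_lit 0) (XT.nd (nat_lit 156) (nat_lit 912) (nat_lit 0) (XT.nd (nat_lit 78) (nat_lit 0) (nat_lit 0) (XT.lf (nat_lit 0) (nat_lit 1880972699) (nat_lit 380) (nat_lit 9735436695) (nat_lit 456) (nat_lit 5984378850) (nat_lit 171) (nat_lit 5) (nat_lit 176) (nat_lit 5) (nat_lit 177) (nat_lit 5) (nat_lit 487) (nat_lit 409) (nat_lit 244)) (XT.lf (nat_lit 0) (nat_lit 12347288468) (nat_lit 380) (nat_lit 3245144533) (nat_lit 456) (nat_lit 2222711218) (nat_lit 171) (nat_lit 5) (nat_lit 176) (nat_lit 5) (nat_lit 177) (nat_lit 5) (nat_lit 488) (nat_lit 409) (nat_lit 243))) (XT.nd (nat_lit 78) (nat_lit 380) (nat_lit 0) (XT.lf (nat_lit 0) (nat_lit 1638106899) (nat_lit 532) (nat_lit 13024852087) (nat_lit 76) (nat_lit 3369718251) (nat_lit 164) (nat_lit 5) (nat_lit 171) (nat_lit 5)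 (nat_lit 165) (nat_lit 5) (nat_lit 489) (nat_lit 409) (nat_lit 242)) (XT.nd (nat_lit 78) (nat_lit 380) (nat_lit 0) (XT.lf (nat_lit 0) (nat_lit 5595161151) (nat_lit 532) (nat_lit 2537415063) (nat_lit 76) (nat_lit 10120716480) (nat_lit 164) (nat_lit 5) (nat_lit 171) (nat_lit 5) (nat_lit 165) (nat_lit 5) (nat_lit 490) (nat_lit 409) (nat_lit 241)) (XT.lf (nat_lit 0) (nat_lit 8254031728) (nat_lit 380) (nat_lit 1421432905) (nat_lit 456) (nat_lit 8801974898) (nat_lit 159) (nat_lit 5) (nat_lit 164) (nat_lit 5) (nat_lit 165) (nat_lit 5) (nat_lit 491) (nat_lit 409) (nat_lit 240))))) (XT.nd (nat_lit 234) (nat_lit 380) (nat_lit 0) (XT.nd (nat_lit 78) (nat_lit 456) (nat_lit 0) (XT.lf (nat_lit 0) (nat_lit 547769919) (nat_lit 380) (nat_lit 13336100554) (nat_lit 456) (nat_lit 4821270113) (nat_lit 154) (nat_lit 5) (nat_lit 159) (nat_lit 5) (nat_lit 160) (nat_lit 5) (nat_lit 492) (nat_lit 409) (nat_lit 239)) (XT.nd (nat_lit 78) (nat_lit 456)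 (nat_lit 0) (XT.lf (nat_lit 0) (nat_lit 11649446441) (nat_lit 380) (nat_lit 6595631791) (nat_lit 456) (nat_lit 690945940) (nat_lit 154) (nat_lit 5) (nat_lit 159) (nat_lit 5) (nat_lit 160) (nat_lit 5) (nat_lit 493) (nat_lit 409) (nat_lit 238)) (XT.lf (nat_lit 0) (nat_lit 3493462736) (nat_lit 456) (nat_lit 15357877571) (nat_lit 76) (nat_lit 319375530) (nat_lit 148) (nat_lit 5) (nat_lit 154) (nat_lit 5) (nat_lit 149) (nat_lit 5) (nat_lit 494) (nat_lit 409) (nat_lit 237)))) (XT.nd (nat_lit 78) (nat_lit 380) (nat_lit 0) (XT.lf (nat_lit 0) (nat_lit 7836077002) (nat_lit 456) (nat_lit 4238567806) (nat_lit 76) (nat_lit 7333690917) (nat_lit 148) (nat_lit 5) (nat_lit 154) (nat_lit 5) (nat_lit 149) (nat_lit 5) (nat_lit 495) (nat_lit 409) (nat_lit 236)) (XT.nd (nat_lit 78) (nat_lit 0) (nat_lit 0) (XT.lf (nat_lit 0) (nat_lit 7183737130) (nat_lit 380) (nat_lit 5119487483) (nat_lit 456) (nat_lit 7346730872) (nat_lit 143) (nat_lit 5) (nat_lit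 148) (nat_lit 5) (nat_lit 149) (nat_lit 5) (nat_lit 496) (nat_lit 409) (nat_lit 235)) (XT.lf (nat_lit 0) (nat_lit 16892265347) (nat_lit 456) (nat_lit 1030571488) (nat_lit 76) (nat_lit 1972920877) (nat_lit 143) (nat_lit 5) (nat_lit 149) (nat_lit 5) (nat_lit 144) (nat_lit 5) (nat_lit 497) (nat_lit 409) (nat_lit 234)))))) (XT.nd (nat_lit 468) (nat_lit 988) (nat_lit 0) (XT.nd (nat_lit 234) (nat_lit 760) (nat_lit 0) (XT.nd (nat_lit 78) (nat_lit 380) (nat_lit 0) (XT.lf (nat_lit 0) (nat_lit 1503351225) (nat_lit 456) (nat_lit 9427295685) (nat_lit 76) (nat_lit 9213735841) (nat_lit 137) (nat_lit 5) (nat_lit 143) (nat_lit 5) (nat_lit 138) (nat_lit 5) (nat_lit 498) (nat_lit 409) (nat_lit 233)) (XT.nd (nat_lit 78) (nat_lit 0) (nat_lit 0) (XT.lf (nat_lit 0) (nat_lit 2312796319) (nat_lit 380) (nat_lit 3760632160) (nat_lit 456) (nat_lit 14323889492) (nat_lit 132) (nat_lit 5) (nat_lit 137) (nat_lit 5) (nat_lit 138) (nat_lit 5) (nat_lit 499)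 (nat_lit 409) (nat_lit 232)) (XT.lf (nat_lit 0) (nat_lit 10813007023) (nat_lit 456) (nat_lit 6275533783) (nat_lit 76) (nat_lit 3565210085) (nat_lit 132) (nat_lit 5) (nat_lit 138) (nat_lit 5) (nat_lit 133) (nat_lit 5) (nat_lit 500) (nat_lit 409) (nat_lit 231)))) (XT.nd (nat_lit 78) (nat_lit 456) (nat_lit 0) (XT.lf (nat_lit 0) (nat_lit 5807681318) (nat_lit 304) (nat_lit 9893829214) (nat_lit 380) (nat_lit 5212720242) (nat_lit 128) (nat_lit 5) (nat_lit 132) (nat_lit 5) (nat_lit 133) (nat_lit 5) (nat_lit 501) (nat_lit 409) (nat_lit 230)) (XT.nd (nat_lit 78) (nat_lit 456) (nat_lit 0) (XT.lf (nat_lit 0) (nat_lit 18204497722) (nat_lit 304) (nat_lit 2517000756) (nat_lit 380) (nat_lit 457748443) (nat_lit 128) (nat_lit 5) (nat_lit 132) (nat_lit 5) (nat_lit 133) (nat_lit 5) (nat_lit 502) (nat_lit 409) (nat_lit 229)) (XT.lf (nat_lit 0) (nat_lit 4421072388) (nat_lit 456) (nat_lit 11998454197) (nat_lit 76) (nat_lit 5027740250) (nat_lit 122)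 (nat_lit 5) (nat_lit 128) (nat_lit 5) (nat_lit 123) (nat_lit 5) (nat_lit 503) (nat_lit 409) (nat_lit 228))))) (XT.nd (nat_lit 234) (nat_lit 380) (nat_lit 0) (XT.nd (nat_lit 78) (nat_lit 304) (nat_lit 0) (XT.lf (nat_lit 0) (nat_lit 413479268) (nat_lit 304) (nat_lit 9009074429) (nat_lit 380) (nat_lit 12297409568) (nat_lit 118) (nat_lit 5) (nat_lit 122) (nat_lit 5) (nat_lit 123) (nat_lit 5) (nat_lit 504) (nat_lit 409) (nat_lit 227)) (XT.nd (nat_lit 78) (nat_lit 304) (nat_lit 0) (XT.lf (nat_lit 0) (nat_lit 13223346969) (nat_lit 304) (nat_lit 1373070911) (nat_lit 380) (nat_lit 7400249558) (nat_lit 118) (nat_lit 5) (nat_lit 122) (nat_lit 5) (nat_lit 123) (nat_lit 5) (nat_lit 505) (nat_lit 409) (nat_lit 226)) (XT.lf (nat_lit 0) (nat_lit 4008601944) (nat_lit 304) (nat_lit 15924805485) (nat_lit 380) (nat_lit 2344306168) (nat_lit 114) (nat_lit 5) (nat_lit 118) (nat_lit 5) (nat_lit 119) (nat_lit 5) (nat_lit 506) (nat_lit 409) (nat_lit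 225)))) (XT.nd (nat_lit 78) (nat_lit 304) (nat_lit 0) (XT.lf (nat_lit 0) (nat_lit 2836211130) (nat_lit 380) (nat_lit 5438707274) (nat_lit 76) (nat_lit 14287890963) (nat_lit 113) (nat_lit 5) (nat_lit 118) (nat_lit 5) (nat_lit 114) (nat_lit 5) (nat_lit 507) (nat_lit 409) (nat_lit 224)) (XT.nd (nat_lit 78) (nat_lit 0) (nat_lit 0) (XT.lf (nat_lit 0) (nat_lit 7721453943) (nat_lit 304) (nat_lit 409801980) (nat_lit 380) (nat_lit 14721195877) (nat_lit 109) (nat_lit 5) (nat_lit 113) (nat_lit 5) (nat_lit 114) (nat_lit 5) (nat_lit 508) (nat_lit 409) (nat_lit 223)) (XT.lf (nat_lit 0) (nat_lit 13610553397) (nat_lit 380) (nat_lit 1990920686) (nat_lit 76) (nat_lit 7544846761) (nat_lit 109) (nat_lit 5) (nat_lit 114) (nat_lit 5) (nat_lit 110) (nat_lit 5) (nat_lit 509) (nat_lit 409) (nat_lit 222))))))) (XT.nd (nat_lit 52182) (nat_lit 0) (nat_lit 30400) (XT.nd (nat_lit 51714) (nat_lit 0) (nat_lit 33136) (XT.nd (nat_lit 51480) (nat_lit 0) (nat_lit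 33060) (XT.nd (nat_lit 78) (nat_lit 0) (nat_lit 0) (XT.lf (nat_lit 0) (nat_lit 1294311579) (nat_lit 380) (nat_lit 22113539640) (nat_lit 76) (nat_lit 340588946) (nat_lit 100) (nat_lit 5) (nat_lit 105) (nat_lit 5) (nat_lit 101) (nat_lit 5) (nat_lit 511) (nat_lit 409) (nat_lit 220)) (XT.lf (nat_lit 0) (nat_lit 6941248132) (nat_lit 380) (nat_lit 8550415232) (nat_lit 76) (nat_lit 8563594945) (nat_lit 100) (nat_lit 5) (nat_lit 105) (nat_lit 5) (nat_lit 101) (nat_lit 5) (nat_lit 512) (nat_lit 409) (nat_lit 219))) (XT.nd (nat_lit 78) (nat_lit 1444) (nat_lit 0) (XT.lf (nat_lit 0) (nat_lit 3001513562) (nat_lit 1444) (nat_lit 540596910) (nat_lit 1444) (nat_lit 540596910) (nat_lit 554) (nat_lit 3) (nat_lit 573) (nat_lit 3) (nat_lit 573) (nat_lit 5) (nat_lit 410) (nat_lit 410) (nat_lit 320)) (XT.nd (nat_lit 78) (nat_lit 1444) (nat_lit 0) (XT.lf (nat_lit 76) (nat_lit 2937605168) (nat_lit 0) (nat_lit 4277056035) (nat_lit 1444) (nat_lit 1009085001)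 (nat_lit 555) (nat_lit 5) (nat_lit 554) (nat_lit 3) (nat_lit 573) (nat_lit 5) (nat_lit 411) (nat_lit 410) (nat_lit 319)) (XT.lf (nat_lit 0) (nat_lit 142381854) (nat_lit 1444) (nat_lit 1248559253) (nat_lit 1520) (nat_lit 6892743075) (nat_lit 535) (nat_lit 5) (nat_lit 554) (nat_lit 3) (nat_lit 555) (nat_lit 5) (nat_lit 412) (nat_lit 410) (nat_lit 318))))) (XT.nd (nat_lit 234) (nat_lit 0) (nat_lit 76) (XT.nd (nat_lit 78) (nat_lit 0) (nat_lit 0) (XT.lf (nat_lit 0) (nat_lit 1303032101) (nat_lit 1444) (nat_lit 5469767588) (nat_lit 1520) (nat_lit 1571901843) (nat_lit 536) (nat_lit 5) (nat_lit 555) (nat_lit 5) (nat_lit 556) (nat_lit 5) (nat_lit 413) (nat_lit 410) (nat_lit 317)) (XT.nd (nat_lit 78) (nat_lit 0) (nat_lit 0) (XT.lf (nat_lit 0) (nat_lit 2475683520) (nat_lit 1444) (nat_lit 1334242685) (nat_lit 1520) (nat_lit 4597244444) (nat_lit 536) (nat_lit 5) (nat_lit 555) (nat_lit 5) (nat_lit 556) (nat_lit 5) (nat_lit 414) (nat_lit 410)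 (nat_lit 316)) (XT.lf (nat_lit 76) (nat_lit 2906399328) (nat_lit 0) (nat_lit 755967401) (nat_lit 1520) (nat_lit 4808717886) (nat_lit 537) (nat_lit 5) (nat_lit 536) (nat_lit 5) (nat_lit 556) (nat_lit 5) (nat_lit 415) (nat_lit 410) (nat_lit 315)))) (XT.nd (nat_lit 78) (nat_lit 0) (nat_lit 0) (XT.lf (nat_lit 0) (nat_lit 4869354315) (nat_lit 1444) (nat_lit 1317784592) (nat_lit 1520) (nat_lit 2349213445) (nat_lit 537) (nat_lit 5) (nat_lit 556) (nat_lit 5) (nat_lit 557) (nat_lit 5) (nat_lit 416) (nat_lit 410) (nat_lit 314)) (XT.nd (nat_lit 78) (nat_lit 0) (nat_lit 76) (XT.lf (nat_lit 76) (nat_lit 3032892239) (nat_lit 0) (nat_lit 3065072950) (nat_lit 1520) (nat_lit 2505017353) (nat_lit 538) (nat_lit 5) (nat_lit 537) (nat_lit 5) (nat_lit 557) (nat_lit 5) (nat_lit 417) (nat_lit 410) (nat_lit 313)) (XT.lf (nat_lit 0) (nat_lit 7334112890) (nat_lit 1444) (nat_lit 1199597983) (nat_lit 1520) (nat_lit 137581808) (nat_lit 538) (nat_lit 5)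 (nat_lit 557) (nat_lit 5) (nat_lit 558) (nat_lit 5) (nat_lit 418) (nat_lit 410) (nat_lit 312)))))) (XT.nd (nat_lit 468) (nat_lit 1368) (nat_lit 0) (XT.nd (nat_lit 234) (nat_lit 0) (nat_lit 76) (XT.nd (nat_lit 78) (nat_lit 1520) (nat_lit 0) (XT.lf (nat_lit 76) (nat_lit 3264704222) (nat_lit 0) (nat_lit 5345585786) (nat_lit 1520) (nat_lit 130379392) (nat_lit 539) (nat_lit 5) (nat_lit 538) (nat_lit 5) (nat_lit 558) (nat_lit 5) (nat_lit 419) (nat_lit 410) (nat_lit 311)) (XT.nd (nat_lit 78) (nat_lit 0) (nat_lit 76) (XT.lf (nat_lit 0) (nat_lit 1068270120) (nat_lit 1520) (nat_lit 1000281975) (nat_lit 1596) (nat_lit 6743101958) (nat_lit 518) (nat_lit 5) (nat_lit 538) (nat_lit 5) (nat_lit 539) (nat_lit 5) (nat_lit 420) (nat_lit 410) (nat_lit 310)) (XT.lf (nat_lit 0) (nat_lit 2295536601) (nat_lit 1520) (nat_lit 5297422847) (nat_lit 1596) (nat_lit 1290960051) (nat_lit 519) (nat_lit 5) (nat_lit 539) (nat_lit 5) (nat_lit 540) (nat_lit 5)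 (nat_lit 421) (nat_lit 410) (nat_lit 309)))) (XT.nd (nat_lit 78) (nat_lit 0) (nat_lit 0) (XT.lf (nat_lit 0) (nat_lit 3542811776) (nat_lit 1520) (nat_lit 709173160) (nat_lit 1596) (nat_lit 4705742062) (nat_lit 519) (nat_lit 5) (nat_lit 539) (nat_lit 5) (nat_lit 540) (nat_lit 5) (nat_lit 422) (nat_lit 410) (nat_lit 308)) (XT.nd (nat_lit 78) (nat_lit 0) (nat_lit 76) (XT.lf (nat_lit 76) (nat_lit 4007216872) (nat_lit 0) (nat_lit 809330613) (nat_lit 1596) (nat_lit 4216438754) (nat_lit 520) (nat_lit 5) (nat_lit 519) (nat_lit 5) (nat_lit 540) (nat_lit 5) (nat_lit 423) (nat_lit 410) (nat_lit 307)) (XT.lf (nat_lit 0) (nat_lit 6114018561) (nat_lit 1520) (nat_lit 316297754) (nat_lit 1596) (nat_lit 2679474915) (nat_lit 520) (nat_lit 5) (nat_lit 540) (nat_lit 5) (nat_lit 541) (nat_lit 5) (nat_lit 424) (nat_lit 410) (nat_lit 306))))) (XT.nd (nat_lit 234) (nat_lit 0) (nat_lit 0) (XT.nd (nat_lit 78) (nat_lit 1520) (nat_lit 0) (XT.lf (nat_lit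 76) (nat_lit 4525062096) (nat_lit 0) (nat_lit 2923514399) (nat_lit 1596) (nat_lit 1739338742) (nat_lit 521) (nat_lit 5) (nat_lit 520) (nat_lit 5) (nat_lit 541) (nat_lit 5) (nat_lit 425) (nat_lit 410) (nat_lit 305)) (XT.nd (nat_lit 78) (nat_lit 1596) (nat_lit 0) (XT.lf (nat_lit 76) (nat_lit 181402449) (nat_lit 0) (nat_lit 8612781477) (nat_lit 1596) (nat_lit 473736184) (nat_lit 522) (nat_lit 5) (nat_lit 521) (nat_lit 5) (nat_lit 542) (nat_lit 5) (nat_lit 426) (nat_lit 410) (nat_lit 304)) (XT.lf (nat_lit 0) (nat_lit 834311403) (nat_lit 1596) (nat_lit 4204922610) (nat_lit 1672) (nat_lit 4309633282) (nat_lit 500) (nat_lit 5) (nat_lit 521) (nat_lit 5) (nat_lit 522) (nat_lit 5) (nat_lit 427) (nat_lit 410) (nat_lit 303)))) (XT.nd (nat_lit 78) (nat_lit 0) (nat_lit 76) (XT.lf (nat_lit 76) (nat_lit 764627814) (nat_lit 0) (nat_lit 1379962320) (nat_lit 1672) (nat_lit 7287137626) (nat_lit 501) (nat_lit 5) (nat_lit 500) (nat_lit 5) (nat_lit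 522) (nat_lit 5) (nat_lit 428) (nat_lit 410) (nat_lit 302)) (XT.nd (nat_lit 78) (nat_lit 0) (nat_lit 0) (XT.lf (nat_lit 0) (nat_lit 3502568478) (nat_lit 1596) (nat_lit 3657519247) (nat_lit 1672) (nat_lit 2355732959) (nat_lit 501) (nat_lit 5) (nat_lit 522) (nat_lit 5) (nat_lit 523) (nat_lit 5) (nat_lit 429) (nat_lit 410) (nat_lit 301)) (XT.lf (nat_lit 76) (nat_lit 1445458541) (nat_lit 0) (nat_lit 3439022494) (nat_lit 1672) (nat_lit 4717183966) (nat_lit 502) (nat_lit 5) (nat_lit 501) (nat_lit 5) (nat_lit 523) (nat_lit 5) (nat_lit 430) (nat_lit 410) (nat_lit 300))))))))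
noncomputable def xc161 : XT := (XT.nd (nat_lit 1794) (nat_lit 9196) (nat_lit 0) (XT.nd (nat_lit 858) (nat_lit 5168) (nat_lit 0) (XT.nd (nat_lit 390) (nat_lit 5852) (nat_lit 0) (XT.nd (nat_lit 156) (nat_lit 1596) (nat_lit 0) (XT.nd (nat_lit 78) (nat_lit 0) (nat_lit 0) (XT.lf (nat_lit 0) (nat_lit 6299654897) (nat_lit 1596) (nat_lit 3008107111) (nat_lit 1672) (nat_lit 381356668) (nat_lit 502) (nat_lit 5) (nat_lit 523) (nat_lit 5) (nat_lit 524) (nat_lit 5) (nat_lit 431) (nat_lit 410) (nat_lit 299)) (XT.lf (nat_lit 76) (nat_lit 2232826535) (nat_lit 0) (nat_lit 5526599468) (nat_lit 1672) (nat_lit 2018574381) (nat_lit 503) (nat_lit 5) (nat_lit 502) (nat_lit 5) (nat_lit 524) (nat_lit 5) (nat_lit 432) (nat_lit 410) (nat_lit 298))) (XT.nd (nat_lit 78) (nat_lit 1596) (nat_lit 0) (XT.lf (nat_lit 76) (nat_lit 7602827362) (nat_lit 0) (nat_lit 1645076977) (nat_lit 1672) (nat_lit 620769891) (nat_lit 503) (nat_lit 5) (nat_lit 502) (nat_lit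 5) (nat_lit 524) (nat_lit 5) (nat_lit 433) (nat_lit 410) (nat_lit 297)) (XT.nd (nat_lit 78) (nat_lit 0) (nat_lit 0) (XT.lf (nat_lit 0) (nat_lit 809622439) (nat_lit 1672) (nat_lit 6837758225) (nat_lit 76) (nat_lit 2313377125) (nat_lit 481) (nat_lit 5) (nat_lit 503) (nat_lit 5) (nat_lit 482) (nat_lit 5) (nat_lit 434) (nat_lit 410) (nat_lit 296)) (XT.lf (nat_lit 0) (nat_lit 2266429098) (nat_lit 1672) (nat_lit 1435949654) (nat_lit 76) (nat_lit 6352104297) (nat_lit 481) (nat_lit 5) (nat_lit 503) (nat_lit 5) (nat_lit 482) (nat_lit 5) (nat_lit 435) (nat_lit 410) (nat_lit 295))))) (XT.nd (nat_lit 234) (nat_lit 2432) (nat_lit 0) (XT.nd (nat_lit 78) (nat_lit 1748) (nat_lit 0) (XT.lf (nat_lit 0) (nat_lit 3761655174) (nat_lit 1748) (nat_lit 6040888445) (nat_lit 76) (nat_lit 347357908) (nat_lit 459) (nat_lit 5) (nat_lit 482) (nat_lit 5) (nat_lit 460) (nat_lit 5) (nat_lit 436) (nat_lit 410) (nat_lit 294)) (XT.nd (nat_lit 78) (nat_lit 1748)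 (nat_lit 0) (XT.lf (nat_lit 0) (nat_lit 5301608847) (nat_lit 1748) (nat_lit 504054901) (nat_lit 76) (nat_lit 4441272457) (nat_lit 459) (nat_lit 5) (nat_lit 482) (nat_lit 5) (nat_lit 460) (nat_lit 5) (nat_lit 437) (nat_lit 410) (nat_lit 293)) (XT.lf (nat_lit 0) (nat_lit 5195204176) (nat_lit 1748) (nat_lit 1691872658) (nat_lit 1824) (nat_lit 3458544648) (nat_lit 436) (nat_lit 5) (nat_lit 459) (nat_lit 5) (nat_lit 460) (nat_lit 5) (nat_lit 438) (nat_lit 410) (nat_lit 292)))) (XT.nd (nat_lit 78) (nat_lit 988) (nat_lit 0) (XT.lf (nat_lit 0) (nat_lit 543177075) (nat_lit 1444) (nat_lit 7965534479) (nat_lit 1520) (nat_lit 1937483888) (nat_lit 417) (nat_lit 5) (nat_lit 436) (nat_lit 5) (nat_lit 437) (nat_lit 5) (nat_lit 439) (nat_lit 410) (nat_lit 291)) (XT.nd (nat_lit 78) (nat_lit 988) (nat_lit 0) (XT.lf (nat_lit 0) (nat_lit 6392481628) (nat_lit 1444) (nat_lit 3797516419) (nat_lit 1520) (nat_lit 358242498) (nat_lit 417) (nat_lit 5)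 (nat_lit 436) (nat_lit 5) (nat_lit 437) (nat_lit 5) (nat_lit 440) (nat_lit 410) (nat_lit 290)) (XT.lf (nat_lit 0) (nat_lit 1232069714) (nat_lit 988) (nat_lit 8951277048) (nat_lit 76) (nat_lit 468902748) (nat_lit 404) (nat_lit 5) (nat_lit 417) (nat_lit 5) (nat_lit 405) (nat_lit 5) (nat_lit 441) (nat_lit 410) (nat_lit 289)))))) (XT.nd (nat_lit 468) (nat_lit 2432) (nat_lit 0) (XT.nd (nat_lit 234) (nat_lit 1824) (nat_lit 0) (XT.nd (nat_lit 78) (nat_lit 912) (nat_lit 0) (XT.lf (nat_lit 0) (nat_lit 2884642522) (nat_lit 988) (nat_lit 3071124913) (nat_lit 76) (nat_lit 4801822646) (nat_lit 404) (nat_lit 5) (nat_lit 417) (nat_lit 5) (nat_lit 405) (nat_lit 5) (nat_lit 442) (nat_lit 410) (nat_lit 288)) (XT.nd (nat_lit 78) (nat_lit 0) (nat_lit 0) (XT.lf (nat_lit 0) (nat_lit 2948825607) (nat_lit 912) (nat_lit 1622964957) (nat_lit 988) (nat_lit 6293220162) (nat_lit 392) (nat_lit 5) (nat_lit 404) (nat_lit 5) (nat_lit 405) (nat_lit 5) (nat_lit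 443) (nat_lit 410) (nat_lit 287)) (XT.lf (nat_lit 0) (nat_lit 6314207460) (nat_lit 988) (nat_lit 1878384246) (nat_lit 76) (nat_lit 2781561223) (nat_lit 392) (nat_lit 5) (nat_lit 405) (nat_lit 5) (nat_lit 393) (nat_lit 5) (nat_lit 444) (nat_lit 410) (nat_lit 286)))) (XT.nd (nat_lit 78) (nat_lit 912) (nat_lit 0) (XT.lf (nat_lit 0) (nat_lit 4309544483) (nat_lit 912) (nat_lit 3803621308) (nat_lit 988) (nat_lit 2971881915) (nat_lit 380) (nat_lit 5) (nat_lit 392) (nat_lit 5) (nat_lit 393) (nat_lit 5) (nat_lit 445) (nat_lit 410) (nat_lit 285)) (XT.nd (nat_lit 78) (nat_lit 912) (nat_lit 0) (XT.lf (nat_lit 0) (nat_lit 9948358262) (nat_lit 988) (nat_lit 572303982) (nat_lit 76) (nat_lit 677496558) (nat_lit 380) (nat_lit 5) (nat_lit 393) (nat_lit 5) (nat_lit 381) (nat_lit 5) (nat_lit 446) (nat_lit 410) (nat_lit 284)) (XT.lf (nat_lit 0) (nat_lit 546683681) (nat_lit 912) (nat_lit 5526816942) (nat_lit 76) (nat_lit 5239036942) (nat_lit 368)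 (nat_lit 5) (nat_lit 380) (nat_lit 5) (nat_lit 369) (nat_lit 5) (nat_lit 447) (nat_lit 410) (nat_lit 283))))) (XT.nd (nat_lit 234) (nat_lit 836) (nat_lit 0) (XT.nd (nat_lit 78) (nat_lit 760) (nat_lit 0) (XT.lf (nat_lit 0) (nat_lit 835772450) (nat_lit 836) (nat_lit 1519530706) (nat_lit 912) (nat_lit 9073880033) (nat_lit 357) (nat_lit 5) (nat_lit 368) (nat_lit 5) (nat_lit 369) (nat_lit 5) (nat_lit 448) (nat_lit 410) (nat_lit 282)) (XT.nd (nat_lit 78) (nat_lit 760) (nat_lit 0) (XT.lf (nat_lit 0) (nat_lit 4241567849) (nat_lit 912) (nat_lit 4184067595) (nat_lit 76) (nat_lit 3121700080) (nat_lit 357) (nat_lit 5) (nat_lit 369) (nat_lit 5) (nat_lit 358) (nat_lit 5) (nat_lit 449) (nat_lit 410) (nat_lit 281)) (XT.lf (nat_lit 0) (nat_lit 2358011152) (nat_lit 760) (nat_lit 3817082729) (nat_lit 836) (nat_lit 5492569493) (nat_lit 347) (nat_lit 5) (nat_lit 357) (nat_lit 5) (nat_lit 358) (nat_lit 5) (nat_lit 450) (nat_lit 410) (nat_lit 280))))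 (XT.nd (nat_lit 78) (nat_lit 836) (nat_lit 0) (XT.lf (nat_lit 0) (nat_lit 8165655584) (nat_lit 836) (nat_lit 2724630326) (nat_lit 76) (nat_lit 899747695) (nat_lit 347) (nat_lit 5) (nat_lit 358) (nat_lit 5) (nat_lit 348) (nat_lit 5) (nat_lit 451) (nat_lit 410) (nat_lit 279)) (XT.nd (nat_lit 78) (nat_lit 76) (nat_lit 0) (XT.lf (nat_lit 0) (nat_lit 4003120272) (nat_lit 760) (nat_lit 6228849155) (nat_lit 836) (nat_lit 1682166061) (nat_lit 337) (nat_lit 5) (nat_lit 347) (nat_lit 5) (nat_lit 348) (nat_lit 5) (nat_lit 452) (nat_lit 410) (nat_lit 278)) (XT.lf (nat_lit 0) (nat_lit 298139153) (nat_lit 836) (nat_lit 1156350012) (nat_lit 76) (nat_lit 10586130999) (nat_lit 336) (nat_lit 5) (nat_lit 347) (nat_lit 5) (nat_lit 337) (nat_lit 5) (nat_lit 453) (nat_lit 410) (nat_lit 277))))))) (XT.nd (nat_lit 936) (nat_lit 4180) (nat_lit 0) (XT.nd (nat_lit 468) (nat_lit 2052) (nat_lit 0) (XT.nd (nat_lit 234) (nat_lit 1444) (nat_lit 0) (XT.nd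 (nat_lit 78) (nat_lit 760) (nat_lit 0) (XT.lf (nat_lit 0) (nat_lit 2340642132) (nat_lit 836) (nat_lit 6409325071) (nat_lit 76) (nat_lit 3418545518) (nat_lit 326) (nat_lit 5) (nat_lit 337) (nat_lit 5) (nat_lit 327) (nat_lit 5) (nat_lit 454) (nat_lit 410) (nat_lit 276)) (XT.nd (nat_lit 78) (nat_lit 0) (nat_lit 0) (XT.lf (nat_lit 0) (nat_lit 510758196) (nat_lit 760) (nat_lit 3919242175) (nat_lit 836) (nat_lit 7868845488) (nat_lit 316) (nat_lit 5) (nat_lit 326) (nat_lit 5) (nat_lit 327) (nat_lit 5) (nat_lit 455) (nat_lit 410) (nat_lit 275)) (XT.lf (nat_lit 0) (nat_lit 6596406767) (nat_lit 836) (nat_lit 4797970014) (nat_lit 76) (nat_lit 1036706435) (nat_lit 316) (nat_lit 5) (nat_lit 327) (nat_lit 5) (nat_lit 317) (nat_lit 5) (nat_lit 456) (nat_lit 410) (nat_lit 274)))) (XT.nd (nat_lit 78) (nat_lit 760) (nat_lit 0) (XT.lf (nat_lit 0) (nat_lit 2320409984) (nat_lit 684) (nat_lit 6512459033) (nat_lit 760) (nat_lit 3732564471) (nat_lit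 307) (nat_lit 5) (nat_lit 316) (nat_lit 5) (nat_lit 317) (nat_lit 5) (nat_lit 457) (nat_lit 410) (nat_lit 273)) (XT.nd (nat_lit 78) (nat_lit 760) (nat_lit 0) (XT.lf (nat_lit 0) (nat_lit 9630283354) (nat_lit 684) (nat_lit 1501857849) (nat_lit 760) (nat_lit 1569970618) (nat_lit 307) (nat_lit 5) (nat_lit 316) (nat_lit 5) (nat_lit 317) (nat_lit 5) (nat_lit 458) (nat_lit 410) (nat_lit 272)) (XT.lf (nat_lit 0) (nat_lit 665028436) (nat_lit 760) (nat_lit 8583736470) (nat_lit 76) (nat_lit 3591928951) (nat_lit 297) (nat_lit 5) (nat_lit 307) (nat_lit 5) (nat_lit 298) (nat_lit 5) (nat_lit 459) (nat_lit 410) (nat_lit 271))))) (XT.nd (nat_lit 234) (nat_lit 684) (nat_lit 0) (XT.nd (nat_lit 78) (nat_lit 1368) (nat_lit 0) (XT.lf (nat_lit 0) (nat_lit 2940646639) (nat_lit 760) (nat_lit 1244105735) (nat_lit 76) (nat_lit 8796751302) (nat_lit 297) (nat_lit 5) (nat_lit 307) (nat_lit 5) (nat_lit 298) (nat_lit 5) (nat_lit 460) (nat_lit 410) (nat_lit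 270)) (XT.nd (nat_lit 78) (nat_lit 684) (nat_lit 0) (XT.lf (nat_lit 0) (nat_lit 5295861320) (nat_lit 760) (nat_lit 6821776194) (nat_lit 76) (nat_lit 1006812961) (nat_lit 288) (nat_lit 5) (nat_lit 298) (nat_lit 5) (nat_lit 289) (nat_lit 5) (nat_lit 461) (nat_lit 410) (nat_lit 269)) (XT.lf (nat_lit 0) (nat_lit 712958008) (nat_lit 684) (nat_lit 7012613812) (nat_lit 760) (nat_lit 5544138978) (nat_lit 279) (nat_lit 5) (nat_lit 288) (nat_lit 5) (nat_lit 289) (nat_lit 5) (nat_lit 462) (nat_lit 410) (nat_lit 268)))) (XT.nd (nat_lit 78) (nat_lit 684) (nat_lit 0) (XT.lf (nat_lit 0) (nat_lit 8475173214) (nat_lit 684) (nat_lit 1761286095) (nat_lit 760) (nat_lit 3180767733) (nat_lit 279) (nat_lit 5) (nat_lit 288) (nat_lit 5) (nat_lit 289) (nat_lit 5) (nat_lit 463) (nat_lit 410) (nat_lit 267)) (XT.nd (nat_lit 78) (nat_lit 76) (nat_lit 0) (XT.lf (nat_lit 0) (nat_lit 2822999380) (nat_lit 608) (nat_lit 10003283466) (nat_lit 684) (nat_lit 740838721)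 (nat_lit 271) (nat_lit 5) (nat_lit 279) (nat_lit 5) (nat_lit 280) (nat_lit 5) (nat_lit 464) (nat_lit 410) (nat_lit 266)) (XT.lf (nat_lit 0) (nat_lit 1757126685) (nat_lit 684) (nat_lit 2947931454) (nat_lit 76) (nat_lit 9014087874) (nat_lit 270) (nat_lit 5) (nat_lit 279) (nat_lit 5) (nat_lit 271) (nat_lit 5) (nat_lit 465) (nat_lit 410) (nat_lit 265)))))) (XT.nd (nat_lit 468) (nat_lit 1748) (nat_lit 0) (XT.nd (nat_lit 234) (nat_lit 1216) (nat_lit 0) (XT.nd (nat_lit 78) (nat_lit 608) (nat_lit 0) (XT.lf (nat_lit 0) (nat_lit 4320067398) (nat_lit 684) (nat_lit 8828358030) (nat_lit 76) (nat_lit 725191055) (nat_lit 262) (nat_lit 5) (nat_lit 271) (nat_lit 5) (nat_lit 263) (nat_lit 5) (nat_lit 466) (nat_lit 410) (nat_lit 264)) (XT.nd (nat_lit 78) (nat_lit 608) (nat_lit 0) (XT.lf (nat_lit 0) (nat_lit 6972836530) (nat_lit 684) (nat_lit 839316657) (nat_lit 76) (nat_lit 6218253928) (nat_lit 262) (nat_lit 5) (nat_lit 271) (nat_lit 5) (nat_lit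 263) (nat_lit 5) (nat_lit 467) (nat_lit 410) (nat_lit 263)) (XT.lf (nat_lit 0) (nat_lit 7391229361) (nat_lit 608) (nat_lit 2323162702) (nat_lit 684) (nat_lit 4475228982) (nat_lit 254) (nat_lit 5) (nat_lit 262) (nat_lit 5) (nat_lit 263) (nat_lit 5) (nat_lit 468) (nat_lit 410) (nat_lit 262)))) (XT.nd (nat_lit 78) (nat_lit 608) (nat_lit 0) (XT.lf (nat_lit 0) (nat_lit 1427941540) (nat_lit 608) (nat_lit 11106910297) (nat_lit 684) (nat_lit 1816688017) (nat_lit 246) (nat_lit 5) (nat_lit 254) (nat_lit 5) (nat_lit 255) (nat_lit 5) (nat_lit 469) (nat_lit 410) (nat_lit 261)) (XT.nd (nat_lit 78) (nat_lit 532) (nat_lit 0) (XT.lf (nat_lit 0) (nat_lit 932516046) (nat_lit 684) (nat_lit 4641727481) (nat_lit 76) (nat_lit 8941354659) (nat_lit 245) (nat_lit 5) (nat_lit 254) (nat_lit 5) (nat_lit 246) (nat_lit 5) (nat_lit 470) (nat_lit 410) (nat_lit 260)) (XT.lf (nat_lit 0) (nat_lit 3726092075) (nat_lit 608) (nat_lit 10854242186) (nat_lit 76) (nat_lit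 102090935) (nat_lit 238) (nat_lit 5) (nat_lit 246) (nat_lit 5) (nat_lit 239) (nat_lit 5) (nat_lit 471) (nat_lit 410) (nat_lit 259))))) (XT.nd (nat_lit 234) (nat_lit 608) (nat_lit 0) (XT.nd (nat_lit 78) (nat_lit 1140) (nat_lit 0) (XT.lf (nat_lit 0) (nat_lit 6632082664) (nat_lit 608) (nat_lit 2373889265) (nat_lit 76) (nat_lit 5845487864) (nat_lit 238) (nat_lit 5) (nat_lit 246) (nat_lit 5) (nat_lit 239) (nat_lit 5) (nat_lit 472) (nat_lit 410) (nat_lit 258)) (XT.nd (nat_lit 78) (nat_lit 532) (nat_lit 0) (XT.lf (nat_lit 0) (nat_lit 6344363242) (nat_lit 608) (nat_lit 3281524386) (nat_lit 684) (nat_lit 5397395431) (nat_lit 230) (nat_lit 5) (nat_lit 238) (nat_lit 5) (nat_lit 239) (nat_lit 5) (nat_lit 473) (nat_lit 410) (nat_lit 257)) (XT.lf (nat_lit 0) (nat_lit 39722749) (nat_lit 532) (nat_lit 12661353401) (nat_lit 608) (nat_lit 2497038323) (nat_lit 223) (nat_lit 5) (nat_lit 230) (nat_lit 5) (nat_lit 231) (nat_lit 5) (nat_lit 474)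 (nat_lit 410) (nat_lit 256)))) (XT.nd (nat_lit 78) (nat_lit 532) (nat_lit 0) (XT.lf (nat_lit 0) (nat_lit 524292984) (nat_lit 608) (nat_lit 6365084624) (nat_lit 76) (nat_lit 8485626415) (nat_lit 222) (nat_lit 5) (nat_lit 230) (nat_lit 5) (nat_lit 223) (nat_lit 5) (nat_lit 475) (nat_lit 410) (nat_lit 255)) (XT.nd (nat_lit 78) (nat_lit 0) (nat_lit 0) (XT.lf (nat_lit 0) (nat_lit 2606961094) (nat_lit 532) (nat_lit 971493878) (nat_lit 608) (nat_lit 11976531220) (nat_lit 215) (nat_lit 5) (nat_lit 222) (nat_lit 5) (nat_lit 223) (nat_lit 5) (nat_lit 476) (nat_lit 410) (nat_lit 254)) (XT.lf (nat_lit 0) (nat_lit 6758560569) (nat_lit 608) (nat_lit 3941034198) (nat_lit 76) (nat_lit 5037677724) (nat_lit 215) (nat_lit 5) (nat_lit 223) (nat_lit 5) (nat_lit 216) (nat_lit 5) (nat_lit 477) (nat_lit 410) (nat_lit 253))))))))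
noncomputable def xc162 : XT := (XT.nd (nat_lit 1794) (nat_lit 2432) (nat_lit 0) (XT.nd (nat_lit 858) (nat_lit 2964) (nat_lit 0) (XT.nd (nat_lit 390) (nat_lit 1824) (nat_lit 0) (XT.nd (nat_lit 156) (nat_lit 1064) (nat_lit 0) (XT.nd (nat_lit 78) (nat_lit 0) (nat_lit 0) (XT.lf (nat_lit 0) (nat_lit 5294511045) (nat_lit 456) (nat_lit 4737763239) (nat_lit 532) (nat_lit 5890331772) (nat_lit 209) (nat_lit 5) (nat_lit 215) (nat_lit 5) (nat_lit 216) (nat_lit 5) (nat_lit 478) (nat_lit 410) (nat_lit 252)) (XT.lf (nat_lit 0) (nat_lit 13396095244) (nat_lit 532) (nat_lit 1366510006) (nat_lit 76) (nat_lit 1348550009) (nat_lit 209) (nat_lit 5) (nat_lit 216) (nat_lit 5) (nat_lit 210) (nat_lit 5) (nat_lit 479) (nat_lit 410) (nat_lit 251))) (XT.nd (nat_lit 78) (nat_lit 456) (nat_lit 0) (XT.lf (nat_lit 0) (nat_lit 591069747) (nat_lit 608) (nat_lit 8164582345) (nat_lit 76) (nat_lit 7546272487) (nat_lit 201) (nat_lit 5) (nat_lit 209) (nat_lit 5)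 (nat_lit 202) (nat_lit 5) (nat_lit 480) (nat_lit 410) (nat_lit 250)) (XT.nd (nat_lit 78) (nat_lit 0) (nat_lit 0) (XT.lf (nat_lit 0) (nat_lit 1338540296) (nat_lit 456) (nat_lit 2595925047) (nat_lit 532) (nat_lit 12561536587) (nat_lit 195) (nat_lit 5) (nat_lit 201) (nat_lit 5) (nat_lit 202) (nat_lit 5) (nat_lit 481) (nat_lit 410) (nat_lit 249)) (XT.lf (nat_lit 0) (nat_lit 7413447160) (nat_lit 532) (nat_lit 5589297958) (nat_lit 76) (nat_lit 3689842846) (nat_lit 195) (nat_lit 5) (nat_lit 202) (nat_lit 5) (nat_lit 196) (nat_lit 5) (nat_lit 482) (nat_lit 410) (nat_lit 248))))) (XT.nd (nat_lit 234) (nat_lit 836) (nat_lit 0) (XT.nd (nat_lit 78) (nat_lit 532) (nat_lit 0) (XT.lf (nat_lit 0) (nat_lit 4193794617) (nat_lit 456) (nat_lit 6802466211) (nat_lit 532) (nat_lit 5896161320) (nat_lit 189) (nat_lit 5) (nat_lit 195) (nat_lit 5) (nat_lit 196) (nat_lit 5) (nat_lit 483) (nat_lit 410) (nat_lit 247)) (XT.nd (nat_lit 78) (nat_lit 532) (nat_lit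 0) (XT.lf (nat_lit 0) (nat_lit 14234161979) (nat_lit 456) (nat_lit 444015180) (nat_lit 532) (nat_lit 2417528373) (nat_lit 189) (nat_lit 5) (nat_lit 195) (nat_lit 5) (nat_lit 196) (nat_lit 5) (nat_lit 484) (nat_lit 410) (nat_lit 246)) (XT.lf (nat_lit 0) (nat_lit 1192523434) (nat_lit 532) (nat_lit 10095760859) (nat_lit 76) (nat_lit 6013091353) (nat_lit 182) (nat_lit 5) (nat_lit 189) (nat_lit 5) (nat_lit 183) (nat_lit 5) (nat_lit 485) (nat_lit 410) (nat_lit 245)))) (XT.nd (nat_lit 78) (nat_lit 836) (nat_lit 0) (XT.lf (nat_lit 0) (nat_lit 4854853584) (nat_lit 532) (nat_lit 31034148) (nat_lit 76) (nat_lit 12624704235) (nat_lit 182) (nat_lit 5) (nat_lit 189) (nat_lit 5) (nat_lit 183) (nat_lit 5) (nat_lit 486) (nat_lit 410) (nat_lit 244)) (XT.nd (nat_lit 78) (nat_lit 380) (nat_lit 0) (XT.lf (nat_lit 0) (nat_lit 8659111656) (nat_lit 532) (nat_lit 7376927325) (nat_lit 76) (nat_lit 1686581339) (nat_lit 176) (nat_lit 5) (nat_lit 183)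 (nat_lit 5) (nat_lit 177) (nat_lit 5) (nat_lit 487) (nat_lit 410) (nat_lit 243)) (XT.lf (nat_lit 0) (nat_lit 2984387886) (nat_lit 380) (nat_lit 9597424249) (nat_lit 456) (nat_lit 5356231270) (nat_lit 171) (nat_lit 5) (nat_lit 176) (nat_lit 5) (nat_lit 177) (nat_lit 5) (nat_lit 488) (nat_lit 410) (nat_lit 242)))))) (XT.nd (nat_lit 468) (nat_lit 1672) (nat_lit 0) (XT.nd (nat_lit 234) (nat_lit 760) (nat_lit 0) (XT.nd (nat_lit 78) (nat_lit 532) (nat_lit 0) (XT.lf (nat_lit 0) (nat_lit 13639132015) (nat_lit 380) (nat_lit 2983850189) (nat_lit 456) (nat_lit 1533993720) (nat_lit 171) (nat_lit 5) (nat_lit 176) (nat_lit 5) (nat_lit 177) (nat_lit 5) (nat_lit 489) (nat_lit 410) (nat_lit 241)) (XT.nd (nat_lit 78) (nat_lit 0) (nat_lit 0) (XT.lf (nat_lit 0) (nat_lit 2389192195) (nat_lit 532) (nat_lit 12225414127) (nat_lit 76) (nat_lit 3764264602) (nat_lit 164) (nat_lit 5) (nat_lit 171) (nat_lit 5) (nat_lit 165) (nat_lit 5) (nat_lit 490) (nat_lit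 410) (nat_lit 240)) (XT.lf (nat_lit 0) (nat_lit 6411302764) (nat_lit 532) (nat_lit 1549011401) (nat_lit 76) (nat_lit 10643868051) (nat_lit 164) (nat_lit 5) (nat_lit 171) (nat_lit 5) (nat_lit 165) (nat_lit 5) (nat_lit 491) (nat_lit 410) (nat_lit 239)))) (XT.nd (nat_lit 78) (nat_lit 380) (nat_lit 0) (XT.lf (nat_lit 0) (nat_lit 9451427799) (nat_lit 380) (nat_lit 1114678396) (nat_lit 456) (nat_lit 8266849711) (nat_lit 159) (nat_lit 5) (nat_lit 164) (nat_lit 5) (nat_lit 165) (nat_lit 5) (nat_lit 492) (nat_lit 410) (nat_lit 238)) (XT.nd (nat_lit 78) (nat_lit 0) (nat_lit 0) (XT.lf (nat_lit 0) (nat_lit 1596027387) (nat_lit 380) (nat_lit 13257851919) (nat_lit 456) (nat_lit 4211429454) (nat_lit 154) (nat_lit 5) (nat_lit 159) (nat_lit 5) (nat_lit 160) (nat_lit 5) (nat_lit 493) (nat_lit 410) (nat_lit 237)) (XT.lf (nat_lit 0) (nat_lit 12899398183) (nat_lit 380) (nat_lit 6389337911) (nat_lit 456) (nat_lit 12347151) (nat_lit 154) (nat_lit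 5) (nat_lit 159) (nat_lit 5) (nat_lit 160) (nat_lit 5) (nat_lit 494) (nat_lit 410) (nat_lit 236))))) (XT.nd (nat_lit 234) (nat_lit 836) (nat_lit 0) (XT.nd (nat_lit 78) (nat_lit 380) (nat_lit 0) (XT.lf (nat_lit 0) (nat_lit 4242114060) (nat_lit 456) (nat_lit 14634269147) (nat_lit 76) (nat_lit 664088372) (nat_lit 148) (nat_lit 5) (nat_lit 154) (nat_lit 5) (nat_lit 149) (nat_lit 5) (nat_lit 495) (nat_lit 410) (nat_lit 235)) (XT.nd (nat_lit 78) (nat_lit 380) (nat_lit 0) (XT.lf (nat_lit 0) (nat_lit 8658271160) (nat_lit 456) (nat_lit 3312784285) (nat_lit 76) (nat_lit 7812056237) (nat_lit 148) (nat_lit 5) (nat_lit 154) (nat_lit 5) (nat_lit 149) (nat_lit 5) (nat_lit 496) (nat_lit 410) (nat_lit 234)) (XT.lf (nat_lit 0) (nat_lit 8331318363) (nat_lit 380) (nat_lit 4876912904) (nat_lit 456) (nat_lit 6821464772) (nat_lit 143) (nat_lit 5) (nat_lit 148) (nat_lit 5) (nat_lit 149) (nat_lit 5) (nat_lit 497) (nat_lit 410) (nat_lit 233)))) (XT.nd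 (nat_lit 78) (nat_lit 836) (nat_lit 0) (XT.lf (nat_lit 0) (nat_lit 17878328202) (nat_lit 456) (nat_lit 56158104) (nat_lit 76) (nat_lit 2346144059) (nat_lit 143) (nat_lit 5) (nat_lit 149) (nat_lit 5) (nat_lit 144) (nat_lit 5) (nat_lit 498) (nat_lit 410) (nat_lit 232)) (XT.nd (nat_lit 78) (nat_lit 380) (nat_lit 0) (XT.lf (nat_lit 0) (nat_lit 2179670281) (nat_lit 456) (nat_lit 8618699537) (nat_lit 76) (nat_lit 9735900432) (nat_lit 137) (nat_lit 5) (nat_lit 143) (nat_lit 5) (nat_lit 138) (nat_lit 5) (nat_lit 499) (nat_lit 410) (nat_lit 231)) (XT.lf (nat_lit 0) (nat_lit 3349634161) (nat_lit 380) (nat_lit 3485274825) (nat_lit 456) (nat_lit 13957481463) (nat_lit 132) (nat_lit 5) (nat_lit 137) (nat_lit 5) (nat_lit 138) (nat_lit 5) (nat_lit 500) (nat_lit 410) (nat_lit 230))))))) (XT.nd (nat_lit 52338) (nat_lit 0) (nat_lit 31692) (XT.nd (nat_lit 390) (nat_lit 1368) (nat_lit 0) (XT.nd (nat_lit 156) (nat_lit 760) (nat_lit 0) (XT.nd (nat_lit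 78) (nat_lit 304) (nat_lit 0) (XT.lf (nat_lit 0) (nat_lit 11658961351) (nat_lit 456) (nat_lit 5419495768) (nat_lit 76) (nat_lit 3975702708) (nat_lit 132) (nat_lit 5) (nat_lit 138) (nat_lit 5) (nat_lit 133) (nat_lit 5) (nat_lit 501) (nat_lit 410) (nat_lit 229)) (XT.lf (nat_lit 0) (nat_lit 6898926077) (nat_lit 304) (nat_lit 9740292846) (nat_lit 380) (nat_lit 4680752120) (nat_lit 128) (nat_lit 5) (nat_lit 132) (nat_lit 5) (nat_lit 133) (nat_lit 5) (nat_lit 502) (nat_lit 410) (nat_lit 228))) (XT.nd (nat_lit 78) (nat_lit 684) (nat_lit 0) (XT.lf (nat_lit 0) (nat_lit 154787123) (nat_lit 380) (nat_lit 2066992442) (nat_lit 76) (nat_lit 19368733549) (nat_lit 127) (nat_lit 5) (nat_lit 132) (nat_lit 5) (nat_lit 128) (nat_lit 5) (nat_lit 503) (nat_lit 410) (nat_lit 227)) (XT.nd (nat_lit 78) (nat_lit 304) (nat_lit 0) (XT.lf (nat_lit 0) (nat_lit 5121470568) (nat_lit 456) (nat_lit 11270546005) (nat_lit 76) (nat_lit 5471889364) (nat_lit 122)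 (nat_lit 5) (nat_lit 128) (nat_lit 5) (nat_lit 123) (nat_lit 5) (nat_lit 504) (nat_lit 410) (nat_lit 226)) (XT.lf (nat_lit 0) (nat_lit 1383258516) (nat_lit 304) (nat_lit 8833966202) (nat_lit 380) (nat_lit 11924948021) (nat_lit 118) (nat_lit 5) (nat_lit 122) (nat_lit 5) (nat_lit 123) (nat_lit 5) (nat_lit 505) (nat_lit 410) (nat_lit 225))))) (XT.nd (nat_lit 234) (nat_lit 988) (nat_lit 0) (XT.nd (nat_lit 78) (nat_lit 380) (nat_lit 0) (XT.lf (nat_lit 0) (nat_lit 14430470440) (nat_lit 304) (nat_lit 1052209079) (nat_lit 380) (nat_lit 6941970493) (nat_lit 118) (nat_lit 5) (nat_lit 122) (nat_lit 5) (nat_lit 123) (nat_lit 5) (nat_lit 506) (nat_lit 410) (nat_lit 224)) (XT.nd (nat_lit 78) (nat_lit 76) (nat_lit 0) (XT.lf (nat_lit 0) (nat_lit 5034854312) (nat_lit 304) (nat_lit 15888260736) (nat_lit 380) (nat_lit 1788269180) (nat_lit 114) (nat_lit 5) (nat_lit 118) (nat_lit 5) (nat_lit 119) (nat_lit 5) (nat_lit 507) (nat_lit 410) (nat_lit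 223)) (XT.lf (nat_lit 0) (nat_lit 3476284046) (nat_lit 380) (nat_lit 4612138876) (nat_lit 76) (nat_lit 14913915246) (nat_lit 113) (nat_lit 5) (nat_lit 118) (nat_lit 5) (nat_lit 114) (nat_lit 5) (nat_lit 508) (nat_lit 410) (nat_lit 222)))) (XT.nd (nat_lit 156) (nat_lit 684) (nat_lit 0) (XT.lf (nat_lit 0) (nat_lit 8805071996) (nat_lit 304) (nat_lit 66752441) (nat_lit 380) (nat_lit 14426058304) (nat_lit 109) (nat_lit 5) (nat_lit 113) (nat_lit 5) (nat_lit 114) (nat_lit 5) (nat_lit 509) (nat_lit 410) (nat_lit 221)) (XT.nd (nat_lit 78) (nat_lit 380) (nat_lit 0) (XT.lf (nat_lit 0) (nat_lit 12693349804) (nat_lit 304) (nat_lit 7525138048) (nat_lit 380) (nat_lit 3683743384) (nat_lit 105) (nat_lit 5) (nat_lit 109) (nat_lit 5) (nat_lit 110) (nat_lit 5) (nat_lit 511) (nat_lit 410) (nat_lit 219)) (XT.lf (nat_lit 0) (nat_lit 1884727678) (nat_lit 380) (nat_lit 21631201801) (nat_lit 76) (nat_lit 696134174) (nat_lit 100) (nat_lit 5) (nat_lit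 105) (nat_lit 5) (nat_lit 101) (nat_lit 5) (nat_lit 512) (nat_lit 410) (nat_lit 218)))))) (XT.nd (nat_lit 468) (nat_lit 1368) (nat_lit 0) (XT.nd (nat_lit 234) (nat_lit 0) (nat_lit 76) (XT.nd (nat_lit 78) (nat_lit 0) (nat_lit 0) (XT.lf (nat_lit 0) (nat_lit 22427666) (nat_lit 0) (nat_lit 22427666) (nat_lit 1444) (nat_lit 4096702131) (nat_lit 535) (nat_lit 5) (nat_lit 535) (nat_lit 3) (nat_lit 554) (nat_lit 3) (nat_lit 411) (nat_lit 411) (nat_lit 318)) (XT.nd (nat_lit 78) (nat_lit 0) (nat_lit 0) (XT.lf (nat_lit 0) (nat_lit 1213086191) (nat_lit 1444) (nat_lit 4214588165) (nat_lit 1520) (nat_lit 2915548283) (nat_lit 535) (nat_lit 5) (nat_lit 554) (nat_lit 3) (nat_lit 555) (nat_lit 5) (nat_lit 412) (nat_lit 411) (nat_lit 317)) (XT.lf (nat_lit 0) (nat_lit 2330380349) (nat_lit 1444) (nat_lit 125890233) (nat_lit 1520) (nat_lit 5948840086) (nat_lit 535) (nat_lit 5) (nat_lit 554) (nat_lit 3) (nat_lit 555) (nat_lit 5) (nat_lit 413) (nat_lit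 411) (nat_lit 316)))) (XT.nd (nat_lit 78) (nat_lit 0) (nat_lit 0) (XT.lf (nat_lit 0) (nat_lit 3472244623) (nat_lit 1444) (nat_lit 4388990245) (nat_lit 1520) (nat_lit 606964147) (nat_lit 536) (nat_lit 5) (nat_lit 555) (nat_lit 5) (nat_lit 556) (nat_lit 5) (nat_lit 414) (nat_lit 411) (nat_lit 315)) (XT.nd (nat_lit 78) (nat_lit 0) (nat_lit 0) (XT.lf (nat_lit 0) (nat_lit 4626326484) (nat_lit 1444) (nat_lit 194091563) (nat_lit 1520) (nat_lit 3712350379) (nat_lit 536) (nat_lit 5) (nat_lit 555) (nat_lit 5) (nat_lit 556) (nat_lit 5) (nat_lit 415) (nat_lit 411) (nat_lit 314)) (XT.lf (nat_lit 76) (nat_lit 4123686738) (nat_lit 0) (nat_lit 1679384039) (nat_lit 1520) (nat_lit 2795573604) (nat_lit 537) (nat_lit 5) (nat_lit 536) (nat_lit 5) (nat_lit 556) (nat_lit 5) (nat_lit 416) (nat_lit 411) (nat_lit 313))))) (XT.nd (nat_lit 234) (nat_lit 0) (nat_lit 76) (XT.nd (nat_lit 78) (nat_lit 1520) (nat_lit 0) (XT.lf (nat_lit 0) (nat_lit 6987878111)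 (nat_lit 1444) (nat_lit 160886735) (nat_lit 1520) (nat_lit 1517389080) (nat_lit 537) (nat_lit 5) (nat_lit 556) (nat_lit 5) (nat_lit 557) (nat_lit 5) (nat_lit 417) (nat_lit 411) (nat_lit 312)) (XT.nd (nat_lit 78) (nat_lit 1520) (nat_lit 0) (XT.lf (nat_lit 76) (nat_lit 4269019070) (nat_lit 0) (nat_lit 3940043926) (nat_lit 1520) (nat_lit 525703546) (nat_lit 538) (nat_lit 5) (nat_lit 537) (nat_lit 5) (nat_lit 557) (nat_lit 5) (nat_lit 418) (nat_lit 411) (nat_lit 311)) (XT.lf (nat_lit 0) (nat_lit 616562824) (nat_lit 1520) (nat_lit 34816523) (nat_lit 1596) (nat_lit 8153790592) (nat_lit 517) (nat_lit 5) (nat_lit 537) (nat_lit 5) (nat_lit 538) (nat_lit 5) (nat_lit 419) (nat_lit 411) (nat_lit 310)))) (XT.nd (nat_lit 78) (nat_lit 0) (nat_lit 0) (XT.lf (nat_lit 0) (nat_lit 1796445008) (nat_lit 1520) (nat_lit 4369328393) (nat_lit 1596) (nat_lit 2710708445) (nat_lit 518) (nat_lit 5) (nat_lit 538) (nat_lit 5) (nat_lit 539) (nat_lit 5) (nat_lit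 420) (nat_lit 411) (nat_lit 309)) (XT.nd (nat_lit 78) (nat_lit 0) (nat_lit 76) (XT.lf (nat_lit 76) (nat_lit 173450601) (nat_lit 0) (nat_lit 2807201116) (nat_lit 1596) (nat_lit 5968959746) (nat_lit 519) (nat_lit 5) (nat_lit 518) (nat_lit 5) (nat_lit 539) (nat_lit 5) (nat_lit 421) (nat_lit 411) (nat_lit 308)) (XT.lf (nat_lit 0) (nat_lit 4197570742) (nat_lit 1520) (nat_lit 4177694874) (nat_lit 1596) (nat_lit 648763388) (nat_lit 519) (nat_lit 5) (nat_lit 539) (nat_lit 5) (nat_lit 540) (nat_lit 5) (nat_lit 422) (nat_lit 411) (nat_lit 307))))))))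
noncomputable def xc163 : XT := (XT.nd (nat_lit 1794) (nat_lit 10488) (nat_lit 0) (XT.nd (nat_lit 858) (nat_lit 8208) (nat_lit 0) (XT.nd (nat_lit 390) (nat_lit 0) (nat_lit 0) (XT.nd (nat_lit 156) (nat_lit 1444) (nat_lit 0) (XT.nd (nat_lit 78) (nat_lit 0) (nat_lit 0) (XT.lf (nat_lit 76) (nat_lit 484643117) (nat_lit 0) (nat_lit 4951900351) (nat_lit 1596) (nat_lit 3663442897) (nat_lit 520) (nat_lit 5) (nat_lit 519) (nat_lit 5) (nat_lit 540) (nat_lit 5) (nat_lit 423) (nat_lit 411) (nat_lit 306)) (XT.lf (nat_lit 76) (nat_lit 5281099219) (nat_lit 0) (nat_lit 1423577629) (nat_lit 1596) (nat_lit 2472704065) (nat_lit 520) (nat_lit 5) (nat_lit 519) (nat_lit 5) (nat_lit 540) (nat_lit 5) (nat_lit 424) (nat_lit 411) (nat_lit 305))) (XT.nd (nat_lit 78) (nat_lit 1520) (nat_lit 0) (XT.lf (nat_lit 76) (nat_lit 898857184) (nat_lit 0) (nat_lit 7096135968) (nat_lit 1596) (nat_lit 1261399349) (nat_lit 521) (nat_lit 5) (nat_lit 520) (nat_lit 5)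 (nat_lit 541) (nat_lit 5) (nat_lit 425) (nat_lit 411) (nat_lit 304)) (XT.nd (nat_lit 78) (nat_lit 1520) (nat_lit 0) (XT.lf (nat_lit 76) (nat_lit 5817297058) (nat_lit 0) (nat_lit 3506541894) (nat_lit 1596) (nat_lit 12896351) (nat_lit 521) (nat_lit 5) (nat_lit 520) (nat_lit 5) (nat_lit 541) (nat_lit 5) (nat_lit 426) (nat_lit 411) (nat_lit 303)) (XT.lf (nat_lit 0) (nat_lit 1231866132) (nat_lit 1596) (nat_lit 8010086705) (nat_lit 1672) (nat_lit 176817222) (nat_lit 500) (nat_lit 5) (nat_lit 521) (nat_lit 5) (nat_lit 522) (nat_lit 5) (nat_lit 427) (nat_lit 411) (nat_lit 302))))) (XT.nd (nat_lit 234) (nat_lit 0) (nat_lit 76) (XT.nd (nat_lit 78) (nat_lit 0) (nat_lit 0) (XT.lf (nat_lit 0) (nat_lit 2526232575) (nat_lit 1596) (nat_lit 3058605393) (nat_lit 1672) (nat_lit 3917113341) (nat_lit 500) (nat_lit 5) (nat_lit 521) (nat_lit 5) (nat_lit 522) (nat_lit 5) (nat_lit 428) (nat_lit 411) (nat_lit 301)) (XT.nd (nat_lit 78) (nat_lit 0) (nat_lit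 76) (XT.lf (nat_lit 76) (nat_lit 2002241200) (nat_lit 0) (nat_lit 1835564054) (nat_lit 1672) (nat_lit 5749169582) (nat_lit 501) (nat_lit 5) (nat_lit 500) (nat_lit 5) (nat_lit 522) (nat_lit 5) (nat_lit 429) (nat_lit 411) (nat_lit 300)) (XT.lf (nat_lit 0) (nat_lit 5187859496) (nat_lit 1596) (nat_lit 2496858666) (nat_lit 1672) (nat_lit 1988740600) (nat_lit 501) (nat_lit 5) (nat_lit 522) (nat_lit 5) (nat_lit 523) (nat_lit 5) (nat_lit 430) (nat_lit 411) (nat_lit 299)))) (XT.nd (nat_lit 78) (nat_lit 0) (nat_lit 76) (XT.lf (nat_lit 76) (nat_lit 2700061501) (nat_lit 0) (nat_lit 3873635455) (nat_lit 1672) (nat_lit 3187804601) (nat_lit 502) (nat_lit 5) (nat_lit 501) (nat_lit 5) (nat_lit 523) (nat_lit 5) (nat_lit 431) (nat_lit 411) (nat_lit 298)) (XT.nd (nat_lit 78) (nat_lit 0) (nat_lit 0) (XT.lf (nat_lit 0) (nat_lit 7983639243) (nat_lit 1596) (nat_lit 1832714586) (nat_lit 1672) (nat_lit 35028359) (nat_lit 502) (nat_lit 5) (nat_lit 523)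 (nat_lit 5) (nat_lit 524) (nat_lit 5) (nat_lit 432) (nat_lit 411) (nat_lit 297)) (XT.lf (nat_lit 76) (nat_lit 3504909083) (nat_lit 0) (nat_lit 5945117103) (nat_lit 1672) (nat_lit 492473975) (nat_lit 503) (nat_lit 5) (nat_lit 502) (nat_lit 5) (nat_lit 524) (nat_lit 5) (nat_lit 433) (nat_lit 411) (nat_lit 296)))))) (XT.nd (nat_lit 468) (nat_lit 3344) (nat_lit 0) (XT.nd (nat_lit 234) (nat_lit 3344) (nat_lit 0) (XT.nd (nat_lit 78) (nat_lit 0) (nat_lit 76) (XT.lf (nat_lit 0) (nat_lit 890734082) (nat_lit 1672) (nat_lit 1083213851) (nat_lit 1748) (nat_lit 8061531373) (nat_lit 480) (nat_lit 5) (nat_lit 502) (nat_lit 5) (nat_lit 503) (nat_lit 5) (nat_lit 434) (nat_lit 411) (nat_lit 295)) (XT.nd (nat_lit 78) (nat_lit 0) (nat_lit 0) (XT.lf (nat_lit 0) (nat_lit 2317800694) (nat_lit 1672) (nat_lit 5726713571) (nat_lit 76) (nat_lit 2085287269) (nat_lit 481) (nat_lit 5) (nat_lit 503) (nat_lit 5) (nat_lit 482) (nat_lit 5) (nat_lit 435) (nat_lit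 411) (nat_lit 294)) (XT.lf (nat_lit 0) (nat_lit 3774488863) (nat_lit 1672) (nat_lit 241335492) (nat_lit 76) (nat_lit 6210168541) (nat_lit 481) (nat_lit 5) (nat_lit 503) (nat_lit 5) (nat_lit 482) (nat_lit 5) (nat_lit 436) (nat_lit 411) (nat_lit 293)))) (XT.nd (nat_lit 78) (nat_lit 1748) (nat_lit 0) (XT.lf (nat_lit 0) (nat_lit 5277357293) (nat_lit 1748) (nat_lit 4915792077) (nat_lit 76) (nat_lit 130621993) (nat_lit 459) (nat_lit 5) (nat_lit 482) (nat_lit 5) (nat_lit 460) (nat_lit 5) (nat_lit 437) (nat_lit 411) (nat_lit 292)) (XT.nd (nat_lit 78) (nat_lit 0) (nat_lit 0) (XT.lf (nat_lit 0) (nat_lit 716748736) (nat_lit 1748) (nat_lit 6107770421) (nat_lit 1824) (nat_lit 3598705647) (nat_lit 436) (nat_lit 5) (nat_lit 459) (nat_lit 5) (nat_lit 460) (nat_lit 5) (nat_lit 438) (nat_lit 411) (nat_lit 291)) (XT.lf (nat_lit 0) (nat_lit 6512556625) (nat_lit 1748) (nat_lit 1904674105) (nat_lit 1824) (nat_lit 2107148499) (nat_lit 436) (nat_lit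 5) (nat_lit 459) (nat_lit 5) (nat_lit 460) (nat_lit 5) (nat_lit 439) (nat_lit 411) (nat_lit 290))))) (XT.nd (nat_lit 234) (nat_lit 912) (nat_lit 0) (XT.nd (nat_lit 78) (nat_lit 988) (nat_lit 0) (XT.lf (nat_lit 0) (nat_lit 1788629533) (nat_lit 1444) (nat_lit 8262243010) (nat_lit 1520) (nat_lit 576506648) (nat_lit 417) (nat_lit 5) (nat_lit 436) (nat_lit 5) (nat_lit 437) (nat_lit 5) (nat_lit 440) (nat_lit 411) (nat_lit 289)) (XT.nd (nat_lit 78) (nat_lit 912) (nat_lit 0) (XT.lf (nat_lit 0) (nat_lit 993668610) (nat_lit 1520) (nat_lit 3007833863) (nat_lit 76) (nat_lit 6730375900) (nat_lit 416) (nat_lit 5) (nat_lit 436) (nat_lit 5) (nat_lit 417) (nat_lit 5) (nat_lit 441) (nat_lit 411) (nat_lit 288)) (XT.lf (nat_lit 0) (nat_lit 2591617841) (nat_lit 988) (nat_lit 7881974881) (nat_lit 76) (nat_lit 364720544) (nat_lit 404) (nat_lit 5) (nat_lit 417) (nat_lit 5) (nat_lit 405) (nat_lit 5) (nat_lit 442) (nat_lit 411) (nat_lit 287)))) (XT.nd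 (nat_lit 78) (nat_lit 912) (nat_lit 0) (XT.lf (nat_lit 0) (nat_lit 4251067465) (nat_lit 988) (nat_lit 1908696718) (nat_lit 76) (nat_lit 4786525512) (nat_lit 404) (nat_lit 5) (nat_lit 417) (nat_lit 5) (nat_lit 405) (nat_lit 5) (nat_lit 443) (nat_lit 411) (nat_lit 286)) (XT.nd (nat_lit 78) (nat_lit 0) (nat_lit 0) (XT.lf (nat_lit 0) (nat_lit 4223601163) (nat_lit 912) (nat_lit 1730589663) (nat_lit 988) (nat_lit 5102028719) (nat_lit 392) (nat_lit 5) (nat_lit 404) (nat_lit 5) (nat_lit 405) (nat_lit 5) (nat_lit 444) (nat_lit 411) (nat_lit 285)) (XT.lf (nat_lit 0) (nat_lit 7705664578) (nat_lit 988) (nat_lit 697933830) (nat_lit 76) (nat_lit 2764467350) (nat_lit 392) (nat_lit 5) (nat_lit 405) (nat_lit 5) (nat_lit 393) (nat_lit 5) (nat_lit 445) (nat_lit 411) (nat_lit 284))))))) (XT.nd (nat_lit 936) (nat_lit 4712) (nat_lit 0) (XT.nd (nat_lit 468) (nat_lit 2356) (nat_lit 0) (XT.nd (nat_lit 234) (nat_lit 1596) (nat_lit 0) (XT.nd (nat_lit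 78) (nat_lit 912) (nat_lit 0) (XT.lf (nat_lit 0) (nat_lit 5605740197) (nat_lit 912) (nat_lit 3917910720) (nat_lit 988) (nat_lit 1757871769) (nat_lit 380) (nat_lit 5) (nat_lit 392) (nat_lit 5) (nat_lit 393) (nat_lit 5) (nat_lit 446) (nat_lit 411) (nat_lit 283)) (XT.nd (nat_lit 78) (nat_lit 76) (nat_lit 0) (XT.lf (nat_lit 0) (nat_lit 635842985) (nat_lit 836) (nat_lit 10739114363) (nat_lit 912) (nat_lit 22355580) (nat_lit 369) (nat_lit 5) (nat_lit 380) (nat_lit 5) (nat_lit 381) (nat_lit 5) (nat_lit 447) (nat_lit 411) (nat_lit 282)) (XT.lf (nat_lit 0) (nat_lit 1773186843) (nat_lit 912) (nat_lit 4417667471) (nat_lit 76) (nat_lit 5323376159) (nat_lit 368) (nat_lit 5) (nat_lit 380) (nat_lit 5) (nat_lit 369) (nat_lit 5) (nat_lit 448) (nat_lit 411) (nat_lit 281)))) (XT.nd (nat_lit 78) (nat_lit 760) (nat_lit 0) (XT.lf (nat_lit 0) (nat_lit 2064149461) (nat_lit 836) (nat_lit 1537861461) (nat_lit 912) (nat_lit 8031522276) (nat_lit 357)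 (nat_lit 5) (nat_lit 368) (nat_lit 5) (nat_lit 369) (nat_lit 5) (nat_lit 449) (nat_lit 411) (nat_lit 280)) (XT.nd (nat_lit 78) (nat_lit 760) (nat_lit 0) (XT.lf (nat_lit 0) (nat_lit 5502556071) (nat_lit 912) (nat_lit 3056163735) (nat_lit 76) (nat_lit 3195802407) (nat_lit 357) (nat_lit 5) (nat_lit 369) (nat_lit 5) (nat_lit 358) (nat_lit 5) (nat_lit 450) (nat_lit 411) (nat_lit 279)) (XT.lf (nat_lit 0) (nat_lit 3608785632) (nat_lit 760) (nat_lit 3850719755) (nat_lit 836) (nat_lit 4418060822) (nat_lit 347) (nat_lit 5) (nat_lit 357) (nat_lit 5) (nat_lit 358) (nat_lit 5) (nat_lit 451) (nat_lit 411) (nat_lit 278))))) (XT.nd (nat_lit 234) (nat_lit 760) (nat_lit 0) (XT.nd (nat_lit 78) (nat_lit 1596) (nat_lit 0) (XT.lf (nat_lit 0) (nat_lit 9467387220) (nat_lit 836) (nat_lit 1576390166) (nat_lit 76) (nat_lit 959060835) (nat_lit 347) (nat_lit 5) (nat_lit 358) (nat_lit 5) (nat_lit 348) (nat_lit 5) (nat_lit 452) (nat_lit 411) (nat_lit 277))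 (XT.nd (nat_lit 78) (nat_lit 836) (nat_lit 0) (XT.lf (nat_lit 0) (nat_lit 5278002728) (nat_lit 760) (nat_lit 6282460244) (nat_lit 836) (nat_lit 569254921) (nat_lit 337) (nat_lit 5) (nat_lit 347) (nat_lit 5) (nat_lit 348) (nat_lit 5) (nat_lit 453) (nat_lit 411) (nat_lit 276)) (XT.lf (nat_lit 0) (nat_lit 6963495) (nat_lit 760) (nat_lit 1406514235) (nat_lit 836) (nat_lit 10845552768) (nat_lit 326) (nat_lit 5) (nat_lit 336) (nat_lit 5) (nat_lit 337) (nat_lit 5) (nat_lit 454) (nat_lit 411) (nat_lit 275)))) (XT.nd (nat_lit 78) (nat_lit 760) (nat_lit 0) (XT.lf (nat_lit 0) (nat_lit 3483226793) (nat_lit 836) (nat_lit 5337393283) (nat_lit 76) (nat_lit 3569137117) (nat_lit 326) (nat_lit 5) (nat_lit 337) (nat_lit 5) (nat_lit 327) (nat_lit 5) (nat_lit 455) (nat_lit 411) (nat_lit 274)) (XT.nd (nat_lit 78) (nat_lit 0) (nat_lit 0) (XT.lf (nat_lit 0) (nat_lit 1713196134) (nat_lit 760) (nat_lit 3887431041) (nat_lit 836) (nat_lit 6922348843)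 (nat_lit 316) (nat_lit 5) (nat_lit 326) (nat_lit 5) (nat_lit 327) (nat_lit 5) (nat_lit 456) (nat_lit 411) (nat_lit 273)) (XT.lf (nat_lit 0) (nat_lit 7789846925) (nat_lit 836) (nat_lit 3704366603) (nat_lit 76) (nat_lit 1164058934) (nat_lit 316) (nat_lit 5) (nat_lit 327) (nat_lit 5) (nat_lit 317) (nat_lit 5) (nat_lit 457) (nat_lit 411) (nat_lit 272)))))) (XT.nd (nat_lit 468) (nat_lit 1900) (nat_lit 0) (XT.nd (nat_lit 234) (nat_lit 1368) (nat_lit 0) (XT.nd (nat_lit 78) (nat_lit 760) (nat_lit 0) (XT.lf (nat_lit 0) (nat_lit 3548554924) (nat_lit 684) (nat_lit 6509342154) (nat_lit 760) (nat_lit 2737679453) (nat_lit 307) (nat_lit 5) (nat_lit 316) (nat_lit 5) (nat_lit 317) (nat_lit 5) (nat_lit 458) (nat_lit 411) (nat_lit 271)) (XT.nd (nat_lit 78) (nat_lit 760) (nat_lit 0) (XT.lf (nat_lit 0) (nat_lit 10981454453) (nat_lit 684) (nat_lit 1401143967) (nat_lit 760) (nat_lit 552805023) (nat_lit 307) (nat_lit 5) (nat_lit 316) (nat_lit 5) (nat_lit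 317) (nat_lit 5) (nat_lit 459) (nat_lit 411) (nat_lit 270)) (XT.lf (nat_lit 0) (nat_lit 1701340624) (nat_lit 760) (nat_lit 7570915081) (nat_lit 76) (nat_lit 3804605016) (nat_lit 297) (nat_lit 5) (nat_lit 307) (nat_lit 5) (nat_lit 298) (nat_lit 5) (nat_lit 460) (nat_lit 411) (nat_lit 269)))) (XT.nd (nat_lit 78) (nat_lit 1368) (nat_lit 0) (XT.lf (nat_lit 0) (nat_lit 4002412139) (nat_lit 760) (nat_lit 107717146) (nat_lit 76) (nat_lit 9110762295) (nat_lit 297) (nat_lit 5) (nat_lit 307) (nat_lit 5) (nat_lit 298) (nat_lit 5) (nat_lit 461) (nat_lit 411) (nat_lit 268)) (XT.nd (nat_lit 78) (nat_lit 684) (nat_lit 0) (XT.lf (nat_lit 0) (nat_lit 6393612869) (nat_lit 760) (nat_lit 5785643240) (nat_lit 76) (nat_lit 1187667162) (nat_lit 288) (nat_lit 5) (nat_lit 298) (nat_lit 5) (nat_lit 289) (nat_lit 5) (nat_lit 462) (nat_lit 411) (nat_lit 267)) (XT.lf (nat_lit 0) (nat_lit 1892071380) (nat_lit 684) (nat_lit 6967961472) (nat_lit 760) (nat_lit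 4655297161) (nat_lit 279) (nat_lit 5) (nat_lit 288) (nat_lit 5) (nat_lit 289) (nat_lit 5) (nat_lit 463) (nat_lit 411) (nat_lit 266))))) (XT.nd (nat_lit 234) (nat_lit 1216) (nat_lit 0) (XT.nd (nat_lit 78) (nat_lit 684) (nat_lit 0) (XT.lf (nat_lit 0) (nat_lit 9786690612) (nat_lit 684) (nat_lit 1615232782) (nat_lit 760) (nat_lit 2264260934) (nat_lit 279) (nat_lit 5) (nat_lit 288) (nat_lit 5) (nat_lit 289) (nat_lit 5) (nat_lit 464) (nat_lit 411) (nat_lit 265)) (XT.nd (nat_lit 78) (nat_lit 0) (nat_lit 0) (XT.lf (nat_lit 0) (nat_lit 211251196) (nat_lit 684) (nat_lit 9788623432) (nat_lit 76) (nat_lit 3819381715) (nat_lit 270) (nat_lit 5) (nat_lit 279) (nat_lit 5) (nat_lit 271) (nat_lit 5) (nat_lit 465) (nat_lit 411) (nat_lit 264)) (XT.lf (nat_lit 0) (nat_lit 2730500724) (nat_lit 684) (nat_lit 1864267551) (nat_lit 76) (nat_lit 9379833424) (nat_lit 270) (nat_lit 5) (nat_lit 279) (nat_lit 5) (nat_lit 271) (nat_lit 5) (nat_lit 466) (nat_lit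 411) (nat_lit 263)))) (XT.nd (nat_lit 78) (nat_lit 608) (nat_lit 0) (XT.lf (nat_lit 0) (nat_lit 5335023239) (nat_lit 684) (nat_lit 7852466231) (nat_lit 76) (nat_lit 944868836) (nat_lit 262) (nat_lit 5) (nat_lit 271) (nat_lit 5) (nat_lit 263) (nat_lit 5) (nat_lit 467) (nat_lit 411) (nat_lit 262)) (XT.nd (nat_lit 78) (nat_lit 0) (nat_lit 0) (XT.lf (nat_lit 0) (nat_lit 277396843) (nat_lit 608) (nat_lit 7747045004) (nat_lit 684) (nat_lit 6268174148) (nat_lit 254) (nat_lit 5) (nat_lit 262) (nat_lit 5) (nat_lit 263) (nat_lit 5) (nat_lit 468) (nat_lit 411) (nat_lit 261)) (XT.lf (nat_lit 0) (nat_lit 8661482372) (nat_lit 608) (nat_lit 2146982672) (nat_lit 684) (nat_lit 3646799492) (nat_lit 254) (nat_lit 5) (nat_lit 262) (nat_lit 5) (nat_lit 263) (nat_lit 5) (nat_lit 469) (nat_lit 411) (nat_lit 260))))))))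
noncomputable def xc164 : XT := (XT.nd (nat_lit 1794) (nat_lit 4484) (nat_lit 0) (XT.nd (nat_lit 858) (nat_lit 3420) (nat_lit 0) (XT.nd (nat_lit 390) (nat_lit 1596) (nat_lit 0) (XT.nd (nat_lit 156) (nat_lit 1140) (nat_lit 0) (XT.nd (nat_lit 78) (nat_lit 76) (nat_lit 0) (XT.lf (nat_lit 0) (nat_lit 2588137887) (nat_lit 608) (nat_lit 11088317826) (nat_lit 684) (nat_lit 944146579) (nat_lit 246) (nat_lit 5) (nat_lit 254) (nat_lit 5) (nat_lit 255) (nat_lit 5) (nat_lit 470) (nat_lit 411) (nat_lit 259)) (XT.lf (nat_lit 0) (nat_lit 1830534149) (nat_lit 684) (nat_lit 3613282761) (nat_lit 76) (nat_lit 9344361496) (nat_lit 245) (nat_lit 5) (nat_lit 254) (nat_lit 5) (nat_lit 246) (nat_lit 5) (nat_lit 471) (nat_lit 411) (nat_lit 258))) (XT.nd (nat_lit 78) (nat_lit 608) (nat_lit 0) (XT.lf (nat_lit 0) (nat_lit 4671559134) (nat_lit 608) (nat_lit 9941483640) (nat_lit 76) (nat_lit 345470466) (nat_lit 238) (nat_lit 5) (nat_lit 246) (nat_lit 5)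 (nat_lit 239) (nat_lit 5) (nat_lit 472) (nat_lit 411) (nat_lit 257)) (XT.nd (nat_lit 78) (nat_lit 608) (nat_lit 0) (XT.lf (nat_lit 0) (nat_lit 7618592177) (nat_lit 608) (nat_lit 1313677452) (nat_lit 76) (nat_lit 6199003221) (nat_lit 238) (nat_lit 5) (nat_lit 246) (nat_lit 5) (nat_lit 239) (nat_lit 5) (nat_lit 473) (nat_lit 411) (nat_lit 256)) (XT.lf (nat_lit 0) (nat_lit 7571652673) (nat_lit 608) (nat_lit 3091022600) (nat_lit 684) (nat_lit 4644051988) (nat_lit 230) (nat_lit 5) (nat_lit 238) (nat_lit 5) (nat_lit 239) (nat_lit 5) (nat_lit 474) (nat_lit 411) (nat_lit 255))))) (XT.nd (nat_lit 234) (nat_lit 456) (nat_lit 0) (XT.nd (nat_lit 78) (nat_lit 608) (nat_lit 0) (XT.lf (nat_lit 0) (nat_lit 1148937318) (nat_lit 532) (nat_lit 12642702909) (nat_lit 608) (nat_lit 1693572292) (nat_lit 223) (nat_lit 5) (nat_lit 230) (nat_lit 5) (nat_lit 231) (nat_lit 5) (nat_lit 475) (nat_lit 411) (nat_lit 254)) (XT.nd (nat_lit 78) (nat_lit 532)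 (nat_lit 0) (XT.lf (nat_lit 0) (nat_lit 1360479053) (nat_lit 608) (nat_lit 5394598597) (nat_lit 76) (nat_lit 8910784236) (nat_lit 222) (nat_lit 5) (nat_lit 230) (nat_lit 5) (nat_lit 223) (nat_lit 5) (nat_lit 476) (nat_lit 411) (nat_lit 253)) (XT.lf (nat_lit 0) (nat_lit 3749665748) (nat_lit 532) (nat_lit 716949007) (nat_lit 608) (nat_lit 11383013649) (nat_lit 215) (nat_lit 5) (nat_lit 222) (nat_lit 5) (nat_lit 223) (nat_lit 5) (nat_lit 477) (nat_lit 411) (nat_lit 252)))) (XT.nd (nat_lit 78) (nat_lit 456) (nat_lit 0) (XT.lf (nat_lit 0) (nat_lit 7696054829) (nat_lit 608) (nat_lit 2936282217) (nat_lit 76) (nat_lit 5403511201) (nat_lit 215) (nat_lit 5) (nat_lit 223) (nat_lit 5) (nat_lit 216) (nat_lit 5) (nat_lit 478) (nat_lit 411) (nat_lit 251)) (XT.nd (nat_lit 78) (nat_lit 0) (nat_lit 0) (XT.lf (nat_lit 0) (nat_lit 6476845164) (nat_lit 456) (nat_lit 4549654817) (nat_lit 532) (nat_lit 5198565774) (nat_lit 209) (nat_lit 5) (nat_lit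 215) (nat_lit 5) (nat_lit 216) (nat_lit 5) (nat_lit 479) (nat_lit 411) (nat_lit 250)) (XT.lf (nat_lit 0) (nat_lit 14443837492) (nat_lit 532) (nat_lit 324624735) (nat_lit 76) (nat_lit 1649201282) (nat_lit 209) (nat_lit 5) (nat_lit 216) (nat_lit 5) (nat_lit 210) (nat_lit 5) (nat_lit 480) (nat_lit 411) (nat_lit 249)))))) (XT.nd (nat_lit 468) (nat_lit 1368) (nat_lit 0) (XT.nd (nat_lit 234) (nat_lit 988) (nat_lit 0) (XT.nd (nat_lit 78) (nat_lit 456) (nat_lit 0) (XT.lf (nat_lit 0) (nat_lit 1379540660) (nat_lit 608) (nat_lit 7255257721) (nat_lit 76) (nat_lit 7977517850) (nat_lit 201) (nat_lit 5) (nat_lit 209) (nat_lit 5) (nat_lit 202) (nat_lit 5) (nat_lit 481) (nat_lit 411) (nat_lit 248)) (XT.nd (nat_lit 78) (nat_lit 0) (nat_lit 0) (XT.lf (nat_lit 0) (nat_lit 2430870688) (nat_lit 456) (nat_lit 2350623378) (nat_lit 532) (nat_lit 12028949497) (nat_lit 195) (nat_lit 5) (nat_lit 201) (nat_lit 5) (nat_lit 202) (nat_lit 5) (nat_lit 482)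 (nat_lit 411) (nat_lit 247)) (XT.lf (nat_lit 0) (nat_lit 8316881953) (nat_lit 532) (nat_lit 4643134662) (nat_lit 76) (nat_lit 4051210364) (nat_lit 195) (nat_lit 5) (nat_lit 202) (nat_lit 5) (nat_lit 196) (nat_lit 5) (nat_lit 483) (nat_lit 411) (nat_lit 246)))) (XT.nd (nat_lit 78) (nat_lit 532) (nat_lit 0) (XT.lf (nat_lit 0) (nat_lit 5328659572) (nat_lit 456) (nat_lit 6634708867) (nat_lit 532) (nat_lit 5251851222) (nat_lit 189) (nat_lit 5) (nat_lit 195) (nat_lit 5) (nat_lit 196) (nat_lit 5) (nat_lit 484) (nat_lit 411) (nat_lit 245)) (XT.nd (nat_lit 78) (nat_lit 532) (nat_lit 0) (XT.lf (nat_lit 0) (nat_lit 15549226653) (nat_lit 456) (nat_lit 155045809) (nat_lit 532) (nat_lit 1718591368) (nat_lit 189) (nat_lit 5) (nat_lit 195) (nat_lit 5) (nat_lit 196) (nat_lit 5) (nat_lit 485) (nat_lit 411) (nat_lit 244)) (XT.lf (nat_lit 0) (nat_lit 1948081784) (nat_lit 532) (nat_lit 9251510739) (nat_lit 76) (nat_lit 6433075385) (nat_lit 182)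 (nat_lit 5) (nat_lit 189) (nat_lit 5) (nat_lit 183) (nat_lit 5) (nat_lit 486) (nat_lit 411) (nat_lit 243))))) (XT.nd (nat_lit 234) (nat_lit 532) (nat_lit 0) (XT.nd (nat_lit 78) (nat_lit 380) (nat_lit 0) (XT.lf (nat_lit 0) (nat_lit 1007207163) (nat_lit 456) (nat_lit 4668643617) (nat_lit 532) (nat_lit 12170375911) (nat_lit 176) (nat_lit 5) (nat_lit 182) (nat_lit 5) (nat_lit 183) (nat_lit 5) (nat_lit 487) (nat_lit 411) (nat_lit 242)) (XT.nd (nat_lit 78) (nat_lit 380) (nat_lit 0) (XT.lf (nat_lit 0) (nat_lit 9544210263) (nat_lit 532) (nat_lit 6493272116) (nat_lit 76) (nat_lit 2025254852) (nat_lit 176) (nat_lit 5) (nat_lit 183) (nat_lit 5) (nat_lit 177) (nat_lit 5) (nat_lit 488) (nat_lit 411) (nat_lit 241)) (XT.lf (nat_lit 0) (nat_lit 4068485230) (nat_lit 380) (nat_lit 9469571523) (nat_lit 456) (nat_lit 4744560089) (nat_lit 171) (nat_lit 5) (nat_lit 176) (nat_lit 5) (nat_lit 177) (nat_lit 5) (nat_lit 489) (nat_lit 411) (nat_lit 240))))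 (XT.nd (nat_lit 78) (nat_lit 532) (nat_lit 0) (XT.lf (nat_lit 0) (nat_lit 14916237778) (nat_lit 380) (nat_lit 2729996594) (nat_lit 456) (nat_lit 859971824) (nat_lit 171) (nat_lit 5) (nat_lit 176) (nat_lit 5) (nat_lit 177) (nat_lit 5) (nat_lit 490) (nat_lit 411) (nat_lit 239)) (XT.nd (nat_lit 78) (nat_lit 0) (nat_lit 0) (XT.lf (nat_lit 0) (nat_lit 3127405833) (nat_lit 532) (nat_lit 11451145975) (nat_lit 76) (nat_lit 4153998169) (nat_lit 164) (nat_lit 5) (nat_lit 171) (nat_lit 5) (nat_lit 165) (nat_lit 5) (nat_lit 491) (nat_lit 411) (nat_lit 238)) (XT.lf (nat_lit 0) (nat_lit 7216420774) (nat_lit 532) (nat_lit 581191203) (nat_lit 76) (nat_lit 11165028035) (nat_lit 164) (nat_lit 5) (nat_lit 171) (nat_lit 5) (nat_lit 165) (nat_lit 5) (nat_lit 492) (nat_lit 411) (nat_lit 237))))))) (XT.nd (nat_lit 858) (nat_lit 1748) (nat_lit 0) (XT.nd (nat_lit 390) (nat_lit 1520) (nat_lit 0) (XT.nd (nat_lit 156) (nat_lit 456) (nat_lit 0) (XT.nd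 (nat_lit 78) (nat_lit 380) (nat_lit 0) (XT.lf (nat_lit 0) (nat_lit 10632685726) (nat_lit 380) (nat_lit 814804369) (nat_lit 456) (nat_lit 7748637411) (nat_lit 159) (nat_lit 5) (nat_lit 164) (nat_lit 5) (nat_lit 165) (nat_lit 5) (nat_lit 493) (nat_lit 411) (nat_lit 236)) (XT.lf (nat_lit 0) (nat_lit 2624970301) (nat_lit 380) (nat_lit 13191433942) (nat_lit 456) (nat_lit 3616817154) (nat_lit 154) (nat_lit 5) (nat_lit 159) (nat_lit 5) (nat_lit 160) (nat_lit 5) (nat_lit 494) (nat_lit 411) (nat_lit 235))) (XT.nd (nat_lit 78) (nat_lit 380) (nat_lit 0) (XT.lf (nat_lit 0) (nat_lit 644372813) (nat_lit 456) (nat_lit 5543354230) (nat_lit 76) (nat_lit 13486162161) (nat_lit 153) (nat_lit 5) (nat_lit 159) (nat_lit 5) (nat_lit 154) (nat_lit 5) (nat_lit 495) (nat_lit 411) (nat_lit 234)) (XT.nd (nat_lit 78) (nat_lit 0) (nat_lit 0) (XT.lf (nat_lit 0) (nat_lit 4979380476) (nat_lit 456) (nat_lit 13936214454) (nat_lit 76) (nat_lit 1002557886) (nat_lit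 148) (nat_lit 5) (nat_lit 154) (nat_lit 5) (nat_lit 149) (nat_lit 5) (nat_lit 496) (nat_lit 411) (nat_lit 233)) (XT.lf (nat_lit 0) (nat_lit 9471068088) (nat_lit 456) (nat_lit 2407726170) (nat_lit 76) (nat_lit 8287108877) (nat_lit 148) (nat_lit 5) (nat_lit 154) (nat_lit 5) (nat_lit 149) (nat_lit 5) (nat_lit 497) (nat_lit 411) (nat_lit 232))))) (XT.nd (nat_lit 234) (nat_lit 684) (nat_lit 0) (XT.nd (nat_lit 78) (nat_lit 456) (nat_lit 0) (XT.lf (nat_lit 0) (nat_lit 9462868309) (nat_lit 380) (nat_lit 4642882218) (nat_lit 456) (nat_lit 6311795724) (nat_lit 143) (nat_lit 5) (nat_lit 148) (nat_lit 5) (nat_lit 149) (nat_lit 5) (nat_lit 498) (nat_lit 411) (nat_lit 231)) (XT.nd (nat_lit 78) (nat_lit 76) (nat_lit 0) (XT.lf (nat_lit 0) (nat_lit 911054158) (nat_lit 380) (nat_lit 17953802245) (nat_lit 456) (nat_lit 1808732221) (nat_lit 138) (nat_lit 5) (nat_lit 143) (nat_lit 5) (nat_lit 144) (nat_lit 5) (nat_lit 499) (nat_lit 411) (nat_lit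 230)) (XT.lf (nat_lit 0) (nat_lit 2844420965) (nat_lit 456) (nat_lit 7832651708) (nat_lit 76) (nat_lit 10255387639) (nat_lit 137) (nat_lit 5) (nat_lit 143) (nat_lit 5) (nat_lit 138) (nat_lit 5) (nat_lit 500) (nat_lit 411) (nat_lit 229)))) (XT.nd (nat_lit 78) (nat_lit 304) (nat_lit 0) (XT.lf (nat_lit 0) (nat_lit 4368743257) (nat_lit 380) (nat_lit 3218023403) (nat_lit 456) (nat_lit 13609097625) (nat_lit 132) (nat_lit 5) (nat_lit 137) (nat_lit 5) (nat_lit 138) (nat_lit 5) (nat_lit 501) (nat_lit 411) (nat_lit 228)) (XT.nd (nat_lit 78) (nat_lit 304) (nat_lit 0) (XT.lf (nat_lit 0) (nat_lit 12497382972) (nat_lit 456) (nat_lit 4584451725) (nat_lit 76) (nat_lit 4381234084) (nat_lit 132) (nat_lit 5) (nat_lit 138) (nat_lit 5) (nat_lit 133) (nat_lit 5) (nat_lit 502) (nat_lit 411) (nat_lit 227)) (XT.lf (nat_lit 0) (nat_lit 7974131755) (nat_lit 304) (nat_lit 9597331544) (nat_lit 380) (nat_lit 4162849932) (nat_lit 128) (nat_lit 5) (nat_lit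 132) (nat_lit 5) (nat_lit 133) (nat_lit 5) (nat_lit 503) (nat_lit 411) (nat_lit 226)))))) (XT.nd (nat_lit 468) (nat_lit 608) (nat_lit 0) (XT.nd (nat_lit 234) (nat_lit 380) (nat_lit 0) (XT.nd (nat_lit 78) (nat_lit 684) (nat_lit 0) (XT.lf (nat_lit 0) (nat_lit 749546662) (nat_lit 380) (nat_lit 1181553845) (nat_lit 76) (nat_lit 20079324201) (nat_lit 127) (nat_lit 5) (nat_lit 132) (nat_lit 5) (nat_lit 128) (nat_lit 5) (nat_lit 504) (nat_lit 411) (nat_lit 225)) (XT.nd (nat_lit 78) (nat_lit 304) (nat_lit 0) (XT.lf (nat_lit 0) (nat_lit 5812112909) (nat_lit 456) (nat_lit 10565663503) (nat_lit 76) (nat_lit 5911579275) (nat_lit 122) (nat_lit 5) (nat_lit 128) (nat_lit 5) (nat_lit 123) (nat_lit 5) (nat_lit 505) (nat_lit 411) (nat_lit 224)) (XT.lf (nat_lit 0) (nat_lit 2335096756) (nat_lit 304) (nat_lit 8669152143) (nat_lit 380) (nat_lit 11569050848) (nat_lit 118) (nat_lit 5) (nat_lit 122) (nat_lit 5) (nat_lit 123) (nat_lit 5) (nat_lit 506)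 (nat_lit 411) (nat_lit 223)))) (XT.nd (nat_lit 78) (nat_lit 380) (nat_lit 0) (XT.lf (nat_lit 0) (nat_lit 15625131879) (nat_lit 304) (nat_lit 738455826) (nat_lit 380) (nat_lit 6498068595) (nat_lit 118) (nat_lit 5) (nat_lit 122) (nat_lit 5) (nat_lit 123) (nat_lit 5) (nat_lit 507) (nat_lit 411) (nat_lit 222)) (XT.nd (nat_lit 78) (nat_lit 76) (nat_lit 0) (XT.lf (nat_lit 0) (nat_lit 6044894275) (nat_lit 304) (nat_lit 15864771761) (nat_lit 380) (nat_lit 1244523690) (nat_lit 114) (nat_lit 5) (nat_lit 118) (nat_lit 5) (nat_lit 119) (nat_lit 5) (nat_lit 508) (nat_lit 411) (nat_lit 221)) (XT.lf (nat_lit 0) (nat_lit 4106506280) (nat_lit 380) (nat_lit 3805359601) (nat_lit 76) (nat_lit 15539247053) (nat_lit 113) (nat_lit 5) (nat_lit 118) (nat_lit 5) (nat_lit 114) (nat_lit 5) (nat_lit 509) (nat_lit 411) (nat_lit 220))))) (XT.nd (nat_lit 51714) (nat_lit 0) (nat_lit 32680) (XT.nd (nat_lit 78) (nat_lit 304) (nat_lit 0) (XT.lf (nat_lit 0) (nat_lit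 9606511969) (nat_lit 380) (nat_lit 13880142471) (nat_lit 76) (nat_lit 265984007) (nat_lit 109) (nat_lit 5) (nat_lit 114) (nat_lit 5) (nat_lit 110) (nat_lit 5) (nat_lit 510) (nat_lit 411) (nat_lit 219)) (XT.nd (nat_lit 78) (nat_lit 304) (nat_lit 0) (XT.lf (nat_lit 0) (nat_lit 15287401621) (nat_lit 380) (nat_lit 248432801) (nat_lit 76) (nat_lit 8522943106) (nat_lit 109) (nat_lit 5) (nat_lit 114) (nat_lit 5) (nat_lit 110) (nat_lit 5) (nat_lit 511) (nat_lit 411) (nat_lit 218)) (XT.lf (nat_lit 0) (nat_lit 13825792945) (nat_lit 304) (nat_lit 7338806172) (nat_lit 380) (nat_lit 3204787197) (nat_lit 105) (nat_lit 5) (nat_lit 109) (nat_lit 5) (nat_lit 110) (nat_lit 5) (nat_lit 512) (nat_lit 411) (nat_lit 217)))) (XT.nd (nat_lit 78) (nat_lit 0) (nat_lit 0) (XT.lf (nat_lit 0) (nat_lit 570943141) (nat_lit 0) (nat_lit 570943141) (nat_lit 1444) (nat_lit 3060307563) (nat_lit 535) (nat_lit 5) (nat_lit 535) (nat_lit 3) (nat_lit 554) (nat_lit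 3) (nat_lit 412) (nat_lit 412) (nat_lit 316)) (XT.nd (nat_lit 78) (nat_lit 0) (nat_lit 0) (XT.lf (nat_lit 0) (nat_lit 3379652678) (nat_lit 1444) (nat_lit 3173742472) (nat_lit 1520) (nat_lit 1913312336) (nat_lit 535) (nat_lit 5) (nat_lit 554) (nat_lit 3) (nat_lit 555) (nat_lit 5) (nat_lit 413) (nat_lit 412) (nat_lit 315)) (XT.lf (nat_lit 76) (nat_lit 987620723) (nat_lit 0) (nat_lit 3496078309) (nat_lit 1520) (nat_lit 4046856578) (nat_lit 536) (nat_lit 5) (nat_lit 535) (nat_lit 5) (nat_lit 555) (nat_lit 5) (nat_lit 414) (nat_lit 412) (nat_lit 314))))))))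
noncomputable def xc165 : XT := (XT.nd (nat_lit 1794) (nat_lit 12312) (nat_lit 0) (XT.nd (nat_lit 858) (nat_lit 4408) (nat_lit 0) (XT.nd (nat_lit 390) (nat_lit 0) (nat_lit 0) (XT.nd (nat_lit 156) (nat_lit 1368) (nat_lit 0) (XT.nd (nat_lit 78) (nat_lit 0) (nat_lit 76) (XT.lf (nat_lit 76) (nat_lit 5260766314) (nat_lit 0) (nat_lit 343081392) (nat_lit 1520) (nat_lit 2991959330) (nat_lit 536) (nat_lit 5) (nat_lit 535) (nat_lit 5) (nat_lit 555) (nat_lit 5) (nat_lit 415) (nat_lit 412) (nat_lit 313)) (XT.lf (nat_lit 76) (nat_lit 935826450) (nat_lit 0) (nat_lit 5808642453) (nat_lit 1520) (nat_lit 1917939836) (nat_lit 537) (nat_lit 5) (nat_lit 536) (nat_lit 5) (nat_lit 556) (nat_lit 5) (nat_lit 416) (nat_lit 412) (nat_lit 312))) (XT.nd (nat_lit 78) (nat_lit 1444) (nat_lit 0) (XT.lf (nat_lit 76) (nat_lit 5320308323) (nat_lit 0) (nat_lit 2585998718) (nat_lit 1520) (nat_lit 824073849) (nat_lit 537) (nat_lit 5) (nat_lit 536) (nat_lit 5)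 (nat_lit 556) (nat_lit 5) (nat_lit 417) (nat_lit 412) (nat_lit 311)) (XT.nd (nat_lit 78) (nat_lit 0) (nat_lit 0) (XT.lf (nat_lit 0) (nat_lit 273050462) (nat_lit 1520) (nat_lit 7815673808) (nat_lit 1596) (nat_lit 711252467) (nat_lit 517) (nat_lit 5) (nat_lit 537) (nat_lit 5) (nat_lit 538) (nat_lit 5) (nat_lit 418) (nat_lit 412) (nat_lit 310)) (XT.lf (nat_lit 0) (nat_lit 1395841906) (nat_lit 1520) (nat_lit 3395709801) (nat_lit 1596) (nat_lit 4079014803) (nat_lit 517) (nat_lit 5) (nat_lit 537) (nat_lit 5) (nat_lit 538) (nat_lit 5) (nat_lit 419) (nat_lit 412) (nat_lit 309))))) (XT.nd (nat_lit 234) (nat_lit 0) (nat_lit 152) (XT.nd (nat_lit 78) (nat_lit 0) (nat_lit 76) (XT.lf (nat_lit 76) (nat_lit 1112281923) (nat_lit 0) (nat_lit 1411115137) (nat_lit 1596) (nat_lit 6419530873) (nat_lit 518) (nat_lit 5) (nat_lit 517) (nat_lit 5) (nat_lit 538) (nat_lit 5) (nat_lit 420) (nat_lit 412) (nat_lit 308)) (XT.nd (nat_lit 78) (nat_lit 0) (nat_lit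 0) (XT.lf (nat_lit 0) (nat_lit 3685207280) (nat_lit 1520) (nat_lit 3288613607) (nat_lit 1596) (nat_lit 2042687511) (nat_lit 518) (nat_lit 5) (nat_lit 538) (nat_lit 5) (nat_lit 539) (nat_lit 5) (nat_lit 421) (nat_lit 412) (nat_lit 307)) (XT.lf (nat_lit 76) (nat_lit 1337336090) (nat_lit 0) (nat_lit 3526966161) (nat_lit 1596) (nat_lit 4227383027) (nat_lit 519) (nat_lit 5) (nat_lit 518) (nat_lit 5) (nat_lit 539) (nat_lit 5) (nat_lit 422) (nat_lit 412) (nat_lit 306)))) (XT.nd (nat_lit 78) (nat_lit 0) (nat_lit 0) (XT.lf (nat_lit 0) (nat_lit 6065570030) (nat_lit 1520) (nat_lit 3083166851) (nat_lit 1596) (nat_lit 19662662) (nat_lit 519) (nat_lit 5) (nat_lit 539) (nat_lit 5) (nat_lit 540) (nat_lit 5) (nat_lit 423) (nat_lit 412) (nat_lit 305)) (XT.nd (nat_lit 78) (nat_lit 0) (nat_lit 0) (XT.lf (nat_lit 76) (nat_lit 1664667361) (nat_lit 0) (nat_lit 5637272087) (nat_lit 1596) (nat_lit 1944492673) (nat_lit 520) (nat_lit 5) (nat_lit 519)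 (nat_lit 5) (nat_lit 540) (nat_lit 5) (nat_lit 424) (nat_lit 412) (nat_lit 304)) (XT.lf (nat_lit 76) (nat_lit 6534104911) (nat_lit 0) (nat_lit 2026886171) (nat_lit 1596) (nat_lit 765080615) (nat_lit 520) (nat_lit 5) (nat_lit 519) (nat_lit 5) (nat_lit 540) (nat_lit 5) (nat_lit 425) (nat_lit 412) (nat_lit 303)))))) (XT.nd (nat_lit 468) (nat_lit 3040) (nat_lit 0) (XT.nd (nat_lit 234) (nat_lit 0) (nat_lit 76) (XT.nd (nat_lit 78) (nat_lit 0) (nat_lit 0) (XT.lf (nat_lit 0) (nat_lit 434296354) (nat_lit 1596) (nat_lit 7315119747) (nat_lit 1672) (nat_lit 1657793930) (nat_lit 499) (nat_lit 5) (nat_lit 520) (nat_lit 5) (nat_lit 521) (nat_lit 5) (nat_lit 426) (nat_lit 412) (nat_lit 302)) (XT.nd (nat_lit 78) (nat_lit 0) (nat_lit 0) (XT.lf (nat_lit 0) (nat_lit 1657654852) (nat_lit 1596) (nat_lit 2412082154) (nat_lit 1672) (nat_lit 5419933345) (nat_lit 499) (nat_lit 5) (nat_lit 520) (nat_lit 5) (nat_lit 521) (nat_lit 5) (nat_lit 427) (nat_lit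 412) (nat_lit 301)) (XT.lf (nat_lit 76) (nat_lit 2607978979) (nat_lit 0) (nat_lit 292812811) (nat_lit 1672) (nat_lit 6673086891) (nat_lit 500) (nat_lit 5) (nat_lit 499) (nat_lit 5) (nat_lit 521) (nat_lit 5) (nat_lit 428) (nat_lit 412) (nat_lit 300)))) (XT.nd (nat_lit 78) (nat_lit 0) (nat_lit 0) (XT.lf (nat_lit 0) (nat_lit 4186940756) (nat_lit 1596) (nat_lit 1937140371) (nat_lit 1672) (nat_lit 3535331995) (nat_lit 500) (nat_lit 5) (nat_lit 521) (nat_lit 5) (nat_lit 522) (nat_lit 5) (nat_lit 429) (nat_lit 412) (nat_lit 299)) (XT.nd (nat_lit 78) (nat_lit 0) (nat_lit 76) (XT.lf (nat_lit 76) (nat_lit 3217142647) (nat_lit 0) (nat_lit 2283657964) (nat_lit 1672) (nat_lit 4245822718) (nat_lit 501) (nat_lit 5) (nat_lit 500) (nat_lit 5) (nat_lit 522) (nat_lit 5) (nat_lit 430) (nat_lit 412) (nat_lit 298)) (XT.lf (nat_lit 0) (nat_lit 6844134610) (nat_lit 1596) (nat_lit 1360895256) (nat_lit 1672) (nat_lit 1630488674) (nat_lit 501) (nat_lit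 5) (nat_lit 522) (nat_lit 5) (nat_lit 523) (nat_lit 5) (nat_lit 431) (nat_lit 412) (nat_lit 297))))) (XT.nd (nat_lit 234) (nat_lit 1596) (nat_lit 0) (XT.nd (nat_lit 78) (nat_lit 1596) (nat_lit 0) (XT.lf (nat_lit 76) (nat_lit 3932161336) (nat_lit 0) (nat_lit 4302734953) (nat_lit 1672) (nat_lit 1690888794) (nat_lit 502) (nat_lit 5) (nat_lit 501) (nat_lit 5) (nat_lit 523) (nat_lit 5) (nat_lit 432) (nat_lit 412) (nat_lit 296)) (XT.nd (nat_lit 78) (nat_lit 1596) (nat_lit 0) (XT.lf (nat_lit 76) (nat_lit 9334279347) (nat_lit 0) (nat_lit 308528400) (nat_lit 1672) (nat_lit 375267075) (nat_lit 502) (nat_lit 5) (nat_lit 501) (nat_lit 5) (nat_lit 523) (nat_lit 5) (nat_lit 433) (nat_lit 412) (nat_lit 295)) (XT.lf (nat_lit 0) (nat_lit 990161698) (nat_lit 1672) (nat_lit 5363239428) (nat_lit 1748) (nat_lit 3757964630) (nat_lit 480) (nat_lit 5) (nat_lit 502) (nat_lit 5) (nat_lit 503) (nat_lit 5) (nat_lit 434) (nat_lit 412) (nat_lit 294))))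 (XT.nd (nat_lit 78) (nat_lit 1596) (nat_lit 0) (XT.lf (nat_lit 76) (nat_lit 72386980) (nat_lit 0) (nat_lit 2293393622) (nat_lit 1748) (nat_lit 7840938462) (nat_lit 481) (nat_lit 5) (nat_lit 480) (nat_lit 5) (nat_lit 503) (nat_lit 5) (nat_lit 435) (nat_lit 412) (nat_lit 293)) (XT.nd (nat_lit 78) (nat_lit 1672) (nat_lit 0) (XT.lf (nat_lit 0) (nat_lit 3798206887) (nat_lit 1672) (nat_lit 4641901612) (nat_lit 76) (nat_lit 1863289247) (nat_lit 481) (nat_lit 5) (nat_lit 503) (nat_lit 5) (nat_lit 482) (nat_lit 5) (nat_lit 436) (nat_lit 412) (nat_lit 292)) (XT.lf (nat_lit 0) (nat_lit 942022226) (nat_lit 1672) (nat_lit 4320004195) (nat_lit 1748) (nat_lit 5139932814) (nat_lit 459) (nat_lit 5) (nat_lit 481) (nat_lit 5) (nat_lit 482) (nat_lit 5) (nat_lit 437) (nat_lit 412) (nat_lit 291))))))) (XT.nd (nat_lit 936) (nat_lit 5396) (nat_lit 0) (XT.nd (nat_lit 468) (nat_lit 2736) (nat_lit 0) (XT.nd (nat_lit 234) (nat_lit 2432) (nat_lit 0) (XT.nd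 (nat_lit 78) (nat_lit 1748) (nat_lit 0) (XT.lf (nat_lit 0) (nat_lit 6685126861) (nat_lit 1672) (nat_lit 82849338) (nat_lit 1748) (nat_lit 3734262721) (nat_lit 459) (nat_lit 5) (nat_lit 481) (nat_lit 5) (nat_lit 482) (nat_lit 5) (nat_lit 438) (nat_lit 412) (nat_lit 290)) (XT.nd (nat_lit 78) (nat_lit 0) (nat_lit 0) (XT.lf (nat_lit 0) (nat_lit 1920738972) (nat_lit 1748) (nat_lit 6405380725) (nat_lit 1824) (nat_lit 2277966974) (nat_lit 436) (nat_lit 5) (nat_lit 459) (nat_lit 5) (nat_lit 460) (nat_lit 5) (nat_lit 439) (nat_lit 412) (nat_lit 289)) (XT.lf (nat_lit 0) (nat_lit 7809136445) (nat_lit 1748) (nat_lit 2114782191) (nat_lit 1824) (nat_lit 783886777) (nat_lit 436) (nat_lit 5) (nat_lit 459) (nat_lit 5) (nat_lit 460) (nat_lit 5) (nat_lit 440) (nat_lit 412) (nat_lit 288)))) (XT.nd (nat_lit 78) (nat_lit 912) (nat_lit 0) (XT.lf (nat_lit 0) (nat_lit 747404423) (nat_lit 1520) (nat_lit 7807130485) (nat_lit 76) (nat_lit 2258630546)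 (nat_lit 416) (nat_lit 5) (nat_lit 436) (nat_lit 5) (nat_lit 417) (nat_lit 5) (nat_lit 441) (nat_lit 412) (nat_lit 287)) (XT.nd (nat_lit 78) (nat_lit 912) (nat_lit 0) (XT.lf (nat_lit 0) (nat_lit 2315237078) (nat_lit 1520) (nat_lit 1887033441) (nat_lit 76) (nat_lit 6717933973) (nat_lit 416) (nat_lit 5) (nat_lit 436) (nat_lit 5) (nat_lit 417) (nat_lit 5) (nat_lit 442) (nat_lit 412) (nat_lit 286)) (XT.lf (nat_lit 0) (nat_lit 3926520876) (nat_lit 988) (nat_lit 6839760758) (nat_lit 76) (nat_lit 262864380) (nat_lit 404) (nat_lit 5) (nat_lit 417) (nat_lit 5) (nat_lit 405) (nat_lit 5) (nat_lit 443) (nat_lit 412) (nat_lit 285))))) (XT.nd (nat_lit 234) (nat_lit 912) (nat_lit 0) (XT.nd (nat_lit 78) (nat_lit 1824) (nat_lit 0) (XT.lf (nat_lit 0) (nat_lit 5594001243) (nat_lit 988) (nat_lit 770543572) (nat_lit 76) (nat_lit 4775245654) (nat_lit 404) (nat_lit 5) (nat_lit 417) (nat_lit 5) (nat_lit 405) (nat_lit 5) (nat_lit 444) (nat_lit 412)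 (nat_lit 284)) (XT.nd (nat_lit 78) (nat_lit 912) (nat_lit 0) (XT.lf (nat_lit 0) (nat_lit 5476661273) (nat_lit 912) (nat_lit 1837448099) (nat_lit 988) (nat_lit 3938156331) (nat_lit 392) (nat_lit 5) (nat_lit 404) (nat_lit 5) (nat_lit 405) (nat_lit 5) (nat_lit 445) (nat_lit 412) (nat_lit 283)) (XT.lf (nat_lit 0) (nat_lit 464926055) (nat_lit 912) (nat_lit 8613915183) (nat_lit 988) (nat_lit 2287948157) (nat_lit 380) (nat_lit 5) (nat_lit 392) (nat_lit 5) (nat_lit 393) (nat_lit 5) (nat_lit 446) (nat_lit 412) (nat_lit 282)))) (XT.nd (nat_lit 78) (nat_lit 912) (nat_lit 0) (XT.lf (nat_lit 0) (nat_lit 6880873863) (nat_lit 912) (nat_lit 4033001908) (nat_lit 988) (nat_lit 569030948) (nat_lit 380) (nat_lit 5) (nat_lit 392) (nat_lit 5) (nat_lit 393) (nat_lit 5) (nat_lit 447) (nat_lit 412) (nat_lit 281)) (XT.nd (nat_lit 78) (nat_lit 0) (nat_lit 0) (XT.lf (nat_lit 0) (nat_lit 1169231160) (nat_lit 912) (nat_lit 9780780891) (nat_lit 76) (nat_lit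 651173779) (nat_lit 368) (nat_lit 5) (nat_lit 380) (nat_lit 5) (nat_lit 369) (nat_lit 5) (nat_lit 448) (nat_lit 412) (nat_lit 280)) (XT.lf (nat_lit 0) (nat_lit 2977018022) (nat_lit 912) (nat_lit 3333696897) (nat_lit 76) (nat_lit 5410195930) (nat_lit 368) (nat_lit 5) (nat_lit 380) (nat_lit 5) (nat_lit 369) (nat_lit 5) (nat_lit 449) (nat_lit 412) (nat_lit 279)))))) (XT.nd (nat_lit 468) (nat_lit 2204) (nat_lit 0) (XT.nd (nat_lit 234) (nat_lit 1596) (nat_lit 0) (XT.nd (nat_lit 78) (nat_lit 760) (nat_lit 0) (XT.lf (nat_lit 0) (nat_lit 3270043716) (nat_lit 836) (nat_lit 1557027131) (nat_lit 912) (nat_lit 7015840382) (nat_lit 357) (nat_lit 5) (nat_lit 368) (nat_lit 5) (nat_lit 369) (nat_lit 5) (nat_lit 450) (nat_lit 412) (nat_lit 278)) (XT.nd (nat_lit 78) (nat_lit 760) (nat_lit 0) (XT.lf (nat_lit 0) (nat_lit 6743092454) (nat_lit 912) (nat_lit 1952749128) (nat_lit 76) (nat_lit 3270933685) (nat_lit 357) (nat_lit 5) (nat_lit 369) (nat_lit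 5) (nat_lit 358) (nat_lit 5) (nat_lit 451) (nat_lit 412) (nat_lit 277)) (XT.lf (nat_lit 0) (nat_lit 4837837794) (nat_lit 760) (nat_lit 3886687794) (nat_lit 836) (nat_lit 3368052123) (nat_lit 347) (nat_lit 5) (nat_lit 357) (nat_lit 5) (nat_lit 358) (nat_lit 5) (nat_lit 452) (nat_lit 412) (nat_lit 276)))) (XT.nd (nat_lit 78) (nat_lit 1596) (nat_lit 0) (XT.lf (nat_lit 0) (nat_lit 10750947311) (nat_lit 836) (nat_lit 451888781) (nat_lit 76) (nat_lit 1017955802) (nat_lit 347) (nat_lit 5) (nat_lit 358) (nat_lit 5) (nat_lit 348) (nat_lit 5) (nat_lit 453) (nat_lit 412) (nat_lit 275)) (XT.nd (nat_lit 78) (nat_lit 760) (nat_lit 0) (XT.lf (nat_lit 0) (nat_lit 514554179) (nat_lit 836) (nat_lit 5821892137) (nat_lit 76) (nat_lit 6013979406) (nat_lit 336) (nat_lit 5) (nat_lit 347) (nat_lit 5) (nat_lit 337) (nat_lit 5) (nat_lit 454) (nat_lit 412) (nat_lit 274)) (XT.lf (nat_lit 0) (nat_lit 1162538305) (nat_lit 760) (nat_lit 1352964756) (nat_lit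 836) (nat_lit 9967026709) (nat_lit 326) (nat_lit 5) (nat_lit 336) (nat_lit 5) (nat_lit 337) (nat_lit 5) (nat_lit 455) (nat_lit 412) (nat_lit 273))))) (XT.nd (nat_lit 234) (nat_lit 1444) (nat_lit 0) (XT.nd (nat_lit 78) (nat_lit 760) (nat_lit 0) (XT.lf (nat_lit 0) (nat_lit 4606112992) (nat_lit 836) (nat_lit 4290624915) (nat_lit 76) (nat_lit 3719547819) (nat_lit 326) (nat_lit 5) (nat_lit 337) (nat_lit 5) (nat_lit 327) (nat_lit 5) (nat_lit 456) (nat_lit 412) (nat_lit 272)) (XT.nd (nat_lit 78) (nat_lit 0) (nat_lit 0) (XT.lf (nat_lit 0) (nat_lit 2893387368) (nat_lit 760) (nat_lit 3859262729) (nat_lit 836) (nat_lit 5999787020) (nat_lit 316) (nat_lit 5) (nat_lit 326) (nat_lit 5) (nat_lit 327) (nat_lit 5) (nat_lit 457) (nat_lit 412) (nat_lit 271)) (XT.lf (nat_lit 0) (nat_lit 8965936080) (nat_lit 836) (nat_lit 2635083298) (nat_lit 76) (nat_lit 1289818361) (nat_lit 316) (nat_lit 5) (nat_lit 327) (nat_lit 5) (nat_lit 317) (nat_lit 5) (nat_lit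 458) (nat_lit 412) (nat_lit 270)))) (XT.nd (nat_lit 78) (nat_lit 760) (nat_lit 0) (XT.lf (nat_lit 0) (nat_lit 4755374484) (nat_lit 684) (nat_lit 6511341704) (nat_lit 760) (nat_lit 1764428133) (nat_lit 307) (nat_lit 5) (nat_lit 316) (nat_lit 5) (nat_lit 317) (nat_lit 5) (nat_lit 459) (nat_lit 412) (nat_lit 269)) (XT.nd (nat_lit 78) (nat_lit 684) (nat_lit 0) (XT.lf (nat_lit 0) (nat_lit 438163859) (nat_lit 760) (nat_lit 862388860) (nat_lit 76) (nat_lit 11873556296) (nat_lit 306) (nat_lit 5) (nat_lit 316) (nat_lit 5) (nat_lit 307) (nat_lit 5) (nat_lit 460) (nat_lit 412) (nat_lit 268)) (XT.lf (nat_lit 0) (nat_lit 2718654267) (nat_lit 760) (nat_lit 6583832692) (nat_lit 76) (nat_lit 4016065711) (nat_lit 297) (nat_lit 5) (nat_lit 307) (nat_lit 5) (nat_lit 298) (nat_lit 5) (nat_lit 461) (nat_lit 412) (nat_lit 267))))))))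
noncomputable def xc166 : XT := (XT.nd (nat_lit 1794) (nat_lit 5852) (nat_lit 0) (XT.nd (nat_lit 858) (nat_lit 3800) (nat_lit 0) (XT.nd (nat_lit 390) (nat_lit 1900) (nat_lit 0) (XT.nd (nat_lit 156) (nat_lit 1368) (nat_lit 0) (XT.nd (nat_lit 78) (nat_lit 0) (nat_lit 0) (XT.lf (nat_lit 0) (nat_lit 1019678931) (nat_lit 684) (nat_lit 4033408580) (nat_lit 760) (nat_lit 8412633350) (nat_lit 288) (nat_lit 5) (nat_lit 297) (nat_lit 5) (nat_lit 298) (nat_lit 5) (nat_lit 462) (nat_lit 412) (nat_lit 266)) (XT.lf (nat_lit 0) (nat_lit 7474805313) (nat_lit 760) (nat_lit 4774319889) (nat_lit 76) (nat_lit 1365897574) (nat_lit 288) (nat_lit 5) (nat_lit 298) (nat_lit 5) (nat_lit 289) (nat_lit 5) (nat_lit 463) (nat_lit 412) (nat_lit 265))) (XT.nd (nat_lit 78) (nat_lit 684) (nat_lit 0) (XT.lf (nat_lit 0) (nat_lit 3049534312) (nat_lit 684) (nat_lit 6929596157) (nat_lit 760) (nat_lit 3787499032) (nat_lit 279) (nat_lit 5) (nat_lit 288) (nat_lit 5)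 (nat_lit 289) (nat_lit 5) (nat_lit 464) (nat_lit 412) (nat_lit 264)) (XT.nd (nat_lit 78) (nat_lit 684) (nat_lit 0) (XT.lf (nat_lit 0) (nat_lit 11080092565) (nat_lit 684) (nat_lit 1473297688) (nat_lit 760) (nat_lit 1367483336) (nat_lit 279) (nat_lit 5) (nat_lit 288) (nat_lit 5) (nat_lit 289) (nat_lit 5) (nat_lit 465) (nat_lit 412) (nat_lit 263)) (XT.lf (nat_lit 0) (nat_lit 1135311029) (nat_lit 684) (nat_lit 8864177732) (nat_lit 76) (nat_lit 4077596597) (nat_lit 270) (nat_lit 5) (nat_lit 279) (nat_lit 5) (nat_lit 271) (nat_lit 5) (nat_lit 466) (nat_lit 412) (nat_lit 262))))) (XT.nd (nat_lit 234) (nat_lit 684) (nat_lit 0) (XT.nd (nat_lit 78) (nat_lit 1216) (nat_lit 0) (XT.lf (nat_lit 0) (nat_lit 3686909570) (nat_lit 684) (nat_lit 803299795) (nat_lit 76) (nat_lit 9745692100) (nat_lit 270) (nat_lit 5) (nat_lit 279) (nat_lit 5) (nat_lit 271) (nat_lit 5) (nat_lit 467) (nat_lit 412) (nat_lit 261)) (XT.nd (nat_lit 78) (nat_lit 608)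 (nat_lit 0) (XT.lf (nat_lit 0) (nat_lit 6334221295) (nat_lit 684) (nat_lit 6901807982) (nat_lit 76) (nat_lit 1160973017) (nat_lit 262) (nat_lit 5) (nat_lit 271) (nat_lit 5) (nat_lit 263) (nat_lit 5) (nat_lit 468) (nat_lit 412) (nat_lit 260)) (XT.lf (nat_lit 0) (nat_lit 1383364804) (nat_lit 608) (nat_lit 7683708175) (nat_lit 684) (nat_lit 5493602269) (nat_lit 254) (nat_lit 5) (nat_lit 262) (nat_lit 5) (nat_lit 263) (nat_lit 5) (nat_lit 469) (nat_lit 412) (nat_lit 259)))) (XT.nd (nat_lit 78) (nat_lit 684) (nat_lit 0) (XT.lf (nat_lit 0) (nat_lit 9913555181) (nat_lit 608) (nat_lit 1975924552) (nat_lit 684) (nat_lit 2837445911) (nat_lit 254) (nat_lit 5) (nat_lit 262) (nat_lit 5) (nat_lit 263) (nat_lit 5) (nat_lit 470) (nat_lit 412) (nat_lit 258)) (XT.nd (nat_lit 78) (nat_lit 76) (nat_lit 0) (XT.lf (nat_lit 0) (nat_lit 3727595298) (nat_lit 608) (nat_lit 11078701372) (nat_lit 684) (nat_lit 89447043) (nat_lit 246) (nat_lit 5) (nat_lit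 254) (nat_lit 5) (nat_lit 255) (nat_lit 5) (nat_lit 471) (nat_lit 412) (nat_lit 257)) (XT.lf (nat_lit 0) (nat_lit 2712365690) (nat_lit 684) (nat_lit 2607809788) (nat_lit 76) (nat_lit 9746723298) (nat_lit 245) (nat_lit 5) (nat_lit 254) (nat_lit 5) (nat_lit 246) (nat_lit 5) (nat_lit 472) (nat_lit 412) (nat_lit 256)))))) (XT.nd (nat_lit 468) (nat_lit 1520) (nat_lit 0) (XT.nd (nat_lit 234) (nat_lit 1140) (nat_lit 0) (XT.nd (nat_lit 78) (nat_lit 608) (nat_lit 0) (XT.lf (nat_lit 0) (nat_lit 5602115669) (nat_lit 608) (nat_lit 9054343118) (nat_lit 76) (nat_lit 584346149) (nat_lit 238) (nat_lit 5) (nat_lit 246) (nat_lit 5) (nat_lit 239) (nat_lit 5) (nat_lit 473) (nat_lit 412) (nat_lit 255)) (XT.nd (nat_lit 78) (nat_lit 608) (nat_lit 0) (XT.lf (nat_lit 0) (nat_lit 8591675151) (nat_lit 608) (nat_lit 275274340) (nat_lit 76) (nat_lit 6550401202) (nat_lit 238) (nat_lit 5) (nat_lit 246) (nat_lit 5) (nat_lit 239) (nat_lit 5) (nat_lit 474)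 (nat_lit 412) (nat_lit 254)) (XT.lf (nat_lit 0) (nat_lit 8780757936) (nat_lit 608) (nat_lit 2906656708) (nat_lit 684) (nat_lit 3909086669) (nat_lit 230) (nat_lit 5) (nat_lit 238) (nat_lit 5) (nat_lit 239) (nat_lit 5) (nat_lit 475) (nat_lit 412) (nat_lit 253)))) (XT.nd (nat_lit 78) (nat_lit 608) (nat_lit 0) (XT.lf (nat_lit 0) (nat_lit 2237294874) (nat_lit 532) (nat_lit 12634236744) (nat_lit 608) (nat_lit 907175767) (nat_lit 223) (nat_lit 5) (nat_lit 230) (nat_lit 5) (nat_lit 231) (nat_lit 5) (nat_lit 476) (nat_lit 412) (nat_lit 252)) (XT.nd (nat_lit 78) (nat_lit 532) (nat_lit 0) (XT.lf (nat_lit 0) (nat_lit 2181325898) (nat_lit 608) (nat_lit 4447331284) (nat_lit 76) (nat_lit 9334525963) (nat_lit 222) (nat_lit 5) (nat_lit 230) (nat_lit 5) (nat_lit 223) (nat_lit 5) (nat_lit 477) (nat_lit 412) (nat_lit 251)) (XT.lf (nat_lit 0) (nat_lit 4872876510) (nat_lit 532) (nat_lit 467952012) (nat_lit 608) (nat_lit 10809974003) (nat_lit 215)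 (nat_lit 5) (nat_lit 222) (nat_lit 5) (nat_lit 223) (nat_lit 5) (nat_lit 478) (nat_lit 412) (nat_lit 250))))) (XT.nd (nat_lit 234) (nat_lit 532) (nat_lit 0) (XT.nd (nat_lit 78) (nat_lit 988) (nat_lit 0) (XT.lf (nat_lit 0) (nat_lit 8621143792) (nat_lit 608) (nat_lit 1953511643) (nat_lit 76) (nat_lit 5766367971) (nat_lit 215) (nat_lit 5) (nat_lit 223) (nat_lit 5) (nat_lit 216) (nat_lit 5) (nat_lit 479) (nat_lit 412) (nat_lit 249)) (XT.nd (nat_lit 78) (nat_lit 532) (nat_lit 0) (XT.lf (nat_lit 0) (nat_lit 7641026337) (nat_lit 456) (nat_lit 4368768169) (nat_lit 532) (nat_lit 4524401148) (nat_lit 209) (nat_lit 5) (nat_lit 215) (nat_lit 5) (nat_lit 216) (nat_lit 5) (nat_lit 480) (nat_lit 412) (nat_lit 248)) (XT.lf (nat_lit 0) (nat_lit 705836474) (nat_lit 532) (nat_lit 14780999495) (nat_lit 608) (nat_lit 1243984526) (nat_lit 202) (nat_lit 5) (nat_lit 209) (nat_lit 5) (nat_lit 210) (nat_lit 5) (nat_lit 481) (nat_lit 412) (nat_lit 247))))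 (XT.nd (nat_lit 78) (nat_lit 456) (nat_lit 0) (XT.lf (nat_lit 0) (nat_lit 2153622745) (nat_lit 608) (nat_lit 6369397600) (nat_lit 76) (nat_lit 8406502957) (nat_lit 201) (nat_lit 5) (nat_lit 209) (nat_lit 5) (nat_lit 202) (nat_lit 5) (nat_lit 482) (nat_lit 412) (nat_lit 246)) (XT.nd (nat_lit 78) (nat_lit 0) (nat_lit 0) (XT.lf (nat_lit 0) (nat_lit 3503670710) (nat_lit 456) (nat_lit 2111957097) (nat_lit 532) (nat_lit 11516147267) (nat_lit 195) (nat_lit 5) (nat_lit 201) (nat_lit 5) (nat_lit 202) (nat_lit 5) (nat_lit 483) (nat_lit 412) (nat_lit 245)) (XT.lf (nat_lit 0) (nat_lit 9209061431) (nat_lit 532) (nat_lit 3719129559) (nat_lit 76) (nat_lit 4408638512) (nat_lit 195) (nat_lit 5) (nat_lit 202) (nat_lit 5) (nat_lit 196) (nat_lit 5) (nat_lit 484) (nat_lit 412) (nat_lit 244))))))) (XT.nd (nat_lit 936) (nat_lit 2660) (nat_lit 0) (XT.nd (nat_lit 468) (nat_lit 1368) (nat_lit 0) (XT.nd (nat_lit 234) (nat_lit 836) (nat_lit 0) (XT.nd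 (nat_lit 78) (nat_lit 532) (nat_lit 0) (XT.lf (nat_lit 0) (nat_lit 6445410640) (nat_lit 456) (nat_lit 6475393558) (nat_lit 532) (nat_lit 4624253371) (nat_lit 189) (nat_lit 5) (nat_lit 195) (nat_lit 5) (nat_lit 196) (nat_lit 5) (nat_lit 485) (nat_lit 412) (nat_lit 243)) (XT.nd (nat_lit 78) (nat_lit 532) (nat_lit 0) (XT.lf (nat_lit 0) (nat_lit 16723276520) (nat_lit 532) (nat_lit 907388576) (nat_lit 76) (nat_lit 126456542) (nat_lit 189) (nat_lit 5) (nat_lit 196) (nat_lit 5) (nat_lit 190) (nat_lit 5) (nat_lit 486) (nat_lit 412) (nat_lit 242)) (XT.lf (nat_lit 0) (nat_lit 2690338191) (nat_lit 532) (nat_lit 8430999491) (nat_lit 76) (nat_lit 6849820518) (nat_lit 182) (nat_lit 5) (nat_lit 189) (nat_lit 5) (nat_lit 183) (nat_lit 5) (nat_lit 487) (nat_lit 412) (nat_lit 241)))) (XT.nd (nat_lit 78) (nat_lit 380) (nat_lit 0) (XT.lf (nat_lit 0) (nat_lit 2026277365) (nat_lit 456) (nat_lit 4459080800) (nat_lit 532) (nat_lit 11703777989) (nat_lit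 176) (nat_lit 5) (nat_lit 182) (nat_lit 5) (nat_lit 183) (nat_lit 5) (nat_lit 488) (nat_lit 412) (nat_lit 240)) (XT.nd (nat_lit 78) (nat_lit 380) (nat_lit 0) (XT.lf (nat_lit 0) (nat_lit 10419366261) (nat_lit 532) (nat_lit 5631986313) (nat_lit 76) (nat_lit 2358860569) (nat_lit 176) (nat_lit 5) (nat_lit 183) (nat_lit 5) (nat_lit 177) (nat_lit 5) (nat_lit 489) (nat_lit 412) (nat_lit 239)) (XT.lf (nat_lit 0) (nat_lit 5134485448) (nat_lit 380) (nat_lit 9351580014) (nat_lit 456) (nat_lit 4148567202) (nat_lit 171) (nat_lit 5) (nat_lit 176) (nat_lit 5) (nat_lit 177) (nat_lit 5) (nat_lit 490) (nat_lit 412) (nat_lit 238))))) (XT.nd (nat_lit 234) (nat_lit 456) (nat_lit 0) (XT.nd (nat_lit 78) (nat_lit 912) (nat_lit 0) (XT.lf (nat_lit 0) (nat_lit 16179886567) (nat_lit 380) (nat_lit 2483240702) (nat_lit 456) (nat_lit 199833918) (nat_lit 171) (nat_lit 5) (nat_lit 176) (nat_lit 5) (nat_lit 177) (nat_lit 5) (nat_lit 491) (nat_lit 412) (nat_lit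 237)) (XT.nd (nat_lit 78) (nat_lit 380) (nat_lit 0) (XT.lf (nat_lit 0) (nat_lit 3853573513) (nat_lit 532) (nat_lit 10700952791) (nat_lit 76) (nat_lit 4539315998) (nat_lit 164) (nat_lit 5) (nat_lit 171) (nat_lit 5) (nat_lit 165) (nat_lit 5) (nat_lit 492) (nat_lit 412) (nat_lit 236)) (XT.lf (nat_lit 0) (nat_lit 372080665) (nat_lit 380) (nat_lit 7641691734) (nat_lit 456) (nat_lit 11314975358) (nat_lit 159) (nat_lit 5) (nat_lit 164) (nat_lit 5) (nat_lit 165) (nat_lit 5) (nat_lit 493) (nat_lit 412) (nat_lit 235)))) (XT.nd (nat_lit 78) (nat_lit 456) (nat_lit 0) (XT.lf (nat_lit 0) (nat_lit 11799039335) (nat_lit 380) (nat_lit 521443021) (nat_lit 456) (nat_lit 7246603918) (nat_lit 159) (nat_lit 5) (nat_lit 164) (nat_lit 5) (nat_lit 165) (nat_lit 5) (nat_lit 494) (nat_lit 412) (nat_lit 234)) (XT.nd (nat_lit 78) (nat_lit 76) (nat_lit 0) (XT.lf (nat_lit 0) (nat_lit 3635776480) (nat_lit 380) (nat_lit 13136563067) (nat_lit 456) (nat_lit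 3036672827) (nat_lit 154) (nat_lit 5) (nat_lit 159) (nat_lit 5) (nat_lit 160) (nat_lit 5) (nat_lit 495) (nat_lit 412) (nat_lit 233)) (XT.lf (nat_lit 0) (nat_lit 1288557591) (nat_lit 456) (nat_lit 4706237112) (nat_lit 76) (nat_lit 14059868189) (nat_lit 153) (nat_lit 5) (nat_lit 159) (nat_lit 5) (nat_lit 154) (nat_lit 5) (nat_lit 496) (nat_lit 412) (nat_lit 232)))))) (XT.nd (nat_lit 468) (nat_lit 1064) (nat_lit 0) (XT.nd (nat_lit 234) (nat_lit 836) (nat_lit 0) (XT.nd (nat_lit 78) (nat_lit 380) (nat_lit 0) (XT.lf (nat_lit 0) (nat_lit 5706057796) (nat_lit 456) (nat_lit 13262670311) (nat_lit 76) (nat_lit 1335169353) (nat_lit 148) (nat_lit 5) (nat_lit 154) (nat_lit 5) (nat_lit 149) (nat_lit 5) (nat_lit 497) (nat_lit 412) (nat_lit 231)) (XT.nd (nat_lit 78) (nat_lit 380) (nat_lit 0) (XT.lf (nat_lit 0) (nat_lit 10275283283) (nat_lit 456) (nat_lit 1522284192) (nat_lit 76) (nat_lit 8759282731) (nat_lit 148) (nat_lit 5) (nat_lit 154) (nat_lit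 5) (nat_lit 149) (nat_lit 5) (nat_lit 498) (nat_lit 412) (nat_lit 230)) (XT.lf (nat_lit 0) (nat_lit 10579580094) (nat_lit 380) (nat_lit 4417046145) (nat_lit 456) (nat_lit 5817022080) (nat_lit 143) (nat_lit 5) (nat_lit 148) (nat_lit 5) (nat_lit 149) (nat_lit 5) (nat_lit 499) (nat_lit 412) (nat_lit 229)))) (XT.nd (nat_lit 78) (nat_lit 456) (nat_lit 0) (XT.lf (nat_lit 0) (nat_lit 1860740701) (nat_lit 380) (nat_lit 17986313339) (nat_lit 456) (nat_lit 1227836149) (nat_lit 138) (nat_lit 5) (nat_lit 143) (nat_lit 5) (nat_lit 144) (nat_lit 5) (nat_lit 500) (nat_lit 412) (nat_lit 228)) (XT.nd (nat_lit 78) (nat_lit 380) (nat_lit 0) (XT.lf (nat_lit 0) (nat_lit 3498346367) (nat_lit 456) (nat_lit 7068099610) (nat_lit 76) (nat_lit 10772653406) (nat_lit 137) (nat_lit 5) (nat_lit 143) (nat_lit 5) (nat_lit 138) (nat_lit 5) (nat_lit 501) (nat_lit 412) (nat_lit 227)) (XT.lf (nat_lit 0) (nat_lit 5371262695) (nat_lit 380) (nat_lit 2958511401) (nat_lit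 456) (nat_lit 13278114000) (nat_lit 132) (nat_lit 5) (nat_lit 137) (nat_lit 5) (nat_lit 138) (nat_lit 5) (nat_lit 502) (nat_lit 412) (nat_lit 226))))) (XT.nd (nat_lit 234) (nat_lit 684) (nat_lit 0) (XT.nd (nat_lit 78) (nat_lit 380) (nat_lit 0) (XT.lf (nat_lit 0) (nat_lit 13329070726) (nat_lit 456) (nat_lit 3769341492) (nat_lit 76) (nat_lit 4782216437) (nat_lit 132) (nat_lit 5) (nat_lit 138) (nat_lit 5) (nat_lit 133) (nat_lit 5) (nat_lit 503) (nat_lit 412) (nat_lit 225)) (XT.nd (nat_lit 78) (nat_lit 76) (nat_lit 0) (XT.lf (nat_lit 0) (nat_lit 9034447873) (nat_lit 304) (nat_lit 9464626926) (nat_lit 380) (nat_lit 3658335659) (nat_lit 128) (nat_lit 5) (nat_lit 132) (nat_lit 5) (nat_lit 133) (nat_lit 5) (nat_lit 504) (nat_lit 412) (nat_lit 224)) (XT.lf (nat_lit 0) (nat_lit 1333226365) (nat_lit 380) (nat_lit 314394413) (nat_lit 76) (nat_lit 20791575796) (nat_lit 127) (nat_lit 5) (nat_lit 132) (nat_lit 5) (nat_lit 128) (nat_lit 5)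 (nat_lit 505) (nat_lit 412) (nat_lit 223)))) (XT.nd (nat_lit 78) (nat_lit 304) (nat_lit 0) (XT.lf (nat_lit 0) (nat_lit 6493727072) (nat_lit 456) (nat_lit 9882807779) (nat_lit 76) (nat_lit 6347238891) (nat_lit 122) (nat_lit 5) (nat_lit 128) (nat_lit 5) (nat_lit 123) (nat_lit 5) (nat_lit 506) (nat_lit 412) (nat_lit 222)) (XT.nd (nat_lit 78) (nat_lit 0) (nat_lit 0) (XT.lf (nat_lit 0) (nat_lit 3270084995) (nat_lit 304) (nat_lit 8514302408) (nat_lit 380) (nat_lit 11229116857) (nat_lit 118) (nat_lit 5) (nat_lit 122) (nat_lit 5) (nat_lit 123) (nat_lit 5) (nat_lit 507) (nat_lit 412) (nat_lit 221)) (XT.lf (nat_lit 0) (nat_lit 16808503442) (nat_lit 304) (nat_lit 431428101) (nat_lit 380) (nat_lit 6067917214) (nat_lit 118) (nat_lit 5) (nat_lit 122) (nat_lit 5) (nat_lit 123) (nat_lit 5) (nat_lit 508) (nat_lit 412) (nat_lit 220))))))))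
noncomputable def xc167 : XT := (XT.nd (nat_lit 53352) (nat_lit 0) (nat_lit 17556) (XT.nd (nat_lit 52416) (nat_lit 0) (nat_lit 29868) (XT.nd (nat_lit 51948) (nat_lit 0) (nat_lit 31236) (XT.nd (nat_lit 156) (nat_lit 608) (nat_lit 0) (XT.nd (nat_lit 78) (nat_lit 76) (nat_lit 0) (XT.lf (nat_lit 0) (nat_lit 7039824145) (nat_lit 304) (nat_lit 15854064323) (nat_lit 380) (nat_lit 712406404) (nat_lit 114) (nat_lit 5) (nat_lit 118) (nat_lit 5) (nat_lit 119) (nat_lit 5) (nat_lit 509) (nat_lit 412) (nat_lit 219)) (XT.lf (nat_lit 0) (nat_lit 4727560427) (nat_lit 380) (nat_lit 3017354863) (nat_lit 76) (nat_lit 16164385611) (nat_lit 113) (nat_lit 5) (nat_lit 118) (nat_lit 5) (nat_lit 114) (nat_lit 5) (nat_lit 510) (nat_lit 412) (nat_lit 218))) (XT.nd (nat_lit 78) (nat_lit 304) (nat_lit 0) (XT.lf (nat_lit 0) (nat_lit 10334679417) (nat_lit 380) (nat_lit 13290691859) (nat_lit 76) (nat_lit 591544478) (nat_lit 109) (nat_lit 5) (nat_lit 114) (nat_lit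 5) (nat_lit 110) (nat_lit 5) (nat_lit 511) (nat_lit 412) (nat_lit 217)) (XT.nd (nat_lit 51636) (nat_lit 0) (nat_lit 32680) (XT.lf (nat_lit 0) (nat_lit 604580131) (nat_lit 304) (nat_lit 15518021533) (nat_lit 380) (nat_lit 8406708731) (nat_lit 105) (nat_lit 5) (nat_lit 109) (nat_lit 5) (nat_lit 110) (nat_lit 5) (nat_lit 512) (nat_lit 412) (nat_lit 216)) (XT.lf (nat_lit 0) (nat_lit 1109146819) (nat_lit 0) (nat_lit 1109146819) (nat_lit 1444) (nat_lit 2046611167) (nat_lit 535) (nat_lit 5) (nat_lit 535) (nat_lit 3) (nat_lit 554) (nat_lit 3) (nat_lit 413) (nat_lit 413) (nat_lit 314))))) (XT.nd (nat_lit 234) (nat_lit 1444) (nat_lit 0) (XT.nd (nat_lit 78) (nat_lit 0) (nat_lit 0) (XT.lf (nat_lit 0) (nat_lit 5506362190) (nat_lit 1444) (nat_lit 2155770323) (nat_lit 1520) (nat_lit 932214000) (nat_lit 535) (nat_lit 5) (nat_lit 554) (nat_lit 3) (nat_lit 555) (nat_lit 5) (nat_lit 414) (nat_lit 413) (nat_lit 313)) (XT.nd (nat_lit 78) (nat_lit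 0) (nat_lit 0) (XT.lf (nat_lit 76) (nat_lit 2081705353) (nat_lit 0) (nat_lit 4517384563) (nat_lit 1520) (nat_lit 2061059729) (nat_lit 536) (nat_lit 5) (nat_lit 535) (nat_lit 5) (nat_lit 555) (nat_lit 5) (nat_lit 415) (nat_lit 413) (nat_lit 312)) (XT.lf (nat_lit 76) (nat_lit 6419248518) (nat_lit 0) (nat_lit 1282673107) (nat_lit 1520) (nat_lit 1025588732) (nat_lit 536) (nat_lit 5) (nat_lit 535) (nat_lit 5) (nat_lit 555) (nat_lit 5) (nat_lit 416) (nat_lit 413) (nat_lit 311)))) (XT.nd (nat_lit 78) (nat_lit 0) (nat_lit 0) (XT.lf (nat_lit 0) (nat_lit 30948147) (nat_lit 1520) (nat_lit 6749568297) (nat_lit 1596) (nat_lit 2015688966) (nat_lit 516) (nat_lit 5) (nat_lit 536) (nat_lit 5) (nat_lit 537) (nat_lit 5) (nat_lit 417) (nat_lit 413) (nat_lit 310)) (XT.nd (nat_lit 78) (nat_lit 0) (nat_lit 0) (XT.lf (nat_lit 0) (nat_lit 1093595739) (nat_lit 1520) (nat_lit 2375910645) (nat_lit 1596) (nat_lit 5396664278) (nat_lit 516) (nat_lit 5) (nat_lit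 536) (nat_lit 5) (nat_lit 537) (nat_lit 5) (nat_lit 418) (nat_lit 413) (nat_lit 309)) (XT.lf (nat_lit 76) (nat_lit 2098546768) (nat_lit 0) (nat_lit 67685470) (nat_lit 1596) (nat_lit 6771534273) (nat_lit 517) (nat_lit 5) (nat_lit 516) (nat_lit 5) (nat_lit 537) (nat_lit 5) (nat_lit 419) (nat_lit 413) (nat_lit 308)))))) (XT.nd (nat_lit 468) (nat_lit 1444) (nat_lit 0) (XT.nd (nat_lit 234) (nat_lit 0) (nat_lit 76) (XT.nd (nat_lit 78) (nat_lit 0) (nat_lit 0) (XT.lf (nat_lit 0) (nat_lit 3274034536) (nat_lit 1520) (nat_lit 2352636742) (nat_lit 1596) (nat_lit 3383854629) (nat_lit 517) (nat_lit 5) (nat_lit 537) (nat_lit 5) (nat_lit 538) (nat_lit 5) (nat_lit 420) (nat_lit 413) (nat_lit 307)) (XT.nd (nat_lit 78) (nat_lit 0) (nat_lit 76) (XT.lf (nat_lit 76) (nat_lit 2238205690) (nat_lit 0) (nat_lit 2156820996) (nat_lit 1596) (nat_lit 4689898907) (nat_lit 518) (nat_lit 5) (nat_lit 517) (nat_lit 5) (nat_lit 538) (nat_lit 5) (nat_lit 421)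 (nat_lit 413) (nat_lit 306)) (XT.lf (nat_lit 0) (nat_lit 5539797020) (nat_lit 1520) (nat_lit 2231643324) (nat_lit 1596) (nat_lit 1389351427) (nat_lit 518) (nat_lit 5) (nat_lit 538) (nat_lit 5) (nat_lit 539) (nat_lit 5) (nat_lit 422) (nat_lit 413) (nat_lit 305)))) (XT.nd (nat_lit 78) (nat_lit 0) (nat_lit 0) (XT.lf (nat_lit 76) (nat_lit 2479438903) (nat_lit 0) (nat_lit 4235357294) (nat_lit 1596) (nat_lit 2523237960) (nat_lit 519) (nat_lit 5) (nat_lit 518) (nat_lit 5) (nat_lit 539) (nat_lit 5) (nat_lit 423) (nat_lit 413) (nat_lit 304)) (XT.nd (nat_lit 78) (nat_lit 0) (nat_lit 76) (XT.lf (nat_lit 76) (nat_lit 7300558296) (nat_lit 0) (nat_lit 605022462) (nat_lit 1596) (nat_lit 1411400368) (nat_lit 519) (nat_lit 5) (nat_lit 518) (nat_lit 5) (nat_lit 539) (nat_lit 5) (nat_lit 424) (nat_lit 413) (nat_lit 303)) (XT.lf (nat_lit 76) (nat_lit 2822846696) (nat_lit 0) (nat_lit 6313583204) (nat_lit 1596) (nat_lit 260757495) (nat_lit 520)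 (nat_lit 5) (nat_lit 519) (nat_lit 5) (nat_lit 540) (nat_lit 5) (nat_lit 425) (nat_lit 413) (nat_lit 302))))) (XT.nd (nat_lit 234) (nat_lit 0) (nat_lit 76) (XT.nd (nat_lit 78) (nat_lit 0) (nat_lit 76) (XT.lf (nat_lit 0) (nat_lit 896551149) (nat_lit 1596) (nat_lit 1717371783) (nat_lit 1672) (nat_lit 6865048930) (nat_lit 498) (nat_lit 5) (nat_lit 519) (nat_lit 5) (nat_lit 520) (nat_lit 5) (nat_lit 426) (nat_lit 413) (nat_lit 301)) (XT.nd (nat_lit 78) (nat_lit 0) (nat_lit 0) (XT.lf (nat_lit 0) (nat_lit 2080861310) (nat_lit 1596) (nat_lit 6306854055) (nat_lit 1672) (nat_lit 1174500274) (nat_lit 499) (nat_lit 5) (nat_lit 520) (nat_lit 5) (nat_lit 521) (nat_lit 5) (nat_lit 427) (nat_lit 413) (nat_lit 300)) (XT.lf (nat_lit 0) (nat_lit 3296571702) (nat_lit 1596) (nat_lit 1328394299) (nat_lit 1672) (nat_lit 5022008938) (nat_lit 499) (nat_lit 5) (nat_lit 520) (nat_lit 5) (nat_lit 521) (nat_lit 5) (nat_lit 428) (nat_lit 413) (nat_lit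 299)))) (XT.nd (nat_lit 78) (nat_lit 0) (nat_lit 76) (XT.lf (nat_lit 76) (nat_lit 3784621152) (nat_lit 0) (nat_lit 755765550) (nat_lit 1672) (nat_lit 5192971752) (nat_lit 500) (nat_lit 5) (nat_lit 499) (nat_lit 5) (nat_lit 521) (nat_lit 5) (nat_lit 429) (nat_lit 413) (nat_lit 298)) (XT.nd (nat_lit 78) (nat_lit 0) (nat_lit 0) (XT.lf (nat_lit 0) (nat_lit 5818337712) (nat_lit 1596) (nat_lit 839169290) (nat_lit 1672) (nat_lit 3163782183) (nat_lit 500) (nat_lit 5) (nat_lit 521) (nat_lit 5) (nat_lit 522) (nat_lit 5) (nat_lit 430) (nat_lit 413) (nat_lit 297)) (XT.lf (nat_lit 76) (nat_lit 4410721007) (nat_lit 0) (nat_lit 2724739264) (nat_lit 1672) (nat_lit 2775250654) (nat_lit 501) (nat_lit 5) (nat_lit 500) (nat_lit 5) (nat_lit 522) (nat_lit 5) (nat_lit 431) (nat_lit 413) (nat_lit 296))))))) (XT.nd (nat_lit 936) (nat_lit 6080) (nat_lit 0) (XT.nd (nat_lit 468) (nat_lit 4788) (nat_lit 0) (XT.nd (nat_lit 234) (nat_lit 0) (nat_lit 76)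 (XT.nd (nat_lit 78) (nat_lit 1672) (nat_lit 0) (XT.lf (nat_lit 0) (nat_lit 8473249064) (nat_lit 1596) (nat_lit 248262544) (nat_lit 1672) (nat_lit 1280527574) (nat_lit 501) (nat_lit 5) (nat_lit 522) (nat_lit 5) (nat_lit 523) (nat_lit 5) (nat_lit 432) (nat_lit 413) (nat_lit 295)) (XT.nd (nat_lit 78) (nat_lit 1672) (nat_lit 0) (XT.lf (nat_lit 76) (nat_lit 5143156164) (nat_lit 0) (nat_lit 4726762345) (nat_lit 1672) (nat_lit 224637463) (nat_lit 502) (nat_lit 5) (nat_lit 501) (nat_lit 5) (nat_lit 523) (nat_lit 5) (nat_lit 433) (nat_lit 413) (nat_lit 294)) (XT.lf (nat_lit 76) (nat_lit 440553501) (nat_lit 0) (nat_lit 635922645) (nat_lit 1748) (nat_lit 9112600116) (nat_lit 480) (nat_lit 5) (nat_lit 479) (nat_lit 5) (nat_lit 502) (nat_lit 5) (nat_lit 434) (nat_lit 413) (nat_lit 293)))) (XT.nd (nat_lit 78) (nat_lit 0) (nat_lit 0) (XT.lf (nat_lit 0) (nat_lit 2438162829) (nat_lit 1672) (nat_lit 4317253491) (nat_lit 1748) (nat_lit 3529293979)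 (nat_lit 480) (nat_lit 5) (nat_lit 502) (nat_lit 5) (nat_lit 503) (nat_lit 5) (nat_lit 435) (nat_lit 413) (nat_lit 292)) (XT.nd (nat_lit 78) (nat_lit 0) (nat_lit 76) (XT.lf (nat_lit 76) (nat_lit 1219498269) (nat_lit 0) (nat_lit 2601230368) (nat_lit 1748) (nat_lit 6561659596) (nat_lit 481) (nat_lit 5) (nat_lit 480) (nat_lit 5) (nat_lit 503) (nat_lit 5) (nat_lit 436) (nat_lit 413) (nat_lit 291)) (XT.lf (nat_lit 0) (nat_lit 5252535287) (nat_lit 1672) (nat_lit 3581965490) (nat_lit 76) (nat_lit 1647091204) (nat_lit 481) (nat_lit 5) (nat_lit 503) (nat_lit 5) (nat_lit 482) (nat_lit 5) (nat_lit 437) (nat_lit 413) (nat_lit 290))))) (XT.nd (nat_lit 234) (nat_lit 1520) (nat_lit 0) (XT.nd (nat_lit 78) (nat_lit 1748) (nat_lit 0) (XT.lf (nat_lit 0) (nat_lit 2106052784) (nat_lit 1672) (nat_lit 4619987011) (nat_lit 1748) (nat_lit 3856482740) (nat_lit 459) (nat_lit 5) (nat_lit 481) (nat_lit 5) (nat_lit 482) (nat_lit 5) (nat_lit 438) (nat_lit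 413) (nat_lit 289)) (XT.nd (nat_lit 78) (nat_lit 1748) (nat_lit 0) (XT.lf (nat_lit 0) (nat_lit 7941564804) (nat_lit 1672) (nat_lit 293901160) (nat_lit 1748) (nat_lit 2449880593) (nat_lit 459) (nat_lit 5) (nat_lit 481) (nat_lit 5) (nat_lit 482) (nat_lit 5) (nat_lit 439) (nat_lit 413) (nat_lit 288)) (XT.lf (nat_lit 0) (nat_lit 3102613248) (nat_lit 1748) (nat_lit 6702130107) (nat_lit 1824) (nat_lit 984894262) (nat_lit 436) (nat_lit 5) (nat_lit 459) (nat_lit 5) (nat_lit 460) (nat_lit 5) (nat_lit 440) (nat_lit 413) (nat_lit 287)))) (XT.nd (nat_lit 78) (nat_lit 1444) (nat_lit 0) (XT.lf (nat_lit 0) (nat_lit 506094125) (nat_lit 1824) (nat_lit 1812922618) (nat_lit 76) (nat_lit 8576867612) (nat_lit 435) (nat_lit 5) (nat_lit 459) (nat_lit 5) (nat_lit 436) (nat_lit 5) (nat_lit 441) (nat_lit 413) (nat_lit 286)) (XT.nd (nat_lit 78) (nat_lit 0) (nat_lit 0) (XT.lf (nat_lit 0) (nat_lit 2038524173) (nat_lit 1520) (nat_lit 6805472017) (nat_lit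 76) (nat_lit 2159637034) (nat_lit 416) (nat_lit 5) (nat_lit 436) (nat_lit 5) (nat_lit 417) (nat_lit 5) (nat_lit 442) (nat_lit 413) (nat_lit 285)) (XT.lf (nat_lit 0) (nat_lit 3612690507) (nat_lit 1520) (nat_lit 789675014) (nat_lit 76) (nat_lit 6710953317) (nat_lit 416) (nat_lit 5) (nat_lit 436) (nat_lit 5) (nat_lit 417) (nat_lit 5) (nat_lit 443) (nat_lit 413) (nat_lit 284)))))) (XT.nd (nat_lit 468) (nat_lit 2432) (nat_lit 0) (XT.nd (nat_lit 234) (nat_lit 1824) (nat_lit 0) (XT.nd (nat_lit 78) (nat_lit 912) (nat_lit 0) (XT.lf (nat_lit 0) (nat_lit 5238298774) (nat_lit 988) (nat_lit 5823294130) (nat_lit 76) (nat_lit 163209542) (nat_lit 404) (nat_lit 5) (nat_lit 417) (nat_lit 5) (nat_lit 405) (nat_lit 5) (nat_lit 444) (nat_lit 413) (nat_lit 283)) (XT.nd (nat_lit 78) (nat_lit 0) (nat_lit 0) (XT.lf (nat_lit 0) (nat_lit 349275229) (nat_lit 912) (nat_lit 6567939922) (nat_lit 988) (nat_lit 4420888039) (nat_lit 392) (nat_lit 5) (nat_lit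 404) (nat_lit 5) (nat_lit 405) (nat_lit 5) (nat_lit 445) (nat_lit 413) (nat_lit 282)) (XT.lf (nat_lit 0) (nat_lit 6709404885) (nat_lit 912) (nat_lit 1943638279) (nat_lit 988) (nat_lit 2800163438) (nat_lit 392) (nat_lit 5) (nat_lit 404) (nat_lit 5) (nat_lit 405) (nat_lit 5) (nat_lit 446) (nat_lit 413) (nat_lit 281)))) (XT.nd (nat_lit 78) (nat_lit 912) (nat_lit 0) (XT.lf (nat_lit 0) (nat_lit 1614439146) (nat_lit 912) (nat_lit 8822206206) (nat_lit 988) (nat_lit 1133708830) (nat_lit 380) (nat_lit 5) (nat_lit 392) (nat_lit 5) (nat_lit 393) (nat_lit 5) (nat_lit 447) (nat_lit 413) (nat_lit 280)) (XT.nd (nat_lit 78) (nat_lit 836) (nat_lit 0) (XT.lf (nat_lit 0) (nat_lit 588239944) (nat_lit 988) (nat_lit 3556781190) (nat_lit 76) (nat_lit 7544161418) (nat_lit 379) (nat_lit 5) (nat_lit 392) (nat_lit 5) (nat_lit 380) (nat_lit 5) (nat_lit 448) (nat_lit 413) (nat_lit 279)) (XT.lf (nat_lit 0) (nat_lit 2338074060) (nat_lit 912) (nat_lit 8827059329)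 (nat_lit 76) (nat_lit 644934753) (nat_lit 368) (nat_lit 5) (nat_lit 380) (nat_lit 5) (nat_lit 369) (nat_lit 5) (nat_lit 449) (nat_lit 413) (nat_lit 278))))) (XT.nd (nat_lit 234) (nat_lit 1596) (nat_lit 0) (XT.nd (nat_lit 78) (nat_lit 836) (nat_lit 0) (XT.lf (nat_lit 0) (nat_lit 4159556694) (nat_lit 912) (nat_lit 2273569678) (nat_lit 76) (nat_lit 5499515042) (nat_lit 368) (nat_lit 5) (nat_lit 380) (nat_lit 5) (nat_lit 369) (nat_lit 5) (nat_lit 450) (nat_lit 413) (nat_lit 277)) (XT.nd (nat_lit 78) (nat_lit 0) (nat_lit 0) (XT.lf (nat_lit 0) (nat_lit 4454832582) (nat_lit 836) (nat_lit 1577026228) (nat_lit 912) (nat_lit 6025522491) (nat_lit 357) (nat_lit 5) (nat_lit 368) (nat_lit 5) (nat_lit 369) (nat_lit 5) (nat_lit 451) (nat_lit 413) (nat_lit 276)) (XT.lf (nat_lit 0) (nat_lit 7964541443) (nat_lit 912) (nat_lit 872486654) (nat_lit 76) (nat_lit 3347132088) (nat_lit 357) (nat_lit 5) (nat_lit 369) (nat_lit 5) (nat_lit 358) (nat_lit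 5) (nat_lit 452) (nat_lit 413) (nat_lit 275)))) (XT.nd (nat_lit 78) (nat_lit 836) (nat_lit 0) (XT.lf (nat_lit 0) (nat_lit 6046548075) (nat_lit 760) (nat_lit 3924969074) (nat_lit 836) (nat_lit 2341247541) (nat_lit 347) (nat_lit 5) (nat_lit 357) (nat_lit 5) (nat_lit 358) (nat_lit 5) (nat_lit 453) (nat_lit 413) (nat_lit 274)) (XT.nd (nat_lit 78) (nat_lit 76) (nat_lit 0) (XT.lf (nat_lit 0) (nat_lit 658853591) (nat_lit 760) (nat_lit 11363113127) (nat_lit 836) (nat_lit 421910659) (nat_lit 337) (nat_lit 5) (nat_lit 347) (nat_lit 5) (nat_lit 348) (nat_lit 5) (nat_lit 454) (nat_lit 413) (nat_lit 273)) (XT.lf (nat_lit 0) (nat_lit 1570192247) (nat_lit 836) (nat_lit 4820406651) (nat_lit 76) (nat_lit 6185726221) (nat_lit 336) (nat_lit 5) (nat_lit 347) (nat_lit 5) (nat_lit 337) (nat_lit 5) (nat_lit 455) (nat_lit 413) (nat_lit 272))))))))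
noncomputable def xc168 : XT := (XT.nd (nat_lit 1794) (nat_lit 6384) (nat_lit 0) (XT.nd (nat_lit 858) (nat_lit 4332) (nat_lit 0) (XT.nd (nat_lit 390) (nat_lit 2128) (nat_lit 0) (XT.nd (nat_lit 156) (nat_lit 1444) (nat_lit 0) (XT.nd (nat_lit 78) (nat_lit 0) (nat_lit 0) (XT.lf (nat_lit 0) (nat_lit 2296357641) (nat_lit 760) (nat_lit 1301516013) (nat_lit 836) (nat_lit 9113467287) (nat_lit 326) (nat_lit 5) (nat_lit 336) (nat_lit 5) (nat_lit 337) (nat_lit 5) (nat_lit 456) (nat_lit 413) (nat_lit 271)) (XT.lf (nat_lit 0) (nat_lit 5710559034) (nat_lit 836) (nat_lit 3267713620) (nat_lit 76) (nat_lit 3869897982) (nat_lit 326) (nat_lit 5) (nat_lit 337) (nat_lit 5) (nat_lit 327) (nat_lit 5) (nat_lit 457) (nat_lit 413) (nat_lit 270))) (XT.nd (nat_lit 78) (nat_lit 684) (nat_lit 0) (XT.lf (nat_lit 0) (nat_lit 4052684673) (nat_lit 760) (nat_lit 3834643934) (nat_lit 836) (nat_lit 5099974225) (nat_lit 316) (nat_lit 5) (nat_lit 326) (nat_lit 5)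 (nat_lit 327) (nat_lit 5) (nat_lit 458) (nat_lit 413) (nat_lit 269)) (XT.nd (nat_lit 78) (nat_lit 684) (nat_lit 0) (XT.lf (nat_lit 0) (nat_lit 10125927829) (nat_lit 836) (nat_lit 1588812802) (nat_lit 76) (nat_lit 1414113622) (nat_lit 316) (nat_lit 5) (nat_lit 327) (nat_lit 5) (nat_lit 317) (nat_lit 5) (nat_lit 459) (nat_lit 413) (nat_lit 268)) (XT.lf (nat_lit 0) (nat_lit 5942224056) (nat_lit 684) (nat_lit 6518358913) (nat_lit 760) (nat_lit 811630470) (nat_lit 307) (nat_lit 5) (nat_lit 316) (nat_lit 5) (nat_lit 317) (nat_lit 5) (nat_lit 460) (nat_lit 413) (nat_lit 267))))) (XT.nd (nat_lit 234) (nat_lit 684) (nat_lit 0) (XT.nd (nat_lit 78) (nat_lit 684) (nat_lit 0) (XT.lf (nat_lit 0) (nat_lit 206285042) (nat_lit 684) (nat_lit 1197988587) (nat_lit 760) (nat_lit 12013994628) (nat_lit 297) (nat_lit 5) (nat_lit 306) (nat_lit 5) (nat_lit 307) (nat_lit 5) (nat_lit 461) (nat_lit 413) (nat_lit 266)) (XT.nd (nat_lit 78) (nat_lit 684)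 (nat_lit 0) (XT.lf (nat_lit 0) (nat_lit 3718131958) (nat_lit 760) (nat_lit 5621218024) (nat_lit 76) (nat_lit 4226499092) (nat_lit 297) (nat_lit 5) (nat_lit 307) (nat_lit 5) (nat_lit 298) (nat_lit 5) (nat_lit 462) (nat_lit 413) (nat_lit 265)) (XT.lf (nat_lit 0) (nat_lit 2127164545) (nat_lit 684) (nat_lit 3960615980) (nat_lit 760) (nat_lit 7628412953) (nat_lit 288) (nat_lit 5) (nat_lit 297) (nat_lit 5) (nat_lit 298) (nat_lit 5) (nat_lit 463) (nat_lit 413) (nat_lit 264)))) (XT.nd (nat_lit 78) (nat_lit 684) (nat_lit 0) (XT.lf (nat_lit 0) (nat_lit 8540603021) (nat_lit 760) (nat_lit 3786534261) (nat_lit 76) (nat_lit 1541694060) (nat_lit 288) (nat_lit 5) (nat_lit 298) (nat_lit 5) (nat_lit 289) (nat_lit 5) (nat_lit 464) (nat_lit 413) (nat_lit 263)) (XT.nd (nat_lit 78) (nat_lit 0) (nat_lit 0) (XT.lf (nat_lit 0) (nat_lit 4186670234) (nat_lit 684) (nat_lit 6897364797) (nat_lit 760) (nat_lit 2939658017) (nat_lit 279) (nat_lit 5) (nat_lit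 288) (nat_lit 5) (nat_lit 289) (nat_lit 5) (nat_lit 465) (nat_lit 413) (nat_lit 262)) (XT.lf (nat_lit 0) (nat_lit 12356738765) (nat_lit 684) (nat_lit 1335289834) (nat_lit 760) (nat_lit 489351635) (nat_lit 279) (nat_lit 5) (nat_lit 288) (nat_lit 5) (nat_lit 289) (nat_lit 5) (nat_lit 466) (nat_lit 413) (nat_lit 261)))))) (XT.nd (nat_lit 468) (nat_lit 1748) (nat_lit 0) (XT.nd (nat_lit 234) (nat_lit 1292) (nat_lit 0) (XT.nd (nat_lit 78) (nat_lit 608) (nat_lit 0) (XT.lf (nat_lit 0) (nat_lit 2042133751) (nat_lit 684) (nat_lit 7964742554) (nat_lit 76) (nat_lit 4333915203) (nat_lit 270) (nat_lit 5) (nat_lit 279) (nat_lit 5) (nat_lit 271) (nat_lit 5) (nat_lit 467) (nat_lit 413) (nat_lit 260)) (XT.nd (nat_lit 78) (nat_lit 0) (nat_lit 0) (XT.lf (nat_lit 0) (nat_lit 239380324) (nat_lit 608) (nat_lit 4389602538) (nat_lit 684) (nat_lit 9874119710) (nat_lit 262) (nat_lit 5) (nat_lit 270) (nat_lit 5) (nat_lit 271) (nat_lit 5) (nat_lit 468)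 (nat_lit 413) (nat_lit 259)) (XT.lf (nat_lit 0) (nat_lit 7318746543) (nat_lit 684) (nat_lit 5975150203) (nat_lit 76) (nat_lit 1373741502) (nat_lit 262) (nat_lit 5) (nat_lit 271) (nat_lit 5) (nat_lit 263) (nat_lit 5) (nat_lit 469) (nat_lit 413) (nat_lit 258)))) (XT.nd (nat_lit 78) (nat_lit 684) (nat_lit 0) (XT.lf (nat_lit 0) (nat_lit 2468721473) (nat_lit 608) (nat_lit 7627580600) (nat_lit 684) (nat_lit 4738484539) (nat_lit 254) (nat_lit 5) (nat_lit 262) (nat_lit 5) (nat_lit 263) (nat_lit 5) (nat_lit 470) (nat_lit 413) (nat_lit 257)) (XT.nd (nat_lit 78) (nat_lit 684) (nat_lit 0) (XT.lf (nat_lit 0) (nat_lit 11148776650) (nat_lit 608) (nat_lit 1809755064) (nat_lit 684) (nat_lit 2046165638) (nat_lit 254) (nat_lit 5) (nat_lit 262) (nat_lit 5) (nat_lit 263) (nat_lit 5) (nat_lit 471) (nat_lit 413) (nat_lit 256)) (XT.lf (nat_lit 0) (nat_lit 738608492) (nat_lit 684) (nat_lit 10334312521) (nat_lit 76) (nat_lit 4104040404) (nat_lit 245)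 (nat_lit 5) (nat_lit 254) (nat_lit 5) (nat_lit 246) (nat_lit 5) (nat_lit 472) (nat_lit 413) (nat_lit 255))))) (XT.nd (nat_lit 234) (nat_lit 608) (nat_lit 0) (XT.nd (nat_lit 78) (nat_lit 1140) (nat_lit 0) (XT.lf (nat_lit 0) (nat_lit 3579012906) (nat_lit 684) (nat_lit 1624077259) (nat_lit 76) (nat_lit 10148765195) (nat_lit 245) (nat_lit 5) (nat_lit 254) (nat_lit 5) (nat_lit 246) (nat_lit 5) (nat_lit 473) (nat_lit 413) (nat_lit 254)) (XT.nd (nat_lit 78) (nat_lit 608) (nat_lit 0) (XT.lf (nat_lit 0) (nat_lit 6518776738) (nat_lit 608) (nat_lit 8191629332) (nat_lit 76) (nat_lit 818991814) (nat_lit 238) (nat_lit 5) (nat_lit 246) (nat_lit 5) (nat_lit 239) (nat_lit 5) (nat_lit 474) (nat_lit 413) (nat_lit 253)) (XT.lf (nat_lit 0) (nat_lit 752422295) (nat_lit 608) (nat_lit 8804813500) (nat_lit 684) (nat_lit 6152459156) (nat_lit 230) (nat_lit 5) (nat_lit 238) (nat_lit 5) (nat_lit 239) (nat_lit 5) (nat_lit 475) (nat_lit 413) (nat_lit 252))))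 (XT.nd (nat_lit 78) (nat_lit 608) (nat_lit 0) (XT.lf (nat_lit 0) (nat_lit 9972974604) (nat_lit 608) (nat_lit 2728163213) (nat_lit 684) (nat_lit 3191568326) (nat_lit 230) (nat_lit 5) (nat_lit 238) (nat_lit 5) (nat_lit 239) (nat_lit 5) (nat_lit 476) (nat_lit 413) (nat_lit 251)) (XT.nd (nat_lit 78) (nat_lit 76) (nat_lit 0) (XT.lf (nat_lit 0) (nat_lit 3306049623) (nat_lit 532) (nat_lit 12635748639) (nat_lit 608) (nat_lit 136903316) (nat_lit 223) (nat_lit 5) (nat_lit 230) (nat_lit 5) (nat_lit 231) (nat_lit 5) (nat_lit 477) (nat_lit 413) (nat_lit 250)) (XT.lf (nat_lit 0) (nat_lit 2987771777) (nat_lit 608) (nat_lit 3522091746) (nat_lit 76) (nat_lit 9757208448) (nat_lit 222) (nat_lit 5) (nat_lit 230) (nat_lit 5) (nat_lit 223) (nat_lit 5) (nat_lit 478) (nat_lit 413) (nat_lit 249))))))) (XT.nd (nat_lit 858) (nat_lit 2888) (nat_lit 0) (XT.nd (nat_lit 390) (nat_lit 1900) (nat_lit 0) (XT.nd (nat_lit 156) (nat_lit 1064) (nat_lit 0) (XT.nd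 (nat_lit 78) (nat_lit 0) (nat_lit 0) (XT.lf (nat_lit 0) (nat_lit 5977847927) (nat_lit 532) (nat_lit 224200734) (nat_lit 608) (nat_lit 10256565718) (nat_lit 215) (nat_lit 5) (nat_lit 222) (nat_lit 5) (nat_lit 223) (nat_lit 5) (nat_lit 479) (nat_lit 413) (nat_lit 248)) (XT.lf (nat_lit 0) (nat_lit 9534789146) (nat_lit 608) (nat_lit 991528225) (nat_lit 76) (nat_lit 6126588204) (nat_lit 215) (nat_lit 5) (nat_lit 223) (nat_lit 5) (nat_lit 216) (nat_lit 5) (nat_lit 480) (nat_lit 413) (nat_lit 247))) (XT.nd (nat_lit 78) (nat_lit 608) (nat_lit 0) (XT.lf (nat_lit 0) (nat_lit 8788314635) (nat_lit 456) (nat_lit 4194821209) (nat_lit 532) (nat_lit 3866969197) (nat_lit 209) (nat_lit 5) (nat_lit 215) (nat_lit 5) (nat_lit 216) (nat_lit 5) (nat_lit 481) (nat_lit 413) (nat_lit 246)) (XT.nd (nat_lit 78) (nat_lit 76) (nat_lit 0) (XT.lf (nat_lit 0) (nat_lit 1720870233) (nat_lit 532) (nat_lit 14802634530) (nat_lit 608) (nat_lit 527284073) (nat_lit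 202) (nat_lit 5) (nat_lit 209) (nat_lit 5) (nat_lit 210) (nat_lit 5) (nat_lit 482) (nat_lit 413) (nat_lit 245)) (XT.lf (nat_lit 0) (nat_lit 2914199305) (nat_lit 608) (nat_lit 5505853916) (nat_lit 76) (nat_lit 8833605287) (nat_lit 201) (nat_lit 5) (nat_lit 209) (nat_lit 5) (nat_lit 202) (nat_lit 5) (nat_lit 483) (nat_lit 413) (nat_lit 244))))) (XT.nd (nat_lit 234) (nat_lit 988) (nat_lit 0) (XT.nd (nat_lit 78) (nat_lit 456) (nat_lit 0) (XT.lf (nat_lit 0) (nat_lit 4558156474) (nat_lit 456) (nat_lit 1879610745) (nat_lit 532) (nat_lit 11022343704) (nat_lit 195) (nat_lit 5) (nat_lit 201) (nat_lit 5) (nat_lit 202) (nat_lit 5) (nat_lit 484) (nat_lit 413) (nat_lit 243)) (XT.nd (nat_lit 78) (nat_lit 456) (nat_lit 0) (XT.lf (nat_lit 0) (nat_lit 10090899176) (nat_lit 532) (nat_lit 2816130569) (nat_lit 76) (nat_lit 4762482122) (nat_lit 195) (nat_lit 5) (nat_lit 202) (nat_lit 5) (nat_lit 196) (nat_lit 5) (nat_lit 485) (nat_lit 413) (nat_lit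 242)) (XT.lf (nat_lit 0) (nat_lit 7545270291) (nat_lit 456) (nat_lit 6324231028) (nat_lit 532) (nat_lit 4012552668) (nat_lit 189) (nat_lit 5) (nat_lit 195) (nat_lit 5) (nat_lit 196) (nat_lit 5) (nat_lit 486) (nat_lit 413) (nat_lit 241)))) (XT.nd (nat_lit 78) (nat_lit 532) (nat_lit 0) (XT.lf (nat_lit 0) (nat_lit 38730306) (nat_lit 456) (nat_lit 17697795889) (nat_lit 532) (nat_lit 362065025) (nat_lit 183) (nat_lit 5) (nat_lit 189) (nat_lit 5) (nat_lit 190) (nat_lit 5) (nat_lit 487) (nat_lit 413) (nat_lit 240)) (XT.nd (nat_lit 78) (nat_lit 456) (nat_lit 0) (XT.lf (nat_lit 0) (nat_lit 3420129934) (nat_lit 532) (nat_lit 7633124419) (nat_lit 76) (nat_lit 7263713916) (nat_lit 182) (nat_lit 5) (nat_lit 189) (nat_lit 5) (nat_lit 183) (nat_lit 5) (nat_lit 488) (nat_lit 413) (nat_lit 239)) (XT.lf (nat_lit 0) (nat_lit 3026939454) (nat_lit 456) (nat_lit 4257090089) (nat_lit 532) (nat_lit 11255418485) (nat_lit 176) (nat_lit 5) (nat_lit 182)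 (nat_lit 5) (nat_lit 183) (nat_lit 5) (nat_lit 489) (nat_lit 413) (nat_lit 238)))))) (XT.nd (nat_lit 468) (nat_lit 1596) (nat_lit 0) (XT.nd (nat_lit 234) (nat_lit 836) (nat_lit 0) (XT.nd (nat_lit 78) (nat_lit 456) (nat_lit 0) (XT.lf (nat_lit 0) (nat_lit 11285454271) (nat_lit 532) (nat_lit 4791962405) (nat_lit 76) (nat_lit 2687756947) (nat_lit 176) (nat_lit 5) (nat_lit 183) (nat_lit 5) (nat_lit 177) (nat_lit 5) (nat_lit 490) (nat_lit 413) (nat_lit 237)) (XT.nd (nat_lit 78) (nat_lit 76) (nat_lit 0) (XT.lf (nat_lit 0) (nat_lit 6183571267) (nat_lit 380) (nat_lit 9243164728) (nat_lit 456) (nat_lit 3567482328) (nat_lit 171) (nat_lit 5) (nat_lit 176) (nat_lit 5) (nat_lit 177) (nat_lit 5) (nat_lit 491) (nat_lit 413) (nat_lit 236)) (XT.lf (nat_lit 0) (nat_lit 441339738) (nat_lit 456) (nat_lit 1798950346) (nat_lit 76) (nat_lit 16987022261) (nat_lit 170) (nat_lit 5) (nat_lit 176) (nat_lit 5) (nat_lit 171) (nat_lit 5) (nat_lit 492) (nat_lit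 413) (nat_lit 235)))) (XT.nd (nat_lit 78) (nat_lit 380) (nat_lit 0) (XT.lf (nat_lit 0) (nat_lit 4568495390) (nat_lit 532) (nat_lit 9973779898) (nat_lit 76) (nat_lit 4920603919) (nat_lit 164) (nat_lit 5) (nat_lit 171) (nat_lit 5) (nat_lit 165) (nat_lit 5) (nat_lit 493) (nat_lit 413) (nat_lit 234)) (XT.nd (nat_lit 78) (nat_lit 0) (nat_lit 0) (XT.lf (nat_lit 0) (nat_lit 1314522175) (nat_lit 380) (nat_lit 7490939848) (nat_lit 456) (nat_lit 10897151098) (nat_lit 159) (nat_lit 5) (nat_lit 164) (nat_lit 5) (nat_lit 165) (nat_lit 5) (nat_lit 494) (nat_lit 413) (nat_lit 233)) (XT.lf (nat_lit 0) (nat_lit 12951686687) (nat_lit 380) (nat_lit 234238822) (nat_lit 456) (nat_lit 6760042108) (nat_lit 159) (nat_lit 5) (nat_lit 164) (nat_lit 5) (nat_lit 165) (nat_lit 5) (nat_lit 495) (nat_lit 413) (nat_lit 232))))) (XT.nd (nat_lit 234) (nat_lit 760) (nat_lit 0) (XT.nd (nat_lit 78) (nat_lit 456) (nat_lit 0) (XT.lf (nat_lit 0) (nat_lit 4629586563)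 (nat_lit 380) (nat_lit 13092970266) (nat_lit 456) (nat_lit 2470262233) (nat_lit 154) (nat_lit 5) (nat_lit 159) (nat_lit 5) (nat_lit 160) (nat_lit 5) (nat_lit 496) (nat_lit 413) (nat_lit 231)) (XT.nd (nat_lit 78) (nat_lit 380) (nat_lit 0) (XT.lf (nat_lit 0) (nat_lit 1921112021) (nat_lit 456) (nat_lit 3889189034) (nat_lit 76) (nat_lit 14633244315) (nat_lit 153) (nat_lit 5) (nat_lit 159) (nat_lit 5) (nat_lit 154) (nat_lit 5) (nat_lit 497) (nat_lit 413) (nat_lit 230)) (XT.lf (nat_lit 0) (nat_lit 6422918005) (nat_lit 456) (nat_lit 12612633029) (nat_lit 76) (nat_lit 1662295952) (nat_lit 148) (nat_lit 5) (nat_lit 154) (nat_lit 5) (nat_lit 149) (nat_lit 5) (nat_lit 498) (nat_lit 413) (nat_lit 229)))) (XT.nd (nat_lit 78) (nat_lit 760) (nat_lit 0) (XT.lf (nat_lit 0) (nat_lit 11071709589) (nat_lit 456) (nat_lit 655386064) (nat_lit 76) (nat_lit 9229000947) (nat_lit 148) (nat_lit 5) (nat_lit 154) (nat_lit 5) (nat_lit 149) (nat_lit 5) (nat_lit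 499) (nat_lit 413) (nat_lit 228)) (XT.nd (nat_lit 78) (nat_lit 380) (nat_lit 0) (XT.lf (nat_lit 0) (nat_lit 11682611930) (nat_lit 380) (nat_lit 4199068617) (nat_lit 456) (nat_lit 5336467521) (nat_lit 143) (nat_lit 5) (nat_lit 148) (nat_lit 5) (nat_lit 149) (nat_lit 5) (nat_lit 500) (nat_lit 413) (nat_lit 227)) (XT.lf (nat_lit 0) (nat_lit 2793251035) (nat_lit 380) (nat_lit 18032155570) (nat_lit 456) (nat_lit 659283763) (nat_lit 138) (nat_lit 5) (nat_lit 143) (nat_lit 5) (nat_lit 144) (nat_lit 5) (nat_lit 501) (nat_lit 413) (nat_lit 226))))))))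
noncomputable def xc169 : XT := (XT.nd (nat_lit 53430) (nat_lit 0) (nat_lit 20520) (XT.nd (nat_lit 52494) (nat_lit 0) (nat_lit 29488) (XT.nd (nat_lit 390) (nat_lit 988) (nat_lit 0) (XT.nd (nat_lit 156) (nat_lit 760) (nat_lit 0) (XT.nd (nat_lit 78) (nat_lit 380) (nat_lit 0) (XT.lf (nat_lit 0) (nat_lit 4142166604) (nat_lit 456) (nat_lit 6324027988) (nat_lit 76) (nat_lit 11288143013) (nat_lit 137) (nat_lit 5) (nat_lit 143) (nat_lit 5) (nat_lit 138) (nat_lit 5) (nat_lit 502) (nat_lit 413) (nat_lit 225)) (XT.lf (nat_lit 0) (nat_lit 6358296342) (nat_lit 380) (nat_lit 2706385521) (nat_lit 456) (nat_lit 12963932357) (nat_lit 132) (nat_lit 5) (nat_lit 137) (nat_lit 5) (nat_lit 138) (nat_lit 5) (nat_lit 503) (nat_lit 413) (nat_lit 224))) (XT.nd (nat_lit 78) (nat_lit 760) (nat_lit 0) (XT.lf (nat_lit 0) (nat_lit 14154802558) (nat_lit 456) (nat_lit 2973141175) (nat_lit 76) (nat_lit 5179050377) (nat_lit 132) (nat_lit 5) (nat_lit 138) (nat_lit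 5) (nat_lit 133) (nat_lit 5) (nat_lit 504) (nat_lit 413) (nat_lit 223)) (XT.nd (nat_lit 78) (nat_lit 456) (nat_lit 0) (XT.lf (nat_lit 0) (nat_lit 10080989852) (nat_lit 304) (nat_lit 9341874820) (nat_lit 380) (nat_lit 3166554976) (nat_lit 128) (nat_lit 5) (nat_lit 132) (nat_lit 5) (nat_lit 133) (nat_lit 5) (nat_lit 505) (nat_lit 413) (nat_lit 222)) (XT.lf (nat_lit 0) (nat_lit 542634474) (nat_lit 380) (nat_lit 1367385453) (nat_lit 456) (nat_lit 20966897586) (nat_lit 122) (nat_lit 5) (nat_lit 127) (nat_lit 5) (nat_lit 128) (nat_lit 5) (nat_lit 506) (nat_lit 413) (nat_lit 221))))) (XT.nd (nat_lit 234) (nat_lit 684) (nat_lit 0) (XT.nd (nat_lit 78) (nat_lit 304) (nat_lit 0) (XT.lf (nat_lit 0) (nat_lit 7167019438) (nat_lit 456) (nat_lit 9221016612) (nat_lit 76) (nat_lit 6779285583) (nat_lit 122) (nat_lit 5) (nat_lit 128) (nat_lit 5) (nat_lit 123) (nat_lit 5) (nat_lit 507) (nat_lit 413) (nat_lit 220)) (XT.nd (nat_lit 78) (nat_lit 0)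 (nat_lit 0) (XT.lf (nat_lit 0) (nat_lit 4189279758) (nat_lit 304) (nat_lit 8369101356) (nat_lit 380) (nat_lit 10904569044) (nat_lit 118) (nat_lit 5) (nat_lit 122) (nat_lit 5) (nat_lit 123) (nat_lit 5) (nat_lit 508) (nat_lit 413) (nat_lit 219)) (XT.lf (nat_lit 0) (nat_lit 17981725534) (nat_lit 304) (nat_lit 130755585) (nat_lit 380) (nat_lit 5650912666) (nat_lit 118) (nat_lit 5) (nat_lit 122) (nat_lit 5) (nat_lit 123) (nat_lit 5) (nat_lit 509) (nat_lit 413) (nat_lit 218)))) (XT.nd (nat_lit 78) (nat_lit 380) (nat_lit 0) (XT.lf (nat_lit 0) (nat_lit 8020712885) (nat_lit 304) (nat_lit 15855879487) (nat_lit 380) (nat_lit 191276063) (nat_lit 114) (nat_lit 5) (nat_lit 118) (nat_lit 5) (nat_lit 119) (nat_lit 5) (nat_lit 510) (nat_lit 413) (nat_lit 217)) (XT.nd (nat_lit 78) (nat_lit 304) (nat_lit 0) (XT.lf (nat_lit 0) (nat_lit 5340108581) (nat_lit 380) (nat_lit 2247144549) (nat_lit 76) (nat_lit 16789820205) (nat_lit 113) (nat_lit 5) (nat_lit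 118) (nat_lit 5) (nat_lit 114) (nat_lit 5) (nat_lit 511) (nat_lit 413) (nat_lit 216)) (XT.lf (nat_lit 0) (nat_lit 11056595236) (nat_lit 380) (nat_lit 12723120978) (nat_lit 76) (nat_lit 911180817) (nat_lit 109) (nat_lit 5) (nat_lit 114) (nat_lit 5) (nat_lit 110) (nat_lit 5) (nat_lit 512) (nat_lit 413) (nat_lit 215)))))) (XT.nd (nat_lit 468) (nat_lit 1368) (nat_lit 0) (XT.nd (nat_lit 234) (nat_lit 1520) (nat_lit 0) (XT.nd (nat_lit 78) (nat_lit 0) (nat_lit 0) (XT.lf (nat_lit 0) (nat_lit 1637658874) (nat_lit 0) (nat_lit 1637658874) (nat_lit 1444) (nat_lit 1054380618) (nat_lit 535) (nat_lit 5) (nat_lit 535) (nat_lit 3) (nat_lit 554) (nat_lit 3) (nat_lit 414) (nat_lit 414) (nat_lit 312)) (XT.nd (nat_lit 78) (nat_lit 0) (nat_lit 0) (XT.lf (nat_lit 0) (nat_lit 7566530667) (nat_lit 0) (nat_lit 29307507) (nat_lit 1444) (nat_lit 1130315413) (nat_lit 535) (nat_lit 5) (nat_lit 535) (nat_lit 3) (nat_lit 554) (nat_lit 3) (nat_lit 415) (nat_lit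 414) (nat_lit 311)) (XT.lf (nat_lit 76) (nat_lit 3155954045) (nat_lit 0) (nat_lit 5522173516) (nat_lit 1520) (nat_lit 115800743) (nat_lit 536) (nat_lit 5) (nat_lit 535) (nat_lit 5) (nat_lit 555) (nat_lit 5) (nat_lit 416) (nat_lit 414) (nat_lit 310)))) (XT.nd (nat_lit 78) (nat_lit 0) (nat_lit 76) (XT.lf (nat_lit 0) (nat_lit 889606677) (nat_lit 1520) (nat_lit 1309261203) (nat_lit 1596) (nat_lit 6664424323) (nat_lit 515) (nat_lit 5) (nat_lit 535) (nat_lit 5) (nat_lit 536) (nat_lit 5) (nat_lit 417) (nat_lit 414) (nat_lit 309)) (XT.nd (nat_lit 78) (nat_lit 0) (nat_lit 0) (XT.lf (nat_lit 0) (nat_lit 1916985769) (nat_lit 1520) (nat_lit 5809161692) (nat_lit 1596) (nat_lit 1207818338) (nat_lit 516) (nat_lit 5) (nat_lit 536) (nat_lit 5) (nat_lit 537) (nat_lit 5) (nat_lit 418) (nat_lit 414) (nat_lit 308)) (XT.lf (nat_lit 0) (nat_lit 2963917319) (nat_lit 1520) (nat_lit 1369117122) (nat_lit 1596) (nat_lit 4673044223) (nat_lit 516) (nat_lit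 5) (nat_lit 536) (nat_lit 5) (nat_lit 537) (nat_lit 5) (nat_lit 419) (nat_lit 414) (nat_lit 307))))) (XT.nd (nat_lit 234) (nat_lit 1444) (nat_lit 0) (XT.nd (nat_lit 78) (nat_lit 0) (nat_lit 76) (XT.lf (nat_lit 76) (nat_lit 3187893178) (nat_lit 0) (nat_lit 840669515) (nat_lit 1596) (nat_lit 5051141367) (nat_lit 517) (nat_lit 5) (nat_lit 516) (nat_lit 5) (nat_lit 537) (nat_lit 5) (nat_lit 420) (nat_lit 414) (nat_lit 306)) (XT.nd (nat_lit 78) (nat_lit 0) (nat_lit 0) (XT.lf (nat_lit 0) (nat_lit 5117942555) (nat_lit 1520) (nat_lit 1331843211) (nat_lit 1596) (nat_lit 2704953030) (nat_lit 517) (nat_lit 5) (nat_lit 537) (nat_lit 5) (nat_lit 538) (nat_lit 5) (nat_lit 421) (nat_lit 414) (nat_lit 305)) (XT.lf (nat_lit 76) (nat_lit 3343790766) (nat_lit 0) (nat_lit 2889580212) (nat_lit 1596) (nat_lit 2997823584) (nat_lit 518) (nat_lit 5) (nat_lit 517) (nat_lit 5) (nat_lit 538) (nat_lit 5) (nat_lit 422) (nat_lit 414) (nat_lit 304)))) (XT.nd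 (nat_lit 78) (nat_lit 1596) (nat_lit 0) (XT.lf (nat_lit 0) (nat_lit 7362324596) (nat_lit 1520) (nat_lit 1197131098) (nat_lit 1596) (nat_lit 749904859) (nat_lit 518) (nat_lit 5) (nat_lit 538) (nat_lit 5) (nat_lit 539) (nat_lit 5) (nat_lit 423) (nat_lit 414) (nat_lit 303)) (XT.nd (nat_lit 78) (nat_lit 1596) (nat_lit 0) (XT.lf (nat_lit 76) (nat_lit 3601073135) (nat_lit 0) (nat_lit 4933147686) (nat_lit 1596) (nat_lit 854467110) (nat_lit 519) (nat_lit 5) (nat_lit 518) (nat_lit 5) (nat_lit 539) (nat_lit 5) (nat_lit 424) (nat_lit 414) (nat_lit 302)) (XT.lf (nat_lit 0) (nat_lit 242671751) (nat_lit 1596) (nat_lit 973884711) (nat_lit 1672) (nat_lit 8253294211) (nat_lit 497) (nat_lit 5) (nat_lit 518) (nat_lit 5) (nat_lit 519) (nat_lit 5) (nat_lit 425) (nat_lit 414) (nat_lit 301))))))) (XT.nd (nat_lit 936) (nat_lit 7600) (nat_lit 0) (XT.nd (nat_lit 468) (nat_lit 1444) (nat_lit 0) (XT.nd (nat_lit 234) (nat_lit 0) (nat_lit 76) (XT.nd (nat_lit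 78) (nat_lit 0) (nat_lit 0) (XT.lf (nat_lit 0) (nat_lit 1371533794) (nat_lit 1596) (nat_lit 5600799094) (nat_lit 1672) (nat_lit 2579771417) (nat_lit 498) (nat_lit 5) (nat_lit 519) (nat_lit 5) (nat_lit 520) (nat_lit 5) (nat_lit 426) (nat_lit 414) (nat_lit 300)) (XT.nd (nat_lit 78) (nat_lit 0) (nat_lit 76) (XT.lf (nat_lit 0) (nat_lit 2516460760) (nat_lit 1596) (nat_lit 670051034) (nat_lit 1672) (nat_lit 6449626391) (nat_lit 498) (nat_lit 5) (nat_lit 519) (nat_lit 5) (nat_lit 520) (nat_lit 5) (nat_lit 427) (nat_lit 414) (nat_lit 299)) (XT.lf (nat_lit 0) (nat_lit 3696756726) (nat_lit 1596) (nat_lit 5323256334) (nat_lit 1672) (nat_lit 701595109) (nat_lit 499) (nat_lit 5) (nat_lit 520) (nat_lit 5) (nat_lit 521) (nat_lit 5) (nat_lit 428) (nat_lit 414) (nat_lit 298)))) (XT.nd (nat_lit 78) (nat_lit 0) (nat_lit 0) (XT.lf (nat_lit 0) (nat_lit 4905913127) (nat_lit 1596) (nat_lit 266986889) (nat_lit 1672) (nat_lit 4635787186) (nat_lit 499)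 (nat_lit 5) (nat_lit 520) (nat_lit 5) (nat_lit 521) (nat_lit 5) (nat_lit 429) (nat_lit 414) (nat_lit 297)) (XT.nd (nat_lit 78) (nat_lit 0) (nat_lit 76) (XT.lf (nat_lit 76) (nat_lit 4941131138) (nat_lit 0) (nat_lit 1210227732) (nat_lit 1672) (nat_lit 3745911468) (nat_lit 500) (nat_lit 5) (nat_lit 499) (nat_lit 5) (nat_lit 521) (nat_lit 5) (nat_lit 430) (nat_lit 414) (nat_lit 296)) (XT.lf (nat_lit 76) (nat_lit 239765798) (nat_lit 0) (nat_lit 7184056075) (nat_lit 1672) (nat_lit 2563765652) (nat_lit 501) (nat_lit 5) (nat_lit 500) (nat_lit 5) (nat_lit 522) (nat_lit 5) (nat_lit 431) (nat_lit 414) (nat_lit 295))))) (XT.nd (nat_lit 234) (nat_lit 0) (nat_lit 0) (XT.nd (nat_lit 78) (nat_lit 1596) (nat_lit 0) (XT.lf (nat_lit 76) (nat_lit 5584321344) (nat_lit 0) (nat_lit 3159288010) (nat_lit 1672) (nat_lit 1335668663) (nat_lit 501) (nat_lit 5) (nat_lit 500) (nat_lit 5) (nat_lit 522) (nat_lit 5) (nat_lit 432) (nat_lit 414) (nat_lit 294))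 (XT.nd (nat_lit 78) (nat_lit 1672) (nat_lit 0) (XT.lf (nat_lit 76) (nat_lit 853555568) (nat_lit 0) (nat_lit 9228986909) (nat_lit 1672) (nat_lit 90409224) (nat_lit 502) (nat_lit 5) (nat_lit 501) (nat_lit 5) (nat_lit 523) (nat_lit 5) (nat_lit 433) (nat_lit 414) (nat_lit 293)) (XT.lf (nat_lit 0) (nat_lit 1196784743) (nat_lit 1672) (nat_lit 3941330593) (nat_lit 1748) (nat_lit 5129584495) (nat_lit 479) (nat_lit 5) (nat_lit 501) (nat_lit 5) (nat_lit 502) (nat_lit 5) (nat_lit 434) (nat_lit 414) (nat_lit 292)))) (XT.nd (nat_lit 78) (nat_lit 0) (nat_lit 76) (XT.lf (nat_lit 76) (nat_lit 1549687213) (nat_lit 0) (nat_lit 950472160) (nat_lit 1748) (nat_lit 7864342778) (nat_lit 480) (nat_lit 5) (nat_lit 479) (nat_lit 5) (nat_lit 502) (nat_lit 5) (nat_lit 435) (nat_lit 414) (nat_lit 291)) (XT.nd (nat_lit 78) (nat_lit 0) (nat_lit 0) (XT.lf (nat_lit 0) (nat_lit 3859665316) (nat_lit 1672) (nat_lit 3295129967) (nat_lit 1748) (nat_lit 3307848002)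 (nat_lit 480) (nat_lit 5) (nat_lit 502) (nat_lit 5) (nat_lit 503) (nat_lit 5) (nat_lit 436) (nat_lit 414) (nat_lit 290)) (XT.lf (nat_lit 76) (nat_lit 2345064272) (nat_lit 0) (nat_lit 2905051279) (nat_lit 1748) (nat_lit 5312560573) (nat_lit 481) (nat_lit 5) (nat_lit 480) (nat_lit 5) (nat_lit 503) (nat_lit 5) (nat_lit 437) (nat_lit 414) (nat_lit 289)))))) (XT.nd (nat_lit 468) (nat_lit 2812) (nat_lit 0) (XT.nd (nat_lit 234) (nat_lit 3268) (nat_lit 0) (XT.nd (nat_lit 78) (nat_lit 1672) (nat_lit 0) (XT.lf (nat_lit 0) (nat_lit 6682426691) (nat_lit 1672) (nat_lit 2545594271) (nat_lit 76) (nat_lit 1436411509) (nat_lit 481) (nat_lit 5) (nat_lit 503) (nat_lit 5) (nat_lit 482) (nat_lit 5) (nat_lit 438) (nat_lit 414) (nat_lit 288)) (XT.nd (nat_lit 78) (nat_lit 0) (nat_lit 0) (XT.lf (nat_lit 0) (nat_lit 3248894826) (nat_lit 1672) (nat_lit 4917675805) (nat_lit 1748) (nat_lit 2601193393) (nat_lit 459) (nat_lit 5) (nat_lit 481) (nat_lit 5)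 (nat_lit 482) (nat_lit 5) (nat_lit 439) (nat_lit 414) (nat_lit 287)) (XT.lf (nat_lit 0) (nat_lit 9179534322) (nat_lit 1672) (nat_lit 501042962) (nat_lit 1748) (nat_lit 1192585066) (nat_lit 459) (nat_lit 5) (nat_lit 481) (nat_lit 5) (nat_lit 482) (nat_lit 5) (nat_lit 440) (nat_lit 414) (nat_lit 286)))) (XT.nd (nat_lit 78) (nat_lit 1444) (nat_lit 0) (XT.lf (nat_lit 0) (nat_lit 278359931) (nat_lit 1824) (nat_lit 6718038039) (nat_lit 76) (nat_lit 3983495211) (nat_lit 435) (nat_lit 5) (nat_lit 459) (nat_lit 5) (nat_lit 436) (nat_lit 5) (nat_lit 441) (nat_lit 414) (nat_lit 285)) (XT.nd (nat_lit 78) (nat_lit 1444) (nat_lit 0) (XT.lf (nat_lit 0) (nat_lit 1761095099) (nat_lit 1824) (nat_lit 754863089) (nat_lit 76) (nat_lit 8572679502) (nat_lit 435) (nat_lit 5) (nat_lit 459) (nat_lit 5) (nat_lit 436) (nat_lit 5) (nat_lit 442) (nat_lit 414) (nat_lit 284)) (XT.lf (nat_lit 0) (nat_lit 3305911018) (nat_lit 1520) (nat_lit 5828739206) (nat_lit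 76) (nat_lit 2064261798) (nat_lit 416) (nat_lit 5) (nat_lit 436) (nat_lit 5) (nat_lit 417) (nat_lit 5) (nat_lit 443) (nat_lit 414) (nat_lit 283))))) (XT.nd (nat_lit 234) (nat_lit 988) (nat_lit 0) (XT.nd (nat_lit 78) (nat_lit 912) (nat_lit 0) (XT.lf (nat_lit 0) (nat_lit 289348152) (nat_lit 912) (nat_lit 4600039864) (nat_lit 988) (nat_lit 6421851914) (nat_lit 404) (nat_lit 5) (nat_lit 416) (nat_lit 5) (nat_lit 417) (nat_lit 5) (nat_lit 444) (nat_lit 414) (nat_lit 282)) (XT.nd (nat_lit 78) (nat_lit 912) (nat_lit 0) (XT.lf (nat_lit 0) (nat_lit 6528423726) (nat_lit 988) (nat_lit 4831280732) (nat_lit 76) (nat_lit 65635473) (nat_lit 404) (nat_lit 5) (nat_lit 417) (nat_lit 5) (nat_lit 405) (nat_lit 5) (nat_lit 445) (nat_lit 414) (nat_lit 281)) (XT.lf (nat_lit 0) (nat_lit 1457447387) (nat_lit 912) (nat_lit 6767378346) (nat_lit 988) (nat_lit 3316407741) (nat_lit 392) (nat_lit 5) (nat_lit 404) (nat_lit 5) (nat_lit 405) (nat_lit 5) (nat_lit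 446) (nat_lit 414) (nat_lit 280)))) (XT.nd (nat_lit 78) (nat_lit 988) (nat_lit 0) (XT.lf (nat_lit 0) (nat_lit 7923187741) (nat_lit 912) (nat_lit 2049255775) (nat_lit 988) (nat_lit 1686658806) (nat_lit 392) (nat_lit 5) (nat_lit 404) (nat_lit 5) (nat_lit 405) (nat_lit 5) (nat_lit 447) (nat_lit 414) (nat_lit 279)) (XT.nd (nat_lit 78) (nat_lit 76) (nat_lit 0) (XT.lf (nat_lit 0) (nat_lit 2742666578) (nat_lit 912) (nat_lit 9033264632) (nat_lit 988) (nat_lit 2982113) (nat_lit 380) (nat_lit 5) (nat_lit 392) (nat_lit 5) (nat_lit 393) (nat_lit 5) (nat_lit 448) (nat_lit 414) (nat_lit 278)) (XT.lf (nat_lit 0) (nat_lit 1715959482) (nat_lit 988) (nat_lit 2538409021) (nat_lit 76) (nat_lit 7646050920) (nat_lit 379) (nat_lit 5) (nat_lit 392) (nat_lit 5) (nat_lit 380) (nat_lit 5) (nat_lit 449) (nat_lit 414) (nat_lit 277))))))))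
noncomputable def xc170 : XT := (XT.nd (nat_lit 1794) (nat_lit 7220) (nat_lit 0) (XT.nd (nat_lit 858) (nat_lit 4712) (nat_lit 0) (XT.nd (nat_lit 390) (nat_lit 2356) (nat_lit 0) (XT.nd (nat_lit 156) (nat_lit 1596) (nat_lit 0) (XT.nd (nat_lit 78) (nat_lit 0) (nat_lit 0) (XT.lf (nat_lit 0) (nat_lit 3485814278) (nat_lit 912) (nat_lit 7898893499) (nat_lit 76) (nat_lit 639318932) (nat_lit 368) (nat_lit 5) (nat_lit 380) (nat_lit 5) (nat_lit 369) (nat_lit 5) (nat_lit 450) (nat_lit 414) (nat_lit 276)) (XT.lf (nat_lit 0) (nat_lit 5322138746) (nat_lit 912) (nat_lit 1235994977) (nat_lit 76) (nat_lit 5591353857) (nat_lit 368) (nat_lit 5) (nat_lit 380) (nat_lit 5) (nat_lit 369) (nat_lit 5) (nat_lit 451) (nat_lit 414) (nat_lit 275))) (XT.nd (nat_lit 78) (nat_lit 760) (nat_lit 0) (XT.lf (nat_lit 0) (nat_lit 5619850025) (nat_lit 836) (nat_lit 1597857942) (nat_lit 912) (nat_lit 5059302167) (nat_lit 357) (nat_lit 5) (nat_lit 368) (nat_lit 5)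 (nat_lit 369) (nat_lit 5) (nat_lit 452) (nat_lit 414) (nat_lit 274)) (XT.nd (nat_lit 78) (nat_lit 0) (nat_lit 0) (XT.lf (nat_lit 0) (nat_lit 188387342) (nat_lit 760) (nat_lit 8981061703) (nat_lit 836) (nat_lit 3237271662) (nat_lit 347) (nat_lit 5) (nat_lit 357) (nat_lit 5) (nat_lit 358) (nat_lit 5) (nat_lit 453) (nat_lit 414) (nat_lit 273)) (XT.lf (nat_lit 0) (nat_lit 7236254052) (nat_lit 760) (nat_lit 3965547967) (nat_lit 836) (nat_lit 1336394652) (nat_lit 347) (nat_lit 5) (nat_lit 357) (nat_lit 5) (nat_lit 358) (nat_lit 5) (nat_lit 454) (nat_lit 414) (nat_lit 272))))) (XT.nd (nat_lit 234) (nat_lit 760) (nat_lit 0) (XT.nd (nat_lit 78) (nat_lit 760) (nat_lit 0) (XT.lf (nat_lit 0) (nat_lit 600145214) (nat_lit 836) (nat_lit 10921926888) (nat_lit 76) (nat_lit 1150043490) (nat_lit 336) (nat_lit 5) (nat_lit 347) (nat_lit 5) (nat_lit 337) (nat_lit 5) (nat_lit 455) (nat_lit 414) (nat_lit 271)) (XT.nd (nat_lit 78) (nat_lit 760) (nat_lit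 0) (XT.lf (nat_lit 0) (nat_lit 2606350978) (nat_lit 836) (nat_lit 3842301781) (nat_lit 76) (nat_lit 6358909438) (nat_lit 336) (nat_lit 5) (nat_lit 347) (nat_lit 5) (nat_lit 337) (nat_lit 5) (nat_lit 456) (nat_lit 414) (nat_lit 270)) (XT.lf (nat_lit 0) (nat_lit 3409728633) (nat_lit 760) (nat_lit 1252086857) (nat_lit 836) (nat_lit 8283722065) (nat_lit 326) (nat_lit 5) (nat_lit 336) (nat_lit 5) (nat_lit 337) (nat_lit 5) (nat_lit 457) (nat_lit 414) (nat_lit 269)))) (XT.nd (nat_lit 78) (nat_lit 760) (nat_lit 0) (XT.lf (nat_lit 0) (nat_lit 6797784231) (nat_lit 836) (nat_lit 2267397196) (nat_lit 76) (nat_lit 4020305561) (nat_lit 326) (nat_lit 5) (nat_lit 337) (nat_lit 5) (nat_lit 327) (nat_lit 5) (nat_lit 458) (nat_lit 414) (nat_lit 268)) (XT.nd (nat_lit 78) (nat_lit 0) (nat_lit 0) (XT.lf (nat_lit 0) (nat_lit 5192398072) (nat_lit 760) (nat_lit 3813485938) (nat_lit 836) (nat_lit 4221765583) (nat_lit 316) (nat_lit 5) (nat_lit 326) (nat_lit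 5) (nat_lit 327) (nat_lit 5) (nat_lit 459) (nat_lit 414) (nat_lit 267)) (XT.lf (nat_lit 0) (nat_lit 11271038683) (nat_lit 836) (nat_lit 564291325) (nat_lit 76) (nat_lit 1537069955) (nat_lit 316) (nat_lit 5) (nat_lit 327) (nat_lit 5) (nat_lit 317) (nat_lit 5) (nat_lit 460) (nat_lit 414) (nat_lit 266)))))) (XT.nd (nat_lit 468) (nat_lit 1900) (nat_lit 0) (XT.nd (nat_lit 234) (nat_lit 1368) (nat_lit 0) (XT.nd (nat_lit 78) (nat_lit 684) (nat_lit 0) (XT.lf (nat_lit 0) (nat_lit 120256408) (nat_lit 760) (nat_lit 6409237454) (nat_lit 76) (nat_lit 6989353550) (nat_lit 306) (nat_lit 5) (nat_lit 316) (nat_lit 5) (nat_lit 307) (nat_lit 5) (nat_lit 461) (nat_lit 414) (nat_lit 265)) (XT.nd (nat_lit 78) (nat_lit 0) (nat_lit 0) (XT.lf (nat_lit 0) (nat_lit 1265400735) (nat_lit 684) (nat_lit 1092692292) (nat_lit 760) (nat_lit 11309856742) (nat_lit 297) (nat_lit 5) (nat_lit 306) (nat_lit 5) (nat_lit 307) (nat_lit 5) (nat_lit 462) (nat_lit 414)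 (nat_lit 264)) (XT.lf (nat_lit 0) (nat_lit 4700899638) (nat_lit 760) (nat_lit 4681843729) (nat_lit 76) (nat_lit 4436088730) (nat_lit 297) (nat_lit 5) (nat_lit 307) (nat_lit 5) (nat_lit 298) (nat_lit 5) (nat_lit 463) (nat_lit 414) (nat_lit 263)))) (XT.nd (nat_lit 78) (nat_lit 684) (nat_lit 0) (XT.lf (nat_lit 0) (nat_lit 3214586764) (nat_lit 684) (nat_lit 3892326597) (nat_lit 760) (nat_lit 6865493838) (nat_lit 288) (nat_lit 5) (nat_lit 297) (nat_lit 5) (nat_lit 298) (nat_lit 5) (nat_lit 464) (nat_lit 414) (nat_lit 262)) (XT.nd (nat_lit 78) (nat_lit 684) (nat_lit 0) (XT.lf (nat_lit 0) (nat_lit 9592135575) (nat_lit 760) (nat_lit 2821057693) (nat_lit 76) (nat_lit 1715240874) (nat_lit 288) (nat_lit 5) (nat_lit 298) (nat_lit 5) (nat_lit 289) (nat_lit 5) (nat_lit 465) (nat_lit 414) (nat_lit 261)) (XT.lf (nat_lit 0) (nat_lit 5304760844) (nat_lit 684) (nat_lit 6871122085) (nat_lit 760) (nat_lit 2110724345) (nat_lit 279) (nat_lit 5) (nat_lit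 288) (nat_lit 5) (nat_lit 289) (nat_lit 5) (nat_lit 466) (nat_lit 414) (nat_lit 260))))) (XT.nd (nat_lit 234) (nat_lit 608) (nat_lit 0) (XT.nd (nat_lit 78) (nat_lit 1216) (nat_lit 0) (XT.lf (nat_lit 0) (nat_lit 366313640) (nat_lit 760) (nat_lit 832253238) (nat_lit 76) (nat_lit 13249177434) (nat_lit 278) (nat_lit 5) (nat_lit 288) (nat_lit 5) (nat_lit 279) (nat_lit 5) (nat_lit 467) (nat_lit 414) (nat_lit 259)) (XT.nd (nat_lit 78) (nat_lit 608) (nat_lit 0) (XT.lf (nat_lit 0) (nat_lit 2932761607) (nat_lit 684) (nat_lit 7089128974) (nat_lit 76) (nat_lit 4588573779) (nat_lit 270) (nat_lit 5) (nat_lit 279) (nat_lit 5) (nat_lit 271) (nat_lit 5) (nat_lit 468) (nat_lit 414) (nat_lit 258)) (XT.lf (nat_lit 0) (nat_lit 1272267754) (nat_lit 608) (nat_lit 4289092597) (nat_lit 684) (nat_lit 9214863927) (nat_lit 262) (nat_lit 5) (nat_lit 270) (nat_lit 5) (nat_lit 271) (nat_lit 5) (nat_lit 469) (nat_lit 414) (nat_lit 257)))) (XT.nd (nat_lit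 78) (nat_lit 608) (nat_lit 0) (XT.lf (nat_lit 0) (nat_lit 8289651291) (nat_lit 684) (nat_lit 5071302632) (nat_lit 76) (nat_lit 1583404936) (nat_lit 262) (nat_lit 5) (nat_lit 271) (nat_lit 5) (nat_lit 263) (nat_lit 5) (nat_lit 470) (nat_lit 414) (nat_lit 256)) (XT.nd (nat_lit 78) (nat_lit 0) (nat_lit 0) (XT.lf (nat_lit 0) (nat_lit 3534713908) (nat_lit 608) (nat_lit 7578477331) (nat_lit 684) (nat_lit 4001853061) (nat_lit 254) (nat_lit 5) (nat_lit 262) (nat_lit 5) (nat_lit 263) (nat_lit 5) (nat_lit 471) (nat_lit 414) (nat_lit 255)) (XT.lf (nat_lit 0) (nat_lit 12368436502) (nat_lit 608) (nat_lit 1648249302) (nat_lit 684) (nat_lit 1271989766) (nat_lit 254) (nat_lit 5) (nat_lit 262) (nat_lit 5) (nat_lit 263) (nat_lit 5) (nat_lit 472) (nat_lit 414) (nat_lit 254))))))) (XT.nd (nat_lit 936) (nat_lit 3192) (nat_lit 0) (XT.nd (nat_lit 468) (nat_lit 1596) (nat_lit 0) (XT.nd (nat_lit 234) (nat_lit 1216) (nat_lit 0) (XT.nd (nat_lit 78) (nat_lit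 532) (nat_lit 0) (XT.lf (nat_lit 0) (nat_lit 1549851154) (nat_lit 684) (nat_lit 9525421591) (nat_lit 76) (nat_lit 4389167714) (nat_lit 245) (nat_lit 5) (nat_lit 254) (nat_lit 5) (nat_lit 246) (nat_lit 5) (nat_lit 473) (nat_lit 414) (nat_lit 253)) (XT.nd (nat_lit 78) (nat_lit 532) (nat_lit 0) (XT.lf (nat_lit 0) (nat_lit 4431446588) (nat_lit 684) (nat_lit 660894902) (nat_lit 76) (nat_lit 10550805697) (nat_lit 245) (nat_lit 5) (nat_lit 254) (nat_lit 5) (nat_lit 246) (nat_lit 5) (nat_lit 474) (nat_lit 414) (nat_lit 252)) (XT.lf (nat_lit 0) (nat_lit 7422526701) (nat_lit 608) (nat_lit 7352193322) (nat_lit 76) (nat_lit 1049672631) (nat_lit 238) (nat_lit 5) (nat_lit 246) (nat_lit 5) (nat_lit 239) (nat_lit 5) (nat_lit 475) (nat_lit 414) (nat_lit 251)))) (XT.nd (nat_lit 78) (nat_lit 608) (nat_lit 0) (XT.lf (nat_lit 0) (nat_lit 1764138887) (nat_lit 608) (nat_lit 8748922879) (nat_lit 684) (nat_lit 5495410225) (nat_lit 230) (nat_lit 5)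 (nat_lit 238) (nat_lit 5) (nat_lit 239) (nat_lit 5) (nat_lit 476) (nat_lit 414) (nat_lit 250)) (XT.nd (nat_lit 78) (nat_lit 608) (nat_lit 0) (XT.lf (nat_lit 0) (nat_lit 11149559729) (nat_lit 608) (nat_lit 2555288349) (nat_lit 684) (nat_lit 2490597621) (nat_lit 230) (nat_lit 5) (nat_lit 238) (nat_lit 5) (nat_lit 239) (nat_lit 5) (nat_lit 477) (nat_lit 414) (nat_lit 249)) (XT.lf (nat_lit 0) (nat_lit 610052158) (nat_lit 608) (nat_lit 12032898189) (nat_lit 76) (nat_lit 3742270027) (nat_lit 222) (nat_lit 5) (nat_lit 230) (nat_lit 5) (nat_lit 223) (nat_lit 5) (nat_lit 478) (nat_lit 414) (nat_lit 248))))) (XT.nd (nat_lit 234) (nat_lit 1064) (nat_lit 0) (XT.nd (nat_lit 78) (nat_lit 532) (nat_lit 0) (XT.lf (nat_lit 0) (nat_lit 3780725369) (nat_lit 608) (nat_lit 2617729502) (nat_lit 76) (nat_lit 10179180728) (nat_lit 222) (nat_lit 5) (nat_lit 230) (nat_lit 5) (nat_lit 223) (nat_lit 5) (nat_lit 479) (nat_lit 414) (nat_lit 247)) (XT.nd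 (nat_lit 78) (nat_lit 0) (nat_lit 0) (XT.lf (nat_lit 0) (nat_lit 7051293565) (nat_lit 608) (nat_lit 9707471860) (nat_lit 76) (nat_lit 14405545) (nat_lit 215) (nat_lit 5) (nat_lit 223) (nat_lit 5) (nat_lit 216) (nat_lit 5) (nat_lit 480) (nat_lit 414) (nat_lit 246)) (XT.lf (nat_lit 0) (nat_lit 10437924835) (nat_lit 608) (nat_lit 49177272) (nat_lit 76) (nat_lit 6484503353) (nat_lit 215) (nat_lit 5) (nat_lit 223) (nat_lit 5) (nat_lit 216) (nat_lit 5) (nat_lit 481) (nat_lit 414) (nat_lit 245)))) (XT.nd (nat_lit 78) (nat_lit 608) (nat_lit 0) (XT.lf (nat_lit 0) (nat_lit 9919932303) (nat_lit 456) (nat_lit 4027542775) (nat_lit 532) (nat_lit 3225431251) (nat_lit 209) (nat_lit 5) (nat_lit 215) (nat_lit 5) (nat_lit 216) (nat_lit 5) (nat_lit 482) (nat_lit 414) (nat_lit 244)) (XT.nd (nat_lit 78) (nat_lit 0) (nat_lit 0) (XT.lf (nat_lit 0) (nat_lit 172659376) (nat_lit 608) (nat_lit 14661523423) (nat_lit 76) (nat_lit 2543519827) (nat_lit 201)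 (nat_lit 5) (nat_lit 209) (nat_lit 5) (nat_lit 202) (nat_lit 5) (nat_lit 483) (nat_lit 414) (nat_lit 243)) (XT.lf (nat_lit 0) (nat_lit 3662125837) (nat_lit 608) (nat_lit 4663518441) (nat_lit 76) (nat_lit 9259193454) (nat_lit 201) (nat_lit 5) (nat_lit 209) (nat_lit 5) (nat_lit 202) (nat_lit 5) (nat_lit 484) (nat_lit 414) (nat_lit 242)))))) (XT.nd (nat_lit 468) (nat_lit 1292) (nat_lit 0) (XT.nd (nat_lit 234) (nat_lit 988) (nat_lit 0) (XT.nd (nat_lit 78) (nat_lit 456) (nat_lit 0) (XT.lf (nat_lit 0) (nat_lit 5595506021) (nat_lit 456) (nat_lit 1653279955) (nat_lit 532) (nat_lit 10546782784) (nat_lit 195) (nat_lit 5) (nat_lit 201) (nat_lit 5) (nat_lit 202) (nat_lit 5) (nat_lit 485) (nat_lit 414) (nat_lit 241)) (XT.nd (nat_lit 78) (nat_lit 456) (nat_lit 0) (XT.lf (nat_lit 0) (nat_lit 10963282822) (nat_lit 532) (nat_lit 1933024518) (nat_lit 76) (nat_lit 5113086281) (nat_lit 195) (nat_lit 5) (nat_lit 202) (nat_lit 5) (nat_lit 196) (nat_lit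 5) (nat_lit 486) (nat_lit 414) (nat_lit 240)) (XT.lf (nat_lit 0) (nat_lit 8629423908) (nat_lit 456) (nat_lit 6180944022) (nat_lit 532) (nat_lit 3415962342) (nat_lit 189) (nat_lit 5) (nat_lit 195) (nat_lit 5) (nat_lit 196) (nat_lit 5) (nat_lit 487) (nat_lit 414) (nat_lit 239)))) (XT.nd (nat_lit 78) (nat_lit 456) (nat_lit 0) (XT.lf (nat_lit 0) (nat_lit 298267564) (nat_lit 532) (nat_lit 17471116173) (nat_lit 76) (nat_lit 677881090) (nat_lit 182) (nat_lit 5) (nat_lit 189) (nat_lit 5) (nat_lit 183) (nat_lit 5) (nat_lit 488) (nat_lit 414) (nat_lit 238)) (XT.nd (nat_lit 78) (nat_lit 456) (nat_lit 0) (XT.lf (nat_lit 0) (nat_lit 4138268191) (nat_lit 532) (nat_lit 6856822026) (nat_lit 76) (nat_lit 7675132934) (nat_lit 182) (nat_lit 5) (nat_lit 189) (nat_lit 5) (nat_lit 183) (nat_lit 5) (nat_lit 489) (nat_lit 414) (nat_lit 237)) (XT.lf (nat_lit 0) (nat_lit 4010331513) (nat_lit 456) (nat_lit 4062366140) (nat_lit 532) (nat_lit 10824591576)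 (nat_lit 176) (nat_lit 5) (nat_lit 182) (nat_lit 5) (nat_lit 183) (nat_lit 5) (nat_lit 490) (nat_lit 414) (nat_lit 236))))) (XT.nd (nat_lit 234) (nat_lit 836) (nat_lit 0) (XT.nd (nat_lit 78) (nat_lit 456) (nat_lit 0) (XT.lf (nat_lit 0) (nat_lit 12143324722) (nat_lit 532) (nat_lit 3972131109) (nat_lit 76) (nat_lit 3012291754) (nat_lit 176) (nat_lit 5) (nat_lit 183) (nat_lit 5) (nat_lit 177) (nat_lit 5) (nat_lit 491) (nat_lit 414) (nat_lit 235)) (XT.nd (nat_lit 78) (nat_lit 76) (nat_lit 0) (XT.lf (nat_lit 0) (nat_lit 7216889088) (nat_lit 380) (nat_lit 9144053699) (nat_lit 456) (nat_lit 3000561869) (nat_lit 171) (nat_lit 5) (nat_lit 176) (nat_lit 5) (nat_lit 177) (nat_lit 5) (nat_lit 492) (nat_lit 414) (nat_lit 234)) (XT.lf (nat_lit 0) (nat_lit 1067714649) (nat_lit 456) (nat_lit 934830964) (nat_lit 76) (nat_lit 17596880710) (nat_lit 170) (nat_lit 5) (nat_lit 176) (nat_lit 5) (nat_lit 171) (nat_lit 5) (nat_lit 493) (nat_lit 414)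 (nat_lit 233)))) (XT.nd (nat_lit 78) (nat_lit 380) (nat_lit 0) (XT.lf (nat_lit 0) (nat_lit 5272947197) (nat_lit 532) (nat_lit 9268611177) (nat_lit 76) (nat_lit 5298237067) (nat_lit 164) (nat_lit 5) (nat_lit 171) (nat_lit 5) (nat_lit 165) (nat_lit 5) (nat_lit 494) (nat_lit 414) (nat_lit 232)) (XT.nd (nat_lit 78) (nat_lit 0) (nat_lit 0) (XT.lf (nat_lit 0) (nat_lit 2239505329) (nat_lit 380) (nat_lit 7348961528) (nat_lit 456) (nat_lit 10495982465) (nat_lit 159) (nat_lit 5) (nat_lit 164) (nat_lit 5) (nat_lit 165) (nat_lit 5) (nat_lit 495) (nat_lit 414) (nat_lit 231)) (XT.lf (nat_lit 0) (nat_lit 14044945842) (nat_lit 456) (nat_lit 6241424874) (nat_lit 76) (nat_lit 46533599) (nat_lit 159) (nat_lit 5) (nat_lit 165) (nat_lit 5) (nat_lit 160) (nat_lit 5) (nat_lit 496) (nat_lit 414) (nat_lit 230))))))))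
noncomputable def xc171 : XT := (XT.nd (nat_lit 53508) (nat_lit 0) (nat_lit 22116) (XT.nd (nat_lit 858) (nat_lit 684) (nat_lit 0) (XT.nd (nat_lit 390) (nat_lit 1596) (nat_lit 0) (XT.nd (nat_lit 156) (nat_lit 760) (nat_lit 0) (XT.nd (nat_lit 78) (nat_lit 76) (nat_lit 0) (XT.lf (nat_lit 0) (nat_lit 5607505623) (nat_lit 380) (nat_lit 13060400546) (nat_lit 456) (nat_lit 1916876194) (nat_lit 154) (nat_lit 5) (nat_lit 159) (nat_lit 5) (nat_lit 160) (nat_lit 5) (nat_lit 497) (nat_lit 414) (nat_lit 229)) (XT.lf (nat_lit 0) (nat_lit 2542755405) (nat_lit 456) (nat_lit 3091181945) (nat_lit 76) (nat_lit 15206742306) (nat_lit 153) (nat_lit 5) (nat_lit 159) (nat_lit 5) (nat_lit 154) (nat_lit 5) (nat_lit 498) (nat_lit 414) (nat_lit 228))) (XT.nd (nat_lit 78) (nat_lit 380) (nat_lit 0) (XT.lf (nat_lit 0) (nat_lit 7130710326) (nat_lit 456) (nat_lit 11985136855) (nat_lit 76) (nat_lit 1984299284) (nat_lit 148) (nat_lit 5) (nat_lit 154) (nat_lit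 5) (nat_lit 149) (nat_lit 5) (nat_lit 499) (nat_lit 414) (nat_lit 227)) (XT.nd (nat_lit 78) (nat_lit 0) (nat_lit 0) (XT.lf (nat_lit 0) (nat_lit 196583297) (nat_lit 380) (nat_lit 11665811304) (nat_lit 456) (nat_lit 9501369520) (nat_lit 143) (nat_lit 5) (nat_lit 148) (nat_lit 5) (nat_lit 149) (nat_lit 5) (nat_lit 500) (nat_lit 414) (nat_lit 226)) (XT.lf (nat_lit 0) (nat_lit 12773088692) (nat_lit 380) (nat_lit 3988626256) (nat_lit 456) (nat_lit 4869480032) (nat_lit 143) (nat_lit 5) (nat_lit 148) (nat_lit 5) (nat_lit 149) (nat_lit 5) (nat_lit 501) (nat_lit 414) (nat_lit 225))))) (XT.nd (nat_lit 234) (nat_lit 760) (nat_lit 0) (XT.nd (nat_lit 78) (nat_lit 456) (nat_lit 0) (XT.lf (nat_lit 0) (nat_lit 3709646159) (nat_lit 380) (nat_lit 18091103146) (nat_lit 456) (nat_lit 102391479) (nat_lit 138) (nat_lit 5) (nat_lit 143) (nat_lit 5) (nat_lit 144) (nat_lit 5) (nat_lit 502) (nat_lit 414) (nat_lit 224)) (XT.nd (nat_lit 78) (nat_lit 380)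 (nat_lit 0) (XT.lf (nat_lit 0) (nat_lit 4776579823) (nat_lit 456) (nat_lit 5599457400) (nat_lit 76) (nat_lit 11802291627) (nat_lit 137) (nat_lit 5) (nat_lit 143) (nat_lit 5) (nat_lit 138) (nat_lit 5) (nat_lit 503) (nat_lit 414) (nat_lit 223)) (XT.lf (nat_lit 0) (nat_lit 7330914396) (nat_lit 380) (nat_lit 2461305130) (nat_lit 456) (nat_lit 12665979244) (nat_lit 132) (nat_lit 5) (nat_lit 137) (nat_lit 5) (nat_lit 138) (nat_lit 5) (nat_lit 504) (nat_lit 414) (nat_lit 222)))) (XT.nd (nat_lit 78) (nat_lit 760) (nat_lit 0) (XT.lf (nat_lit 0) (nat_lit 14975336535) (nat_lit 456) (nat_lit 2194861642) (nat_lit 76) (nat_lit 5572125436) (nat_lit 132) (nat_lit 5) (nat_lit 138) (nat_lit 5) (nat_lit 133) (nat_lit 5) (nat_lit 505) (nat_lit 414) (nat_lit 221)) (XT.nd (nat_lit 78) (nat_lit 456) (nat_lit 0) (XT.lf (nat_lit 0) (nat_lit 11114840542) (nat_lit 304) (nat_lit 9228784745) (nat_lit 380) (nat_lit 2686876275) (nat_lit 128) (nat_lit 5)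 (nat_lit 132) (nat_lit 5) (nat_lit 133) (nat_lit 5) (nat_lit 506) (nat_lit 414) (nat_lit 220)) (XT.lf (nat_lit 0) (nat_lit 1387376510) (nat_lit 380) (nat_lit 1091638497) (nat_lit 456) (nat_lit 20844766896) (nat_lit 122) (nat_lit 5) (nat_lit 127) (nat_lit 5) (nat_lit 128) (nat_lit 5) (nat_lit 507) (nat_lit 414) (nat_lit 219)))))) (XT.nd (nat_lit 52182) (nat_lit 0) (nat_lit 30476) (XT.nd (nat_lit 234) (nat_lit 380) (nat_lit 0) (XT.nd (nat_lit 78) (nat_lit 304) (nat_lit 0) (XT.lf (nat_lit 0) (nat_lit 7832676075) (nat_lit 456) (nat_lit 8579363009) (nat_lit 76) (nat_lit 7208125729) (nat_lit 122) (nat_lit 5) (nat_lit 128) (nat_lit 5) (nat_lit 123) (nat_lit 5) (nat_lit 508) (nat_lit 414) (nat_lit 218)) (XT.nd (nat_lit 78) (nat_lit 0) (nat_lit 0) (XT.lf (nat_lit 0) (nat_lit 5093704592) (nat_lit 304) (nat_lit 8233247032) (nat_lit 380) (nat_lit 10594853668) (nat_lit 118) (nat_lit 5) (nat_lit 122) (nat_lit 5) (nat_lit 123) (nat_lit 5)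 (nat_lit 509) (nat_lit 414) (nat_lit 217)) (XT.lf (nat_lit 0) (nat_lit 18983052751) (nat_lit 380) (nat_lit 5083617748) (nat_lit 76) (nat_lit 161770004) (nat_lit 118) (nat_lit 5) (nat_lit 123) (nat_lit 5) (nat_lit 119) (nat_lit 5) (nat_lit 510) (nat_lit 414) (nat_lit 216)))) (XT.nd (nat_lit 78) (nat_lit 0) (nat_lit 0) (XT.lf (nat_lit 0) (nat_lit 315297350) (nat_lit 380) (nat_lit 15552559961) (nat_lit 76) (nat_lit 8671184432) (nat_lit 113) (nat_lit 5) (nat_lit 118) (nat_lit 5) (nat_lit 114) (nat_lit 5) (nat_lit 511) (nat_lit 414) (nat_lit 215)) (XT.nd (nat_lit 51792) (nat_lit 0) (nat_lit 32072) (XT.lf (nat_lit 0) (nat_lit 5944793246) (nat_lit 380) (nat_lit 1493781585) (nat_lit 76) (nat_lit 17416030760) (nat_lit 113) (nat_lit 5) (nat_lit 118) (nat_lit 5) (nat_lit 114) (nat_lit 5) (nat_lit 512) (nat_lit 414) (nat_lit 214)) (XT.lf (nat_lit 0) (nat_lit 2157079793) (nat_lit 0) (nat_lit 2157079793) (nat_lit 1444) (nat_lit 82424429)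 (nat_lit 535) (nat_lit 5) (nat_lit 535) (nat_lit 3) (nat_lit 554) (nat_lit 3) (nat_lit 415) (nat_lit 415) (nat_lit 310))))) (XT.nd (nat_lit 234) (nat_lit 0) (nat_lit 152) (XT.nd (nat_lit 78) (nat_lit 0) (nat_lit 76) (XT.lf (nat_lit 0) (nat_lit 783806610) (nat_lit 1596) (nat_lit 195077766) (nat_lit 1596) (nat_lit 7883045390) (nat_lit 514) (nat_lit 3) (nat_lit 535) (nat_lit 3) (nat_lit 535) (nat_lit 5) (nat_lit 416) (nat_lit 415) (nat_lit 309)) (XT.nd (nat_lit 78) (nat_lit 0) (nat_lit 0) (XT.lf (nat_lit 0) (nat_lit 1767733725) (nat_lit 1520) (nat_lit 4731953229) (nat_lit 1596) (nat_lit 2431993880) (nat_lit 515) (nat_lit 5) (nat_lit 535) (nat_lit 5) (nat_lit 536) (nat_lit 5) (nat_lit 417) (nat_lit 415) (nat_lit 308)) (XT.lf (nat_lit 0) (nat_lit 2754753086) (nat_lit 1520) (nat_lit 337393856) (nat_lit 1596) (nat_lit 5911017602) (nat_lit 515) (nat_lit 5) (nat_lit 535) (nat_lit 5) (nat_lit 536) (nat_lit 5) (nat_lit 418) (nat_lit 415)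 (nat_lit 307)))) (XT.nd (nat_lit 78) (nat_lit 0) (nat_lit 0) (XT.lf (nat_lit 0) (nat_lit 3767531038) (nat_lit 1520) (nat_lit 4891705969) (nat_lit 1596) (nat_lit 416726332) (nat_lit 516) (nat_lit 5) (nat_lit 536) (nat_lit 5) (nat_lit 537) (nat_lit 5) (nat_lit 419) (nat_lit 415) (nat_lit 306)) (XT.nd (nat_lit 78) (nat_lit 0) (nat_lit 0) (XT.lf (nat_lit 0) (nat_lit 4799867777) (nat_lit 1520) (nat_lit 383127938) (nat_lit 1596) (nat_lit 3967241997) (nat_lit 516) (nat_lit 5) (nat_lit 536) (nat_lit 5) (nat_lit 537) (nat_lit 5) (nat_lit 420) (nat_lit 415) (nat_lit 305)) (XT.lf (nat_lit 76) (nat_lit 4258355650) (nat_lit 0) (nat_lit 1599149895) (nat_lit 1596) (nat_lit 3368404495) (nat_lit 517) (nat_lit 5) (nat_lit 516) (nat_lit 5) (nat_lit 537) (nat_lit 5) (nat_lit 421) (nat_lit 415) (nat_lit 304))))))) (XT.nd (nat_lit 936) (nat_lit 5624) (nat_lit 0) (XT.nd (nat_lit 468) (nat_lit 1444) (nat_lit 0) (XT.nd (nat_lit 234) (nat_lit 1520)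 (nat_lit 0) (XT.nd (nat_lit 78) (nat_lit 0) (nat_lit 0) (XT.lf (nat_lit 0) (nat_lit 6929670234) (nat_lit 1520) (nat_lit 332099581) (nat_lit 1596) (nat_lit 2041463960) (nat_lit 517) (nat_lit 5) (nat_lit 537) (nat_lit 5) (nat_lit 538) (nat_lit 5) (nat_lit 422) (nat_lit 415) (nat_lit 303)) (XT.nd (nat_lit 78) (nat_lit 0) (nat_lit 76) (XT.lf (nat_lit 76) (nat_lit 4430294572) (nat_lit 0) (nat_lit 3610215718) (nat_lit 1596) (nat_lit 1341254390) (nat_lit 518) (nat_lit 5) (nat_lit 517) (nat_lit 5) (nat_lit 538) (nat_lit 5) (nat_lit 423) (nat_lit 415) (nat_lit 302)) (XT.lf (nat_lit 0) (nat_lit 9154834098) (nat_lit 1520) (nat_lit 183833146) (nat_lit 1596) (nat_lit 123578854) (nat_lit 518) (nat_lit 5) (nat_lit 538) (nat_lit 5) (nat_lit 539) (nat_lit 5) (nat_lit 424) (nat_lit 415) (nat_lit 301)))) (XT.nd (nat_lit 78) (nat_lit 0) (nat_lit 0) (XT.lf (nat_lit 0) (nat_lit 770677246) (nat_lit 1596) (nat_lit 4845238219) (nat_lit 1672) (nat_lit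 3927662324) (nat_lit 497) (nat_lit 5) (nat_lit 518) (nat_lit 5) (nat_lit 519) (nat_lit 5) (nat_lit 425) (nat_lit 415) (nat_lit 300)) (XT.nd (nat_lit 78) (nat_lit 0) (nat_lit 76) (XT.lf (nat_lit 76) (nat_lit 38982335) (nat_lit 0) (nat_lit 1807622499) (nat_lit 1672) (nat_lit 7780287717) (nat_lit 498) (nat_lit 5) (nat_lit 497) (nat_lit 5) (nat_lit 519) (nat_lit 5) (nat_lit 426) (nat_lit 415) (nat_lit 299)) (XT.lf (nat_lit 0) (nat_lit 2969531713) (nat_lit 1596) (nat_lit 4652356071) (nat_lit 1672) (nat_lit 2089481043) (nat_lit 498) (nat_lit 5) (nat_lit 519) (nat_lit 5) (nat_lit 520) (nat_lit 5) (nat_lit 427) (nat_lit 415) (nat_lit 298))))) (XT.nd (nat_lit 234) (nat_lit 1520) (nat_lit 0) (XT.nd (nat_lit 78) (nat_lit 0) (nat_lit 76) (XT.lf (nat_lit 76) (nat_lit 360947527) (nat_lit 0) (nat_lit 3747957766) (nat_lit 1672) (nat_lit 5688754311) (nat_lit 499) (nat_lit 5) (nat_lit 498) (nat_lit 5) (nat_lit 520) (nat_lit 5) (nat_lit 428)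 (nat_lit 415) (nat_lit 297)) (XT.nd (nat_lit 78) (nat_lit 0) (nat_lit 0) (XT.lf (nat_lit 0) (nat_lit 5283838910) (nat_lit 1596) (nat_lit 4363079014) (nat_lit 1672) (nat_lit 238507470) (nat_lit 499) (nat_lit 5) (nat_lit 520) (nat_lit 5) (nat_lit 521) (nat_lit 5) (nat_lit 429) (nat_lit 415) (nat_lit 296)) (XT.lf (nat_lit 76) (nat_lit 783679357) (nat_lit 0) (nat_lit 5708917698) (nat_lit 1672) (nat_lit 3482147483) (nat_lit 500) (nat_lit 5) (nat_lit 499) (nat_lit 5) (nat_lit 521) (nat_lit 5) (nat_lit 430) (nat_lit 415) (nat_lit 295)))) (XT.nd (nat_lit 78) (nat_lit 1596) (nat_lit 0) (XT.lf (nat_lit 76) (nat_lit 6078801861) (nat_lit 0) (nat_lit 1656718782) (nat_lit 1672) (nat_lit 2330134080) (nat_lit 500) (nat_lit 5) (nat_lit 499) (nat_lit 5) (nat_lit 521) (nat_lit 5) (nat_lit 431) (nat_lit 415) (nat_lit 294)) (XT.nd (nat_lit 78) (nat_lit 1672) (nat_lit 0) (XT.lf (nat_lit 76) (nat_lit 1308664954) (nat_lit 0) (nat_lit 7700339119) (nat_lit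 1672) (nat_lit 1149269392) (nat_lit 501) (nat_lit 5) (nat_lit 500) (nat_lit 5) (nat_lit 522) (nat_lit 5) (nat_lit 432) (nat_lit 415) (nat_lit 293)) (XT.lf (nat_lit 0) (nat_lit 73669882) (nat_lit 1672) (nat_lit 3513605526) (nat_lit 1748) (nat_lit 6665082584) (nat_lit 478) (nat_lit 5) (nat_lit 500) (nat_lit 5) (nat_lit 501) (nat_lit 5) (nat_lit 433) (nat_lit 415) (nat_lit 292)))))) (XT.nd (nat_lit 468) (nat_lit 5700) (nat_lit 0) (XT.nd (nat_lit 234) (nat_lit 0) (nat_lit 76) (XT.nd (nat_lit 78) (nat_lit 0) (nat_lit 0) (XT.lf (nat_lit 0) (nat_lit 1304001717) (nat_lit 1672) (nat_lit 8419293608) (nat_lit 1748) (nat_lit 624914628) (nat_lit 479) (nat_lit 5) (nat_lit 501) (nat_lit 5) (nat_lit 502) (nat_lit 5) (nat_lit 434) (nat_lit 415) (nat_lit 291)) (XT.nd (nat_lit 78) (nat_lit 0) (nat_lit 0) (XT.lf (nat_lit 0) (nat_lit 2588376986) (nat_lit 1672) (nat_lit 2955557487) (nat_lit 1748) (nat_lit 4901459789) (nat_lit 479) (nat_lit 5) (nat_lit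 501) (nat_lit 5) (nat_lit 502) (nat_lit 5) (nat_lit 435) (nat_lit 415) (nat_lit 290)) (XT.lf (nat_lit 76) (nat_lit 2638276729) (nat_lit 0) (nat_lit 1259592198) (nat_lit 1748) (nat_lit 6646668713) (nat_lit 480) (nat_lit 5) (nat_lit 479) (nat_lit 5) (nat_lit 502) (nat_lit 5) (nat_lit 436) (nat_lit 415) (nat_lit 289)))) (XT.nd (nat_lit 78) (nat_lit 0) (nat_lit 0) (XT.lf (nat_lit 0) (nat_lit 5256292716) (nat_lit 1672) (nat_lit 2295607158) (nat_lit 1748) (nat_lit 3093313059) (nat_lit 480) (nat_lit 5) (nat_lit 502) (nat_lit 5) (nat_lit 503) (nat_lit 5) (nat_lit 437) (nat_lit 415) (nat_lit 288)) (XT.nd (nat_lit 78) (nat_lit 0) (nat_lit 76) (XT.lf (nat_lit 76) (nat_lit 3450381588) (nat_lit 0) (nat_lit 3205171050) (nat_lit 1748) (nat_lit 4092079553) (nat_lit 481) (nat_lit 5) (nat_lit 480) (nat_lit 5) (nat_lit 503) (nat_lit 5) (nat_lit 438) (nat_lit 415) (nat_lit 287)) (XT.lf (nat_lit 0) (nat_lit 8089470744) (nat_lit 1672) (nat_lit 1531521027)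 (nat_lit 76) (nat_lit 1230978341) (nat_lit 481) (nat_lit 5) (nat_lit 503) (nat_lit 5) (nat_lit 482) (nat_lit 5) (nat_lit 439) (nat_lit 415) (nat_lit 286))))) (XT.nd (nat_lit 234) (nat_lit 2356) (nat_lit 0) (XT.nd (nat_lit 78) (nat_lit 1824) (nat_lit 0) (XT.lf (nat_lit 0) (nat_lit 4371851371) (nat_lit 1672) (nat_lit 5213346752) (nat_lit 1748) (nat_lit 1372537713) (nat_lit 459) (nat_lit 5) (nat_lit 481) (nat_lit 5) (nat_lit 482) (nat_lit 5) (nat_lit 440) (nat_lit 415) (nat_lit 285)) (XT.nd (nat_lit 78) (nat_lit 1748) (nat_lit 0) (XT.lf (nat_lit 0) (nat_lit 38618200) (nat_lit 1748) (nat_lit 665634933) (nat_lit 76) (nat_lit 10361481629) (nat_lit 458) (nat_lit 5) (nat_lit 481) (nat_lit 5) (nat_lit 459) (nat_lit 5) (nat_lit 441) (nat_lit 415) (nat_lit 284)) (XT.lf (nat_lit 0) (nat_lit 1504396828) (nat_lit 1824) (nat_lit 5779538034) (nat_lit 76) (nat_lit 3890885250) (nat_lit 435) (nat_lit 5) (nat_lit 459) (nat_lit 5) (nat_lit 436)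 (nat_lit 5) (nat_lit 442) (nat_lit 415) (nat_lit 283)))) (XT.nd (nat_lit 78) (nat_lit 912) (nat_lit 0) (XT.lf (nat_lit 0) (nat_lit 285609751) (nat_lit 1444) (nat_lit 2709100537) (nat_lit 1520) (nat_lit 8291475880) (nat_lit 416) (nat_lit 5) (nat_lit 435) (nat_lit 5) (nat_lit 436) (nat_lit 5) (nat_lit 443) (nat_lit 415) (nat_lit 282)) (XT.nd (nat_lit 78) (nat_lit 912) (nat_lit 0) (XT.lf (nat_lit 0) (nat_lit 4551014590) (nat_lit 1520) (nat_lit 4875684760) (nat_lit 76) (nat_lit 1972359822) (nat_lit 416) (nat_lit 5) (nat_lit 436) (nat_lit 5) (nat_lit 417) (nat_lit 5) (nat_lit 444) (nat_lit 415) (nat_lit 281)) (XT.lf (nat_lit 0) (nat_lit 1357727311) (nat_lit 912) (nat_lit 4792215512) (nat_lit 988) (nat_lit 5364020111) (nat_lit 404) (nat_lit 5) (nat_lit 416) (nat_lit 5) (nat_lit 417) (nat_lit 5) (nat_lit 445) (nat_lit 415) (nat_lit 280))))))))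
noncomputable def xc172 : XT := (XT.nd (nat_lit 1794) (nat_lit 7144) (nat_lit 0) (XT.nd (nat_lit 858) (nat_lit 5016) (nat_lit 0) (XT.nd (nat_lit 390) (nat_lit 3268) (nat_lit 0) (XT.nd (nat_lit 156) (nat_lit 988) (nat_lit 0) (XT.nd (nat_lit 78) (nat_lit 912) (nat_lit 0) (XT.lf (nat_lit 0) (nat_lit 7768146696) (nat_lit 912) (nat_lit 30372748) (nat_lit 988) (nat_lit 3832295119) (nat_lit 404) (nat_lit 5) (nat_lit 416) (nat_lit 5) (nat_lit 417) (nat_lit 5) (nat_lit 446) (nat_lit 415) (nat_lit 279)) (XT.lf (nat_lit 0) (nat_lit 2545022568) (nat_lit 912) (nat_lit 6968161923) (nat_lit 988) (nat_lit 2236159523) (nat_lit 392) (nat_lit 5) (nat_lit 404) (nat_lit 5) (nat_lit 405) (nat_lit 5) (nat_lit 447) (nat_lit 415) (nat_lit 278))) (XT.nd (nat_lit 78) (nat_lit 988) (nat_lit 0) (XT.lf (nat_lit 0) (nat_lit 9119324273) (nat_lit 912) (nat_lit 2154393842) (nat_lit 988) (nat_lit 596297499) (nat_lit 392) (nat_lit 5) (nat_lit 404) (nat_lit 5)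 (nat_lit 405) (nat_lit 5) (nat_lit 448) (nat_lit 415) (nat_lit 277)) (XT.nd (nat_lit 78) (nat_lit 0) (nat_lit 0) (XT.lf (nat_lit 0) (nat_lit 1091071410) (nat_lit 988) (nat_lit 8148807037) (nat_lit 76) (nat_lit 2752508852) (nat_lit 379) (nat_lit 5) (nat_lit 392) (nat_lit 5) (nat_lit 380) (nat_lit 5) (nat_lit 449) (nat_lit 415) (nat_lit 276)) (XT.lf (nat_lit 0) (nat_lit 2822899527) (nat_lit 988) (nat_lit 1541976324) (nat_lit 76) (nat_lit 7751880698) (nat_lit 379) (nat_lit 5) (nat_lit 392) (nat_lit 5) (nat_lit 380) (nat_lit 5) (nat_lit 450) (nat_lit 415) (nat_lit 275))))) (XT.nd (nat_lit 234) (nat_lit 1596) (nat_lit 0) (XT.nd (nat_lit 78) (nat_lit 836) (nat_lit 0) (XT.lf (nat_lit 0) (nat_lit 4613756954) (nat_lit 912) (nat_lit 6995061473) (nat_lit 76) (nat_lit 634309736) (nat_lit 368) (nat_lit 5) (nat_lit 380) (nat_lit 5) (nat_lit 369) (nat_lit 5) (nat_lit 451) (nat_lit 415) (nat_lit 274)) (XT.nd (nat_lit 78) (nat_lit 836) (nat_lit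 0) (XT.lf (nat_lit 0) (nat_lit 6466058374) (nat_lit 912) (nat_lit 219724782) (nat_lit 76) (nat_lit 5685734292) (nat_lit 368) (nat_lit 5) (nat_lit 380) (nat_lit 5) (nat_lit 369) (nat_lit 5) (nat_lit 452) (nat_lit 415) (nat_lit 273)) (XT.lf (nat_lit 0) (nat_lit 6766388501) (nat_lit 836) (nat_lit 1619522128) (nat_lit 912) (nat_lit 4115956516) (nat_lit 357) (nat_lit 5) (nat_lit 368) (nat_lit 5) (nat_lit 369) (nat_lit 5) (nat_lit 453) (nat_lit 415) (nat_lit 272)))) (XT.nd (nat_lit 78) (nat_lit 836) (nat_lit 0) (XT.lf (nat_lit 0) (nat_lit 1239973731) (nat_lit 760) (nat_lit 9123505988) (nat_lit 836) (nat_lit 2270960390) (nat_lit 347) (nat_lit 5) (nat_lit 357) (nat_lit 5) (nat_lit 358) (nat_lit 5) (nat_lit 454) (nat_lit 415) (nat_lit 271)) (XT.nd (nat_lit 78) (nat_lit 836) (nat_lit 0) (XT.lf (nat_lit 0) (nat_lit 8408252312) (nat_lit 760) (nat_lit 4008410937) (nat_lit 836) (nat_lit 352282638) (nat_lit 347) (nat_lit 5) (nat_lit 357)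 (nat_lit 5) (nat_lit 358) (nat_lit 5) (nat_lit 455) (nat_lit 415) (nat_lit 270)) (XT.lf (nat_lit 0) (nat_lit 1597201928) (nat_lit 836) (nat_lit 10086921305) (nat_lit 76) (nat_lit 1221543078) (nat_lit 336) (nat_lit 5) (nat_lit 347) (nat_lit 5) (nat_lit 337) (nat_lit 5) (nat_lit 456) (nat_lit 415) (nat_lit 269)))))) (XT.nd (nat_lit 468) (nat_lit 2736) (nat_lit 0) (XT.nd (nat_lit 234) (nat_lit 1520) (nat_lit 0) (XT.nd (nat_lit 78) (nat_lit 760) (nat_lit 0) (XT.lf (nat_lit 0) (nat_lit 3624217027) (nat_lit 836) (nat_lit 2886359463) (nat_lit 76) (nat_lit 6533635389) (nat_lit 336) (nat_lit 5) (nat_lit 347) (nat_lit 5) (nat_lit 337) (nat_lit 5) (nat_lit 457) (nat_lit 415) (nat_lit 268)) (XT.nd (nat_lit 78) (nat_lit 0) (nat_lit 0) (XT.lf (nat_lit 0) (nat_lit 4503916899) (nat_lit 760) (nat_lit 1204599302) (nat_lit 836) (nat_lit 7476679697) (nat_lit 326) (nat_lit 5) (nat_lit 336) (nat_lit 5) (nat_lit 337) (nat_lit 5) (nat_lit 458) (nat_lit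 415) (nat_lit 267)) (XT.lf (nat_lit 0) (nat_lit 7868970612) (nat_lit 836) (nat_lit 1288455735) (nat_lit 76) (nat_lit 4170886238) (nat_lit 326) (nat_lit 5) (nat_lit 337) (nat_lit 5) (nat_lit 327) (nat_lit 5) (nat_lit 459) (nat_lit 415) (nat_lit 266)))) (XT.nd (nat_lit 78) (nat_lit 760) (nat_lit 0) (XT.lf (nat_lit 0) (nat_lit 6313796692) (nat_lit 760) (nat_lit 3795704452) (nat_lit 836) (nat_lit 3364055444) (nat_lit 316) (nat_lit 5) (nat_lit 326) (nat_lit 5) (nat_lit 327) (nat_lit 5) (nat_lit 460) (nat_lit 415) (nat_lit 265)) (XT.nd (nat_lit 78) (nat_lit 76) (nat_lit 0) (XT.lf (nat_lit 0) (nat_lit 445546678) (nat_lit 684) (nat_lit 11959795853) (nat_lit 760) (nat_lit 1216155213) (nat_lit 307) (nat_lit 5) (nat_lit 316) (nat_lit 5) (nat_lit 317) (nat_lit 5) (nat_lit 461) (nat_lit 415) (nat_lit 264)) (XT.lf (nat_lit 0) (nat_lit 1023528430) (nat_lit 760) (nat_lit 5516683371) (nat_lit 76) (nat_lit 7230829366) (nat_lit 306) (nat_lit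 5) (nat_lit 316) (nat_lit 5) (nat_lit 307) (nat_lit 5) (nat_lit 462) (nat_lit 415) (nat_lit 263))))) (XT.nd (nat_lit 234) (nat_lit 1368) (nat_lit 0) (XT.nd (nat_lit 78) (nat_lit 684) (nat_lit 0) (XT.lf (nat_lit 0) (nat_lit 2304732195) (nat_lit 684) (nat_lit 990309242) (nat_lit 760) (nat_lit 10628308992) (nat_lit 297) (nat_lit 5) (nat_lit 306) (nat_lit 5) (nat_lit 307) (nat_lit 5) (nat_lit 463) (nat_lit 415) (nat_lit 262)) (XT.nd (nat_lit 78) (nat_lit 684) (nat_lit 0) (XT.lf (nat_lit 0) (nat_lit 5668048197) (nat_lit 760) (nat_lit 3764524572) (nat_lit 76) (nat_lit 4645013943) (nat_lit 297) (nat_lit 5) (nat_lit 307) (nat_lit 5) (nat_lit 298) (nat_lit 5) (nat_lit 464) (nat_lit 415) (nat_lit 261)) (XT.lf (nat_lit 0) (nat_lit 4283183505) (nat_lit 684) (nat_lit 3828399097) (nat_lit 760) (nat_lit 6122865832) (nat_lit 288) (nat_lit 5) (nat_lit 297) (nat_lit 5) (nat_lit 298) (nat_lit 5) (nat_lit 465) (nat_lit 415) (nat_lit 260)))) (XT.nd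 (nat_lit 78) (nat_lit 1368) (nat_lit 0) (XT.lf (nat_lit 0) (nat_lit 10630499330) (nat_lit 760) (nat_lit 1876702941) (nat_lit 76) (nat_lit 1886716907) (nat_lit 288) (nat_lit 5) (nat_lit 298) (nat_lit 5) (nat_lit 289) (nat_lit 5) (nat_lit 466) (nat_lit 415) (nat_lit 259)) (XT.nd (nat_lit 78) (nat_lit 684) (nat_lit 0) (XT.lf (nat_lit 0) (nat_lit 6405047915) (nat_lit 684) (nat_lit 6850730218) (nat_lit 760) (nat_lit 1299683515) (nat_lit 279) (nat_lit 5) (nat_lit 288) (nat_lit 5) (nat_lit 289) (nat_lit 5) (nat_lit 467) (nat_lit 415) (nat_lit 258)) (XT.lf (nat_lit 0) (nat_lit 138734685) (nat_lit 608) (nat_lit 1061359632) (nat_lit 684) (nat_lit 13519931404) (nat_lit 270) (nat_lit 5) (nat_lit 278) (nat_lit 5) (nat_lit 279) (nat_lit 5) (nat_lit 468) (nat_lit 415) (nat_lit 257))))))) (XT.nd (nat_lit 858) (nat_lit 3496) (nat_lit 0) (XT.nd (nat_lit 390) (nat_lit 2432) (nat_lit 0) (XT.nd (nat_lit 156) (nat_lit 608) (nat_lit 0) (XT.nd (nat_lit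 78) (nat_lit 608) (nat_lit 0) (XT.lf (nat_lit 0) (nat_lit 3808203825) (nat_lit 684) (nat_lit 6236189878) (nat_lit 76) (nat_lit 4841802647) (nat_lit 270) (nat_lit 5) (nat_lit 279) (nat_lit 5) (nat_lit 271) (nat_lit 5) (nat_lit 469) (nat_lit 415) (nat_lit 256)) (XT.lf (nat_lit 0) (nat_lit 2285890563) (nat_lit 608) (nat_lit 4193884454) (nat_lit 684) (nat_lit 8575691216) (nat_lit 262) (nat_lit 5) (nat_lit 270) (nat_lit 5) (nat_lit 271) (nat_lit 5) (nat_lit 470) (nat_lit 415) (nat_lit 255))) (XT.nd (nat_lit 78) (nat_lit 608) (nat_lit 0) (XT.lf (nat_lit 0) (nat_lit 9247956636) (nat_lit 684) (nat_lit 4189116059) (nat_lit 76) (nat_lit 1790187034) (nat_lit 262) (nat_lit 5) (nat_lit 271) (nat_lit 5) (nat_lit 263) (nat_lit 5) (nat_lit 471) (nat_lit 415) (nat_lit 254)) (XT.nd (nat_lit 78) (nat_lit 0) (nat_lit 0) (XT.lf (nat_lit 0) (nat_lit 4582549676) (nat_lit 608) (nat_lit 7536222501) (nat_lit 684) (nat_lit 3282773275) (nat_lit 254) (nat_lit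 5) (nat_lit 262) (nat_lit 5) (nat_lit 263) (nat_lit 5) (nat_lit 472) (nat_lit 415) (nat_lit 253)) (XT.lf (nat_lit 0) (nat_lit 13573787085) (nat_lit 608) (nat_lit 1491190389) (nat_lit 684) (nat_lit 513981671) (nat_lit 254) (nat_lit 5) (nat_lit 262) (nat_lit 5) (nat_lit 263) (nat_lit 5) (nat_lit 473) (nat_lit 415) (nat_lit 252))))) (XT.nd (nat_lit 234) (nat_lit 1216) (nat_lit 0) (XT.nd (nat_lit 78) (nat_lit 532) (nat_lit 0) (XT.lf (nat_lit 0) (nat_lit 2346390750) (nat_lit 684) (nat_lit 8739788941) (nat_lit 76) (nat_lit 4672113026) (nat_lit 245) (nat_lit 5) (nat_lit 254) (nat_lit 5) (nat_lit 246) (nat_lit 5) (nat_lit 474) (nat_lit 415) (nat_lit 251)) (XT.nd (nat_lit 78) (nat_lit 0) (nat_lit 0) (XT.lf (nat_lit 0) (nat_lit 286647695) (nat_lit 532) (nat_lit 4985820866) (nat_lit 608) (nat_lit 10668370475) (nat_lit 238) (nat_lit 5) (nat_lit 245) (nat_lit 5) (nat_lit 246) (nat_lit 5) (nat_lit 475) (nat_lit 415) (nat_lit 250)) (XT.lf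 (nat_lit 0) (nat_lit 8314320592) (nat_lit 608) (nat_lit 6534926734) (nat_lit 76) (nat_lit 1276645497) (nat_lit 238) (nat_lit 5) (nat_lit 246) (nat_lit 5) (nat_lit 239) (nat_lit 5) (nat_lit 476) (nat_lit 415) (nat_lit 249)))) (XT.nd (nat_lit 78) (nat_lit 608) (nat_lit 0) (XT.lf (nat_lit 0) (nat_lit 2757387971) (nat_lit 608) (nat_lit 8700922779) (nat_lit 684) (nat_lit 4855512477) (nat_lit 230) (nat_lit 5) (nat_lit 238) (nat_lit 5) (nat_lit 239) (nat_lit 5) (nat_lit 477) (nat_lit 415) (nat_lit 248)) (XT.nd (nat_lit 78) (nat_lit 608) (nat_lit 0) (XT.lf (nat_lit 0) (nat_lit 12311733577) (nat_lit 608) (nat_lit 2387787687) (nat_lit 684) (nat_lit 1805305698) (nat_lit 230) (nat_lit 5) (nat_lit 238) (nat_lit 5) (nat_lit 239) (nat_lit 5) (nat_lit 478) (nat_lit 415) (nat_lit 247)) (XT.lf (nat_lit 0) (nat_lit 1341074923) (nat_lit 608) (nat_lit 11317865880) (nat_lit 76) (nat_lit 4039495928) (nat_lit 222) (nat_lit 5) (nat_lit 230) (nat_lit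 5) (nat_lit 223) (nat_lit 5) (nat_lit 479) (nat_lit 415) (nat_lit 246)))))) (XT.nd (nat_lit 468) (nat_lit 1900) (nat_lit 0) (XT.nd (nat_lit 234) (nat_lit 608) (nat_lit 0) (XT.nd (nat_lit 78) (nat_lit 988) (nat_lit 0) (XT.lf (nat_lit 0) (nat_lit 4561067055) (nat_lit 608) (nat_lit 1733132844) (nat_lit 76) (nat_lit 10600784441) (nat_lit 222) (nat_lit 5) (nat_lit 230) (nat_lit 5) (nat_lit 223) (nat_lit 5) (nat_lit 480) (nat_lit 415) (nat_lit 245)) (XT.nd (nat_lit 78) (nat_lit 456) (nat_lit 0) (XT.lf (nat_lit 0) (nat_lit 7890789933) (nat_lit 608) (nat_lit 8958306084) (nat_lit 76) (nat_lit 245461680) (nat_lit 215) (nat_lit 5) (nat_lit 223) (nat_lit 5) (nat_lit 216) (nat_lit 5) (nat_lit 481) (nat_lit 415) (nat_lit 244)) (XT.lf (nat_lit 0) (nat_lit 886281762) (nat_lit 456) (nat_lit 10450930894) (nat_lit 532) (nat_lit 5959909148) (nat_lit 209) (nat_lit 5) (nat_lit 215) (nat_lit 5) (nat_lit 216) (nat_lit 5) (nat_lit 482) (nat_lit 415)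 (nat_lit 243)))) (XT.nd (nat_lit 78) (nat_lit 608) (nat_lit 0) (XT.lf (nat_lit 0) (nat_lit 11037065451) (nat_lit 456) (nat_lit 3866672198) (nat_lit 532) (nat_lit 2598977428) (nat_lit 209) (nat_lit 5) (nat_lit 215) (nat_lit 5) (nat_lit 216) (nat_lit 5) (nat_lit 483) (nat_lit 415) (nat_lit 242)) (XT.nd (nat_lit 78) (nat_lit 0) (nat_lit 0) (XT.lf (nat_lit 0) (nat_lit 852232707) (nat_lit 608) (nat_lit 14020976879) (nat_lit 76) (nat_lit 2838425578) (nat_lit 201) (nat_lit 5) (nat_lit 209) (nat_lit 5) (nat_lit 202) (nat_lit 5) (nat_lit 484) (nat_lit 415) (nat_lit 241)) (XT.lf (nat_lit 0) (nat_lit 4398231239) (nat_lit 608) (nat_lit 3841321150) (nat_lit 76) (nat_lit 9683627670) (nat_lit 201) (nat_lit 5) (nat_lit 209) (nat_lit 5) (nat_lit 202) (nat_lit 5) (nat_lit 485) (nat_lit 415) (nat_lit 240))))) (XT.nd (nat_lit 234) (nat_lit 988) (nat_lit 0) (XT.nd (nat_lit 78) (nat_lit 456) (nat_lit 0) (XT.lf (nat_lit 0) (nat_lit 6616860988) (nat_lit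 456) (nat_lit 1432671001) (nat_lit 532) (nat_lit 10088737476) (nat_lit 195) (nat_lit 5) (nat_lit 201) (nat_lit 5) (nat_lit 202) (nat_lit 5) (nat_lit 486) (nat_lit 415) (nat_lit 239)) (XT.nd (nat_lit 78) (nat_lit 456) (nat_lit 0) (XT.lf (nat_lit 0) (nat_lit 11827075260) (nat_lit 532) (nat_lit 1068735506) (nat_lit 76) (nat_lit 5460786796) (nat_lit 195) (nat_lit 5) (nat_lit 202) (nat_lit 5) (nat_lit 196) (nat_lit 5) (nat_lit 487) (nat_lit 415) (nat_lit 238)) (XT.lf (nat_lit 0) (nat_lit 9699021431) (nat_lit 456) (nat_lit 6045266836) (nat_lit 532) (nat_lit 2833722786) (nat_lit 189) (nat_lit 5) (nat_lit 195) (nat_lit 5) (nat_lit 196) (nat_lit 5) (nat_lit 488) (nat_lit 415) (nat_lit 237)))) (XT.nd (nat_lit 78) (nat_lit 456) (nat_lit 0) (XT.lf (nat_lit 0) (nat_lit 941228659) (nat_lit 532) (nat_lit 16909788613) (nat_lit 76) (nat_lit 952364928) (nat_lit 182) (nat_lit 5) (nat_lit 189) (nat_lit 5) (nat_lit 183) (nat_lit 5) (nat_lit 489)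 (nat_lit 415) (nat_lit 236)) (XT.nd (nat_lit 78) (nat_lit 456) (nat_lit 0) (XT.lf (nat_lit 0) (nat_lit 4845539186) (nat_lit 532) (nat_lit 6101066425) (nat_lit 76) (nat_lit 8084445608) (nat_lit 182) (nat_lit 5) (nat_lit 189) (nat_lit 5) (nat_lit 183) (nat_lit 5) (nat_lit 490) (nat_lit 415) (nat_lit 235)) (XT.lf (nat_lit 0) (nat_lit 4977555896) (nat_lit 456) (nat_lit 3874615240) (nat_lit 532) (nat_lit 10410618895) (nat_lit 176) (nat_lit 5) (nat_lit 182) (nat_lit 5) (nat_lit 183) (nat_lit 5) (nat_lit 491) (nat_lit 415) (nat_lit 234))))))))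
noncomputable def xc173 : XT := (XT.nd (nat_lit 53586) (nat_lit 0) (nat_lit 26296) (XT.nd (nat_lit 858) (nat_lit 2280) (nat_lit 0) (XT.nd (nat_lit 390) (nat_lit 1216) (nat_lit 0) (XT.nd (nat_lit 156) (nat_lit 912) (nat_lit 0) (XT.nd (nat_lit 78) (nat_lit 380) (nat_lit 0) (XT.lf (nat_lit 0) (nat_lit 12993804986) (nat_lit 532) (nat_lit 3171459790) (nat_lit 76) (nat_lit 3332802552) (nat_lit 176) (nat_lit 5) (nat_lit 183) (nat_lit 5) (nat_lit 177) (nat_lit 5) (nat_lit 492) (nat_lit 415) (nat_lit 233)) (XT.lf (nat_lit 0) (nat_lit 8235550588) (nat_lit 380) (nat_lit 9053987519) (nat_lit 456) (nat_lit 2447087806) (nat_lit 171) (nat_lit 5) (nat_lit 176) (nat_lit 5) (nat_lit 177) (nat_lit 5) (nat_lit 493) (nat_lit 415) (nat_lit 232))) (XT.nd (nat_lit 78) (nat_lit 836) (nat_lit 0) (XT.lf (nat_lit 0) (nat_lit 1682636912) (nat_lit 456) (nat_lit 88381113) (nat_lit 76) (nat_lit 18208447316) (nat_lit 170) (nat_lit 5) (nat_lit 176) (nat_lit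 5) (nat_lit 171) (nat_lit 5) (nat_lit 494) (nat_lit 415) (nat_lit 231)) (XT.nd (nat_lit 78) (nat_lit 380) (nat_lit 0) (XT.lf (nat_lit 0) (nat_lit 5967681322) (nat_lit 532) (nat_lit 8584467523) (nat_lit 76) (nat_lit 5672580383) (nat_lit 164) (nat_lit 5) (nat_lit 171) (nat_lit 5) (nat_lit 165) (nat_lit 5) (nat_lit 495) (nat_lit 415) (nat_lit 230)) (XT.lf (nat_lit 0) (nat_lit 3148090814) (nat_lit 380) (nat_lit 7215474479) (nat_lit 456) (nat_lit 10110831319) (nat_lit 159) (nat_lit 5) (nat_lit 164) (nat_lit 5) (nat_lit 165) (nat_lit 5) (nat_lit 496) (nat_lit 415) (nat_lit 229))))) (XT.nd (nat_lit 234) (nat_lit 760) (nat_lit 0) (XT.nd (nat_lit 78) (nat_lit 456) (nat_lit 0) (XT.lf (nat_lit 0) (nat_lit 14899521300) (nat_lit 456) (nat_lit 5509668958) (nat_lit 76) (nat_lit 318824971) (nat_lit 159) (nat_lit 5) (nat_lit 165) (nat_lit 5) (nat_lit 160) (nat_lit 5) (nat_lit 497) (nat_lit 415) (nat_lit 228)) (XT.nd (nat_lit 78) (nat_lit 76)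 (nat_lit 0) (XT.lf (nat_lit 0) (nat_lit 6570604725) (nat_lit 380) (nat_lit 13038612474) (nat_lit 456) (nat_lit 1375829556) (nat_lit 154) (nat_lit 5) (nat_lit 159) (nat_lit 5) (nat_lit 160) (nat_lit 5) (nat_lit 498) (nat_lit 415) (nat_lit 227)) (XT.lf (nat_lit 0) (nat_lit 3154184470) (nat_lit 456) (nat_lit 2311222741) (nat_lit 76) (nat_lit 15780805165) (nat_lit 153) (nat_lit 5) (nat_lit 159) (nat_lit 5) (nat_lit 154) (nat_lit 5) (nat_lit 499) (nat_lit 415) (nat_lit 226)))) (XT.nd (nat_lit 78) (nat_lit 380) (nat_lit 0) (XT.lf (nat_lit 0) (nat_lit 7830162250) (nat_lit 456) (nat_lit 11379252477) (nat_lit 76) (nat_lit 2301529880) (nat_lit 148) (nat_lit 5) (nat_lit 154) (nat_lit 5) (nat_lit 149) (nat_lit 5) (nat_lit 500) (nat_lit 415) (nat_lit 225)) (XT.nd (nat_lit 78) (nat_lit 0) (nat_lit 0) (XT.lf (nat_lit 0) (nat_lit 1040539005) (nat_lit 380) (nat_lit 11610476811) (nat_lit 456) (nat_lit 9128929420) (nat_lit 143) (nat_lit 5) (nat_lit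 148) (nat_lit 5) (nat_lit 149) (nat_lit 5) (nat_lit 501) (nat_lit 415) (nat_lit 224)) (XT.lf (nat_lit 0) (nat_lit 13852103449) (nat_lit 380) (nat_lit 3785407880) (nat_lit 456) (nat_lit 4415430917) (nat_lit 143) (nat_lit 5) (nat_lit 148) (nat_lit 5) (nat_lit 149) (nat_lit 5) (nat_lit 502) (nat_lit 415) (nat_lit 223)))))) (XT.nd (nat_lit 468) (nat_lit 684) (nat_lit 0) (XT.nd (nat_lit 234) (nat_lit 760) (nat_lit 0) (XT.nd (nat_lit 78) (nat_lit 380) (nat_lit 0) (XT.lf (nat_lit 0) (nat_lit 437685221) (nat_lit 456) (nat_lit 17722322558) (nat_lit 76) (nat_lit 4170331434) (nat_lit 137) (nat_lit 5) (nat_lit 143) (nat_lit 5) (nat_lit 138) (nat_lit 5) (nat_lit 503) (nat_lit 415) (nat_lit 222)) (XT.nd (nat_lit 78) (nat_lit 380) (nat_lit 0) (XT.lf (nat_lit 0) (nat_lit 5402263175) (nat_lit 456) (nat_lit 4893442753) (nat_lit 76) (nat_lit 12315524844) (nat_lit 137) (nat_lit 5) (nat_lit 143) (nat_lit 5) (nat_lit 138) (nat_lit 5) (nat_lit 504)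 (nat_lit 415) (nat_lit 221)) (XT.lf (nat_lit 0) (nat_lit 8290154875) (nat_lit 380) (nat_lit 2222941748) (nat_lit 456) (nat_lit 12383705058) (nat_lit 132) (nat_lit 5) (nat_lit 137) (nat_lit 5) (nat_lit 138) (nat_lit 5) (nat_lit 505) (nat_lit 415) (nat_lit 220)))) (XT.nd (nat_lit 78) (nat_lit 760) (nat_lit 0) (XT.lf (nat_lit 0) (nat_lit 15791411822) (nat_lit 456) (nat_lit 1433547076) (nat_lit 76) (nat_lit 5961820589) (nat_lit 132) (nat_lit 5) (nat_lit 138) (nat_lit 5) (nat_lit 133) (nat_lit 5) (nat_lit 506) (nat_lit 415) (nat_lit 219)) (XT.nd (nat_lit 78) (nat_lit 456) (nat_lit 0) (XT.lf (nat_lit 0) (nat_lit 12137051706) (nat_lit 304) (nat_lit 9125079422) (nat_lit 380) (nat_lit 2218689732) (nat_lit 128) (nat_lit 5) (nat_lit 132) (nat_lit 5) (nat_lit 133) (nat_lit 5) (nat_lit 507) (nat_lit 415) (nat_lit 218)) (XT.lf (nat_lit 0) (nat_lit 2216632446) (nat_lit 380) (nat_lit 822146138) (nat_lit 456) (nat_lit 20741219480) (nat_lit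 122) (nat_lit 5) (nat_lit 127) (nat_lit 5) (nat_lit 128) (nat_lit 5) (nat_lit 508) (nat_lit 415) (nat_lit 217))))) (XT.nd (nat_lit 234) (nat_lit 380) (nat_lit 0) (XT.nd (nat_lit 78) (nat_lit 304) (nat_lit 0) (XT.lf (nat_lit 0) (nat_lit 8491363668) (nat_lit 456) (nat_lit 7956953791) (nat_lit 76) (nat_lit 7634155251) (nat_lit 122) (nat_lit 5) (nat_lit 128) (nat_lit 5) (nat_lit 123) (nat_lit 5) (nat_lit 509) (nat_lit 415) (nat_lit 216)) (XT.nd (nat_lit 78) (nat_lit 0) (nat_lit 0) (XT.lf (nat_lit 0) (nat_lit 5984351501) (nat_lit 304) (nat_lit 8106450659) (nat_lit 380) (nat_lit 10299439365) (nat_lit 118) (nat_lit 5) (nat_lit 122) (nat_lit 5) (nat_lit 123) (nat_lit 5) (nat_lit 510) (nat_lit 415) (nat_lit 215)) (XT.lf (nat_lit 0) (nat_lit 19852129358) (nat_lit 380) (nat_lit 4404034877) (nat_lit 76) (nat_lit 447004175) (nat_lit 118) (nat_lit 5) (nat_lit 123) (nat_lit 5) (nat_lit 119) (nat_lit 5) (nat_lit 511) (nat_lit 415) (nat_lit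 214)))) (XT.nd (nat_lit 51870) (nat_lit 0) (nat_lit 30476) (XT.lf (nat_lit 0) (nat_lit 809723388) (nat_lit 380) (nat_lit 15080958362) (nat_lit 76) (nat_lit 9129327876) (nat_lit 113) (nat_lit 5) (nat_lit 118) (nat_lit 5) (nat_lit 114) (nat_lit 5) (nat_lit 512) (nat_lit 415) (nat_lit 213)) (XT.nd (nat_lit 78) (nat_lit 0) (nat_lit 0) (XT.lf (nat_lit 0) (nat_lit 858994202) (nat_lit 1596) (nat_lit 1803232724) (nat_lit 1596) (nat_lit 1803232724) (nat_lit 514) (nat_lit 3) (nat_lit 535) (nat_lit 3) (nat_lit 535) (nat_lit 5) (nat_lit 416) (nat_lit 416) (nat_lit 308)) (XT.lf (nat_lit 76) (nat_lit 753085223) (nat_lit 0) (nat_lit 1898276240) (nat_lit 1596) (nat_lit 6350322905) (nat_lit 515) (nat_lit 5) (nat_lit 514) (nat_lit 3) (nat_lit 535) (nat_lit 5) (nat_lit 417) (nat_lit 416) (nat_lit 307))))))) (XT.nd (nat_lit 936) (nat_lit 2812) (nat_lit 0) (XT.nd (nat_lit 468) (nat_lit 1444) (nat_lit 0) (XT.nd (nat_lit 234) (nat_lit 0) (nat_lit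 76) (XT.nd (nat_lit 78) (nat_lit 0) (nat_lit 0) (XT.lf (nat_lit 0) (nat_lit 3614220042) (nat_lit 1520) (nat_lit 3848109381) (nat_lit 1596) (nat_lit 1611324730) (nat_lit 515) (nat_lit 5) (nat_lit 535) (nat_lit 5) (nat_lit 536) (nat_lit 5) (nat_lit 418) (nat_lit 416) (nat_lit 306)) (XT.nd (nat_lit 78) (nat_lit 0) (nat_lit 0) (XT.lf (nat_lit 76) (nat_lit 623330329) (nat_lit 0) (nat_lit 3966184150) (nat_lit 1596) (nat_lit 4557690946) (nat_lit 516) (nat_lit 5) (nat_lit 515) (nat_lit 5) (nat_lit 536) (nat_lit 5) (nat_lit 419) (nat_lit 416) (nat_lit 305)) (XT.lf (nat_lit 76) (nat_lit 5223780710) (nat_lit 0) (nat_lit 363295105) (nat_lit 1596) (nat_lit 3635102239) (nat_lit 516) (nat_lit 5) (nat_lit 515) (nat_lit 5) (nat_lit 536) (nat_lit 5) (nat_lit 420) (nat_lit 416) (nat_lit 304)))) (XT.nd (nat_lit 78) (nat_lit 0) (nat_lit 0) (XT.lf (nat_lit 76) (nat_lit 590981405) (nat_lit 0) (nat_lit 6016402540) (nat_lit 1596) (nat_lit 2691215725)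 (nat_lit 517) (nat_lit 5) (nat_lit 516) (nat_lit 5) (nat_lit 537) (nat_lit 5) (nat_lit 421) (nat_lit 416) (nat_lit 303)) (XT.nd (nat_lit 78) (nat_lit 0) (nat_lit 76) (XT.lf (nat_lit 76) (nat_lit 5311135805) (nat_lit 0) (nat_lit 2344000049) (nat_lit 1596) (nat_lit 1721278449) (nat_lit 517) (nat_lit 5) (nat_lit 516) (nat_lit 5) (nat_lit 537) (nat_lit 5) (nat_lit 422) (nat_lit 416) (nat_lit 302)) (XT.lf (nat_lit 76) (nat_lit 656392015) (nat_lit 0) (nat_lit 8059125308) (nat_lit 1596) (nat_lit 740439647) (nat_lit 518) (nat_lit 5) (nat_lit 517) (nat_lit 5) (nat_lit 538) (nat_lit 5) (nat_lit 423) (nat_lit 416) (nat_lit 301))))) (XT.nd (nat_lit 234) (nat_lit 0) (nat_lit 76) (XT.nd (nat_lit 78) (nat_lit 0) (nat_lit 0) (XT.lf (nat_lit 0) (nat_lit 278095657) (nat_lit 1596) (nat_lit 4039563071) (nat_lit 1672) (nat_lit 5218973231) (nat_lit 496) (nat_lit 5) (nat_lit 517) (nat_lit 5) (nat_lit 518) (nat_lit 5) (nat_lit 424) (nat_lit 416) (nat_lit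 300)) (XT.nd (nat_lit 78) (nat_lit 0) (nat_lit 76) (XT.lf (nat_lit 76) (nat_lit 808368545) (nat_lit 0) (nat_lit 482903707) (nat_lit 1672) (nat_lit 8327871541) (nat_lit 497) (nat_lit 5) (nat_lit 496) (nat_lit 5) (nat_lit 518) (nat_lit 5) (nat_lit 425) (nat_lit 416) (nat_lit 299)) (XT.lf (nat_lit 0) (nat_lit 2353567801) (nat_lit 1596) (nat_lit 3930541532) (nat_lit 1672) (nat_lit 3418624255) (nat_lit 497) (nat_lit 5) (nat_lit 518) (nat_lit 5) (nat_lit 519) (nat_lit 5) (nat_lit 426) (nat_lit 416) (nat_lit 298)))) (XT.nd (nat_lit 78) (nat_lit 0) (nat_lit 76) (XT.lf (nat_lit 76) (nat_lit 1044708161) (nat_lit 0) (nat_lit 2382095712) (nat_lit 1672) (nat_lit 6361402152) (nat_lit 498) (nat_lit 5) (nat_lit 497) (nat_lit 5) (nat_lit 519) (nat_lit 5) (nat_lit 427) (nat_lit 416) (nat_lit 297)) (XT.nd (nat_lit 78) (nat_lit 0) (nat_lit 0) (XT.lf (nat_lit 0) (nat_lit 4538502551) (nat_lit 1596) (nat_lit 3726123103) (nat_lit 1672) (nat_lit 1610426948)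 (nat_lit 498) (nat_lit 5) (nat_lit 519) (nat_lit 5) (nat_lit 520) (nat_lit 5) (nat_lit 428) (nat_lit 416) (nat_lit 296)) (XT.lf (nat_lit 76) (nat_lit 1380740777) (nat_lit 0) (nat_lit 4296897518) (nat_lit 1672) (nat_lit 4285898309) (nat_lit 499) (nat_lit 5) (nat_lit 498) (nat_lit 5) (nat_lit 520) (nat_lit 5) (nat_lit 429) (nat_lit 416) (nat_lit 295)))))) (XT.nd (nat_lit 468) (nat_lit 1444) (nat_lit 0) (XT.nd (nat_lit 234) (nat_lit 1520) (nat_lit 0) (XT.nd (nat_lit 78) (nat_lit 0) (nat_lit 76) (XT.lf (nat_lit 76) (nat_lit 6627145730) (nat_lit 0) (nat_lit 218176207) (nat_lit 1672) (nat_lit 3208357511) (nat_lit 499) (nat_lit 5) (nat_lit 498) (nat_lit 5) (nat_lit 520) (nat_lit 5) (nat_lit 430) (nat_lit 416) (nat_lit 294)) (XT.nd (nat_lit 78) (nat_lit 0) (nat_lit 0) (XT.lf (nat_lit 76) (nat_lit 1817831473) (nat_lit 0) (nat_lit 6237102420) (nat_lit 1672) (nat_lit 2090324141) (nat_lit 500) (nat_lit 5) (nat_lit 499) (nat_lit 5) (nat_lit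 521) (nat_lit 5) (nat_lit 431) (nat_lit 416) (nat_lit 293)) (XT.lf (nat_lit 76) (nat_lit 7198886261) (nat_lit 0) (nat_lit 2095741754) (nat_lit 1672) (nat_lit 943926672) (nat_lit 500) (nat_lit 5) (nat_lit 499) (nat_lit 5) (nat_lit 521) (nat_lit 5) (nat_lit 432) (nat_lit 416) (nat_lit 292)))) (XT.nd (nat_lit 78) (nat_lit 0) (nat_lit 0) (XT.lf (nat_lit 0) (nat_lit 233496055) (nat_lit 1672) (nat_lit 7977416300) (nat_lit 1748) (nat_lit 2122558707) (nat_lit 478) (nat_lit 5) (nat_lit 500) (nat_lit 5) (nat_lit 501) (nat_lit 5) (nat_lit 433) (nat_lit 416) (nat_lit 291)) (XT.nd (nat_lit 78) (nat_lit 0) (nat_lit 76) (XT.lf (nat_lit 0) (nat_lit 1438257499) (nat_lit 1672) (nat_lit 2562727317) (nat_lit 1748) (nat_lit 6428851617) (nat_lit 478) (nat_lit 5) (nat_lit 500) (nat_lit 5) (nat_lit 501) (nat_lit 5) (nat_lit 434) (nat_lit 416) (nat_lit 290)) (XT.lf (nat_lit 0) (nat_lit 2670921504) (nat_lit 1672) (nat_lit 7543954267) (nat_lit 1748)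 (nat_lit 313181159) (nat_lit 479) (nat_lit 5) (nat_lit 501) (nat_lit 5) (nat_lit 502) (nat_lit 5) (nat_lit 435) (nat_lit 416) (nat_lit 289))))) (XT.nd (nat_lit 234) (nat_lit 1520) (nat_lit 0) (XT.nd (nat_lit 78) (nat_lit 0) (nat_lit 0) (XT.lf (nat_lit 0) (nat_lit 3954693303) (nat_lit 1672) (nat_lit 1991408624) (nat_lit 1748) (nat_lit 4681614709) (nat_lit 479) (nat_lit 5) (nat_lit 501) (nat_lit 5) (nat_lit 502) (nat_lit 5) (nat_lit 436) (nat_lit 416) (nat_lit 288)) (XT.nd (nat_lit 78) (nat_lit 0) (nat_lit 76) (XT.lf (nat_lit 76) (nat_lit 3707570302) (nat_lit 0) (nat_lit 1563629288) (nat_lit 1748) (nat_lit 5458032576) (nat_lit 480) (nat_lit 5) (nat_lit 479) (nat_lit 5) (nat_lit 502) (nat_lit 5) (nat_lit 437) (nat_lit 416) (nat_lit 287)) (XT.lf (nat_lit 0) (nat_lit 6629617431) (nat_lit 1672) (nat_lit 1317465660) (nat_lit 1748) (nat_lit 2885387025) (nat_lit 480) (nat_lit 5) (nat_lit 502) (nat_lit 5) (nat_lit 503) (nat_lit 5) (nat_lit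 438) (nat_lit 416) (nat_lit 286)))) (XT.nd (nat_lit 78) (nat_lit 1596) (nat_lit 0) (XT.lf (nat_lit 76) (nat_lit 4536705666) (nat_lit 0) (nat_lit 3501895334) (nat_lit 1748) (nat_lit 2898707542) (nat_lit 481) (nat_lit 5) (nat_lit 480) (nat_lit 5) (nat_lit 503) (nat_lit 5) (nat_lit 439) (nat_lit 416) (nat_lit 285)) (XT.nd (nat_lit 78) (nat_lit 1672) (nat_lit 0) (XT.lf (nat_lit 0) (nat_lit 9475208178) (nat_lit 1672) (nat_lit 538520988) (nat_lit 76) (nat_lit 1030529282) (nat_lit 481) (nat_lit 5) (nat_lit 503) (nat_lit 5) (nat_lit 482) (nat_lit 5) (nat_lit 440) (nat_lit 416) (nat_lit 284)) (XT.lf (nat_lit 0) (nat_lit 5476184447) (nat_lit 1672) (nat_lit 5507269041) (nat_lit 1748) (nat_lit 169039267) (nat_lit 459) (nat_lit 5) (nat_lit 481) (nat_lit 5) (nat_lit 482) (nat_lit 5) (nat_lit 441) (nat_lit 416) (nat_lit 283))))))))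
noncomputable def xc174 : XT := (XT.nd (nat_lit 1794) (nat_lit 7752) (nat_lit 0) (XT.nd (nat_lit 858) (nat_lit 5396) (nat_lit 0) (XT.nd (nat_lit 390) (nat_lit 2736) (nat_lit 0) (XT.nd (nat_lit 156) (nat_lit 2356) (nat_lit 0) (XT.nd (nat_lit 78) (nat_lit 0) (nat_lit 0) (XT.lf (nat_lit 0) (nat_lit 338533181) (nat_lit 1748) (nat_lit 894040737) (nat_lit 1824) (nat_lit 10030355460) (nat_lit 435) (nat_lit 5) (nat_lit 458) (nat_lit 5) (nat_lit 459) (nat_lit 5) (nat_lit 442) (nat_lit 416) (nat_lit 282)) (XT.lf (nat_lit 0) (nat_lit 2707562136) (nat_lit 1824) (nat_lit 4863928520) (nat_lit 76) (nat_lit 3803112927) (nat_lit 435) (nat_lit 5) (nat_lit 459) (nat_lit 5) (nat_lit 436) (nat_lit 5) (nat_lit 443) (nat_lit 416) (nat_lit 281))) (XT.nd (nat_lit 78) (nat_lit 912) (nat_lit 0) (XT.lf (nat_lit 0) (nat_lit 1315738008) (nat_lit 1444) (nat_lit 2895593529) (nat_lit 1520) (nat_lit 7277197359) (nat_lit 416) (nat_lit 5) (nat_lit 435) (nat_lit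 5) (nat_lit 436) (nat_lit 5) (nat_lit 444) (nat_lit 416) (nat_lit 280)) (XT.nd (nat_lit 78) (nat_lit 912) (nat_lit 0) (XT.lf (nat_lit 0) (nat_lit 5775238797) (nat_lit 1520) (nat_lit 3945104232) (nat_lit 76) (nat_lit 1883791627) (nat_lit 416) (nat_lit 5) (nat_lit 436) (nat_lit 5) (nat_lit 417) (nat_lit 5) (nat_lit 445) (nat_lit 416) (nat_lit 279)) (XT.lf (nat_lit 0) (nat_lit 2406212303) (nat_lit 912) (nat_lit 4984344761) (nat_lit 988) (nat_lit 4331095937) (nat_lit 404) (nat_lit 5) (nat_lit 416) (nat_lit 5) (nat_lit 417) (nat_lit 5) (nat_lit 446) (nat_lit 416) (nat_lit 278))))) (XT.nd (nat_lit 234) (nat_lit 1748) (nat_lit 0) (XT.nd (nat_lit 78) (nat_lit 988) (nat_lit 0) (XT.lf (nat_lit 0) (nat_lit 8924813988) (nat_lit 912) (nat_lit 125377202) (nat_lit 988) (nat_lit 2791093398) (nat_lit 404) (nat_lit 5) (nat_lit 416) (nat_lit 5) (nat_lit 417) (nat_lit 5) (nat_lit 447) (nat_lit 416) (nat_lit 277)) (XT.nd (nat_lit 78) (nat_lit 76)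 (nat_lit 0) (XT.lf (nat_lit 0) (nat_lit 3613249272) (nat_lit 912) (nat_lit 7170420212) (nat_lit 988) (nat_lit 1178829299) (nat_lit 392) (nat_lit 5) (nat_lit 404) (nat_lit 5) (nat_lit 405) (nat_lit 5) (nat_lit 448) (nat_lit 416) (nat_lit 276)) (XT.lf (nat_lit 0) (nat_lit 466027810) (nat_lit 988) (nat_lit 1789988431) (nat_lit 76) (nat_lit 9829934336) (nat_lit 391) (nat_lit 5) (nat_lit 404) (nat_lit 5) (nat_lit 392) (nat_lit 5) (nat_lit 449) (nat_lit 416) (nat_lit 275)))) (XT.nd (nat_lit 78) (nat_lit 836) (nat_lit 0) (XT.lf (nat_lit 0) (nat_lit 2164481913) (nat_lit 988) (nat_lit 7285115651) (nat_lit 76) (nat_lit 2761391146) (nat_lit 379) (nat_lit 5) (nat_lit 392) (nat_lit 5) (nat_lit 380) (nat_lit 5) (nat_lit 450) (nat_lit 416) (nat_lit 274)) (XT.nd (nat_lit 78) (nat_lit 836) (nat_lit 0) (XT.lf (nat_lit 0) (nat_lit 3910327199) (nat_lit 988) (nat_lit 566279059) (nat_lit 76) (nat_lit 7861655682) (nat_lit 379) (nat_lit 5) (nat_lit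 392) (nat_lit 5) (nat_lit 380) (nat_lit 5) (nat_lit 451) (nat_lit 416) (nat_lit 273)) (XT.lf (nat_lit 0) (nat_lit 5723166263) (nat_lit 912) (nat_lit 6114384178) (nat_lit 76) (nat_lit 629891380) (nat_lit 368) (nat_lit 5) (nat_lit 380) (nat_lit 5) (nat_lit 369) (nat_lit 5) (nat_lit 452) (nat_lit 416) (nat_lit 272)))))) (XT.nd (nat_lit 468) (nat_lit 2964) (nat_lit 0) (XT.nd (nat_lit 234) (nat_lit 836) (nat_lit 0) (XT.nd (nat_lit 78) (nat_lit 760) (nat_lit 0) (XT.lf (nat_lit 0) (nat_lit 786766486) (nat_lit 836) (nat_lit 6810911626) (nat_lit 912) (nat_lit 5001021534) (nat_lit 357) (nat_lit 5) (nat_lit 368) (nat_lit 5) (nat_lit 369) (nat_lit 5) (nat_lit 453) (nat_lit 416) (nat_lit 271)) (XT.nd (nat_lit 78) (nat_lit 760) (nat_lit 0) (XT.lf (nat_lit 0) (nat_lit 7895700773) (nat_lit 836) (nat_lit 1642019285) (nat_lit 912) (nat_lit 3194304391) (nat_lit 357) (nat_lit 5) (nat_lit 368) (nat_lit 5) (nat_lit 369) (nat_lit 5) (nat_lit 454)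 (nat_lit 416) (nat_lit 270)) (XT.lf (nat_lit 0) (nat_lit 2271903773) (nat_lit 760) (nat_lit 9270242785) (nat_lit 836) (nat_lit 1325360080) (nat_lit 347) (nat_lit 5) (nat_lit 357) (nat_lit 5) (nat_lit 358) (nat_lit 5) (nat_lit 455) (nat_lit 416) (nat_lit 269)))) (XT.nd (nat_lit 78) (nat_lit 760) (nat_lit 0) (XT.lf (nat_lit 0) (nat_lit 604229577) (nat_lit 836) (nat_lit 3445262211) (nat_lit 76) (nat_lit 8955515992) (nat_lit 346) (nat_lit 5) (nat_lit 357) (nat_lit 5) (nat_lit 347) (nat_lit 5) (nat_lit 456) (nat_lit 416) (nat_lit 268)) (XT.nd (nat_lit 78) (nat_lit 0) (nat_lit 0) (XT.lf (nat_lit 0) (nat_lit 2575948937) (nat_lit 836) (nat_lit 9276122129) (nat_lit 76) (nat_lit 1292589393) (nat_lit 336) (nat_lit 5) (nat_lit 347) (nat_lit 5) (nat_lit 337) (nat_lit 5) (nat_lit 457) (nat_lit 416) (nat_lit 267)) (XT.lf (nat_lit 0) (nat_lit 4624939573) (nat_lit 836) (nat_lit 1951402728) (nat_lit 76) (nat_lit 6710009522) (nat_lit 336) (nat_lit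 5) (nat_lit 347) (nat_lit 5) (nat_lit 337) (nat_lit 5) (nat_lit 458) (nat_lit 416) (nat_lit 266))))) (XT.nd (nat_lit 234) (nat_lit 1444) (nat_lit 0) (XT.nd (nat_lit 78) (nat_lit 760) (nat_lit 0) (XT.lf (nat_lit 0) (nat_lit 5580148346) (nat_lit 760) (nat_lit 1158978397) (nat_lit 836) (nat_lit 6691268262) (nat_lit 326) (nat_lit 5) (nat_lit 336) (nat_lit 5) (nat_lit 337) (nat_lit 5) (nat_lit 459) (nat_lit 416) (nat_lit 265)) (XT.nd (nat_lit 78) (nat_lit 760) (nat_lit 0) (XT.lf (nat_lit 0) (nat_lit 8925264572) (nat_lit 836) (nat_lit 329709851) (nat_lit 76) (nat_lit 4321753565) (nat_lit 326) (nat_lit 5) (nat_lit 337) (nat_lit 5) (nat_lit 327) (nat_lit 5) (nat_lit 460) (nat_lit 416) (nat_lit 264)) (XT.lf (nat_lit 0) (nat_lit 7418110552) (nat_lit 760) (nat_lit 3781219458) (nat_lit 836) (nat_lit 2525775759) (nat_lit 316) (nat_lit 5) (nat_lit 326) (nat_lit 5) (nat_lit 327) (nat_lit 5) (nat_lit 461) (nat_lit 416) (nat_lit 263)))) (XT.nd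 (nat_lit 78) (nat_lit 760) (nat_lit 0) (XT.lf (nat_lit 0) (nat_lit 1443282051) (nat_lit 684) (nat_lit 12087397017) (nat_lit 760) (nat_lit 345538180) (nat_lit 307) (nat_lit 5) (nat_lit 316) (nat_lit 5) (nat_lit 317) (nat_lit 5) (nat_lit 462) (nat_lit 416) (nat_lit 262)) (XT.nd (nat_lit 78) (nat_lit 684) (nat_lit 0) (XT.lf (nat_lit 0) (nat_lit 1909884132) (nat_lit 760) (nat_lit 4645914739) (nat_lit 76) (nat_lit 7473186000) (nat_lit 306) (nat_lit 5) (nat_lit 316) (nat_lit 5) (nat_lit 307) (nat_lit 5) (nat_lit 463) (nat_lit 416) (nat_lit 261)) (XT.lf (nat_lit 0) (nat_lit 3325474518) (nat_lit 684) (nat_lit 890702801) (nat_lit 760) (nat_lit 9968379127) (nat_lit 297) (nat_lit 5) (nat_lit 306) (nat_lit 5) (nat_lit 307) (nat_lit 5) (nat_lit 464) (nat_lit 416) (nat_lit 260))))))) (XT.nd (nat_lit 936) (nat_lit 3268) (nat_lit 0) (XT.nd (nat_lit 468) (nat_lit 2432) (nat_lit 0) (XT.nd (nat_lit 234) (nat_lit 1368) (nat_lit 0) (XT.nd (nat_lit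 78) (nat_lit 684) (nat_lit 0) (XT.lf (nat_lit 0) (nat_lit 6620635004) (nat_lit 760) (nat_lit 2868115686) (nat_lit 76) (nat_lit 4853450014) (nat_lit 297) (nat_lit 5) (nat_lit 307) (nat_lit 5) (nat_lit 298) (nat_lit 5) (nat_lit 465) (nat_lit 416) (nat_lit 259)) (XT.nd (nat_lit 78) (nat_lit 0) (nat_lit 0) (XT.lf (nat_lit 0) (nat_lit 5334153793) (nat_lit 684) (nat_lit 3768698305) (nat_lit 760) (nat_lit 5399554326) (nat_lit 288) (nat_lit 5) (nat_lit 297) (nat_lit 5) (nat_lit 298) (nat_lit 5) (nat_lit 466) (nat_lit 416) (nat_lit 258)) (XT.lf (nat_lit 0) (nat_lit 11656758916) (nat_lit 760) (nat_lit 952322442) (nat_lit 76) (nat_lit 2056295936) (nat_lit 288) (nat_lit 5) (nat_lit 298) (nat_lit 5) (nat_lit 289) (nat_lit 5) (nat_lit 467) (nat_lit 416) (nat_lit 257)))) (XT.nd (nat_lit 78) (nat_lit 684) (nat_lit 0) (XT.lf (nat_lit 0) (nat_lit 7488735046) (nat_lit 684) (nat_lit 6836058634) (nat_lit 760) (nat_lit 505554812) (nat_lit 279) (nat_lit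 5) (nat_lit 288) (nat_lit 5) (nat_lit 289) (nat_lit 5) (nat_lit 468) (nat_lit 416) (nat_lit 256)) (XT.nd (nat_lit 78) (nat_lit 0) (nat_lit 0) (XT.lf (nat_lit 0) (nat_lit 1101634715) (nat_lit 608) (nat_lit 922191652) (nat_lit 684) (nat_lit 12974466484) (nat_lit 270) (nat_lit 5) (nat_lit 278) (nat_lit 5) (nat_lit 279) (nat_lit 5) (nat_lit 469) (nat_lit 416) (nat_lit 255)) (XT.lf (nat_lit 0) (nat_lit 4669438054) (nat_lit 684) (nat_lit 5404818254) (nat_lit 76) (nat_lit 5093826505) (nat_lit 270) (nat_lit 5) (nat_lit 279) (nat_lit 5) (nat_lit 271) (nat_lit 5) (nat_lit 470) (nat_lit 416) (nat_lit 254))))) (XT.nd (nat_lit 234) (nat_lit 1216) (nat_lit 0) (XT.nd (nat_lit 78) (nat_lit 608) (nat_lit 0) (XT.lf (nat_lit 0) (nat_lit 3281413693) (nat_lit 608) (nat_lit 4103800210) (nat_lit 684) (nat_lit 7955711394) (nat_lit 262) (nat_lit 5) (nat_lit 270) (nat_lit 5) (nat_lit 271) (nat_lit 5) (nat_lit 471) (nat_lit 416) (nat_lit 253)) (XT.nd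 (nat_lit 78) (nat_lit 608) (nat_lit 0) (XT.lf (nat_lit 0) (nat_lit 10194653869) (nat_lit 684) (nat_lit 3327480632) (nat_lit 76) (nat_lit 1994304884) (nat_lit 262) (nat_lit 5) (nat_lit 271) (nat_lit 5) (nat_lit 263) (nat_lit 5) (nat_lit 472) (nat_lit 416) (nat_lit 252)) (XT.lf (nat_lit 0) (nat_lit 5613398564) (nat_lit 608) (nat_lit 7500649011) (nat_lit 684) (nat_lit 2580342574) (nat_lit 254) (nat_lit 5) (nat_lit 262) (nat_lit 5) (nat_lit 263) (nat_lit 5) (nat_lit 473) (nat_lit 416) (nat_lit 251)))) (XT.nd (nat_lit 78) (nat_lit 1140) (nat_lit 0) (XT.lf (nat_lit 0) (nat_lit 225764062) (nat_lit 684) (nat_lit 1111090100) (nat_lit 76) (nat_lit 14538766018) (nat_lit 253) (nat_lit 5) (nat_lit 262) (nat_lit 5) (nat_lit 254) (nat_lit 5) (nat_lit 474) (nat_lit 416) (nat_lit 250)) (XT.nd (nat_lit 78) (nat_lit 532) (nat_lit 0) (XT.lf (nat_lit 0) (nat_lit 3129134186) (nat_lit 684) (nat_lit 7976348387) (nat_lit 76) (nat_lit 4953138868) (nat_lit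 245) (nat_lit 5) (nat_lit 254) (nat_lit 5) (nat_lit 246) (nat_lit 5) (nat_lit 475) (nat_lit 416) (nat_lit 249)) (XT.lf (nat_lit 0) (nat_lit 1224444374) (nat_lit 532) (nat_lit 4880912998) (nat_lit 608) (nat_lit 10139631207) (nat_lit 238) (nat_lit 5) (nat_lit 245) (nat_lit 5) (nat_lit 246) (nat_lit 5) (nat_lit 476) (nat_lit 416) (nat_lit 248)))))) (XT.nd (nat_lit 468) (nat_lit 1520) (nat_lit 0) (XT.nd (nat_lit 234) (nat_lit 1140) (nat_lit 0) (XT.nd (nat_lit 78) (nat_lit 608) (nat_lit 0) (XT.lf (nat_lit 0) (nat_lit 9195085432) (nat_lit 608) (nat_lit 5738760164) (nat_lit 76) (nat_lit 1500159388) (nat_lit 238) (nat_lit 5) (nat_lit 246) (nat_lit 5) (nat_lit 239) (nat_lit 5) (nat_lit 477) (nat_lit 416) (nat_lit 247)) (XT.nd (nat_lit 78) (nat_lit 0) (nat_lit 0) (XT.lf (nat_lit 0) (nat_lit 3733303038) (nat_lit 608) (nat_lit 8660621207) (nat_lit 684) (nat_lit 4231932652) (nat_lit 230) (nat_lit 5) (nat_lit 238) (nat_lit 5) (nat_lit 239)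 (nat_lit 5) (nat_lit 478) (nat_lit 416) (nat_lit 246)) (XT.lf (nat_lit 0) (nat_lit 13460681295) (nat_lit 608) (nat_lit 2225425766) (nat_lit 684) (nat_lit 1134852916) (nat_lit 230) (nat_lit 5) (nat_lit 238) (nat_lit 5) (nat_lit 239) (nat_lit 5) (nat_lit 479) (nat_lit 416) (nat_lit 245)))) (XT.nd (nat_lit 78) (nat_lit 532) (nat_lit 0) (XT.lf (nat_lit 0) (nat_lit 2058805419) (nat_lit 608) (nat_lit 10625643542) (nat_lit 76) (nat_lit 4334031041) (nat_lit 222) (nat_lit 5) (nat_lit 230) (nat_lit 5) (nat_lit 223) (nat_lit 5) (nat_lit 480) (nat_lit 416) (nat_lit 244)) (XT.nd (nat_lit 78) (nat_lit 532) (nat_lit 0) (XT.lf (nat_lit 0) (nat_lit 5329650159) (nat_lit 608) (nat_lit 867227211) (nat_lit 76) (nat_lit 11022354242) (nat_lit 222) (nat_lit 5) (nat_lit 230) (nat_lit 5) (nat_lit 223) (nat_lit 5) (nat_lit 481) (nat_lit 416) (nat_lit 243)) (XT.lf (nat_lit 0) (nat_lit 8719953767) (nat_lit 608) (nat_lit 8230787072) (nat_lit 76) (nat_lit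 472177935) (nat_lit 215) (nat_lit 5) (nat_lit 223) (nat_lit 5) (nat_lit 216) (nat_lit 5) (nat_lit 482) (nat_lit 416) (nat_lit 242))))) (XT.nd (nat_lit 234) (nat_lit 456) (nat_lit 0) (XT.nd (nat_lit 78) (nat_lit 608) (nat_lit 0) (XT.lf (nat_lit 0) (nat_lit 1804727497) (nat_lit 456) (nat_lit 10423261833) (nat_lit 532) (nat_lit 5401693167) (nat_lit 209) (nat_lit 5) (nat_lit 215) (nat_lit 5) (nat_lit 216) (nat_lit 5) (nat_lit 483) (nat_lit 416) (nat_lit 241)) (XT.nd (nat_lit 78) (nat_lit 608) (nat_lit 0) (XT.lf (nat_lit 0) (nat_lit 12140865682) (nat_lit 456) (nat_lit 3711958898) (nat_lit 532) (nat_lit 1986825444) (nat_lit 209) (nat_lit 5) (nat_lit 215) (nat_lit 5) (nat_lit 216) (nat_lit 5) (nat_lit 484) (nat_lit 416) (nat_lit 240)) (XT.lf (nat_lit 0) (nat_lit 1519142936) (nat_lit 608) (nat_lit 13403879103) (nat_lit 76) (nat_lit 3129753253) (nat_lit 201) (nat_lit 5) (nat_lit 209) (nat_lit 5) (nat_lit 202) (nat_lit 5) (nat_lit 485)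 (nat_lit 416) (nat_lit 239)))) (XT.nd (nat_lit 78) (nat_lit 456) (nat_lit 0) (XT.lf (nat_lit 0) (nat_lit 5123318976) (nat_lit 608) (nat_lit 3038228638) (nat_lit 76) (nat_lit 10107260188) (nat_lit 201) (nat_lit 5) (nat_lit 209) (nat_lit 5) (nat_lit 202) (nat_lit 5) (nat_lit 486) (nat_lit 416) (nat_lit 238)) (XT.nd (nat_lit 78) (nat_lit 0) (nat_lit 0) (XT.lf (nat_lit 0) (nat_lit 7623328202) (nat_lit 456) (nat_lit 1217500360) (nat_lit 532) (nat_lit 9647508609) (nat_lit 195) (nat_lit 5) (nat_lit 201) (nat_lit 5) (nat_lit 202) (nat_lit 5) (nat_lit 487) (nat_lit 416) (nat_lit 237)) (XT.lf (nat_lit 0) (nat_lit 12683115786) (nat_lit 532) (nat_lit 222223343) (nat_lit 76) (nat_lit 5805910635) (nat_lit 195) (nat_lit 5) (nat_lit 202) (nat_lit 5) (nat_lit 196) (nat_lit 5) (nat_lit 488) (nat_lit 416) (nat_lit 236))))))))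
noncomputable def xc175 : XT := (XT.nd (nat_lit 1794) (nat_lit 0) (nat_lit 0) (XT.nd (nat_lit 858) (nat_lit 2736) (nat_lit 0) (XT.nd (nat_lit 390) (nat_lit 1672) (nat_lit 0) (XT.nd (nat_lit 156) (nat_lit 456) (nat_lit 0) (XT.nd (nat_lit 78) (nat_lit 532) (nat_lit 0) (XT.lf (nat_lit 0) (nat_lit 10755178951) (nat_lit 456) (nat_lit 5916944888) (nat_lit 532) (nat_lit 2265100430) (nat_lit 189) (nat_lit 5) (nat_lit 195) (nat_lit 5) (nat_lit 196) (nat_lit 5) (nat_lit 489) (nat_lit 416) (nat_lit 235)) (XT.lf (nat_lit 0) (nat_lit 1572313655) (nat_lit 532) (nat_lit 16372600030) (nat_lit 76) (nat_lit 1222206359) (nat_lit 182) (nat_lit 5) (nat_lit 189) (nat_lit 5) (nat_lit 183) (nat_lit 5) (nat_lit 490) (nat_lit 416) (nat_lit 234))) (XT.nd (nat_lit 78) (nat_lit 456) (nat_lit 0) (XT.lf (nat_lit 0) (nat_lit 5542705286) (nat_lit 532) (nat_lit 5364867797) (nat_lit 76) (nat_lit 8492011121) (nat_lit 182) (nat_lit 5) (nat_lit 189) (nat_lit 5)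 (nat_lit 183) (nat_lit 5) (nat_lit 491) (nat_lit 416) (nat_lit 233)) (XT.nd (nat_lit 78) (nat_lit 0) (nat_lit 0) (XT.lf (nat_lit 0) (nat_lit 5929680786) (nat_lit 456) (nat_lit 3693554851) (nat_lit 532) (nat_lit 10012848466) (nat_lit 176) (nat_lit 5) (nat_lit 182) (nat_lit 5) (nat_lit 183) (nat_lit 5) (nat_lit 492) (nat_lit 416) (nat_lit 232)) (XT.lf (nat_lit 0) (nat_lit 13837700472) (nat_lit 532) (nat_lit 2388950942) (nat_lit 76) (nat_lit 3649617160) (nat_lit 176) (nat_lit 5) (nat_lit 183) (nat_lit 5) (nat_lit 177) (nat_lit 5) (nat_lit 493) (nat_lit 416) (nat_lit 231))))) (XT.nd (nat_lit 234) (nat_lit 760) (nat_lit 0) (XT.nd (nat_lit 78) (nat_lit 532) (nat_lit 0) (XT.lf (nat_lit 0) (nat_lit 9240634262) (nat_lit 380) (nat_lit 8972718890) (nat_lit 456) (nat_lit 1906366645) (nat_lit 171) (nat_lit 5) (nat_lit 176) (nat_lit 5) (nat_lit 177) (nat_lit 5) (nat_lit 494) (nat_lit 416) (nat_lit 230)) (XT.nd (nat_lit 78) (nat_lit 0) (nat_lit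 0) (XT.lf (nat_lit 0) (nat_lit 751255899) (nat_lit 456) (nat_lit 1540430405) (nat_lit 532) (nat_lit 18075785295) (nat_lit 164) (nat_lit 5) (nat_lit 170) (nat_lit 5) (nat_lit 171) (nat_lit 5) (nat_lit 495) (nat_lit 416) (nat_lit 229)) (XT.lf (nat_lit 0) (nat_lit 6653427856) (nat_lit 532) (nat_lit 7920405358) (nat_lit 76) (nat_lit 6043989099) (nat_lit 164) (nat_lit 5) (nat_lit 171) (nat_lit 5) (nat_lit 165) (nat_lit 5) (nat_lit 496) (nat_lit 416) (nat_lit 228)))) (XT.nd (nat_lit 78) (nat_lit 380) (nat_lit 0) (XT.lf (nat_lit 0) (nat_lit 4041305781) (nat_lit 380) (nat_lit 7090208537) (nat_lit 456) (nat_lit 9741084474) (nat_lit 159) (nat_lit 5) (nat_lit 164) (nat_lit 5) (nat_lit 165) (nat_lit 5) (nat_lit 497) (nat_lit 416) (nat_lit 227)) (XT.nd (nat_lit 78) (nat_lit 380) (nat_lit 0) (XT.lf (nat_lit 0) (nat_lit 15748911707) (nat_lit 456) (nat_lit 4796540141) (nat_lit 76) (nat_lit 586024903) (nat_lit 159) (nat_lit 5) (nat_lit 165)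 (nat_lit 5) (nat_lit 160) (nat_lit 5) (nat_lit 498) (nat_lit 416) (nat_lit 226)) (XT.lf (nat_lit 0) (nat_lit 7519922423) (nat_lit 380) (nat_lit 13027377723) (nat_lit 456) (nat_lit 846460177) (nat_lit 154) (nat_lit 5) (nat_lit 159) (nat_lit 5) (nat_lit 160) (nat_lit 5) (nat_lit 499) (nat_lit 416) (nat_lit 225)))))) (XT.nd (nat_lit 468) (nat_lit 1444) (nat_lit 0) (XT.nd (nat_lit 234) (nat_lit 456) (nat_lit 0) (XT.nd (nat_lit 78) (nat_lit 760) (nat_lit 0) (XT.lf (nat_lit 0) (nat_lit 3756074345) (nat_lit 456) (nat_lit 1548351807) (nat_lit 76) (nat_lit 16355867648) (nat_lit 153) (nat_lit 5) (nat_lit 159) (nat_lit 5) (nat_lit 154) (nat_lit 5) (nat_lit 500) (nat_lit 416) (nat_lit 224)) (XT.nd (nat_lit 78) (nat_lit 380) (nat_lit 0) (XT.lf (nat_lit 0) (nat_lit 8521980524) (nat_lit 456) (nat_lit 10794085589) (nat_lit 76) (nat_lit 2614327692) (nat_lit 148) (nat_lit 5) (nat_lit 154) (nat_lit 5) (nat_lit 149) (nat_lit 5) (nat_lit 501) (nat_lit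 416) (nat_lit 223)) (XT.lf (nat_lit 0) (nat_lit 1868754671) (nat_lit 380) (nat_lit 11565244288) (nat_lit 456) (nat_lit 8770881816) (nat_lit 143) (nat_lit 5) (nat_lit 148) (nat_lit 5) (nat_lit 149) (nat_lit 5) (nat_lit 502) (nat_lit 416) (nat_lit 222)))) (XT.nd (nat_lit 78) (nat_lit 456) (nat_lit 0) (XT.lf (nat_lit 0) (nat_lit 14920718934) (nat_lit 380) (nat_lit 3589114019) (nat_lit 456) (nat_lit 3973713857) (nat_lit 143) (nat_lit 5) (nat_lit 148) (nat_lit 5) (nat_lit 149) (nat_lit 5) (nat_lit 503) (nat_lit 416) (nat_lit 221)) (XT.nd (nat_lit 78) (nat_lit 0) (nat_lit 0) (XT.lf (nat_lit 0) (nat_lit 966195548) (nat_lit 456) (nat_lit 17274804505) (nat_lit 76) (nat_lit 4525490400) (nat_lit 137) (nat_lit 5) (nat_lit 143) (nat_lit 5) (nat_lit 138) (nat_lit 5) (nat_lit 504) (nat_lit 416) (nat_lit 220)) (XT.lf (nat_lit 0) (nat_lit 6019873755) (nat_lit 456) (nat_lit 4205071898) (nat_lit 76) (nat_lit 12828259200) (nat_lit 137) (nat_lit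 5) (nat_lit 143) (nat_lit 5) (nat_lit 138) (nat_lit 5) (nat_lit 505) (nat_lit 416) (nat_lit 219))))) (XT.nd (nat_lit 234) (nat_lit 760) (nat_lit 0) (XT.nd (nat_lit 78) (nat_lit 304) (nat_lit 0) (XT.lf (nat_lit 0) (nat_lit 9237025053) (nat_lit 380) (nat_lit 1990978547) (nat_lit 456) (nat_lit 12116583146) (nat_lit 132) (nat_lit 5) (nat_lit 137) (nat_lit 5) (nat_lit 138) (nat_lit 5) (nat_lit 506) (nat_lit 416) (nat_lit 218)) (XT.nd (nat_lit 78) (nat_lit 304) (nat_lit 0) (XT.lf (nat_lit 0) (nat_lit 16603749627) (nat_lit 456) (nat_lit 688273573) (nat_lit 76) (nat_lit 6348504757) (nat_lit 132) (nat_lit 5) (nat_lit 138) (nat_lit 5) (nat_lit 133) (nat_lit 5) (nat_lit 507) (nat_lit 416) (nat_lit 217)) (XT.lf (nat_lit 0) (nat_lit 13148645444) (nat_lit 304) (nat_lit 9030494295) (nat_lit 380) (nat_lit 1761406407) (nat_lit 128) (nat_lit 5) (nat_lit 132) (nat_lit 5) (nat_lit 133) (nat_lit 5) (nat_lit 508) (nat_lit 416) (nat_lit 216)))) (XT.nd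 (nat_lit 78) (nat_lit 304) (nat_lit 0) (XT.lf (nat_lit 0) (nat_lit 3031349953) (nat_lit 380) (nat_lit 558576442) (nat_lit 456) (nat_lit 20655810541) (nat_lit 122) (nat_lit 5) (nat_lit 127) (nat_lit 5) (nat_lit 128) (nat_lit 5) (nat_lit 509) (nat_lit 416) (nat_lit 215)) (XT.nd (nat_lit 78) (nat_lit 304) (nat_lit 0) (XT.lf (nat_lit 0) (nat_lit 9143730419) (nat_lit 456) (nat_lit 7352928240) (nat_lit 76) (nat_lit 8057760124) (nat_lit 122) (nat_lit 5) (nat_lit 128) (nat_lit 5) (nat_lit 123) (nat_lit 5) (nat_lit 510) (nat_lit 416) (nat_lit 214)) (XT.lf (nat_lit 0) (nat_lit 6862182338) (nat_lit 304) (nat_lit 7988436156) (nat_lit 380) (nat_lit 10017816294) (nat_lit 118) (nat_lit 5) (nat_lit 122) (nat_lit 5) (nat_lit 123) (nat_lit 5) (nat_lit 511) (nat_lit 416) (nat_lit 213))))))) (XT.nd (nat_lit 52806) (nat_lit 0) (nat_lit 27284) (XT.nd (nat_lit 52338) (nat_lit 0) (nat_lit 28728) (XT.nd (nat_lit 52104) (nat_lit 0) (nat_lit 30172) (XT.nd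 (nat_lit 51948) (nat_lit 0) (nat_lit 30096) (XT.lf (nat_lit 0) (nat_lit 20719582895) (nat_lit 380) (nat_lit 3741197441) (nat_lit 76) (nat_lit 726992674) (nat_lit 118) (nat_lit 5) (nat_lit 123) (nat_lit 5) (nat_lit 119) (nat_lit 5) (nat_lit 512) (nat_lit 416) (nat_lit 212)) (XT.nd (nat_lit 78) (nat_lit 0) (nat_lit 0) (XT.lf (nat_lit 0) (nat_lit 1781560945) (nat_lit 1596) (nat_lit 1377440664) (nat_lit 1596) (nat_lit 1377440664) (nat_lit 514) (nat_lit 3) (nat_lit 535) (nat_lit 3) (nat_lit 535) (nat_lit 5) (nat_lit 417) (nat_lit 417) (nat_lit 306)) (XT.lf (nat_lit 76) (nat_lit 1685783295) (nat_lit 0) (nat_lit 2799831654) (nat_lit 1596) (nat_lit 4660049499) (nat_lit 515) (nat_lit 5) (nat_lit 514) (nat_lit 3) (nat_lit 535) (nat_lit 5) (nat_lit 418) (nat_lit 417) (nat_lit 305)))) (XT.nd (nat_lit 78) (nat_lit 0) (nat_lit 0) (XT.lf (nat_lit 0) (nat_lit 5427307637) (nat_lit 1520) (nat_lit 2984584340) (nat_lit 1596) (nat_lit 807998527)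 (nat_lit 515) (nat_lit 5) (nat_lit 535) (nat_lit 5) (nat_lit 536) (nat_lit 5) (nat_lit 419) (nat_lit 417) (nat_lit 304)) (XT.nd (nat_lit 78) (nat_lit 0) (nat_lit 0) (XT.lf (nat_lit 76) (nat_lit 1570096748) (nat_lit 0) (nat_lit 4823943912) (nat_lit 1596) (nat_lit 2901441734) (nat_lit 516) (nat_lit 5) (nat_lit 515) (nat_lit 5) (nat_lit 536) (nat_lit 5) (nat_lit 420) (nat_lit 417) (nat_lit 303)) (XT.lf (nat_lit 76) (nat_lit 6244236533) (nat_lit 0) (nat_lit 1133733634) (nat_lit 1596) (nat_lit 1994664058) (nat_lit 516) (nat_lit 5) (nat_lit 515) (nat_lit 5) (nat_lit 536) (nat_lit 5) (nat_lit 421) (nat_lit 417) (nat_lit 302))))) (XT.nd (nat_lit 234) (nat_lit 0) (nat_lit 0) (XT.nd (nat_lit 78) (nat_lit 1520) (nat_lit 0) (XT.lf (nat_lit 76) (nat_lit 1551441270) (nat_lit 0) (nat_lit 6835619959) (nat_lit 1596) (nat_lit 1064163436) (nat_lit 517) (nat_lit 5) (nat_lit 516) (nat_lit 5) (nat_lit 537) (nat_lit 5) (nat_lit 422) (nat_lit 417)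 (nat_lit 301)) (XT.nd (nat_lit 78) (nat_lit 1520) (nat_lit 0) (XT.lf (nat_lit 76) (nat_lit 6347397969) (nat_lit 0) (nat_lit 3076065706) (nat_lit 1596) (nat_lit 107785778) (nat_lit 517) (nat_lit 5) (nat_lit 516) (nat_lit 5) (nat_lit 537) (nat_lit 5) (nat_lit 423) (nat_lit 417) (nat_lit 300)) (XT.lf (nat_lit 0) (nat_lit 850963178) (nat_lit 1596) (nat_lit 7988246838) (nat_lit 1672) (nat_lit 773664495) (nat_lit 496) (nat_lit 5) (nat_lit 517) (nat_lit 5) (nat_lit 518) (nat_lit 5) (nat_lit 424) (nat_lit 417) (nat_lit 299)))) (XT.nd (nat_lit 78) (nat_lit 0) (nat_lit 0) (XT.lf (nat_lit 0) (nat_lit 1848663845) (nat_lit 1596) (nat_lit 3157211349) (nat_lit 1672) (nat_lit 4689823061) (nat_lit 496) (nat_lit 5) (nat_lit 517) (nat_lit 5) (nat_lit 518) (nat_lit 5) (nat_lit 425) (nat_lit 417) (nat_lit 298)) (XT.nd (nat_lit 78) (nat_lit 0) (nat_lit 76) (XT.lf (nat_lit 76) (nat_lit 1781342432) (nat_lit 0) (nat_lit 1076287364) (nat_lit 1672) (nat_lit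 6922727193) (nat_lit 497) (nat_lit 5) (nat_lit 496) (nat_lit 5) (nat_lit 518) (nat_lit 5) (nat_lit 426) (nat_lit 417) (nat_lit 297)) (XT.lf (nat_lit 0) (nat_lit 3907249123) (nat_lit 1596) (nat_lit 3036832628) (nat_lit 1672) (nat_lit 2922222312) (nat_lit 497) (nat_lit 5) (nat_lit 518) (nat_lit 5) (nat_lit 519) (nat_lit 5) (nat_lit 427) (nat_lit 417) (nat_lit 296)))))) (XT.nd (nat_lit 468) (nat_lit 0) (nat_lit 76) (XT.nd (nat_lit 234) (nat_lit 1520) (nat_lit 0) (XT.nd (nat_lit 78) (nat_lit 0) (nat_lit 76) (XT.lf (nat_lit 76) (nat_lit 2031525219) (nat_lit 0) (nat_lit 2947154739) (nat_lit 1672) (nat_lit 4975278293) (nat_lit 498) (nat_lit 5) (nat_lit 497) (nat_lit 5) (nat_lit 519) (nat_lit 5) (nat_lit 428) (nat_lit 417) (nat_lit 295)) (XT.nd (nat_lit 78) (nat_lit 0) (nat_lit 0) (XT.lf (nat_lit 0) (nat_lit 6080233966) (nat_lit 1596) (nat_lit 2820945364) (nat_lit 1672) (nat_lit 1142016768) (nat_lit 498) (nat_lit 5) (nat_lit 519) (nat_lit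 5) (nat_lit 520) (nat_lit 5) (nat_lit 429) (nat_lit 417) (nat_lit 294)) (XT.lf (nat_lit 76) (nat_lit 2381610398) (nat_lit 0) (nat_lit 4838410820) (nat_lit 1672) (nat_lit 2913877819) (nat_lit 499) (nat_lit 5) (nat_lit 498) (nat_lit 5) (nat_lit 520) (nat_lit 5) (nat_lit 430) (nat_lit 417) (nat_lit 293)))) (XT.nd (nat_lit 78) (nat_lit 1596) (nat_lit 0) (XT.lf (nat_lit 76) (nat_lit 7713860022) (nat_lit 0) (nat_lit 669182233) (nat_lit 1672) (nat_lit 1843369312) (nat_lit 499) (nat_lit 5) (nat_lit 498) (nat_lit 5) (nat_lit 520) (nat_lit 5) (nat_lit 431) (nat_lit 417) (nat_lit 292)) (XT.nd (nat_lit 78) (nat_lit 1672) (nat_lit 0) (XT.lf (nat_lit 76) (nat_lit 2833117870) (nat_lit 0) (nat_lit 6759774465) (nat_lit 1672) (nat_lit 727414850) (nat_lit 500) (nat_lit 5) (nat_lit 499) (nat_lit 5) (nat_lit 521) (nat_lit 5) (nat_lit 432) (nat_lit 417) (nat_lit 291)) (XT.lf (nat_lit 0) (nat_lit 408932621) (nat_lit 1672) (nat_lit 2116107262) (nat_lit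 1748) (nat_lit 7890922277) (nat_lit 477) (nat_lit 5) (nat_lit 499) (nat_lit 5) (nat_lit 500) (nat_lit 5) (nat_lit 433) (nat_lit 417) (nat_lit 290))))) (XT.nd (nat_lit 234) (nat_lit 0) (nat_lit 76) (XT.nd (nat_lit 78) (nat_lit 0) (nat_lit 0) (XT.lf (nat_lit 0) (nat_lit 1574552466) (nat_lit 1672) (nat_lit 7135836861) (nat_lit 1748) (nat_lit 1802723000) (nat_lit 478) (nat_lit 5) (nat_lit 500) (nat_lit 5) (nat_lit 501) (nat_lit 5) (nat_lit 434) (nat_lit 417) (nat_lit 289)) (XT.nd (nat_lit 78) (nat_lit 0) (nat_lit 76) (XT.lf (nat_lit 0) (nat_lit 2777205482) (nat_lit 1672) (nat_lit 1632484055) (nat_lit 1748) (nat_lit 6202245432) (nat_lit 478) (nat_lit 5) (nat_lit 500) (nat_lit 5) (nat_lit 501) (nat_lit 5) (nat_lit 435) (nat_lit 417) (nat_lit 288)) (XT.lf (nat_lit 0) (nat_lit 4013113245) (nat_lit 1672) (nat_lit 6691637261) (nat_lit 1748) (nat_lit 7803336) (nat_lit 479) (nat_lit 5) (nat_lit 501) (nat_lit 5) (nat_lit 502) (nat_lit 5)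 (nat_lit 436) (nat_lit 417) (nat_lit 287)))) (XT.nd (nat_lit 78) (nat_lit 0) (nat_lit 0) (XT.lf (nat_lit 0) (nat_lit 5297290415) (nat_lit 1672) (nat_lit 1047711217) (nat_lit 1748) (nat_lit 4469716173) (nat_lit 479) (nat_lit 5) (nat_lit 501) (nat_lit 5) (nat_lit 502) (nat_lit 5) (nat_lit 437) (nat_lit 417) (nat_lit 286)) (XT.nd (nat_lit 78) (nat_lit 0) (nat_lit 76) (XT.lf (nat_lit 76) (nat_lit 4758776725) (nat_lit 0) (nat_lit 1862919219) (nat_lit 1748) (nat_lit 4296941871) (nat_lit 480) (nat_lit 5) (nat_lit 479) (nat_lit 5) (nat_lit 502) (nat_lit 5) (nat_lit 438) (nat_lit 417) (nat_lit 285)) (XT.lf (nat_lit 0) (nat_lit 7981162932) (nat_lit 1672) (nat_lit 359526584) (nat_lit 1748) (nat_lit 2683778834) (nat_lit 480) (nat_lit 5) (nat_lit 502) (nat_lit 5) (nat_lit 503) (nat_lit 5) (nat_lit 439) (nat_lit 417) (nat_lit 284))))))))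
noncomputable def xc176 : XT := (XT.nd (nat_lit 1794) (nat_lit 8132) (nat_lit 0) (XT.nd (nat_lit 858) (nat_lit 5700) (nat_lit 0) (XT.nd (nat_lit 390) (nat_lit 3344) (nat_lit 0) (XT.nd (nat_lit 156) (nat_lit 1824) (nat_lit 0) (XT.nd (nat_lit 78) (nat_lit 1596) (nat_lit 0) (XT.lf (nat_lit 76) (nat_lit 5605252587) (nat_lit 0) (nat_lit 3795521152) (nat_lit 1748) (nat_lit 1730986188) (nat_lit 481) (nat_lit 5) (nat_lit 480) (nat_lit 5) (nat_lit 503) (nat_lit 5) (nat_lit 440) (nat_lit 417) (nat_lit 283)) (XT.lf (nat_lit 0) (nat_lit 440365708) (nat_lit 1672) (nat_lit 10403626406) (nat_lit 1748) (nat_lit 397304368) (nat_lit 459) (nat_lit 5) (nat_lit 481) (nat_lit 5) (nat_lit 482) (nat_lit 5) (nat_lit 441) (nat_lit 417) (nat_lit 282))) (XT.nd (nat_lit 78) (nat_lit 1748) (nat_lit 0) (XT.lf (nat_lit 0) (nat_lit 997473985) (nat_lit 1748) (nat_lit 4795537666) (nat_lit 76) (nat_lit 5558949311) (nat_lit 458) (nat_lit 5) (nat_lit 481) (nat_lit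 5) (nat_lit 459) (nat_lit 5) (nat_lit 442) (nat_lit 417) (nat_lit 281)) (XT.nd (nat_lit 78) (nat_lit 0) (nat_lit 0) (XT.lf (nat_lit 0) (nat_lit 1331947126) (nat_lit 1748) (nat_lit 1076422172) (nat_lit 1824) (nat_lit 9056549336) (nat_lit 435) (nat_lit 5) (nat_lit 458) (nat_lit 5) (nat_lit 459) (nat_lit 5) (nat_lit 443) (nat_lit 417) (nat_lit 280)) (XT.lf (nat_lit 0) (nat_lit 3889238726) (nat_lit 1824) (nat_lit 3970049580) (nat_lit 76) (nat_lit 3720015220) (nat_lit 435) (nat_lit 5) (nat_lit 459) (nat_lit 5) (nat_lit 436) (nat_lit 5) (nat_lit 444) (nat_lit 417) (nat_lit 279))))) (XT.nd (nat_lit 234) (nat_lit 988) (nat_lit 0) (XT.nd (nat_lit 78) (nat_lit 912) (nat_lit 0) (XT.lf (nat_lit 0) (nat_lit 2326689506) (nat_lit 1444) (nat_lit 3080678584) (nat_lit 1520) (nat_lit 6288458301) (nat_lit 416) (nat_lit 5) (nat_lit 435) (nat_lit 5) (nat_lit 436) (nat_lit 5) (nat_lit 445) (nat_lit 417) (nat_lit 278)) (XT.nd (nat_lit 78) (nat_lit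 912) (nat_lit 0) (XT.lf (nat_lit 0) (nat_lit 6979943798) (nat_lit 1520) (nat_lit 3035834245) (nat_lit 76) (nat_lit 1798423062) (nat_lit 416) (nat_lit 5) (nat_lit 436) (nat_lit 5) (nat_lit 417) (nat_lit 5) (nat_lit 446) (nat_lit 417) (nat_lit 277)) (XT.lf (nat_lit 0) (nat_lit 3436007488) (nat_lit 912) (nat_lit 5176577733) (nat_lit 988) (nat_lit 3321788813) (nat_lit 404) (nat_lit 5) (nat_lit 416) (nat_lit 5) (nat_lit 417) (nat_lit 5) (nat_lit 447) (nat_lit 417) (nat_lit 276)))) (XT.nd (nat_lit 78) (nat_lit 988) (nat_lit 0) (XT.lf (nat_lit 0) (nat_lit 10065732757) (nat_lit 912) (nat_lit 218616195) (nat_lit 988) (nat_lit 1772475027) (nat_lit 404) (nat_lit 5) (nat_lit 416) (nat_lit 5) (nat_lit 417) (nat_lit 5) (nat_lit 448) (nat_lit 417) (nat_lit 275)) (XT.nd (nat_lit 78) (nat_lit 76) (nat_lit 0) (XT.lf (nat_lit 0) (nat_lit 4663336493) (nat_lit 912) (nat_lit 7374281375) (nat_lit 988) (nat_lit 143146547) (nat_lit 392) (nat_lit 5)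 (nat_lit 404) (nat_lit 5) (nat_lit 405) (nat_lit 5) (nat_lit 449) (nat_lit 417) (nat_lit 274)) (XT.lf (nat_lit 0) (nat_lit 1500217936) (nat_lit 988) (nat_lit 853308626) (nat_lit 76) (nat_lit 9953435289) (nat_lit 391) (nat_lit 5) (nat_lit 404) (nat_lit 5) (nat_lit 392) (nat_lit 5) (nat_lit 450) (nat_lit 417) (nat_lit 273)))))) (XT.nd (nat_lit 468) (nat_lit 2356) (nat_lit 0) (XT.nd (nat_lit 234) (nat_lit 1596) (nat_lit 0) (XT.nd (nat_lit 78) (nat_lit 836) (nat_lit 0) (XT.lf (nat_lit 0) (nat_lit 3218526140) (nat_lit 988) (nat_lit 6444017188) (nat_lit 76) (nat_lit 2772243842) (nat_lit 379) (nat_lit 5) (nat_lit 392) (nat_lit 5) (nat_lit 380) (nat_lit 5) (nat_lit 451) (nat_lit 417) (nat_lit 272)) (XT.nd (nat_lit 78) (nat_lit 0) (nat_lit 0) (XT.lf (nat_lit 0) (nat_lit 395027962) (nat_lit 836) (nat_lit 4587006436) (nat_lit 912) (nat_lit 7582920590) (nat_lit 368) (nat_lit 5) (nat_lit 379) (nat_lit 5) (nat_lit 380) (nat_lit 5) (nat_lit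 452) (nat_lit 417) (nat_lit 271)) (XT.lf (nat_lit 0) (nat_lit 6815267198) (nat_lit 912) (nat_lit 5255723645) (nat_lit 76) (nat_lit 626048847) (nat_lit 368) (nat_lit 5) (nat_lit 380) (nat_lit 5) (nat_lit 369) (nat_lit 5) (nat_lit 453) (nat_lit 417) (nat_lit 270)))) (XT.nd (nat_lit 78) (nat_lit 760) (nat_lit 0) (XT.lf (nat_lit 0) (nat_lit 1776996426) (nat_lit 836) (nat_lit 6937430560) (nat_lit 912) (nat_lit 4116756420) (nat_lit 357) (nat_lit 5) (nat_lit 368) (nat_lit 5) (nat_lit 369) (nat_lit 5) (nat_lit 454) (nat_lit 417) (nat_lit 269)) (XT.nd (nat_lit 78) (nat_lit 760) (nat_lit 0) (XT.lf (nat_lit 0) (nat_lit 9009001660) (nat_lit 836) (nat_lit 1665350555) (nat_lit 912) (nat_lit 2293204651) (nat_lit 357) (nat_lit 5) (nat_lit 368) (nat_lit 5) (nat_lit 369) (nat_lit 5) (nat_lit 455) (nat_lit 417) (nat_lit 268)) (XT.lf (nat_lit 0) (nat_lit 3285364309) (nat_lit 760) (nat_lit 9421301886) (nat_lit 836) (nat_lit 399330261) (nat_lit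 347) (nat_lit 5) (nat_lit 357) (nat_lit 5) (nat_lit 358) (nat_lit 5) (nat_lit 456) (nat_lit 417) (nat_lit 267))))) (XT.nd (nat_lit 234) (nat_lit 1520) (nat_lit 0) (XT.nd (nat_lit 78) (nat_lit 760) (nat_lit 0) (XT.lf (nat_lit 0) (nat_lit 1537926254) (nat_lit 836) (nat_lit 2552698559) (nat_lit 76) (nat_lit 9155871352) (nat_lit 346) (nat_lit 5) (nat_lit 357) (nat_lit 5) (nat_lit 347) (nat_lit 5) (nat_lit 457) (nat_lit 417) (nat_lit 266)) (XT.nd (nat_lit 78) (nat_lit 0) (nat_lit 0) (XT.lf (nat_lit 0) (nat_lit 3537505372) (nat_lit 836) (nat_lit 8488425039) (nat_lit 76) (nat_lit 1363246499) (nat_lit 336) (nat_lit 5) (nat_lit 347) (nat_lit 5) (nat_lit 337) (nat_lit 5) (nat_lit 458) (nat_lit 417) (nat_lit 265)) (XT.lf (nat_lit 0) (nat_lit 5609631950) (nat_lit 836) (nat_lit 1036293986) (nat_lit 76) (nat_lit 6888136495) (nat_lit 336) (nat_lit 5) (nat_lit 347) (nat_lit 5) (nat_lit 337) (nat_lit 5) (nat_lit 459) (nat_lit 417) (nat_lit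 264)))) (XT.nd (nat_lit 78) (nat_lit 760) (nat_lit 0) (XT.lf (nat_lit 0) (nat_lit 6639610894) (nat_lit 760) (nat_lit 1115152110) (nat_lit 836) (nat_lit 5926453652) (nat_lit 326) (nat_lit 5) (nat_lit 336) (nat_lit 5) (nat_lit 337) (nat_lit 5) (nat_lit 460) (nat_lit 417) (nat_lit 263)) (XT.nd (nat_lit 78) (nat_lit 0) (nat_lit 0) (XT.lf (nat_lit 0) (nat_lit 618087359) (nat_lit 760) (nat_lit 9353704138) (nat_lit 836) (nat_lit 3858944762) (nat_lit 316) (nat_lit 5) (nat_lit 326) (nat_lit 5) (nat_lit 327) (nat_lit 5) (nat_lit 461) (nat_lit 417) (nat_lit 262)) (XT.lf (nat_lit 0) (nat_lit 8506532285) (nat_lit 760) (nat_lit 3769955071) (nat_lit 836) (nat_lit 1705894509) (nat_lit 316) (nat_lit 5) (nat_lit 326) (nat_lit 5) (nat_lit 327) (nat_lit 5) (nat_lit 462) (nat_lit 417) (nat_lit 261))))))) (XT.nd (nat_lit 858) (nat_lit 4028) (nat_lit 0) (XT.nd (nat_lit 390) (nat_lit 1976) (nat_lit 0) (XT.nd (nat_lit 156) (nat_lit 1368) (nat_lit 0)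 (XT.nd (nat_lit 78) (nat_lit 0) (nat_lit 0) (XT.lf (nat_lit 0) (nat_lit 501080481) (nat_lit 760) (nat_lit 11717440569) (nat_lit 76) (nat_lit 1918131879) (nat_lit 306) (nat_lit 5) (nat_lit 316) (nat_lit 5) (nat_lit 307) (nat_lit 5) (nat_lit 463) (nat_lit 417) (nat_lit 260)) (XT.lf (nat_lit 0) (nat_lit 2780343574) (nat_lit 760) (nat_lit 3795828132) (nat_lit 76) (nat_lit 7716594401) (nat_lit 306) (nat_lit 5) (nat_lit 316) (nat_lit 5) (nat_lit 307) (nat_lit 5) (nat_lit 464) (nat_lit 417) (nat_lit 259))) (XT.nd (nat_lit 78) (nat_lit 684) (nat_lit 0) (XT.lf (nat_lit 0) (nat_lit 4328784930) (nat_lit 684) (nat_lit 793741169) (nat_lit 760) (nat_lit 9329130750) (nat_lit 297) (nat_lit 5) (nat_lit 306) (nat_lit 5) (nat_lit 307) (nat_lit 5) (nat_lit 465) (nat_lit 417) (nat_lit 258)) (XT.nd (nat_lit 78) (nat_lit 684) (nat_lit 0) (XT.lf (nat_lit 0) (nat_lit 7559685384) (nat_lit 760) (nat_lit 1991510894) (nat_lit 76) (nat_lit 5061568410) (nat_lit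 297) (nat_lit 5) (nat_lit 307) (nat_lit 5) (nat_lit 298) (nat_lit 5) (nat_lit 466) (nat_lit 417) (nat_lit 257)) (XT.lf (nat_lit 0) (nat_lit 6368659454) (nat_lit 684) (nat_lit 3713094980) (nat_lit 760) (nat_lit 4694618823) (nat_lit 288) (nat_lit 5) (nat_lit 297) (nat_lit 5) (nat_lit 298) (nat_lit 5) (nat_lit 467) (nat_lit 417) (nat_lit 256))))) (XT.nd (nat_lit 234) (nat_lit 608) (nat_lit 0) (XT.nd (nat_lit 78) (nat_lit 1368) (nat_lit 0) (XT.lf (nat_lit 0) (nat_lit 12671948689) (nat_lit 760) (nat_lit 46806648) (nat_lit 76) (nat_lit 2224146855) (nat_lit 288) (nat_lit 5) (nat_lit 298) (nat_lit 5) (nat_lit 289) (nat_lit 5) (nat_lit 468) (nat_lit 417) (nat_lit 255)) (XT.nd (nat_lit 78) (nat_lit 608) (nat_lit 0) (XT.lf (nat_lit 0) (nat_lit 269034782) (nat_lit 760) (nat_lit 6556143632) (nat_lit 76) (nat_lit 8286149196) (nat_lit 278) (nat_lit 5) (nat_lit 288) (nat_lit 5) (nat_lit 279) (nat_lit 5) (nat_lit 469) (nat_lit 417) (nat_lit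 254)) (XT.lf (nat_lit 0) (nat_lit 2046509908) (nat_lit 608) (nat_lit 786468652) (nat_lit 684) (nat_lit 12449773242) (nat_lit 270) (nat_lit 5) (nat_lit 278) (nat_lit 5) (nat_lit 279) (nat_lit 5) (nat_lit 470) (nat_lit 417) (nat_lit 253)))) (XT.nd (nat_lit 78) (nat_lit 608) (nat_lit 0) (XT.lf (nat_lit 0) (nat_lit 5517411737) (nat_lit 684) (nat_lit 4593945549) (nat_lit 76) (nat_lit 5344864708) (nat_lit 270) (nat_lit 5) (nat_lit 279) (nat_lit 5) (nat_lit 271) (nat_lit 5) (nat_lit 471) (nat_lit 417) (nat_lit 252)) (XT.nd (nat_lit 78) (nat_lit 0) (nat_lit 0) (XT.lf (nat_lit 0) (nat_lit 4259965188) (nat_lit 608) (nat_lit 4018669434) (nat_lit 684) (nat_lit 7354066639) (nat_lit 262) (nat_lit 5) (nat_lit 270) (nat_lit 5) (nat_lit 271) (nat_lit 5) (nat_lit 472) (nat_lit 417) (nat_lit 251)) (XT.lf (nat_lit 0) (nat_lit 11130705828) (nat_lit 684) (nat_lit 2485324220) (nat_lit 76) (nat_lit 2195969248) (nat_lit 262) (nat_lit 5) (nat_lit 271)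 (nat_lit 5) (nat_lit 263) (nat_lit 5) (nat_lit 473) (nat_lit 417) (nat_lit 250)))))) (XT.nd (nat_lit 468) (nat_lit 1596) (nat_lit 0) (XT.nd (nat_lit 234) (nat_lit 1140) (nat_lit 0) (XT.nd (nat_lit 78) (nat_lit 684) (nat_lit 0) (XT.lf (nat_lit 0) (nat_lit 6628394231) (nat_lit 608) (nat_lit 7471598228) (nat_lit 684) (nat_lit 1893688981) (nat_lit 254) (nat_lit 5) (nat_lit 262) (nat_lit 5) (nat_lit 263) (nat_lit 5) (nat_lit 474) (nat_lit 417) (nat_lit 249)) (XT.nd (nat_lit 78) (nat_lit 608) (nat_lit 0) (XT.lf (nat_lit 0) (nat_lit 944571526) (nat_lit 684) (nat_lit 238673733) (nat_lit 76) (nat_lit 14995483032) (nat_lit 253) (nat_lit 5) (nat_lit 262) (nat_lit 5) (nat_lit 254) (nat_lit 5) (nat_lit 475) (nat_lit 417) (nat_lit 248)) (XT.lf (nat_lit 0) (nat_lit 3898959874) (nat_lit 684) (nat_lit 7234071882) (nat_lit 76) (nat_lit 5232501128) (nat_lit 245) (nat_lit 5) (nat_lit 254) (nat_lit 5) (nat_lit 246) (nat_lit 5) (nat_lit 476) (nat_lit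 417) (nat_lit 247)))) (XT.nd (nat_lit 78) (nat_lit 608) (nat_lit 0) (XT.lf (nat_lit 0) (nat_lit 2144803817) (nat_lit 532) (nat_lit 4781852783) (nat_lit 608) (nat_lit 9629134061) (nat_lit 238) (nat_lit 5) (nat_lit 245) (nat_lit 5) (nat_lit 246) (nat_lit 5) (nat_lit 477) (nat_lit 417) (nat_lit 246)) (XT.nd (nat_lit 78) (nat_lit 608) (nat_lit 0) (XT.lf (nat_lit 0) (nat_lit 10065721501) (nat_lit 608) (nat_lit 4962661565) (nat_lit 76) (nat_lit 1720455715) (nat_lit 238) (nat_lit 5) (nat_lit 246) (nat_lit 5) (nat_lit 239) (nat_lit 5) (nat_lit 478) (nat_lit 417) (nat_lit 245)) (XT.lf (nat_lit 0) (nat_lit 4692981890) (nat_lit 608) (nat_lit 8627835910) (nat_lit 684) (nat_lit 3623866505) (nat_lit 230) (nat_lit 5) (nat_lit 238) (nat_lit 5) (nat_lit 239) (nat_lit 5) (nat_lit 479) (nat_lit 417) (nat_lit 244))))) (XT.nd (nat_lit 234) (nat_lit 988) (nat_lit 0) (XT.nd (nat_lit 78) (nat_lit 608) (nat_lit 0) (XT.lf (nat_lit 0) (nat_lit 14597554520)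 (nat_lit 608) (nat_lit 2067975732) (nat_lit 684) (nat_lit 478427621) (nat_lit 230) (nat_lit 5) (nat_lit 238) (nat_lit 5) (nat_lit 239) (nat_lit 5) (nat_lit 480) (nat_lit 417) (nat_lit 243)) (XT.nd (nat_lit 78) (nat_lit 0) (nat_lit 0) (XT.lf (nat_lit 0) (nat_lit 2764061687) (nat_lit 608) (nat_lit 9955246325) (nat_lit 76) (nat_lit 4626156870) (nat_lit 222) (nat_lit 5) (nat_lit 230) (nat_lit 5) (nat_lit 223) (nat_lit 5) (nat_lit 481) (nat_lit 417) (nat_lit 242)) (XT.lf (nat_lit 0) (nat_lit 6087302142) (nat_lit 608) (nat_lit 18973630) (nat_lit 76) (nat_lit 11444218197) (nat_lit 222) (nat_lit 5) (nat_lit 230) (nat_lit 5) (nat_lit 223) (nat_lit 5) (nat_lit 482) (nat_lit 417) (nat_lit 241)))) (XT.nd (nat_lit 78) (nat_lit 456) (nat_lit 0) (XT.lf (nat_lit 0) (nat_lit 9539631615) (nat_lit 608) (nat_lit 7523925369) (nat_lit 76) (nat_lit 694815477) (nat_lit 215) (nat_lit 5) (nat_lit 223) (nat_lit 5) (nat_lit 216) (nat_lit 5) (nat_lit 483)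 (nat_lit 417) (nat_lit 240)) (XT.nd (nat_lit 78) (nat_lit 0) (nat_lit 0) (XT.lf (nat_lit 0) (nat_lit 2706566088) (nat_lit 456) (nat_lit 10404230262) (nat_lit 532) (nat_lit 4858617684) (nat_lit 209) (nat_lit 5) (nat_lit 215) (nat_lit 5) (nat_lit 216) (nat_lit 5) (nat_lit 484) (nat_lit 417) (nat_lit 239)) (XT.lf (nat_lit 0) (nat_lit 13232451663) (nat_lit 456) (nat_lit 3563161990) (nat_lit 532) (nat_lit 1388219456) (nat_lit 209) (nat_lit 5) (nat_lit 215) (nat_lit 5) (nat_lit 216) (nat_lit 5) (nat_lit 485) (nat_lit 417) (nat_lit 238))))))))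
noncomputable def xc177 : XT := (XT.nd (nat_lit 1794) (nat_lit 760) (nat_lit 0) (XT.nd (nat_lit 858) (nat_lit 2736) (nat_lit 0) (XT.nd (nat_lit 390) (nat_lit 1900) (nat_lit 0) (XT.nd (nat_lit 156) (nat_lit 912) (nat_lit 0) (XT.nd (nat_lit 78) (nat_lit 0) (nat_lit 0) (XT.lf (nat_lit 0) (nat_lit 2174156296) (nat_lit 608) (nat_lit 12809291062) (nat_lit 76) (nat_lit 3417799264) (nat_lit 201) (nat_lit 5) (nat_lit 209) (nat_lit 5) (nat_lit 202) (nat_lit 5) (nat_lit 486) (nat_lit 417) (nat_lit 237)) (XT.lf (nat_lit 0) (nat_lit 5838168201) (nat_lit 608) (nat_lit 2253242601) (nat_lit 76) (nat_lit 10530435731) (nat_lit 201) (nat_lit 5) (nat_lit 209) (nat_lit 5) (nat_lit 202) (nat_lit 5) (nat_lit 487) (nat_lit 417) (nat_lit 236))) (XT.nd (nat_lit 78) (nat_lit 456) (nat_lit 0) (XT.lf (nat_lit 0) (nat_lit 8615981228) (nat_lit 456) (nat_lit 1007494292) (nat_lit 532) (nat_lit 9222423778) (nat_lit 195) (nat_lit 5) (nat_lit 201) (nat_lit 5)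 (nat_lit 202) (nat_lit 5) (nat_lit 488) (nat_lit 417) (nat_lit 235)) (XT.nd (nat_lit 78) (nat_lit 0) (nat_lit 0) (XT.lf (nat_lit 0) (nat_lit 615591550) (nat_lit 456) (nat_lit 12920626498) (nat_lit 532) (nat_lit 5537181628) (nat_lit 189) (nat_lit 5) (nat_lit 195) (nat_lit 5) (nat_lit 196) (nat_lit 5) (nat_lit 489) (nat_lit 417) (nat_lit 234)) (XT.lf (nat_lit 0) (nat_lit 11798980233) (nat_lit 456) (nat_lit 5795734301) (nat_lit 532) (nat_lit 1709386664) (nat_lit 189) (nat_lit 5) (nat_lit 195) (nat_lit 5) (nat_lit 196) (nat_lit 5) (nat_lit 490) (nat_lit 417) (nat_lit 233))))) (XT.nd (nat_lit 234) (nat_lit 912) (nat_lit 0) (XT.nd (nat_lit 78) (nat_lit 456) (nat_lit 0) (XT.lf (nat_lit 0) (nat_lit 2192245532) (nat_lit 532) (nat_lit 15858659917) (nat_lit 76) (nat_lit 1487705977) (nat_lit 182) (nat_lit 5) (nat_lit 189) (nat_lit 5) (nat_lit 183) (nat_lit 5) (nat_lit 491) (nat_lit 417) (nat_lit 232)) (XT.nd (nat_lit 78) (nat_lit 456)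 (nat_lit 0) (XT.lf (nat_lit 0) (nat_lit 6230506062) (nat_lit 532) (nat_lit 4647270924) (nat_lit 76) (nat_lit 8898180256) (nat_lit 182) (nat_lit 5) (nat_lit 189) (nat_lit 5) (nat_lit 183) (nat_lit 5) (nat_lit 492) (nat_lit 417) (nat_lit 231)) (XT.lf (nat_lit 0) (nat_lit 6867741695) (nat_lit 456) (nat_lit 3518913171) (nat_lit 532) (nat_lit 9630653680) (nat_lit 176) (nat_lit 5) (nat_lit 182) (nat_lit 5) (nat_lit 183) (nat_lit 5) (nat_lit 493) (nat_lit 417) (nat_lit 230)))) (XT.nd (nat_lit 78) (nat_lit 912) (nat_lit 0) (XT.lf (nat_lit 0) (nat_lit 14675795684) (nat_lit 532) (nat_lit 1623640722) (nat_lit 76) (nat_lit 3963054099) (nat_lit 176) (nat_lit 5) (nat_lit 183) (nat_lit 5) (nat_lit 177) (nat_lit 5) (nat_lit 494) (nat_lit 417) (nat_lit 229)) (XT.nd (nat_lit 78) (nat_lit 532) (nat_lit 0) (XT.lf (nat_lit 0) (nat_lit 10233186915) (nat_lit 380) (nat_lit 8900012195) (nat_lit 456) (nat_lit 1377728390) (nat_lit 171) (nat_lit 5) (nat_lit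 176) (nat_lit 5) (nat_lit 177) (nat_lit 5) (nat_lit 495) (nat_lit 417) (nat_lit 228)) (XT.lf (nat_lit 0) (nat_lit 1576164393) (nat_lit 456) (nat_lit 1314978991) (nat_lit 532) (nat_lit 17872532982) (nat_lit 164) (nat_lit 5) (nat_lit 170) (nat_lit 5) (nat_lit 171) (nat_lit 5) (nat_lit 496) (nat_lit 417) (nat_lit 227)))))) (XT.nd (nat_lit 468) (nat_lit 1520) (nat_lit 0) (XT.nd (nat_lit 234) (nat_lit 836) (nat_lit 0) (XT.nd (nat_lit 78) (nat_lit 380) (nat_lit 0) (XT.lf (nat_lit 0) (nat_lit 7330895594) (nat_lit 532) (nat_lit 7275515199) (nat_lit 76) (nat_lit 6412809200) (nat_lit 164) (nat_lit 5) (nat_lit 171) (nat_lit 5) (nat_lit 165) (nat_lit 5) (nat_lit 497) (nat_lit 417) (nat_lit 226)) (XT.nd (nat_lit 78) (nat_lit 0) (nat_lit 0) (XT.lf (nat_lit 0) (nat_lit 4920145306) (nat_lit 380) (nat_lit 6972905218) (nat_lit 456) (nat_lit 9386152732) (nat_lit 159) (nat_lit 5) (nat_lit 164) (nat_lit 5) (nat_lit 165) (nat_lit 5) (nat_lit 498)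 (nat_lit 417) (nat_lit 225)) (XT.lf (nat_lit 0) (nat_lit 16593878389) (nat_lit 456) (nat_lit 4101119351) (nat_lit 76) (nat_lit 848440743) (nat_lit 159) (nat_lit 5) (nat_lit 165) (nat_lit 5) (nat_lit 160) (nat_lit 5) (nat_lit 499) (nat_lit 417) (nat_lit 224)))) (XT.nd (nat_lit 78) (nat_lit 456) (nat_lit 0) (XT.lf (nat_lit 0) (nat_lit 8456466203) (nat_lit 380) (nat_lit 13026480640) (nat_lit 456) (nat_lit 328127973) (nat_lit 154) (nat_lit 5) (nat_lit 159) (nat_lit 5) (nat_lit 160) (nat_lit 5) (nat_lit 500) (nat_lit 417) (nat_lit 223)) (XT.nd (nat_lit 78) (nat_lit 380) (nat_lit 0) (XT.lf (nat_lit 0) (nat_lit 4349079517) (nat_lit 456) (nat_lit 801641614) (nat_lit 76) (nat_lit 16932356761) (nat_lit 153) (nat_lit 5) (nat_lit 159) (nat_lit 5) (nat_lit 154) (nat_lit 5) (nat_lit 501) (nat_lit 417) (nat_lit 222)) (XT.lf (nat_lit 0) (nat_lit 9206852113) (nat_lit 456) (nat_lit 10228775512) (nat_lit 76) (nat_lit 2923022565) (nat_lit 148)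 (nat_lit 5) (nat_lit 154) (nat_lit 5) (nat_lit 149) (nat_lit 5) (nat_lit 502) (nat_lit 417) (nat_lit 221))))) (XT.nd (nat_lit 234) (nat_lit 684) (nat_lit 0) (XT.nd (nat_lit 78) (nat_lit 456) (nat_lit 0) (XT.lf (nat_lit 0) (nat_lit 2682182133) (nat_lit 380) (nat_lit 11529880528) (nat_lit 456) (nat_lit 8426666435) (nat_lit 143) (nat_lit 5) (nat_lit 148) (nat_lit 5) (nat_lit 149) (nat_lit 5) (nat_lit 503) (nat_lit 417) (nat_lit 220)) (XT.nd (nat_lit 78) (nat_lit 456) (nat_lit 0) (XT.lf (nat_lit 0) (nat_lit 15979968969) (nat_lit 380) (nat_lit 3399456450) (nat_lit 456) (nat_lit 3543743999) (nat_lit 143) (nat_lit 5) (nat_lit 148) (nat_lit 5) (nat_lit 149) (nat_lit 5) (nat_lit 504) (nat_lit 417) (nat_lit 219)) (XT.lf (nat_lit 0) (nat_lit 1485093299) (nat_lit 456) (nat_lit 16849477350) (nat_lit 76) (nat_lit 4877200070) (nat_lit 137) (nat_lit 5) (nat_lit 143) (nat_lit 5) (nat_lit 138) (nat_lit 5) (nat_lit 505) (nat_lit 417) (nat_lit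 218)))) (XT.nd (nat_lit 78) (nat_lit 684) (nat_lit 0) (XT.lf (nat_lit 0) (nat_lit 6630049505) (nat_lit 456) (nat_lit 3533464272) (nat_lit 76) (nat_lit 13340902681) (nat_lit 137) (nat_lit 5) (nat_lit 143) (nat_lit 5) (nat_lit 138) (nat_lit 5) (nat_lit 506) (nat_lit 417) (nat_lit 217)) (XT.nd (nat_lit 78) (nat_lit 304) (nat_lit 0) (XT.lf (nat_lit 0) (nat_lit 10172502848) (nat_lit 380) (nat_lit 1765109887) (nat_lit 456) (nat_lit 11864108953) (nat_lit 132) (nat_lit 5) (nat_lit 137) (nat_lit 5) (nat_lit 138) (nat_lit 5) (nat_lit 507) (nat_lit 417) (nat_lit 216)) (XT.lf (nat_lit 0) (nat_lit 42408386) (nat_lit 304) (nat_lit 17370921075) (nat_lit 380) (nat_lit 6690404242) (nat_lit 128) (nat_lit 5) (nat_lit 132) (nat_lit 5) (nat_lit 133) (nat_lit 5) (nat_lit 508) (nat_lit 417) (nat_lit 215))))))) (XT.nd (nat_lit 52884) (nat_lit 0) (nat_lit 27284) (XT.nd (nat_lit 52416) (nat_lit 0) (nat_lit 28652) (XT.nd (nat_lit 234) (nat_lit 304) (nat_lit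 0) (XT.nd (nat_lit 78) (nat_lit 456) (nat_lit 0) (XT.lf (nat_lit 0) (nat_lit 14150615569) (nat_lit 304) (nat_lit 8944777081) (nat_lit 380) (nat_lit 1314457372) (nat_lit 128) (nat_lit 5) (nat_lit 132) (nat_lit 5) (nat_lit 133) (nat_lit 5) (nat_lit 509) (nat_lit 417) (nat_lit 214)) (XT.nd (nat_lit 78) (nat_lit 0) (nat_lit 0) (XT.lf (nat_lit 0) (nat_lit 3832446827) (nat_lit 380) (nat_lit 300608583) (nat_lit 456) (nat_lit 20588118094) (nat_lit 122) (nat_lit 5) (nat_lit 127) (nat_lit 5) (nat_lit 128) (nat_lit 5) (nat_lit 510) (nat_lit 417) (nat_lit 213)) (XT.lf (nat_lit 0) (nat_lit 9790406908) (nat_lit 456) (nat_lit 6766456791) (nat_lit 76) (nat_lit 8479316872) (nat_lit 122) (nat_lit 5) (nat_lit 128) (nat_lit 5) (nat_lit 123) (nat_lit 5) (nat_lit 511) (nat_lit 417) (nat_lit 212)))) (XT.nd (nat_lit 52026) (nat_lit 0) (nat_lit 30096) (XT.lf (nat_lit 0) (nat_lit 7728130144) (nat_lit 304) (nat_lit 7878939678) (nat_lit 380) (nat_lit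 9749495324) (nat_lit 118) (nat_lit 5) (nat_lit 122) (nat_lit 5) (nat_lit 123) (nat_lit 5) (nat_lit 512) (nat_lit 417) (nat_lit 211)) (XT.nd (nat_lit 78) (nat_lit 0) (nat_lit 0) (XT.lf (nat_lit 0) (nat_lit 2687421749) (nat_lit 1596) (nat_lit 961067222) (nat_lit 1596) (nat_lit 961067222) (nat_lit 514) (nat_lit 3) (nat_lit 535) (nat_lit 3) (nat_lit 535) (nat_lit 5) (nat_lit 418) (nat_lit 418) (nat_lit 304)) (XT.lf (nat_lit 76) (nat_lit 2601502389) (nat_lit 0) (nat_lit 3685883928) (nat_lit 1596) (nat_lit 3006537817) (nat_lit 515) (nat_lit 5) (nat_lit 514) (nat_lit 3) (nat_lit 535) (nat_lit 5) (nat_lit 419) (nat_lit 418) (nat_lit 303))))) (XT.nd (nat_lit 234) (nat_lit 1520) (nat_lit 0) (XT.nd (nat_lit 78) (nat_lit 0) (nat_lit 0) (XT.lf (nat_lit 0) (nat_lit 7209059474) (nat_lit 1520) (nat_lit 2140309063) (nat_lit 1596) (nat_lit 21051328) (nat_lit 515) (nat_lit 5) (nat_lit 535) (nat_lit 5) (nat_lit 536) (nat_lit 5) (nat_lit 420) (nat_lit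 418) (nat_lit 302)) (XT.nd (nat_lit 78) (nat_lit 0) (nat_lit 0) (XT.lf (nat_lit 76) (nat_lit 2499518496) (nat_lit 0) (nat_lit 5668631248) (nat_lit 1596) (nat_lit 1279921327) (nat_lit 516) (nat_lit 5) (nat_lit 515) (nat_lit 5) (nat_lit 536) (nat_lit 5) (nat_lit 421) (nat_lit 418) (nat_lit 301)) (XT.lf (nat_lit 76) (nat_lit 7249532844) (nat_lit 0) (nat_lit 1889946010) (nat_lit 1596) (nat_lit 387940435) (nat_lit 516) (nat_lit 5) (nat_lit 515) (nat_lit 5) (nat_lit 536) (nat_lit 5) (nat_lit 422) (nat_lit 418) (nat_lit 300)))) (XT.nd (nat_lit 78) (nat_lit 0) (nat_lit 0) (XT.lf (nat_lit 0) (nat_lit 523206276) (nat_lit 1596) (nat_lit 7117365736) (nat_lit 1672) (nat_lit 1967556210) (nat_lit 495) (nat_lit 5) (nat_lit 516) (nat_lit 5) (nat_lit 517) (nat_lit 5) (nat_lit 423) (nat_lit 418) (nat_lit 299)) (XT.nd (nat_lit 78) (nat_lit 0) (nat_lit 76) (XT.lf (nat_lit 0) (nat_lit 1454654478) (nat_lit 1596) (nat_lit 2331750105) (nat_lit 1672)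 (nat_lit 5903854835) (nat_lit 495) (nat_lit 5) (nat_lit 516) (nat_lit 5) (nat_lit 517) (nat_lit 5) (nat_lit 424) (nat_lit 418) (nat_lit 298)) (XT.lf (nat_lit 0) (nat_lit 2402302318) (nat_lit 1596) (nat_lit 7203753948) (nat_lit 1672) (nat_lit 168030300) (nat_lit 496) (nat_lit 5) (nat_lit 517) (nat_lit 5) (nat_lit 518) (nat_lit 5) (nat_lit 425) (nat_lit 418) (nat_lit 297)))))) (XT.nd (nat_lit 468) (nat_lit 1444) (nat_lit 0) (XT.nd (nat_lit 234) (nat_lit 0) (nat_lit 76) (XT.nd (nat_lit 78) (nat_lit 0) (nat_lit 0) (XT.lf (nat_lit 0) (nat_lit 3389872295) (nat_lit 1596) (nat_lit 2294612609) (nat_lit 1672) (nat_lit 4174690615) (nat_lit 496) (nat_lit 5) (nat_lit 517) (nat_lit 5) (nat_lit 518) (nat_lit 5) (nat_lit 426) (nat_lit 418) (nat_lit 296)) (XT.nd (nat_lit 78) (nat_lit 0) (nat_lit 76) (XT.lf (nat_lit 76) (nat_lit 2736621834) (nat_lit 0) (nat_lit 1658871918) (nat_lit 1672) (nat_lit 5550511053) (nat_lit 497) (nat_lit 5) (nat_lit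 496) (nat_lit 5) (nat_lit 518) (nat_lit 5) (nat_lit 427) (nat_lit 418) (nat_lit 295)) (XT.lf (nat_lit 0) (nat_lit 5433500571) (nat_lit 1596) (nat_lit 2163005906) (nat_lit 1672) (nat_lit 2437823209) (nat_lit 497) (nat_lit 5) (nat_lit 518) (nat_lit 5) (nat_lit 519) (nat_lit 5) (nat_lit 428) (nat_lit 418) (nat_lit 294)))) (XT.nd (nat_lit 78) (nat_lit 0) (nat_lit 76) (XT.lf (nat_lit 76) (nat_lit 3000570654) (nat_lit 0) (nat_lit 3503423009) (nat_lit 1672) (nat_lit 3620197255) (nat_lit 498) (nat_lit 5) (nat_lit 497) (nat_lit 5) (nat_lit 519) (nat_lit 5) (nat_lit 429) (nat_lit 418) (nat_lit 293)) (XT.nd (nat_lit 78) (nat_lit 0) (nat_lit 0) (XT.lf (nat_lit 0) (nat_lit 7596457412) (nat_lit 1596) (nat_lit 1935707023) (nat_lit 1672) (nat_lit 683678019) (nat_lit 498) (nat_lit 5) (nat_lit 519) (nat_lit 5) (nat_lit 520) (nat_lit 5) (nat_lit 430) (nat_lit 418) (nat_lit 292)) (XT.lf (nat_lit 76) (nat_lit 3364704741) (nat_lit 0) (nat_lit 5373063843)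 (nat_lit 1672) (nat_lit 1571022681) (nat_lit 499) (nat_lit 5) (nat_lit 498) (nat_lit 5) (nat_lit 520) (nat_lit 5) (nat_lit 431) (nat_lit 418) (nat_lit 291))))) (XT.nd (nat_lit 234) (nat_lit 0) (nat_lit 76) (XT.nd (nat_lit 78) (nat_lit 1596) (nat_lit 0) (XT.lf (nat_lit 76) (nat_lit 8785256963) (nat_lit 0) (nat_lit 1111864707) (nat_lit 1672) (nat_lit 506577194) (nat_lit 499) (nat_lit 5) (nat_lit 498) (nat_lit 5) (nat_lit 520) (nat_lit 5) (nat_lit 432) (nat_lit 418) (nat_lit 290)) (XT.nd (nat_lit 78) (nat_lit 0) (nat_lit 0) (XT.lf (nat_lit 0) (nat_lit 600229072) (nat_lit 1672) (nat_lit 6673190919) (nat_lit 1748) (nat_lit 3226440034) (nat_lit 477) (nat_lit 5) (nat_lit 499) (nat_lit 5) (nat_lit 500) (nat_lit 5) (nat_lit 433) (nat_lit 418) (nat_lit 289)) (XT.lf (nat_lit 0) (nat_lit 1723445822) (nat_lit 1672) (nat_lit 1218306989) (nat_lit 1748) (nat_lit 7656107365) (nat_lit 477) (nat_lit 5) (nat_lit 499) (nat_lit 5) (nat_lit 500)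 (nat_lit 5) (nat_lit 434) (nat_lit 418) (nat_lit 288)))) (XT.nd (nat_lit 78) (nat_lit 0) (nat_lit 0) (XT.lf (nat_lit 0) (nat_lit 2890536488) (nat_lit 1672) (nat_lit 6316300844) (nat_lit 1748) (nat_lit 1490558620) (nat_lit 478) (nat_lit 5) (nat_lit 500) (nat_lit 5) (nat_lit 501) (nat_lit 5) (nat_lit 435) (nat_lit 418) (nat_lit 287)) (XT.nd (nat_lit 78) (nat_lit 0) (nat_lit 0) (XT.lf (nat_lit 0) (nat_lit 4092056428) (nat_lit 1672) (nat_lit 721748683) (nat_lit 1748) (nat_lit 5984899322) (nat_lit 478) (nat_lit 5) (nat_lit 500) (nat_lit 5) (nat_lit 501) (nat_lit 5) (nat_lit 436) (nat_lit 418) (nat_lit 286)) (XT.lf (nat_lit 76) (nat_lit 5038566897) (nat_lit 0) (nat_lit 295455579) (nat_lit 1748) (nat_lit 5567691956) (nat_lit 479) (nat_lit 5) (nat_lit 478) (nat_lit 5) (nat_lit 501) (nat_lit 5) (nat_lit 437) (nat_lit 418) (nat_lit 285))))))))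
noncomputable def xc178 : XT := (XT.nd (nat_lit 1794) (nat_lit 9196) (nat_lit 0) (XT.nd (nat_lit 858) (nat_lit 5168) (nat_lit 0) (XT.nd (nat_lit 390) (nat_lit 4104) (nat_lit 0) (XT.nd (nat_lit 156) (nat_lit 1596) (nat_lit 0) (XT.nd (nat_lit 78) (nat_lit 0) (nat_lit 0) (XT.lf (nat_lit 0) (nat_lit 6617676099) (nat_lit 1672) (nat_lit 123331359) (nat_lit 1748) (nat_lit 4265443801) (nat_lit 479) (nat_lit 5) (nat_lit 501) (nat_lit 5) (nat_lit 502) (nat_lit 5) (nat_lit 438) (nat_lit 418) (nat_lit 284)) (XT.lf (nat_lit 76) (nat_lit 5793067039) (nat_lit 0) (nat_lit 2157787509) (nat_lit 1748) (nat_lit 3161954760) (nat_lit 480) (nat_lit 5) (nat_lit 479) (nat_lit 5) (nat_lit 502) (nat_lit 5) (nat_lit 439) (nat_lit 418) (nat_lit 283))) (XT.nd (nat_lit 78) (nat_lit 1672) (nat_lit 0) (XT.lf (nat_lit 76) (nat_lit 587049414) (nat_lit 0) (nat_lit 8729168006) (nat_lit 1748) (nat_lit 1904970133) (nat_lit 481) (nat_lit 5) (nat_lit 480) (nat_lit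 5) (nat_lit 503) (nat_lit 5) (nat_lit 440) (nat_lit 418) (nat_lit 282)) (XT.nd (nat_lit 78) (nat_lit 1672) (nat_lit 0) (XT.lf (nat_lit 76) (nat_lit 6657200784) (nat_lit 0) (nat_lit 4086337295) (nat_lit 1748) (nat_lit 587505658) (nat_lit 481) (nat_lit 5) (nat_lit 480) (nat_lit 5) (nat_lit 503) (nat_lit 5) (nat_lit 441) (nat_lit 418) (nat_lit 281)) (XT.lf (nat_lit 0) (nat_lit 744802435) (nat_lit 1748) (nat_lit 10040614958) (nat_lit 76) (nat_lit 657616428) (nat_lit 458) (nat_lit 5) (nat_lit 481) (nat_lit 5) (nat_lit 459) (nat_lit 5) (nat_lit 442) (nat_lit 418) (nat_lit 280))))) (XT.nd (nat_lit 234) (nat_lit 2356) (nat_lit 0) (XT.nd (nat_lit 78) (nat_lit 1748) (nat_lit 0) (XT.lf (nat_lit 0) (nat_lit 2139715581) (nat_lit 1748) (nat_lit 3936837363) (nat_lit 76) (nat_lit 5479759772) (nat_lit 458) (nat_lit 5) (nat_lit 481) (nat_lit 5) (nat_lit 459) (nat_lit 5) (nat_lit 443) (nat_lit 418) (nat_lit 279)) (XT.nd (nat_lit 78) (nat_lit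 0) (nat_lit 0) (XT.lf (nat_lit 0) (nat_lit 2306916790) (nat_lit 1748) (nat_lit 1256063476) (nat_lit 1824) (nat_lit 8108870985) (nat_lit 435) (nat_lit 5) (nat_lit 458) (nat_lit 5) (nat_lit 459) (nat_lit 5) (nat_lit 444) (nat_lit 418) (nat_lit 278)) (XT.lf (nat_lit 0) (nat_lit 5050765665) (nat_lit 1824) (nat_lit 3096780915) (nat_lit 76) (nat_lit 3641435934) (nat_lit 435) (nat_lit 5) (nat_lit 459) (nat_lit 5) (nat_lit 436) (nat_lit 5) (nat_lit 445) (nat_lit 418) (nat_lit 277)))) (XT.nd (nat_lit 78) (nat_lit 912) (nat_lit 0) (XT.lf (nat_lit 0) (nat_lit 3319625389) (nat_lit 1444) (nat_lit 3264527051) (nat_lit 1520) (nat_lit 5323990054) (nat_lit 416) (nat_lit 5) (nat_lit 435) (nat_lit 5) (nat_lit 436) (nat_lit 5) (nat_lit 446) (nat_lit 418) (nat_lit 276)) (XT.nd (nat_lit 78) (nat_lit 912) (nat_lit 0) (XT.lf (nat_lit 0) (nat_lit 8166447927) (nat_lit 1520) (nat_lit 2146750784) (nat_lit 76) (nat_lit 1716125090) (nat_lit 416) (nat_lit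 5) (nat_lit 436) (nat_lit 5) (nat_lit 417) (nat_lit 5) (nat_lit 447) (nat_lit 418) (nat_lit 275)) (XT.lf (nat_lit 0) (nat_lit 4448279099) (nat_lit 912) (nat_lit 5369061688) (nat_lit 988) (nat_lit 2334851806) (nat_lit 404) (nat_lit 5) (nat_lit 416) (nat_lit 5) (nat_lit 417) (nat_lit 5) (nat_lit 448) (nat_lit 418) (nat_lit 274)))))) (XT.nd (nat_lit 468) (nat_lit 2432) (nat_lit 0) (XT.nd (nat_lit 234) (nat_lit 836) (nat_lit 0) (XT.nd (nat_lit 78) (nat_lit 1900) (nat_lit 0) (XT.lf (nat_lit 0) (nat_lit 11192097864) (nat_lit 912) (nat_lit 310196754) (nat_lit 988) (nat_lit 775206114) (nat_lit 404) (nat_lit 5) (nat_lit 416) (nat_lit 5) (nat_lit 417) (nat_lit 5) (nat_lit 449) (nat_lit 418) (nat_lit 273)) (XT.nd (nat_lit 78) (nat_lit 912) (nat_lit 0) (XT.lf (nat_lit 0) (nat_lit 860679550) (nat_lit 988) (nat_lit 6713417144) (nat_lit 76) (nat_lit 4830000265) (nat_lit 391) (nat_lit 5) (nat_lit 404) (nat_lit 5) (nat_lit 392) (nat_lit 5)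 (nat_lit 450) (nat_lit 418) (nat_lit 272)) (XT.lf (nat_lit 0) (nat_lit 65197281) (nat_lit 912) (nat_lit 2450520952) (nat_lit 988) (nat_lit 10017470757) (nat_lit 379) (nat_lit 5) (nat_lit 391) (nat_lit 5) (nat_lit 392) (nat_lit 5) (nat_lit 451) (nat_lit 418) (nat_lit 271)))) (XT.nd (nat_lit 78) (nat_lit 836) (nat_lit 0) (XT.lf (nat_lit 0) (nat_lit 4254402420) (nat_lit 988) (nat_lit 5624415433) (nat_lit 76) (nat_lit 2785036731) (nat_lit 379) (nat_lit 5) (nat_lit 392) (nat_lit 5) (nat_lit 380) (nat_lit 5) (nat_lit 452) (nat_lit 418) (nat_lit 270)) (XT.nd (nat_lit 78) (nat_lit 0) (nat_lit 0) (XT.lf (nat_lit 0) (nat_lit 1345170606) (nat_lit 836) (nat_lit 4695078765) (nat_lit 912) (nat_lit 6756638903) (nat_lit 368) (nat_lit 5) (nat_lit 379) (nat_lit 5) (nat_lit 380) (nat_lit 5) (nat_lit 453) (nat_lit 418) (nat_lit 269)) (XT.lf (nat_lit 0) (nat_lit 7891247292) (nat_lit 912) (nat_lit 4417981316) (nat_lit 76) (nat_lit 622767863) (nat_lit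 368) (nat_lit 5) (nat_lit 380) (nat_lit 5) (nat_lit 369) (nat_lit 5) (nat_lit 454) (nat_lit 418) (nat_lit 268))))) (XT.nd (nat_lit 234) (nat_lit 760) (nat_lit 0) (XT.nd (nat_lit 78) (nat_lit 836) (nat_lit 0) (XT.lf (nat_lit 0) (nat_lit 2749190151) (nat_lit 836) (nat_lit 7066856508) (nat_lit 912) (nat_lit 3253027011) (nat_lit 357) (nat_lit 5) (nat_lit 368) (nat_lit 5) (nat_lit 369) (nat_lit 5) (nat_lit 455) (nat_lit 418) (nat_lit 267)) (XT.nd (nat_lit 78) (nat_lit 836) (nat_lit 0) (XT.lf (nat_lit 0) (nat_lit 10107469729) (nat_lit 836) (nat_lit 1689517700) (nat_lit 912) (nat_lit 1411554492) (nat_lit 357) (nat_lit 5) (nat_lit 368) (nat_lit 5) (nat_lit 369) (nat_lit 5) (nat_lit 456) (nat_lit 418) (nat_lit 266)) (XT.lf (nat_lit 0) (nat_lit 501566427) (nat_lit 836) (nat_lit 9071783654) (nat_lit 76) (nat_lit 3776572361) (nat_lit 346) (nat_lit 5) (nat_lit 357) (nat_lit 5) (nat_lit 347) (nat_lit 5) (nat_lit 457) (nat_lit 418) (nat_lit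 265)))) (XT.nd (nat_lit 78) (nat_lit 760) (nat_lit 0) (XT.lf (nat_lit 0) (nat_lit 2454509544) (nat_lit 836) (nat_lit 1679618643) (nat_lit 76) (nat_lit 9359408848) (nat_lit 346) (nat_lit 5) (nat_lit 357) (nat_lit 5) (nat_lit 347) (nat_lit 5) (nat_lit 458) (nat_lit 418) (nat_lit 264)) (XT.nd (nat_lit 78) (nat_lit 0) (nat_lit 0) (XT.lf (nat_lit 0) (nat_lit 4482955073) (nat_lit 836) (nat_lit 7722765307) (nat_lit 76) (nat_lit 1433576903) (nat_lit 336) (nat_lit 5) (nat_lit 347) (nat_lit 5) (nat_lit 337) (nat_lit 5) (nat_lit 459) (nat_lit 418) (nat_lit 263)) (XT.lf (nat_lit 0) (nat_lit 6579373209) (nat_lit 836) (nat_lit 139933363) (nat_lit 76) (nat_lit 7068120277) (nat_lit 336) (nat_lit 5) (nat_lit 347) (nat_lit 5) (nat_lit 337) (nat_lit 5) (nat_lit 460) (nat_lit 418) (nat_lit 262))))))) (XT.nd (nat_lit 936) (nat_lit 4180) (nat_lit 0) (XT.nd (nat_lit 468) (nat_lit 2052) (nat_lit 0) (XT.nd (nat_lit 234) (nat_lit 1444) (nat_lit 0) (XT.nd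 (nat_lit 78) (nat_lit 760) (nat_lit 0) (XT.lf (nat_lit 0) (nat_lit 7683456150) (nat_lit 760) (nat_lit 1073051217) (nat_lit 836) (nat_lit 5181238036) (nat_lit 326) (nat_lit 5) (nat_lit 336) (nat_lit 5) (nat_lit 337) (nat_lit 5) (nat_lit 461) (nat_lit 418) (nat_lit 261)) (XT.nd (nat_lit 78) (nat_lit 0) (nat_lit 0) (XT.lf (nat_lit 0) (nat_lit 1552076088) (nat_lit 760) (nat_lit 9455593146) (nat_lit 836) (nat_lit 3082793495) (nat_lit 316) (nat_lit 5) (nat_lit 326) (nat_lit 5) (nat_lit 327) (nat_lit 5) (nat_lit 462) (nat_lit 418) (nat_lit 260)) (XT.lf (nat_lit 0) (nat_lit 9580218795) (nat_lit 760) (nat_lit 3761839394) (nat_lit 836) (nat_lit 903414201) (nat_lit 316) (nat_lit 5) (nat_lit 326) (nat_lit 5) (nat_lit 327) (nat_lit 5) (nat_lit 463) (nat_lit 418) (nat_lit 259)))) (XT.nd (nat_lit 78) (nat_lit 684) (nat_lit 0) (XT.lf (nat_lit 0) (nat_lit 1327044991) (nat_lit 760) (nat_lit 11027274771) (nat_lit 76) (nat_lit 2048597145) (nat_lit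 306) (nat_lit 5) (nat_lit 316) (nat_lit 5) (nat_lit 307) (nat_lit 5) (nat_lit 464) (nat_lit 418) (nat_lit 258)) (XT.nd (nat_lit 78) (nat_lit 684) (nat_lit 0) (XT.lf (nat_lit 0) (nat_lit 3635894466) (nat_lit 760) (nat_lit 2965357823) (nat_lit 76) (nat_lit 7961222984) (nat_lit 306) (nat_lit 5) (nat_lit 316) (nat_lit 5) (nat_lit 307) (nat_lit 5) (nat_lit 465) (nat_lit 418) (nat_lit 257)) (XT.lf (nat_lit 0) (nat_lit 5315784429) (nat_lit 684) (nat_lit 699297184) (nat_lit 760) (nat_lit 8709661885) (nat_lit 297) (nat_lit 5) (nat_lit 306) (nat_lit 5) (nat_lit 307) (nat_lit 5) (nat_lit 466) (nat_lit 418) (nat_lit 256))))) (XT.nd (nat_lit 234) (nat_lit 684) (nat_lit 0) (XT.nd (nat_lit 78) (nat_lit 1368) (nat_lit 0) (XT.lf (nat_lit 0) (nat_lit 8486194047) (nat_lit 760) (nat_lit 1133641087) (nat_lit 76) (nat_lit 5269536991) (nat_lit 297) (nat_lit 5) (nat_lit 307) (nat_lit 5) (nat_lit 298) (nat_lit 5) (nat_lit 467) (nat_lit 418) (nat_lit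 255)) (XT.nd (nat_lit 78) (nat_lit 684) (nat_lit 0) (XT.lf (nat_lit 0) (nat_lit 7387826747) (nat_lit 684) (nat_lit 3661465597) (nat_lit 760) (nat_lit 4007151541) (nat_lit 288) (nat_lit 5) (nat_lit 297) (nat_lit 5) (nat_lit 298) (nat_lit 5) (nat_lit 468) (nat_lit 418) (nat_lit 254)) (XT.lf (nat_lit 0) (nat_lit 852092935) (nat_lit 684) (nat_lit 12830513541) (nat_lit 760) (nat_lit 1543873323) (nat_lit 279) (nat_lit 5) (nat_lit 288) (nat_lit 5) (nat_lit 289) (nat_lit 5) (nat_lit 469) (nat_lit 418) (nat_lit 253)))) (XT.nd (nat_lit 78) (nat_lit 608) (nat_lit 0) (XT.lf (nat_lit 0) (nat_lit 1022144851) (nat_lit 760) (nat_lit 5794384883) (nat_lit 76) (nat_lit 8581939064) (nat_lit 278) (nat_lit 5) (nat_lit 288) (nat_lit 5) (nat_lit 279) (nat_lit 5) (nat_lit 470) (nat_lit 418) (nat_lit 252)) (XT.nd (nat_lit 78) (nat_lit 0) (nat_lit 0) (XT.lf (nat_lit 0) (nat_lit 2974447507) (nat_lit 608) (nat_lit 654017679) (nat_lit 684) (nat_lit 11945036899)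 (nat_lit 270) (nat_lit 5) (nat_lit 278) (nat_lit 5) (nat_lit 279) (nat_lit 5) (nat_lit 471) (nat_lit 418) (nat_lit 251)) (XT.lf (nat_lit 0) (nat_lit 6353043441) (nat_lit 684) (nat_lit 3802540079) (nat_lit 76) (nat_lit 5595131546) (nat_lit 270) (nat_lit 5) (nat_lit 279) (nat_lit 5) (nat_lit 271) (nat_lit 5) (nat_lit 472) (nat_lit 418) (nat_lit 250)))))) (XT.nd (nat_lit 468) (nat_lit 1748) (nat_lit 0) (XT.nd (nat_lit 234) (nat_lit 1216) (nat_lit 0) (XT.nd (nat_lit 78) (nat_lit 608) (nat_lit 0) (XT.lf (nat_lit 0) (nat_lit 5222637792) (nat_lit 608) (nat_lit 3938328887) (nat_lit 684) (nat_lit 6769930187) (nat_lit 262) (nat_lit 5) (nat_lit 270) (nat_lit 5) (nat_lit 271) (nat_lit 5) (nat_lit 473) (nat_lit 418) (nat_lit 249)) (XT.nd (nat_lit 78) (nat_lit 608) (nat_lit 0) (XT.lf (nat_lit 0) (nat_lit 12057048204) (nat_lit 684) (nat_lit 1661610842) (nat_lit 76) (nat_lit 2395384853) (nat_lit 262) (nat_lit 5) (nat_lit 271) (nat_lit 5) (nat_lit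 263) (nat_lit 5) (nat_lit 474) (nat_lit 418) (nat_lit 248)) (XT.lf (nat_lit 0) (nat_lit 7628635794) (nat_lit 608) (nat_lit 7448919693) (nat_lit 684) (nat_lit 1221969869) (nat_lit 254) (nat_lit 5) (nat_lit 262) (nat_lit 5) (nat_lit 263) (nat_lit 5) (nat_lit 475) (nat_lit 418) (nat_lit 247)))) (XT.nd (nat_lit 78) (nat_lit 532) (nat_lit 0) (XT.lf (nat_lit 0) (nat_lit 624643379) (nat_lit 608) (nat_lit 1029430522) (nat_lit 684) (nat_lit 14834302887) (nat_lit 245) (nat_lit 5) (nat_lit 253) (nat_lit 5) (nat_lit 254) (nat_lit 5) (nat_lit 476) (nat_lit 418) (nat_lit 246)) (XT.nd (nat_lit 78) (nat_lit 532) (nat_lit 0) (XT.lf (nat_lit 0) (nat_lit 4656718968) (nat_lit 684) (nat_lit 6511967975) (nat_lit 76) (nat_lit 5510449384) (nat_lit 245) (nat_lit 5) (nat_lit 254) (nat_lit 5) (nat_lit 246) (nat_lit 5) (nat_lit 477) (nat_lit 418) (nat_lit 245)) (XT.lf (nat_lit 0) (nat_lit 3048782703) (nat_lit 532) (nat_lit 4688448628) (nat_lit 608) (nat_lit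 9136124882) (nat_lit 238) (nat_lit 5) (nat_lit 245) (nat_lit 5) (nat_lit 246) (nat_lit 5) (nat_lit 478) (nat_lit 418) (nat_lit 244))))) (XT.nd (nat_lit 234) (nat_lit 1064) (nat_lit 0) (XT.nd (nat_lit 78) (nat_lit 684) (nat_lit 0) (XT.lf (nat_lit 0) (nat_lit 10927103558) (nat_lit 608) (nat_lit 4205634709) (nat_lit 76) (nat_lit 1937768653) (nat_lit 238) (nat_lit 5) (nat_lit 246) (nat_lit 5) (nat_lit 239) (nat_lit 5) (nat_lit 479) (nat_lit 418) (nat_lit 243)) (XT.nd (nat_lit 78) (nat_lit 76) (nat_lit 0) (XT.lf (nat_lit 0) (nat_lit 5637488193) (nat_lit 608) (nat_lit 8602394051) (nat_lit 684) (nat_lit 3030537607) (nat_lit 230) (nat_lit 5) (nat_lit 238) (nat_lit 5) (nat_lit 239) (nat_lit 5) (nat_lit 480) (nat_lit 418) (nat_lit 242)) (XT.lf (nat_lit 0) (nat_lit 162594238) (nat_lit 684) (nat_lit 1751533662) (nat_lit 76) (nat_lit 15559787598) (nat_lit 229) (nat_lit 5) (nat_lit 238) (nat_lit 5) (nat_lit 230) (nat_lit 5) (nat_lit 481)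 (nat_lit 418) (nat_lit 241)))) (XT.nd (nat_lit 78) (nat_lit 532) (nat_lit 0) (XT.lf (nat_lit 0) (nat_lit 3457636039) (nat_lit 608) (nat_lit 9305725639) (nat_lit 76) (nat_lit 4916147528) (nat_lit 222) (nat_lit 5) (nat_lit 230) (nat_lit 5) (nat_lit 223) (nat_lit 5) (nat_lit 482) (nat_lit 418) (nat_lit 240)) (XT.nd (nat_lit 78) (nat_lit 0) (nat_lit 0) (XT.lf (nat_lit 0) (nat_lit 823432254) (nat_lit 532) (nat_lit 6016739766) (nat_lit 608) (nat_lit 11048612183) (nat_lit 215) (nat_lit 5) (nat_lit 222) (nat_lit 5) (nat_lit 223) (nat_lit 5) (nat_lit 483) (nat_lit 418) (nat_lit 239)) (XT.lf (nat_lit 0) (nat_lit 10350646059) (nat_lit 608) (nat_lit 6836766963) (nat_lit 76) (nat_lit 913627189) (nat_lit 215) (nat_lit 5) (nat_lit 223) (nat_lit 5) (nat_lit 216) (nat_lit 5) (nat_lit 484) (nat_lit 418) (nat_lit 238))))))))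
noncomputable def xc179 : XT := (XT.nd (nat_lit 1794) (nat_lit 1140) (nat_lit 0) (XT.nd (nat_lit 858) (nat_lit 2964) (nat_lit 0) (XT.nd (nat_lit 390) (nat_lit 1444) (nat_lit 0) (XT.nd (nat_lit 156) (nat_lit 1064) (nat_lit 0) (XT.nd (nat_lit 78) (nat_lit 0) (nat_lit 0) (XT.lf (nat_lit 0) (nat_lit 3592823554) (nat_lit 456) (nat_lit 10393652037) (nat_lit 532) (nat_lit 4329964060) (nat_lit 209) (nat_lit 5) (nat_lit 215) (nat_lit 5) (nat_lit 216) (nat_lit 5) (nat_lit 485) (nat_lit 418) (nat_lit 237)) (XT.lf (nat_lit 0) (nat_lit 14312910642) (nat_lit 456) (nat_lit 3420049906) (nat_lit 532) (nat_lit 802428966) (nat_lit 209) (nat_lit 5) (nat_lit 215) (nat_lit 5) (nat_lit 216) (nat_lit 5) (nat_lit 486) (nat_lit 418) (nat_lit 236))) (XT.nd (nat_lit 78) (nat_lit 456) (nat_lit 0) (XT.lf (nat_lit 0) (nat_lit 2818014760) (nat_lit 608) (nat_lit 12236309619) (nat_lit 76) (nat_lit 3702851660) (nat_lit 201) (nat_lit 5) (nat_lit 209) (nat_lit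 5) (nat_lit 202) (nat_lit 5) (nat_lit 487) (nat_lit 418) (nat_lit 235)) (XT.nd (nat_lit 78) (nat_lit 456) (nat_lit 0) (XT.lf (nat_lit 0) (nat_lit 6543534838) (nat_lit 608) (nat_lit 1485398369) (nat_lit 76) (nat_lit 10953491907) (nat_lit 201) (nat_lit 5) (nat_lit 209) (nat_lit 5) (nat_lit 202) (nat_lit 5) (nat_lit 488) (nat_lit 418) (nat_lit 234)) (XT.lf (nat_lit 0) (nat_lit 9595861850) (nat_lit 456) (nat_lit 802388435) (nat_lit 532) (nat_lit 8812836303) (nat_lit 195) (nat_lit 5) (nat_lit 201) (nat_lit 5) (nat_lit 202) (nat_lit 5) (nat_lit 489) (nat_lit 418) (nat_lit 233))))) (XT.nd (nat_lit 234) (nat_lit 456) (nat_lit 0) (XT.nd (nat_lit 78) (nat_lit 532) (nat_lit 0) (XT.lf (nat_lit 0) (nat_lit 1440352110) (nat_lit 456) (nat_lit 12944186592) (nat_lit 532) (nat_lit 5058694109) (nat_lit 189) (nat_lit 5) (nat_lit 195) (nat_lit 5) (nat_lit 196) (nat_lit 5) (nat_lit 490) (nat_lit 418) (nat_lit 232)) (XT.nd (nat_lit 78) (nat_lit 532)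 (nat_lit 0) (XT.lf (nat_lit 0) (nat_lit 12831478200) (nat_lit 456) (nat_lit 5681401501) (nat_lit 532) (nat_lit 1165896798) (nat_lit 189) (nat_lit 5) (nat_lit 195) (nat_lit 5) (nat_lit 196) (nat_lit 5) (nat_lit 491) (nat_lit 418) (nat_lit 231)) (XT.lf (nat_lit 0) (nat_lit 2801724434) (nat_lit 532) (nat_lit 15367113282) (nat_lit 76) (nat_lit 1749155109) (nat_lit 182) (nat_lit 5) (nat_lit 189) (nat_lit 5) (nat_lit 183) (nat_lit 5) (nat_lit 492) (nat_lit 418) (nat_lit 230)))) (XT.nd (nat_lit 78) (nat_lit 456) (nat_lit 0) (XT.lf (nat_lit 0) (nat_lit 6909659312) (nat_lit 532) (nat_lit 3947353761) (nat_lit 76) (nat_lit 9303295834) (nat_lit 182) (nat_lit 5) (nat_lit 189) (nat_lit 5) (nat_lit 183) (nat_lit 5) (nat_lit 493) (nat_lit 418) (nat_lit 229)) (XT.nd (nat_lit 78) (nat_lit 0) (nat_lit 0) (XT.lf (nat_lit 0) (nat_lit 7792742909) (nat_lit 456) (nat_lit 3350428711) (nat_lit 532) (nat_lit 9263432309) (nat_lit 176) (nat_lit 5) (nat_lit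 182) (nat_lit 5) (nat_lit 183) (nat_lit 5) (nat_lit 494) (nat_lit 418) (nat_lit 228)) (XT.lf (nat_lit 0) (nat_lit 15508855236) (nat_lit 532) (nat_lit 874597544) (nat_lit 76) (nat_lit 4273423020) (nat_lit 176) (nat_lit 5) (nat_lit 183) (nat_lit 5) (nat_lit 177) (nat_lit 5) (nat_lit 495) (nat_lit 418) (nat_lit 227)))))) (XT.nd (nat_lit 468) (nat_lit 1216) (nat_lit 0) (XT.nd (nat_lit 234) (nat_lit 836) (nat_lit 0) (XT.nd (nat_lit 78) (nat_lit 532) (nat_lit 0) (XT.lf (nat_lit 0) (nat_lit 11214225093) (nat_lit 380) (nat_lit 8835643089) (nat_lit 456) (nat_lit 860525568) (nat_lit 171) (nat_lit 5) (nat_lit 176) (nat_lit 5) (nat_lit 177) (nat_lit 5) (nat_lit 496) (nat_lit 418) (nat_lit 226)) (XT.nd (nat_lit 78) (nat_lit 0) (nat_lit 0) (XT.lf (nat_lit 0) (nat_lit 2386122299) (nat_lit 456) (nat_lit 1094969438) (nat_lit 532) (nat_lit 17687146252) (nat_lit 164) (nat_lit 5) (nat_lit 170) (nat_lit 5) (nat_lit 171) (nat_lit 5) (nat_lit 497)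 (nat_lit 418) (nat_lit 225)) (XT.lf (nat_lit 0) (nat_lit 8000773003) (nat_lit 532) (nat_lit 6648920288) (nat_lit 76) (nat_lit 6779377878) (nat_lit 164) (nat_lit 5) (nat_lit 171) (nat_lit 5) (nat_lit 165) (nat_lit 5) (nat_lit 498) (nat_lit 418) (nat_lit 224)))) (XT.nd (nat_lit 78) (nat_lit 456) (nat_lit 0) (XT.lf (nat_lit 0) (nat_lit 5785573787) (nat_lit 380) (nat_lit 6863317292) (nat_lit 456) (nat_lit 9045469950) (nat_lit 159) (nat_lit 5) (nat_lit 164) (nat_lit 5) (nat_lit 165) (nat_lit 5) (nat_lit 499) (nat_lit 418) (nat_lit 223)) (XT.nd (nat_lit 78) (nat_lit 456) (nat_lit 0) (XT.lf (nat_lit 0) (nat_lit 17435164308) (nat_lit 456) (nat_lit 3422519293) (nat_lit 76) (nat_lit 1106370094) (nat_lit 159) (nat_lit 5) (nat_lit 165) (nat_lit 5) (nat_lit 160) (nat_lit 5) (nat_lit 500) (nat_lit 418) (nat_lit 222)) (XT.lf (nat_lit 0) (nat_lit 177428097) (nat_lit 456) (nat_lit 12857099097) (nat_lit 76) (nat_lit 9202595145) (nat_lit 153)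 (nat_lit 5) (nat_lit 159) (nat_lit 5) (nat_lit 154) (nat_lit 5) (nat_lit 501) (nat_lit 418) (nat_lit 221))))) (XT.nd (nat_lit 234) (nat_lit 456) (nat_lit 0) (XT.nd (nat_lit 78) (nat_lit 760) (nat_lit 0) (XT.lf (nat_lit 0) (nat_lit 4933834738) (nat_lit 456) (nat_lit 70195372) (nat_lit 76) (nat_lit 17510692247) (nat_lit 153) (nat_lit 5) (nat_lit 159) (nat_lit 5) (nat_lit 154) (nat_lit 5) (nat_lit 502) (nat_lit 418) (nat_lit 220)) (XT.nd (nat_lit 78) (nat_lit 380) (nat_lit 0) (XT.lf (nat_lit 0) (nat_lit 9885445112) (nat_lit 456) (nat_lit 9682493862) (nat_lit 76) (nat_lit 3227934687) (nat_lit 148) (nat_lit 5) (nat_lit 154) (nat_lit 5) (nat_lit 149) (nat_lit 5) (nat_lit 503) (nat_lit 418) (nat_lit 219)) (XT.lf (nat_lit 0) (nat_lit 3481743086) (nat_lit 380) (nat_lit 11504164560) (nat_lit 456) (nat_lit 8095744729) (nat_lit 143) (nat_lit 5) (nat_lit 148) (nat_lit 5) (nat_lit 149) (nat_lit 5) (nat_lit 504) (nat_lit 418) (nat_lit 218))))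 (XT.nd (nat_lit 78) (nat_lit 456) (nat_lit 0) (XT.lf (nat_lit 0) (nat_lit 17030859829) (nat_lit 380) (nat_lit 3216157758) (nat_lit 456) (nat_lit 3124957080) (nat_lit 143) (nat_lit 5) (nat_lit 148) (nat_lit 5) (nat_lit 149) (nat_lit 5) (nat_lit 505) (nat_lit 418) (nat_lit 217)) (XT.nd (nat_lit 78) (nat_lit 0) (nat_lit 0) (XT.lf (nat_lit 0) (nat_lit 1994969944) (nat_lit 456) (nat_lit 16445575657) (nat_lit 76) (nat_lit 5225801225) (nat_lit 137) (nat_lit 5) (nat_lit 143) (nat_lit 5) (nat_lit 138) (nat_lit 5) (nat_lit 506) (nat_lit 418) (nat_lit 216)) (XT.lf (nat_lit 0) (nat_lit 7233410082) (nat_lit 456) (nat_lit 2877769597) (nat_lit 76) (nat_lit 13853855199) (nat_lit 137) (nat_lit 5) (nat_lit 143) (nat_lit 5) (nat_lit 138) (nat_lit 5) (nat_lit 507) (nat_lit 418) (nat_lit 215))))))) (XT.nd (nat_lit 52962) (nat_lit 0) (nat_lit 26904) (XT.nd (nat_lit 52494) (nat_lit 0) (nat_lit 28272) (XT.nd (nat_lit 234) (nat_lit 456) (nat_lit 0)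 (XT.nd (nat_lit 78) (nat_lit 304) (nat_lit 0) (XT.lf (nat_lit 0) (nat_lit 11097538155) (nat_lit 380) (nat_lit 1545040852) (nat_lit 456) (nat_lit 11625799191) (nat_lit 132) (nat_lit 5) (nat_lit 137) (nat_lit 5) (nat_lit 138) (nat_lit 5) (nat_lit 508) (nat_lit 418) (nat_lit 214)) (XT.nd (nat_lit 78) (nat_lit 0) (nat_lit 0) (XT.lf (nat_lit 0) (nat_lit 767763628) (nat_lit 304) (nat_lit 17457234496) (nat_lit 380) (nat_lit 6351489618) (nat_lit 128) (nat_lit 5) (nat_lit 132) (nat_lit 5) (nat_lit 133) (nat_lit 5) (nat_lit 509) (nat_lit 418) (nat_lit 213)) (XT.lf (nat_lit 0) (nat_lit 15143928935) (nat_lit 304) (nat_lit 8867687329) (nat_lit 380) (nat_lit 877292883) (nat_lit 128) (nat_lit 5) (nat_lit 132) (nat_lit 5) (nat_lit 133) (nat_lit 5) (nat_lit 510) (nat_lit 418) (nat_lit 212)))) (XT.nd (nat_lit 78) (nat_lit 0) (nat_lit 0) (XT.lf (nat_lit 0) (nat_lit 4620812291) (nat_lit 380) (nat_lit 47932377) (nat_lit 456) (nat_lit 20537742184)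 (nat_lit 122) (nat_lit 5) (nat_lit 127) (nat_lit 5) (nat_lit 128) (nat_lit 5) (nat_lit 511) (nat_lit 418) (nat_lit 211)) (XT.nd (nat_lit 52104) (nat_lit 0) (nat_lit 29792) (XT.lf (nat_lit 0) (nat_lit 10432006935) (nat_lit 456) (nat_lit 6196739777) (nat_lit 76) (nat_lit 8899193046) (nat_lit 122) (nat_lit 5) (nat_lit 128) (nat_lit 5) (nat_lit 123) (nat_lit 5) (nat_lit 512) (nat_lit 418) (nat_lit 210)) (XT.lf (nat_lit 0) (nat_lit 3577607693) (nat_lit 1596) (nat_lit 553604353) (nat_lit 1596) (nat_lit 553604353) (nat_lit 514) (nat_lit 3) (nat_lit 535) (nat_lit 3) (nat_lit 535) (nat_lit 5) (nat_lit 419) (nat_lit 419) (nat_lit 302))))) (XT.nd (nat_lit 234) (nat_lit 0) (nat_lit 0) (XT.nd (nat_lit 78) (nat_lit 1520) (nat_lit 0) (XT.lf (nat_lit 76) (nat_lit 3501286597) (nat_lit 0) (nat_lit 4557425176) (nat_lit 1596) (nat_lit 1387782883) (nat_lit 515) (nat_lit 5) (nat_lit 514) (nat_lit 3) (nat_lit 535) (nat_lit 5) (nat_lit 420) (nat_lit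 419) (nat_lit 301)) (XT.nd (nat_lit 78) (nat_lit 1520) (nat_lit 0) (XT.lf (nat_lit 76) (nat_lit 8205988639) (nat_lit 0) (nat_lit 760422257) (nat_lit 1596) (nat_lit 558765328) (nat_lit 515) (nat_lit 5) (nat_lit 514) (nat_lit 3) (nat_lit 535) (nat_lit 5) (nat_lit 421) (nat_lit 419) (nat_lit 300)) (XT.lf (nat_lit 0) (nat_lit 304760437) (nat_lit 1596) (nat_lit 6194352944) (nat_lit 1672) (nat_lit 3105851934) (nat_lit 494) (nat_lit 5) (nat_lit 515) (nat_lit 5) (nat_lit 516) (nat_lit 5) (nat_lit 422) (nat_lit 419) (nat_lit 299)))) (XT.nd (nat_lit 78) (nat_lit 0) (nat_lit 76) (XT.lf (nat_lit 0) (nat_lit 1171410093) (nat_lit 1596) (nat_lit 1453527598) (nat_lit 1672) (nat_lit 7061476755) (nat_lit 494) (nat_lit 5) (nat_lit 515) (nat_lit 5) (nat_lit 516) (nat_lit 5) (nat_lit 423) (nat_lit 419) (nat_lit 298)) (XT.nd (nat_lit 78) (nat_lit 0) (nat_lit 0) (XT.lf (nat_lit 0) (nat_lit 2066174392) (nat_lit 1596) (nat_lit 6362590898) (nat_lit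 1672) (nat_lit 1340516378) (nat_lit 495) (nat_lit 5) (nat_lit 516) (nat_lit 5) (nat_lit 517) (nat_lit 5) (nat_lit 424) (nat_lit 419) (nat_lit 297)) (XT.lf (nat_lit 0) (nat_lit 2986202461) (nat_lit 1596) (nat_lit 1498853585) (nat_lit 1672) (nat_lit 5368607465) (nat_lit 495) (nat_lit 5) (nat_lit 516) (nat_lit 5) (nat_lit 517) (nat_lit 5) (nat_lit 425) (nat_lit 419) (nat_lit 296)))))) (XT.nd (nat_lit 468) (nat_lit 1444) (nat_lit 0) (XT.nd (nat_lit 234) (nat_lit 0) (nat_lit 152) (XT.nd (nat_lit 78) (nat_lit 0) (nat_lit 76) (XT.lf (nat_lit 76) (nat_lit 3496634525) (nat_lit 0) (nat_lit 431254194) (nat_lit 1672) (nat_lit 6011783676) (nat_lit 496) (nat_lit 5) (nat_lit 495) (nat_lit 5) (nat_lit 517) (nat_lit 5) (nat_lit 426) (nat_lit 419) (nat_lit 295)) (XT.nd (nat_lit 78) (nat_lit 0) (nat_lit 0) (XT.lf (nat_lit 0) (nat_lit 4903493630) (nat_lit 1596) (nat_lit 1450709621) (nat_lit 1672) (nat_lit 3672900972) (nat_lit 496) (nat_lit 5)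 (nat_lit 517) (nat_lit 5) (nat_lit 518) (nat_lit 5) (nat_lit 427) (nat_lit 419) (nat_lit 294)) (XT.lf (nat_lit 76) (nat_lit 3675295594) (nat_lit 0) (nat_lit 2231321567) (nat_lit 1672) (nat_lit 4209511775) (nat_lit 497) (nat_lit 5) (nat_lit 496) (nat_lit 5) (nat_lit 518) (nat_lit 5) (nat_lit 428) (nat_lit 419) (nat_lit 293)))) (XT.nd (nat_lit 78) (nat_lit 0) (nat_lit 0) (XT.lf (nat_lit 0) (nat_lit 6934045309) (nat_lit 1596) (nat_lit 1307992884) (nat_lit 1672) (nat_lit 1964815400) (nat_lit 497) (nat_lit 5) (nat_lit 518) (nat_lit 5) (nat_lit 519) (nat_lit 5) (nat_lit 429) (nat_lit 419) (nat_lit 292)) (XT.nd (nat_lit 78) (nat_lit 0) (nat_lit 76) (XT.lf (nat_lit 76) (nat_lit 3952945515) (nat_lit 0) (nat_lit 4051504902) (nat_lit 1672) (nat_lit 2294497967) (nat_lit 498) (nat_lit 5) (nat_lit 497) (nat_lit 5) (nat_lit 519) (nat_lit 5) (nat_lit 430) (nat_lit 419) (nat_lit 291)) (XT.lf (nat_lit 0) (nat_lit 9088850580) (nat_lit 1596) (nat_lit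 1069329613) (nat_lit 1672) (nat_lit 234857265) (nat_lit 498) (nat_lit 5) (nat_lit 519) (nat_lit 5) (nat_lit 520) (nat_lit 5) (nat_lit 431) (nat_lit 419) (nat_lit 290))))) (XT.nd (nat_lit 234) (nat_lit 0) (nat_lit 76) (XT.nd (nat_lit 78) (nat_lit 1672) (nat_lit 0) (XT.lf (nat_lit 76) (nat_lit 4331135836) (nat_lit 0) (nat_lit 5901406325) (nat_lit 1672) (nat_lit 255718130) (nat_lit 499) (nat_lit 5) (nat_lit 498) (nat_lit 5) (nat_lit 520) (nat_lit 5) (nat_lit 432) (nat_lit 419) (nat_lit 289)) (XT.nd (nat_lit 78) (nat_lit 0) (nat_lit 76) (XT.lf (nat_lit 0) (nat_lit 793070405) (nat_lit 1672) (nat_lit 748338309) (nat_lit 1748) (nat_lit 9044076640) (nat_lit 476) (nat_lit 5) (nat_lit 498) (nat_lit 5) (nat_lit 499) (nat_lit 5) (nat_lit 433) (nat_lit 419) (nat_lit 288)) (XT.lf (nat_lit 0) (nat_lit 1892953799) (nat_lit 1672) (nat_lit 5884966092) (nat_lit 1748) (nat_lit 2906034170) (nat_lit 477) (nat_lit 5) (nat_lit 499) (nat_lit 5) (nat_lit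 500) (nat_lit 5) (nat_lit 434) (nat_lit 419) (nat_lit 287)))) (XT.nd (nat_lit 78) (nat_lit 0) (nat_lit 76) (XT.lf (nat_lit 0) (nat_lit 3013522725) (nat_lit 1672) (nat_lit 339056811) (nat_lit 1748) (nat_lit 7431842587) (nat_lit 477) (nat_lit 5) (nat_lit 499) (nat_lit 5) (nat_lit 500) (nat_lit 5) (nat_lit 435) (nat_lit 419) (nat_lit 286)) (XT.nd (nat_lit 78) (nat_lit 0) (nat_lit 0) (XT.lf (nat_lit 0) (nat_lit 4182961764) (nat_lit 1672) (nat_lit 5517739555) (nat_lit 1748) (nat_lit 1185672715) (nat_lit 478) (nat_lit 5) (nat_lit 500) (nat_lit 5) (nat_lit 501) (nat_lit 5) (nat_lit 436) (nat_lit 419) (nat_lit 285)) (XT.lf (nat_lit 76) (nat_lit 172835370) (nat_lit 0) (nat_lit 5212590766) (nat_lit 1748) (nat_lit 5604749709) (nat_lit 479) (nat_lit 5) (nat_lit 478) (nat_lit 5) (nat_lit 501) (nat_lit 5) (nat_lit 437) (nat_lit 419) (nat_lit 284))))))))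
noncomputable def xc180 : XT := (XT.nd (nat_lit 1794) (nat_lit 8664) (nat_lit 0) (XT.nd (nat_lit 858) (nat_lit 6080) (nat_lit 0) (XT.nd (nat_lit 390) (nat_lit 3116) (nat_lit 0) (XT.nd (nat_lit 156) (nat_lit 1596) (nat_lit 0) (XT.nd (nat_lit 78) (nat_lit 0) (nat_lit 76) (XT.lf (nat_lit 76) (nat_lit 6040125021) (nat_lit 0) (nat_lit 593099368) (nat_lit 1748) (nat_lit 4462407133) (nat_lit 479) (nat_lit 5) (nat_lit 478) (nat_lit 5) (nat_lit 501) (nat_lit 5) (nat_lit 438) (nat_lit 419) (nat_lit 283)) (XT.lf (nat_lit 76) (nat_lit 793230988) (nat_lit 0) (nat_lit 7129230509) (nat_lit 1748) (nat_lit 3280408610) (nat_lit 480) (nat_lit 5) (nat_lit 479) (nat_lit 5) (nat_lit 502) (nat_lit 5) (nat_lit 439) (nat_lit 419) (nat_lit 282))) (XT.nd (nat_lit 78) (nat_lit 1672) (nat_lit 0) (XT.lf (nat_lit 76) (nat_lit 6811576188) (nat_lit 0) (nat_lit 2448549858) (nat_lit 1748) (nat_lit 2051677949) (nat_lit 480) (nat_lit 5) (nat_lit 479) (nat_lit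 5) (nat_lit 502) (nat_lit 5) (nat_lit 440) (nat_lit 419) (nat_lit 281)) (XT.nd (nat_lit 78) (nat_lit 1748) (nat_lit 0) (XT.lf (nat_lit 76) (nat_lit 1520205251) (nat_lit 0) (nat_lit 9114443248) (nat_lit 1748) (nat_lit 788069287) (nat_lit 481) (nat_lit 5) (nat_lit 480) (nat_lit 5) (nat_lit 503) (nat_lit 5) (nat_lit 441) (nat_lit 419) (nat_lit 280)) (XT.lf (nat_lit 0) (nat_lit 526105744) (nat_lit 1748) (nat_lit 3844988519) (nat_lit 1824) (nat_lit 7164056499) (nat_lit 457) (nat_lit 5) (nat_lit 480) (nat_lit 5) (nat_lit 481) (nat_lit 5) (nat_lit 442) (nat_lit 419) (nat_lit 279))))) (XT.nd (nat_lit 234) (nat_lit 1444) (nat_lit 0) (XT.nd (nat_lit 78) (nat_lit 1748) (nat_lit 0) (XT.lf (nat_lit 0) (nat_lit 1859984873) (nat_lit 1748) (nat_lit 9305534065) (nat_lit 76) (nat_lit 484132949) (nat_lit 458) (nat_lit 5) (nat_lit 481) (nat_lit 5) (nat_lit 459) (nat_lit 5) (nat_lit 443) (nat_lit 419) (nat_lit 278)) (XT.nd (nat_lit 78) (nat_lit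 1748) (nat_lit 0) (XT.lf (nat_lit 0) (nat_lit 3261222039) (nat_lit 1748) (nat_lit 3098031765) (nat_lit 76) (nat_lit 5406378685) (nat_lit 458) (nat_lit 5) (nat_lit 481) (nat_lit 5) (nat_lit 459) (nat_lit 5) (nat_lit 444) (nat_lit 419) (nat_lit 277)) (XT.lf (nat_lit 0) (nat_lit 3264561008) (nat_lit 1748) (nat_lit 1433157891) (nat_lit 1824) (nat_lit 7186072110) (nat_lit 435) (nat_lit 5) (nat_lit 458) (nat_lit 5) (nat_lit 459) (nat_lit 5) (nat_lit 445) (nat_lit 419) (nat_lit 276)))) (XT.nd (nat_lit 78) (nat_lit 1444) (nat_lit 0) (XT.lf (nat_lit 0) (nat_lit 6193440114) (nat_lit 1824) (nat_lit 2243040200) (nat_lit 76) (nat_lit 3567225446) (nat_lit 435) (nat_lit 5) (nat_lit 459) (nat_lit 5) (nat_lit 436) (nat_lit 5) (nat_lit 446) (nat_lit 419) (nat_lit 275)) (XT.nd (nat_lit 78) (nat_lit 0) (nat_lit 0) (XT.lf (nat_lit 0) (nat_lit 4295670044) (nat_lit 1444) (nat_lit 3447305957) (nat_lit 1520) (nat_lit 4382567689) (nat_lit 416) (nat_lit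 5) (nat_lit 435) (nat_lit 5) (nat_lit 436) (nat_lit 5) (nat_lit 447) (nat_lit 419) (nat_lit 274)) (XT.lf (nat_lit 0) (nat_lit 9336029531) (nat_lit 1520) (nat_lit 1276767552) (nat_lit 76) (nat_lit 1636773588) (nat_lit 416) (nat_lit 5) (nat_lit 436) (nat_lit 5) (nat_lit 417) (nat_lit 5) (nat_lit 448) (nat_lit 419) (nat_lit 273)))))) (XT.nd (nat_lit 468) (nat_lit 2432) (nat_lit 0) (XT.nd (nat_lit 234) (nat_lit 1748) (nat_lit 0) (XT.nd (nat_lit 78) (nat_lit 988) (nat_lit 0) (XT.lf (nat_lit 0) (nat_lit 5444156888) (nat_lit 912) (nat_lit 5561941192) (nat_lit 988) (nat_lit 1369079809) (nat_lit 404) (nat_lit 5) (nat_lit 416) (nat_lit 5) (nat_lit 417) (nat_lit 5) (nat_lit 449) (nat_lit 419) (nat_lit 272)) (XT.nd (nat_lit 78) (nat_lit 912) (nat_lit 0) (XT.lf (nat_lit 0) (nat_lit 199258423) (nat_lit 988) (nat_lit 199626970) (nat_lit 76) (nat_lit 12104473884) (nat_lit 403) (nat_lit 5) (nat_lit 416) (nat_lit 5) (nat_lit 404) (nat_lit 5)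 (nat_lit 450) (nat_lit 419) (nat_lit 271)) (XT.lf (nat_lit 0) (nat_lit 1843650626) (nat_lit 988) (nat_lit 5931296265) (nat_lit 76) (nat_lit 4857718643) (nat_lit 391) (nat_lit 5) (nat_lit 404) (nat_lit 5) (nat_lit 392) (nat_lit 5) (nat_lit 451) (nat_lit 419) (nat_lit 270)))) (XT.nd (nat_lit 78) (nat_lit 836) (nat_lit 0) (XT.lf (nat_lit 0) (nat_lit 976861571) (nat_lit 912) (nat_lit 2541902753) (nat_lit 988) (nat_lit 9245839483) (nat_lit 379) (nat_lit 5) (nat_lit 391) (nat_lit 5) (nat_lit 392) (nat_lit 5) (nat_lit 452) (nat_lit 419) (nat_lit 269)) (XT.nd (nat_lit 78) (nat_lit 836) (nat_lit 0) (XT.lf (nat_lit 0) (nat_lit 5273271472) (nat_lit 988) (nat_lit 4825252359) (nat_lit 76) (nat_lit 2799741707) (nat_lit 379) (nat_lit 5) (nat_lit 392) (nat_lit 5) (nat_lit 380) (nat_lit 5) (nat_lit 453) (nat_lit 419) (nat_lit 268)) (XT.lf (nat_lit 0) (nat_lit 2277727694) (nat_lit 836) (nat_lit 4804678341) (nat_lit 912) (nat_lit 5951806189)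 (nat_lit 368) (nat_lit 5) (nat_lit 379) (nat_lit 5) (nat_lit 380) (nat_lit 5) (nat_lit 454) (nat_lit 419) (nat_lit 267))))) (XT.nd (nat_lit 234) (nat_lit 1596) (nat_lit 0) (XT.nd (nat_lit 78) (nat_lit 836) (nat_lit 0) (XT.lf (nat_lit 0) (nat_lit 8952258273) (nat_lit 912) (nat_lit 3600096420) (nat_lit 76) (nat_lit 620034869) (nat_lit 368) (nat_lit 5) (nat_lit 380) (nat_lit 5) (nat_lit 369) (nat_lit 5) (nat_lit 455) (nat_lit 419) (nat_lit 266)) (XT.nd (nat_lit 78) (nat_lit 0) (nat_lit 0) (XT.lf (nat_lit 0) (nat_lit 3704456341) (nat_lit 836) (nat_lit 7199232985) (nat_lit 912) (nat_lit 2408759853) (nat_lit 357) (nat_lit 5) (nat_lit 368) (nat_lit 5) (nat_lit 369) (nat_lit 5) (nat_lit 456) (nat_lit 419) (nat_lit 265)) (XT.lf (nat_lit 0) (nat_lit 11192248916) (nat_lit 836) (nat_lit 1714523100) (nat_lit 912) (nat_lit 548287838) (nat_lit 357) (nat_lit 5) (nat_lit 368) (nat_lit 5) (nat_lit 369) (nat_lit 5) (nat_lit 457) (nat_lit 419)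 (nat_lit 264)))) (XT.nd (nat_lit 78) (nat_lit 760) (nat_lit 0) (XT.lf (nat_lit 0) (nat_lit 1380053408) (nat_lit 836) (nat_lit 8347205713) (nat_lit 76) (nat_lit 3872123484) (nat_lit 346) (nat_lit 5) (nat_lit 357) (nat_lit 5) (nat_lit 347) (nat_lit 5) (nat_lit 458) (nat_lit 419) (nat_lit 263)) (XT.nd (nat_lit 78) (nat_lit 760) (nat_lit 0) (XT.lf (nat_lit 0) (nat_lit 3355026844) (nat_lit 836) (nat_lit 824962375) (nat_lit 76) (nat_lit 9566224159) (nat_lit 346) (nat_lit 5) (nat_lit 357) (nat_lit 5) (nat_lit 347) (nat_lit 5) (nat_lit 459) (nat_lit 419) (nat_lit 262)) (XT.lf (nat_lit 0) (nat_lit 5413348116) (nat_lit 836) (nat_lit 6978116199) (nat_lit 76) (nat_lit 1503641629) (nat_lit 336) (nat_lit 5) (nat_lit 347) (nat_lit 5) (nat_lit 337) (nat_lit 5) (nat_lit 460) (nat_lit 419) (nat_lit 261))))))) (XT.nd (nat_lit 858) (nat_lit 4256) (nat_lit 0) (XT.nd (nat_lit 390) (nat_lit 2128) (nat_lit 0) (XT.nd (nat_lit 156) (nat_lit 1520) (nat_lit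 0) (XT.nd (nat_lit 78) (nat_lit 0) (nat_lit 0) (XT.lf (nat_lit 0) (nat_lit 748560388) (nat_lit 760) (nat_lit 6791509398) (nat_lit 836) (nat_lit 6506364002) (nat_lit 326) (nat_lit 5) (nat_lit 336) (nat_lit 5) (nat_lit 337) (nat_lit 5) (nat_lit 461) (nat_lit 419) (nat_lit 260)) (XT.lf (nat_lit 0) (nat_lit 8712801012) (nat_lit 760) (nat_lit 1032609188) (nat_lit 836) (nat_lit 4454658367) (nat_lit 326) (nat_lit 5) (nat_lit 336) (nat_lit 5) (nat_lit 337) (nat_lit 5) (nat_lit 462) (nat_lit 419) (nat_lit 259))) (XT.nd (nat_lit 78) (nat_lit 760) (nat_lit 0) (XT.lf (nat_lit 0) (nat_lit 2468956693) (nat_lit 760) (nat_lit 9562827775) (nat_lit 836) (nat_lit 2324255054) (nat_lit 316) (nat_lit 5) (nat_lit 326) (nat_lit 5) (nat_lit 327) (nat_lit 5) (nat_lit 463) (nat_lit 419) (nat_lit 258)) (XT.nd (nat_lit 78) (nat_lit 760) (nat_lit 0) (XT.lf (nat_lit 0) (nat_lit 10640292860) (nat_lit 760) (nat_lit 3756804383) (nat_lit 836) (nat_lit 117370415)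 (nat_lit 316) (nat_lit 5) (nat_lit 326) (nat_lit 5) (nat_lit 327) (nat_lit 5) (nat_lit 464) (nat_lit 419) (nat_lit 257)) (XT.lf (nat_lit 0) (nat_lit 2137844735) (nat_lit 760) (nat_lit 10359205687) (nat_lit 76) (nat_lit 2178095260) (nat_lit 306) (nat_lit 5) (nat_lit 316) (nat_lit 5) (nat_lit 307) (nat_lit 5) (nat_lit 465) (nat_lit 419) (nat_lit 256))))) (XT.nd (nat_lit 234) (nat_lit 1444) (nat_lit 0) (XT.nd (nat_lit 78) (nat_lit 684) (nat_lit 0) (XT.lf (nat_lit 0) (nat_lit 4477493574) (nat_lit 760) (nat_lit 2153474215) (nat_lit 76) (nat_lit 8207237808) (nat_lit 306) (nat_lit 5) (nat_lit 316) (nat_lit 5) (nat_lit 307) (nat_lit 5) (nat_lit 466) (nat_lit 419) (nat_lit 255)) (XT.nd (nat_lit 78) (nat_lit 0) (nat_lit 0) (XT.lf (nat_lit 0) (nat_lit 6287559365) (nat_lit 684) (nat_lit 607248134) (nat_lit 760) (nat_lit 8109103604) (nat_lit 297) (nat_lit 5) (nat_lit 306) (nat_lit 5) (nat_lit 307) (nat_lit 5) (nat_lit 467) (nat_lit 419)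 (nat_lit 254)) (XT.lf (nat_lit 0) (nat_lit 9401126459) (nat_lit 760) (nat_lit 293472670) (nat_lit 76) (nat_lit 5477520208) (nat_lit 297) (nat_lit 5) (nat_lit 307) (nat_lit 5) (nat_lit 298) (nat_lit 5) (nat_lit 468) (nat_lit 419) (nat_lit 253)))) (XT.nd (nat_lit 78) (nat_lit 760) (nat_lit 0) (XT.lf (nat_lit 0) (nat_lit 8392747934) (nat_lit 684) (nat_lit 3613692138) (nat_lit 760) (nat_lit 3336276061) (nat_lit 288) (nat_lit 5) (nat_lit 297) (nat_lit 5) (nat_lit 298) (nat_lit 5) (nat_lit 469) (nat_lit 419) (nat_lit 252)) (XT.nd (nat_lit 78) (nat_lit 76) (nat_lit 0) (XT.lf (nat_lit 0) (nat_lit 1734638632) (nat_lit 684) (nat_lit 12949736958) (nat_lit 760) (nat_lit 831940688) (nat_lit 279) (nat_lit 5) (nat_lit 288) (nat_lit 5) (nat_lit 289) (nat_lit 5) (nat_lit 470) (nat_lit 419) (nat_lit 251)) (XT.lf (nat_lit 0) (nat_lit 1761281878) (nat_lit 760) (nat_lit 5052062641) (nat_lit 76) (nat_lit 8878594073) (nat_lit 278) (nat_lit 5) (nat_lit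 288) (nat_lit 5) (nat_lit 279) (nat_lit 5) (nat_lit 471) (nat_lit 419) (nat_lit 250)))))) (XT.nd (nat_lit 468) (nat_lit 1748) (nat_lit 0) (XT.nd (nat_lit 234) (nat_lit 1292) (nat_lit 0) (XT.nd (nat_lit 78) (nat_lit 608) (nat_lit 0) (XT.lf (nat_lit 0) (nat_lit 3886500279) (nat_lit 608) (nat_lit 524671709) (nat_lit 684) (nat_lit 11459474155) (nat_lit 270) (nat_lit 5) (nat_lit 278) (nat_lit 5) (nat_lit 279) (nat_lit 5) (nat_lit 472) (nat_lit 419) (nat_lit 249)) (XT.nd (nat_lit 78) (nat_lit 608) (nat_lit 0) (XT.lf (nat_lit 0) (nat_lit 7177224138) (nat_lit 684) (nat_lit 3029605508) (nat_lit 76) (nat_lit 5844836507) (nat_lit 270) (nat_lit 5) (nat_lit 279) (nat_lit 5) (nat_lit 271) (nat_lit 5) (nat_lit 473) (nat_lit 419) (nat_lit 248)) (XT.lf (nat_lit 0) (nat_lit 6170490490) (nat_lit 608) (nat_lit 3862622246) (nat_lit 684) (nat_lit 6202505084) (nat_lit 262) (nat_lit 5) (nat_lit 270) (nat_lit 5) (nat_lit 271) (nat_lit 5) (nat_lit 474)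 (nat_lit 419) (nat_lit 247)))) (XT.nd (nat_lit 78) (nat_lit 1292) (nat_lit 0) (XT.lf (nat_lit 0) (nat_lit 12974590802) (nat_lit 684) (nat_lit 855339155) (nat_lit 76) (nat_lit 2592750662) (nat_lit 262) (nat_lit 5) (nat_lit 271) (nat_lit 5) (nat_lit 263) (nat_lit 5) (nat_lit 475) (nat_lit 419) (nat_lit 246)) (XT.nd (nat_lit 78) (nat_lit 684) (nat_lit 0) (XT.lf (nat_lit 0) (nat_lit 8615189363) (nat_lit 608) (nat_lit 7432470847) (nat_lit 684) (nat_lit 564370731) (nat_lit 254) (nat_lit 5) (nat_lit 262) (nat_lit 5) (nat_lit 263) (nat_lit 5) (nat_lit 476) (nat_lit 419) (nat_lit 245)) (XT.lf (nat_lit 0) (nat_lit 1474627475) (nat_lit 608) (nat_lit 877861019) (nat_lit 684) (nat_lit 14452239741) (nat_lit 245) (nat_lit 5) (nat_lit 253) (nat_lit 5) (nat_lit 254) (nat_lit 5) (nat_lit 477) (nat_lit 419) (nat_lit 244))))) (XT.nd (nat_lit 234) (nat_lit 1216) (nat_lit 0) (XT.nd (nat_lit 78) (nat_lit 532) (nat_lit 0) (XT.lf (nat_lit 0) (nat_lit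 5403236562) (nat_lit 684) (nat_lit 5809080321) (nat_lit 76) (nat_lit 5787227224) (nat_lit 245) (nat_lit 5) (nat_lit 254) (nat_lit 5) (nat_lit 246) (nat_lit 5) (nat_lit 478) (nat_lit 419) (nat_lit 243)) (XT.nd (nat_lit 78) (nat_lit 0) (nat_lit 0) (XT.lf (nat_lit 0) (nat_lit 3937404271) (nat_lit 532) (nat_lit 4600517091) (nat_lit 608) (nat_lit 8659877888) (nat_lit 238) (nat_lit 5) (nat_lit 245) (nat_lit 5) (nat_lit 246) (nat_lit 5) (nat_lit 479) (nat_lit 419) (nat_lit 242)) (XT.lf (nat_lit 0) (nat_lit 11780082027) (nat_lit 608) (nat_lit 3466717715) (nat_lit 76) (nat_lit 2152325472) (nat_lit 238) (nat_lit 5) (nat_lit 246) (nat_lit 5) (nat_lit 239) (nat_lit 5) (nat_lit 480) (nat_lit 419) (nat_lit 241)))) (XT.nd (nat_lit 78) (nat_lit 608) (nat_lit 0) (XT.lf (nat_lit 0) (nat_lit 6567852976) (nat_lit 608) (nat_lit 8584131880) (nat_lit 684) (nat_lit 2451196198) (nat_lit 230) (nat_lit 5) (nat_lit 238) (nat_lit 5) (nat_lit 239) (nat_lit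 5) (nat_lit 481) (nat_lit 419) (nat_lit 240)) (XT.nd (nat_lit 78) (nat_lit 532) (nat_lit 0) (XT.lf (nat_lit 0) (nat_lit 785021685) (nat_lit 684) (nat_lit 976655297) (nat_lit 76) (nat_lit 16049236146) (nat_lit 229) (nat_lit 5) (nat_lit 238) (nat_lit 5) (nat_lit 230) (nat_lit 5) (nat_lit 482) (nat_lit 419) (nat_lit 239)) (XT.lf (nat_lit 0) (nat_lit 4140296178) (nat_lit 608) (nat_lit 8676167705) (nat_lit 76) (nat_lit 5204270094) (nat_lit 222) (nat_lit 5) (nat_lit 230) (nat_lit 5) (nat_lit 223) (nat_lit 5) (nat_lit 483) (nat_lit 419) (nat_lit 238))))))))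
noncomputable def xc181 : XT := (XT.nd (nat_lit 1794) (nat_lit 1596) (nat_lit 0) (XT.nd (nat_lit 858) (nat_lit 2964) (nat_lit 0) (XT.nd (nat_lit 390) (nat_lit 1444) (nat_lit 0) (XT.nd (nat_lit 156) (nat_lit 1064) (nat_lit 0) (XT.nd (nat_lit 78) (nat_lit 0) (nat_lit 0) (XT.lf (nat_lit 0) (nat_lit 1650207079) (nat_lit 532) (nat_lit 5933507287) (nat_lit 608) (nat_lit 10650617347) (nat_lit 215) (nat_lit 5) (nat_lit 222) (nat_lit 5) (nat_lit 223) (nat_lit 5) (nat_lit 484) (nat_lit 419) (nat_lit 237)) (XT.lf (nat_lit 0) (nat_lit 11153796824) (nat_lit 608) (nat_lit 6168391851) (nat_lit 76) (nat_lit 1128858019) (nat_lit 215) (nat_lit 5) (nat_lit 223) (nat_lit 5) (nat_lit 216) (nat_lit 5) (nat_lit 485) (nat_lit 419) (nat_lit 236))) (XT.nd (nat_lit 78) (nat_lit 608) (nat_lit 0) (XT.lf (nat_lit 0) (nat_lit 4464493697) (nat_lit 456) (nat_lit 10391353192) (nat_lit 532) (nat_lit 3815038950) (nat_lit 209) (nat_lit 5) (nat_lit 215) (nat_lit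 5) (nat_lit 216) (nat_lit 5) (nat_lit 486) (nat_lit 419) (nat_lit 235)) (XT.nd (nat_lit 78) (nat_lit 608) (nat_lit 0) (XT.lf (nat_lit 0) (nat_lit 15383299905) (nat_lit 456) (nat_lit 3282400036) (nat_lit 532) (nat_lit 228747749) (nat_lit 209) (nat_lit 5) (nat_lit 215) (nat_lit 5) (nat_lit 216) (nat_lit 5) (nat_lit 487) (nat_lit 419) (nat_lit 234)) (XT.lf (nat_lit 0) (nat_lit 3451437088) (nat_lit 608) (nat_lit 11684066122) (nat_lit 76) (nat_lit 3985190519) (nat_lit 201) (nat_lit 5) (nat_lit 209) (nat_lit 5) (nat_lit 202) (nat_lit 5) (nat_lit 488) (nat_lit 419) (nat_lit 233))))) (XT.nd (nat_lit 234) (nat_lit 532) (nat_lit 0) (XT.nd (nat_lit 78) (nat_lit 912) (nat_lit 0) (XT.lf (nat_lit 0) (nat_lit 7240152625) (nat_lit 608) (nat_lit 733763504) (nat_lit 76) (nat_lit 11376759613) (nat_lit 201) (nat_lit 5) (nat_lit 209) (nat_lit 5) (nat_lit 202) (nat_lit 5) (nat_lit 489) (nat_lit 419) (nat_lit 232)) (XT.nd (nat_lit 78) (nat_lit 456)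 (nat_lit 0) (XT.lf (nat_lit 0) (nat_lit 10563981506) (nat_lit 456) (nat_lit 601927415) (nat_lit 532) (nat_lit 8418124219) (nat_lit 195) (nat_lit 5) (nat_lit 201) (nat_lit 5) (nat_lit 202) (nat_lit 5) (nat_lit 490) (nat_lit 419) (nat_lit 231)) (XT.lf (nat_lit 0) (nat_lit 2250059507) (nat_lit 456) (nat_lit 12977337494) (nat_lit 532) (nat_lit 4593517404) (nat_lit 189) (nat_lit 5) (nat_lit 195) (nat_lit 5) (nat_lit 196) (nat_lit 5) (nat_lit 491) (nat_lit 419) (nat_lit 230)))) (XT.nd (nat_lit 78) (nat_lit 532) (nat_lit 0) (XT.lf (nat_lit 0) (nat_lit 13853696347) (nat_lit 456) (nat_lit 5573722835) (nat_lit 532) (nat_lit 633969059) (nat_lit 189) (nat_lit 5) (nat_lit 195) (nat_lit 5) (nat_lit 196) (nat_lit 5) (nat_lit 492) (nat_lit 419) (nat_lit 229)) (XT.nd (nat_lit 78) (nat_lit 0) (nat_lit 0) (XT.lf (nat_lit 0) (nat_lit 3401428656) (nat_lit 532) (nat_lit 14897139292) (nat_lit 76) (nat_lit 2006836224) (nat_lit 182) (nat_lit 5) (nat_lit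 189) (nat_lit 5) (nat_lit 183) (nat_lit 5) (nat_lit 493) (nat_lit 419) (nat_lit 228)) (XT.lf (nat_lit 0) (nat_lit 7580862041) (nat_lit 532) (nat_lit 3264226076) (nat_lit 76) (nat_lit 9707693136) (nat_lit 182) (nat_lit 5) (nat_lit 189) (nat_lit 5) (nat_lit 183) (nat_lit 5) (nat_lit 494) (nat_lit 419) (nat_lit 227)))))) (XT.nd (nat_lit 468) (nat_lit 1216) (nat_lit 0) (XT.nd (nat_lit 234) (nat_lit 912) (nat_lit 0) (XT.nd (nat_lit 78) (nat_lit 380) (nat_lit 0) (XT.lf (nat_lit 0) (nat_lit 8705658878) (nat_lit 456) (nat_lit 3187849892) (nat_lit 532) (nat_lit 8910605565) (nat_lit 176) (nat_lit 5) (nat_lit 182) (nat_lit 5) (nat_lit 183) (nat_lit 5) (nat_lit 495) (nat_lit 419) (nat_lit 226)) (XT.nd (nat_lit 78) (nat_lit 380) (nat_lit 0) (XT.lf (nat_lit 0) (nat_lit 16337624843) (nat_lit 532) (nat_lit 140920720) (nat_lit 76) (nat_lit 4581025121) (nat_lit 176) (nat_lit 5) (nat_lit 183) (nat_lit 5) (nat_lit 177) (nat_lit 5) (nat_lit 496)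 (nat_lit 419) (nat_lit 225)) (XT.lf (nat_lit 0) (nat_lit 12184736470) (nat_lit 380) (nat_lit 8779398097) (nat_lit 456) (nat_lit 354132283) (nat_lit 171) (nat_lit 5) (nat_lit 176) (nat_lit 5) (nat_lit 177) (nat_lit 5) (nat_lit 497) (nat_lit 419) (nat_lit 224)))) (XT.nd (nat_lit 78) (nat_lit 380) (nat_lit 0) (XT.lf (nat_lit 0) (nat_lit 3182051798) (nat_lit 456) (nat_lit 880124178) (nat_lit 532) (nat_lit 17519130826) (nat_lit 164) (nat_lit 5) (nat_lit 170) (nat_lit 5) (nat_lit 171) (nat_lit 5) (nat_lit 498) (nat_lit 419) (nat_lit 223)) (XT.nd (nat_lit 78) (nat_lit 380) (nat_lit 0) (XT.lf (nat_lit 0) (nat_lit 8663729156) (nat_lit 532) (nat_lit 6039775265) (nat_lit 76) (nat_lit 7144023966) (nat_lit 164) (nat_lit 5) (nat_lit 171) (nat_lit 5) (nat_lit 165) (nat_lit 5) (nat_lit 499) (nat_lit 419) (nat_lit 222)) (XT.lf (nat_lit 0) (nat_lit 6638526301) (nat_lit 380) (nat_lit 6761208369) (nat_lit 456) (nat_lit 8718492155) (nat_lit 159)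 (nat_lit 5) (nat_lit 164) (nat_lit 5) (nat_lit 165) (nat_lit 5) (nat_lit 500) (nat_lit 419) (nat_lit 221))))) (XT.nd (nat_lit 234) (nat_lit 380) (nat_lit 0) (XT.nd (nat_lit 78) (nat_lit 836) (nat_lit 0) (XT.lf (nat_lit 0) (nat_lit 18273494998) (nat_lit 456) (nat_lit 2759883129) (nat_lit 76) (nat_lit 1360101240) (nat_lit 159) (nat_lit 5) (nat_lit 165) (nat_lit 5) (nat_lit 160) (nat_lit 5) (nat_lit 501) (nat_lit 419) (nat_lit 220)) (XT.nd (nat_lit 78) (nat_lit 380) (nat_lit 0) (XT.lf (nat_lit 0) (nat_lit 668990022) (nat_lit 456) (nat_lit 12381418457) (nat_lit 76) (nat_lit 9621635627) (nat_lit 153) (nat_lit 5) (nat_lit 159) (nat_lit 5) (nat_lit 154) (nat_lit 5) (nat_lit 502) (nat_lit 419) (nat_lit 219)) (XT.lf (nat_lit 0) (nat_lit 655450623) (nat_lit 380) (nat_lit 4859760903) (nat_lit 456) (nat_lit 17440092049) (nat_lit 148) (nat_lit 5) (nat_lit 153) (nat_lit 5) (nat_lit 154) (nat_lit 5) (nat_lit 503) (nat_lit 419) (nat_lit 218))))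 (XT.nd (nat_lit 78) (nat_lit 380) (nat_lit 0) (XT.lf (nat_lit 0) (nat_lit 10558409645) (nat_lit 456) (nat_lit 9154443278) (nat_lit 76) (nat_lit 3529375034) (nat_lit 148) (nat_lit 5) (nat_lit 154) (nat_lit 5) (nat_lit 149) (nat_lit 5) (nat_lit 504) (nat_lit 419) (nat_lit 217)) (XT.nd (nat_lit 78) (nat_lit 0) (nat_lit 0) (XT.lf (nat_lit 0) (nat_lit 4268330380) (nat_lit 380) (nat_lit 11487887243) (nat_lit 456) (nat_lit 7777599037) (nat_lit 143) (nat_lit 5) (nat_lit 148) (nat_lit 5) (nat_lit 149) (nat_lit 5) (nat_lit 505) (nat_lit 419) (nat_lit 216)) (XT.lf (nat_lit 0) (nat_lit 18074371567) (nat_lit 380) (nat_lit 3038950904) (nat_lit 456) (nat_lit 2716808587) (nat_lit 143) (nat_lit 5) (nat_lit 148) (nat_lit 5) (nat_lit 149) (nat_lit 5) (nat_lit 506) (nat_lit 419) (nat_lit 215))))))) (XT.nd (nat_lit 53040) (nat_lit 0) (nat_lit 26904) (XT.nd (nat_lit 52572) (nat_lit 0) (nat_lit 28196) (XT.nd (nat_lit 234) (nat_lit 760) (nat_lit 0)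 (XT.nd (nat_lit 78) (nat_lit 380) (nat_lit 0) (XT.lf (nat_lit 0) (nat_lit 2496398350) (nat_lit 456) (nat_lit 16062365641) (nat_lit 76) (nat_lit 5571625548) (nat_lit 137) (nat_lit 5) (nat_lit 143) (nat_lit 5) (nat_lit 138) (nat_lit 5) (nat_lit 507) (nat_lit 419) (nat_lit 214)) (XT.nd (nat_lit 78) (nat_lit 380) (nat_lit 0) (XT.lf (nat_lit 0) (nat_lit 7830557702) (nat_lit 456) (nat_lit 2237166627) (nat_lit 76) (nat_lit 14367509066) (nat_lit 137) (nat_lit 5) (nat_lit 143) (nat_lit 5) (nat_lit 138) (nat_lit 5) (nat_lit 508) (nat_lit 419) (nat_lit 213)) (XT.lf (nat_lit 0) (nat_lit 12013054133) (nat_lit 380) (nat_lit 1330486813) (nat_lit 456) (nat_lit 11401191048) (nat_lit 132) (nat_lit 5) (nat_lit 137) (nat_lit 5) (nat_lit 138) (nat_lit 5) (nat_lit 509) (nat_lit 419) (nat_lit 212)))) (XT.nd (nat_lit 78) (nat_lit 456) (nat_lit 0) (XT.lf (nat_lit 0) (nat_lit 1479492483) (nat_lit 304) (nat_lit 17555413212) (nat_lit 380) (nat_lit 6024153101)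 (nat_lit 128) (nat_lit 5) (nat_lit 132) (nat_lit 5) (nat_lit 133) (nat_lit 5) (nat_lit 510) (nat_lit 419) (nat_lit 211)) (XT.nd (nat_lit 78) (nat_lit 456) (nat_lit 0) (XT.lf (nat_lit 0) (nat_lit 16129526712) (nat_lit 304) (nat_lit 8798996002) (nat_lit 380) (nat_lit 449381574) (nat_lit 128) (nat_lit 5) (nat_lit 132) (nat_lit 5) (nat_lit 133) (nat_lit 5) (nat_lit 511) (nat_lit 419) (nat_lit 210)) (XT.lf (nat_lit 0) (nat_lit 5198853000) (nat_lit 456) (nat_lit 20305848905) (nat_lit 76) (nat_lit 197132381) (nat_lit 122) (nat_lit 5) (nat_lit 128) (nat_lit 5) (nat_lit 123) (nat_lit 5) (nat_lit 512) (nat_lit 419) (nat_lit 209))))) (XT.nd (nat_lit 234) (nat_lit 0) (nat_lit 76) (XT.nd (nat_lit 78) (nat_lit 1596) (nat_lit 0) (XT.lf (nat_lit 0) (nat_lit 4453117467) (nat_lit 1596) (nat_lit 154560895) (nat_lit 1596) (nat_lit 154560895) (nat_lit 514) (nat_lit 3) (nat_lit 535) (nat_lit 3) (nat_lit 535) (nat_lit 5) (nat_lit 420) (nat_lit 420)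 (nat_lit 300)) (XT.nd (nat_lit 78) (nat_lit 0) (nat_lit 0) (XT.lf (nat_lit 0) (nat_lit 195555146) (nat_lit 1596) (nat_lit 5218549363) (nat_lit 1672) (nat_lit 4189279738) (nat_lit 493) (nat_lit 5) (nat_lit 514) (nat_lit 3) (nat_lit 515) (nat_lit 5) (nat_lit 421) (nat_lit 420) (nat_lit 299)) (XT.lf (nat_lit 0) (nat_lit 998836832) (nat_lit 1596) (nat_lit 521898117) (nat_lit 1672) (nat_lit 8163426539) (nat_lit 493) (nat_lit 5) (nat_lit 514) (nat_lit 3) (nat_lit 515) (nat_lit 5) (nat_lit 422) (nat_lit 420) (nat_lit 298)))) (XT.nd (nat_lit 78) (nat_lit 0) (nat_lit 0) (XT.lf (nat_lit 0) (nat_lit 1842149441) (nat_lit 1596) (nat_lit 5467899380) (nat_lit 1672) (nat_lit 2456030886) (nat_lit 494) (nat_lit 5) (nat_lit 515) (nat_lit 5) (nat_lit 516) (nat_lit 5) (nat_lit 423) (nat_lit 420) (nat_lit 297)) (XT.nd (nat_lit 78) (nat_lit 0) (nat_lit 76) (XT.lf (nat_lit 0) (nat_lit 2696106723) (nat_lit 1596) (nat_lit 648930874) (nat_lit 1672) (nat_lit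 6504727773) (nat_lit 494) (nat_lit 5) (nat_lit 515) (nat_lit 5) (nat_lit 516) (nat_lit 5) (nat_lit 424) (nat_lit 420) (nat_lit 296)) (XT.lf (nat_lit 0) (nat_lit 3580492873) (nat_lit 1596) (nat_lit 5627556910) (nat_lit 1672) (nat_lit 726812523) (nat_lit 495) (nat_lit 5) (nat_lit 516) (nat_lit 5) (nat_lit 517) (nat_lit 5) (nat_lit 425) (nat_lit 420) (nat_lit 295)))))) (XT.nd (nat_lit 468) (nat_lit 1444) (nat_lit 0) (XT.nd (nat_lit 234) (nat_lit 0) (nat_lit 76) (XT.nd (nat_lit 78) (nat_lit 0) (nat_lit 0) (XT.lf (nat_lit 0) (nat_lit 4490039249) (nat_lit 1596) (nat_lit 683452416) (nat_lit 1672) (nat_lit 4848024534) (nat_lit 495) (nat_lit 5) (nat_lit 516) (nat_lit 5) (nat_lit 517) (nat_lit 5) (nat_lit 426) (nat_lit 420) (nat_lit 294)) (XT.nd (nat_lit 78) (nat_lit 0) (nat_lit 76) (XT.lf (nat_lit 76) (nat_lit 4406383757) (nat_lit 0) (nat_lit 1021312184) (nat_lit 1672) (nat_lit 4682013217) (nat_lit 496) (nat_lit 5) (nat_lit 495) (nat_lit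 5) (nat_lit 517) (nat_lit 5) (nat_lit 427) (nat_lit 420) (nat_lit 293)) (XT.lf (nat_lit 0) (nat_lit 6391244287) (nat_lit 1596) (nat_lit 624480407) (nat_lit 1672) (nat_lit 3183802806) (nat_lit 496) (nat_lit 5) (nat_lit 517) (nat_lit 5) (nat_lit 518) (nat_lit 5) (nat_lit 428) (nat_lit 420) (nat_lit 292)))) (XT.nd (nat_lit 78) (nat_lit 0) (nat_lit 76) (XT.lf (nat_lit 76) (nat_lit 4598418311) (nat_lit 0) (nat_lit 2794279611) (nat_lit 1672) (nat_lit 2898075809) (nat_lit 497) (nat_lit 5) (nat_lit 496) (nat_lit 5) (nat_lit 518) (nat_lit 5) (nat_lit 429) (nat_lit 420) (nat_lit 291)) (XT.nd (nat_lit 78) (nat_lit 0) (nat_lit 0) (XT.lf (nat_lit 0) (nat_lit 8410552749) (nat_lit 1596) (nat_lit 470760643) (nat_lit 1672) (nat_lit 1502608179) (nat_lit 497) (nat_lit 5) (nat_lit 518) (nat_lit 5) (nat_lit 519) (nat_lit 5) (nat_lit 430) (nat_lit 420) (nat_lit 290)) (XT.lf (nat_lit 76) (nat_lit 4889716313) (nat_lit 0) (nat_lit 4591986588) (nat_lit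 1672) (nat_lit 996574746) (nat_lit 498) (nat_lit 5) (nat_lit 497) (nat_lit 5) (nat_lit 519) (nat_lit 5) (nat_lit 431) (nat_lit 420) (nat_lit 289))))) (XT.nd (nat_lit 234) (nat_lit 0) (nat_lit 76) (XT.nd (nat_lit 78) (nat_lit 1596) (nat_lit 0) (XT.lf (nat_lit 76) (nat_lit 10352683546) (nat_lit 0) (nat_lit 207704771) (nat_lit 1672) (nat_lit 14414250) (nat_lit 498) (nat_lit 5) (nat_lit 497) (nat_lit 5) (nat_lit 519) (nat_lit 5) (nat_lit 432) (nat_lit 420) (nat_lit 288)) (XT.nd (nat_lit 78) (nat_lit 0) (nat_lit 0) (XT.lf (nat_lit 0) (nat_lit 1020041720) (nat_lit 1672) (nat_lit 5397085590) (nat_lit 1748) (nat_lit 4255094230) (nat_lit 476) (nat_lit 5) (nat_lit 498) (nat_lit 5) (nat_lit 499) (nat_lit 5) (nat_lit 433) (nat_lit 420) (nat_lit 287)) (XT.lf (nat_lit 76) (nat_lit 102239596) (nat_lit 0) (nat_lit 1959761267) (nat_lit 1748) (nat_lit 8709849718) (nat_lit 477) (nat_lit 5) (nat_lit 476) (nat_lit 5) (nat_lit 499) (nat_lit 5) (nat_lit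 434) (nat_lit 420) (nat_lit 286)))) (XT.nd (nat_lit 78) (nat_lit 0) (nat_lit 0) (XT.lf (nat_lit 0) (nat_lit 3161801097) (nat_lit 1672) (nat_lit 5116767063) (nat_lit 1748) (nat_lit 2594167671) (nat_lit 477) (nat_lit 5) (nat_lit 499) (nat_lit 5) (nat_lit 500) (nat_lit 5) (nat_lit 435) (nat_lit 420) (nat_lit 285)) (XT.nd (nat_lit 78) (nat_lit 0) (nat_lit 76) (XT.lf (nat_lit 76) (nat_lit 529636121) (nat_lit 0) (nat_lit 3754447005) (nat_lit 1748) (nat_lit 6691549535) (nat_lit 478) (nat_lit 5) (nat_lit 477) (nat_lit 5) (nat_lit 500) (nat_lit 5) (nat_lit 436) (nat_lit 420) (nat_lit 284)) (XT.lf (nat_lit 0) (nat_lit 5453293958) (nat_lit 1672) (nat_lit 4739121541) (nat_lit 1748) (nat_lit 887685787) (nat_lit 478) (nat_lit 5) (nat_lit 500) (nat_lit 5) (nat_lit 501) (nat_lit 5) (nat_lit 437) (nat_lit 420) (nat_lit 283))))))))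
noncomputable def xc182 : XT := (XT.nd (nat_lit 1794) (nat_lit 8664) (nat_lit 0) (XT.nd (nat_lit 858) (nat_lit 6080) (nat_lit 0) (XT.nd (nat_lit 390) (nat_lit 3116) (nat_lit 0) (XT.nd (nat_lit 156) (nat_lit 1596) (nat_lit 0) (XT.nd (nat_lit 78) (nat_lit 0) (nat_lit 0) (XT.lf (nat_lit 76) (nat_lit 1059416378) (nat_lit 0) (nat_lit 5602856971) (nat_lit 1748) (nat_lit 4524061700) (nat_lit 479) (nat_lit 5) (nat_lit 478) (nat_lit 5) (nat_lit 501) (nat_lit 5) (nat_lit 438) (nat_lit 420) (nat_lit 282)) (XT.lf (nat_lit 76) (nat_lit 7026735658) (nat_lit 0) (nat_lit 885367621) (nat_lit 1748) (nat_lit 3382260174) (nat_lit 479) (nat_lit 5) (nat_lit 478) (nat_lit 5) (nat_lit 501) (nat_lit 5) (nat_lit 439) (nat_lit 420) (nat_lit 281))) (XT.nd (nat_lit 78) (nat_lit 1672) (nat_lit 0) (XT.lf (nat_lit 76) (nat_lit 1694044439) (nat_lit 0) (nat_lit 7514566686) (nat_lit 1748) (nat_lit 2195510992) (nat_lit 480) (nat_lit 5) (nat_lit 479) (nat_lit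 5) (nat_lit 502) (nat_lit 5) (nat_lit 440) (nat_lit 420) (nat_lit 280)) (XT.nd (nat_lit 78) (nat_lit 1672) (nat_lit 0) (XT.lf (nat_lit 76) (nat_lit 7815404605) (nat_lit 0) (nat_lit 2735512588) (nat_lit 1748) (nat_lit 964764655) (nat_lit 480) (nat_lit 5) (nat_lit 479) (nat_lit 5) (nat_lit 502) (nat_lit 5) (nat_lit 441) (nat_lit 420) (nat_lit 279)) (XT.lf (nat_lit 0) (nat_lit 302302073) (nat_lit 1748) (nat_lit 9194911894) (nat_lit 1824) (nat_lit 2131913864) (nat_lit 457) (nat_lit 5) (nat_lit 480) (nat_lit 5) (nat_lit 481) (nat_lit 5) (nat_lit 442) (nat_lit 420) (nat_lit 278))))) (XT.nd (nat_lit 234) (nat_lit 3116) (nat_lit 0) (XT.nd (nat_lit 78) (nat_lit 0) (nat_lit 76) (XT.lf (nat_lit 0) (nat_lit 1610736057) (nat_lit 1748) (nat_lit 3039111927) (nat_lit 1824) (nat_lit 7094291391) (nat_lit 457) (nat_lit 5) (nat_lit 480) (nat_lit 5) (nat_lit 481) (nat_lit 5) (nat_lit 443) (nat_lit 420) (nat_lit 277)) (XT.nd (nat_lit 78) (nat_lit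 0) (nat_lit 0) (XT.lf (nat_lit 0) (nat_lit 2954745498) (nat_lit 1748) (nat_lit 8592093427) (nat_lit 76) (nat_lit 314427095) (nat_lit 458) (nat_lit 5) (nat_lit 481) (nat_lit 5) (nat_lit 459) (nat_lit 5) (nat_lit 444) (nat_lit 420) (nat_lit 276)) (XT.lf (nat_lit 0) (nat_lit 4363270919) (nat_lit 1748) (nat_lit 2278079342) (nat_lit 76) (nat_lit 5338635168) (nat_lit 458) (nat_lit 5) (nat_lit 481) (nat_lit 5) (nat_lit 459) (nat_lit 5) (nat_lit 445) (nat_lit 420) (nat_lit 275)))) (XT.nd (nat_lit 78) (nat_lit 1444) (nat_lit 0) (XT.lf (nat_lit 0) (nat_lit 4205963227) (nat_lit 1748) (nat_lit 1607892892) (nat_lit 1824) (nat_lit 6286948210) (nat_lit 435) (nat_lit 5) (nat_lit 458) (nat_lit 5) (nat_lit 459) (nat_lit 5) (nat_lit 446) (nat_lit 420) (nat_lit 274)) (XT.nd (nat_lit 78) (nat_lit 1444) (nat_lit 0) (XT.lf (nat_lit 0) (nat_lit 7318519158) (nat_lit 1824) (nat_lit 1407781499) (nat_lit 76) (nat_lit 3497240460) (nat_lit 435) (nat_lit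 5) (nat_lit 459) (nat_lit 5) (nat_lit 436) (nat_lit 5) (nat_lit 447) (nat_lit 420) (nat_lit 273)) (XT.lf (nat_lit 0) (nat_lit 5255912690) (nat_lit 1444) (nat_lit 3629178224) (nat_lit 1520) (nat_lit 3463008195) (nat_lit 416) (nat_lit 5) (nat_lit 435) (nat_lit 5) (nat_lit 436) (nat_lit 5) (nat_lit 448) (nat_lit 420) (nat_lit 272)))))) (XT.nd (nat_lit 468) (nat_lit 3268) (nat_lit 0) (XT.nd (nat_lit 234) (nat_lit 912) (nat_lit 0) (XT.nd (nat_lit 78) (nat_lit 1900) (nat_lit 0) (XT.lf (nat_lit 0) (nat_lit 10489928751) (nat_lit 1520) (nat_lit 424834382) (nat_lit 76) (nat_lit 1560249156) (nat_lit 416) (nat_lit 5) (nat_lit 436) (nat_lit 5) (nat_lit 417) (nat_lit 5) (nat_lit 449) (nat_lit 420) (nat_lit 271)) (XT.nd (nat_lit 78) (nat_lit 988) (nat_lit 0) (XT.lf (nat_lit 0) (nat_lit 6424735727) (nat_lit 912) (nat_lit 5755358284) (nat_lit 988) (nat_lit 423307778) (nat_lit 404) (nat_lit 5) (nat_lit 416) (nat_lit 5) (nat_lit 417) (nat_lit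 5) (nat_lit 450) (nat_lit 420) (nat_lit 270)) (XT.lf (nat_lit 0) (nat_lit 672511381) (nat_lit 912) (nat_lit 476657955) (nat_lit 988) (nat_lit 11585144285) (nat_lit 391) (nat_lit 5) (nat_lit 403) (nat_lit 5) (nat_lit 404) (nat_lit 5) (nat_lit 451) (nat_lit 420) (nat_lit 269)))) (XT.nd (nat_lit 78) (nat_lit 912) (nat_lit 0) (XT.lf (nat_lit 0) (nat_lit 2808779584) (nat_lit 988) (nat_lit 5169117479) (nat_lit 76) (nat_lit 4888666146) (nat_lit 391) (nat_lit 5) (nat_lit 404) (nat_lit 5) (nat_lit 392) (nat_lit 5) (nat_lit 452) (nat_lit 420) (nat_lit 268)) (XT.nd (nat_lit 78) (nat_lit 0) (nat_lit 0) (XT.lf (nat_lit 0) (nat_lit 1871408746) (nat_lit 912) (nat_lit 2633466858) (nat_lit 988) (nat_lit 8496518778) (nat_lit 379) (nat_lit 5) (nat_lit 391) (nat_lit 5) (nat_lit 392) (nat_lit 5) (nat_lit 453) (nat_lit 420) (nat_lit 267)) (XT.lf (nat_lit 0) (nat_lit 6276258051) (nat_lit 988) (nat_lit 4045506558) (nat_lit 76) (nat_lit 2816332698)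 (nat_lit 379) (nat_lit 5) (nat_lit 392) (nat_lit 5) (nat_lit 380) (nat_lit 5) (nat_lit 454) (nat_lit 420) (nat_lit 266))))) (XT.nd (nat_lit 234) (nat_lit 1596) (nat_lit 0) (XT.nd (nat_lit 78) (nat_lit 836) (nat_lit 0) (XT.lf (nat_lit 0) (nat_lit 3193768289) (nat_lit 836) (nat_lit 4915860336) (nat_lit 912) (nat_lit 5167376827) (nat_lit 368) (nat_lit 5) (nat_lit 379) (nat_lit 5) (nat_lit 380) (nat_lit 5) (nat_lit 455) (nat_lit 420) (nat_lit 265)) (XT.nd (nat_lit 78) (nat_lit 836) (nat_lit 0) (XT.lf (nat_lit 0) (nat_lit 9999417658) (nat_lit 912) (nat_lit 2801044405) (nat_lit 76) (nat_lit 617836997) (nat_lit 368) (nat_lit 5) (nat_lit 380) (nat_lit 5) (nat_lit 369) (nat_lit 5) (nat_lit 456) (nat_lit 420) (nat_lit 264)) (XT.lf (nat_lit 0) (nat_lit 4643868794) (nat_lit 836) (nat_lit 7334604945) (nat_lit 912) (nat_lit 1582917655) (nat_lit 357) (nat_lit 5) (nat_lit 368) (nat_lit 5) (nat_lit 369) (nat_lit 5) (nat_lit 457) (nat_lit 420)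 (nat_lit 263)))) (XT.nd (nat_lit 78) (nat_lit 1520) (nat_lit 0) (XT.lf (nat_lit 0) (nat_lit 293722782) (nat_lit 912) (nat_lit 1444675922) (nat_lit 76) (nat_lit 11968756278) (nat_lit 356) (nat_lit 5) (nat_lit 368) (nat_lit 5) (nat_lit 357) (nat_lit 5) (nat_lit 458) (nat_lit 420) (nat_lit 262)) (XT.nd (nat_lit 78) (nat_lit 760) (nat_lit 0) (XT.lf (nat_lit 0) (nat_lit 2242386936) (nat_lit 836) (nat_lit 7643317826) (nat_lit 76) (nat_lit 3968808241) (nat_lit 346) (nat_lit 5) (nat_lit 357) (nat_lit 5) (nat_lit 347) (nat_lit 5) (nat_lit 459) (nat_lit 420) (nat_lit 261)) (XT.lf (nat_lit 0) (nat_lit 12458639) (nat_lit 760) (nat_lit 4228114789) (nat_lit 836) (nat_lit 9764035880) (nat_lit 336) (nat_lit 5) (nat_lit 346) (nat_lit 5) (nat_lit 347) (nat_lit 5) (nat_lit 460) (nat_lit 420) (nat_lit 260))))))) (XT.nd (nat_lit 936) (nat_lit 4256) (nat_lit 0) (XT.nd (nat_lit 468) (nat_lit 2128) (nat_lit 0) (XT.nd (nat_lit 234) (nat_lit 1520) (nat_lit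 0) (XT.nd (nat_lit 78) (nat_lit 760) (nat_lit 0) (XT.lf (nat_lit 0) (nat_lit 6329702297) (nat_lit 836) (nat_lit 6253487429) (nat_lit 76) (nat_lit 1573500303) (nat_lit 336) (nat_lit 5) (nat_lit 347) (nat_lit 5) (nat_lit 337) (nat_lit 5) (nat_lit 461) (nat_lit 420) (nat_lit 259)) (XT.nd (nat_lit 78) (nat_lit 0) (nat_lit 0) (XT.lf (nat_lit 0) (nat_lit 1622037222) (nat_lit 760) (nat_lit 6866650319) (nat_lit 836) (nat_lit 5822565371) (nat_lit 326) (nat_lit 5) (nat_lit 336) (nat_lit 5) (nat_lit 337) (nat_lit 5) (nat_lit 462) (nat_lit 420) (nat_lit 258)) (XT.lf (nat_lit 0) (nat_lit 9728729214) (nat_lit 760) (nat_lit 993762091) (nat_lit 836) (nat_lit 3745784954) (nat_lit 326) (nat_lit 5) (nat_lit 336) (nat_lit 5) (nat_lit 337) (nat_lit 5) (nat_lit 463) (nat_lit 420) (nat_lit 257)))) (XT.nd (nat_lit 78) (nat_lit 760) (nat_lit 0) (XT.lf (nat_lit 0) (nat_lit 3369776699) (nat_lit 760) (nat_lit 9675386489) (nat_lit 836) (nat_lit 1582394988)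 (nat_lit 316) (nat_lit 5) (nat_lit 326) (nat_lit 5) (nat_lit 327) (nat_lit 5) (nat_lit 464) (nat_lit 420) (nat_lit 256)) (XT.nd (nat_lit 78) (nat_lit 684) (nat_lit 0) (XT.lf (nat_lit 0) (nat_lit 644603157) (nat_lit 836) (nat_lit 3105856940) (nat_lit 76) (nat_lit 11038915886) (nat_lit 315) (nat_lit 5) (nat_lit 326) (nat_lit 5) (nat_lit 316) (nat_lit 5) (nat_lit 465) (nat_lit 420) (nat_lit 255)) (XT.lf (nat_lit 0) (nat_lit 2934406746) (nat_lit 760) (nat_lit 9712281207) (nat_lit 76) (nat_lit 2306745758) (nat_lit 306) (nat_lit 5) (nat_lit 316) (nat_lit 5) (nat_lit 307) (nat_lit 5) (nat_lit 466) (nat_lit 420) (nat_lit 254))))) (XT.nd (nat_lit 234) (nat_lit 760) (nat_lit 0) (XT.nd (nat_lit 78) (nat_lit 1368) (nat_lit 0) (XT.lf (nat_lit 0) (nat_lit 5306068070) (nat_lit 760) (nat_lit 1359182333) (nat_lit 76) (nat_lit 8454802753) (nat_lit 306) (nat_lit 5) (nat_lit 316) (nat_lit 5) (nat_lit 307) (nat_lit 5) (nat_lit 467) (nat_lit 420)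 (nat_lit 253)) (XT.nd (nat_lit 78) (nat_lit 684) (nat_lit 0) (XT.lf (nat_lit 0) (nat_lit 7245162961) (nat_lit 684) (nat_lit 517475570) (nat_lit 760) (nat_lit 7526618703) (nat_lit 297) (nat_lit 5) (nat_lit 306) (nat_lit 5) (nat_lit 307) (nat_lit 5) (nat_lit 468) (nat_lit 420) (nat_lit 252)) (XT.lf (nat_lit 0) (nat_lit 537037278) (nat_lit 684) (nat_lit 9771869688) (nat_lit 760) (nat_lit 5152128822) (nat_lit 288) (nat_lit 5) (nat_lit 297) (nat_lit 5) (nat_lit 298) (nat_lit 5) (nat_lit 469) (nat_lit 420) (nat_lit 251)))) (XT.nd (nat_lit 78) (nat_lit 760) (nat_lit 0) (XT.lf (nat_lit 0) (nat_lit 9384482796) (nat_lit 684) (nat_lit 3569661894) (nat_lit 760) (nat_lit 2681146036) (nat_lit 288) (nat_lit 5) (nat_lit 297) (nat_lit 5) (nat_lit 298) (nat_lit 5) (nat_lit 470) (nat_lit 420) (nat_lit 250)) (XT.nd (nat_lit 78) (nat_lit 76) (nat_lit 0) (XT.lf (nat_lit 0) (nat_lit 2601226674) (nat_lit 684) (nat_lit 13076679743) (nat_lit 760) (nat_lit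 134613622) (nat_lit 279) (nat_lit 5) (nat_lit 288) (nat_lit 5) (nat_lit 289) (nat_lit 5) (nat_lit 471) (nat_lit 420) (nat_lit 249)) (XT.lf (nat_lit 0) (nat_lit 2487293878) (nat_lit 760) (nat_lit 4328219292) (nat_lit 76) (nat_lit 9176327650) (nat_lit 278) (nat_lit 5) (nat_lit 288) (nat_lit 5) (nat_lit 279) (nat_lit 5) (nat_lit 472) (nat_lit 420) (nat_lit 248)))))) (XT.nd (nat_lit 468) (nat_lit 1748) (nat_lit 0) (XT.nd (nat_lit 234) (nat_lit 1292) (nat_lit 0) (XT.nd (nat_lit 78) (nat_lit 608) (nat_lit 0) (XT.lf (nat_lit 0) (nat_lit 4783688014) (nat_lit 608) (nat_lit 398269408) (nat_lit 684) (nat_lit 10992331955) (nat_lit 270) (nat_lit 5) (nat_lit 278) (nat_lit 5) (nat_lit 279) (nat_lit 5) (nat_lit 473) (nat_lit 420) (nat_lit 247)) (XT.nd (nat_lit 78) (nat_lit 608) (nat_lit 0) (XT.lf (nat_lit 0) (nat_lit 7990818436) (nat_lit 684) (nat_lit 2274179383) (nat_lit 76) (nat_lit 6094184535) (nat_lit 270) (nat_lit 5) (nat_lit 279) (nat_lit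 5) (nat_lit 271) (nat_lit 5) (nat_lit 474) (nat_lit 420) (nat_lit 246)) (XT.lf (nat_lit 0) (nat_lit 7104549994) (nat_lit 608) (nat_lit 3791399856) (nat_lit 684) (nat_lit 5651022980) (nat_lit 262) (nat_lit 5) (nat_lit 270) (nat_lit 5) (nat_lit 271) (nat_lit 5) (nat_lit 475) (nat_lit 420) (nat_lit 245)))) (XT.nd (nat_lit 78) (nat_lit 1292) (nat_lit 0) (XT.lf (nat_lit 0) (nat_lit 13884218752) (nat_lit 684) (nat_lit 65540993) (nat_lit 76) (nat_lit 2788260147) (nat_lit 262) (nat_lit 5) (nat_lit 271) (nat_lit 5) (nat_lit 263) (nat_lit 5) (nat_lit 476) (nat_lit 420) (nat_lit 244)) (XT.nd (nat_lit 78) (nat_lit 608) (nat_lit 0) (XT.lf (nat_lit 0) (nat_lit 78848150) (nat_lit 684) (nat_lit 7342739504) (nat_lit 76) (nat_lit 9509712247) (nat_lit 253) (nat_lit 5) (nat_lit 262) (nat_lit 5) (nat_lit 254) (nat_lit 5) (nat_lit 477) (nat_lit 420) (nat_lit 243)) (XT.lf (nat_lit 0) (nat_lit 2309090447) (nat_lit 608) (nat_lit 729945235) (nat_lit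 684) (nat_lit 14088891990) (nat_lit 245) (nat_lit 5) (nat_lit 253) (nat_lit 5) (nat_lit 254) (nat_lit 5) (nat_lit 478) (nat_lit 420) (nat_lit 242))))) (XT.nd (nat_lit 234) (nat_lit 1216) (nat_lit 0) (XT.nd (nat_lit 78) (nat_lit 532) (nat_lit 0) (XT.lf (nat_lit 0) (nat_lit 6139312841) (nat_lit 684) (nat_lit 5124486251) (nat_lit 76) (nat_lit 6063072549) (nat_lit 245) (nat_lit 5) (nat_lit 254) (nat_lit 5) (nat_lit 246) (nat_lit 5) (nat_lit 479) (nat_lit 420) (nat_lit 241)) (XT.nd (nat_lit 78) (nat_lit 0) (nat_lit 0) (XT.lf (nat_lit 0) (nat_lit 4811659772) (nat_lit 532) (nat_lit 4517882576) (nat_lit 608) (nat_lit 8199694542) (nat_lit 238) (nat_lit 5) (nat_lit 245) (nat_lit 5) (nat_lit 246) (nat_lit 5) (nat_lit 480) (nat_lit 420) (nat_lit 240)) (XT.lf (nat_lit 0) (nat_lit 12625484126) (nat_lit 608) (nat_lit 2744981628) (nat_lit 76) (nat_lit 2364346843) (nat_lit 238) (nat_lit 5) (nat_lit 246) (nat_lit 5) (nat_lit 239) (nat_lit 5)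 (nat_lit 481) (nat_lit 420) (nat_lit 239)))) (XT.nd (nat_lit 78) (nat_lit 608) (nat_lit 0) (XT.lf (nat_lit 0) (nat_lit 7485076066) (nat_lit 608) (nat_lit 8572894437) (nat_lit 684) (nat_lit 1885118083) (nat_lit 230) (nat_lit 5) (nat_lit 238) (nat_lit 5) (nat_lit 239) (nat_lit 5) (nat_lit 482) (nat_lit 420) (nat_lit 238)) (XT.nd (nat_lit 78) (nat_lit 532) (nat_lit 0) (XT.lf (nat_lit 0) (nat_lit 1395854339) (nat_lit 684) (nat_lit 217729120) (nat_lit 76) (nat_lit 16541551891) (nat_lit 229) (nat_lit 5) (nat_lit 238) (nat_lit 5) (nat_lit 230) (nat_lit 5) (nat_lit 483) (nat_lit 420) (nat_lit 237)) (XT.lf (nat_lit 0) (nat_lit 4812786279) (nat_lit 608) (nat_lit 8065692168) (nat_lit 76) (nat_lit 5490784962) (nat_lit 222) (nat_lit 5) (nat_lit 230) (nat_lit 5) (nat_lit 223) (nat_lit 5) (nat_lit 484) (nat_lit 420) (nat_lit 236))))))))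
noncomputable def xc183 : XT := (XT.nd (nat_lit 1794) (nat_lit 1140) (nat_lit 0) (XT.nd (nat_lit 858) (nat_lit 2964) (nat_lit 0) (XT.nd (nat_lit 390) (nat_lit 1444) (nat_lit 0) (XT.nd (nat_lit 156) (nat_lit 1064) (nat_lit 0) (XT.nd (nat_lit 78) (nat_lit 0) (nat_lit 0) (XT.lf (nat_lit 0) (nat_lit 2462052224) (nat_lit 532) (nat_lit 5856514924) (nat_lit 608) (nat_lit 10268697860) (nat_lit 215) (nat_lit 5) (nat_lit 222) (nat_lit 5) (nat_lit 223) (nat_lit 5) (nat_lit 485) (nat_lit 420) (nat_lit 235)) (XT.lf (nat_lit 0) (nat_lit 11949861844) (nat_lit 608) (nat_lit 5517912656) (nat_lit 76) (nat_lit 1340745336) (nat_lit 215) (nat_lit 5) (nat_lit 223) (nat_lit 5) (nat_lit 216) (nat_lit 5) (nat_lit 486) (nat_lit 420) (nat_lit 234))) (XT.nd (nat_lit 78) (nat_lit 608) (nat_lit 0) (XT.lf (nat_lit 0) (nat_lit 5322539504) (nat_lit 456) (nat_lit 10397169601) (nat_lit 532) (nat_lit 3313173263) (nat_lit 209) (nat_lit 5) (nat_lit 215) (nat_lit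 5) (nat_lit 216) (nat_lit 5) (nat_lit 487) (nat_lit 420) (nat_lit 233)) (XT.nd (nat_lit 78) (nat_lit 532) (nat_lit 0) (XT.lf (nat_lit 0) (nat_lit 329133157) (nat_lit 532) (nat_lit 2818656561) (nat_lit 76) (nat_lit 16113306376) (nat_lit 208) (nat_lit 5) (nat_lit 215) (nat_lit 5) (nat_lit 209) (nat_lit 5) (nat_lit 488) (nat_lit 420) (nat_lit 232)) (XT.lf (nat_lit 0) (nat_lit 4075119840) (nat_lit 608) (nat_lit 11151725059) (nat_lit 76) (nat_lit 4265088317) (nat_lit 201) (nat_lit 5) (nat_lit 209) (nat_lit 5) (nat_lit 202) (nat_lit 5) (nat_lit 489) (nat_lit 420) (nat_lit 231))))) (XT.nd (nat_lit 234) (nat_lit 532) (nat_lit 0) (XT.nd (nat_lit 78) (nat_lit 456) (nat_lit 0) (XT.lf (nat_lit 0) (nat_lit 2597632) (nat_lit 456) (nat_lit 7926153352) (nat_lit 532) (nat_lit 11797982654) (nat_lit 195) (nat_lit 5) (nat_lit 201) (nat_lit 5) (nat_lit 202) (nat_lit 5) (nat_lit 490) (nat_lit 420) (nat_lit 230)) (XT.nd (nat_lit 78) (nat_lit 456)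 (nat_lit 0) (XT.lf (nat_lit 0) (nat_lit 11521322670) (nat_lit 456) (nat_lit 405864475) (nat_lit 532) (nat_lit 8037689307) (nat_lit 195) (nat_lit 5) (nat_lit 201) (nat_lit 5) (nat_lit 202) (nat_lit 5) (nat_lit 491) (nat_lit 420) (nat_lit 229)) (XT.lf (nat_lit 0) (nat_lit 3045637740) (nat_lit 456) (nat_lit 13019916895) (nat_lit 532) (nat_lit 4141029247) (nat_lit 189) (nat_lit 5) (nat_lit 195) (nat_lit 5) (nat_lit 196) (nat_lit 5) (nat_lit 492) (nat_lit 420) (nat_lit 228)))) (XT.nd (nat_lit 78) (nat_lit 532) (nat_lit 0) (XT.lf (nat_lit 0) (nat_lit 14866630119) (nat_lit 456) (nat_lit 5472484204) (nat_lit 532) (nat_lit 112963632) (nat_lit 189) (nat_lit 5) (nat_lit 195) (nat_lit 5) (nat_lit 196) (nat_lit 5) (nat_lit 493) (nat_lit 420) (nat_lit 227)) (XT.nd (nat_lit 78) (nat_lit 0) (nat_lit 0) (XT.lf (nat_lit 0) (nat_lit 3992015604) (nat_lit 532) (nat_lit 14447949960) (nat_lit 76) (nat_lit 2261023326) (nat_lit 182) (nat_lit 5) (nat_lit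 189) (nat_lit 5) (nat_lit 183) (nat_lit 5) (nat_lit 494) (nat_lit 420) (nat_lit 226)) (XT.lf (nat_lit 0) (nat_lit 8244791414) (nat_lit 532) (nat_lit 2597028128) (nat_lit 76) (nat_lit 10111700310) (nat_lit 182) (nat_lit 5) (nat_lit 189) (nat_lit 5) (nat_lit 183) (nat_lit 5) (nat_lit 495) (nat_lit 420) (nat_lit 225)))))) (XT.nd (nat_lit 468) (nat_lit 1216) (nat_lit 0) (XT.nd (nat_lit 234) (nat_lit 836) (nat_lit 0) (XT.nd (nat_lit 78) (nat_lit 456) (nat_lit 0) (XT.lf (nat_lit 0) (nat_lit 9607435561) (nat_lit 456) (nat_lit 3030934656) (nat_lit 532) (nat_lit 8571617185) (nat_lit 176) (nat_lit 5) (nat_lit 182) (nat_lit 5) (nat_lit 183) (nat_lit 5) (nat_lit 496) (nat_lit 420) (nat_lit 224)) (XT.nd (nat_lit 78) (nat_lit 76) (nat_lit 0) (XT.lf (nat_lit 0) (nat_lit 585945622) (nat_lit 380) (nat_lit 16580690988) (nat_lit 456) (nat_lit 4304012269) (nat_lit 171) (nat_lit 5) (nat_lit 176) (nat_lit 5) (nat_lit 177) (nat_lit 5) (nat_lit 497)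 (nat_lit 420) (nat_lit 223)) (XT.lf (nat_lit 0) (nat_lit 140193594) (nat_lit 456) (nat_lit 8589939876) (nat_lit 76) (nat_lit 13004546807) (nat_lit 170) (nat_lit 5) (nat_lit 176) (nat_lit 5) (nat_lit 171) (nat_lit 5) (nat_lit 498) (nat_lit 420) (nat_lit 222)))) (XT.nd (nat_lit 78) (nat_lit 380) (nat_lit 0) (XT.lf (nat_lit 0) (nat_lit 3964846094) (nat_lit 456) (nat_lit 670175096) (nat_lit 532) (nat_lit 17368015603) (nat_lit 164) (nat_lit 5) (nat_lit 170) (nat_lit 5) (nat_lit 171) (nat_lit 5) (nat_lit 499) (nat_lit 420) (nat_lit 221)) (XT.nd (nat_lit 78) (nat_lit 380) (nat_lit 0) (XT.lf (nat_lit 0) (nat_lit 9320414632) (nat_lit 532) (nat_lit 5447264899) (nat_lit 76) (nat_lit 7507068353) (nat_lit 164) (nat_lit 5) (nat_lit 171) (nat_lit 5) (nat_lit 165) (nat_lit 5) (nat_lit 500) (nat_lit 420) (nat_lit 220)) (XT.lf (nat_lit 0) (nat_lit 7479909897) (nat_lit 380) (nat_lit 6666352501) (nat_lit 456) (nat_lit 8404696683) (nat_lit 159)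 (nat_lit 5) (nat_lit 164) (nat_lit 5) (nat_lit 165) (nat_lit 5) (nat_lit 501) (nat_lit 420) (nat_lit 219))))) (XT.nd (nat_lit 234) (nat_lit 380) (nat_lit 0) (XT.nd (nat_lit 78) (nat_lit 836) (nat_lit 0) (XT.lf (nat_lit 0) (nat_lit 19109579472) (nat_lit 456) (nat_lit 2112383225) (nat_lit 76) (nat_lit 1609913553) (nat_lit 159) (nat_lit 5) (nat_lit 165) (nat_lit 5) (nat_lit 160) (nat_lit 5) (nat_lit 502) (nat_lit 420) (nat_lit 218)) (XT.nd (nat_lit 78) (nat_lit 380) (nat_lit 0) (XT.lf (nat_lit 0) (nat_lit 1151433032) (nat_lit 456) (nat_lit 11924680600) (nat_lit 76) (nat_lit 10039932026) (nat_lit 153) (nat_lit 5) (nat_lit 159) (nat_lit 5) (nat_lit 154) (nat_lit 5) (nat_lit 503) (nat_lit 420) (nat_lit 217)) (XT.lf (nat_lit 0) (nat_lit 1368291874) (nat_lit 380) (nat_lit 4721632900) (nat_lit 456) (nat_lit 17315139764) (nat_lit 148) (nat_lit 5) (nat_lit 153) (nat_lit 5) (nat_lit 154) (nat_lit 5) (nat_lit 504) (nat_lit 420) (nat_lit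 216)))) (XT.nd (nat_lit 78) (nat_lit 380) (nat_lit 0) (XT.lf (nat_lit 0) (nat_lit 11226378712) (nat_lit 456) (nat_lit 8643856191) (nat_lit 76) (nat_lit 3827645783) (nat_lit 148) (nat_lit 5) (nat_lit 154) (nat_lit 5) (nat_lit 149) (nat_lit 5) (nat_lit 505) (nat_lit 420) (nat_lit 215)) (XT.nd (nat_lit 78) (nat_lit 0) (nat_lit 0) (XT.lf (nat_lit 0) (nat_lit 5042809282) (nat_lit 380) (nat_lit 11480850861) (nat_lit 456) (nat_lit 7471731768) (nat_lit 143) (nat_lit 5) (nat_lit 148) (nat_lit 5) (nat_lit 149) (nat_lit 5) (nat_lit 506) (nat_lit 420) (nat_lit 214)) (XT.lf (nat_lit 0) (nat_lit 19111459287) (nat_lit 380) (nat_lit 2867578818) (nat_lit 456) (nat_lit 2318772946) (nat_lit 143) (nat_lit 5) (nat_lit 148) (nat_lit 5) (nat_lit 149) (nat_lit 5) (nat_lit 507) (nat_lit 420) (nat_lit 213))))))) (XT.nd (nat_lit 53118) (nat_lit 0) (nat_lit 26372) (XT.nd (nat_lit 52650) (nat_lit 0) (nat_lit 27740) (XT.nd (nat_lit 234) (nat_lit 304) (nat_lit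 0) (XT.nd (nat_lit 78) (nat_lit 380) (nat_lit 0) (XT.lf (nat_lit 0) (nat_lit 2989933590) (nat_lit 456) (nat_lit 15699143971) (nat_lit 76) (nat_lit 5914996062) (nat_lit 137) (nat_lit 5) (nat_lit 143) (nat_lit 5) (nat_lit 138) (nat_lit 5) (nat_lit 508) (nat_lit 420) (nat_lit 212)) (XT.nd (nat_lit 78) (nat_lit 380) (nat_lit 0) (XT.lf (nat_lit 0) (nat_lit 8422077947) (nat_lit 456) (nat_lit 1610861937) (nat_lit 76) (nat_lit 14882249446) (nat_lit 137) (nat_lit 5) (nat_lit 143) (nat_lit 5) (nat_lit 138) (nat_lit 5) (nat_lit 509) (nat_lit 420) (nat_lit 211)) (XT.lf (nat_lit 0) (nat_lit 12919948449) (nat_lit 380) (nat_lit 1121173003) (nat_lit 456) (nat_lit 11189841429) (nat_lit 132) (nat_lit 5) (nat_lit 137) (nat_lit 5) (nat_lit 138) (nat_lit 5) (nat_lit 510) (nat_lit 420) (nat_lit 210)))) (XT.nd (nat_lit 78) (nat_lit 0) (nat_lit 0) (XT.lf (nat_lit 0) (nat_lit 2178414880) (nat_lit 304) (nat_lit 17665300816) (nat_lit 380) (nat_lit 5707913450)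 (nat_lit 128) (nat_lit 5) (nat_lit 132) (nat_lit 5) (nat_lit 133) (nat_lit 5) (nat_lit 511) (nat_lit 420) (nat_lit 209)) (XT.nd (nat_lit 52260) (nat_lit 0) (nat_lit 27740) (XT.lf (nat_lit 0) (nat_lit 17108325626) (nat_lit 304) (nat_lit 8738485079) (nat_lit 380) (nat_lit 30209683) (nat_lit 128) (nat_lit 5) (nat_lit 132) (nat_lit 5) (nat_lit 133) (nat_lit 5) (nat_lit 512) (nat_lit 420) (nat_lit 208)) (XT.lf (nat_lit 0) (nat_lit 234981972) (nat_lit 0) (nat_lit 234981972) (nat_lit 1596) (nat_lit 4371755274) (nat_lit 493) (nat_lit 5) (nat_lit 493) (nat_lit 3) (nat_lit 514) (nat_lit 3) (nat_lit 421) (nat_lit 421) (nat_lit 298))))) (XT.nd (nat_lit 234) (nat_lit 0) (nat_lit 76) (XT.nd (nat_lit 78) (nat_lit 0) (nat_lit 0) (XT.lf (nat_lit 0) (nat_lit 1730155065) (nat_lit 1596) (nat_lit 4519025460) (nat_lit 1672) (nat_lit 3515298592) (nat_lit 493) (nat_lit 5) (nat_lit 514) (nat_lit 3) (nat_lit 515) (nat_lit 5) (nat_lit 422) (nat_lit 421)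 (nat_lit 297)) (XT.nd (nat_lit 78) (nat_lit 0) (nat_lit 76) (XT.lf (nat_lit 76) (nat_lit 259195560) (nat_lit 0) (nat_lit 2261976188) (nat_lit 1672) (nat_lit 7326273809) (nat_lit 494) (nat_lit 5) (nat_lit 493) (nat_lit 5) (nat_lit 515) (nat_lit 5) (nat_lit 423) (nat_lit 421) (nat_lit 296)) (XT.lf (nat_lit 0) (nat_lit 3350824222) (nat_lit 1596) (nat_lit 4759936509) (nat_lit 1672) (nat_lit 1820858840) (nat_lit 494) (nat_lit 5) (nat_lit 515) (nat_lit 5) (nat_lit 516) (nat_lit 5) (nat_lit 424) (nat_lit 421) (nat_lit 295)))) (XT.nd (nat_lit 78) (nat_lit 0) (nat_lit 76) (XT.lf (nat_lit 76) (nat_lit 141237827) (nat_lit 0) (nat_lit 4052680383) (nat_lit 1672) (nat_lit 5823626350) (nat_lit 495) (nat_lit 5) (nat_lit 494) (nat_lit 5) (nat_lit 516) (nat_lit 5) (nat_lit 425) (nat_lit 421) (nat_lit 294)) (XT.nd (nat_lit 78) (nat_lit 0) (nat_lit 0) (XT.lf (nat_lit 0) (nat_lit 5067899533) (nat_lit 1596) (nat_lit 4911305851) (nat_lit 1672) (nat_lit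 125706538) (nat_lit 495) (nat_lit 5) (nat_lit 516) (nat_lit 5) (nat_lit 517) (nat_lit 5) (nat_lit 426) (nat_lit 421) (nat_lit 293)) (XT.lf (nat_lit 76) (nat_lit 116963709) (nat_lit 0) (nat_lit 5851671811) (nat_lit 1672) (nat_lit 4225209901) (nat_lit 496) (nat_lit 5) (nat_lit 495) (nat_lit 5) (nat_lit 517) (nat_lit 5) (nat_lit 427) (nat_lit 421) (nat_lit 292)))))) (XT.nd (nat_lit 468) (nat_lit 0) (nat_lit 76) (XT.nd (nat_lit 234) (nat_lit 1520) (nat_lit 0) (XT.nd (nat_lit 78) (nat_lit 0) (nat_lit 76) (XT.lf (nat_lit 76) (nat_lit 5301716875) (nat_lit 0) (nat_lit 1600593586) (nat_lit 1672) (nat_lit 3381952854) (nat_lit 496) (nat_lit 5) (nat_lit 495) (nat_lit 5) (nat_lit 517) (nat_lit 5) (nat_lit 428) (nat_lit 421) (nat_lit 291)) (XT.nd (nat_lit 78) (nat_lit 0) (nat_lit 0) (XT.lf (nat_lit 76) (nat_lit 187522639) (nat_lit 0) (nat_lit 7668481841) (nat_lit 1672) (nat_lit 2520462301) (nat_lit 497) (nat_lit 5) (nat_lit 496) (nat_lit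 5) (nat_lit 518) (nat_lit 5) (nat_lit 429) (nat_lit 421) (nat_lit 290)) (XT.lf (nat_lit 76) (nat_lit 5507011826) (nat_lit 0) (nat_lit 3348369368) (nat_lit 1672) (nat_lit 1614604991) (nat_lit 497) (nat_lit 5) (nat_lit 496) (nat_lit 5) (nat_lit 518) (nat_lit 5) (nat_lit 430) (nat_lit 421) (nat_lit 289)))) (XT.nd (nat_lit 78) (nat_lit 1672) (nat_lit 0) (XT.lf (nat_lit 76) (nat_lit 354336866) (nat_lit 0) (nat_lit 9512604627) (nat_lit 1672) (nat_lit 698594529) (nat_lit 498) (nat_lit 5) (nat_lit 497) (nat_lit 5) (nat_lit 519) (nat_lit 5) (nat_lit 431) (nat_lit 421) (nat_lit 288)) (XT.nd (nat_lit 78) (nat_lit 0) (nat_lit 0) (XT.lf (nat_lit 0) (nat_lit 271516721) (nat_lit 1672) (nat_lit 4852098102) (nat_lit 1748) (nat_lit 5538577788) (nat_lit 475) (nat_lit 5) (nat_lit 497) (nat_lit 5) (nat_lit 498) (nat_lit 5) (nat_lit 432) (nat_lit 421) (nat_lit 287)) (XT.lf (nat_lit 76) (nat_lit 606622000) (nat_lit 0) (nat_lit 632504236) (nat_lit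 1748) (nat_lit 9521818474) (nat_lit 476) (nat_lit 5) (nat_lit 475) (nat_lit 5) (nat_lit 498) (nat_lit 5) (nat_lit 433) (nat_lit 421) (nat_lit 286))))) (XT.nd (nat_lit 234) (nat_lit 0) (nat_lit 76) (XT.nd (nat_lit 78) (nat_lit 0) (nat_lit 0) (XT.lf (nat_lit 0) (nat_lit 2268290832) (nat_lit 1672) (nat_lit 4657768692) (nat_lit 1748) (nat_lit 3934771933) (nat_lit 476) (nat_lit 5) (nat_lit 498) (nat_lit 5) (nat_lit 499) (nat_lit 5) (nat_lit 434) (nat_lit 421) (nat_lit 285)) (XT.nd (nat_lit 78) (nat_lit 0) (nat_lit 76) (XT.lf (nat_lit 76) (nat_lit 945968928) (nat_lit 0) (nat_lit 2366509548) (nat_lit 1748) (nat_lit 7650352259) (nat_lit 477) (nat_lit 5) (nat_lit 476) (nat_lit 5) (nat_lit 499) (nat_lit 5) (nat_lit 435) (nat_lit 421) (nat_lit 284)) (XT.lf (nat_lit 0) (nat_lit 4408224567) (nat_lit 1672) (nat_lit 4367604565) (nat_lit 1748) (nat_lit 2290430896) (nat_lit 477) (nat_lit 5) (nat_lit 499) (nat_lit 5) (nat_lit 500) (nat_lit 5)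 (nat_lit 436) (nat_lit 421) (nat_lit 283)))) (XT.nd (nat_lit 78) (nat_lit 0) (nat_lit 76) (XT.lf (nat_lit 76) (nat_lit 1386124723) (nat_lit 0) (nat_lit 4149119878) (nat_lit 1748) (nat_lit 5636329578) (nat_lit 478) (nat_lit 5) (nat_lit 477) (nat_lit 5) (nat_lit 500) (nat_lit 5) (nat_lit 437) (nat_lit 421) (nat_lit 282)) (XT.nd (nat_lit 78) (nat_lit 0) (nat_lit 0) (XT.lf (nat_lit 0) (nat_lit 6702952838) (nat_lit 1672) (nat_lit 3979451064) (nat_lit 1748) (nat_lit 596231138) (nat_lit 478) (nat_lit 5) (nat_lit 500) (nat_lit 5) (nat_lit 501) (nat_lit 5) (nat_lit 438) (nat_lit 421) (nat_lit 281)) (XT.lf (nat_lit 76) (nat_lit 1929436212) (nat_lit 0) (nat_lit 5989822213) (nat_lit 1748) (nat_lit 3468077149) (nat_lit 479) (nat_lit 5) (nat_lit 478) (nat_lit 5) (nat_lit 501) (nat_lit 5) (nat_lit 439) (nat_lit 421) (nat_lit 280))))))))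
noncomputable def xc184 : XT := (XT.nd (nat_lit 1794) (nat_lit 8664) (nat_lit 0) (XT.nd (nat_lit 858) (nat_lit 5168) (nat_lit 0) (XT.nd (nat_lit 390) (nat_lit 3952) (nat_lit 0) (XT.nd (nat_lit 156) (nat_lit 1672) (nat_lit 0) (XT.nd (nat_lit 78) (nat_lit 0) (nat_lit 76) (XT.lf (nat_lit 76) (nat_lit 7999458123) (nat_lit 0) (nat_lit 1172592721) (nat_lit 1748) (nat_lit 2325919314) (nat_lit 479) (nat_lit 5) (nat_lit 478) (nat_lit 5) (nat_lit 501) (nat_lit 5) (nat_lit 440) (nat_lit 421) (nat_lit 279)) (XT.lf (nat_lit 76) (nat_lit 2578510518) (nat_lit 0) (nat_lit 7898183248) (nat_lit 1748) (nat_lit 1133590964) (nat_lit 480) (nat_lit 5) (nat_lit 479) (nat_lit 5) (nat_lit 502) (nat_lit 5) (nat_lit 441) (nat_lit 421) (nat_lit 278))) (XT.nd (nat_lit 78) (nat_lit 0) (nat_lit 76) (XT.lf (nat_lit 0) (nat_lit 98774689) (nat_lit 1748) (nat_lit 2919535543) (nat_lit 1824) (nat_lit 8706182226) (nat_lit 456) (nat_lit 5) (nat_lit 479) (nat_lit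 5) (nat_lit 480) (nat_lit 5) (nat_lit 442) (nat_lit 421) (nat_lit 277)) (XT.nd (nat_lit 78) (nat_lit 0) (nat_lit 0) (XT.lf (nat_lit 0) (nat_lit 1361395367) (nat_lit 1748) (nat_lit 8513343110) (nat_lit 1824) (nat_lit 1965683280) (nat_lit 457) (nat_lit 5) (nat_lit 480) (nat_lit 5) (nat_lit 481) (nat_lit 5) (nat_lit 443) (nat_lit 421) (nat_lit 276)) (XT.lf (nat_lit 0) (nat_lit 2675350046) (nat_lit 1748) (nat_lit 2251397084) (nat_lit 1824) (nat_lit 7031403825) (nat_lit 457) (nat_lit 5) (nat_lit 480) (nat_lit 5) (nat_lit 481) (nat_lit 5) (nat_lit 444) (nat_lit 421) (nat_lit 275))))) (XT.nd (nat_lit 234) (nat_lit 2356) (nat_lit 0) (XT.nd (nat_lit 78) (nat_lit 1748) (nat_lit 0) (XT.lf (nat_lit 0) (nat_lit 4030334956) (nat_lit 1748) (nat_lit 7899314650) (nat_lit 76) (nat_lit 148292999) (nat_lit 458) (nat_lit 5) (nat_lit 481) (nat_lit 5) (nat_lit 459) (nat_lit 5) (nat_lit 445) (nat_lit 421) (nat_lit 274)) (XT.nd (nat_lit 78) (nat_lit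 1748) (nat_lit 0) (XT.lf (nat_lit 0) (nat_lit 5447099619) (nat_lit 1748) (nat_lit 1475973629) (nat_lit 76) (nat_lit 5276366069) (nat_lit 458) (nat_lit 5) (nat_lit 481) (nat_lit 5) (nat_lit 459) (nat_lit 5) (nat_lit 446) (nat_lit 421) (nat_lit 273)) (XT.lf (nat_lit 0) (nat_lit 5132173032) (nat_lit 1748) (nat_lit 1780450445) (nat_lit 1824) (nat_lit 5410336787) (nat_lit 435) (nat_lit 5) (nat_lit 458) (nat_lit 5) (nat_lit 459) (nat_lit 5) (nat_lit 447) (nat_lit 421) (nat_lit 272)))) (XT.nd (nat_lit 78) (nat_lit 2356) (nat_lit 0) (XT.lf (nat_lit 0) (nat_lit 8427221568) (nat_lit 1824) (nat_lit 589993737) (nat_lit 76) (nat_lit 3431343772) (nat_lit 435) (nat_lit 5) (nat_lit 459) (nat_lit 5) (nat_lit 436) (nat_lit 5) (nat_lit 448) (nat_lit 421) (nat_lit 271)) (XT.nd (nat_lit 78) (nat_lit 912) (nat_lit 0) (XT.lf (nat_lit 0) (nat_lit 6201408918) (nat_lit 1444) (nat_lit 3810302877) (nat_lit 1520) (nat_lit 2564168736) (nat_lit 416) (nat_lit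 5) (nat_lit 435) (nat_lit 5) (nat_lit 436) (nat_lit 5) (nat_lit 449) (nat_lit 421) (nat_lit 270)) (XT.lf (nat_lit 0) (nat_lit 415513816) (nat_lit 912) (nat_lit 11216533206) (nat_lit 988) (nat_lit 1073620906) (nat_lit 404) (nat_lit 5) (nat_lit 416) (nat_lit 5) (nat_lit 417) (nat_lit 5) (nat_lit 450) (nat_lit 421) (nat_lit 269)))))) (XT.nd (nat_lit 468) (nat_lit 2432) (nat_lit 0) (XT.nd (nat_lit 234) (nat_lit 1748) (nat_lit 0) (XT.nd (nat_lit 78) (nat_lit 912) (nat_lit 0) (XT.lf (nat_lit 0) (nat_lit 496986265) (nat_lit 988) (nat_lit 5449131331) (nat_lit 76) (nat_lit 6890755831) (nat_lit 403) (nat_lit 5) (nat_lit 416) (nat_lit 5) (nat_lit 404) (nat_lit 5) (nat_lit 451) (nat_lit 421) (nat_lit 268)) (XT.nd (nat_lit 78) (nat_lit 0) (nat_lit 0) (XT.lf (nat_lit 0) (nat_lit 1530672190) (nat_lit 912) (nat_lit 551962412) (nat_lit 988) (nat_lit 10887968872) (nat_lit 391) (nat_lit 5) (nat_lit 403) (nat_lit 5) (nat_lit 404) (nat_lit 5) (nat_lit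 452) (nat_lit 421) (nat_lit 267)) (XT.lf (nat_lit 0) (nat_lit 3757165811) (nat_lit 988) (nat_lit 4425897838) (nat_lit 76) (nat_lit 4922803492) (nat_lit 391) (nat_lit 5) (nat_lit 404) (nat_lit 5) (nat_lit 392) (nat_lit 5) (nat_lit 453) (nat_lit 421) (nat_lit 266)))) (XT.nd (nat_lit 78) (nat_lit 836) (nat_lit 0) (XT.lf (nat_lit 0) (nat_lit 2749869162) (nat_lit 912) (nat_lit 2725280803) (nat_lit 988) (nat_lit 7768489240) (nat_lit 379) (nat_lit 5) (nat_lit 391) (nat_lit 5) (nat_lit 392) (nat_lit 5) (nat_lit 454) (nat_lit 421) (nat_lit 265)) (XT.nd (nat_lit 78) (nat_lit 836) (nat_lit 0) (XT.lf (nat_lit 0) (nat_lit 7264452522) (nat_lit 988) (nat_lit 3284191729) (nat_lit 76) (nat_lit 2834785608) (nat_lit 379) (nat_lit 5) (nat_lit 392) (nat_lit 5) (nat_lit 380) (nat_lit 5) (nat_lit 455) (nat_lit 421) (nat_lit 264)) (XT.lf (nat_lit 0) (nat_lit 4094327661) (nat_lit 836) (nat_lit 5028680069) (nat_lit 912) (nat_lit 4402341543) (nat_lit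 368) (nat_lit 5) (nat_lit 379) (nat_lit 5) (nat_lit 380) (nat_lit 5) (nat_lit 456) (nat_lit 421) (nat_lit 263))))) (XT.nd (nat_lit 234) (nat_lit 1520) (nat_lit 0) (XT.nd (nat_lit 78) (nat_lit 912) (nat_lit 0) (XT.lf (nat_lit 0) (nat_lit 11033810298) (nat_lit 912) (nat_lit 2019835436) (nat_lit 76) (nat_lit 616162048) (nat_lit 368) (nat_lit 5) (nat_lit 380) (nat_lit 5) (nat_lit 369) (nat_lit 5) (nat_lit 457) (nat_lit 421) (nat_lit 262)) (XT.nd (nat_lit 78) (nat_lit 76) (nat_lit 0) (XT.lf (nat_lit 0) (nat_lit 5568467936) (nat_lit 836) (nat_lit 7473018786) (nat_lit 912) (nat_lit 774497773) (nat_lit 357) (nat_lit 5) (nat_lit 368) (nat_lit 5) (nat_lit 369) (nat_lit 5) (nat_lit 458) (nat_lit 421) (nat_lit 261)) (XT.lf (nat_lit 0) (nat_lit 1112401608) (nat_lit 912) (nat_lit 647194785) (nat_lit 76) (nat_lit 12205286185) (nat_lit 356) (nat_lit 5) (nat_lit 368) (nat_lit 5) (nat_lit 357) (nat_lit 5) (nat_lit 459) (nat_lit 421) (nat_lit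 260)))) (XT.nd (nat_lit 78) (nat_lit 760) (nat_lit 0) (XT.lf (nat_lit 0) (nat_lit 3089553457) (nat_lit 836) (nat_lit 6959167649) (nat_lit 76) (nat_lit 4066679492) (nat_lit 346) (nat_lit 5) (nat_lit 357) (nat_lit 5) (nat_lit 347) (nat_lit 5) (nat_lit 460) (nat_lit 421) (nat_lit 259)) (XT.nd (nat_lit 78) (nat_lit 0) (nat_lit 0) (XT.lf (nat_lit 0) (nat_lit 844217657) (nat_lit 760) (nat_lit 4273152993) (nat_lit 836) (nat_lit 9151337902) (nat_lit 336) (nat_lit 5) (nat_lit 346) (nat_lit 5) (nat_lit 347) (nat_lit 5) (nat_lit 461) (nat_lit 421) (nat_lit 258)) (XT.lf (nat_lit 0) (nat_lit 7233004550) (nat_lit 836) (nat_lit 5547923678) (nat_lit 76) (nat_lit 1643211217) (nat_lit 336) (nat_lit 5) (nat_lit 347) (nat_lit 5) (nat_lit 337) (nat_lit 5) (nat_lit 462) (nat_lit 421) (nat_lit 257))))))) (XT.nd (nat_lit 858) (nat_lit 4256) (nat_lit 0) (XT.nd (nat_lit 390) (nat_lit 2128) (nat_lit 0) (XT.nd (nat_lit 156) (nat_lit 1520) (nat_lit 0)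 (XT.nd (nat_lit 78) (nat_lit 0) (nat_lit 0) (XT.lf (nat_lit 0) (nat_lit 2479646773) (nat_lit 760) (nat_lit 6945650697) (nat_lit 836) (nat_lit 5156696501) (nat_lit 326) (nat_lit 5) (nat_lit 336) (nat_lit 5) (nat_lit 337) (nat_lit 5) (nat_lit 463) (nat_lit 421) (nat_lit 256)) (XT.lf (nat_lit 0) (nat_lit 10732292824) (nat_lit 760) (nat_lit 956448481) (nat_lit 836) (nat_lit 3053720087) (nat_lit 326) (nat_lit 5) (nat_lit 336) (nat_lit 5) (nat_lit 337) (nat_lit 5) (nat_lit 464) (nat_lit 421) (nat_lit 255))) (XT.nd (nat_lit 78) (nat_lit 760) (nat_lit 0) (XT.lf (nat_lit 0) (nat_lit 4255550618) (nat_lit 760) (nat_lit 9793252310) (nat_lit 836) (nat_lit 856310124) (nat_lit 316) (nat_lit 5) (nat_lit 326) (nat_lit 5) (nat_lit 327) (nat_lit 5) (nat_lit 465) (nat_lit 421) (nat_lit 254)) (XT.nd (nat_lit 78) (nat_lit 684) (nat_lit 0) (XT.lf (nat_lit 0) (nat_lit 1390627536) (nat_lit 836) (nat_lit 2355763326) (nat_lit 76) (nat_lit 11323973934)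 (nat_lit 315) (nat_lit 5) (nat_lit 326) (nat_lit 5) (nat_lit 316) (nat_lit 5) (nat_lit 466) (nat_lit 421) (nat_lit 253)) (XT.lf (nat_lit 0) (nat_lit 3717628827) (nat_lit 760) (nat_lit 9085584316) (nat_lit 76) (nat_lit 2434665171) (nat_lit 306) (nat_lit 5) (nat_lit 316) (nat_lit 5) (nat_lit 307) (nat_lit 5) (nat_lit 467) (nat_lit 421) (nat_lit 252))))) (XT.nd (nat_lit 234) (nat_lit 760) (nat_lit 0) (XT.nd (nat_lit 78) (nat_lit 1368) (nat_lit 0) (XT.lf (nat_lit 0) (nat_lit 6122516829) (nat_lit 760) (nat_lit 581520377) (nat_lit 76) (nat_lit 8704079689) (nat_lit 306) (nat_lit 5) (nat_lit 316) (nat_lit 5) (nat_lit 307) (nat_lit 5) (nat_lit 468) (nat_lit 421) (nat_lit 251)) (XT.nd (nat_lit 78) (nat_lit 684) (nat_lit 0) (XT.lf (nat_lit 0) (nat_lit 8189616787) (nat_lit 684) (nat_lit 429865137) (nat_lit 760) (nat_lit 6961400430) (nat_lit 297) (nat_lit 5) (nat_lit 306) (nat_lit 5) (nat_lit 307) (nat_lit 5) (nat_lit 469) (nat_lit 421)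 (nat_lit 250)) (XT.lf (nat_lit 0) (nat_lit 1355503420) (nat_lit 684) (nat_lit 9853283468) (nat_lit 760) (nat_lit 4547469882) (nat_lit 288) (nat_lit 5) (nat_lit 297) (nat_lit 5) (nat_lit 298) (nat_lit 5) (nat_lit 470) (nat_lit 421) (nat_lit 249)))) (XT.nd (nat_lit 78) (nat_lit 760) (nat_lit 0) (XT.lf (nat_lit 0) (nat_lit 10364060095) (nat_lit 684) (nat_lit 3529267276) (nat_lit 760) (nat_lit 2040943941) (nat_lit 288) (nat_lit 5) (nat_lit 297) (nat_lit 5) (nat_lit 298) (nat_lit 5) (nat_lit 471) (nat_lit 421) (nat_lit 248)) (XT.nd (nat_lit 78) (nat_lit 0) (nat_lit 0) (XT.lf (nat_lit 0) (nat_lit 541736427) (nat_lit 760) (nat_lit 12665917358) (nat_lit 76) (nat_lit 2907471205) (nat_lit 278) (nat_lit 5) (nat_lit 288) (nat_lit 5) (nat_lit 279) (nat_lit 5) (nat_lit 472) (nat_lit 421) (nat_lit 247)) (XT.lf (nat_lit 0) (nat_lit 3201002040) (nat_lit 760) (nat_lit 3621930350) (nat_lit 76) (nat_lit 9475349874) (nat_lit 278) (nat_lit 5) (nat_lit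 288) (nat_lit 5) (nat_lit 279) (nat_lit 5) (nat_lit 473) (nat_lit 421) (nat_lit 246)))))) (XT.nd (nat_lit 468) (nat_lit 1748) (nat_lit 0) (XT.nd (nat_lit 234) (nat_lit 1292) (nat_lit 0) (XT.nd (nat_lit 78) (nat_lit 608) (nat_lit 0) (XT.lf (nat_lit 0) (nat_lit 5666998962) (nat_lit 608) (nat_lit 274654888) (nat_lit 684) (nat_lit 10542886320) (nat_lit 270) (nat_lit 5) (nat_lit 278) (nat_lit 5) (nat_lit 279) (nat_lit 5) (nat_lit 474) (nat_lit 421) (nat_lit 245)) (XT.nd (nat_lit 78) (nat_lit 608) (nat_lit 0) (XT.lf (nat_lit 0) (nat_lit 8794665770) (nat_lit 684) (nat_lit 1535331718) (nat_lit 76) (nat_lit 6343376278) (nat_lit 270) (nat_lit 5) (nat_lit 279) (nat_lit 5) (nat_lit 271) (nat_lit 5) (nat_lit 475) (nat_lit 421) (nat_lit 244)) (XT.lf (nat_lit 0) (nat_lit 8025812173) (nat_lit 608) (nat_lit 3724518477) (nat_lit 684) (nat_lit 5114742973) (nat_lit 262) (nat_lit 5) (nat_lit 270) (nat_lit 5) (nat_lit 271) (nat_lit 5) (nat_lit 476)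 (nat_lit 421) (nat_lit 243)))) (XT.nd (nat_lit 78) (nat_lit 684) (nat_lit 0) (XT.lf (nat_lit 0) (nat_lit 718138545) (nat_lit 608) (nat_lit 14073317769) (nat_lit 684) (nat_lit 2268625630) (nat_lit 254) (nat_lit 5) (nat_lit 262) (nat_lit 5) (nat_lit 263) (nat_lit 5) (nat_lit 477) (nat_lit 421) (nat_lit 242)) (XT.nd (nat_lit 78) (nat_lit 608) (nat_lit 0) (XT.lf (nat_lit 0) (nat_lit 702259443) (nat_lit 684) (nat_lit 6710757930) (nat_lit 76) (nat_lit 9844368722) (nat_lit 253) (nat_lit 5) (nat_lit 262) (nat_lit 5) (nat_lit 254) (nat_lit 5) (nat_lit 478) (nat_lit 421) (nat_lit 241)) (XT.lf (nat_lit 0) (nat_lit 3128984696) (nat_lit 608) (nat_lit 585496653) (nat_lit 684) (nat_lit 13743610481) (nat_lit 245) (nat_lit 5) (nat_lit 253) (nat_lit 5) (nat_lit 254) (nat_lit 5) (nat_lit 479) (nat_lit 421) (nat_lit 240))))) (XT.nd (nat_lit 234) (nat_lit 1216) (nat_lit 0) (XT.nd (nat_lit 78) (nat_lit 532) (nat_lit 0) (XT.lf (nat_lit 0) (nat_lit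 6865724192) (nat_lit 684) (nat_lit 4457295396) (nat_lit 76) (nat_lit 6338217872) (nat_lit 245) (nat_lit 5) (nat_lit 254) (nat_lit 5) (nat_lit 246) (nat_lit 5) (nat_lit 480) (nat_lit 421) (nat_lit 239)) (XT.nd (nat_lit 78) (nat_lit 0) (nat_lit 0) (XT.lf (nat_lit 0) (nat_lit 5672509860) (nat_lit 532) (nat_lit 4440377043) (nat_lit 608) (nat_lit 7754902481) (nat_lit 238) (nat_lit 5) (nat_lit 245) (nat_lit 5) (nat_lit 246) (nat_lit 5) (nat_lit 481) (nat_lit 421) (nat_lit 238)) (XT.lf (nat_lit 0) (nat_lit 13464114973) (nat_lit 608) (nat_lit 2039529048) (nat_lit 76) (nat_lit 2574047142) (nat_lit 238) (nat_lit 5) (nat_lit 246) (nat_lit 5) (nat_lit 239) (nat_lit 5) (nat_lit 482) (nat_lit 421) (nat_lit 237)))) (XT.nd (nat_lit 78) (nat_lit 608) (nat_lit 0) (XT.lf (nat_lit 0) (nat_lit 8390127483) (nat_lit 608) (nat_lit 8568535255) (nat_lit 684) (nat_lit 1331603568) (nat_lit 230) (nat_lit 5) (nat_lit 238) (nat_lit 5) (nat_lit 239) (nat_lit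 5) (nat_lit 483) (nat_lit 421) (nat_lit 236)) (XT.nd (nat_lit 78) (nat_lit 0) (nat_lit 0) (XT.lf (nat_lit 0) (nat_lit 533139275) (nat_lit 532) (nat_lit 1466116156) (nat_lit 608) (nat_lit 16507383177) (nat_lit 222) (nat_lit 5) (nat_lit 229) (nat_lit 5) (nat_lit 230) (nat_lit 5) (nat_lit 484) (nat_lit 421) (nat_lit 235)) (XT.lf (nat_lit 0) (nat_lit 5475828027) (nat_lit 608) (nat_lit 7473450753) (nat_lit 76) (nat_lit 5775946168) (nat_lit 222) (nat_lit 5) (nat_lit 230) (nat_lit 5) (nat_lit 223) (nat_lit 5) (nat_lit 485) (nat_lit 421) (nat_lit 234))))))))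
noncomputable def xc185 : XT := (XT.nd (nat_lit 1794) (nat_lit 1140) (nat_lit 0) (XT.nd (nat_lit 858) (nat_lit 2964) (nat_lit 0) (XT.nd (nat_lit 390) (nat_lit 1444) (nat_lit 0) (XT.nd (nat_lit 156) (nat_lit 1064) (nat_lit 0) (XT.nd (nat_lit 78) (nat_lit 0) (nat_lit 0) (XT.lf (nat_lit 0) (nat_lit 3259890927) (nat_lit 532) (nat_lit 5785580527) (nat_lit 608) (nat_lit 9902241911) (nat_lit 215) (nat_lit 5) (nat_lit 222) (nat_lit 5) (nat_lit 223) (nat_lit 5) (nat_lit 486) (nat_lit 421) (nat_lit 233)) (XT.lf (nat_lit 0) (nat_lit 12739598301) (nat_lit 608) (nat_lit 4884473302) (nat_lit 76) (nat_lit 1549519255) (nat_lit 215) (nat_lit 5) (nat_lit 223) (nat_lit 5) (nat_lit 216) (nat_lit 5) (nat_lit 487) (nat_lit 421) (nat_lit 232))) (XT.nd (nat_lit 78) (nat_lit 608) (nat_lit 0) (XT.lf (nat_lit 0) (nat_lit 6167894496) (nat_lit 456) (nat_lit 10410946658) (nat_lit 532) (nat_lit 2823721170) (nat_lit 209) (nat_lit 5) (nat_lit 215) (nat_lit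 5) (nat_lit 216) (nat_lit 5) (nat_lit 488) (nat_lit 421) (nat_lit 231)) (XT.nd (nat_lit 78) (nat_lit 532) (nat_lit 0) (XT.lf (nat_lit 0) (nat_lit 873389593) (nat_lit 532) (nat_lit 2143388693) (nat_lit 76) (nat_lit 16618706542) (nat_lit 208) (nat_lit 5) (nat_lit 215) (nat_lit 5) (nat_lit 209) (nat_lit 5) (nat_lit 489) (nat_lit 421) (nat_lit 230)) (XT.lf (nat_lit 0) (nat_lit 4689738356) (nat_lit 608) (nat_lit 10638482758) (nat_lit 76) (nat_lit 4542810295) (nat_lit 201) (nat_lit 5) (nat_lit 209) (nat_lit 5) (nat_lit 202) (nat_lit 5) (nat_lit 490) (nat_lit 421) (nat_lit 229))))) (XT.nd (nat_lit 234) (nat_lit 532) (nat_lit 0) (XT.nd (nat_lit 78) (nat_lit 456) (nat_lit 0) (XT.lf (nat_lit 0) (nat_lit 734082460) (nat_lit 456) (nat_lit 7880655352) (nat_lit 532) (nat_lit 11495905645) (nat_lit 195) (nat_lit 5) (nat_lit 201) (nat_lit 5) (nat_lit 202) (nat_lit 5) (nat_lit 491) (nat_lit 421) (nat_lit 228)) (XT.nd (nat_lit 78) (nat_lit 456)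 (nat_lit 0) (XT.lf (nat_lit 0) (nat_lit 12468840178) (nat_lit 456) (nat_lit 213961111) (nat_lit 532) (nat_lit 7670956169) (nat_lit 195) (nat_lit 5) (nat_lit 201) (nat_lit 5) (nat_lit 202) (nat_lit 5) (nat_lit 492) (nat_lit 421) (nat_lit 227)) (XT.lf (nat_lit 0) (nat_lit 3827981715) (nat_lit 456) (nat_lit 13071772991) (nat_lit 532) (nat_lit 3700629432) (nat_lit 189) (nat_lit 5) (nat_lit 195) (nat_lit 5) (nat_lit 196) (nat_lit 5) (nat_lit 493) (nat_lit 421) (nat_lit 226)))) (XT.nd (nat_lit 78) (nat_lit 456) (nat_lit 0) (XT.lf (nat_lit 0) (nat_lit 392521862) (nat_lit 532) (nat_lit 4982324819) (nat_lit 76) (nat_lit 15476092341) (nat_lit 188) (nat_lit 5) (nat_lit 195) (nat_lit 5) (nat_lit 189) (nat_lit 5) (nat_lit 494) (nat_lit 421) (nat_lit 225)) (XT.nd (nat_lit 78) (nat_lit 0) (nat_lit 0) (XT.lf (nat_lit 0) (nat_lit 4574122713) (nat_lit 532) (nat_lit 14018788891) (nat_lit 76) (nat_lit 2511982333) (nat_lit 182) (nat_lit 5) (nat_lit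 189) (nat_lit 5) (nat_lit 183) (nat_lit 5) (nat_lit 495) (nat_lit 421) (nat_lit 224)) (XT.lf (nat_lit 0) (nat_lit 8902105671) (nat_lit 532) (nat_lit 1944929409) (nat_lit 76) (nat_lit 10515638768) (nat_lit 182) (nat_lit 5) (nat_lit 189) (nat_lit 5) (nat_lit 183) (nat_lit 5) (nat_lit 496) (nat_lit 421) (nat_lit 223)))))) (XT.nd (nat_lit 468) (nat_lit 1216) (nat_lit 0) (XT.nd (nat_lit 234) (nat_lit 836) (nat_lit 0) (XT.nd (nat_lit 78) (nat_lit 456) (nat_lit 0) (XT.lf (nat_lit 0) (nat_lit 10498991716) (nat_lit 456) (nat_lit 2879450086) (nat_lit 532) (nat_lit 8245932563) (nat_lit 176) (nat_lit 5) (nat_lit 182) (nat_lit 5) (nat_lit 183) (nat_lit 5) (nat_lit 497) (nat_lit 421) (nat_lit 222)) (XT.nd (nat_lit 78) (nat_lit 76) (nat_lit 0) (XT.lf (nat_lit 0) (nat_lit 1300850785) (nat_lit 380) (nat_lit 16692783419) (nat_lit 456) (nat_lit 3896688963) (nat_lit 171) (nat_lit 5) (nat_lit 176) (nat_lit 5) (nat_lit 177) (nat_lit 5) (nat_lit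 498) (nat_lit 421) (nat_lit 221)) (XT.lf (nat_lit 0) (nat_lit 620382245) (nat_lit 456) (nat_lit 8065933344) (nat_lit 76) (nat_lit 13473447746) (nat_lit 170) (nat_lit 5) (nat_lit 176) (nat_lit 5) (nat_lit 171) (nat_lit 5) (nat_lit 499) (nat_lit 421) (nat_lit 220)))) (XT.nd (nat_lit 78) (nat_lit 380) (nat_lit 0) (XT.lf (nat_lit 0) (nat_lit 4735370680) (nat_lit 456) (nat_lit 464863137) (nat_lit 532) (nat_lit 17233351849) (nat_lit 164) (nat_lit 5) (nat_lit 170) (nat_lit 5) (nat_lit 171) (nat_lit 5) (nat_lit 500) (nat_lit 421) (nat_lit 219)) (XT.nd (nat_lit 78) (nat_lit 380) (nat_lit 0) (XT.lf (nat_lit 0) (nat_lit 9971462384) (nat_lit 532) (nat_lit 4870602861) (nat_lit 76) (nat_lit 7868824395) (nat_lit 164) (nat_lit 5) (nat_lit 171) (nat_lit 5) (nat_lit 165) (nat_lit 5) (nat_lit 501) (nat_lit 421) (nat_lit 218)) (XT.lf (nat_lit 0) (nat_lit 8310604855) (nat_lit 380) (nat_lit 6578533803) (nat_lit 456) (nat_lit 8103581355) (nat_lit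 159) (nat_lit 5) (nat_lit 164) (nat_lit 5) (nat_lit 165) (nat_lit 5) (nat_lit 502) (nat_lit 421) (nat_lit 217))))) (XT.nd (nat_lit 234) (nat_lit 380) (nat_lit 0) (XT.nd (nat_lit 78) (nat_lit 836) (nat_lit 0) (XT.lf (nat_lit 0) (nat_lit 19944111099) (nat_lit 456) (nat_lit 1479219925) (nat_lit 76) (nat_lit 1856077885) (nat_lit 159) (nat_lit 5) (nat_lit 165) (nat_lit 5) (nat_lit 160) (nat_lit 5) (nat_lit 503) (nat_lit 421) (nat_lit 216)) (XT.nd (nat_lit 78) (nat_lit 380) (nat_lit 0) (XT.lf (nat_lit 0) (nat_lit 1625310606) (nat_lit 456) (nat_lit 11486159384) (nat_lit 76) (nat_lit 10457823791) (nat_lit 153) (nat_lit 5) (nat_lit 159) (nat_lit 5) (nat_lit 154) (nat_lit 5) (nat_lit 504) (nat_lit 421) (nat_lit 215)) (XT.lf (nat_lit 0) (nat_lit 2068218494) (nat_lit 380) (nat_lit 4589880225) (nat_lit 456) (nat_lit 17206084884) (nat_lit 148) (nat_lit 5) (nat_lit 153) (nat_lit 5) (nat_lit 154) (nat_lit 5) (nat_lit 505) (nat_lit 421) (nat_lit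 214)))) (XT.nd (nat_lit 78) (nat_lit 380) (nat_lit 0) (XT.lf (nat_lit 0) (nat_lit 11889969026) (nat_lit 456) (nat_lit 8149993645) (nat_lit 76) (nat_lit 4123040730) (nat_lit 148) (nat_lit 5) (nat_lit 154) (nat_lit 5) (nat_lit 149) (nat_lit 5) (nat_lit 506) (nat_lit 421) (nat_lit 213)) (XT.nd (nat_lit 78) (nat_lit 0) (nat_lit 0) (XT.lf (nat_lit 0) (nat_lit 5806018693) (nat_lit 380) (nat_lit 11482868756) (nat_lit 456) (nat_lit 7177664626) (nat_lit 143) (nat_lit 5) (nat_lit 148) (nat_lit 5) (nat_lit 149) (nat_lit 5) (nat_lit 507) (nat_lit 421) (nat_lit 212)) (XT.lf (nat_lit 0) (nat_lit 20143054380) (nat_lit 380) (nat_lit 2701794000) (nat_lit 456) (nat_lit 1930342741) (nat_lit 143) (nat_lit 5) (nat_lit 148) (nat_lit 5) (nat_lit 149) (nat_lit 5) (nat_lit 508) (nat_lit 421) (nat_lit 211))))))) (XT.nd (nat_lit 53196) (nat_lit 0) (nat_lit 26372) (XT.nd (nat_lit 52728) (nat_lit 0) (nat_lit 27740) (XT.nd (nat_lit 234) (nat_lit 304) (nat_lit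 0) (XT.nd (nat_lit 78) (nat_lit 380) (nat_lit 0) (XT.lf (nat_lit 0) (nat_lit 3476113724) (nat_lit 456) (nat_lit 15355236633) (nat_lit 76) (nat_lit 6256227551) (nat_lit 137) (nat_lit 5) (nat_lit 143) (nat_lit 5) (nat_lit 138) (nat_lit 5) (nat_lit 509) (nat_lit 421) (nat_lit 210)) (XT.nd (nat_lit 78) (nat_lit 380) (nat_lit 0) (XT.lf (nat_lit 0) (nat_lit 9008540548) (nat_lit 456) (nat_lit 998088766) (nat_lit 76) (nat_lit 15398454795) (nat_lit 137) (nat_lit 5) (nat_lit 143) (nat_lit 5) (nat_lit 138) (nat_lit 5) (nat_lit 510) (nat_lit 421) (nat_lit 209)) (XT.lf (nat_lit 0) (nat_lit 13819094469) (nat_lit 380) (nat_lit 916834117) (nat_lit 456) (nat_lit 10991326223) (nat_lit 132) (nat_lit 5) (nat_lit 137) (nat_lit 5) (nat_lit 138) (nat_lit 5) (nat_lit 511) (nat_lit 421) (nat_lit 208)))) (XT.nd (nat_lit 52338) (nat_lit 0) (nat_lit 27740) (XT.lf (nat_lit 0) (nat_lit 2865324727) (nat_lit 304) (nat_lit 17786753065) (nat_lit 380) (nat_lit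 5402307482) (nat_lit 128) (nat_lit 5) (nat_lit 132) (nat_lit 5) (nat_lit 133) (nat_lit 5) (nat_lit 512) (nat_lit 421) (nat_lit 207)) (XT.nd (nat_lit 78) (nat_lit 0) (nat_lit 0) (XT.lf (nat_lit 0) (nat_lit 616072329) (nat_lit 0) (nat_lit 616072329) (nat_lit 1596) (nat_lit 3691177319) (nat_lit 493) (nat_lit 5) (nat_lit 493) (nat_lit 3) (nat_lit 514) (nat_lit 3) (nat_lit 422) (nat_lit 422) (nat_lit 296)) (XT.lf (nat_lit 0) (nat_lit 3236008471) (nat_lit 1596) (nat_lit 3836727298) (nat_lit 1672) (nat_lit 2857262829) (nat_lit 493) (nat_lit 5) (nat_lit 514) (nat_lit 3) (nat_lit 515) (nat_lit 5) (nat_lit 423) (nat_lit 422) (nat_lit 295))))) (XT.nd (nat_lit 234) (nat_lit 0) (nat_lit 76) (XT.nd (nat_lit 78) (nat_lit 0) (nat_lit 76) (XT.lf (nat_lit 76) (nat_lit 1031974730) (nat_lit 0) (nat_lit 2987006449) (nat_lit 1672) (nat_lit 5996127239) (nat_lit 494) (nat_lit 5) (nat_lit 493) (nat_lit 5) (nat_lit 515) (nat_lit 5) (nat_lit 424) (nat_lit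 422) (nat_lit 294)) (XT.nd (nat_lit 78) (nat_lit 0) (nat_lit 0) (XT.lf (nat_lit 0) (nat_lit 4832519475) (nat_lit 1596) (nat_lit 4069551944) (nat_lit 1672) (nat_lit 1199555271) (nat_lit 494) (nat_lit 5) (nat_lit 515) (nat_lit 5) (nat_lit 516) (nat_lit 5) (nat_lit 425) (nat_lit 422) (nat_lit 293)) (XT.lf (nat_lit 76) (nat_lit 924477567) (nat_lit 0) (nat_lit 4745325949) (nat_lit 1672) (nat_lit 4519926606) (nat_lit 495) (nat_lit 5) (nat_lit 494) (nat_lit 5) (nat_lit 516) (nat_lit 5) (nat_lit 426) (nat_lit 422) (nat_lit 292)))) (XT.nd (nat_lit 78) (nat_lit 0) (nat_lit 76) (XT.lf (nat_lit 76) (nat_lit 6063451350) (nat_lit 0) (nat_lit 469675305) (nat_lit 1672) (nat_lit 3746287308) (nat_lit 495) (nat_lit 5) (nat_lit 494) (nat_lit 5) (nat_lit 516) (nat_lit 5) (nat_lit 427) (nat_lit 422) (nat_lit 291)) (XT.nd (nat_lit 78) (nat_lit 0) (nat_lit 0) (XT.lf (nat_lit 76) (nat_lit 910680868) (nat_lit 0) (nat_lit 6516602461) (nat_lit 1672) (nat_lit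 2943340935) (nat_lit 496) (nat_lit 5) (nat_lit 495) (nat_lit 5) (nat_lit 517) (nat_lit 5) (nat_lit 428) (nat_lit 422) (nat_lit 290)) (XT.lf (nat_lit 76) (nat_lit 6183611884) (nat_lit 0) (nat_lit 2169759588) (nat_lit 1672) (nat_lit 2110010378) (nat_lit 496) (nat_lit 5) (nat_lit 495) (nat_lit 5) (nat_lit 517) (nat_lit 5) (nat_lit 429) (nat_lit 422) (nat_lit 289)))))) (XT.nd (nat_lit 468) (nat_lit 0) (nat_lit 76) (XT.nd (nat_lit 234) (nat_lit 0) (nat_lit 0) (XT.nd (nat_lit 78) (nat_lit 1596) (nat_lit 0) (XT.lf (nat_lit 76) (nat_lit 991885983) (nat_lit 0) (nat_lit 8310286933) (nat_lit 1672) (nat_lit 1255741807) (nat_lit 497) (nat_lit 5) (nat_lit 496) (nat_lit 5) (nat_lit 518) (nat_lit 5) (nat_lit 430) (nat_lit 422) (nat_lit 288)) (XT.nd (nat_lit 78) (nat_lit 1596) (nat_lit 0) (XT.lf (nat_lit 76) (nat_lit 6402066662) (nat_lit 0) (nat_lit 3894195045) (nat_lit 1672) (nat_lit 357554208) (nat_lit 497) (nat_lit 5) (nat_lit 496) (nat_lit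 5) (nat_lit 518) (nat_lit 5) (nat_lit 431) (nat_lit 422) (nat_lit 287)) (XT.lf (nat_lit 0) (nat_lit 546476370) (nat_lit 1672) (nat_lit 9585664699) (nat_lit 1748) (nat_lit 619521158) (nat_lit 475) (nat_lit 5) (nat_lit 497) (nat_lit 5) (nat_lit 498) (nat_lit 5) (nat_lit 432) (nat_lit 422) (nat_lit 286)))) (XT.nd (nat_lit 78) (nat_lit 0) (nat_lit 0) (XT.lf (nat_lit 0) (nat_lit 1502140539) (nat_lit 1672) (nat_lit 4140187136) (nat_lit 1748) (nat_lit 5208327371) (nat_lit 475) (nat_lit 5) (nat_lit 497) (nat_lit 5) (nat_lit 498) (nat_lit 5) (nat_lit 433) (nat_lit 422) (nat_lit 285)) (XT.nd (nat_lit 78) (nat_lit 0) (nat_lit 76) (XT.lf (nat_lit 76) (nat_lit 1422385309) (nat_lit 0) (nat_lit 1047911238) (nat_lit 1748) (nat_lit 8481467196) (nat_lit 476) (nat_lit 5) (nat_lit 475) (nat_lit 5) (nat_lit 498) (nat_lit 5) (nat_lit 434) (nat_lit 422) (nat_lit 284)) (XT.lf (nat_lit 0) (nat_lit 3493826082) (nat_lit 1672) (nat_lit 3936565540) (nat_lit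 1748) (nat_lit 3623786305) (nat_lit 476) (nat_lit 5) (nat_lit 498) (nat_lit 5) (nat_lit 499) (nat_lit 5) (nat_lit 435) (nat_lit 422) (nat_lit 283))))) (XT.nd (nat_lit 234) (nat_lit 0) (nat_lit 152) (XT.nd (nat_lit 78) (nat_lit 0) (nat_lit 76) (XT.lf (nat_lit 76) (nat_lit 1773889210) (nat_lit 0) (nat_lit 2767120262) (nat_lit 1748) (nat_lit 6617570710) (nat_lit 477) (nat_lit 5) (nat_lit 476) (nat_lit 5) (nat_lit 499) (nat_lit 5) (nat_lit 436) (nat_lit 422) (nat_lit 282)) (XT.nd (nat_lit 78) (nat_lit 0) (nat_lit 0) (XT.lf (nat_lit 0) (nat_lit 5633631897) (nat_lit 1672) (nat_lit 3636523516) (nat_lit 1748) (nat_lit 1994428548) (nat_lit 477) (nat_lit 5) (nat_lit 499) (nat_lit 5) (nat_lit 500) (nat_lit 5) (nat_lit 437) (nat_lit 422) (nat_lit 281)) (XT.lf (nat_lit 76) (nat_lit 2226895928) (nat_lit 0) (nat_lit 4539276374) (nat_lit 1748) (nat_lit 4606177519) (nat_lit 478) (nat_lit 5) (nat_lit 477) (nat_lit 5) (nat_lit 500) (nat_lit 5)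 (nat_lit 438) (nat_lit 422) (nat_lit 280)))) (XT.nd (nat_lit 78) (nat_lit 0) (nat_lit 0) (XT.lf (nat_lit 0) (nat_lit 7933314280) (nat_lit 1672) (nat_lit 3237766626) (nat_lit 1748) (nat_lit 310954334) (nat_lit 478) (nat_lit 5) (nat_lit 500) (nat_lit 5) (nat_lit 501) (nat_lit 5) (nat_lit 439) (nat_lit 422) (nat_lit 279)) (XT.nd (nat_lit 78) (nat_lit 0) (nat_lit 0) (XT.lf (nat_lit 76) (nat_lit 2783895281) (nat_lit 0) (nat_lit 6373851743) (nat_lit 1748) (nat_lit 2435491570) (nat_lit 479) (nat_lit 5) (nat_lit 478) (nat_lit 5) (nat_lit 501) (nat_lit 5) (nat_lit 440) (nat_lit 422) (nat_lit 278)) (XT.lf (nat_lit 76) (nat_lit 8959320173) (nat_lit 0) (nat_lit 1455096620) (nat_lit 1748) (nat_lit 1292097385) (nat_lit 479) (nat_lit 5) (nat_lit 478) (nat_lit 5) (nat_lit 501) (nat_lit 5) (nat_lit 441) (nat_lit 422) (nat_lit 277))))))))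
noncomputable def xc186 : XT := (XT.nd (nat_lit 1794) (nat_lit 8436) (nat_lit 0) (XT.nd (nat_lit 858) (nat_lit 5852) (nat_lit 0) (XT.nd (nat_lit 390) (nat_lit 4028) (nat_lit 0) (XT.nd (nat_lit 156) (nat_lit 0) (nat_lit 76) (XT.nd (nat_lit 78) (nat_lit 1748) (nat_lit 0) (XT.lf (nat_lit 76) (nat_lit 3447636658) (nat_lit 0) (nat_lit 8280411838) (nat_lit 1748) (nat_lit 93373272) (nat_lit 480) (nat_lit 5) (nat_lit 479) (nat_lit 5) (nat_lit 502) (nat_lit 5) (nat_lit 442) (nat_lit 422) (nat_lit 276)) (XT.lf (nat_lit 0) (nat_lit 1129132070) (nat_lit 1748) (nat_lit 2162510957) (nat_lit 1824) (nat_lit 8646548421) (nat_lit 456) (nat_lit 5) (nat_lit 479) (nat_lit 5) (nat_lit 480) (nat_lit 5) (nat_lit 443) (nat_lit 422) (nat_lit 275))) (XT.nd (nat_lit 78) (nat_lit 0) (nat_lit 0) (XT.lf (nat_lit 0) (nat_lit 2400779419) (nat_lit 1748) (nat_lit 7851750089) (nat_lit 1824) (nat_lit 1804238716) (nat_lit 457) (nat_lit 5) (nat_lit 480) (nat_lit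 5) (nat_lit 481) (nat_lit 5) (nat_lit 444) (nat_lit 422) (nat_lit 274)) (XT.nd (nat_lit 78) (nat_lit 0) (nat_lit 0) (XT.lf (nat_lit 0) (nat_lit 3721166993) (nat_lit 1748) (nat_lit 1480876121) (nat_lit 1824) (nat_lit 6975210108) (nat_lit 457) (nat_lit 5) (nat_lit 480) (nat_lit 5) (nat_lit 481) (nat_lit 5) (nat_lit 445) (nat_lit 422) (nat_lit 273)) (XT.lf (nat_lit 76) (nat_lit 5073398993) (nat_lit 0) (nat_lit 14660674) (nat_lit 1824) (nat_lit 7211689083) (nat_lit 458) (nat_lit 5) (nat_lit 457) (nat_lit 5) (nat_lit 481) (nat_lit 5) (nat_lit 446) (nat_lit 422) (nat_lit 272))))) (XT.nd (nat_lit 234) (nat_lit 988) (nat_lit 0) (XT.nd (nat_lit 78) (nat_lit 3192) (nat_lit 0) (XT.lf (nat_lit 0) (nat_lit 6513907127) (nat_lit 1748) (nat_lit 690741757) (nat_lit 76) (nat_lit 5219415688) (nat_lit 458) (nat_lit 5) (nat_lit 481) (nat_lit 5) (nat_lit 459) (nat_lit 5) (nat_lit 447) (nat_lit 422) (nat_lit 271)) (XT.nd (nat_lit 78) (nat_lit 1444)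 (nat_lit 0) (XT.lf (nat_lit 0) (nat_lit 6044207632) (nat_lit 1748) (nat_lit 1951007258) (nat_lit 1824) (nat_lit 4555115623) (nat_lit 435) (nat_lit 5) (nat_lit 458) (nat_lit 5) (nat_lit 459) (nat_lit 5) (nat_lit 448) (nat_lit 422) (nat_lit 270)) (XT.lf (nat_lit 0) (nat_lit 214108842) (nat_lit 1444) (nat_lit 9308010796) (nat_lit 1520) (nat_lit 3156685334) (nat_lit 416) (nat_lit 5) (nat_lit 435) (nat_lit 5) (nat_lit 436) (nat_lit 5) (nat_lit 449) (nat_lit 422) (nat_lit 269)))) (XT.nd (nat_lit 78) (nat_lit 988) (nat_lit 0) (XT.lf (nat_lit 0) (nat_lit 7133182170) (nat_lit 1444) (nat_lit 3990835240) (nat_lit 1520) (nat_lit 1684944976) (nat_lit 416) (nat_lit 5) (nat_lit 435) (nat_lit 5) (nat_lit 436) (nat_lit 5) (nat_lit 450) (nat_lit 422) (nat_lit 268)) (XT.nd (nat_lit 78) (nat_lit 76) (nat_lit 0) (XT.lf (nat_lit 0) (nat_lit 1245242420) (nat_lit 912) (nat_lit 11518302287) (nat_lit 988) (nat_lit 178068926) (nat_lit 404) (nat_lit 5)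 (nat_lit 416) (nat_lit 5) (nat_lit 417) (nat_lit 5) (nat_lit 451) (nat_lit 422) (nat_lit 267)) (XT.lf (nat_lit 0) (nat_lit 1394178400) (nat_lit 988) (nat_lit 4740827634) (nat_lit 76) (nat_lit 6940676694) (nat_lit 403) (nat_lit 5) (nat_lit 416) (nat_lit 5) (nat_lit 404) (nat_lit 5) (nat_lit 452) (nat_lit 422) (nat_lit 266)))))) (XT.nd (nat_lit 468) (nat_lit 3192) (nat_lit 0) (XT.nd (nat_lit 234) (nat_lit 836) (nat_lit 0) (XT.nd (nat_lit 78) (nat_lit 912) (nat_lit 0) (XT.lf (nat_lit 0) (nat_lit 2373195073) (nat_lit 912) (nat_lit 626218979) (nat_lit 988) (nat_lit 10212919428) (nat_lit 391) (nat_lit 5) (nat_lit 403) (nat_lit 5) (nat_lit 404) (nat_lit 5) (nat_lit 453) (nat_lit 422) (nat_lit 265)) (XT.nd (nat_lit 78) (nat_lit 912) (nat_lit 0) (XT.lf (nat_lit 0) (nat_lit 4689874136) (nat_lit 988) (nat_lit 3700688391) (nat_lit 76) (nat_lit 4960094648) (nat_lit 391) (nat_lit 5) (nat_lit 404) (nat_lit 5) (nat_lit 392) (nat_lit 5) (nat_lit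 454) (nat_lit 422) (nat_lit 264)) (XT.lf (nat_lit 0) (nat_lit 3613240480) (nat_lit 912) (nat_lit 2817410994) (nat_lit 988) (nat_lit 7060767988) (nat_lit 379) (nat_lit 5) (nat_lit 391) (nat_lit 5) (nat_lit 392) (nat_lit 5) (nat_lit 455) (nat_lit 422) (nat_lit 263)))) (XT.nd (nat_lit 78) (nat_lit 836) (nat_lit 0) (XT.lf (nat_lit 0) (nat_lit 8238912381) (nat_lit 988) (nat_lit 2540355225) (nat_lit 76) (nat_lit 2855078260) (nat_lit 379) (nat_lit 5) (nat_lit 392) (nat_lit 5) (nat_lit 380) (nat_lit 5) (nat_lit 456) (nat_lit 422) (nat_lit 262)) (XT.nd (nat_lit 78) (nat_lit 0) (nat_lit 0) (XT.lf (nat_lit 0) (nat_lit 4980408761) (nat_lit 836) (nat_lit 5143193046) (nat_lit 912) (nat_lit 3655725916) (nat_lit 368) (nat_lit 5) (nat_lit 379) (nat_lit 5) (nat_lit 380) (nat_lit 5) (nat_lit 457) (nat_lit 422) (nat_lit 261)) (XT.lf (nat_lit 0) (nat_lit 12056489856) (nat_lit 912) (nat_lit 1255512943) (nat_lit 76) (nat_lit 614998467) (nat_lit 368)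 (nat_lit 5) (nat_lit 380) (nat_lit 5) (nat_lit 369) (nat_lit 5) (nat_lit 458) (nat_lit 422) (nat_lit 260))))) (XT.nd (nat_lit 234) (nat_lit 1520) (nat_lit 0) (XT.nd (nat_lit 78) (nat_lit 760) (nat_lit 0) (XT.lf (nat_lit 0) (nat_lit 17240131) (nat_lit 912) (nat_lit 7597166537) (nat_lit 76) (nat_lit 6461906469) (nat_lit 356) (nat_lit 5) (nat_lit 368) (nat_lit 5) (nat_lit 357) (nat_lit 5) (nat_lit 459) (nat_lit 422) (nat_lit 259)) (XT.nd (nat_lit 78) (nat_lit 0) (nat_lit 0) (XT.lf (nat_lit 0) (nat_lit 135929579) (nat_lit 760) (nat_lit 1780844792) (nat_lit 836) (nat_lit 12311610139) (nat_lit 346) (nat_lit 5) (nat_lit 356) (nat_lit 5) (nat_lit 357) (nat_lit 5) (nat_lit 460) (nat_lit 422) (nat_lit 258)) (XT.lf (nat_lit 0) (nat_lit 3922508291) (nat_lit 836) (nat_lit 6293836840) (nat_lit 76) (nat_lit 4165789981) (nat_lit 346) (nat_lit 5) (nat_lit 357) (nat_lit 5) (nat_lit 347) (nat_lit 5) (nat_lit 461) (nat_lit 422) (nat_lit 257))))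 (XT.nd (nat_lit 78) (nat_lit 760) (nat_lit 0) (XT.lf (nat_lit 0) (nat_lit 1660323316) (nat_lit 760) (nat_lit 4320626730) (nat_lit 836) (nat_lit 8557760763) (nat_lit 336) (nat_lit 5) (nat_lit 346) (nat_lit 5) (nat_lit 347) (nat_lit 5) (nat_lit 462) (nat_lit 422) (nat_lit 256)) (XT.nd (nat_lit 78) (nat_lit 760) (nat_lit 0) (XT.lf (nat_lit 0) (nat_lit 8124212321) (nat_lit 836) (nat_lit 4860503162) (nat_lit 76) (nat_lit 1712831408) (nat_lit 336) (nat_lit 5) (nat_lit 347) (nat_lit 5) (nat_lit 337) (nat_lit 5) (nat_lit 463) (nat_lit 422) (nat_lit 255)) (XT.lf (nat_lit 0) (nat_lit 3322366204) (nat_lit 760) (nat_lit 7028496209) (nat_lit 836) (nat_lit 4507888700) (nat_lit 326) (nat_lit 5) (nat_lit 336) (nat_lit 5) (nat_lit 337) (nat_lit 5) (nat_lit 464) (nat_lit 422) (nat_lit 254))))))) (XT.nd (nat_lit 936) (nat_lit 4180) (nat_lit 0) (XT.nd (nat_lit 468) (nat_lit 2052) (nat_lit 0) (XT.nd (nat_lit 234) (nat_lit 1368) (nat_lit 0) (XT.nd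 (nat_lit 78) (nat_lit 836) (nat_lit 0) (XT.lf (nat_lit 0) (nat_lit 11724513677) (nat_lit 760) (nat_lit 920609311) (nat_lit 836) (nat_lit 2377596713) (nat_lit 326) (nat_lit 5) (nat_lit 336) (nat_lit 5) (nat_lit 337) (nat_lit 5) (nat_lit 465) (nat_lit 422) (nat_lit 253)) (XT.nd (nat_lit 78) (nat_lit 76) (nat_lit 0) (XT.lf (nat_lit 0) (nat_lit 5127261385) (nat_lit 760) (nat_lit 9916412716) (nat_lit 836) (nat_lit 145127250) (nat_lit 316) (nat_lit 5) (nat_lit 326) (nat_lit 5) (nat_lit 327) (nat_lit 5) (nat_lit 466) (nat_lit 422) (nat_lit 252)) (XT.lf (nat_lit 0) (nat_lit 2123103981) (nat_lit 836) (nat_lit 1622206973) (nat_lit 76) (nat_lit 11612237084) (nat_lit 315) (nat_lit 5) (nat_lit 326) (nat_lit 5) (nat_lit 316) (nat_lit 5) (nat_lit 467) (nat_lit 422) (nat_lit 251)))) (XT.nd (nat_lit 78) (nat_lit 684) (nat_lit 0) (XT.lf (nat_lit 0) (nat_lit 4488380813) (nat_lit 760) (nat_lit 8478231685) (nat_lit 76) (nat_lit 2561967182) (nat_lit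 306) (nat_lit 5) (nat_lit 316) (nat_lit 5) (nat_lit 307) (nat_lit 5) (nat_lit 468) (nat_lit 422) (nat_lit 250)) (XT.nd (nat_lit 78) (nat_lit 0) (nat_lit 0) (XT.lf (nat_lit 0) (nat_lit 182839657) (nat_lit 684) (nat_lit 6746059143) (nat_lit 760) (nat_lit 8773576101) (nat_lit 297) (nat_lit 5) (nat_lit 306) (nat_lit 5) (nat_lit 307) (nat_lit 5) (nat_lit 469) (nat_lit 422) (nat_lit 249)) (XT.lf (nat_lit 0) (nat_lit 9121912166) (nat_lit 684) (nat_lit 344306399) (nat_lit 760) (nat_lit 6412671261) (nat_lit 297) (nat_lit 5) (nat_lit 306) (nat_lit 5) (nat_lit 307) (nat_lit 5) (nat_lit 470) (nat_lit 422) (nat_lit 248))))) (XT.nd (nat_lit 234) (nat_lit 608) (nat_lit 0) (XT.nd (nat_lit 78) (nat_lit 760) (nat_lit 0) (XT.lf (nat_lit 0) (nat_lit 2158973922) (nat_lit 684) (nat_lit 9940753199) (nat_lit 760) (nat_lit 3958198676) (nat_lit 288) (nat_lit 5) (nat_lit 297) (nat_lit 5) (nat_lit 298) (nat_lit 5) (nat_lit 471) (nat_lit 422) (nat_lit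 247)) (XT.nd (nat_lit 78) (nat_lit 760) (nat_lit 0) (XT.lf (nat_lit 0) (nat_lit 11332478977) (nat_lit 684) (nat_lit 3492405623) (nat_lit 760) (nat_lit 1414879875) (nat_lit 288) (nat_lit 5) (nat_lit 297) (nat_lit 5) (nat_lit 298) (nat_lit 5) (nat_lit 472) (nat_lit 422) (nat_lit 246)) (XT.lf (nat_lit 0) (nat_lit 1203514572) (nat_lit 760) (nat_lit 12141928521) (nat_lit 76) (nat_lit 3078851679) (nat_lit 278) (nat_lit 5) (nat_lit 288) (nat_lit 5) (nat_lit 279) (nat_lit 5) (nat_lit 473) (nat_lit 422) (nat_lit 245)))) (XT.nd (nat_lit 78) (nat_lit 608) (nat_lit 0) (XT.lf (nat_lit 0) (nat_lit 3903201902) (nat_lit 760) (nat_lit 2932303091) (nat_lit 76) (nat_lit 9775867704) (nat_lit 278) (nat_lit 5) (nat_lit 288) (nat_lit 5) (nat_lit 279) (nat_lit 5) (nat_lit 474) (nat_lit 422) (nat_lit 244)) (XT.nd (nat_lit 78) (nat_lit 0) (nat_lit 0) (XT.lf (nat_lit 0) (nat_lit 6537391216) (nat_lit 608) (nat_lit 153677487) (nat_lit 684) (nat_lit 10110441206)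 (nat_lit 270) (nat_lit 5) (nat_lit 278) (nat_lit 5) (nat_lit 279) (nat_lit 5) (nat_lit 475) (nat_lit 422) (nat_lit 243)) (XT.lf (nat_lit 0) (nat_lit 9589581543) (nat_lit 684) (nat_lit 812163638) (nat_lit 76) (nat_lit 6592608329) (nat_lit 270) (nat_lit 5) (nat_lit 279) (nat_lit 5) (nat_lit 271) (nat_lit 5) (nat_lit 476) (nat_lit 422) (nat_lit 242)))))) (XT.nd (nat_lit 468) (nat_lit 1748) (nat_lit 0) (XT.nd (nat_lit 234) (nat_lit 1140) (nat_lit 0) (XT.nd (nat_lit 78) (nat_lit 684) (nat_lit 0) (XT.lf (nat_lit 0) (nat_lit 8935243429) (nat_lit 608) (nat_lit 3661841049) (nat_lit 684) (nat_lit 4592950494) (nat_lit 262) (nat_lit 5) (nat_lit 270) (nat_lit 5) (nat_lit 271) (nat_lit 5) (nat_lit 477) (nat_lit 422) (nat_lit 241)) (XT.nd (nat_lit 78) (nat_lit 76) (nat_lit 0) (XT.lf (nat_lit 0) (nat_lit 1487863469) (nat_lit 608) (nat_lit 14204951578) (nat_lit 684) (nat_lit 1696254828) (nat_lit 254) (nat_lit 5) (nat_lit 262) (nat_lit 5) (nat_lit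 263) (nat_lit 5) (nat_lit 478) (nat_lit 422) (nat_lit 240)) (XT.lf (nat_lit 0) (nat_lit 1313992376) (nat_lit 684) (nat_lit 6096379890) (nat_lit 76) (nat_lit 10180108683) (nat_lit 253) (nat_lit 5) (nat_lit 262) (nat_lit 5) (nat_lit 254) (nat_lit 5) (nat_lit 479) (nat_lit 422) (nat_lit 239)))) (XT.nd (nat_lit 78) (nat_lit 532) (nat_lit 0) (XT.lf (nat_lit 0) (nat_lit 3935232633) (nat_lit 608) (nat_lit 444335108) (nat_lit 684) (nat_lit 13415772822) (nat_lit 245) (nat_lit 5) (nat_lit 253) (nat_lit 5) (nat_lit 254) (nat_lit 5) (nat_lit 480) (nat_lit 422) (nat_lit 238)) (XT.nd (nat_lit 78) (nat_lit 532) (nat_lit 0) (XT.lf (nat_lit 0) (nat_lit 7583224272) (nat_lit 684) (nat_lit 3806648358) (nat_lit 76) (nat_lit 6612890604) (nat_lit 245) (nat_lit 5) (nat_lit 254) (nat_lit 5) (nat_lit 246) (nat_lit 5) (nat_lit 481) (nat_lit 422) (nat_lit 237)) (XT.lf (nat_lit 0) (nat_lit 6520885944) (nat_lit 532) (nat_lit 4367839731) (nat_lit 608) (nat_lit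 7324854480) (nat_lit 238) (nat_lit 5) (nat_lit 245) (nat_lit 5) (nat_lit 246) (nat_lit 5) (nat_lit 482) (nat_lit 422) (nat_lit 236))))) (XT.nd (nat_lit 234) (nat_lit 532) (nat_lit 0) (XT.nd (nat_lit 78) (nat_lit 1216) (nat_lit 0) (XT.lf (nat_lit 0) (nat_lit 14296758637) (nat_lit 608) (nat_lit 1349492819) (nat_lit 76) (nat_lit 2781634737) (nat_lit 238) (nat_lit 5) (nat_lit 246) (nat_lit 5) (nat_lit 239) (nat_lit 5) (nat_lit 483) (nat_lit 422) (nat_lit 235)) (XT.nd (nat_lit 78) (nat_lit 608) (nat_lit 0) (XT.lf (nat_lit 0) (nat_lit 9283948771) (nat_lit 608) (nat_lit 8570916081) (nat_lit 684) (nat_lit 789976434) (nat_lit 230) (nat_lit 5) (nat_lit 238) (nat_lit 5) (nat_lit 239) (nat_lit 5) (nat_lit 484) (nat_lit 422) (nat_lit 234)) (XT.lf (nat_lit 0) (nat_lit 1272535580) (nat_lit 532) (nat_lit 1321246561) (nat_lit 608) (nat_lit 16271812124) (nat_lit 222) (nat_lit 5) (nat_lit 229) (nat_lit 5) (nat_lit 230) (nat_lit 5) (nat_lit 485)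 (nat_lit 422) (nat_lit 233)))) (XT.nd (nat_lit 78) (nat_lit 532) (nat_lit 0) (XT.lf (nat_lit 0) (nat_lit 6130121617) (nat_lit 608) (nat_lit 6898625979) (nat_lit 76) (nat_lit 6060001718) (nat_lit 222) (nat_lit 5) (nat_lit 230) (nat_lit 5) (nat_lit 223) (nat_lit 5) (nat_lit 486) (nat_lit 422) (nat_lit 232)) (XT.nd (nat_lit 78) (nat_lit 0) (nat_lit 0) (XT.lf (nat_lit 0) (nat_lit 4044617444) (nat_lit 532) (nat_lit 5720530224) (nat_lit 608) (nat_lit 9550661696) (nat_lit 215) (nat_lit 5) (nat_lit 222) (nat_lit 5) (nat_lit 223) (nat_lit 5) (nat_lit 487) (nat_lit 422) (nat_lit 231)) (XT.lf (nat_lit 0) (nat_lit 13523743611) (nat_lit 608) (nat_lit 4267247727) (nat_lit 76) (nat_lit 1755402963) (nat_lit 215) (nat_lit 5) (nat_lit 223) (nat_lit 5) (nat_lit 216) (nat_lit 5) (nat_lit 488) (nat_lit 422) (nat_lit 230))))))))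
noncomputable def xc187 : XT := (XT.nd (nat_lit 1794) (nat_lit 380) (nat_lit 0) (XT.nd (nat_lit 858) (nat_lit 2584) (nat_lit 0) (XT.nd (nat_lit 390) (nat_lit 1824) (nat_lit 0) (XT.nd (nat_lit 156) (nat_lit 988) (nat_lit 0) (XT.nd (nat_lit 78) (nat_lit 76) (nat_lit 0) (XT.lf (nat_lit 0) (nat_lit 7001464038) (nat_lit 456) (nat_lit 10432538972) (nat_lit 532) (nat_lit 2346059148) (nat_lit 209) (nat_lit 5) (nat_lit 215) (nat_lit 5) (nat_lit 216) (nat_lit 5) (nat_lit 489) (nat_lit 422) (nat_lit 229)) (XT.lf (nat_lit 0) (nat_lit 1407652630) (nat_lit 532) (nat_lit 1483025980) (nat_lit 76) (nat_lit 17127103393) (nat_lit 208) (nat_lit 5) (nat_lit 215) (nat_lit 5) (nat_lit 209) (nat_lit 5) (nat_lit 490) (nat_lit 422) (nat_lit 228))) (XT.nd (nat_lit 78) (nat_lit 456) (nat_lit 0) (XT.lf (nat_lit 0) (nat_lit 5295947693) (nat_lit 608) (nat_lit 10143566136) (nat_lit 76) (nat_lit 4818614801) (nat_lit 201) (nat_lit 5) (nat_lit 209) (nat_lit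 5) (nat_lit 202) (nat_lit 5) (nat_lit 491) (nat_lit 422) (nat_lit 227)) (XT.nd (nat_lit 78) (nat_lit 0) (nat_lit 0) (XT.lf (nat_lit 0) (nat_lit 1451794556) (nat_lit 456) (nat_lit 7842169779) (nat_lit 532) (nat_lit 11208679714) (nat_lit 195) (nat_lit 5) (nat_lit 201) (nat_lit 5) (nat_lit 202) (nat_lit 5) (nat_lit 492) (nat_lit 422) (nat_lit 226)) (XT.lf (nat_lit 0) (nat_lit 13407462517) (nat_lit 456) (nat_lit 25986725) (nat_lit 532) (nat_lit 7317371329) (nat_lit 195) (nat_lit 5) (nat_lit 201) (nat_lit 5) (nat_lit 202) (nat_lit 5) (nat_lit 493) (nat_lit 422) (nat_lit 225))))) (XT.nd (nat_lit 234) (nat_lit 836) (nat_lit 0) (XT.nd (nat_lit 78) (nat_lit 532) (nat_lit 0) (XT.lf (nat_lit 0) (nat_lit 4597958517) (nat_lit 456) (nat_lit 13132764158) (nat_lit 532) (nat_lit 3271738907) (nat_lit 189) (nat_lit 5) (nat_lit 195) (nat_lit 5) (nat_lit 196) (nat_lit 5) (nat_lit 494) (nat_lit 422) (nat_lit 224)) (XT.nd (nat_lit 78) (nat_lit 456)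 (nat_lit 0) (XT.lf (nat_lit 0) (nat_lit 886948230) (nat_lit 532) (nat_lit 4395616191) (nat_lit 76) (nat_lit 15975593829) (nat_lit 188) (nat_lit 5) (nat_lit 195) (nat_lit 5) (nat_lit 189) (nat_lit 5) (nat_lit 495) (nat_lit 422) (nat_lit 223)) (XT.lf (nat_lit 0) (nat_lit 5148368332) (nat_lit 532) (nat_lit 13608930079) (nat_lit 76) (nat_lit 2759971442) (nat_lit 182) (nat_lit 5) (nat_lit 189) (nat_lit 5) (nat_lit 183) (nat_lit 5) (nat_lit 496) (nat_lit 422) (nat_lit 222)))) (XT.nd (nat_lit 78) (nat_lit 836) (nat_lit 0) (XT.lf (nat_lit 0) (nat_lit 9553445005) (nat_lit 532) (nat_lit 1307127419) (nat_lit 76) (nat_lit 10919823565) (nat_lit 182) (nat_lit 5) (nat_lit 189) (nat_lit 5) (nat_lit 183) (nat_lit 5) (nat_lit 497) (nat_lit 422) (nat_lit 221)) (XT.nd (nat_lit 78) (nat_lit 380) (nat_lit 0) (XT.lf (nat_lit 0) (nat_lit 11381220152) (nat_lit 456) (nat_lit 2733172053) (nat_lit 532) (nat_lit 7933037907) (nat_lit 176) (nat_lit 5) (nat_lit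 182) (nat_lit 5) (nat_lit 183) (nat_lit 5) (nat_lit 498) (nat_lit 422) (nat_lit 220)) (XT.lf (nat_lit 0) (nat_lit 2002748472) (nat_lit 380) (nat_lit 16815641983) (nat_lit 456) (nat_lit 3500378652) (nat_lit 171) (nat_lit 5) (nat_lit 176) (nat_lit 5) (nat_lit 177) (nat_lit 5) (nat_lit 499) (nat_lit 422) (nat_lit 219)))))) (XT.nd (nat_lit 468) (nat_lit 1216) (nat_lit 0) (XT.nd (nat_lit 234) (nat_lit 836) (nat_lit 0) (XT.nd (nat_lit 78) (nat_lit 456) (nat_lit 0) (XT.lf (nat_lit 0) (nat_lit 1091637237) (nat_lit 456) (nat_lit 7558465650) (nat_lit 76) (nat_lit 13943618356) (nat_lit 170) (nat_lit 5) (nat_lit 176) (nat_lit 5) (nat_lit 171) (nat_lit 5) (nat_lit 500) (nat_lit 422) (nat_lit 218)) (XT.nd (nat_lit 78) (nat_lit 0) (nat_lit 0) (XT.lf (nat_lit 0) (nat_lit 5494464544) (nat_lit 456) (nat_lit 263937926) (nat_lit 532) (nat_lit 17114712401) (nat_lit 164) (nat_lit 5) (nat_lit 170) (nat_lit 5) (nat_lit 171) (nat_lit 5) (nat_lit 501)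 (nat_lit 422) (nat_lit 217)) (XT.lf (nat_lit 0) (nat_lit 10617488574) (nat_lit 532) (nat_lit 4309030552) (nat_lit 76) (nat_lit 8229598302) (nat_lit 164) (nat_lit 5) (nat_lit 171) (nat_lit 5) (nat_lit 165) (nat_lit 5) (nat_lit 502) (nat_lit 422) (nat_lit 216)))) (XT.nd (nat_lit 78) (nat_lit 456) (nat_lit 0) (XT.lf (nat_lit 0) (nat_lit 9131465896) (nat_lit 380) (nat_lit 6497546091) (nat_lit 456) (nat_lit 7814663689) (nat_lit 159) (nat_lit 5) (nat_lit 164) (nat_lit 5) (nat_lit 165) (nat_lit 5) (nat_lit 503) (nat_lit 422) (nat_lit 215)) (XT.nd (nat_lit 78) (nat_lit 456) (nat_lit 0) (XT.lf (nat_lit 0) (nat_lit 20777768444) (nat_lit 456) (nat_lit 859620390) (nat_lit 76) (nat_lit 2098856939) (nat_lit 159) (nat_lit 5) (nat_lit 165) (nat_lit 5) (nat_lit 160) (nat_lit 5) (nat_lit 504) (nat_lit 422) (nat_lit 214)) (XT.lf (nat_lit 0) (nat_lit 2091158719) (nat_lit 456) (nat_lit 11065157055) (nat_lit 76) (nat_lit 10875643400) (nat_lit 153)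 (nat_lit 5) (nat_lit 159) (nat_lit 5) (nat_lit 154) (nat_lit 5) (nat_lit 505) (nat_lit 422) (nat_lit 213))))) (XT.nd (nat_lit 234) (nat_lit 456) (nat_lit 0) (XT.nd (nat_lit 78) (nat_lit 380) (nat_lit 0) (XT.lf (nat_lit 0) (nat_lit 2756027291) (nat_lit 380) (nat_lit 4464275549) (nat_lit 456) (nat_lit 17112531000) (nat_lit 148) (nat_lit 5) (nat_lit 153) (nat_lit 5) (nat_lit 154) (nat_lit 5) (nat_lit 506) (nat_lit 422) (nat_lit 212)) (XT.nd (nat_lit 78) (nat_lit 380) (nat_lit 0) (XT.lf (nat_lit 0) (nat_lit 12549781805) (nat_lit 456) (nat_lit 7672144162) (nat_lit 76) (nat_lit 4415845673) (nat_lit 148) (nat_lit 5) (nat_lit 154) (nat_lit 5) (nat_lit 149) (nat_lit 5) (nat_lit 507) (nat_lit 422) (nat_lit 211)) (XT.lf (nat_lit 0) (nat_lit 6558772308) (nat_lit 380) (nat_lit 11493764961) (nat_lit 456) (nat_lit 6894937856) (nat_lit 143) (nat_lit 5) (nat_lit 148) (nat_lit 5) (nat_lit 149) (nat_lit 5) (nat_lit 508) (nat_lit 422) (nat_lit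 210)))) (XT.nd (nat_lit 78) (nat_lit 456) (nat_lit 0) (XT.lf (nat_lit 0) (nat_lit 21170065704) (nat_lit 380) (nat_lit 2541358144) (nat_lit 456) (nat_lit 1551027966) (nat_lit 143) (nat_lit 5) (nat_lit 148) (nat_lit 5) (nat_lit 149) (nat_lit 5) (nat_lit 509) (nat_lit 422) (nat_lit 209)) (XT.nd (nat_lit 78) (nat_lit 0) (nat_lit 0) (XT.lf (nat_lit 0) (nat_lit 3955460549) (nat_lit 456) (nat_lit 15029997826) (nat_lit 76) (nat_lit 6595626965) (nat_lit 137) (nat_lit 5) (nat_lit 143) (nat_lit 5) (nat_lit 138) (nat_lit 5) (nat_lit 510) (nat_lit 422) (nat_lit 208)) (XT.lf (nat_lit 0) (nat_lit 9590500133) (nat_lit 456) (nat_lit 398105895) (nat_lit 76) (nat_lit 15916497286) (nat_lit 137) (nat_lit 5) (nat_lit 143) (nat_lit 5) (nat_lit 138) (nat_lit 5) (nat_lit 511) (nat_lit 422) (nat_lit 207))))))) (XT.nd (nat_lit 53274) (nat_lit 0) (nat_lit 24624) (XT.nd (nat_lit 52806) (nat_lit 0) (nat_lit 25992) (XT.nd (nat_lit 52572) (nat_lit 0) (nat_lit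 27436) (XT.nd (nat_lit 52416) (nat_lit 0) (nat_lit 27436) (XT.lf (nat_lit 0) (nat_lit 14711342422) (nat_lit 380) (nat_lit 717213911) (nat_lit 456) (nat_lit 10805239605) (nat_lit 132) (nat_lit 5) (nat_lit 137) (nat_lit 5) (nat_lit 138) (nat_lit 5) (nat_lit 512) (nat_lit 422) (nat_lit 206)) (XT.nd (nat_lit 78) (nat_lit 0) (nat_lit 0) (XT.lf (nat_lit 0) (nat_lit 990168782) (nat_lit 0) (nat_lit 990168782) (nat_lit 1596) (nat_lit 3026810688) (nat_lit 493) (nat_lit 5) (nat_lit 493) (nat_lit 3) (nat_lit 514) (nat_lit 3) (nat_lit 423) (nat_lit 423) (nat_lit 294)) (XT.lf (nat_lit 0) (nat_lit 4714848503) (nat_lit 1596) (nat_lit 3170787228) (nat_lit 1672) (nat_lit 2214348748) (nat_lit 493) (nat_lit 5) (nat_lit 514) (nat_lit 3) (nat_lit 515) (nat_lit 5) (nat_lit 424) (nat_lit 423) (nat_lit 293)))) (XT.nd (nat_lit 78) (nat_lit 0) (nat_lit 76) (XT.lf (nat_lit 76) (nat_lit 1790402825) (nat_lit 0) (nat_lit 3700140214) (nat_lit 1672) (nat_lit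 4696718713) (nat_lit 494) (nat_lit 5) (nat_lit 493) (nat_lit 5) (nat_lit 515) (nat_lit 5) (nat_lit 425) (nat_lit 423) (nat_lit 292)) (XT.nd (nat_lit 78) (nat_lit 0) (nat_lit 0) (XT.lf (nat_lit 0) (nat_lit 6288914933) (nat_lit 1596) (nat_lit 3395864846) (nat_lit 1672) (nat_lit 591365730) (nat_lit 494) (nat_lit 5) (nat_lit 515) (nat_lit 5) (nat_lit 516) (nat_lit 5) (nat_lit 426) (nat_lit 423) (nat_lit 291)) (XT.lf (nat_lit 76) (nat_lit 1693077637) (nat_lit 0) (nat_lit 5428075566) (nat_lit 1672) (nat_lit 3245299886) (nat_lit 495) (nat_lit 5) (nat_lit 494) (nat_lit 5) (nat_lit 516) (nat_lit 5) (nat_lit 427) (nat_lit 423) (nat_lit 290))))) (XT.nd (nat_lit 234) (nat_lit 1520) (nat_lit 0) (XT.nd (nat_lit 78) (nat_lit 0) (nat_lit 76) (XT.lf (nat_lit 76) (nat_lit 6920122845) (nat_lit 0) (nat_lit 1055385573) (nat_lit 1672) (nat_lit 2482953004) (nat_lit 495) (nat_lit 5) (nat_lit 494) (nat_lit 5) (nat_lit 516) (nat_lit 5) (nat_lit 428)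 (nat_lit 423) (nat_lit 289)) (XT.nd (nat_lit 78) (nat_lit 0) (nat_lit 0) (XT.lf (nat_lit 76) (nat_lit 1689542202) (nat_lit 0) (nat_lit 7173556207) (nat_lit 1672) (nat_lit 1688892525) (nat_lit 496) (nat_lit 5) (nat_lit 495) (nat_lit 5) (nat_lit 517) (nat_lit 5) (nat_lit 429) (nat_lit 423) (nat_lit 288)) (XT.lf (nat_lit 76) (nat_lit 7053017177) (nat_lit 0) (nat_lit 2729450562) (nat_lit 1672) (nat_lit 864646636) (nat_lit 496) (nat_lit 5) (nat_lit 495) (nat_lit 5) (nat_lit 517) (nat_lit 5) (nat_lit 430) (nat_lit 423) (nat_lit 287)))) (XT.nd (nat_lit 78) (nat_lit 1672) (nat_lit 0) (XT.lf (nat_lit 76) (nat_lit 1781247820) (nat_lit 0) (nat_lit 8945961583) (nat_lit 1672) (nat_lit 16794994) (nat_lit 497) (nat_lit 5) (nat_lit 496) (nat_lit 5) (nat_lit 518) (nat_lit 5) (nat_lit 431) (nat_lit 423) (nat_lit 286)) (XT.nd (nat_lit 78) (nat_lit 0) (nat_lit 76) (XT.lf (nat_lit 0) (nat_lit 863100679) (nat_lit 1672) (nat_lit 3563450045) (nat_lit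 1748) (nat_lit 6415650864) (nat_lit 474) (nat_lit 5) (nat_lit 496) (nat_lit 5) (nat_lit 497) (nat_lit 5) (nat_lit 432) (nat_lit 423) (nat_lit 285)) (XT.lf (nat_lit 0) (nat_lit 1758575979) (nat_lit 1672) (nat_lit 8984286886) (nat_lit 1748) (nat_lit 199537098) (nat_lit 475) (nat_lit 5) (nat_lit 497) (nat_lit 5) (nat_lit 498) (nat_lit 5) (nat_lit 433) (nat_lit 423) (nat_lit 284)))))) (XT.nd (nat_lit 468) (nat_lit 1444) (nat_lit 0) (XT.nd (nat_lit 234) (nat_lit 0) (nat_lit 76) (XT.nd (nat_lit 78) (nat_lit 0) (nat_lit 0) (XT.lf (nat_lit 0) (nat_lit 2709801077) (nat_lit 1672) (nat_lit 3445450578) (nat_lit 1748) (nat_lit 4888597367) (nat_lit 475) (nat_lit 5) (nat_lit 497) (nat_lit 5) (nat_lit 498) (nat_lit 5) (nat_lit 434) (nat_lit 423) (nat_lit 283)) (XT.nd (nat_lit 78) (nat_lit 0) (nat_lit 76) (XT.lf (nat_lit 76) (nat_lit 2223257919) (nat_lit 0) (nat_lit 1455986838) (nat_lit 1748) (nat_lit 7468101876) (nat_lit 476) (nat_lit 5) (nat_lit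 475) (nat_lit 5) (nat_lit 498) (nat_lit 5) (nat_lit 435) (nat_lit 423) (nat_lit 282)) (XT.lf (nat_lit 0) (nat_lit 4698044619) (nat_lit 1672) (nat_lit 3232560860) (nat_lit 1748) (nat_lit 3321712756) (nat_lit 476) (nat_lit 5) (nat_lit 498) (nat_lit 5) (nat_lit 499) (nat_lit 5) (nat_lit 436) (nat_lit 423) (nat_lit 281)))) (XT.nd (nat_lit 78) (nat_lit 0) (nat_lit 76) (XT.lf (nat_lit 76) (nat_lit 2586953407) (nat_lit 0) (nat_lit 3162024877) (nat_lit 1748) (nat_lit 5610179147) (nat_lit 477) (nat_lit 5) (nat_lit 476) (nat_lit 5) (nat_lit 499) (nat_lit 5) (nat_lit 437) (nat_lit 423) (nat_lit 280)) (XT.nd (nat_lit 78) (nat_lit 0) (nat_lit 0) (XT.lf (nat_lit 0) (nat_lit 6839386847) (nat_lit 1672) (nat_lit 2922601603) (nat_lit 1748) (nat_lit 1705779089) (nat_lit 477) (nat_lit 5) (nat_lit 499) (nat_lit 5) (nat_lit 500) (nat_lit 5) (nat_lit 438) (nat_lit 423) (nat_lit 279)) (XT.lf (nat_lit 76) (nat_lit 3052910886) (nat_lit 0) (nat_lit 4925308056)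 (nat_lit 1748) (nat_lit 3599801791) (nat_lit 478) (nat_lit 5) (nat_lit 477) (nat_lit 5) (nat_lit 500) (nat_lit 5) (nat_lit 439) (nat_lit 423) (nat_lit 278))))) (XT.nd (nat_lit 234) (nat_lit 1672) (nat_lit 0) (XT.nd (nat_lit 78) (nat_lit 0) (nat_lit 0) (XT.lf (nat_lit 0) (nat_lit 9145712192) (nat_lit 1672) (nat_lit 2513139548) (nat_lit 1748) (nat_lit 31512687) (nat_lit 478) (nat_lit 5) (nat_lit 500) (nat_lit 5) (nat_lit 501) (nat_lit 5) (nat_lit 440) (nat_lit 423) (nat_lit 277)) (XT.nd (nat_lit 78) (nat_lit 0) (nat_lit 0) (XT.lf (nat_lit 76) (nat_lit 3623762292) (nat_lit 0) (nat_lit 6755301372) (nat_lit 1748) (nat_lit 1425044230) (nat_lit 479) (nat_lit 5) (nat_lit 478) (nat_lit 5) (nat_lit 501) (nat_lit 5) (nat_lit 441) (nat_lit 423) (nat_lit 276)) (XT.lf (nat_lit 76) (nat_lit 9907319425) (nat_lit 0) (nat_lit 1733191291) (nat_lit 1748) (nat_lit 279549949) (nat_lit 479) (nat_lit 5) (nat_lit 478) (nat_lit 5) (nat_lit 501) (nat_lit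 5) (nat_lit 442) (nat_lit 423) (nat_lit 275)))) (XT.nd (nat_lit 78) (nat_lit 0) (nat_lit 0) (XT.lf (nat_lit 0) (nat_lit 914225898) (nat_lit 1748) (nat_lit 7741215685) (nat_lit 1824) (nat_lit 3382037793) (nat_lit 456) (nat_lit 5) (nat_lit 479) (nat_lit 5) (nat_lit 480) (nat_lit 5) (nat_lit 443) (nat_lit 423) (nat_lit 274)) (XT.nd (nat_lit 78) (nat_lit 0) (nat_lit 76) (XT.lf (nat_lit 0) (nat_lit 2140163276) (nat_lit 1748) (nat_lit 1422009449) (nat_lit 1824) (nat_lit 8594799028) (nat_lit 456) (nat_lit 5) (nat_lit 479) (nat_lit 5) (nat_lit 480) (nat_lit 5) (nat_lit 444) (nat_lit 423) (nat_lit 273)) (XT.lf (nat_lit 0) (nat_lit 3421647896) (nat_lit 1748) (nat_lit 7209227340) (nat_lit 1824) (nat_lit 1647360948) (nat_lit 457) (nat_lit 5) (nat_lit 480) (nat_lit 5) (nat_lit 481) (nat_lit 5) (nat_lit 445) (nat_lit 423) (nat_lit 272))))))))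
noncomputable def xc188 : XT := (XT.nd (nat_lit 1794) (nat_lit 8132) (nat_lit 0) (XT.nd (nat_lit 858) (nat_lit 4864) (nat_lit 0) (XT.nd (nat_lit 390) (nat_lit 2812) (nat_lit 0) (XT.nd (nat_lit 156) (nat_lit 3116) (nat_lit 0) (XT.nd (nat_lit 78) (nat_lit 0) (nat_lit 0) (XT.lf (nat_lit 0) (nat_lit 4749367675) (nat_lit 1748) (nat_lit 726613496) (nat_lit 1824) (nat_lit 6925535347) (nat_lit 457) (nat_lit 5) (nat_lit 480) (nat_lit 5) (nat_lit 481) (nat_lit 5) (nat_lit 446) (nat_lit 423) (nat_lit 271)) (XT.lf (nat_lit 76) (nat_lit 5953590013) (nat_lit 0) (nat_lit 176362658) (nat_lit 1824) (nat_lit 6396786239) (nat_lit 458) (nat_lit 5) (nat_lit 457) (nat_lit 5) (nat_lit 481) (nat_lit 5) (nat_lit 447) (nat_lit 423) (nat_lit 270))) (XT.nd (nat_lit 78) (nat_lit 1444) (nat_lit 0) (XT.lf (nat_lit 0) (nat_lit 79600945) (nat_lit 1748) (nat_lit 7485771577) (nat_lit 1824) (nat_lit 5088551383) (nat_lit 435) (nat_lit 5) (nat_lit 458) (nat_lit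 5) (nat_lit 459) (nat_lit 5) (nat_lit 448) (nat_lit 423) (nat_lit 269)) (XT.nd (nat_lit 78) (nat_lit 1444) (nat_lit 0) (XT.lf (nat_lit 0) (nat_lit 6943053279) (nat_lit 1748) (nat_lit 2119735020) (nat_lit 1824) (nat_lit 3720201115) (nat_lit 435) (nat_lit 5) (nat_lit 458) (nat_lit 5) (nat_lit 459) (nat_lit 5) (nat_lit 449) (nat_lit 423) (nat_lit 268)) (XT.lf (nat_lit 0) (nat_lit 1010297954) (nat_lit 1444) (nat_lit 9596451704) (nat_lit 1520) (nat_lit 2307557144) (nat_lit 416) (nat_lit 5) (nat_lit 435) (nat_lit 5) (nat_lit 436) (nat_lit 5) (nat_lit 450) (nat_lit 423) (nat_lit 267))))) (XT.nd (nat_lit 234) (nat_lit 1824) (nat_lit 0) (XT.nd (nat_lit 78) (nat_lit 988) (nat_lit 0) (XT.lf (nat_lit 0) (nat_lit 8052225162) (nat_lit 1444) (nat_lit 4170927133) (nat_lit 1520) (nat_lit 824269467) (nat_lit 416) (nat_lit 5) (nat_lit 435) (nat_lit 5) (nat_lit 436) (nat_lit 5) (nat_lit 451) (nat_lit 423) (nat_lit 266)) (XT.nd (nat_lit 78) (nat_lit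 0) (nat_lit 0) (XT.lf (nat_lit 0) (nat_lit 690607112) (nat_lit 988) (nat_lit 11127858273) (nat_lit 76) (nat_lit 1364427472) (nat_lit 403) (nat_lit 5) (nat_lit 416) (nat_lit 5) (nat_lit 404) (nat_lit 5) (nat_lit 452) (nat_lit 423) (nat_lit 265)) (XT.lf (nat_lit 0) (nat_lit 2274861285) (nat_lit 988) (nat_lit 4050094088) (nat_lit 76) (nat_lit 6995009015) (nat_lit 403) (nat_lit 5) (nat_lit 416) (nat_lit 5) (nat_lit 404) (nat_lit 5) (nat_lit 453) (nat_lit 423) (nat_lit 264)))) (XT.nd (nat_lit 78) (nat_lit 912) (nat_lit 0) (XT.lf (nat_lit 0) (nat_lit 3201040981) (nat_lit 912) (nat_lit 699505872) (nat_lit 988) (nat_lit 9559037849) (nat_lit 391) (nat_lit 5) (nat_lit 403) (nat_lit 5) (nat_lit 404) (nat_lit 5) (nat_lit 454) (nat_lit 423) (nat_lit 263)) (XT.nd (nat_lit 78) (nat_lit 912) (nat_lit 0) (XT.lf (nat_lit 0) (nat_lit 5607936334) (nat_lit 988) (nat_lit 2992572781) (nat_lit 76) (nat_lit 5000506735) (nat_lit 391) (nat_lit 5) (nat_lit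 404) (nat_lit 5) (nat_lit 392) (nat_lit 5) (nat_lit 455) (nat_lit 423) (nat_lit 262)) (XT.lf (nat_lit 0) (nat_lit 4462489078) (nat_lit 912) (nat_lit 2909922780) (nat_lit 988) (nat_lit 6372407188) (nat_lit 379) (nat_lit 5) (nat_lit 391) (nat_lit 5) (nat_lit 392) (nat_lit 5) (nat_lit 456) (nat_lit 423) (nat_lit 261)))))) (XT.nd (nat_lit 468) (nat_lit 2356) (nat_lit 0) (XT.nd (nat_lit 234) (nat_lit 1672) (nat_lit 0) (XT.nd (nat_lit 78) (nat_lit 836) (nat_lit 0) (XT.lf (nat_lit 0) (nat_lit 9200663725) (nat_lit 988) (nat_lit 1813076653) (nat_lit 76) (nat_lit 2877190340) (nat_lit 379) (nat_lit 5) (nat_lit 392) (nat_lit 5) (nat_lit 380) (nat_lit 5) (nat_lit 457) (nat_lit 423) (nat_lit 260)) (XT.nd (nat_lit 78) (nat_lit 0) (nat_lit 0) (XT.lf (nat_lit 0) (nat_lit 5852983628) (nat_lit 836) (nat_lit 5259454999) (nat_lit 912) (nat_lit 2926588938) (nat_lit 368) (nat_lit 5) (nat_lit 379) (nat_lit 5) (nat_lit 380) (nat_lit 5) (nat_lit 458)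 (nat_lit 423) (nat_lit 259)) (XT.lf (nat_lit 0) (nat_lit 13068480237) (nat_lit 912) (nat_lit 507152228) (nat_lit 76) (nat_lit 614335325) (nat_lit 368) (nat_lit 5) (nat_lit 380) (nat_lit 5) (nat_lit 369) (nat_lit 5) (nat_lit 459) (nat_lit 423) (nat_lit 258)))) (XT.nd (nat_lit 78) (nat_lit 760) (nat_lit 0) (XT.lf (nat_lit 0) (nat_lit 783508645) (nat_lit 912) (nat_lit 6970398573) (nat_lit 76) (nat_lit 6588463485) (nat_lit 356) (nat_lit 5) (nat_lit 368) (nat_lit 5) (nat_lit 357) (nat_lit 5) (nat_lit 460) (nat_lit 423) (nat_lit 257)) (XT.nd (nat_lit 78) (nat_lit 0) (nat_lit 0) (XT.lf (nat_lit 0) (nat_lit 912236363) (nat_lit 760) (nat_lit 1798801742) (nat_lit 836) (nat_lit 11786648253) (nat_lit 346) (nat_lit 5) (nat_lit 356) (nat_lit 5) (nat_lit 357) (nat_lit 5) (nat_lit 461) (nat_lit 423) (nat_lit 256)) (XT.lf (nat_lit 0) (nat_lit 4742176994) (nat_lit 836) (nat_lit 5646439681) (nat_lit 76) (nat_lit 4266192381) (nat_lit 346) (nat_lit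 5) (nat_lit 357) (nat_lit 5) (nat_lit 347) (nat_lit 5) (nat_lit 462) (nat_lit 423) (nat_lit 255))))) (XT.nd (nat_lit 234) (nat_lit 836) (nat_lit 0) (XT.nd (nat_lit 78) (nat_lit 760) (nat_lit 0) (XT.lf (nat_lit 0) (nat_lit 2461716350) (nat_lit 760) (nat_lit 4370525114) (nat_lit 836) (nat_lit 7982468556) (nat_lit 336) (nat_lit 5) (nat_lit 346) (nat_lit 5) (nat_lit 347) (nat_lit 5) (nat_lit 463) (nat_lit 423) (nat_lit 254)) (XT.nd (nat_lit 78) (nat_lit 760) (nat_lit 0) (XT.lf (nat_lit 0) (nat_lit 9004254892) (nat_lit 836) (nat_lit 4190336265) (nat_lit 76) (nat_lit 1782416724) (nat_lit 336) (nat_lit 5) (nat_lit 347) (nat_lit 5) (nat_lit 337) (nat_lit 5) (nat_lit 464) (nat_lit 423) (nat_lit 253)) (XT.lf (nat_lit 0) (nat_lit 4151141955) (nat_lit 760) (nat_lit 7115175800) (nat_lit 836) (nat_lit 3875303557) (nat_lit 326) (nat_lit 5) (nat_lit 336) (nat_lit 5) (nat_lit 337) (nat_lit 5) (nat_lit 465) (nat_lit 423) (nat_lit 252)))) (XT.nd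 (nat_lit 78) (nat_lit 836) (nat_lit 0) (XT.lf (nat_lit 0) (nat_lit 12706384761) (nat_lit 760) (nat_lit 886187838) (nat_lit 836) (nat_lit 1716577160) (nat_lit 326) (nat_lit 5) (nat_lit 336) (nat_lit 5) (nat_lit 337) (nat_lit 5) (nat_lit 466) (nat_lit 423) (nat_lit 251)) (XT.nd (nat_lit 78) (nat_lit 0) (nat_lit 0) (XT.lf (nat_lit 0) (nat_lit 544758596) (nat_lit 836) (nat_lit 9496445325) (nat_lit 76) (nat_lit 5437447527) (nat_lit 315) (nat_lit 5) (nat_lit 326) (nat_lit 5) (nat_lit 316) (nat_lit 5) (nat_lit 467) (nat_lit 423) (nat_lit 250)) (XT.lf (nat_lit 0) (nat_lit 2842866997) (nat_lit 836) (nat_lit 904293923) (nat_lit 76) (nat_lit 11903866361) (nat_lit 315) (nat_lit 5) (nat_lit 326) (nat_lit 5) (nat_lit 316) (nat_lit 5) (nat_lit 468) (nat_lit 423) (nat_lit 249))))))) (XT.nd (nat_lit 858) (nat_lit 3496) (nat_lit 0) (XT.nd (nat_lit 390) (nat_lit 2584) (nat_lit 0) (XT.nd (nat_lit 156) (nat_lit 684) (nat_lit 0) (XT.nd (nat_lit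 78) (nat_lit 684) (nat_lit 0) (XT.lf (nat_lit 0) (nat_lit 5247505800) (nat_lit 760) (nat_lit 7889372331) (nat_lit 76) (nat_lit 2688762760) (nat_lit 306) (nat_lit 5) (nat_lit 316) (nat_lit 5) (nat_lit 307) (nat_lit 5) (nat_lit 469) (nat_lit 423) (nat_lit 248)) (XT.lf (nat_lit 0) (nat_lit 939930807) (nat_lit 684) (nat_lit 6788670482) (nat_lit 760) (nat_lit 8274579803) (nat_lit 297) (nat_lit 5) (nat_lit 306) (nat_lit 5) (nat_lit 307) (nat_lit 5) (nat_lit 470) (nat_lit 423) (nat_lit 247))) (XT.nd (nat_lit 78) (nat_lit 684) (nat_lit 0) (XT.lf (nat_lit 0) (nat_lit 10043011543) (nat_lit 684) (nat_lit 260692680) (nat_lit 760) (nat_lit 5879681725) (nat_lit 297) (nat_lit 5) (nat_lit 306) (nat_lit 5) (nat_lit 307) (nat_lit 5) (nat_lit 471) (nat_lit 423) (nat_lit 246)) (XT.nd (nat_lit 78) (nat_lit 0) (nat_lit 0) (XT.lf (nat_lit 0) (nat_lit 2948366813) (nat_lit 684) (nat_lit 10034228069) (nat_lit 760) (nat_lit 3383555840) (nat_lit 288)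 (nat_lit 5) (nat_lit 297) (nat_lit 5) (nat_lit 298) (nat_lit 5) (nat_lit 472) (nat_lit 423) (nat_lit 245)) (XT.lf (nat_lit 0) (nat_lit 12290710334) (nat_lit 684) (nat_lit 3458979036) (nat_lit 760) (nat_lit 802190405) (nat_lit 288) (nat_lit 5) (nat_lit 297) (nat_lit 5) (nat_lit 298) (nat_lit 5) (nat_lit 473) (nat_lit 423) (nat_lit 244))))) (XT.nd (nat_lit 234) (nat_lit 1216) (nat_lit 0) (XT.nd (nat_lit 78) (nat_lit 608) (nat_lit 0) (XT.lf (nat_lit 0) (nat_lit 1853251355) (nat_lit 760) (nat_lit 11637643693) (nat_lit 76) (nat_lit 3249262862) (nat_lit 278) (nat_lit 5) (nat_lit 288) (nat_lit 5) (nat_lit 279) (nat_lit 5) (nat_lit 474) (nat_lit 423) (nat_lit 243)) (XT.nd (nat_lit 78) (nat_lit 608) (nat_lit 0) (XT.lf (nat_lit 0) (nat_lit 4594664460) (nat_lit 760) (nat_lit 2258475232) (nat_lit 76) (nat_lit 10078085205) (nat_lit 278) (nat_lit 5) (nat_lit 288) (nat_lit 5) (nat_lit 279) (nat_lit 5) (nat_lit 475) (nat_lit 423) (nat_lit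 242)) (XT.lf (nat_lit 0) (nat_lit 7395794053) (nat_lit 608) (nat_lit 35191541) (nat_lit 684) (nat_lit 9694327424) (nat_lit 270) (nat_lit 5) (nat_lit 278) (nat_lit 5) (nat_lit 279) (nat_lit 5) (nat_lit 476) (nat_lit 423) (nat_lit 241)))) (XT.nd (nat_lit 78) (nat_lit 1216) (nat_lit 0) (XT.lf (nat_lit 0) (nat_lit 10376358234) (nat_lit 684) (nat_lit 103806070) (nat_lit 76) (nat_lit 6842073457) (nat_lit 270) (nat_lit 5) (nat_lit 279) (nat_lit 5) (nat_lit 271) (nat_lit 5) (nat_lit 477) (nat_lit 423) (nat_lit 240)) (XT.nd (nat_lit 78) (nat_lit 608) (nat_lit 0) (XT.lf (nat_lit 0) (nat_lit 9833782027) (nat_lit 608) (nat_lit 3603236466) (nat_lit 684) (nat_lit 4084956237) (nat_lit 262) (nat_lit 5) (nat_lit 270) (nat_lit 5) (nat_lit 271) (nat_lit 5) (nat_lit 478) (nat_lit 423) (nat_lit 239)) (XT.lf (nat_lit 0) (nat_lit 2243651258) (nat_lit 608) (nat_lit 14345036242) (nat_lit 684) (nat_lit 1136424335) (nat_lit 254) (nat_lit 5) (nat_lit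 262) (nat_lit 5) (nat_lit 263) (nat_lit 5) (nat_lit 479) (nat_lit 423) (nat_lit 238)))))) (XT.nd (nat_lit 468) (nat_lit 1672) (nat_lit 0) (XT.nd (nat_lit 234) (nat_lit 1140) (nat_lit 0) (XT.nd (nat_lit 78) (nat_lit 608) (nat_lit 0) (XT.lf (nat_lit 0) (nat_lit 1914751025) (nat_lit 684) (nat_lit 5498783076) (nat_lit 76) (nat_lit 10517171627) (nat_lit 253) (nat_lit 5) (nat_lit 262) (nat_lit 5) (nat_lit 254) (nat_lit 5) (nat_lit 480) (nat_lit 423) (nat_lit 237)) (XT.nd (nat_lit 78) (nat_lit 0) (nat_lit 0) (XT.lf (nat_lit 0) (nat_lit 4728727985) (nat_lit 608) (nat_lit 306286518) (nat_lit 684) (nat_lit 13104782368) (nat_lit 245) (nat_lit 5) (nat_lit 253) (nat_lit 5) (nat_lit 254) (nat_lit 5) (nat_lit 481) (nat_lit 423) (nat_lit 236)) (XT.lf (nat_lit 0) (nat_lit 8292545039) (nat_lit 684) (nat_lit 3171715441) (nat_lit 76) (nat_lit 6887313327) (nat_lit 245) (nat_lit 5) (nat_lit 254) (nat_lit 5) (nat_lit 246) (nat_lit 5) (nat_lit 482)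 (nat_lit 423) (nat_lit 235)))) (XT.nd (nat_lit 78) (nat_lit 608) (nat_lit 0) (XT.lf (nat_lit 0) (nat_lit 7357691482) (nat_lit 532) (nat_lit 4300116890) (nat_lit 608) (nat_lit 6908927453) (nat_lit 238) (nat_lit 5) (nat_lit 245) (nat_lit 5) (nat_lit 246) (nat_lit 5) (nat_lit 483) (nat_lit 423) (nat_lit 234)) (XT.nd (nat_lit 78) (nat_lit 608) (nat_lit 0) (XT.lf (nat_lit 0) (nat_lit 15124179166) (nat_lit 608) (nat_lit 674034762) (nat_lit 76) (nat_lit 2987312273) (nat_lit 238) (nat_lit 5) (nat_lit 246) (nat_lit 5) (nat_lit 239) (nat_lit 5) (nat_lit 484) (nat_lit 423) (nat_lit 233)) (XT.lf (nat_lit 0) (nat_lit 10167454292) (nat_lit 608) (nat_lit 8579906605) (nat_lit 684) (nat_lit 259582955) (nat_lit 230) (nat_lit 5) (nat_lit 238) (nat_lit 5) (nat_lit 239) (nat_lit 5) (nat_lit 485) (nat_lit 423) (nat_lit 232))))) (XT.nd (nat_lit 234) (nat_lit 532) (nat_lit 0) (XT.nd (nat_lit 78) (nat_lit 532) (nat_lit 0) (XT.lf (nat_lit 0) (nat_lit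 1998422200) (nat_lit 532) (nat_lit 1180243658) (nat_lit 608) (nat_lit 16053497197) (nat_lit 222) (nat_lit 5) (nat_lit 229) (nat_lit 5) (nat_lit 230) (nat_lit 5) (nat_lit 486) (nat_lit 423) (nat_lit 231)) (XT.nd (nat_lit 78) (nat_lit 532) (nat_lit 0) (XT.lf (nat_lit 0) (nat_lit 6776346723) (nat_lit 608) (nat_lit 6340429919) (nat_lit 76) (nat_lit 6343193897) (nat_lit 222) (nat_lit 5) (nat_lit 230) (nat_lit 5) (nat_lit 223) (nat_lit 5) (nat_lit 487) (nat_lit 423) (nat_lit 230)) (XT.lf (nat_lit 0) (nat_lit 4817098315) (nat_lit 532) (nat_lit 5661198121) (nat_lit 608) (nat_lit 9213392487) (nat_lit 215) (nat_lit 5) (nat_lit 222) (nat_lit 5) (nat_lit 223) (nat_lit 5) (nat_lit 488) (nat_lit 423) (nat_lit 229)))) (XT.nd (nat_lit 78) (nat_lit 532) (nat_lit 0) (XT.lf (nat_lit 0) (nat_lit 14303016392) (nat_lit 608) (nat_lit 3665438664) (nat_lit 76) (nat_lit 1958613023) (nat_lit 215) (nat_lit 5) (nat_lit 223) (nat_lit 5) (nat_lit 216) (nat_lit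 5) (nat_lit 489) (nat_lit 423) (nat_lit 228)) (XT.nd (nat_lit 78) (nat_lit 76) (nat_lit 0) (XT.lf (nat_lit 0) (nat_lit 7824126587) (nat_lit 456) (nat_lit 10461810070) (nat_lit 532) (nat_lit 1879585055) (nat_lit 209) (nat_lit 5) (nat_lit 215) (nat_lit 5) (nat_lit 216) (nat_lit 5) (nat_lit 490) (nat_lit 423) (nat_lit 227)) (XT.lf (nat_lit 0) (nat_lit 1932533138) (nat_lit 532) (nat_lit 836763309) (nat_lit 76) (nat_lit 17638833004) (nat_lit 208) (nat_lit 5) (nat_lit 215) (nat_lit 5) (nat_lit 209) (nat_lit 5) (nat_lit 491) (nat_lit 423) (nat_lit 226))))))))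
noncomputable def xc189 : XT := (XT.nd (nat_lit 54210) (nat_lit 0) (nat_lit 23028) (XT.nd (nat_lit 858) (nat_lit 2432) (nat_lit 0) (XT.nd (nat_lit 390) (nat_lit 1824) (nat_lit 0) (XT.nd (nat_lit 156) (nat_lit 532) (nat_lit 0) (XT.nd (nat_lit 78) (nat_lit 456) (nat_lit 0) (XT.lf (nat_lit 0) (nat_lit 5894383535) (nat_lit 608) (nat_lit 9666231503) (nat_lit 76) (nat_lit 5092753629) (nat_lit 201) (nat_lit 5) (nat_lit 209) (nat_lit 5) (nat_lit 202) (nat_lit 5) (nat_lit 492) (nat_lit 423) (nat_lit 225)) (XT.lf (nat_lit 0) (nat_lit 2156561364) (nat_lit 456) (nat_lit 7810529245) (nat_lit 532) (nat_lit 10935790599) (nat_lit 195) (nat_lit 5) (nat_lit 201) (nat_lit 5) (nat_lit 202) (nat_lit 5) (nat_lit 493) (nat_lit 423) (nat_lit 224))) (XT.nd (nat_lit 78) (nat_lit 532) (nat_lit 0) (XT.lf (nat_lit 0) (nat_lit 14180839022) (nat_lit 532) (nat_lit 6819148337) (nat_lit 76) (nat_lit 156205813) (nat_lit 195) (nat_lit 5) (nat_lit 202) (nat_lit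 5) (nat_lit 196) (nat_lit 5) (nat_lit 494) (nat_lit 423) (nat_lit 223)) (XT.nd (nat_lit 78) (nat_lit 76) (nat_lit 0) (XT.lf (nat_lit 0) (nat_lit 5356408621) (nat_lit 456) (nat_lit 13202758644) (nat_lit 532) (nat_lit 2853798911) (nat_lit 189) (nat_lit 5) (nat_lit 195) (nat_lit 5) (nat_lit 196) (nat_lit 5) (nat_lit 495) (nat_lit 423) (nat_lit 222)) (XT.lf (nat_lit 0) (nat_lit 1372368789) (nat_lit 532) (nat_lit 3823825397) (nat_lit 76) (nat_lit 16477708205) (nat_lit 188) (nat_lit 5) (nat_lit 195) (nat_lit 5) (nat_lit 189) (nat_lit 5) (nat_lit 496) (nat_lit 423) (nat_lit 221))))) (XT.nd (nat_lit 234) (nat_lit 912) (nat_lit 0) (XT.nd (nat_lit 78) (nat_lit 456) (nat_lit 0) (XT.lf (nat_lit 0) (nat_lit 5715352582) (nat_lit 532) (nat_lit 13217676741) (nat_lit 76) (nat_lit 3005241480) (nat_lit 182) (nat_lit 5) (nat_lit 189) (nat_lit 5) (nat_lit 183) (nat_lit 5) (nat_lit 497) (nat_lit 423) (nat_lit 220)) (XT.nd (nat_lit 78) (nat_lit 456)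 (nat_lit 0) (XT.lf (nat_lit 0) (nat_lit 10199432417) (nat_lit 532) (nat_lit 682846497) (nat_lit 76) (nat_lit 11324563771) (nat_lit 182) (nat_lit 5) (nat_lit 189) (nat_lit 5) (nat_lit 183) (nat_lit 5) (nat_lit 498) (nat_lit 423) (nat_lit 219)) (XT.lf (nat_lit 0) (nat_lit 12254988923) (nat_lit 456) (nat_lit 2591884865) (nat_lit 532) (nat_lit 7632439430) (nat_lit 176) (nat_lit 5) (nat_lit 182) (nat_lit 5) (nat_lit 183) (nat_lit 5) (nat_lit 499) (nat_lit 423) (nat_lit 218)))) (XT.nd (nat_lit 78) (nat_lit 532) (nat_lit 0) (XT.lf (nat_lit 0) (nat_lit 2692438842) (nat_lit 380) (nat_lit 16949150992) (nat_lit 456) (nat_lit 3114557611) (nat_lit 171) (nat_lit 5) (nat_lit 176) (nat_lit 5) (nat_lit 177) (nat_lit 5) (nat_lit 500) (nat_lit 423) (nat_lit 217)) (XT.nd (nat_lit 78) (nat_lit 456) (nat_lit 0) (XT.lf (nat_lit 0) (nat_lit 1554499727) (nat_lit 456) (nat_lit 7066818391) (nat_lit 76) (nat_lit 14415398888) (nat_lit 170) (nat_lit 5)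 (nat_lit 176) (nat_lit 5) (nat_lit 171) (nat_lit 5) (nat_lit 501) (nat_lit 423) (nat_lit 216)) (XT.lf (nat_lit 0) (nat_lit 6242941350) (nat_lit 456) (nat_lit 67157406) (nat_lit 532) (nat_lit 17011690920) (nat_lit 164) (nat_lit 5) (nat_lit 170) (nat_lit 5) (nat_lit 171) (nat_lit 5) (nat_lit 502) (nat_lit 423) (nat_lit 215)))))) (XT.nd (nat_lit 468) (nat_lit 1216) (nat_lit 0) (XT.nd (nat_lit 234) (nat_lit 836) (nat_lit 0) (XT.nd (nat_lit 78) (nat_lit 380) (nat_lit 0) (XT.lf (nat_lit 0) (nat_lit 11259093384) (nat_lit 532) (nat_lit 3761815962) (nat_lit 76) (nat_lit 8589689518) (nat_lit 164) (nat_lit 5) (nat_lit 171) (nat_lit 5) (nat_lit 165) (nat_lit 5) (nat_lit 503) (nat_lit 423) (nat_lit 214)) (XT.nd (nat_lit 78) (nat_lit 0) (nat_lit 0) (XT.lf (nat_lit 0) (nat_lit 9943323341) (nat_lit 380) (nat_lit 6423192526) (nat_lit 456) (nat_lit 7537480133) (nat_lit 159) (nat_lit 5) (nat_lit 164) (nat_lit 5) (nat_lit 165) (nat_lit 5) (nat_lit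 504) (nat_lit 423) (nat_lit 213)) (XT.lf (nat_lit 0) (nat_lit 21611216087) (nat_lit 456) (nat_lit 252837468) (nat_lit 76) (nat_lit 2338505644) (nat_lit 159) (nat_lit 5) (nat_lit 165) (nat_lit 5) (nat_lit 160) (nat_lit 5) (nat_lit 505) (nat_lit 423) (nat_lit 212)))) (XT.nd (nat_lit 78) (nat_lit 380) (nat_lit 0) (XT.lf (nat_lit 0) (nat_lit 2549496600) (nat_lit 456) (nat_lit 10661003145) (nat_lit 76) (nat_lit 11293716758) (nat_lit 153) (nat_lit 5) (nat_lit 159) (nat_lit 5) (nat_lit 154) (nat_lit 5) (nat_lit 506) (nat_lit 423) (nat_lit 211)) (XT.nd (nat_lit 78) (nat_lit 0) (nat_lit 0) (XT.lf (nat_lit 0) (nat_lit 3432490040) (nat_lit 380) (nat_lit 4344600774) (nat_lit 456) (nat_lit 17034101514) (nat_lit 148) (nat_lit 5) (nat_lit 153) (nat_lit 5) (nat_lit 154) (nat_lit 5) (nat_lit 507) (nat_lit 423) (nat_lit 210)) (XT.lf (nat_lit 0) (nat_lit 13206403545) (nat_lit 456) (nat_lit 7209622651) (nat_lit 76) (nat_lit 4706338796) (nat_lit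 148) (nat_lit 5) (nat_lit 154) (nat_lit 5) (nat_lit 149) (nat_lit 5) (nat_lit 508) (nat_lit 423) (nat_lit 209))))) (XT.nd (nat_lit 234) (nat_lit 380) (nat_lit 0) (XT.nd (nat_lit 78) (nat_lit 456) (nat_lit 0) (XT.lf (nat_lit 0) (nat_lit 7301859752) (nat_lit 380) (nat_lit 11513373853) (nat_lit 456) (nat_lit 6623109524) (nat_lit 143) (nat_lit 5) (nat_lit 148) (nat_lit 5) (nat_lit 149) (nat_lit 5) (nat_lit 509) (nat_lit 423) (nat_lit 208)) (XT.nd (nat_lit 78) (nat_lit 456) (nat_lit 0) (XT.lf (nat_lit 0) (nat_lit 22193380741) (nat_lit 380) (nat_lit 2386041770) (nat_lit 456) (nat_lit 1180355301) (nat_lit 143) (nat_lit 5) (nat_lit 148) (nat_lit 5) (nat_lit 149) (nat_lit 5) (nat_lit 510) (nat_lit 423) (nat_lit 207)) (XT.lf (nat_lit 0) (nat_lit 4428480323) (nat_lit 456) (nat_lit 14722808914) (nat_lit 76) (nat_lit 6933493813) (nat_lit 137) (nat_lit 5) (nat_lit 143) (nat_lit 5) (nat_lit 138) (nat_lit 5) (nat_lit 511) (nat_lit 423) (nat_lit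 206)))) (XT.nd (nat_lit 52494) (nat_lit 0) (nat_lit 27436) (XT.lf (nat_lit 0) (nat_lit 192325813) (nat_lit 380) (nat_lit 9977419856) (nat_lit 456) (nat_lit 16245666114) (nat_lit 132) (nat_lit 5) (nat_lit 137) (nat_lit 5) (nat_lit 138) (nat_lit 5) (nat_lit 512) (nat_lit 423) (nat_lit 205)) (XT.nd (nat_lit 78) (nat_lit 0) (nat_lit 0) (XT.lf (nat_lit 0) (nat_lit 1357699000) (nat_lit 0) (nat_lit 1357699000) (nat_lit 1596) (nat_lit 2377821548) (nat_lit 493) (nat_lit 5) (nat_lit 493) (nat_lit 3) (nat_lit 514) (nat_lit 3) (nat_lit 424) (nat_lit 424) (nat_lit 292)) (XT.lf (nat_lit 0) (nat_lit 6168353337) (nat_lit 1596) (nat_lit 2520367316) (nat_lit 1672) (nat_lit 1585760542) (nat_lit 493) (nat_lit 5) (nat_lit 514) (nat_lit 3) (nat_lit 515) (nat_lit 5) (nat_lit 425) (nat_lit 424) (nat_lit 291))))))) (XT.nd (nat_lit 936) (nat_lit 2888) (nat_lit 0) (XT.nd (nat_lit 468) (nat_lit 0) (nat_lit 76) (XT.nd (nat_lit 234) (nat_lit 1520) (nat_lit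 0) (XT.nd (nat_lit 78) (nat_lit 0) (nat_lit 0) (XT.lf (nat_lit 76) (nat_lit 2535350250) (nat_lit 0) (nat_lit 4402164582) (nat_lit 1672) (nat_lit 3426436372) (nat_lit 494) (nat_lit 5) (nat_lit 493) (nat_lit 5) (nat_lit 515) (nat_lit 5) (nat_lit 426) (nat_lit 424) (nat_lit 290)) (XT.nd (nat_lit 78) (nat_lit 0) (nat_lit 76) (XT.lf (nat_lit 76) (nat_lit 7717168695) (nat_lit 0) (nat_lit 4498252) (nat_lit 1672) (nat_lit 2733555562) (nat_lit 494) (nat_lit 5) (nat_lit 493) (nat_lit 5) (nat_lit 515) (nat_lit 5) (nat_lit 427) (nat_lit 424) (nat_lit 289)) (XT.lf (nat_lit 76) (nat_lit 2447922002) (nat_lit 0) (nat_lit 6101653510) (nat_lit 1672) (nat_lit 1998186227) (nat_lit 495) (nat_lit 5) (nat_lit 494) (nat_lit 5) (nat_lit 516) (nat_lit 5) (nat_lit 428) (nat_lit 424) (nat_lit 288)))) (XT.nd (nat_lit 78) (nat_lit 1596) (nat_lit 0) (XT.lf (nat_lit 76) (nat_lit 7765371197) (nat_lit 0) (nat_lit 1630430964) (nat_lit 1672) (nat_lit 1246318282)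 (nat_lit 495) (nat_lit 5) (nat_lit 494) (nat_lit 5) (nat_lit 516) (nat_lit 5) (nat_lit 429) (nat_lit 424) (nat_lit 287)) (XT.nd (nat_lit 78) (nat_lit 1672) (nat_lit 0) (XT.lf (nat_lit 76) (nat_lit 2454443886) (nat_lit 0) (nat_lit 7823199666) (nat_lit 1672) (nat_lit 460352778) (nat_lit 496) (nat_lit 5) (nat_lit 495) (nat_lit 5) (nat_lit 517) (nat_lit 5) (nat_lit 430) (nat_lit 424) (nat_lit 286)) (XT.lf (nat_lit 0) (nat_lit 350962595) (nat_lit 1672) (nat_lit 2926969221) (nat_lit 1748) (nat_lit 7557535115) (nat_lit 473) (nat_lit 5) (nat_lit 495) (nat_lit 5) (nat_lit 496) (nat_lit 5) (nat_lit 431) (nat_lit 424) (nat_lit 285))))) (XT.nd (nat_lit 234) (nat_lit 0) (nat_lit 76) (XT.nd (nat_lit 78) (nat_lit 0) (nat_lit 0) (XT.lf (nat_lit 0) (nat_lit 1182135738) (nat_lit 1672) (nat_lit 8386051184) (nat_lit 1748) (nat_lit 1366446842) (nat_lit 474) (nat_lit 5) (nat_lit 496) (nat_lit 5) (nat_lit 497) (nat_lit 5) (nat_lit 432) (nat_lit 424)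 (nat_lit 284)) (XT.nd (nat_lit 78) (nat_lit 0) (nat_lit 0) (XT.lf (nat_lit 0) (nat_lit 2055894025) (nat_lit 1672) (nat_lit 2893690320) (nat_lit 1748) (nat_lit 6085683878) (nat_lit 474) (nat_lit 5) (nat_lit 496) (nat_lit 5) (nat_lit 497) (nat_lit 5) (nat_lit 433) (nat_lit 424) (nat_lit 283)) (XT.lf (nat_lit 76) (nat_lit 2734794654) (nat_lit 0) (nat_lit 214875140) (nat_lit 1748) (nat_lit 8188198183) (nat_lit 475) (nat_lit 5) (nat_lit 474) (nat_lit 5) (nat_lit 497) (nat_lit 5) (nat_lit 434) (nat_lit 424) (nat_lit 282)))) (XT.nd (nat_lit 78) (nat_lit 0) (nat_lit 0) (XT.lf (nat_lit 0) (nat_lit 3895886495) (nat_lit 1672) (nat_lit 2767012127) (nat_lit 1748) (nat_lit 4578933182) (nat_lit 475) (nat_lit 5) (nat_lit 497) (nat_lit 5) (nat_lit 498) (nat_lit 5) (nat_lit 435) (nat_lit 424) (nat_lit 281)) (XT.nd (nat_lit 78) (nat_lit 0) (nat_lit 76) (XT.lf (nat_lit 76) (nat_lit 3010153781) (nat_lit 0) (nat_lit 1857191710) (nat_lit 1748) (nat_lit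 6480406375) (nat_lit 476) (nat_lit 5) (nat_lit 475) (nat_lit 5) (nat_lit 498) (nat_lit 5) (nat_lit 436) (nat_lit 424) (nat_lit 280)) (XT.lf (nat_lit 0) (nat_lit 5882299644) (nat_lit 1672) (nat_lit 2544870678) (nat_lit 1748) (nat_lit 3028141940) (nat_lit 476) (nat_lit 5) (nat_lit 498) (nat_lit 5) (nat_lit 499) (nat_lit 5) (nat_lit 437) (nat_lit 424) (nat_lit 279)))))) (XT.nd (nat_lit 468) (nat_lit 1520) (nat_lit 0) (XT.nd (nat_lit 234) (nat_lit 1596) (nat_lit 0) (XT.nd (nat_lit 78) (nat_lit 0) (nat_lit 76) (XT.lf (nat_lit 76) (nat_lit 3386084260) (nat_lit 0) (nat_lit 3551641969) (nat_lit 1748) (nat_lit 4626897361) (nat_lit 477) (nat_lit 5) (nat_lit 476) (nat_lit 5) (nat_lit 499) (nat_lit 5) (nat_lit 438) (nat_lit 424) (nat_lit 278)) (XT.nd (nat_lit 78) (nat_lit 0) (nat_lit 0) (XT.lf (nat_lit 0) (nat_lit 8026811179) (nat_lit 1672) (nat_lit 2224947922) (nat_lit 1748) (nat_lit 1424114174) (nat_lit 477) (nat_lit 5) (nat_lit 499)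 (nat_lit 5) (nat_lit 500) (nat_lit 5) (nat_lit 439) (nat_lit 424) (nat_lit 277)) (XT.lf (nat_lit 76) (nat_lit 3865100437) (nat_lit 0) (nat_lit 5307595604) (nat_lit 1748) (nat_lit 2615954613) (nat_lit 478) (nat_lit 5) (nat_lit 477) (nat_lit 5) (nat_lit 500) (nat_lit 5) (nat_lit 440) (nat_lit 424) (nat_lit 276)))) (XT.nd (nat_lit 78) (nat_lit 1672) (nat_lit 0) (XT.lf (nat_lit 76) (nat_lit 10097388341) (nat_lit 0) (nat_lit 245646941) (nat_lit 1748) (nat_lit 1560620571) (nat_lit 478) (nat_lit 5) (nat_lit 477) (nat_lit 5) (nat_lit 500) (nat_lit 5) (nat_lit 441) (nat_lit 424) (nat_lit 275)) (XT.nd (nat_lit 78) (nat_lit 1748) (nat_lit 0) (XT.lf (nat_lit 76) (nat_lit 4449975624) (nat_lit 0) (nat_lit 7134517927) (nat_lit 1748) (nat_lit 435516307) (nat_lit 479) (nat_lit 5) (nat_lit 478) (nat_lit 5) (nat_lit 501) (nat_lit 5) (nat_lit 442) (nat_lit 424) (nat_lit 274)) (XT.lf (nat_lit 0) (nat_lit 703576351) (nat_lit 1748) (nat_lit 1298881445)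 (nat_lit 1824) (nat_lit 10136127003) (nat_lit 455) (nat_lit 5) (nat_lit 478) (nat_lit 5) (nat_lit 479) (nat_lit 5) (nat_lit 443) (nat_lit 424) (nat_lit 273))))) (XT.nd (nat_lit 234) (nat_lit 1596) (nat_lit 0) (XT.nd (nat_lit 78) (nat_lit 0) (nat_lit 0) (XT.lf (nat_lit 0) (nat_lit 1901577636) (nat_lit 1748) (nat_lit 7127655952) (nat_lit 1824) (nat_lit 3229403684) (nat_lit 456) (nat_lit 5) (nat_lit 479) (nat_lit 5) (nat_lit 480) (nat_lit 5) (nat_lit 444) (nat_lit 424) (nat_lit 272)) (XT.nd (nat_lit 78) (nat_lit 0) (nat_lit 76) (XT.lf (nat_lit 0) (nat_lit 3133032444) (nat_lit 1748) (nat_lit 697131946) (nat_lit 1824) (nat_lit 8550739258) (nat_lit 456) (nat_lit 5) (nat_lit 479) (nat_lit 5) (nat_lit 480) (nat_lit 5) (nat_lit 445) (nat_lit 424) (nat_lit 271)) (XT.lf (nat_lit 0) (nat_lit 4425156679) (nat_lit 1748) (nat_lit 6584901939) (nat_lit 1824) (nat_lit 1494838596) (nat_lit 457) (nat_lit 5) (nat_lit 480) (nat_lit 5) (nat_lit 481)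 (nat_lit 5) (nat_lit 446) (nat_lit 424) (nat_lit 270)))) (XT.nd (nat_lit 78) (nat_lit 1672) (nat_lit 0) (XT.lf (nat_lit 76) (nat_lit 12458758) (nat_lit 0) (nat_lit 5748718165) (nat_lit 1824) (nat_lit 6869835274) (nat_lit 458) (nat_lit 5) (nat_lit 457) (nat_lit 5) (nat_lit 481) (nat_lit 5) (nat_lit 447) (nat_lit 424) (nat_lit 269)) (XT.nd (nat_lit 78) (nat_lit 1672) (nat_lit 0) (XT.lf (nat_lit 76) (nat_lit 6821146090) (nat_lit 0) (nat_lit 335030982) (nat_lit 1824) (nat_lit 5602829782) (nat_lit 458) (nat_lit 5) (nat_lit 457) (nat_lit 5) (nat_lit 481) (nat_lit 5) (nat_lit 448) (nat_lit 424) (nat_lit 268)) (XT.lf (nat_lit 0) (nat_lit 843900311) (nat_lit 1748) (nat_lit 7762651338) (nat_lit 1824) (nat_lit 4282462783) (nat_lit 435) (nat_lit 5) (nat_lit 458) (nat_lit 5) (nat_lit 459) (nat_lit 5) (nat_lit 449) (nat_lit 424) (nat_lit 267))))))))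
noncomputable def xc190 : XT := (XT.nd (nat_lit 1794) (nat_lit 8208) (nat_lit 0) (XT.nd (nat_lit 858) (nat_lit 4560) (nat_lit 0) (XT.nd (nat_lit 390) (nat_lit 3496) (nat_lit 0) (XT.nd (nat_lit 156) (nat_lit 988) (nat_lit 0) (XT.nd (nat_lit 78) (nat_lit 1444) (nat_lit 0) (XT.lf (nat_lit 0) (nat_lit 7829666645) (nat_lit 1748) (nat_lit 2286800632) (nat_lit 1824) (nat_lit 2904546678) (nat_lit 435) (nat_lit 5) (nat_lit 458) (nat_lit 5) (nat_lit 459) (nat_lit 5) (nat_lit 450) (nat_lit 424) (nat_lit 266)) (XT.lf (nat_lit 0) (nat_lit 1791660137) (nat_lit 1444) (nat_lit 9886689746) (nat_lit 1520) (nat_lit 1476870631) (nat_lit 416) (nat_lit 5) (nat_lit 435) (nat_lit 5) (nat_lit 436) (nat_lit 5) (nat_lit 451) (nat_lit 424) (nat_lit 265))) (XT.nd (nat_lit 78) (nat_lit 912) (nat_lit 0) (XT.lf (nat_lit 0) (nat_lit 18642159) (nat_lit 1520) (nat_lit 4331959799) (nat_lit 76) (nat_lit 8940733999) (nat_lit 415) (nat_lit 5) (nat_lit 435) (nat_lit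 5) (nat_lit 416) (nat_lit 5) (nat_lit 452) (nat_lit 424) (nat_lit 264)) (XT.nd (nat_lit 78) (nat_lit 0) (nat_lit 0) (XT.lf (nat_lit 0) (nat_lit 1540497016) (nat_lit 988) (nat_lit 10580268282) (nat_lit 76) (nat_lit 1308891303) (nat_lit 403) (nat_lit 5) (nat_lit 416) (nat_lit 5) (nat_lit 404) (nat_lit 5) (nat_lit 453) (nat_lit 424) (nat_lit 263)) (XT.lf (nat_lit 0) (nat_lit 3140042591) (nat_lit 988) (nat_lit 3376049739) (nat_lit 76) (nat_lit 7053708491) (nat_lit 403) (nat_lit 5) (nat_lit 416) (nat_lit 5) (nat_lit 404) (nat_lit 5) (nat_lit 454) (nat_lit 424) (nat_lit 262))))) (XT.nd (nat_lit 234) (nat_lit 1672) (nat_lit 0) (XT.nd (nat_lit 78) (nat_lit 912) (nat_lit 0) (XT.lf (nat_lit 0) (nat_lit 4015140622) (nat_lit 912) (nat_lit 771899020) (nat_lit 988) (nat_lit 8925401259) (nat_lit 391) (nat_lit 5) (nat_lit 403) (nat_lit 5) (nat_lit 404) (nat_lit 5) (nat_lit 455) (nat_lit 424) (nat_lit 261)) (XT.nd (nat_lit 78) (nat_lit 912)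 (nat_lit 0) (XT.lf (nat_lit 0) (nat_lit 6512352572) (nat_lit 988) (nat_lit 2300665897) (nat_lit 76) (nat_lit 5044009944) (nat_lit 391) (nat_lit 5) (nat_lit 404) (nat_lit 5) (nat_lit 392) (nat_lit 5) (nat_lit 456) (nat_lit 424) (nat_lit 260)) (XT.lf (nat_lit 0) (nat_lit 5298551421) (nat_lit 912) (nat_lit 3002880527) (nat_lit 988) (nat_lit 5702492626) (nat_lit 379) (nat_lit 5) (nat_lit 391) (nat_lit 5) (nat_lit 392) (nat_lit 5) (nat_lit 457) (nat_lit 424) (nat_lit 259)))) (XT.nd (nat_lit 78) (nat_lit 1672) (nat_lit 0) (XT.lf (nat_lit 0) (nat_lit 10150702659) (nat_lit 988) (nat_lit 1101466524) (nat_lit 76) (nat_lit 2901103345) (nat_lit 379) (nat_lit 5) (nat_lit 392) (nat_lit 5) (nat_lit 380) (nat_lit 5) (nat_lit 458) (nat_lit 424) (nat_lit 258)) (XT.nd (nat_lit 78) (nat_lit 836) (nat_lit 0) (XT.lf (nat_lit 0) (nat_lit 6712994755) (nat_lit 836) (nat_lit 5377521927) (nat_lit 912) (nat_lit 2214021623) (nat_lit 368) (nat_lit 5) (nat_lit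 379) (nat_lit 5) (nat_lit 380) (nat_lit 5) (nat_lit 459) (nat_lit 424) (nat_lit 257)) (XT.lf (nat_lit 0) (nat_lit 229146174) (nat_lit 836) (nat_lit 13843118564) (nat_lit 912) (nat_lit 386503888) (nat_lit 357) (nat_lit 5) (nat_lit 368) (nat_lit 5) (nat_lit 369) (nat_lit 5) (nat_lit 460) (nat_lit 424) (nat_lit 256)))))) (XT.nd (nat_lit 468) (nat_lit 2204) (nat_lit 0) (XT.nd (nat_lit 234) (nat_lit 1520) (nat_lit 0) (XT.nd (nat_lit 78) (nat_lit 760) (nat_lit 0) (XT.lf (nat_lit 0) (nat_lit 1535360778) (nat_lit 912) (nat_lit 6361333560) (nat_lit 76) (nat_lit 6717655752) (nat_lit 356) (nat_lit 5) (nat_lit 368) (nat_lit 5) (nat_lit 357) (nat_lit 5) (nat_lit 461) (nat_lit 424) (nat_lit 255)) (XT.nd (nat_lit 78) (nat_lit 0) (nat_lit 0) (XT.lf (nat_lit 0) (nat_lit 1674029912) (nat_lit 760) (nat_lit 1817803588) (nat_lit 836) (nat_lit 11281133536) (nat_lit 346) (nat_lit 5) (nat_lit 356) (nat_lit 5) (nat_lit 357) (nat_lit 5) (nat_lit 462)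 (nat_lit 424) (nat_lit 254)) (XT.lf (nat_lit 0) (nat_lit 5549456651) (nat_lit 836) (nat_lit 5016121746) (nat_lit 76) (nat_lit 4367939336) (nat_lit 346) (nat_lit 5) (nat_lit 357) (nat_lit 5) (nat_lit 347) (nat_lit 5) (nat_lit 463) (nat_lit 424) (nat_lit 253)))) (XT.nd (nat_lit 78) (nat_lit 760) (nat_lit 0) (XT.lf (nat_lit 0) (nat_lit 3249307624) (nat_lit 760) (nat_lit 4422839354) (nat_lit 836) (nat_lit 7424655968) (nat_lit 336) (nat_lit 5) (nat_lit 346) (nat_lit 5) (nat_lit 347) (nat_lit 5) (nat_lit 464) (nat_lit 424) (nat_lit 252)) (XT.nd (nat_lit 78) (nat_lit 760) (nat_lit 0) (XT.lf (nat_lit 0) (nat_lit 9874034650) (nat_lit 836) (nat_lit 3536564213) (nat_lit 76) (nat_lit 1852021890) (nat_lit 336) (nat_lit 5) (nat_lit 347) (nat_lit 5) (nat_lit 337) (nat_lit 5) (nat_lit 465) (nat_lit 424) (nat_lit 251)) (XT.lf (nat_lit 0) (nat_lit 4966891080) (nat_lit 760) (nat_lit 7205681611) (nat_lit 836) (nat_lit 3258131700) (nat_lit 326)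 (nat_lit 5) (nat_lit 336) (nat_lit 5) (nat_lit 337) (nat_lit 5) (nat_lit 466) (nat_lit 424) (nat_lit 250))))) (XT.nd (nat_lit 234) (nat_lit 1368) (nat_lit 0) (XT.nd (nat_lit 78) (nat_lit 836) (nat_lit 0) (XT.lf (nat_lit 0) (nat_lit 13678871560) (nat_lit 760) (nat_lit 853129531) (nat_lit 836) (nat_lit 1069851911) (nat_lit 326) (nat_lit 5) (nat_lit 336) (nat_lit 5) (nat_lit 337) (nat_lit 5) (nat_lit 467) (nat_lit 424) (nat_lit 249)) (XT.nd (nat_lit 78) (nat_lit 0) (nat_lit 0) (XT.lf (nat_lit 0) (nat_lit 1219674294) (nat_lit 836) (nat_lit 8950729929) (nat_lit 76) (nat_lit 5604416610) (nat_lit 315) (nat_lit 5) (nat_lit 326) (nat_lit 5) (nat_lit 316) (nat_lit 5) (nat_lit 468) (nat_lit 424) (nat_lit 248)) (XT.lf (nat_lit 0) (nat_lit 3550724852) (nat_lit 836) (nat_lit 201159897) (nat_lit 76) (nat_lit 12199022249) (nat_lit 315) (nat_lit 5) (nat_lit 326) (nat_lit 5) (nat_lit 316) (nat_lit 5) (nat_lit 469) (nat_lit 424) (nat_lit 247))))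 (XT.nd (nat_lit 78) (nat_lit 684) (nat_lit 0) (XT.lf (nat_lit 0) (nat_lit 5995821325) (nat_lit 760) (nat_lit 7318186318) (nat_lit 76) (nat_lit 2815160310) (nat_lit 306) (nat_lit 5) (nat_lit 316) (nat_lit 5) (nat_lit 307) (nat_lit 5) (nat_lit 470) (nat_lit 424) (nat_lit 246)) (XT.nd (nat_lit 78) (nat_lit 0) (nat_lit 0) (XT.lf (nat_lit 0) (nat_lit 1682907005) (nat_lit 684) (nat_lit 6835718552) (nat_lit 760) (nat_lit 7791793986) (nat_lit 297) (nat_lit 5) (nat_lit 306) (nat_lit 5) (nat_lit 307) (nat_lit 5) (nat_lit 471) (nat_lit 424) (nat_lit 245)) (XT.lf (nat_lit 0) (nat_lit 10953849796) (nat_lit 684) (nat_lit 178920906) (nat_lit 760) (nat_lit 5361709269) (nat_lit 297) (nat_lit 5) (nat_lit 306) (nat_lit 5) (nat_lit 307) (nat_lit 5) (nat_lit 472) (nat_lit 424) (nat_lit 244))))))) (XT.nd (nat_lit 936) (nat_lit 3724) (nat_lit 0) (XT.nd (nat_lit 468) (nat_lit 1824) (nat_lit 0) (XT.nd (nat_lit 234) (nat_lit 1216) (nat_lit 0) (XT.nd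 (nat_lit 78) (nat_lit 760) (nat_lit 0) (XT.lf (nat_lit 0) (nat_lit 3724571185) (nat_lit 684) (nat_lit 10133662924) (nat_lit 760) (nat_lit 2822808264) (nat_lit 288) (nat_lit 5) (nat_lit 297) (nat_lit 5) (nat_lit 298) (nat_lit 5) (nat_lit 473) (nat_lit 424) (nat_lit 243)) (XT.nd (nat_lit 78) (nat_lit 760) (nat_lit 0) (XT.lf (nat_lit 0) (nat_lit 13239698105) (nat_lit 684) (nat_lit 3428894199) (nat_lit 760) (nat_lit 202137455) (nat_lit 288) (nat_lit 5) (nat_lit 297) (nat_lit 5) (nat_lit 298) (nat_lit 5) (nat_lit 474) (nat_lit 424) (nat_lit 242)) (XT.lf (nat_lit 0) (nat_lit 2491687480) (nat_lit 760) (nat_lit 11152284880) (nat_lit 76) (nat_lit 3418856107) (nat_lit 278) (nat_lit 5) (nat_lit 288) (nat_lit 5) (nat_lit 279) (nat_lit 5) (nat_lit 475) (nat_lit 424) (nat_lit 241)))) (XT.nd (nat_lit 78) (nat_lit 1216) (nat_lit 0) (XT.lf (nat_lit 0) (nat_lit 5276137257) (nat_lit 760) (nat_lit 1599613672) (nat_lit 76) (nat_lit 10382203760)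 (nat_lit 278) (nat_lit 5) (nat_lit 288) (nat_lit 5) (nat_lit 279) (nat_lit 5) (nat_lit 476) (nat_lit 424) (nat_lit 240)) (XT.nd (nat_lit 78) (nat_lit 608) (nat_lit 0) (XT.lf (nat_lit 0) (nat_lit 8162690938) (nat_lit 684) (nat_lit 9213483307) (nat_lit 76) (nat_lit 79882226) (nat_lit 270) (nat_lit 5) (nat_lit 279) (nat_lit 5) (nat_lit 271) (nat_lit 5) (nat_lit 477) (nat_lit 424) (nat_lit 239)) (XT.lf (nat_lit 0) (nat_lit 598430032) (nat_lit 608) (nat_lit 10561221837) (nat_lit 684) (nat_lit 6497416205) (nat_lit 262) (nat_lit 5) (nat_lit 270) (nat_lit 5) (nat_lit 271) (nat_lit 5) (nat_lit 478) (nat_lit 424) (nat_lit 238))))) (XT.nd (nat_lit 234) (nat_lit 1140) (nat_lit 0) (XT.nd (nat_lit 78) (nat_lit 684) (nat_lit 0) (XT.lf (nat_lit 0) (nat_lit 10722339376) (nat_lit 608) (nat_lit 3548579353) (nat_lit 684) (nat_lit 3590095129) (nat_lit 262) (nat_lit 5) (nat_lit 270) (nat_lit 5) (nat_lit 271) (nat_lit 5) (nat_lit 479) (nat_lit 424)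 (nat_lit 237)) (XT.nd (nat_lit 78) (nat_lit 76) (nat_lit 0) (XT.lf (nat_lit 0) (nat_lit 2986362153) (nat_lit 608) (nat_lit 14493514854) (nat_lit 684) (nat_lit 588453487) (nat_lit 254) (nat_lit 5) (nat_lit 262) (nat_lit 5) (nat_lit 263) (nat_lit 5) (nat_lit 480) (nat_lit 424) (nat_lit 236)) (XT.lf (nat_lit 0) (nat_lit 2505217135) (nat_lit 684) (nat_lit 4917174335) (nat_lit 76) (nat_lit 10855793386) (nat_lit 253) (nat_lit 5) (nat_lit 262) (nat_lit 5) (nat_lit 254) (nat_lit 5) (nat_lit 481) (nat_lit 424) (nat_lit 235)))) (XT.nd (nat_lit 78) (nat_lit 532) (nat_lit 0) (XT.lf (nat_lit 0) (nat_lit 5510337050) (nat_lit 608) (nat_lit 171182632) (nat_lit 684) (nat_lit 12810067259) (nat_lit 245) (nat_lit 5) (nat_lit 253) (nat_lit 5) (nat_lit 254) (nat_lit 5) (nat_lit 482) (nat_lit 424) (nat_lit 234)) (XT.nd (nat_lit 78) (nat_lit 532) (nat_lit 0) (XT.lf (nat_lit 0) (nat_lit 8994397749) (nat_lit 684) (nat_lit 2551695421) (nat_lit 76) (nat_lit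 7161704068) (nat_lit 245) (nat_lit 5) (nat_lit 254) (nat_lit 5) (nat_lit 246) (nat_lit 5) (nat_lit 483) (nat_lit 424) (nat_lit 233)) (XT.lf (nat_lit 0) (nat_lit 8183803231) (nat_lit 532) (nat_lit 4237061524) (nat_lit 608) (nat_lit 6506521500) (nat_lit 238) (nat_lit 5) (nat_lit 245) (nat_lit 5) (nat_lit 246) (nat_lit 5) (nat_lit 484) (nat_lit 424) (nat_lit 232)))))) (XT.nd (nat_lit 468) (nat_lit 1976) (nat_lit 0) (XT.nd (nat_lit 234) (nat_lit 532) (nat_lit 0) (XT.nd (nat_lit 78) (nat_lit 1216) (nat_lit 0) (XT.lf (nat_lit 0) (nat_lit 15947121569) (nat_lit 608) (nat_lit 12344452) (nat_lit 76) (nat_lit 3191276936) (nat_lit 238) (nat_lit 5) (nat_lit 246) (nat_lit 5) (nat_lit 239) (nat_lit 5) (nat_lit 485) (nat_lit 424) (nat_lit 231)) (XT.nd (nat_lit 78) (nat_lit 532) (nat_lit 0) (XT.lf (nat_lit 0) (nat_lit 256796364) (nat_lit 684) (nat_lit 8336864607) (nat_lit 76) (nat_lit 10783012866) (nat_lit 229) (nat_lit 5) (nat_lit 238) (nat_lit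 5) (nat_lit 230) (nat_lit 5) (nat_lit 486) (nat_lit 424) (nat_lit 230)) (XT.lf (nat_lit 0) (nat_lit 2711627772) (nat_lit 532) (nat_lit 1042922125) (nat_lit 608) (nat_lit 15851930492) (nat_lit 222) (nat_lit 5) (nat_lit 229) (nat_lit 5) (nat_lit 230) (nat_lit 5) (nat_lit 487) (nat_lit 424) (nat_lit 229)))) (XT.nd (nat_lit 78) (nat_lit 532) (nat_lit 0) (XT.lf (nat_lit 0) (nat_lit 7415163425) (nat_lit 608) (nat_lit 5798103013) (nat_lit 76) (nat_lit 6625759568) (nat_lit 222) (nat_lit 5) (nat_lit 230) (nat_lit 5) (nat_lit 223) (nat_lit 5) (nat_lit 488) (nat_lit 424) (nat_lit 228)) (XT.nd (nat_lit 78) (nat_lit 0) (nat_lit 0) (XT.lf (nat_lit 0) (nat_lit 5578173579) (nat_lit 532) (nat_lit 5607426016) (nat_lit 608) (nat_lit 8889891745) (nat_lit 215) (nat_lit 5) (nat_lit 222) (nat_lit 5) (nat_lit 223) (nat_lit 5) (nat_lit 489) (nat_lit 424) (nat_lit 227)) (XT.lf (nat_lit 0) (nat_lit 15078117386) (nat_lit 608) (nat_lit 3078276447) (nat_lit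 76) (nat_lit 2159359680) (nat_lit 215) (nat_lit 5) (nat_lit 223) (nat_lit 5) (nat_lit 216) (nat_lit 5) (nat_lit 490) (nat_lit 424) (nat_lit 226))))) (XT.nd (nat_lit 234) (nat_lit 912) (nat_lit 0) (XT.nd (nat_lit 78) (nat_lit 608) (nat_lit 0) (XT.lf (nat_lit 0) (nat_lit 8636734905) (nat_lit 456) (nat_lit 10498632123) (nat_lit 532) (nat_lit 1423717244) (nat_lit 209) (nat_lit 5) (nat_lit 215) (nat_lit 5) (nat_lit 216) (nat_lit 5) (nat_lit 491) (nat_lit 424) (nat_lit 225)) (XT.nd (nat_lit 78) (nat_lit 532) (nat_lit 0) (XT.lf (nat_lit 0) (nat_lit 2448622724) (nat_lit 532) (nat_lit 203822306) (nat_lit 76) (nat_lit 18154227449) (nat_lit 208) (nat_lit 5) (nat_lit 215) (nat_lit 5) (nat_lit 209) (nat_lit 5) (nat_lit 492) (nat_lit 424) (nat_lit 224)) (XT.lf (nat_lit 0) (nat_lit 6485663063) (nat_lit 608) (nat_lit 9205763403) (nat_lit 76) (nat_lit 5365472343) (nat_lit 201) (nat_lit 5) (nat_lit 209) (nat_lit 5) (nat_lit 202) (nat_lit 5)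 (nat_lit 493) (nat_lit 424) (nat_lit 223)))) (XT.nd (nat_lit 78) (nat_lit 456) (nat_lit 0) (XT.lf (nat_lit 0) (nat_lit 2849184053) (nat_lit 456) (nat_lit 7785574961) (nat_lit 532) (nat_lit 10676745252) (nat_lit 195) (nat_lit 5) (nat_lit 201) (nat_lit 5) (nat_lit 202) (nat_lit 5) (nat_lit 494) (nat_lit 424) (nat_lit 222)) (XT.nd (nat_lit 78) (nat_lit 456) (nat_lit 0) (XT.lf (nat_lit 0) (nat_lit 14924752700) (nat_lit 532) (nat_lit 6310678574) (nat_lit 76) (nat_lit 334613124) (nat_lit 195) (nat_lit 5) (nat_lit 202) (nat_lit 5) (nat_lit 196) (nat_lit 5) (nat_lit 495) (nat_lit 424) (nat_lit 221)) (XT.lf (nat_lit 0) (nat_lit 6104147072) (nat_lit 456) (nat_lit 13281634274) (nat_lit 532) (nat_lit 2446270148) (nat_lit 189) (nat_lit 5) (nat_lit 195) (nat_lit 5) (nat_lit 196) (nat_lit 5) (nat_lit 496) (nat_lit 424) (nat_lit 220))))))))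
noncomputable def xc191 : XT := (XT.nd (nat_lit 54288) (nat_lit 0) (nat_lit 20216) (XT.nd (nat_lit 858) (nat_lit 1216) (nat_lit 0) (XT.nd (nat_lit 390) (nat_lit 1368) (nat_lit 0) (XT.nd (nat_lit 156) (nat_lit 836) (nat_lit 0) (XT.nd (nat_lit 78) (nat_lit 456) (nat_lit 0) (XT.lf (nat_lit 0) (nat_lit 1849337113) (nat_lit 532) (nat_lit 3266215863) (nat_lit 76) (nat_lit 16982774192) (nat_lit 188) (nat_lit 5) (nat_lit 195) (nat_lit 5) (nat_lit 189) (nat_lit 5) (nat_lit 497) (nat_lit 424) (nat_lit 219)) (XT.lf (nat_lit 0) (nat_lit 6275658175) (nat_lit 532) (nat_lit 12844360207) (nat_lit 76) (nat_lit 3248036246) (nat_lit 182) (nat_lit 5) (nat_lit 189) (nat_lit 5) (nat_lit 183) (nat_lit 5) (nat_lit 498) (nat_lit 424) (nat_lit 218))) (XT.nd (nat_lit 78) (nat_lit 836) (nat_lit 0) (XT.lf (nat_lit 0) (nat_lit 10840674538) (nat_lit 532) (nat_lit 71336692) (nat_lit 76) (nat_lit 11730162827) (nat_lit 182) (nat_lit 5) (nat_lit 189) (nat_lit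 5) (nat_lit 183) (nat_lit 5) (nat_lit 499) (nat_lit 424) (nat_lit 217)) (XT.nd (nat_lit 78) (nat_lit 380) (nat_lit 0) (XT.lf (nat_lit 0) (nat_lit 13121142497) (nat_lit 456) (nat_lit 2455380935) (nat_lit 532) (nat_lit 7343662580) (nat_lit 176) (nat_lit 5) (nat_lit 182) (nat_lit 5) (nat_lit 183) (nat_lit 5) (nat_lit 500) (nat_lit 424) (nat_lit 216)) (XT.lf (nat_lit 0) (nat_lit 3370696886) (nat_lit 380) (nat_lit 17093205301) (nat_lit 456) (nat_lit 2738720529) (nat_lit 171) (nat_lit 5) (nat_lit 176) (nat_lit 5) (nat_lit 177) (nat_lit 5) (nat_lit 501) (nat_lit 424) (nat_lit 215))))) (XT.nd (nat_lit 234) (nat_lit 836) (nat_lit 0) (XT.nd (nat_lit 78) (nat_lit 456) (nat_lit 0) (XT.lf (nat_lit 0) (nat_lit 2009493744) (nat_lit 456) (nat_lit 6590299539) (nat_lit 76) (nat_lit 14889124172) (nat_lit 170) (nat_lit 5) (nat_lit 176) (nat_lit 5) (nat_lit 171) (nat_lit 5) (nat_lit 502) (nat_lit 424) (nat_lit 214)) (XT.nd (nat_lit 78) (nat_lit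 0) (nat_lit 0) (XT.lf (nat_lit 0) (nat_lit 6856694254) (nat_lit 532) (nat_lit 16799004855) (nat_lit 76) (nat_lit 124063773) (nat_lit 164) (nat_lit 5) (nat_lit 171) (nat_lit 5) (nat_lit 165) (nat_lit 5) (nat_lit 503) (nat_lit 424) (nat_lit 213)) (XT.lf (nat_lit 0) (nat_lit 11896861795) (nat_lit 532) (nat_lit 3228252588) (nat_lit 76) (nat_lit 8949391083) (nat_lit 164) (nat_lit 5) (nat_lit 171) (nat_lit 5) (nat_lit 165) (nat_lit 5) (nat_lit 504) (nat_lit 424) (nat_lit 212)))) (XT.nd (nat_lit 78) (nat_lit 456) (nat_lit 0) (XT.lf (nat_lit 0) (nat_lit 10746984239) (nat_lit 380) (nat_lit 6355285281) (nat_lit 456) (nat_lit 7271585339) (nat_lit 159) (nat_lit 5) (nat_lit 164) (nat_lit 5) (nat_lit 165) (nat_lit 5) (nat_lit 505) (nat_lit 424) (nat_lit 211)) (XT.nd (nat_lit 78) (nat_lit 76) (nat_lit 0) (XT.lf (nat_lit 0) (nat_lit 346394414) (nat_lit 380) (nat_lit 22100960024) (nat_lit 456) (nat_lit 2231126102) (nat_lit 154) (nat_lit 5)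 (nat_lit 159) (nat_lit 5) (nat_lit 160) (nat_lit 5) (nat_lit 506) (nat_lit 424) (nat_lit 210)) (XT.lf (nat_lit 0) (nat_lit 3000827464) (nat_lit 456) (nat_lit 10273053416) (nat_lit 76) (nat_lit 11712363575) (nat_lit 153) (nat_lit 5) (nat_lit 159) (nat_lit 5) (nat_lit 154) (nat_lit 5) (nat_lit 507) (nat_lit 424) (nat_lit 209)))))) (XT.nd (nat_lit 52962) (nat_lit 0) (nat_lit 25536) (XT.nd (nat_lit 234) (nat_lit 456) (nat_lit 0) (XT.nd (nat_lit 78) (nat_lit 380) (nat_lit 0) (XT.lf (nat_lit 0) (nat_lit 4098354568) (nat_lit 380) (nat_lit 4230646687) (nat_lit 456) (nat_lit 16970438960) (nat_lit 148) (nat_lit 5) (nat_lit 153) (nat_lit 5) (nat_lit 154) (nat_lit 5) (nat_lit 508) (nat_lit 424) (nat_lit 208)) (XT.nd (nat_lit 78) (nat_lit 380) (nat_lit 0) (XT.lf (nat_lit 0) (nat_lit 13860406764) (nat_lit 456) (nat_lit 6761769357) (nat_lit 76) (nat_lit 4994791033) (nat_lit 148) (nat_lit 5) (nat_lit 154) (nat_lit 5) (nat_lit 149) (nat_lit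 5) (nat_lit 509) (nat_lit 424) (nat_lit 207)) (XT.lf (nat_lit 0) (nat_lit 8036047655) (nat_lit 380) (nat_lit 11541539823) (nat_lit 456) (nat_lit 6361754829) (nat_lit 143) (nat_lit 5) (nat_lit 148) (nat_lit 5) (nat_lit 149) (nat_lit 5) (nat_lit 510) (nat_lit 424) (nat_lit 206)))) (XT.nd (nat_lit 78) (nat_lit 456) (nat_lit 0) (XT.lf (nat_lit 0) (nat_lit 23213866698) (nat_lit 380) (nat_lit 2235623873) (nat_lit 456) (nat_lit 817867420) (nat_lit 143) (nat_lit 5) (nat_lit 148) (nat_lit 5) (nat_lit 149) (nat_lit 5) (nat_lit 511) (nat_lit 424) (nat_lit 205)) (XT.nd (nat_lit 52572) (nat_lit 0) (nat_lit 27056) (XT.lf (nat_lit 0) (nat_lit 4895664466) (nat_lit 456) (nat_lit 14433077406) (nat_lit 76) (nat_lit 7270120542) (nat_lit 137) (nat_lit 5) (nat_lit 143) (nat_lit 5) (nat_lit 138) (nat_lit 5) (nat_lit 512) (nat_lit 424) (nat_lit 204)) (XT.lf (nat_lit 0) (nat_lit 1719077165) (nat_lit 0) (nat_lit 1719077165) (nat_lit 1596) (nat_lit 1743404360)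 (nat_lit 493) (nat_lit 5) (nat_lit 493) (nat_lit 3) (nat_lit 514) (nat_lit 3) (nat_lit 425) (nat_lit 425) (nat_lit 290))))) (XT.nd (nat_lit 234) (nat_lit 1520) (nat_lit 0) (XT.nd (nat_lit 78) (nat_lit 0) (nat_lit 0) (XT.lf (nat_lit 0) (nat_lit 7598148571) (nat_lit 1596) (nat_lit 1884658115) (nat_lit 1672) (nat_lit 970729136) (nat_lit 493) (nat_lit 5) (nat_lit 514) (nat_lit 3) (nat_lit 515) (nat_lit 5) (nat_lit 426) (nat_lit 425) (nat_lit 289)) (XT.nd (nat_lit 78) (nat_lit 0) (nat_lit 0) (XT.lf (nat_lit 76) (nat_lit 3267659878) (nat_lit 0) (nat_lit 5093842595) (nat_lit 1672) (nat_lit 2183722582) (nat_lit 494) (nat_lit 5) (nat_lit 493) (nat_lit 5) (nat_lit 515) (nat_lit 5) (nat_lit 427) (nat_lit 425) (nat_lit 288)) (XT.lf (nat_lit 76) (nat_lit 8539749935) (nat_lit 0) (nat_lit 596386964) (nat_lit 1672) (nat_lit 1502694794) (nat_lit 494) (nat_lit 5) (nat_lit 493) (nat_lit 5) (nat_lit 515) (nat_lit 5) (nat_lit 428) (nat_lit 425)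 (nat_lit 287)))) (XT.nd (nat_lit 78) (nat_lit 1596) (nat_lit 0) (XT.lf (nat_lit 76) (nat_lit 3189866613) (nat_lit 0) (nat_lit 6766762737) (nat_lit 1672) (nat_lit 777077617) (nat_lit 495) (nat_lit 5) (nat_lit 494) (nat_lit 5) (nat_lit 516) (nat_lit 5) (nat_lit 429) (nat_lit 425) (nat_lit 286)) (XT.nd (nat_lit 78) (nat_lit 1596) (nat_lit 0) (XT.lf (nat_lit 76) (nat_lit 8600076828) (nat_lit 0) (nat_lit 2195467188) (nat_lit 1672) (nat_lit 34899222) (nat_lit 495) (nat_lit 5) (nat_lit 494) (nat_lit 5) (nat_lit 516) (nat_lit 5) (nat_lit 430) (nat_lit 425) (nat_lit 285)) (XT.lf (nat_lit 0) (nat_lit 733986143) (nat_lit 1672) (nat_lit 7727269129) (nat_lit 1748) (nat_lit 2467342100) (nat_lit 473) (nat_lit 5) (nat_lit 495) (nat_lit 5) (nat_lit 496) (nat_lit 5) (nat_lit 431) (nat_lit 425) (nat_lit 284))))))) (XT.nd (nat_lit 936) (nat_lit 3952) (nat_lit 0) (XT.nd (nat_lit 468) (nat_lit 1368) (nat_lit 0) (XT.nd (nat_lit 234) (nat_lit 0) (nat_lit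 76) (XT.nd (nat_lit 78) (nat_lit 0) (nat_lit 76) (XT.lf (nat_lit 0) (nat_lit 1531891274) (nat_lit 1672) (nat_lit 2280699124) (nat_lit 1748) (nat_lit 7215840912) (nat_lit 473) (nat_lit 5) (nat_lit 495) (nat_lit 5) (nat_lit 496) (nat_lit 5) (nat_lit 432) (nat_lit 425) (nat_lit 283)) (XT.nd (nat_lit 78) (nat_lit 0) (nat_lit 0) (XT.lf (nat_lit 0) (nat_lit 2358260151) (nat_lit 1672) (nat_lit 7827273458) (nat_lit 1748) (nat_lit 944481657) (nat_lit 474) (nat_lit 5) (nat_lit 496) (nat_lit 5) (nat_lit 497) (nat_lit 5) (nat_lit 433) (nat_lit 425) (nat_lit 282)) (XT.lf (nat_lit 0) (nat_lit 3226895922) (nat_lit 1672) (nat_lit 2239310450) (nat_lit 1748) (nat_lit 5766913123) (nat_lit 474) (nat_lit 5) (nat_lit 496) (nat_lit 5) (nat_lit 497) (nat_lit 5) (nat_lit 434) (nat_lit 425) (nat_lit 281)))) (XT.nd (nat_lit 78) (nat_lit 0) (nat_lit 76) (XT.lf (nat_lit 76) (nat_lit 3497058344) (nat_lit 0) (nat_lit 623928274) (nat_lit 1748) (nat_lit 7217140867)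 (nat_lit 475) (nat_lit 5) (nat_lit 474) (nat_lit 5) (nat_lit 497) (nat_lit 5) (nat_lit 435) (nat_lit 425) (nat_lit 280)) (XT.nd (nat_lit 78) (nat_lit 0) (nat_lit 0) (XT.lf (nat_lit 0) (nat_lit 5061740976) (nat_lit 1672) (nat_lit 2104025319) (nat_lit 1748) (nat_lit 4278896955) (nat_lit 475) (nat_lit 5) (nat_lit 497) (nat_lit 5) (nat_lit 498) (nat_lit 5) (nat_lit 436) (nat_lit 425) (nat_lit 279)) (XT.lf (nat_lit 76) (nat_lit 3783958070) (nat_lit 0) (nat_lit 2251972160) (nat_lit 1748) (nat_lit 5517110293) (nat_lit 476) (nat_lit 5) (nat_lit 475) (nat_lit 5) (nat_lit 498) (nat_lit 5) (nat_lit 437) (nat_lit 425) (nat_lit 278))))) (XT.nd (nat_lit 234) (nat_lit 1596) (nat_lit 0) (XT.nd (nat_lit 78) (nat_lit 0) (nat_lit 0) (XT.lf (nat_lit 0) (nat_lit 7047902320) (nat_lit 1672) (nat_lit 1872641026) (nat_lit 1748) (nat_lit 2742679144) (nat_lit 476) (nat_lit 5) (nat_lit 498) (nat_lit 5) (nat_lit 499) (nat_lit 5) (nat_lit 438) (nat_lit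 425) (nat_lit 277)) (XT.nd (nat_lit 78) (nat_lit 0) (nat_lit 76) (XT.lf (nat_lit 76) (nat_lit 4172175595) (nat_lit 0) (nat_lit 3936377803) (nat_lit 1748) (nat_lit 3666488971) (nat_lit 477) (nat_lit 5) (nat_lit 476) (nat_lit 5) (nat_lit 499) (nat_lit 5) (nat_lit 439) (nat_lit 425) (nat_lit 276)) (XT.lf (nat_lit 0) (nat_lit 9197186497) (nat_lit 1672) (nat_lit 1542701674) (nat_lit 1748) (nat_lit 1149078101) (nat_lit 477) (nat_lit 5) (nat_lit 499) (nat_lit 5) (nat_lit 500) (nat_lit 5) (nat_lit 440) (nat_lit 425) (nat_lit 275)))) (XT.nd (nat_lit 78) (nat_lit 1672) (nat_lit 0) (XT.lf (nat_lit 76) (nat_lit 4664366434) (nat_lit 0) (nat_lit 5686509325) (nat_lit 1748) (nat_lit 1653430171) (nat_lit 478) (nat_lit 5) (nat_lit 477) (nat_lit 5) (nat_lit 500) (nat_lit 5) (nat_lit 441) (nat_lit 425) (nat_lit 274)) (XT.nd (nat_lit 78) (nat_lit 1672) (nat_lit 0) (XT.lf (nat_lit 76) (nat_lit 11007143940) (nat_lit 0) (nat_lit 517973418) (nat_lit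 1748) (nat_lit 596888341) (nat_lit 478) (nat_lit 5) (nat_lit 477) (nat_lit 5) (nat_lit 500) (nat_lit 5) (nat_lit 442) (nat_lit 425) (nat_lit 273)) (XT.lf (nat_lit 0) (nat_lit 527263816) (nat_lit 1748) (nat_lit 6981037670) (nat_lit 1824) (nat_lit 4732642621) (nat_lit 455) (nat_lit 5) (nat_lit 478) (nat_lit 5) (nat_lit 479) (nat_lit 5) (nat_lit 443) (nat_lit 425) (nat_lit 272)))))) (XT.nd (nat_lit 468) (nat_lit 3952) (nat_lit 0) (XT.nd (nat_lit 234) (nat_lit 0) (nat_lit 152) (XT.nd (nat_lit 78) (nat_lit 0) (nat_lit 76) (XT.lf (nat_lit 0) (nat_lit 1664377621) (nat_lit 1748) (nat_lit 601807079) (nat_lit 1824) (nat_lit 10096030978) (nat_lit 455) (nat_lit 5) (nat_lit 478) (nat_lit 5) (nat_lit 479) (nat_lit 5) (nat_lit 444) (nat_lit 425) (nat_lit 271)) (XT.nd (nat_lit 78) (nat_lit 0) (nat_lit 0) (XT.lf (nat_lit 0) (nat_lit 2871046348) (nat_lit 1748) (nat_lit 6531662314) (nat_lit 1824) (nat_lit 3082270434) (nat_lit 456) (nat_lit 5)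 (nat_lit 479) (nat_lit 5) (nat_lit 480) (nat_lit 5) (nat_lit 445) (nat_lit 425) (nat_lit 270)) (XT.lf (nat_lit 76) (nat_lit 13163504) (nat_lit 0) (nat_lit 4095788740) (nat_lit 1824) (nat_lit 8501106080) (nat_lit 457) (nat_lit 5) (nat_lit 456) (nat_lit 5) (nat_lit 480) (nat_lit 5) (nat_lit 446) (nat_lit 425) (nat_lit 269)))) (XT.nd (nat_lit 78) (nat_lit 0) (nat_lit 0) (XT.lf (nat_lit 0) (nat_lit 5412425504) (nat_lit 1748) (nat_lit 5977932207) (nat_lit 1824) (nat_lit 1346467806) (nat_lit 457) (nat_lit 5) (nat_lit 480) (nat_lit 5) (nat_lit 481) (nat_lit 5) (nat_lit 447) (nat_lit 425) (nat_lit 268)) (XT.nd (nat_lit 78) (nat_lit 0) (nat_lit 0) (XT.lf (nat_lit 76) (nat_lit 746516047) (nat_lit 0) (nat_lit 6015791618) (nat_lit 1824) (nat_lit 6103416114) (nat_lit 458) (nat_lit 5) (nat_lit 457) (nat_lit 5) (nat_lit 481) (nat_lit 5) (nat_lit 448) (nat_lit 425) (nat_lit 267)) (XT.lf (nat_lit 76) (nat_lit 7676988731) (nat_lit 0) (nat_lit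 490848356) (nat_lit 1824) (nat_lit 4828792393) (nat_lit 458) (nat_lit 5) (nat_lit 457) (nat_lit 5) (nat_lit 481) (nat_lit 5) (nat_lit 449) (nat_lit 425) (nat_lit 266))))) (XT.nd (nat_lit 234) (nat_lit 988) (nat_lit 0) (XT.nd (nat_lit 78) (nat_lit 1444) (nat_lit 0) (XT.lf (nat_lit 0) (nat_lit 1593868809) (nat_lit 1748) (nat_lit 8040130749) (nat_lit 1824) (nat_lit 3495505707) (nat_lit 435) (nat_lit 5) (nat_lit 458) (nat_lit 5) (nat_lit 459) (nat_lit 5) (nat_lit 450) (nat_lit 425) (nat_lit 265)) (XT.nd (nat_lit 78) (nat_lit 1444) (nat_lit 0) (XT.lf (nat_lit 0) (nat_lit 8704976147) (nat_lit 1748) (nat_lit 2452366433) (nat_lit 1824) (nat_lit 2107141208) (nat_lit 435) (nat_lit 5) (nat_lit 458) (nat_lit 5) (nat_lit 459) (nat_lit 5) (nat_lit 451) (nat_lit 425) (nat_lit 264)) (XT.lf (nat_lit 0) (nat_lit 2559092939) (nat_lit 1444) (nat_lit 10178915090) (nat_lit 1520) (nat_lit 663619063) (nat_lit 416) (nat_lit 5) (nat_lit 435) (nat_lit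 5) (nat_lit 436) (nat_lit 5) (nat_lit 452) (nat_lit 425) (nat_lit 263)))) (XT.nd (nat_lit 78) (nat_lit 912) (nat_lit 0) (XT.lf (nat_lit 0) (nat_lit 834442111) (nat_lit 1520) (nat_lit 3690338714) (nat_lit 76) (nat_lit 9015904135) (nat_lit 415) (nat_lit 5) (nat_lit 435) (nat_lit 5) (nat_lit 416) (nat_lit 5) (nat_lit 453) (nat_lit 425) (nat_lit 262)) (XT.nd (nat_lit 78) (nat_lit 0) (nat_lit 0) (XT.lf (nat_lit 0) (nat_lit 2374918800) (nat_lit 988) (nat_lit 10051632245) (nat_lit 76) (nat_lit 1255460595) (nat_lit 403) (nat_lit 5) (nat_lit 416) (nat_lit 5) (nat_lit 404) (nat_lit 5) (nat_lit 454) (nat_lit 425) (nat_lit 261)) (XT.lf (nat_lit 0) (nat_lit 3990698191) (nat_lit 988) (nat_lit 2717843867) (nat_lit 76) (nat_lit 7116735079) (nat_lit 403) (nat_lit 5) (nat_lit 416) (nat_lit 5) (nat_lit 404) (nat_lit 5) (nat_lit 455) (nat_lit 425) (nat_lit 260))))))))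
noncomputable def xc192 : XT := (XT.nd (nat_lit 1794) (nat_lit 7144) (nat_lit 0) (XT.nd (nat_lit 858) (nat_lit 5016) (nat_lit 0) (XT.nd (nat_lit 390) (nat_lit 2432) (nat_lit 0) (XT.nd (nat_lit 156) (nat_lit 1748) (nat_lit 0) (XT.nd (nat_lit 78) (nat_lit 0) (nat_lit 0) (XT.lf (nat_lit 0) (nat_lit 4816395782) (nat_lit 912) (nat_lit 843472171) (nat_lit 988) (nat_lit 8311120601) (nat_lit 391) (nat_lit 5) (nat_lit 403) (nat_lit 5) (nat_lit 404) (nat_lit 5) (nat_lit 456) (nat_lit 425) (nat_lit 259)) (XT.lf (nat_lit 0) (nat_lit 7404092810) (nat_lit 988) (nat_lit 1624112567) (nat_lit 76) (nat_lit 5090577450) (nat_lit 391) (nat_lit 5) (nat_lit 404) (nat_lit 5) (nat_lit 392) (nat_lit 5) (nat_lit 457) (nat_lit 425) (nat_lit 258))) (XT.nd (nat_lit 78) (nat_lit 836) (nat_lit 0) (XT.lf (nat_lit 0) (nat_lit 6122335369) (nat_lit 912) (nat_lit 3096347683) (nat_lit 988) (nat_lit 5050142338) (nat_lit 379) (nat_lit 5) (nat_lit 391) (nat_lit 5)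 (nat_lit 392) (nat_lit 5) (nat_lit 458) (nat_lit 425) (nat_lit 257)) (XT.nd (nat_lit 78) (nat_lit 836) (nat_lit 0) (XT.lf (nat_lit 0) (nat_lit 11089996661) (nat_lit 988) (nat_lit 404664960) (nat_lit 76) (nat_lit 2926800537) (nat_lit 379) (nat_lit 5) (nat_lit 392) (nat_lit 5) (nat_lit 380) (nat_lit 5) (nat_lit 459) (nat_lit 425) (nat_lit 256)) (XT.lf (nat_lit 0) (nat_lit 7561356393) (nat_lit 836) (nat_lit 5497450132) (nat_lit 912) (nat_lit 1517145680) (nat_lit 368) (nat_lit 5) (nat_lit 379) (nat_lit 5) (nat_lit 380) (nat_lit 5) (nat_lit 460) (nat_lit 425) (nat_lit 255))))) (XT.nd (nat_lit 234) (nat_lit 760) (nat_lit 0) (XT.nd (nat_lit 78) (nat_lit 760) (nat_lit 0) (XT.lf (nat_lit 0) (nat_lit 332683503) (nat_lit 912) (nat_lit 13777858229) (nat_lit 76) (nat_lit 622876961) (nat_lit 356) (nat_lit 5) (nat_lit 368) (nat_lit 5) (nat_lit 357) (nat_lit 5) (nat_lit 461) (nat_lit 425) (nat_lit 254)) (XT.nd (nat_lit 78) (nat_lit 760) (nat_lit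 0) (XT.lf (nat_lit 0) (nat_lit 2273663112) (nat_lit 912) (nat_lit 5769151364) (nat_lit 76) (nat_lit 6849531932) (nat_lit 356) (nat_lit 5) (nat_lit 368) (nat_lit 5) (nat_lit 357) (nat_lit 5) (nat_lit 462) (nat_lit 425) (nat_lit 253)) (XT.lf (nat_lit 0) (nat_lit 2422186424) (nat_lit 760) (nat_lit 1837844599) (nat_lit 836) (nat_lit 10794292076) (nat_lit 346) (nat_lit 5) (nat_lit 356) (nat_lit 5) (nat_lit 357) (nat_lit 5) (nat_lit 463) (nat_lit 425) (nat_lit 252)))) (XT.nd (nat_lit 78) (nat_lit 760) (nat_lit 0) (XT.lf (nat_lit 0) (nat_lit 6345217139) (nat_lit 836) (nat_lit 4402058629) (nat_lit 76) (nat_lit 4471083500) (nat_lit 346) (nat_lit 5) (nat_lit 357) (nat_lit 5) (nat_lit 347) (nat_lit 5) (nat_lit 464) (nat_lit 425) (nat_lit 251)) (XT.nd (nat_lit 78) (nat_lit 0) (nat_lit 0) (XT.lf (nat_lit 0) (nat_lit 4023979424) (nat_lit 760) (nat_lit 4477562709) (nat_lit 836) (nat_lit 6883547051) (nat_lit 336) (nat_lit 5) (nat_lit 346)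 (nat_lit 5) (nat_lit 347) (nat_lit 5) (nat_lit 465) (nat_lit 425) (nat_lit 250)) (XT.lf (nat_lit 0) (nat_lit 10734428318) (nat_lit 836) (nat_lit 2898357803) (nat_lit 76) (nat_lit 1921700575) (nat_lit 336) (nat_lit 5) (nat_lit 347) (nat_lit 5) (nat_lit 337) (nat_lit 5) (nat_lit 466) (nat_lit 425) (nat_lit 249)))))) (XT.nd (nat_lit 468) (nat_lit 2052) (nat_lit 0) (XT.nd (nat_lit 234) (nat_lit 1368) (nat_lit 0) (XT.nd (nat_lit 78) (nat_lit 836) (nat_lit 0) (XT.lf (nat_lit 0) (nat_lit 5770502532) (nat_lit 760) (nat_lit 7300008906) (nat_lit 836) (nat_lit 2655591595) (nat_lit 326) (nat_lit 5) (nat_lit 336) (nat_lit 5) (nat_lit 337) (nat_lit 5) (nat_lit 467) (nat_lit 425) (nat_lit 248)) (XT.nd (nat_lit 78) (nat_lit 836) (nat_lit 0) (XT.lf (nat_lit 0) (nat_lit 14642913335) (nat_lit 760) (nat_lit 821381987) (nat_lit 836) (nat_lit 436638421) (nat_lit 326) (nat_lit 5) (nat_lit 336) (nat_lit 5) (nat_lit 337) (nat_lit 5) (nat_lit 468) (nat_lit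 425) (nat_lit 247)) (XT.lf (nat_lit 0) (nat_lit 1882303579) (nat_lit 836) (nat_lit 8422666189) (nat_lit 76) (nat_lit 5772464316) (nat_lit 315) (nat_lit 5) (nat_lit 326) (nat_lit 5) (nat_lit 316) (nat_lit 5) (nat_lit 469) (nat_lit 425) (nat_lit 246)))) (XT.nd (nat_lit 78) (nat_lit 684) (nat_lit 0) (XT.lf (nat_lit 0) (nat_lit 494516636) (nat_lit 684) (nat_lit 3756154815) (nat_lit 760) (nat_lit 12006558919) (nat_lit 306) (nat_lit 5) (nat_lit 315) (nat_lit 5) (nat_lit 316) (nat_lit 5) (nat_lit 470) (nat_lit 425) (nat_lit 245)) (XT.nd (nat_lit 78) (nat_lit 684) (nat_lit 0) (XT.lf (nat_lit 0) (nat_lit 6734120498) (nat_lit 760) (nat_lit 6763883512) (nat_lit 76) (nat_lit 2941265798) (nat_lit 306) (nat_lit 5) (nat_lit 316) (nat_lit 5) (nat_lit 307) (nat_lit 5) (nat_lit 471) (nat_lit 425) (nat_lit 244)) (XT.lf (nat_lit 0) (nat_lit 2412622029) (nat_lit 684) (nat_lit 6887152896) (nat_lit 760) (nat_lit 7324525855) (nat_lit 297) (nat_lit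 5) (nat_lit 306) (nat_lit 5) (nat_lit 307) (nat_lit 5) (nat_lit 472) (nat_lit 425) (nat_lit 243))))) (XT.nd (nat_lit 234) (nat_lit 1292) (nat_lit 0) (XT.nd (nat_lit 78) (nat_lit 760) (nat_lit 0) (XT.lf (nat_lit 0) (nat_lit 11855335502) (nat_lit 684) (nat_lit 98891455) (nat_lit 760) (nat_lit 4858057169) (nat_lit 297) (nat_lit 5) (nat_lit 306) (nat_lit 5) (nat_lit 307) (nat_lit 5) (nat_lit 473) (nat_lit 425) (nat_lit 242)) (XT.nd (nat_lit 78) (nat_lit 76) (nat_lit 0) (XT.lf (nat_lit 0) (nat_lit 4488448457) (nat_lit 684) (nat_lit 10239018126) (nat_lit 760) (nat_lit 2275247999) (nat_lit 288) (nat_lit 5) (nat_lit 297) (nat_lit 5) (nat_lit 298) (nat_lit 5) (nat_lit 474) (nat_lit 425) (nat_lit 241)) (XT.lf (nat_lit 0) (nat_lit 380930401) (nat_lit 760) (nat_lit 3018575578) (nat_lit 76) (nat_lit 13796873900) (nat_lit 287) (nat_lit 5) (nat_lit 297) (nat_lit 5) (nat_lit 288) (nat_lit 5) (nat_lit 475) (nat_lit 425) (nat_lit 240)))) (XT.nd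 (nat_lit 78) (nat_lit 608) (nat_lit 0) (XT.lf (nat_lit 0) (nat_lit 3119540355) (nat_lit 760) (nat_lit 10685104043) (nat_lit 76) (nat_lit 3587779160) (nat_lit 278) (nat_lit 5) (nat_lit 288) (nat_lit 5) (nat_lit 279) (nat_lit 5) (nat_lit 476) (nat_lit 425) (nat_lit 239)) (XT.nd (nat_lit 78) (nat_lit 608) (nat_lit 0) (XT.lf (nat_lit 0) (nat_lit 5948345420) (nat_lit 760) (nat_lit 954913264) (nat_lit 76) (nat_lit 10688422278) (nat_lit 278) (nat_lit 5) (nat_lit 288) (nat_lit 5) (nat_lit 279) (nat_lit 5) (nat_lit 477) (nat_lit 425) (nat_lit 238)) (XT.lf (nat_lit 0) (nat_lit 8886612468) (nat_lit 684) (nat_lit 8714945418) (nat_lit 76) (nat_lit 192309191) (nat_lit 270) (nat_lit 5) (nat_lit 279) (nat_lit 5) (nat_lit 271) (nat_lit 5) (nat_lit 478) (nat_lit 425) (nat_lit 237))))))) (XT.nd (nat_lit 858) (nat_lit 3496) (nat_lit 0) (XT.nd (nat_lit 390) (nat_lit 1748) (nat_lit 0) (XT.nd (nat_lit 156) (nat_lit 1292) (nat_lit 0) (XT.nd (nat_lit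 78) (nat_lit 0) (nat_lit 0) (XT.lf (nat_lit 0) (nat_lit 1288714033) (nat_lit 608) (nat_lit 10648209174) (nat_lit 684) (nat_lit 6062109399) (nat_lit 262) (nat_lit 5) (nat_lit 270) (nat_lit 5) (nat_lit 271) (nat_lit 5) (nat_lit 479) (nat_lit 425) (nat_lit 236)) (XT.lf (nat_lit 0) (nat_lit 11601801263) (nat_lit 608) (nat_lit 3497749862) (nat_lit 684) (nat_lit 3107725335) (nat_lit 262) (nat_lit 5) (nat_lit 270) (nat_lit 5) (nat_lit 271) (nat_lit 5) (nat_lit 480) (nat_lit 425) (nat_lit 235))) (XT.nd (nat_lit 78) (nat_lit 684) (nat_lit 0) (XT.lf (nat_lit 0) (nat_lit 3716829371) (nat_lit 608) (nat_lit 14650338137) (nat_lit 684) (nat_lit 51684171) (nat_lit 254) (nat_lit 5) (nat_lit 262) (nat_lit 5) (nat_lit 263) (nat_lit 5) (nat_lit 481) (nat_lit 425) (nat_lit 234)) (XT.nd (nat_lit 78) (nat_lit 608) (nat_lit 0) (XT.lf (nat_lit 0) (nat_lit 3086051091) (nat_lit 684) (nat_lit 4350788485) (nat_lit 76) (nat_lit 11196206377) (nat_lit 253)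 (nat_lit 5) (nat_lit 262) (nat_lit 5) (nat_lit 254) (nat_lit 5) (nat_lit 482) (nat_lit 425) (nat_lit 233)) (XT.lf (nat_lit 0) (nat_lit 6280899908) (nat_lit 608) (nat_lit 38860787) (nat_lit 684) (nat_lit 12531079488) (nat_lit 245) (nat_lit 5) (nat_lit 253) (nat_lit 5) (nat_lit 254) (nat_lit 5) (nat_lit 483) (nat_lit 425) (nat_lit 232))))) (XT.nd (nat_lit 234) (nat_lit 608) (nat_lit 0) (XT.nd (nat_lit 78) (nat_lit 1140) (nat_lit 0) (XT.lf (nat_lit 0) (nat_lit 9689473910) (nat_lit 684) (nat_lit 1945814365) (nat_lit 76) (nat_lit 7436276553) (nat_lit 245) (nat_lit 5) (nat_lit 254) (nat_lit 5) (nat_lit 246) (nat_lit 5) (nat_lit 484) (nat_lit 425) (nat_lit 231)) (XT.nd (nat_lit 78) (nat_lit 608) (nat_lit 0) (XT.lf (nat_lit 0) (nat_lit 9000072451) (nat_lit 532) (nat_lit 4178533143) (nat_lit 608) (nat_lit 6117058982) (nat_lit 238) (nat_lit 5) (nat_lit 245) (nat_lit 5) (nat_lit 246) (nat_lit 5) (nat_lit 485) (nat_lit 425) (nat_lit 230))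 (XT.lf (nat_lit 0) (nat_lit 644818865) (nat_lit 608) (nat_lit 16125680496) (nat_lit 684) (nat_lit 2753088441) (nat_lit 230) (nat_lit 5) (nat_lit 238) (nat_lit 5) (nat_lit 239) (nat_lit 5) (nat_lit 486) (nat_lit 425) (nat_lit 229)))) (XT.nd (nat_lit 78) (nat_lit 532) (nat_lit 0) (XT.lf (nat_lit 0) (nat_lit 759912310) (nat_lit 684) (nat_lit 7852221995) (nat_lit 76) (nat_lit 11142035258) (nat_lit 229) (nat_lit 5) (nat_lit 238) (nat_lit 5) (nat_lit 230) (nat_lit 5) (nat_lit 487) (nat_lit 425) (nat_lit 228)) (XT.nd (nat_lit 78) (nat_lit 0) (nat_lit 0) (XT.lf (nat_lit 0) (nat_lit 3412954838) (nat_lit 532) (nat_lit 909103129) (nat_lit 608) (nat_lit 15666627071) (nat_lit 222) (nat_lit 5) (nat_lit 229) (nat_lit 5) (nat_lit 230) (nat_lit 5) (nat_lit 488) (nat_lit 425) (nat_lit 227)) (XT.lf (nat_lit 0) (nat_lit 8047213106) (nat_lit 608) (nat_lit 5270912916) (nat_lit 76) (nat_lit 6907930461) (nat_lit 222) (nat_lit 5) (nat_lit 230) (nat_lit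 5) (nat_lit 223) (nat_lit 5) (nat_lit 489) (nat_lit 425) (nat_lit 226)))))) (XT.nd (nat_lit 468) (nat_lit 1444) (nat_lit 0) (XT.nd (nat_lit 234) (nat_lit 1064) (nat_lit 0) (XT.nd (nat_lit 78) (nat_lit 456) (nat_lit 0) (XT.lf (nat_lit 0) (nat_lit 6328657944) (nat_lit 532) (nat_lit 5559063130) (nat_lit 608) (nat_lit 8579638261) (nat_lit 215) (nat_lit 5) (nat_lit 222) (nat_lit 5) (nat_lit 223) (nat_lit 5) (nat_lit 490) (nat_lit 425) (nat_lit 225)) (XT.nd (nat_lit 78) (nat_lit 456) (nat_lit 0) (XT.lf (nat_lit 0) (nat_lit 15849730355) (nat_lit 608) (nat_lit 2505017880) (nat_lit 76) (nat_lit 2357847138) (nat_lit 215) (nat_lit 5) (nat_lit 223) (nat_lit 5) (nat_lit 216) (nat_lit 5) (nat_lit 491) (nat_lit 425) (nat_lit 224)) (XT.lf (nat_lit 0) (nat_lit 9440117225) (nat_lit 456) (nat_lit 10542885668) (nat_lit 532) (nat_lit 977893711) (nat_lit 209) (nat_lit 5) (nat_lit 215) (nat_lit 5) (nat_lit 216) (nat_lit 5) (nat_lit 492) (nat_lit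 425) (nat_lit 223)))) (XT.nd (nat_lit 78) (nat_lit 456) (nat_lit 0) (XT.lf (nat_lit 0) (nat_lit 422085522) (nat_lit 532) (nat_lit 2537149503) (nat_lit 608) (nat_lit 18254270073) (nat_lit 201) (nat_lit 5) (nat_lit 208) (nat_lit 5) (nat_lit 209) (nat_lit 5) (nat_lit 493) (nat_lit 425) (nat_lit 222)) (XT.nd (nat_lit 78) (nat_lit 456) (nat_lit 0) (XT.lf (nat_lit 0) (nat_lit 7070385798) (nat_lit 608) (nat_lit 8761473510) (nat_lit 76) (nat_lit 5637010587) (nat_lit 201) (nat_lit 5) (nat_lit 209) (nat_lit 5) (nat_lit 202) (nat_lit 5) (nat_lit 494) (nat_lit 425) (nat_lit 221)) (XT.lf (nat_lit 0) (nat_lit 3530438651) (nat_lit 456) (nat_lit 7767156444) (nat_lit 532) (nat_lit 10431071046) (nat_lit 195) (nat_lit 5) (nat_lit 201) (nat_lit 5) (nat_lit 202) (nat_lit 5) (nat_lit 495) (nat_lit 425) (nat_lit 220))))) (XT.nd (nat_lit 234) (nat_lit 912) (nat_lit 0) (XT.nd (nat_lit 78) (nat_lit 532) (nat_lit 0) (XT.lf (nat_lit 0) (nat_lit 15665670762)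 (nat_lit 532) (nat_lit 5817079832) (nat_lit 76) (nat_lit 509782121) (nat_lit 195) (nat_lit 5) (nat_lit 202) (nat_lit 5) (nat_lit 196) (nat_lit 5) (nat_lit 496) (nat_lit 425) (nat_lit 219)) (XT.nd (nat_lit 78) (nat_lit 76) (nat_lit 0) (XT.lf (nat_lit 0) (nat_lit 6841964613) (nat_lit 456) (nat_lit 13369278163) (nat_lit 532) (nat_lit 2048631977) (nat_lit 189) (nat_lit 5) (nat_lit 195) (nat_lit 5) (nat_lit 196) (nat_lit 5) (nat_lit 497) (nat_lit 425) (nat_lit 218)) (XT.lf (nat_lit 0) (nat_lit 2318389357) (nat_lit 532) (nat_lit 2722076472) (nat_lit 76) (nat_lit 17491126160) (nat_lit 188) (nat_lit 5) (nat_lit 195) (nat_lit 5) (nat_lit 189) (nat_lit 5) (nat_lit 498) (nat_lit 425) (nat_lit 217)))) (XT.nd (nat_lit 78) (nat_lit 456) (nat_lit 0) (XT.lf (nat_lit 0) (nat_lit 6829851213) (nat_lit 532) (nat_lit 12488338848) (nat_lit 76) (nat_lit 3488592834) (nat_lit 182) (nat_lit 5) (nat_lit 189) (nat_lit 5) (nat_lit 183) (nat_lit 5) (nat_lit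 499) (nat_lit 425) (nat_lit 216)) (XT.nd (nat_lit 78) (nat_lit 0) (nat_lit 0) (XT.lf (nat_lit 0) (nat_lit 535145855) (nat_lit 456) (nat_lit 10946091082) (nat_lit 532) (nat_lit 11605247557) (nat_lit 176) (nat_lit 5) (nat_lit 182) (nat_lit 5) (nat_lit 183) (nat_lit 5) (nat_lit 500) (nat_lit 425) (nat_lit 215)) (XT.lf (nat_lit 0) (nat_lit 13980502867) (nat_lit 456) (nat_lit 2323460461) (nat_lit 532) (nat_lit 7066251289) (nat_lit 176) (nat_lit 5) (nat_lit 182) (nat_lit 5) (nat_lit 183) (nat_lit 5) (nat_lit 501) (nat_lit 425) (nat_lit 214))))))))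
noncomputable def xc193 : XT := (XT.nd (nat_lit 54366) (nat_lit 0) (nat_lit 17100) (XT.nd (nat_lit 53430) (nat_lit 0) (nat_lit 25004) (XT.nd (nat_lit 390) (nat_lit 1216) (nat_lit 0) (XT.nd (nat_lit 156) (nat_lit 836) (nat_lit 0) (XT.nd (nat_lit 78) (nat_lit 76) (nat_lit 0) (XT.lf (nat_lit 0) (nat_lit 4038273517) (nat_lit 380) (nat_lit 17247710016) (nat_lit 456) (nat_lit 2372379759) (nat_lit 171) (nat_lit 5) (nat_lit 176) (nat_lit 5) (nat_lit 177) (nat_lit 5) (nat_lit 502) (nat_lit 425) (nat_lit 213)) (XT.lf (nat_lit 0) (nat_lit 2457126931) (nat_lit 456) (nat_lit 6128242380) (nat_lit 76) (nat_lit 15365123981) (nat_lit 170) (nat_lit 5) (nat_lit 176) (nat_lit 5) (nat_lit 171) (nat_lit 5) (nat_lit 503) (nat_lit 425) (nat_lit 212))) (XT.nd (nat_lit 78) (nat_lit 380) (nat_lit 0) (XT.lf (nat_lit 0) (nat_lit 7398324750) (nat_lit 532) (nat_lit 16538122508) (nat_lit 76) (nat_lit 310768357) (nat_lit 164) (nat_lit 5) (nat_lit 171) (nat_lit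 5) (nat_lit 165) (nat_lit 5) (nat_lit 504) (nat_lit 425) (nat_lit 211)) (XT.nd (nat_lit 78) (nat_lit 380) (nat_lit 0) (XT.lf (nat_lit 0) (nat_lit 12531364335) (nat_lit 532) (nat_lit 2707658381) (nat_lit 76) (nat_lit 9308989993) (nat_lit 164) (nat_lit 5) (nat_lit 171) (nat_lit 5) (nat_lit 165) (nat_lit 5) (nat_lit 505) (nat_lit 425) (nat_lit 210)) (XT.lf (nat_lit 0) (nat_lit 11543233451) (nat_lit 380) (nat_lit 6293645221) (nat_lit 456) (nat_lit 7016551460) (nat_lit 159) (nat_lit 5) (nat_lit 164) (nat_lit 5) (nat_lit 165) (nat_lit 5) (nat_lit 506) (nat_lit 425) (nat_lit 209))))) (XT.nd (nat_lit 234) (nat_lit 380) (nat_lit 0) (XT.nd (nat_lit 78) (nat_lit 456) (nat_lit 0) (XT.lf (nat_lit 0) (nat_lit 937439864) (nat_lit 380) (nat_lit 22348722008) (nat_lit 456) (nat_lit 1878041513) (nat_lit 154) (nat_lit 5) (nat_lit 159) (nat_lit 5) (nat_lit 160) (nat_lit 5) (nat_lit 507) (nat_lit 425) (nat_lit 208)) (XT.nd (nat_lit 78) (nat_lit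 380) (nat_lit 0) (XT.lf (nat_lit 0) (nat_lit 3445639220) (nat_lit 456) (nat_lit 9900688848) (nat_lit 76) (nat_lit 12131897737) (nat_lit 153) (nat_lit 5) (nat_lit 159) (nat_lit 5) (nat_lit 154) (nat_lit 5) (nat_lit 508) (nat_lit 425) (nat_lit 207)) (XT.lf (nat_lit 0) (nat_lit 4754345812) (nat_lit 380) (nat_lit 4122212617) (nat_lit 456) (nat_lit 16921204347) (nat_lit 148) (nat_lit 5) (nat_lit 153) (nat_lit 5) (nat_lit 154) (nat_lit 5) (nat_lit 509) (nat_lit 425) (nat_lit 206)))) (XT.nd (nat_lit 78) (nat_lit 380) (nat_lit 0) (XT.lf (nat_lit 0) (nat_lit 14512350720) (nat_lit 456) (nat_lit 6327948856) (nat_lit 76) (nat_lit 5281466420) (nat_lit 148) (nat_lit 5) (nat_lit 154) (nat_lit 5) (nat_lit 149) (nat_lit 5) (nat_lit 510) (nat_lit 425) (nat_lit 205)) (XT.nd (nat_lit 78) (nat_lit 0) (nat_lit 0) (XT.lf (nat_lit 0) (nat_lit 8762080708) (nat_lit 380) (nat_lit 11578116960) (nat_lit 456) (nat_lit 6110465429) (nat_lit 143) (nat_lit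 5) (nat_lit 148) (nat_lit 5) (nat_lit 149) (nat_lit 5) (nat_lit 511) (nat_lit 425) (nat_lit 204)) (XT.lf (nat_lit 0) (nat_lit 24232371580) (nat_lit 380) (nat_lit 2089891587) (nat_lit 456) (nat_lit 463122321) (nat_lit 143) (nat_lit 5) (nat_lit 148) (nat_lit 5) (nat_lit 149) (nat_lit 5) (nat_lit 512) (nat_lit 425) (nat_lit 203)))))) (XT.nd (nat_lit 468) (nat_lit 0) (nat_lit 76) (XT.nd (nat_lit 234) (nat_lit 1596) (nat_lit 0) (XT.nd (nat_lit 78) (nat_lit 0) (nat_lit 0) (XT.lf (nat_lit 0) (nat_lit 2074704560) (nat_lit 0) (nat_lit 2074704560) (nat_lit 1596) (nat_lit 1122780694) (nat_lit 493) (nat_lit 5) (nat_lit 493) (nat_lit 3) (nat_lit 514) (nat_lit 3) (nat_lit 426) (nat_lit 426) (nat_lit 288)) (XT.nd (nat_lit 78) (nat_lit 0) (nat_lit 0) (XT.lf (nat_lit 0) (nat_lit 9005809511) (nat_lit 1596) (nat_lit 1262877471) (nat_lit 1672) (nat_lit 368511061) (nat_lit 493) (nat_lit 5) (nat_lit 514) (nat_lit 3) (nat_lit 515) (nat_lit 5) (nat_lit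 427) (nat_lit 426) (nat_lit 287)) (XT.lf (nat_lit 76) (nat_lit 3988148238) (nat_lit 0) (nat_lit 5775914296) (nat_lit 1672) (nat_lit 967071661) (nat_lit 494) (nat_lit 5) (nat_lit 493) (nat_lit 5) (nat_lit 515) (nat_lit 5) (nat_lit 428) (nat_lit 426) (nat_lit 286)))) (XT.nd (nat_lit 78) (nat_lit 1596) (nat_lit 0) (XT.lf (nat_lit 76) (nat_lit 9352834308) (nat_lit 0) (nat_lit 1177133183) (nat_lit 1672) (nat_lit 297135579) (nat_lit 494) (nat_lit 5) (nat_lit 493) (nat_lit 5) (nat_lit 515) (nat_lit 5) (nat_lit 429) (nat_lit 426) (nat_lit 285)) (XT.nd (nat_lit 78) (nat_lit 0) (nat_lit 0) (XT.lf (nat_lit 0) (nat_lit 413982579) (nat_lit 1672) (nat_lit 7007325219) (nat_lit 1748) (nat_lit 3502979999) (nat_lit 472) (nat_lit 5) (nat_lit 494) (nat_lit 5) (nat_lit 495) (nat_lit 5) (nat_lit 430) (nat_lit 426) (nat_lit 284)) (XT.lf (nat_lit 0) (nat_lit 1137621035) (nat_lit 1672) (nat_lit 1605874252) (nat_lit 1748) (nat_lit 8279839640) (nat_lit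 472) (nat_lit 5) (nat_lit 494) (nat_lit 5) (nat_lit 495) (nat_lit 5) (nat_lit 431) (nat_lit 426) (nat_lit 283))))) (XT.nd (nat_lit 234) (nat_lit 0) (nat_lit 76) (XT.nd (nat_lit 78) (nat_lit 0) (nat_lit 0) (XT.lf (nat_lit 0) (nat_lit 1899557461) (nat_lit 1672) (nat_lit 7190824824) (nat_lit 1748) (nat_lit 2033507663) (nat_lit 473) (nat_lit 5) (nat_lit 495) (nat_lit 5) (nat_lit 496) (nat_lit 5) (nat_lit 432) (nat_lit 426) (nat_lit 282)) (XT.nd (nat_lit 78) (nat_lit 0) (nat_lit 76) (XT.lf (nat_lit 0) (nat_lit 2690854193) (nat_lit 1672) (nat_lit 1648872237) (nat_lit 1748) (nat_lit 6886450594) (nat_lit 473) (nat_lit 5) (nat_lit 495) (nat_lit 5) (nat_lit 496) (nat_lit 5) (nat_lit 433) (nat_lit 426) (nat_lit 281)) (XT.lf (nat_lit 0) (nat_lit 3513154783) (nat_lit 1672) (nat_lit 7285531009) (nat_lit 1748) (nat_lit 531523808) (nat_lit 474) (nat_lit 5) (nat_lit 496) (nat_lit 5) (nat_lit 497) (nat_lit 5) (nat_lit 434) (nat_lit 426) (nat_lit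 280)))) (XT.nd (nat_lit 78) (nat_lit 0) (nat_lit 0) (XT.lf (nat_lit 0) (nat_lit 4377443085) (nat_lit 1672) (nat_lit 1599500661) (nat_lit 1748) (nat_lit 5458871501) (nat_lit 474) (nat_lit 5) (nat_lit 496) (nat_lit 5) (nat_lit 497) (nat_lit 5) (nat_lit 435) (nat_lit 426) (nat_lit 279)) (XT.nd (nat_lit 78) (nat_lit 0) (nat_lit 76) (XT.lf (nat_lit 76) (nat_lit 4247091588) (nat_lit 0) (nat_lit 1025445316) (nat_lit 1748) (nat_lit 6270728897) (nat_lit 475) (nat_lit 5) (nat_lit 474) (nat_lit 5) (nat_lit 497) (nat_lit 5) (nat_lit 436) (nat_lit 426) (nat_lit 278)) (XT.lf (nat_lit 0) (nat_lit 6208666636) (nat_lit 1672) (nat_lit 1455672291) (nat_lit 1748) (nat_lit 3988066887) (nat_lit 475) (nat_lit 5) (nat_lit 497) (nat_lit 5) (nat_lit 498) (nat_lit 5) (nat_lit 437) (nat_lit 426) (nat_lit 277))))))) (XT.nd (nat_lit 936) (nat_lit 6536) (nat_lit 0) (XT.nd (nat_lit 468) (nat_lit 0) (nat_lit 76) (XT.nd (nat_lit 234) (nat_lit 1596) (nat_lit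 0) (XT.nd (nat_lit 78) (nat_lit 0) (nat_lit 76) (XT.lf (nat_lit 76) (nat_lit 4545528441) (nat_lit 0) (nat_lit 2640760754) (nat_lit 1748) (nat_lit 4576987093) (nat_lit 476) (nat_lit 5) (nat_lit 475) (nat_lit 5) (nat_lit 498) (nat_lit 5) (nat_lit 438) (nat_lit 426) (nat_lit 276)) (XT.nd (nat_lit 78) (nat_lit 0) (nat_lit 0) (XT.lf (nat_lit 0) (nat_lit 8196123614) (nat_lit 1672) (nat_lit 1215046686) (nat_lit 1748) (nat_lit 2464943689) (nat_lit 476) (nat_lit 5) (nat_lit 498) (nat_lit 5) (nat_lit 499) (nat_lit 5) (nat_lit 439) (nat_lit 426) (nat_lit 275)) (XT.lf (nat_lit 76) (nat_lit 4946093589) (nat_lit 0) (nat_lit 4316626884) (nat_lit 1748) (nat_lit 2727759603) (nat_lit 477) (nat_lit 5) (nat_lit 476) (nat_lit 5) (nat_lit 499) (nat_lit 5) (nat_lit 440) (nat_lit 426) (nat_lit 274)))) (XT.nd (nat_lit 78) (nat_lit 1748) (nat_lit 0) (XT.lf (nat_lit 0) (nat_lit 10351756039) (nat_lit 1672) (nat_lit 875030903) (nat_lit 1748) (nat_lit 880327295)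 (nat_lit 477) (nat_lit 5) (nat_lit 499) (nat_lit 5) (nat_lit 500) (nat_lit 5) (nat_lit 441) (nat_lit 426) (nat_lit 273)) (XT.nd (nat_lit 78) (nat_lit 1748) (nat_lit 0) (XT.lf (nat_lit 76) (nat_lit 5451583009) (nat_lit 0) (nat_lit 6062409647) (nat_lit 1748) (nat_lit 711062851) (nat_lit 478) (nat_lit 5) (nat_lit 477) (nat_lit 5) (nat_lit 500) (nat_lit 5) (nat_lit 442) (nat_lit 426) (nat_lit 272)) (XT.lf (nat_lit 0) (nat_lit 342926310) (nat_lit 1748) (nat_lit 440134905) (nat_lit 1824) (nat_lit 11562382083) (nat_lit 454) (nat_lit 5) (nat_lit 477) (nat_lit 5) (nat_lit 478) (nat_lit 5) (nat_lit 443) (nat_lit 426) (nat_lit 271))))) (XT.nd (nat_lit 234) (nat_lit 0) (nat_lit 76) (XT.nd (nat_lit 78) (nat_lit 0) (nat_lit 0) (XT.lf (nat_lit 0) (nat_lit 1465975507) (nat_lit 1748) (nat_lit 6411783918) (nat_lit 1824) (nat_lit 4589238057) (nat_lit 455) (nat_lit 5) (nat_lit 478) (nat_lit 5) (nat_lit 479) (nat_lit 5) (nat_lit 444) (nat_lit 426)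 (nat_lit 270)) (XT.nd (nat_lit 78) (nat_lit 0) (nat_lit 76) (XT.lf (nat_lit 76) (nat_lit 82209982) (nat_lit 0) (nat_lit 2525956025) (nat_lit 1824) (nat_lit 9982885753) (nat_lit 456) (nat_lit 5) (nat_lit 455) (nat_lit 5) (nat_lit 479) (nat_lit 5) (nat_lit 445) (nat_lit 426) (nat_lit 269)) (XT.lf (nat_lit 0) (nat_lit 3823735594) (nat_lit 1748) (nat_lit 5952427474) (nat_lit 1824) (nat_lit 2940415916) (nat_lit 456) (nat_lit 5) (nat_lit 479) (nat_lit 5) (nat_lit 480) (nat_lit 5) (nat_lit 446) (nat_lit 426) (nat_lit 268)))) (XT.nd (nat_lit 78) (nat_lit 0) (nat_lit 76) (XT.lf (nat_lit 76) (nat_lit 718624676) (nat_lit 0) (nat_lit 4354799264) (nat_lit 1824) (nat_lit 7770999180) (nat_lit 457) (nat_lit 5) (nat_lit 456) (nat_lit 5) (nat_lit 480) (nat_lit 5) (nat_lit 447) (nat_lit 426) (nat_lit 267)) (XT.nd (nat_lit 78) (nat_lit 0) (nat_lit 0) (XT.lf (nat_lit 0) (nat_lit 6384539537) (nat_lit 1748) (nat_lit 5387506451) (nat_lit 1824) (nat_lit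 1202051946) (nat_lit 457) (nat_lit 5) (nat_lit 480) (nat_lit 5) (nat_lit 481) (nat_lit 5) (nat_lit 448) (nat_lit 426) (nat_lit 266)) (XT.lf (nat_lit 76) (nat_lit 1466759818) (nat_lit 0) (nat_lit 6282300347) (nat_lit 1824) (nat_lit 5356764844) (nat_lit 458) (nat_lit 5) (nat_lit 457) (nat_lit 5) (nat_lit 481) (nat_lit 5) (nat_lit 449) (nat_lit 426) (nat_lit 265)))))) (XT.nd (nat_lit 468) (nat_lit 2660) (nat_lit 0) (XT.nd (nat_lit 234) (nat_lit 2432) (nat_lit 0) (XT.nd (nat_lit 78) (nat_lit 1672) (nat_lit 0) (XT.lf (nat_lit 76) (nat_lit 8522012281) (nat_lit 0) (nat_lit 643991693) (nat_lit 1824) (nat_lit 4073682365) (nat_lit 458) (nat_lit 5) (nat_lit 457) (nat_lit 5) (nat_lit 481) (nat_lit 5) (nat_lit 450) (nat_lit 426) (nat_lit 264)) (XT.nd (nat_lit 78) (nat_lit 0) (nat_lit 0) (XT.lf (nat_lit 0) (nat_lit 2330369879) (nat_lit 1748) (nat_lit 8318413548) (nat_lit 1824) (nat_lit 2726693856) (nat_lit 435) (nat_lit 5) (nat_lit 458)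 (nat_lit 5) (nat_lit 459) (nat_lit 5) (nat_lit 451) (nat_lit 426) (nat_lit 263)) (XT.lf (nat_lit 0) (nat_lit 9569883213) (nat_lit 1748) (nat_lit 2616590413) (nat_lit 1824) (nat_lit 1327007596) (nat_lit 435) (nat_lit 5) (nat_lit 458) (nat_lit 5) (nat_lit 459) (nat_lit 5) (nat_lit 452) (nat_lit 426) (nat_lit 262)))) (XT.nd (nat_lit 78) (nat_lit 912) (nat_lit 0) (XT.lf (nat_lit 0) (nat_lit 131424450) (nat_lit 1520) (nat_lit 10341009341) (nat_lit 76) (nat_lit 3181159116) (nat_lit 415) (nat_lit 5) (nat_lit 435) (nat_lit 5) (nat_lit 416) (nat_lit 5) (nat_lit 453) (nat_lit 426) (nat_lit 261)) (XT.nd (nat_lit 78) (nat_lit 912) (nat_lit 0) (XT.lf (nat_lit 0) (nat_lit 1634894034) (nat_lit 1520) (nat_lit 3064164442) (nat_lit 76) (nat_lit 9096602316) (nat_lit 415) (nat_lit 5) (nat_lit 435) (nat_lit 5) (nat_lit 416) (nat_lit 5) (nat_lit 454) (nat_lit 426) (nat_lit 260)) (XT.lf (nat_lit 0) (nat_lit 3194823792) (nat_lit 988) (nat_lit 9541167962)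 (nat_lit 76) (nat_lit 1204052570) (nat_lit 403) (nat_lit 5) (nat_lit 416) (nat_lit 5) (nat_lit 404) (nat_lit 5) (nat_lit 455) (nat_lit 426) (nat_lit 259))))) (XT.nd (nat_lit 234) (nat_lit 1748) (nat_lit 0) (XT.nd (nat_lit 78) (nat_lit 912) (nat_lit 0) (XT.lf (nat_lit 0) (nat_lit 4827773544) (nat_lit 988) (nat_lit 2074654737) (nat_lit 76) (nat_lit 7184052881) (nat_lit 403) (nat_lit 5) (nat_lit 416) (nat_lit 5) (nat_lit 404) (nat_lit 5) (nat_lit 456) (nat_lit 426) (nat_lit 258)) (XT.nd (nat_lit 78) (nat_lit 0) (nat_lit 0) (XT.lf (nat_lit 0) (nat_lit 5605680586) (nat_lit 912) (nat_lit 914296987) (nat_lit 988) (nat_lit 7715339280) (nat_lit 391) (nat_lit 5) (nat_lit 403) (nat_lit 5) (nat_lit 404) (nat_lit 5) (nat_lit 457) (nat_lit 426) (nat_lit 257)) (XT.lf (nat_lit 0) (nat_lit 8284098144) (nat_lit 988) (nat_lit 962086315) (nat_lit 76) (nat_lit 5140185334) (nat_lit 391) (nat_lit 5) (nat_lit 404) (nat_lit 5) (nat_lit 392) (nat_lit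 5) (nat_lit 458) (nat_lit 426) (nat_lit 256)))) (XT.nd (nat_lit 78) (nat_lit 836) (nat_lit 0) (XT.lf (nat_lit 0) (nat_lit 6934721446) (nat_lit 912) (nat_lit 3190386849) (nat_lit 988) (nat_lit 4414505296) (nat_lit 379) (nat_lit 5) (nat_lit 391) (nat_lit 5) (nat_lit 392) (nat_lit 5) (nat_lit 459) (nat_lit 426) (nat_lit 255)) (XT.nd (nat_lit 78) (nat_lit 0) (nat_lit 0) (XT.lf (nat_lit 0) (nat_lit 281856148) (nat_lit 836) (nat_lit 11739459745) (nat_lit 912) (nat_lit 2674240735) (nat_lit 368) (nat_lit 5) (nat_lit 379) (nat_lit 5) (nat_lit 380) (nat_lit 5) (nat_lit 460) (nat_lit 426) (nat_lit 254)) (XT.lf (nat_lit 0) (nat_lit 8398955823) (nat_lit 836) (nat_lit 5619296258) (nat_lit 912) (nat_lit 835112223) (nat_lit 368) (nat_lit 5) (nat_lit 379) (nat_lit 5) (nat_lit 380) (nat_lit 5) (nat_lit 461) (nat_lit 426) (nat_lit 253))))))))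
noncomputable def xc194 : XT := (XT.nd (nat_lit 1794) (nat_lit 6536) (nat_lit 0) (XT.nd (nat_lit 858) (nat_lit 4636) (nat_lit 0) (XT.nd (nat_lit 390) (nat_lit 2280) (nat_lit 0) (XT.nd (nat_lit 156) (nat_lit 1520) (nat_lit 0) (XT.nd (nat_lit 78) (nat_lit 0) (nat_lit 0) (XT.lf (nat_lit 0) (nat_lit 1033057877) (nat_lit 912) (nat_lit 13348112582) (nat_lit 76) (nat_lit 632906134) (nat_lit 356) (nat_lit 5) (nat_lit 368) (nat_lit 5) (nat_lit 357) (nat_lit 5) (nat_lit 462) (nat_lit 426) (nat_lit 252)) (XT.lf (nat_lit 0) (nat_lit 2999254711) (nat_lit 912) (nat_lit 5193061047) (nat_lit 76) (nat_lit 6984141819) (nat_lit 356) (nat_lit 5) (nat_lit 368) (nat_lit 5) (nat_lit 357) (nat_lit 5) (nat_lit 463) (nat_lit 426) (nat_lit 251))) (XT.nd (nat_lit 78) (nat_lit 760) (nat_lit 0) (XT.lf (nat_lit 0) (nat_lit 3157554329) (nat_lit 760) (nat_lit 1858919965) (nat_lit 836) (nat_lit 10325379637) (nat_lit 346) (nat_lit 5) (nat_lit 356) (nat_lit 5)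 (nat_lit 357) (nat_lit 5) (nat_lit 464) (nat_lit 426) (nat_lit 250)) (XT.nd (nat_lit 78) (nat_lit 760) (nat_lit 0) (XT.lf (nat_lit 0) (nat_lit 7130302330) (nat_lit 836) (nat_lit 3803454711) (nat_lit 76) (nat_lit 4575677582) (nat_lit 346) (nat_lit 5) (nat_lit 357) (nat_lit 5) (nat_lit 347) (nat_lit 5) (nat_lit 465) (nat_lit 426) (nat_lit 249)) (XT.lf (nat_lit 0) (nat_lit 4786586701) (nat_lit 760) (nat_lit 4534690442) (nat_lit 836) (nat_lit 6358394043) (nat_lit 336) (nat_lit 5) (nat_lit 346) (nat_lit 5) (nat_lit 347) (nat_lit 5) (nat_lit 466) (nat_lit 426) (nat_lit 248))))) (XT.nd (nat_lit 234) (nat_lit 1444) (nat_lit 0) (XT.nd (nat_lit 78) (nat_lit 836) (nat_lit 0) (XT.lf (nat_lit 0) (nat_lit 11586288142) (nat_lit 836) (nat_lit 2274916179) (nat_lit 76) (nat_lit 1991505450) (nat_lit 336) (nat_lit 5) (nat_lit 347) (nat_lit 5) (nat_lit 337) (nat_lit 5) (nat_lit 467) (nat_lit 426) (nat_lit 247)) (XT.nd (nat_lit 78) (nat_lit 76)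 (nat_lit 0) (XT.lf (nat_lit 0) (nat_lit 6562838410) (nat_lit 760) (nat_lit 7398156012) (nat_lit 836) (nat_lit 2066928400) (nat_lit 326) (nat_lit 5) (nat_lit 336) (nat_lit 5) (nat_lit 337) (nat_lit 5) (nat_lit 468) (nat_lit 426) (nat_lit 246)) (XT.lf (nat_lit 0) (nat_lit 181409180) (nat_lit 836) (nat_lit 608268318) (nat_lit 76) (nat_lit 15416797842) (nat_lit 325) (nat_lit 5) (nat_lit 336) (nat_lit 5) (nat_lit 326) (nat_lit 5) (nat_lit 469) (nat_lit 426) (nat_lit 245)))) (XT.nd (nat_lit 78) (nat_lit 684) (nat_lit 0) (XT.lf (nat_lit 0) (nat_lit 2533401976) (nat_lit 836) (nat_lit 7911497889) (nat_lit 76) (nat_lit 5941700006) (nat_lit 315) (nat_lit 5) (nat_lit 326) (nat_lit 5) (nat_lit 316) (nat_lit 5) (nat_lit 470) (nat_lit 426) (nat_lit 244)) (XT.nd (nat_lit 78) (nat_lit 0) (nat_lit 0) (XT.lf (nat_lit 0) (nat_lit 1179557398) (nat_lit 684) (nat_lit 3761934855) (nat_lit 760) (nat_lit 11628654960) (nat_lit 306) (nat_lit 5) (nat_lit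 315) (nat_lit 5) (nat_lit 316) (nat_lit 5) (nat_lit 471) (nat_lit 426) (nat_lit 243)) (XT.lf (nat_lit 0) (nat_lit 7463173098) (nat_lit 760) (nat_lit 6225702385) (nat_lit 76) (nat_lit 3067182889) (nat_lit 306) (nat_lit 5) (nat_lit 316) (nat_lit 5) (nat_lit 307) (nat_lit 5) (nat_lit 472) (nat_lit 426) (nat_lit 242)))))) (XT.nd (nat_lit 468) (nat_lit 2508) (nat_lit 0) (XT.nd (nat_lit 234) (nat_lit 760) (nat_lit 0) (XT.nd (nat_lit 78) (nat_lit 684) (nat_lit 0) (XT.lf (nat_lit 0) (nat_lit 3129902617) (nat_lit 684) (nat_lit 6942927454) (nat_lit 760) (nat_lit 6872108249) (nat_lit 297) (nat_lit 5) (nat_lit 306) (nat_lit 5) (nat_lit 307) (nat_lit 5) (nat_lit 473) (nat_lit 426) (nat_lit 241)) (XT.nd (nat_lit 78) (nat_lit 684) (nat_lit 0) (XT.lf (nat_lit 0) (nat_lit 12748352159) (nat_lit 684) (nat_lit 20508010) (nat_lit 760) (nat_lit 4368053486) (nat_lit 297) (nat_lit 5) (nat_lit 306) (nat_lit 5) (nat_lit 307) (nat_lit 5) (nat_lit 474)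 (nat_lit 426) (nat_lit 240)) (XT.lf (nat_lit 0) (nat_lit 5240833581) (nat_lit 684) (nat_lit 10350259411) (nat_lit 760) (nat_lit 1740191223) (nat_lit 288) (nat_lit 5) (nat_lit 297) (nat_lit 5) (nat_lit 298) (nat_lit 5) (nat_lit 475) (nat_lit 426) (nat_lit 239)))) (XT.nd (nat_lit 78) (nat_lit 684) (nat_lit 0) (XT.lf (nat_lit 0) (nat_lit 950262307) (nat_lit 760) (nat_lit 2421759422) (nat_lit 76) (nat_lit 14156952370) (nat_lit 287) (nat_lit 5) (nat_lit 297) (nat_lit 5) (nat_lit 288) (nat_lit 5) (nat_lit 476) (nat_lit 426) (nat_lit 238)) (XT.nd (nat_lit 78) (nat_lit 0) (nat_lit 0) (XT.lf (nat_lit 0) (nat_lit 3737505101) (nat_lit 760) (nat_lit 10235381927) (nat_lit 76) (nat_lit 3756176354) (nat_lit 278) (nat_lit 5) (nat_lit 288) (nat_lit 5) (nat_lit 279) (nat_lit 5) (nat_lit 477) (nat_lit 426) (nat_lit 237)) (XT.lf (nat_lit 0) (nat_lit 6611992660) (nat_lit 760) (nat_lit 323595650) (nat_lit 76) (nat_lit 10996937400) (nat_lit 278)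 (nat_lit 5) (nat_lit 288) (nat_lit 5) (nat_lit 279) (nat_lit 5) (nat_lit 478) (nat_lit 426) (nat_lit 236))))) (XT.nd (nat_lit 234) (nat_lit 1292) (nat_lit 0) (XT.nd (nat_lit 78) (nat_lit 608) (nat_lit 0) (XT.lf (nat_lit 0) (nat_lit 9603241019) (nat_lit 684) (nat_lit 8232951020) (nat_lit 76) (nat_lit 302681058) (nat_lit 270) (nat_lit 5) (nat_lit 279) (nat_lit 5) (nat_lit 271) (nat_lit 5) (nat_lit 479) (nat_lit 426) (nat_lit 235)) (XT.nd (nat_lit 78) (nat_lit 0) (nat_lit 0) (XT.lf (nat_lit 0) (nat_lit 1966463901) (nat_lit 608) (nat_lit 10741760536) (nat_lit 684) (nat_lit 5640046002) (nat_lit 262) (nat_lit 5) (nat_lit 270) (nat_lit 5) (nat_lit 271) (nat_lit 5) (nat_lit 480) (nat_lit 426) (nat_lit 234)) (XT.lf (nat_lit 0) (nat_lit 12473029040) (nat_lit 608) (nat_lit 3450633465) (nat_lit 684) (nat_lit 2637227307) (nat_lit 262) (nat_lit 5) (nat_lit 270) (nat_lit 5) (nat_lit 271) (nat_lit 5) (nat_lit 481) (nat_lit 426) (nat_lit 233))))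 (XT.nd (nat_lit 78) (nat_lit 608) (nat_lit 0) (XT.lf (nat_lit 0) (nat_lit 468296698) (nat_lit 684) (nat_lit 14344025047) (nat_lit 76) (nat_lit 3964421067) (nat_lit 253) (nat_lit 5) (nat_lit 262) (nat_lit 5) (nat_lit 254) (nat_lit 5) (nat_lit 482) (nat_lit 426) (nat_lit 232)) (XT.nd (nat_lit 78) (nat_lit 608) (nat_lit 0) (XT.lf (nat_lit 0) (nat_lit 3657892848) (nat_lit 684) (nat_lit 3798887168) (nat_lit 76) (nat_lit 11538639850) (nat_lit 253) (nat_lit 5) (nat_lit 262) (nat_lit 5) (nat_lit 254) (nat_lit 5) (nat_lit 483) (nat_lit 426) (nat_lit 231)) (XT.lf (nat_lit 0) (nat_lit 6950985030) (nat_lit 684) (nat_lit 12177047446) (nat_lit 76) (nat_lit 89644996) (nat_lit 245) (nat_lit 5) (nat_lit 254) (nat_lit 5) (nat_lit 246) (nat_lit 5) (nat_lit 484) (nat_lit 426) (nat_lit 230))))))) (XT.nd (nat_lit 858) (nat_lit 3192) (nat_lit 0) (XT.nd (nat_lit 390) (nat_lit 1596) (nat_lit 0) (XT.nd (nat_lit 156) (nat_lit 1216) (nat_lit 0) (XT.nd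 (nat_lit 78) (nat_lit 532) (nat_lit 0) (XT.lf (nat_lit 0) (nat_lit 10378446208) (nat_lit 684) (nat_lit 1353324497) (nat_lit 76) (nat_lit 7711240457) (nat_lit 245) (nat_lit 5) (nat_lit 254) (nat_lit 5) (nat_lit 246) (nat_lit 5) (nat_lit 485) (nat_lit 426) (nat_lit 229)) (XT.lf (nat_lit 0) (nat_lit 9807326068) (nat_lit 532) (nat_lit 4124397527) (nat_lit 608) (nat_lit 5739983642) (nat_lit 238) (nat_lit 5) (nat_lit 245) (nat_lit 5) (nat_lit 246) (nat_lit 5) (nat_lit 486) (nat_lit 426) (nat_lit 228))) (XT.nd (nat_lit 78) (nat_lit 608) (nat_lit 0) (XT.lf (nat_lit 0) (nat_lit 1289758245) (nat_lit 608) (nat_lit 16301078246) (nat_lit 684) (nat_lit 2313446374) (nat_lit 230) (nat_lit 5) (nat_lit 238) (nat_lit 5) (nat_lit 239) (nat_lit 5) (nat_lit 487) (nat_lit 426) (nat_lit 227)) (XT.nd (nat_lit 78) (nat_lit 532) (nat_lit 0) (XT.lf (nat_lit 0) (nat_lit 1253753405) (nat_lit 684) (nat_lit 7383180406) (nat_lit 76) (nat_lit 11502671172) (nat_lit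 229) (nat_lit 5) (nat_lit 238) (nat_lit 5) (nat_lit 230) (nat_lit 5) (nat_lit 488) (nat_lit 426) (nat_lit 226)) (XT.lf (nat_lit 0) (nat_lit 4103180977) (nat_lit 532) (nat_lit 778614067) (nat_lit 608) (nat_lit 15497124135) (nat_lit 222) (nat_lit 5) (nat_lit 229) (nat_lit 5) (nat_lit 230) (nat_lit 5) (nat_lit 489) (nat_lit 426) (nat_lit 225))))) (XT.nd (nat_lit 234) (nat_lit 1064) (nat_lit 0) (XT.nd (nat_lit 78) (nat_lit 532) (nat_lit 0) (XT.lf (nat_lit 0) (nat_lit 8673119318) (nat_lit 608) (nat_lit 4758153399) (nat_lit 76) (nat_lit 7189933458) (nat_lit 222) (nat_lit 5) (nat_lit 230) (nat_lit 5) (nat_lit 223) (nat_lit 5) (nat_lit 490) (nat_lit 426) (nat_lit 224)) (XT.nd (nat_lit 78) (nat_lit 0) (nat_lit 0) (XT.lf (nat_lit 0) (nat_lit 7069341919) (nat_lit 532) (nat_lit 5515965840) (nat_lit 608) (nat_lit 8282131335) (nat_lit 215) (nat_lit 5) (nat_lit 222) (nat_lit 5) (nat_lit 223) (nat_lit 5) (nat_lit 491) (nat_lit 426) (nat_lit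 223)) (XT.lf (nat_lit 0) (nat_lit 16618522944) (nat_lit 608) (nat_lit 1944945134) (nat_lit 76) (nat_lit 2554273847) (nat_lit 215) (nat_lit 5) (nat_lit 223) (nat_lit 5) (nat_lit 216) (nat_lit 5) (nat_lit 492) (nat_lit 426) (nat_lit 222)))) (XT.nd (nat_lit 78) (nat_lit 608) (nat_lit 0) (XT.lf (nat_lit 0) (nat_lit 10235078376) (nat_lit 456) (nat_lit 10594459358) (nat_lit 532) (nat_lit 541571272) (nat_lit 209) (nat_lit 5) (nat_lit 215) (nat_lit 5) (nat_lit 216) (nat_lit 5) (nat_lit 493) (nat_lit 426) (nat_lit 221)) (XT.nd (nat_lit 78) (nat_lit 0) (nat_lit 0) (XT.lf (nat_lit 0) (nat_lit 1038704030) (nat_lit 532) (nat_lit 2424744148) (nat_lit 608) (nat_lit 18165361060) (nat_lit 201) (nat_lit 5) (nat_lit 208) (nat_lit 5) (nat_lit 209) (nat_lit 5) (nat_lit 494) (nat_lit 426) (nat_lit 220)) (XT.lf (nat_lit 0) (nat_lit 7649134416) (nat_lit 608) (nat_lit 8332699557) (nat_lit 76) (nat_lit 5907602392) (nat_lit 201) (nat_lit 5) (nat_lit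 209) (nat_lit 5) (nat_lit 202) (nat_lit 5) (nat_lit 495) (nat_lit 426) (nat_lit 219)))))) (XT.nd (nat_lit 468) (nat_lit 1292) (nat_lit 0) (XT.nd (nat_lit 234) (nat_lit 988) (nat_lit 0) (XT.nd (nat_lit 78) (nat_lit 456) (nat_lit 0) (XT.lf (nat_lit 0) (nat_lit 4201077140) (nat_lit 456) (nat_lit 7755131238) (nat_lit 532) (nat_lit 10198315006) (nat_lit 195) (nat_lit 5) (nat_lit 201) (nat_lit 5) (nat_lit 202) (nat_lit 5) (nat_lit 496) (nat_lit 426) (nat_lit 218)) (XT.nd (nat_lit 78) (nat_lit 456) (nat_lit 0) (XT.lf (nat_lit 0) (nat_lit 16404227361) (nat_lit 532) (nat_lit 5337677183) (nat_lit 76) (nat_lit 681912342) (nat_lit 195) (nat_lit 5) (nat_lit 202) (nat_lit 5) (nat_lit 196) (nat_lit 5) (nat_lit 497) (nat_lit 426) (nat_lit 217)) (XT.lf (nat_lit 0) (nat_lit 7570628781) (nat_lit 456) (nat_lit 13465586453) (nat_lit 532) (nat_lit 1660381651) (nat_lit 189) (nat_lit 5) (nat_lit 195) (nat_lit 5) (nat_lit 196) (nat_lit 5) (nat_lit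 498) (nat_lit 426) (nat_lit 216)))) (XT.nd (nat_lit 78) (nat_lit 912) (nat_lit 0) (XT.lf (nat_lit 0) (nat_lit 2780045016) (nat_lit 532) (nat_lit 2190720512) (nat_lit 76) (nat_lit 18003094477) (nat_lit 188) (nat_lit 5) (nat_lit 195) (nat_lit 5) (nat_lit 189) (nat_lit 5) (nat_lit 499) (nat_lit 426) (nat_lit 215)) (XT.nd (nat_lit 78) (nat_lit 456) (nat_lit 0) (XT.lf (nat_lit 0) (nat_lit 7378481950) (nat_lit 532) (nat_lit 12148997048) (nat_lit 76) (nat_lit 3727141953) (nat_lit 182) (nat_lit 5) (nat_lit 189) (nat_lit 5) (nat_lit 183) (nat_lit 5) (nat_lit 500) (nat_lit 426) (nat_lit 214)) (XT.lf (nat_lit 0) (nat_lit 1131081634) (nat_lit 456) (nat_lit 10987534382) (nat_lit 532) (nat_lit 11421387269) (nat_lit 176) (nat_lit 5) (nat_lit 182) (nat_lit 5) (nat_lit 183) (nat_lit 5) (nat_lit 501) (nat_lit 426) (nat_lit 213))))) (XT.nd (nat_lit 234) (nat_lit 836) (nat_lit 0) (XT.nd (nat_lit 78) (nat_lit 456) (nat_lit 0) (XT.lf (nat_lit 0)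 (nat_lit 14833870632) (nat_lit 456) (nat_lit 2195931120) (nat_lit 532) (nat_lit 6799767257) (nat_lit 176) (nat_lit 5) (nat_lit 182) (nat_lit 5) (nat_lit 183) (nat_lit 5) (nat_lit 502) (nat_lit 426) (nat_lit 212)) (XT.nd (nat_lit 78) (nat_lit 76) (nat_lit 0) (XT.lf (nat_lit 0) (nat_lit 4695896633) (nat_lit 380) (nat_lit 17412580219) (nat_lit 456) (nat_lit 2015064590) (nat_lit 171) (nat_lit 5) (nat_lit 176) (nat_lit 5) (nat_lit 177) (nat_lit 5) (nat_lit 503) (nat_lit 426) (nat_lit 211)) (XT.lf (nat_lit 0) (nat_lit 2897891262) (nat_lit 456) (nat_lit 5680004508) (nat_lit 76) (nat_lit 15843723391) (nat_lit 170) (nat_lit 5) (nat_lit 176) (nat_lit 5) (nat_lit 171) (nat_lit 5) (nat_lit 504) (nat_lit 426) (nat_lit 210)))) (XT.nd (nat_lit 78) (nat_lit 380) (nat_lit 0) (XT.lf (nat_lit 0) (nat_lit 7935080759) (nat_lit 532) (nat_lit 16295199410) (nat_lit 76) (nat_lit 494053418) (nat_lit 164) (nat_lit 5) (nat_lit 171) (nat_lit 5) (nat_lit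 165) (nat_lit 5) (nat_lit 505) (nat_lit 426) (nat_lit 209)) (XT.nd (nat_lit 78) (nat_lit 380) (nat_lit 0) (XT.lf (nat_lit 0) (nat_lit 13163157812) (nat_lit 532) (nat_lit 2199374737) (nat_lit 76) (nat_lit 9668767531) (nat_lit 164) (nat_lit 5) (nat_lit 171) (nat_lit 5) (nat_lit 165) (nat_lit 5) (nat_lit 506) (nat_lit 426) (nat_lit 208)) (XT.lf (nat_lit 0) (nat_lit 12332834690) (nat_lit 380) (nat_lit 6238101587) (nat_lit 456) (nat_lit 6771967469) (nat_lit 159) (nat_lit 5) (nat_lit 164) (nat_lit 5) (nat_lit 165) (nat_lit 5) (nat_lit 507) (nat_lit 426) (nat_lit 207))))))))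
noncomputable def xc195 : XT := (XT.nd (nat_lit 54522) (nat_lit 0) (nat_lit 13528) (XT.nd (nat_lit 53586) (nat_lit 0) (nat_lit 23256) (XT.nd (nat_lit 53118) (nat_lit 0) (nat_lit 24548) (XT.nd (nat_lit 156) (nat_lit 380) (nat_lit 0) (XT.nd (nat_lit 78) (nat_lit 76) (nat_lit 0) (XT.lf (nat_lit 0) (nat_lit 1517624226) (nat_lit 380) (nat_lit 22608982477) (nat_lit 456) (nat_lit 1533338685) (nat_lit 154) (nat_lit 5) (nat_lit 159) (nat_lit 5) (nat_lit 160) (nat_lit 5) (nat_lit 508) (nat_lit 426) (nat_lit 206)) (XT.lf (nat_lit 0) (nat_lit 3884405144) (nat_lit 456) (nat_lit 9543314662) (nat_lit 76) (nat_lit 12552627667) (nat_lit 153) (nat_lit 5) (nat_lit 159) (nat_lit 5) (nat_lit 154) (nat_lit 5) (nat_lit 509) (nat_lit 426) (nat_lit 205))) (XT.nd (nat_lit 78) (nat_lit 0) (nat_lit 0) (XT.lf (nat_lit 0) (nat_lit 5401166822) (nat_lit 380) (nat_lit 4019106116) (nat_lit 456) (nat_lit 16886076539) (nat_lit 148) (nat_lit 5) (nat_lit 153) (nat_lit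 5) (nat_lit 154) (nat_lit 5) (nat_lit 510) (nat_lit 426) (nat_lit 204)) (XT.nd (nat_lit 52806) (nat_lit 0) (nat_lit 26220) (XT.lf (nat_lit 0) (nat_lit 15162782106) (nat_lit 456) (nat_lit 5907549079) (nat_lit 76) (nat_lit 5566622437) (nat_lit 148) (nat_lit 5) (nat_lit 154) (nat_lit 5) (nat_lit 149) (nat_lit 5) (nat_lit 511) (nat_lit 426) (nat_lit 203)) (XT.lf (nat_lit 0) (nat_lit 2424970136) (nat_lit 0) (nat_lit 2424970136) (nat_lit 1596) (nat_lit 515198100) (nat_lit 493) (nat_lit 5) (nat_lit 493) (nat_lit 3) (nat_lit 514) (nat_lit 3) (nat_lit 427) (nat_lit 427) (nat_lit 286))))) (XT.nd (nat_lit 234) (nat_lit 0) (nat_lit 76) (XT.nd (nat_lit 78) (nat_lit 1672) (nat_lit 0) (XT.lf (nat_lit 0) (nat_lit 10169763628) (nat_lit 0) (nat_lit 224557736) (nat_lit 1596) (nat_lit 431169628) (nat_lit 493) (nat_lit 5) (nat_lit 493) (nat_lit 3) (nat_lit 514) (nat_lit 3) (nat_lit 428) (nat_lit 427) (nat_lit 285)) (XT.nd (nat_lit 78) (nat_lit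 0) (nat_lit 0) (XT.lf (nat_lit 0) (nat_lit 222021755) (nat_lit 1672) (nat_lit 6225586120) (nat_lit 1748) (nat_lit 4474095031) (nat_lit 471) (nat_lit 5) (nat_lit 493) (nat_lit 5) (nat_lit 494) (nat_lit 5) (nat_lit 429) (nat_lit 427) (nat_lit 284)) (XT.lf (nat_lit 0) (nat_lit 872953365) (nat_lit 1672) (nat_lit 868595069) (nat_lit 1748) (nat_lit 9278428149) (nat_lit 471) (nat_lit 5) (nat_lit 493) (nat_lit 5) (nat_lit 494) (nat_lit 5) (nat_lit 430) (nat_lit 427) (nat_lit 283)))) (XT.nd (nat_lit 78) (nat_lit 0) (nat_lit 0) (XT.lf (nat_lit 0) (nat_lit 1572018483) (nat_lit 1672) (nat_lit 6491718424) (nat_lit 1748) (nat_lit 3055779981) (nat_lit 472) (nat_lit 5) (nat_lit 494) (nat_lit 5) (nat_lit 495) (nat_lit 5) (nat_lit 431) (nat_lit 427) (nat_lit 282)) (XT.nd (nat_lit 78) (nat_lit 0) (nat_lit 76) (XT.lf (nat_lit 0) (nat_lit 2287585468) (nat_lit 1672) (nat_lit 995096346) (nat_lit 1748) (nat_lit 7938319161) (nat_lit 472) (nat_lit 5)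 (nat_lit 494) (nat_lit 5) (nat_lit 495) (nat_lit 5) (nat_lit 432) (nat_lit 427) (nat_lit 281)) (XT.lf (nat_lit 0) (nat_lit 3043749682) (nat_lit 1672) (nat_lit 6670483604) (nat_lit 1748) (nat_lit 1609759056) (nat_lit 473) (nat_lit 5) (nat_lit 495) (nat_lit 5) (nat_lit 496) (nat_lit 5) (nat_lit 433) (nat_lit 427) (nat_lit 280)))))) (XT.nd (nat_lit 468) (nat_lit 1444) (nat_lit 0) (XT.nd (nat_lit 234) (nat_lit 0) (nat_lit 76) (XT.nd (nat_lit 78) (nat_lit 0) (nat_lit 76) (XT.lf (nat_lit 0) (nat_lit 3829182131) (nat_lit 1672) (nat_lit 1030714666) (nat_lit 1748) (nat_lit 6568867095) (nat_lit 473) (nat_lit 5) (nat_lit 495) (nat_lit 5) (nat_lit 496) (nat_lit 5) (nat_lit 434) (nat_lit 427) (nat_lit 279)) (XT.nd (nat_lit 78) (nat_lit 0) (nat_lit 0) (XT.lf (nat_lit 0) (nat_lit 4648132823) (nat_lit 1672) (nat_lit 6760069082) (nat_lit 1748) (nat_lit 127075966) (nat_lit 474) (nat_lit 5) (nat_lit 496) (nat_lit 5) (nat_lit 497) (nat_lit 5)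 (nat_lit 435) (nat_lit 427) (nat_lit 278)) (XT.lf (nat_lit 0) (nat_lit 5508830128) (nat_lit 1672) (nat_lit 973478373) (nat_lit 1748) (nat_lit 5161109403) (nat_lit 474) (nat_lit 5) (nat_lit 496) (nat_lit 5) (nat_lit 497) (nat_lit 5) (nat_lit 436) (nat_lit 427) (nat_lit 277)))) (XT.nd (nat_lit 78) (nat_lit 0) (nat_lit 76) (XT.lf (nat_lit 76) (nat_lit 4985716693) (nat_lit 0) (nat_lit 1419885861) (nat_lit 1748) (nat_lit 5347744026) (nat_lit 475) (nat_lit 5) (nat_lit 474) (nat_lit 5) (nat_lit 497) (nat_lit 5) (nat_lit 437) (nat_lit 427) (nat_lit 276)) (XT.nd (nat_lit 78) (nat_lit 0) (nat_lit 0) (XT.lf (nat_lit 0) (nat_lit 7337925361) (nat_lit 1672) (nat_lit 821162577) (nat_lit 1748) (nat_lit 3706036600) (nat_lit 475) (nat_lit 5) (nat_lit 497) (nat_lit 5) (nat_lit 498) (nat_lit 5) (nat_lit 438) (nat_lit 427) (nat_lit 275)) (XT.lf (nat_lit 76) (nat_lit 5295696227) (nat_lit 0) (nat_lit 3023976922) (nat_lit 1748) (nat_lit 3658852280)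 (nat_lit 476) (nat_lit 5) (nat_lit 475) (nat_lit 5) (nat_lit 498) (nat_lit 5) (nat_lit 439) (nat_lit 427) (nat_lit 274))))) (XT.nd (nat_lit 234) (nat_lit 1672) (nat_lit 0) (XT.nd (nat_lit 78) (nat_lit 0) (nat_lit 0) (XT.lf (nat_lit 0) (nat_lit 9328196074) (nat_lit 1672) (nat_lit 571289988) (nat_lit 1748) (nat_lit 2194568362) (nat_lit 476) (nat_lit 5) (nat_lit 498) (nat_lit 5) (nat_lit 499) (nat_lit 5) (nat_lit 440) (nat_lit 427) (nat_lit 273)) (XT.nd (nat_lit 78) (nat_lit 0) (nat_lit 76) (XT.lf (nat_lit 76) (nat_lit 5708677976) (nat_lit 0) (nat_lit 4692772498) (nat_lit 1748) (nat_lit 1809555138) (nat_lit 477) (nat_lit 5) (nat_lit 476) (nat_lit 5) (nat_lit 499) (nat_lit 5) (nat_lit 441) (nat_lit 427) (nat_lit 272)) (XT.lf (nat_lit 0) (nat_lit 11491726389) (nat_lit 1672) (nat_lit 221131286) (nat_lit 1748) (nat_lit 617529796) (nat_lit 477) (nat_lit 5) (nat_lit 499) (nat_lit 5) (nat_lit 500) (nat_lit 5) (nat_lit 442) (nat_lit 427)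 (nat_lit 271)))) (XT.nd (nat_lit 78) (nat_lit 0) (nat_lit 0) (XT.lf (nat_lit 0) (nat_lit 209490431) (nat_lit 1748) (nat_lit 6224751368) (nat_lit 1824) (nat_lit 6016701575) (nat_lit 454) (nat_lit 5) (nat_lit 477) (nat_lit 5) (nat_lit 478) (nat_lit 5) (nat_lit 443) (nat_lit 427) (nat_lit 270)) (XT.nd (nat_lit 78) (nat_lit 0) (nat_lit 76) (XT.lf (nat_lit 76) (nat_lit 220107534) (nat_lit 0) (nat_lit 1038226296) (nat_lit 1824) (nat_lit 11315649139) (nat_lit 455) (nat_lit 5) (nat_lit 454) (nat_lit 5) (nat_lit 478) (nat_lit 5) (nat_lit 444) (nat_lit 427) (nat_lit 269)) (XT.lf (nat_lit 0) (nat_lit 2387419599) (nat_lit 1748) (nat_lit 5858671553) (nat_lit 1824) (nat_lit 4452209461) (nat_lit 455) (nat_lit 5) (nat_lit 478) (nat_lit 5) (nat_lit 479) (nat_lit 5) (nat_lit 445) (nat_lit 427) (nat_lit 268))))))) (XT.nd (nat_lit 936) (nat_lit 5852) (nat_lit 0) (XT.nd (nat_lit 468) (nat_lit 3952) (nat_lit 0) (XT.nd (nat_lit 234) (nat_lit 0) (nat_lit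 152) (XT.nd (nat_lit 78) (nat_lit 0) (nat_lit 76) (XT.lf (nat_lit 76) (nat_lit 760719673) (nat_lit 0) (nat_lit 2778636257) (nat_lit 1824) (nat_lit 9285745816) (nat_lit 456) (nat_lit 5) (nat_lit 455) (nat_lit 5) (nat_lit 479) (nat_lit 5) (nat_lit 446) (nat_lit 427) (nat_lit 267)) (XT.nd (nat_lit 78) (nat_lit 0) (nat_lit 0) (XT.lf (nat_lit 0) (nat_lit 4760714265) (nat_lit 1748) (nat_lit 5389172980) (nat_lit 1824) (nat_lit 2803626458) (nat_lit 456) (nat_lit 5) (nat_lit 479) (nat_lit 5) (nat_lit 480) (nat_lit 5) (nat_lit 447) (nat_lit 427) (nat_lit 266)) (XT.lf (nat_lit 76) (nat_lit 1410811377) (nat_lit 0) (nat_lit 4612113193) (nat_lit 1824) (nat_lit 7061243250) (nat_lit 457) (nat_lit 5) (nat_lit 456) (nat_lit 5) (nat_lit 480) (nat_lit 5) (nat_lit 448) (nat_lit 427) (nat_lit 265)))) (XT.nd (nat_lit 78) (nat_lit 0) (nat_lit 0) (XT.lf (nat_lit 0) (nat_lit 7342550901) (nat_lit 1748) (nat_lit 4812841739) (nat_lit 1824) (nat_lit 1061401313)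 (nat_lit 457) (nat_lit 5) (nat_lit 480) (nat_lit 5) (nat_lit 481) (nat_lit 5) (nat_lit 449) (nat_lit 427) (nat_lit 264)) (XT.nd (nat_lit 78) (nat_lit 0) (nat_lit 0) (XT.lf (nat_lit 76) (nat_lit 2174020284) (nat_lit 0) (nat_lit 6548462402) (nat_lit 1824) (nat_lit 4628913988) (nat_lit 458) (nat_lit 5) (nat_lit 457) (nat_lit 5) (nat_lit 481) (nat_lit 5) (nat_lit 450) (nat_lit 427) (nat_lit 263)) (XT.lf (nat_lit 76) (nat_lit 9357085144) (nat_lit 0) (nat_lit 794632358) (nat_lit 1824) (nat_lit 3336542137) (nat_lit 458) (nat_lit 5) (nat_lit 457) (nat_lit 5) (nat_lit 481) (nat_lit 5) (nat_lit 451) (nat_lit 427) (nat_lit 262))))) (XT.nd (nat_lit 234) (nat_lit 912) (nat_lit 0) (XT.nd (nat_lit 78) (nat_lit 1520) (nat_lit 0) (XT.lf (nat_lit 0) (nat_lit 3054239574) (nat_lit 1748) (nat_lit 8597700105) (nat_lit 1824) (nat_lit 1975074365) (nat_lit 435) (nat_lit 5) (nat_lit 458) (nat_lit 5) (nat_lit 459) (nat_lit 5) (nat_lit 452) (nat_lit 427)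 (nat_lit 261)) (XT.nd (nat_lit 78) (nat_lit 1520) (nat_lit 0) (XT.lf (nat_lit 0) (nat_lit 10425263522) (nat_lit 1748) (nat_lit 2779626422) (nat_lit 1824) (nat_lit 563201308) (nat_lit 435) (nat_lit 5) (nat_lit 458) (nat_lit 5) (nat_lit 459) (nat_lit 5) (nat_lit 453) (nat_lit 427) (nat_lit 260)) (XT.lf (nat_lit 0) (nat_lit 902448117) (nat_lit 1520) (nat_lit 9861573600) (nat_lit 76) (nat_lit 3147115729) (nat_lit 415) (nat_lit 5) (nat_lit 435) (nat_lit 5) (nat_lit 416) (nat_lit 5) (nat_lit 454) (nat_lit 427) (nat_lit 259)))) (XT.nd (nat_lit 78) (nat_lit 912) (nat_lit 0) (XT.lf (nat_lit 0) (nat_lit 2420920520) (nat_lit 1520) (nat_lit 2452647802) (nat_lit 76) (nat_lit 9182782824) (nat_lit 415) (nat_lit 5) (nat_lit 435) (nat_lit 5) (nat_lit 416) (nat_lit 5) (nat_lit 455) (nat_lit 427) (nat_lit 258)) (XT.nd (nat_lit 78) (nat_lit 0) (nat_lit 0) (XT.lf (nat_lit 0) (nat_lit 4001133394) (nat_lit 988) (nat_lit 9048122687) (nat_lit 76) (nat_lit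 1154587642) (nat_lit 403) (nat_lit 5) (nat_lit 416) (nat_lit 5) (nat_lit 404) (nat_lit 5) (nat_lit 456) (nat_lit 427) (nat_lit 257)) (XT.lf (nat_lit 0) (nat_lit 5652185020) (nat_lit 988) (nat_lit 1445688387) (nat_lit 76) (nat_lit 7255630037) (nat_lit 403) (nat_lit 5) (nat_lit 416) (nat_lit 5) (nat_lit 404) (nat_lit 5) (nat_lit 457) (nat_lit 427) (nat_lit 256)))))) (XT.nd (nat_lit 468) (nat_lit 2280) (nat_lit 0) (XT.nd (nat_lit 234) (nat_lit 1748) (nat_lit 0) (XT.nd (nat_lit 78) (nat_lit 912) (nat_lit 0) (XT.lf (nat_lit 0) (nat_lit 6383842726) (nat_lit 912) (nat_lit 984443147) (nat_lit 988) (nat_lit 7137231867) (nat_lit 391) (nat_lit 5) (nat_lit 403) (nat_lit 5) (nat_lit 404) (nat_lit 5) (nat_lit 458) (nat_lit 427) (nat_lit 255)) (XT.nd (nat_lit 78) (nat_lit 912) (nat_lit 0) (XT.lf (nat_lit 0) (nat_lit 9153282104) (nat_lit 988) (nat_lit 313788149) (nat_lit 76) (nat_lit 5192812507) (nat_lit 391) (nat_lit 5) (nat_lit 404) (nat_lit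 5) (nat_lit 392) (nat_lit 5) (nat_lit 459) (nat_lit 427) (nat_lit 254)) (XT.lf (nat_lit 0) (nat_lit 7736564057) (nat_lit 912) (nat_lit 3285059842) (nat_lit 988) (nat_lit 3794760138) (nat_lit 379) (nat_lit 5) (nat_lit 391) (nat_lit 5) (nat_lit 392) (nat_lit 5) (nat_lit 460) (nat_lit 427) (nat_lit 253)))) (XT.nd (nat_lit 78) (nat_lit 912) (nat_lit 0) (XT.lf (nat_lit 0) (nat_lit 960407292) (nat_lit 836) (nat_lit 11985912785) (nat_lit 912) (nat_lit 2029317343) (nat_lit 368) (nat_lit 5) (nat_lit 379) (nat_lit 5) (nat_lit 380) (nat_lit 5) (nat_lit 461) (nat_lit 427) (nat_lit 252)) (XT.nd (nat_lit 78) (nat_lit 912) (nat_lit 0) (XT.lf (nat_lit 0) (nat_lit 9226654569) (nat_lit 836) (nat_lit 5743117326) (nat_lit 912) (nat_lit 167100539) (nat_lit 368) (nat_lit 5) (nat_lit 379) (nat_lit 5) (nat_lit 380) (nat_lit 5) (nat_lit 462) (nat_lit 427) (nat_lit 251)) (XT.lf (nat_lit 0) (nat_lit 1720501717) (nat_lit 912) (nat_lit 12937159791) (nat_lit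 76) (nat_lit 643230186) (nat_lit 356) (nat_lit 5) (nat_lit 368) (nat_lit 5) (nat_lit 357) (nat_lit 5) (nat_lit 463) (nat_lit 427) (nat_lit 250))))) (XT.nd (nat_lit 234) (nat_lit 1520) (nat_lit 0) (XT.nd (nat_lit 78) (nat_lit 760) (nat_lit 0) (XT.lf (nat_lit 0) (nat_lit 3712948318) (nat_lit 912) (nat_lit 4632299677) (nat_lit 76) (nat_lit 7121536351) (nat_lit 356) (nat_lit 5) (nat_lit 368) (nat_lit 5) (nat_lit 357) (nat_lit 5) (nat_lit 464) (nat_lit 427) (nat_lit 249)) (XT.nd (nat_lit 78) (nat_lit 0) (nat_lit 0) (XT.lf (nat_lit 0) (nat_lit 3880955490) (nat_lit 760) (nat_lit 1881025770) (nat_lit 836) (nat_lit 9873680501) (nat_lit 346) (nat_lit 5) (nat_lit 356) (nat_lit 5) (nat_lit 357) (nat_lit 5) (nat_lit 465) (nat_lit 427) (nat_lit 248)) (XT.lf (nat_lit 0) (nat_lit 7905531261) (nat_lit 836) (nat_lit 3219541981) (nat_lit 76) (nat_lit 4681774383) (nat_lit 346) (nat_lit 5) (nat_lit 357) (nat_lit 5) (nat_lit 347) (nat_lit 5) (nat_lit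 466) (nat_lit 427) (nat_lit 247)))) (XT.nd (nat_lit 78) (nat_lit 760) (nat_lit 0) (XT.lf (nat_lit 0) (nat_lit 5537958274) (nat_lit 760) (nat_lit 4594219774) (nat_lit 836) (nat_lit 5848476237) (nat_lit 336) (nat_lit 5) (nat_lit 346) (nat_lit 5) (nat_lit 347) (nat_lit 5) (nat_lit 467) (nat_lit 427) (nat_lit 246)) (XT.nd (nat_lit 78) (nat_lit 760) (nat_lit 0) (XT.lf (nat_lit 0) (nat_lit 12430443025) (nat_lit 836) (nat_lit 1665465656) (nat_lit 76) (nat_lit 2061488254) (nat_lit 336) (nat_lit 5) (nat_lit 347) (nat_lit 5) (nat_lit 337) (nat_lit 5) (nat_lit 468) (nat_lit 427) (nat_lit 245)) (XT.lf (nat_lit 0) (nat_lit 7344735151) (nat_lit 760) (nat_lit 7500124252) (nat_lit 836) (nat_lit 1491412848) (nat_lit 326) (nat_lit 5) (nat_lit 336) (nat_lit 5) (nat_lit 337) (nat_lit 5) (nat_lit 469) (nat_lit 427) (nat_lit 244))))))))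
noncomputable def xc196 : XT := (XT.nd (nat_lit 1794) (nat_lit 5092) (nat_lit 0) (XT.nd (nat_lit 858) (nat_lit 4180) (nat_lit 0) (XT.nd (nat_lit 390) (nat_lit 2052) (nat_lit 0) (XT.nd (nat_lit 156) (nat_lit 1368) (nat_lit 0) (XT.nd (nat_lit 78) (nat_lit 0) (nat_lit 0) (XT.lf (nat_lit 0) (nat_lit 25830552) (nat_lit 760) (nat_lit 756201940) (nat_lit 836) (nat_lit 15736520837) (nat_lit 315) (nat_lit 5) (nat_lit 325) (nat_lit 5) (nat_lit 326) (nat_lit 5) (nat_lit 470) (nat_lit 427) (nat_lit 243)) (XT.lf (nat_lit 0) (nat_lit 3173701240) (nat_lit 836) (nat_lit 7416496758) (nat_lit 76) (nat_lit 6112231818) (nat_lit 315) (nat_lit 5) (nat_lit 326) (nat_lit 5) (nat_lit 316) (nat_lit 5) (nat_lit 471) (nat_lit 427) (nat_lit 242))) (XT.nd (nat_lit 78) (nat_lit 684) (nat_lit 0) (XT.lf (nat_lit 0) (nat_lit 1852082062) (nat_lit 684) (nat_lit 3770523171) (nat_lit 760) (nat_lit 11267191980) (nat_lit 306) (nat_lit 5) (nat_lit 315) (nat_lit 5)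 (nat_lit 316) (nat_lit 5) (nat_lit 472) (nat_lit 427) (nat_lit 241)) (XT.nd (nat_lit 78) (nat_lit 684) (nat_lit 0) (XT.lf (nat_lit 0) (nat_lit 8183726631) (nat_lit 760) (nat_lit 5702908862) (nat_lit 76) (nat_lit 3193013066) (nat_lit 306) (nat_lit 5) (nat_lit 316) (nat_lit 5) (nat_lit 307) (nat_lit 5) (nat_lit 473) (nat_lit 427) (nat_lit 240)) (XT.lf (nat_lit 0) (nat_lit 3835549637) (nat_lit 684) (nat_lit 7003000441) (nat_lit 760) (nat_lit 6433898623) (nat_lit 297) (nat_lit 5) (nat_lit 306) (nat_lit 5) (nat_lit 307) (nat_lit 5) (nat_lit 474) (nat_lit 427) (nat_lit 239))))) (XT.nd (nat_lit 234) (nat_lit 1292) (nat_lit 0) (XT.nd (nat_lit 78) (nat_lit 760) (nat_lit 0) (XT.lf (nat_lit 0) (nat_lit 13577802474) (nat_lit 760) (nat_lit 3835093161) (nat_lit 76) (nat_lit 55583896) (nat_lit 297) (nat_lit 5) (nat_lit 307) (nat_lit 5) (nat_lit 298) (nat_lit 5) (nat_lit 475) (nat_lit 427) (nat_lit 238)) (XT.nd (nat_lit 78) (nat_lit 76) (nat_lit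 0) (XT.lf (nat_lit 0) (nat_lit 5982536215) (nat_lit 684) (nat_lit 10467357758) (nat_lit 760) (nat_lit 1216977232) (nat_lit 288) (nat_lit 5) (nat_lit 297) (nat_lit 5) (nat_lit 298) (nat_lit 5) (nat_lit 476) (nat_lit 427) (nat_lit 237)) (XT.lf (nat_lit 0) (nat_lit 1509168840) (nat_lit 760) (nat_lit 1838526340) (nat_lit 76) (nat_lit 14520965112) (nat_lit 287) (nat_lit 5) (nat_lit 297) (nat_lit 5) (nat_lit 288) (nat_lit 5) (nat_lit 477) (nat_lit 427) (nat_lit 236)))) (XT.nd (nat_lit 78) (nat_lit 608) (nat_lit 0) (XT.lf (nat_lit 0) (nat_lit 4346255528) (nat_lit 760) (nat_lit 9802426939) (nat_lit 76) (nat_lit 3924188780) (nat_lit 278) (nat_lit 5) (nat_lit 288) (nat_lit 5) (nat_lit 279) (nat_lit 5) (nat_lit 478) (nat_lit 427) (nat_lit 235)) (XT.nd (nat_lit 78) (nat_lit 0) (nat_lit 0) (XT.lf (nat_lit 0) (nat_lit 299013490) (nat_lit 608) (nat_lit 6970690148) (nat_lit 684) (nat_lit 11010871600) (nat_lit 270) (nat_lit 5) (nat_lit 278)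 (nat_lit 5) (nat_lit 279) (nat_lit 5) (nat_lit 479) (nat_lit 427) (nat_lit 234)) (XT.lf (nat_lit 0) (nat_lit 10313276140) (nat_lit 684) (nat_lit 7766801404) (nat_lit 76) (nat_lit 411123840) (nat_lit 270) (nat_lit 5) (nat_lit 279) (nat_lit 5) (nat_lit 271) (nat_lit 5) (nat_lit 480) (nat_lit 427) (nat_lit 233)))))) (XT.nd (nat_lit 468) (nat_lit 2280) (nat_lit 0) (XT.nd (nat_lit 234) (nat_lit 608) (nat_lit 0) (XT.nd (nat_lit 78) (nat_lit 684) (nat_lit 0) (XT.lf (nat_lit 0) (nat_lit 2632451759) (nat_lit 608) (nat_lit 10841819870) (nat_lit 684) (nat_lit 5230638555) (nat_lit 262) (nat_lit 5) (nat_lit 270) (nat_lit 5) (nat_lit 271) (nat_lit 5) (nat_lit 481) (nat_lit 427) (nat_lit 232)) (XT.nd (nat_lit 78) (nat_lit 684) (nat_lit 0) (XT.lf (nat_lit 0) (nat_lit 13336860778) (nat_lit 608) (nat_lit 3407120765) (nat_lit 684) (nat_lit 2178002866) (nat_lit 262) (nat_lit 5) (nat_lit 270) (nat_lit 5) (nat_lit 271) (nat_lit 5) (nat_lit 482)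 (nat_lit 427) (nat_lit 231)) (XT.lf (nat_lit 0) (nat_lit 977781000) (nat_lit 684) (nat_lit 14004516247) (nat_lit 76) (nat_lit 4159895121) (nat_lit 253) (nat_lit 5) (nat_lit 262) (nat_lit 5) (nat_lit 254) (nat_lit 5) (nat_lit 483) (nat_lit 427) (nat_lit 230)))) (XT.nd (nat_lit 78) (nat_lit 608) (nat_lit 0) (XT.lf (nat_lit 0) (nat_lit 4221362831) (nat_lit 684) (nat_lit 3260757753) (nat_lit 76) (nat_lit 11883320129) (nat_lit 253) (nat_lit 5) (nat_lit 262) (nat_lit 5) (nat_lit 254) (nat_lit 5) (nat_lit 484) (nat_lit 427) (nat_lit 229)) (XT.nd (nat_lit 78) (nat_lit 0) (nat_lit 0) (XT.lf (nat_lit 0) (nat_lit 7575478083) (nat_lit 684) (nat_lit 11801562752) (nat_lit 76) (nat_lit 215201007) (nat_lit 245) (nat_lit 5) (nat_lit 254) (nat_lit 5) (nat_lit 246) (nat_lit 5) (nat_lit 485) (nat_lit 427) (nat_lit 228)) (XT.lf (nat_lit 0) (nat_lit 11061969399) (nat_lit 684) (nat_lit 773503101) (nat_lit 76) (nat_lit 7986801649) (nat_lit 245) (nat_lit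 5) (nat_lit 254) (nat_lit 5) (nat_lit 246) (nat_lit 5) (nat_lit 486) (nat_lit 427) (nat_lit 227))))) (XT.nd (nat_lit 234) (nat_lit 1064) (nat_lit 0) (XT.nd (nat_lit 78) (nat_lit 684) (nat_lit 0) (XT.lf (nat_lit 0) (nat_lit 10606367791) (nat_lit 532) (nat_lit 4074526502) (nat_lit 608) (nat_lit 5374759746) (nat_lit 238) (nat_lit 5) (nat_lit 245) (nat_lit 5) (nat_lit 246) (nat_lit 5) (nat_lit 487) (nat_lit 427) (nat_lit 226)) (XT.nd (nat_lit 78) (nat_lit 76) (nat_lit 0) (XT.lf (nat_lit 0) (nat_lit 1923053413) (nat_lit 608) (nat_lit 16485696640) (nat_lit 684) (nat_lit 1884221420) (nat_lit 230) (nat_lit 5) (nat_lit 238) (nat_lit 5) (nat_lit 239) (nat_lit 5) (nat_lit 488) (nat_lit 427) (nat_lit 225)) (XT.lf (nat_lit 0) (nat_lit 1738885036) (nat_lit 684) (nat_lit 6929069669) (nat_lit 76) (nat_lit 11865169049) (nat_lit 229) (nat_lit 5) (nat_lit 238) (nat_lit 5) (nat_lit 230) (nat_lit 5) (nat_lit 489) (nat_lit 427) (nat_lit 224))))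 (XT.nd (nat_lit 78) (nat_lit 532) (nat_lit 0) (XT.lf (nat_lit 0) (nat_lit 4783059900) (nat_lit 532) (nat_lit 651288304) (nat_lit 608) (nat_lit 15342980231) (nat_lit 222) (nat_lit 5) (nat_lit 229) (nat_lit 5) (nat_lit 230) (nat_lit 5) (nat_lit 490) (nat_lit 427) (nat_lit 223)) (XT.nd (nat_lit 78) (nat_lit 532) (nat_lit 0) (XT.lf (nat_lit 0) (nat_lit 9293488615) (nat_lit 608) (nat_lit 4259143289) (nat_lit 76) (nat_lit 7471990863) (nat_lit 222) (nat_lit 5) (nat_lit 230) (nat_lit 5) (nat_lit 223) (nat_lit 5) (nat_lit 491) (nat_lit 427) (nat_lit 222)) (XT.lf (nat_lit 0) (nat_lit 7800992902) (nat_lit 532) (nat_lit 5477997428) (nat_lit 608) (nat_lit 7996889983) (nat_lit 215) (nat_lit 5) (nat_lit 222) (nat_lit 5) (nat_lit 223) (nat_lit 5) (nat_lit 492) (nat_lit 427) (nat_lit 221))))))) (XT.nd (nat_lit 858) (nat_lit 2128) (nat_lit 0) (XT.nd (nat_lit 390) (nat_lit 1444) (nat_lit 0) (XT.nd (nat_lit 156) (nat_lit 1064) (nat_lit 0) (XT.nd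 (nat_lit 78) (nat_lit 456) (nat_lit 0) (XT.lf (nat_lit 0) (nat_lit 17385147519) (nat_lit 608) (nat_lit 1397364699) (nat_lit 76) (nat_lit 2748832764) (nat_lit 215) (nat_lit 5) (nat_lit 223) (nat_lit 5) (nat_lit 216) (nat_lit 5) (nat_lit 493) (nat_lit 427) (nat_lit 220)) (XT.lf (nat_lit 0) (nat_lit 11022400865) (nat_lit 456) (nat_lit 10653249715) (nat_lit 532) (nat_lit 114224773) (nat_lit 209) (nat_lit 5) (nat_lit 215) (nat_lit 5) (nat_lit 216) (nat_lit 5) (nat_lit 494) (nat_lit 427) (nat_lit 219))) (XT.nd (nat_lit 78) (nat_lit 456) (nat_lit 0) (XT.lf (nat_lit 0) (nat_lit 1644038662) (nat_lit 532) (nat_lit 2316425935) (nat_lit 608) (nat_lit 18092303024) (nat_lit 201) (nat_lit 5) (nat_lit 208) (nat_lit 5) (nat_lit 209) (nat_lit 5) (nat_lit 495) (nat_lit 427) (nat_lit 218)) (XT.nd (nat_lit 78) (nat_lit 456) (nat_lit 0) (XT.lf (nat_lit 0) (nat_lit 8222475526) (nat_lit 608) (nat_lit 7918804314) (nat_lit 76) (nat_lit 6177476464) (nat_lit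 201) (nat_lit 5) (nat_lit 209) (nat_lit 5) (nat_lit 202) (nat_lit 5) (nat_lit 496) (nat_lit 427) (nat_lit 217)) (XT.lf (nat_lit 0) (nat_lit 4861828514) (nat_lit 456) (nat_lit 7749364644) (nat_lit 532) (nat_lit 9978043070) (nat_lit 195) (nat_lit 5) (nat_lit 201) (nat_lit 5) (nat_lit 202) (nat_lit 5) (nat_lit 497) (nat_lit 427) (nat_lit 216))))) (XT.nd (nat_lit 234) (nat_lit 912) (nat_lit 0) (XT.nd (nat_lit 78) (nat_lit 532) (nat_lit 0) (XT.lf (nat_lit 0) (nat_lit 17141042381) (nat_lit 532) (nat_lit 4871819956) (nat_lit 76) (nat_lit 851197049) (nat_lit 195) (nat_lit 5) (nat_lit 202) (nat_lit 5) (nat_lit 196) (nat_lit 5) (nat_lit 498) (nat_lit 427) (nat_lit 215)) (XT.nd (nat_lit 78) (nat_lit 76) (nat_lit 0) (XT.lf (nat_lit 0) (nat_lit 8290884951) (nat_lit 456) (nat_lit 13570464047) (nat_lit 532) (nat_lit 1281033569) (nat_lit 189) (nat_lit 5) (nat_lit 195) (nat_lit 5) (nat_lit 196) (nat_lit 5) (nat_lit 499) (nat_lit 427) (nat_lit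 214)) (XT.lf (nat_lit 0) (nat_lit 3234807654) (nat_lit 532) (nat_lit 1671484663) (nat_lit 76) (nat_lit 18519005842) (nat_lit 188) (nat_lit 5) (nat_lit 195) (nat_lit 5) (nat_lit 189) (nat_lit 5) (nat_lit 500) (nat_lit 427) (nat_lit 213)))) (XT.nd (nat_lit 78) (nat_lit 456) (nat_lit 0) (XT.lf (nat_lit 0) (nat_lit 7922085531) (nat_lit 532) (nat_lit 11825744217) (nat_lit 76) (nat_lit 3963908227) (nat_lit 182) (nat_lit 5) (nat_lit 189) (nat_lit 5) (nat_lit 183) (nat_lit 5) (nat_lit 501) (nat_lit 427) (nat_lit 212)) (XT.nd (nat_lit 78) (nat_lit 0) (nat_lit 0) (XT.lf (nat_lit 0) (nat_lit 1716210824) (nat_lit 456) (nat_lit 11036698255) (nat_lit 532) (nat_lit 11250002213) (nat_lit 176) (nat_lit 5) (nat_lit 182) (nat_lit 5) (nat_lit 183) (nat_lit 5) (nat_lit 502) (nat_lit 427) (nat_lit 211)) (XT.lf (nat_lit 0) (nat_lit 15682026042) (nat_lit 456) (nat_lit 2072607767) (nat_lit 532) (nat_lit 6543789267) (nat_lit 176) (nat_lit 5) (nat_lit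 182) (nat_lit 5) (nat_lit 183) (nat_lit 5) (nat_lit 503) (nat_lit 427) (nat_lit 210)))))) (XT.nd (nat_lit 468) (nat_lit 456) (nat_lit 0) (XT.nd (nat_lit 234) (nat_lit 760) (nat_lit 0) (XT.nd (nat_lit 78) (nat_lit 532) (nat_lit 0) (XT.lf (nat_lit 0) (nat_lit 5344272125) (nat_lit 380) (nat_lit 17587740707) (nat_lit 456) (nat_lit 1666320549) (nat_lit 171) (nat_lit 5) (nat_lit 176) (nat_lit 5) (nat_lit 177) (nat_lit 5) (nat_lit 504) (nat_lit 427) (nat_lit 209)) (XT.nd (nat_lit 78) (nat_lit 456) (nat_lit 0) (XT.lf (nat_lit 0) (nat_lit 3332263729) (nat_lit 456) (nat_lit 5244966844) (nat_lit 76) (nat_lit 16325243120) (nat_lit 170) (nat_lit 5) (nat_lit 176) (nat_lit 5) (nat_lit 171) (nat_lit 5) (nat_lit 505) (nat_lit 427) (nat_lit 208)) (XT.lf (nat_lit 0) (nat_lit 8467474717) (nat_lit 532) (nat_lit 16069694759) (nat_lit 76) (nat_lit 674128348) (nat_lit 164) (nat_lit 5) (nat_lit 171) (nat_lit 5) (nat_lit 165) (nat_lit 5) (nat_lit 506)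 (nat_lit 427) (nat_lit 207)))) (XT.nd (nat_lit 78) (nat_lit 760) (nat_lit 0) (XT.lf (nat_lit 0) (nat_lit 13792786010) (nat_lit 532) (nat_lit 1702765527) (nat_lit 76) (nat_lit 10028999609) (nat_lit 164) (nat_lit 5) (nat_lit 171) (nat_lit 5) (nat_lit 165) (nat_lit 5) (nat_lit 507) (nat_lit 427) (nat_lit 206)) (XT.nd (nat_lit 78) (nat_lit 380) (nat_lit 0) (XT.lf (nat_lit 0) (nat_lit 13116531531) (nat_lit 380) (nat_lit 6188491706) (nat_lit 456) (nat_lit 6537438519) (nat_lit 159) (nat_lit 5) (nat_lit 164) (nat_lit 5) (nat_lit 165) (nat_lit 5) (nat_lit 508) (nat_lit 427) (nat_lit 205)) (XT.lf (nat_lit 0) (nat_lit 2087611048) (nat_lit 380) (nat_lit 22881698485) (nat_lit 456) (nat_lit 1196585563) (nat_lit 154) (nat_lit 5) (nat_lit 159) (nat_lit 5) (nat_lit 160) (nat_lit 5) (nat_lit 509) (nat_lit 427) (nat_lit 204))))) (XT.nd (nat_lit 53040) (nat_lit 0) (nat_lit 24472) (XT.nd (nat_lit 78) (nat_lit 380) (nat_lit 0) (XT.lf (nat_lit 0)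 (nat_lit 4317584539) (nat_lit 456) (nat_lit 9200359384) (nat_lit 76) (nat_lit 12974856668) (nat_lit 153) (nat_lit 5) (nat_lit 159) (nat_lit 5) (nat_lit 154) (nat_lit 5) (nat_lit 510) (nat_lit 427) (nat_lit 203)) (XT.nd (nat_lit 52884) (nat_lit 0) (nat_lit 24472) (XT.lf (nat_lit 0) (nat_lit 6039499746) (nat_lit 380) (nat_lit 3921142647) (nat_lit 456) (nat_lit 16864751651) (nat_lit 148) (nat_lit 5) (nat_lit 153) (nat_lit 5) (nat_lit 154) (nat_lit 5) (nat_lit 511) (nat_lit 427) (nat_lit 202)) (XT.lf (nat_lit 0) (nat_lit 79020849) (nat_lit 1748) (nat_lit 2690699929) (nat_lit 1748) (nat_lit 2690699929) (nat_lit 470) (nat_lit 3) (nat_lit 493) (nat_lit 3) (nat_lit 493) (nat_lit 5) (nat_lit 428) (nat_lit 428) (nat_lit 284)))) (XT.nd (nat_lit 78) (nat_lit 0) (nat_lit 76) (XT.lf (nat_lit 0) (nat_lit 737800154) (nat_lit 1748) (nat_lit 68222240) (nat_lit 1748) (nat_lit 10212332251) (nat_lit 470) (nat_lit 3) (nat_lit 493) (nat_lit 3) (nat_lit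 493) (nat_lit 5) (nat_lit 429) (nat_lit 428) (nat_lit 283)) (XT.nd (nat_lit 78) (nat_lit 0) (nat_lit 0) (XT.lf (nat_lit 0) (nat_lit 1375537416) (nat_lit 1672) (nat_lit 5729322075) (nat_lit 1748) (nat_lit 4012034429) (nat_lit 471) (nat_lit 5) (nat_lit 493) (nat_lit 5) (nat_lit 494) (nat_lit 5) (nat_lit 430) (nat_lit 428) (nat_lit 282)) (XT.lf (nat_lit 0) (nat_lit 2016956771) (nat_lit 1672) (nat_lit 277363277) (nat_lit 1748) (nat_lit 8923268768) (nat_lit 471) (nat_lit 5) (nat_lit 493) (nat_lit 5) (nat_lit 494) (nat_lit 5) (nat_lit 431) (nat_lit 428) (nat_lit 281))))))))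
noncomputable def xc197 : XT := (XT.nd (nat_lit 1794) (nat_lit 11172) (nat_lit 0) (XT.nd (nat_lit 858) (nat_lit 2888) (nat_lit 0) (XT.nd (nat_lit 390) (nat_lit 0) (nat_lit 152) (XT.nd (nat_lit 156) (nat_lit 0) (nat_lit 76) (XT.nd (nat_lit 78) (nat_lit 0) (nat_lit 0) (XT.lf (nat_lit 0) (nat_lit 2708568669) (nat_lit 1672) (nat_lit 5991263193) (nat_lit 1748) (nat_lit 2619721784) (nat_lit 472) (nat_lit 5) (nat_lit 494) (nat_lit 5) (nat_lit 495) (nat_lit 5) (nat_lit 432) (nat_lit 428) (nat_lit 280)) (XT.lf (nat_lit 0) (nat_lit 3416778174) (nat_lit 1672) (nat_lit 397067293) (nat_lit 1748) (nat_lit 7609660253) (nat_lit 472) (nat_lit 5) (nat_lit 494) (nat_lit 5) (nat_lit 495) (nat_lit 5) (nat_lit 433) (nat_lit 428) (nat_lit 279))) (XT.nd (nat_lit 78) (nat_lit 0) (nat_lit 0) (XT.lf (nat_lit 0) (nat_lit 4167870612) (nat_lit 1672) (nat_lit 6165525614) (nat_lit 1748) (nat_lit 1195569422) (nat_lit 473) (nat_lit 5) (nat_lit 495) (nat_lit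 5) (nat_lit 496) (nat_lit 5) (nat_lit 434) (nat_lit 428) (nat_lit 278)) (XT.nd (nat_lit 78) (nat_lit 0) (nat_lit 0) (XT.lf (nat_lit 0) (nat_lit 4948163751) (nat_lit 1672) (nat_lit 425478310) (nat_lit 1748) (nat_lit 6262612266) (nat_lit 473) (nat_lit 5) (nat_lit 495) (nat_lit 5) (nat_lit 496) (nat_lit 5) (nat_lit 435) (nat_lit 428) (nat_lit 277)) (XT.lf (nat_lit 76) (nat_lit 5493315977) (nat_lit 0) (nat_lit 272922260) (nat_lit 1748) (nat_lit 5979010096) (nat_lit 474) (nat_lit 5) (nat_lit 473) (nat_lit 5) (nat_lit 496) (nat_lit 5) (nat_lit 436) (nat_lit 428) (nat_lit 276))))) (XT.nd (nat_lit 234) (nat_lit 0) (nat_lit 76) (XT.nd (nat_lit 78) (nat_lit 0) (nat_lit 0) (XT.lf (nat_lit 0) (nat_lit 6622311403) (nat_lit 1672) (nat_lit 360487059) (nat_lit 1748) (nat_lit 4873194021) (nat_lit 474) (nat_lit 5) (nat_lit 496) (nat_lit 5) (nat_lit 497) (nat_lit 5) (nat_lit 437) (nat_lit 428) (nat_lit 275)) (XT.nd (nat_lit 78) (nat_lit 0) (nat_lit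 76) (XT.lf (nat_lit 76) (nat_lit 5713730981) (nat_lit 0) (nat_lit 1807694996) (nat_lit 1748) (nat_lit 4447010086) (nat_lit 475) (nat_lit 5) (nat_lit 474) (nat_lit 5) (nat_lit 497) (nat_lit 5) (nat_lit 438) (nat_lit 428) (nat_lit 274)) (XT.lf (nat_lit 0) (nat_lit 8450740568) (nat_lit 1672) (nat_lit 199731965) (nat_lit 1748) (nat_lit 3432414516) (nat_lit 475) (nat_lit 5) (nat_lit 497) (nat_lit 5) (nat_lit 498) (nat_lit 5) (nat_lit 439) (nat_lit 428) (nat_lit 273)))) (XT.nd (nat_lit 78) (nat_lit 0) (nat_lit 76) (XT.lf (nat_lit 76) (nat_lit 6035267608) (nat_lit 0) (nat_lit 3402027541) (nat_lit 1748) (nat_lit 2761561665) (nat_lit 476) (nat_lit 5) (nat_lit 475) (nat_lit 5) (nat_lit 498) (nat_lit 5) (nat_lit 440) (nat_lit 428) (nat_lit 272)) (XT.nd (nat_lit 78) (nat_lit 0) (nat_lit 0) (XT.lf (nat_lit 76) (nat_lit 60189750) (nat_lit 0) (nat_lit 10385516581) (nat_lit 1748) (nat_lit 1871399910) (nat_lit 477) (nat_lit 5) (nat_lit 476)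 (nat_lit 5) (nat_lit 499) (nat_lit 5) (nat_lit 441) (nat_lit 428) (nat_lit 271)) (XT.lf (nat_lit 76) (nat_lit 6460743227) (nat_lit 0) (nat_lit 5065187229) (nat_lit 1748) (nat_lit 910760027) (nat_lit 477) (nat_lit 5) (nat_lit 476) (nat_lit 5) (nat_lit 499) (nat_lit 5) (nat_lit 442) (nat_lit 428) (nat_lit 270)))))) (XT.nd (nat_lit 468) (nat_lit 1520) (nat_lit 0) (XT.nd (nat_lit 234) (nat_lit 0) (nat_lit 76) (XT.nd (nat_lit 78) (nat_lit 0) (nat_lit 0) (XT.lf (nat_lit 0) (nat_lit 61411045) (nat_lit 1748) (nat_lit 12133854043) (nat_lit 1824) (nat_lit 363530476) (nat_lit 454) (nat_lit 5) (nat_lit 477) (nat_lit 5) (nat_lit 478) (nat_lit 5) (nat_lit 443) (nat_lit 428) (nat_lit 269)) (XT.nd (nat_lit 78) (nat_lit 0) (nat_lit 0) (XT.lf (nat_lit 0) (nat_lit 1103013485) (nat_lit 1748) (nat_lit 5696149936) (nat_lit 1824) (nat_lit 5882817828) (nat_lit 454) (nat_lit 5) (nat_lit 477) (nat_lit 5) (nat_lit 478) (nat_lit 5) (nat_lit 444) (nat_lit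 428) (nat_lit 268)) (XT.lf (nat_lit 76) (nat_lit 873309456) (nat_lit 0) (nat_lit 1286298828) (nat_lit 1824) (nat_lit 10648141672) (nat_lit 455) (nat_lit 5) (nat_lit 454) (nat_lit 5) (nat_lit 478) (nat_lit 5) (nat_lit 445) (nat_lit 428) (nat_lit 267)))) (XT.nd (nat_lit 78) (nat_lit 0) (nat_lit 0) (XT.lf (nat_lit 0) (nat_lit 3292650287) (nat_lit 1748) (nat_lit 5320954515) (nat_lit 1824) (nat_lit 4321325395) (nat_lit 455) (nat_lit 5) (nat_lit 478) (nat_lit 5) (nat_lit 479) (nat_lit 5) (nat_lit 446) (nat_lit 428) (nat_lit 266)) (XT.nd (nat_lit 78) (nat_lit 0) (nat_lit 76) (XT.lf (nat_lit 76) (nat_lit 1426516046) (nat_lit 0) (nat_lit 3028519931) (nat_lit 1824) (nat_lit 8609486827) (nat_lit 456) (nat_lit 5) (nat_lit 455) (nat_lit 5) (nat_lit 479) (nat_lit 5) (nat_lit 447) (nat_lit 428) (nat_lit 265)) (XT.lf (nat_lit 0) (nat_lit 5683018092) (nat_lit 1748) (nat_lit 4841148054) (nat_lit 1824) (nat_lit 2671696511) (nat_lit 456) (nat_lit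 5) (nat_lit 479) (nat_lit 5) (nat_lit 480) (nat_lit 5) (nat_lit 448) (nat_lit 428) (nat_lit 264))))) (XT.nd (nat_lit 234) (nat_lit 1672) (nat_lit 0) (XT.nd (nat_lit 78) (nat_lit 0) (nat_lit 76) (XT.lf (nat_lit 76) (nat_lit 2090521461) (nat_lit 0) (nat_lit 4867963631) (nat_lit 1824) (nat_lit 6370888036) (nat_lit 457) (nat_lit 5) (nat_lit 456) (nat_lit 5) (nat_lit 480) (nat_lit 5) (nat_lit 449) (nat_lit 428) (nat_lit 263)) (XT.nd (nat_lit 78) (nat_lit 0) (nat_lit 0) (XT.lf (nat_lit 0) (nat_lit 8287480132) (nat_lit 1748) (nat_lit 4253182733) (nat_lit 1824) (nat_lit 924332846) (nat_lit 457) (nat_lit 5) (nat_lit 480) (nat_lit 5) (nat_lit 481) (nat_lit 5) (nat_lit 450) (nat_lit 428) (nat_lit 262)) (XT.lf (nat_lit 76) (nat_lit 2869101295) (nat_lit 0) (nat_lit 6814491289) (nat_lit 1824) (nat_lit 3918929645) (nat_lit 458) (nat_lit 5) (nat_lit 457) (nat_lit 5) (nat_lit 481) (nat_lit 5) (nat_lit 451) (nat_lit 428) (nat_lit 261)))) (XT.nd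 (nat_lit 78) (nat_lit 1748) (nat_lit 0) (XT.lf (nat_lit 76) (nat_lit 10183050969) (nat_lit 0) (nat_lit 942936416) (nat_lit 1824) (nat_lit 2616446880) (nat_lit 458) (nat_lit 5) (nat_lit 457) (nat_lit 5) (nat_lit 481) (nat_lit 5) (nat_lit 452) (nat_lit 428) (nat_lit 260)) (XT.nd (nat_lit 78) (nat_lit 76) (nat_lit 0) (XT.lf (nat_lit 0) (nat_lit 3766287743) (nat_lit 1748) (nat_lit 8878187638) (nat_lit 1824) (nat_lit 1239726401) (nat_lit 435) (nat_lit 5) (nat_lit 458) (nat_lit 5) (nat_lit 459) (nat_lit 5) (nat_lit 453) (nat_lit 428) (nat_lit 259)) (XT.lf (nat_lit 0) (nat_lit 182762176) (nat_lit 1824) (nat_lit 2757635767) (nat_lit 76) (nat_lit 11087979575) (nat_lit 434) (nat_lit 5) (nat_lit 458) (nat_lit 5) (nat_lit 435) (nat_lit 5) (nat_lit 454) (nat_lit 428) (nat_lit 258))))))) (XT.nd (nat_lit 936) (nat_lit 4484) (nat_lit 0) (XT.nd (nat_lit 468) (nat_lit 2508) (nat_lit 0) (XT.nd (nat_lit 234) (nat_lit 1824) (nat_lit 0) (XT.nd (nat_lit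 78) (nat_lit 912) (nat_lit 0) (XT.lf (nat_lit 0) (nat_lit 1659054535) (nat_lit 1520) (nat_lit 9399197299) (nat_lit 76) (nat_lit 3116183986) (nat_lit 415) (nat_lit 5) (nat_lit 435) (nat_lit 5) (nat_lit 416) (nat_lit 5) (nat_lit 455) (nat_lit 428) (nat_lit 257)) (XT.nd (nat_lit 78) (nat_lit 912) (nat_lit 0) (XT.lf (nat_lit 0) (nat_lit 3193414868) (nat_lit 1520) (nat_lit 1855026470) (nat_lit 76) (nat_lit 9274405091) (nat_lit 415) (nat_lit 5) (nat_lit 435) (nat_lit 5) (nat_lit 416) (nat_lit 5) (nat_lit 456) (nat_lit 428) (nat_lit 256)) (XT.lf (nat_lit 0) (nat_lit 4794740381) (nat_lit 988) (nat_lit 8571771959) (nat_lit 76) (nat_lit 1106989295) (nat_lit 403) (nat_lit 5) (nat_lit 416) (nat_lit 5) (nat_lit 404) (nat_lit 5) (nat_lit 457) (nat_lit 428) (nat_lit 255)))) (XT.nd (nat_lit 78) (nat_lit 1824) (nat_lit 0) (XT.lf (nat_lit 0) (nat_lit 6464821191) (nat_lit 988) (nat_lit 830177466) (nat_lit 76) (nat_lit 7331438618) (nat_lit 403)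 (nat_lit 5) (nat_lit 416) (nat_lit 5) (nat_lit 404) (nat_lit 5) (nat_lit 458) (nat_lit 428) (nat_lit 254)) (XT.nd (nat_lit 78) (nat_lit 912) (nat_lit 0) (XT.lf (nat_lit 0) (nat_lit 7151704633) (nat_lit 912) (nat_lit 1053978434) (nat_lit 988) (nat_lit 6576002841) (nat_lit 391) (nat_lit 5) (nat_lit 403) (nat_lit 5) (nat_lit 404) (nat_lit 5) (nat_lit 459) (nat_lit 428) (nat_lit 253)) (XT.lf (nat_lit 0) (nat_lit 325827883) (nat_lit 912) (nat_lit 9688819511) (nat_lit 988) (nat_lit 4924728247) (nat_lit 379) (nat_lit 5) (nat_lit 391) (nat_lit 5) (nat_lit 392) (nat_lit 5) (nat_lit 460) (nat_lit 428) (nat_lit 252))))) (XT.nd (nat_lit 234) (nat_lit 1596) (nat_lit 0) (XT.nd (nat_lit 78) (nat_lit 912) (nat_lit 0) (XT.lf (nat_lit 0) (nat_lit 8528692669) (nat_lit 912) (nat_lit 3380427759) (nat_lit 988) (nat_lit 3190113949) (nat_lit 379) (nat_lit 5) (nat_lit 391) (nat_lit 5) (nat_lit 392) (nat_lit 5) (nat_lit 461) (nat_lit 428) (nat_lit 251))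 (XT.nd (nat_lit 78) (nat_lit 76) (nat_lit 0) (XT.lf (nat_lit 0) (nat_lit 1626399388) (nat_lit 836) (nat_lit 12236841965) (nat_lit 912) (nat_lit 1398615525) (nat_lit 368) (nat_lit 5) (nat_lit 379) (nat_lit 5) (nat_lit 380) (nat_lit 5) (nat_lit 462) (nat_lit 428) (nat_lit 250)) (XT.lf (nat_lit 0) (nat_lit 481287049) (nat_lit 912) (nat_lit 5384454036) (nat_lit 76) (nat_lit 9560772833) (nat_lit 367) (nat_lit 5) (nat_lit 379) (nat_lit 5) (nat_lit 368) (nat_lit 5) (nat_lit 463) (nat_lit 428) (nat_lit 249)))) (XT.nd (nat_lit 78) (nat_lit 760) (nat_lit 0) (XT.lf (nat_lit 0) (nat_lit 2395802451) (nat_lit 912) (nat_lit 12544312211) (nat_lit 76) (nat_lit 653851353) (nat_lit 356) (nat_lit 5) (nat_lit 368) (nat_lit 5) (nat_lit 357) (nat_lit 5) (nat_lit 464) (nat_lit 428) (nat_lit 248)) (XT.nd (nat_lit 78) (nat_lit 760) (nat_lit 0) (XT.lf (nat_lit 0) (nat_lit 4415531499) (nat_lit 912) (nat_lit 4086131185) (nat_lit 76) (nat_lit 7261767631)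 (nat_lit 356) (nat_lit 5) (nat_lit 368) (nat_lit 5) (nat_lit 357) (nat_lit 5) (nat_lit 465) (nat_lit 428) (nat_lit 247)) (XT.lf (nat_lit 0) (nat_lit 4593186359) (nat_lit 760) (nat_lit 1904158979) (nat_lit 836) (nat_lit 9438506352) (nat_lit 346) (nat_lit 5) (nat_lit 356) (nat_lit 5) (nat_lit 357) (nat_lit 5) (nat_lit 466) (nat_lit 428) (nat_lit 246)))))) (XT.nd (nat_lit 468) (nat_lit 2128) (nat_lit 0) (XT.nd (nat_lit 234) (nat_lit 1596) (nat_lit 0) (XT.nd (nat_lit 78) (nat_lit 760) (nat_lit 0) (XT.lf (nat_lit 0) (nat_lit 8671699253) (nat_lit 836) (nat_lit 2649578894) (nat_lit 76) (nat_lit 4789426834) (nat_lit 346) (nat_lit 5) (nat_lit 357) (nat_lit 5) (nat_lit 347) (nat_lit 5) (nat_lit 467) (nat_lit 428) (nat_lit 245)) (XT.nd (nat_lit 78) (nat_lit 0) (nat_lit 0) (XT.lf (nat_lit 0) (nat_lit 6278897984) (nat_lit 760) (nat_lit 4656149848) (nat_lit 836) (nat_lit 5353098888) (nat_lit 336) (nat_lit 5) (nat_lit 346) (nat_lit 5) (nat_lit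 347) (nat_lit 5) (nat_lit 468) (nat_lit 428) (nat_lit 244)) (XT.lf (nat_lit 0) (nat_lit 13267699637) (nat_lit 836) (nat_lit 1069258585) (nat_lit 76) (nat_lit 2131699848) (nat_lit 336) (nat_lit 5) (nat_lit 347) (nat_lit 5) (nat_lit 337) (nat_lit 5) (nat_lit 469) (nat_lit 428) (nat_lit 243)))) (XT.nd (nat_lit 78) (nat_lit 836) (nat_lit 0) (XT.lf (nat_lit 0) (nat_lit 8117004683) (nat_lit 760) (nat_lit 7605917894) (nat_lit 836) (nat_lit 928340182) (nat_lit 326) (nat_lit 5) (nat_lit 336) (nat_lit 5) (nat_lit 337) (nat_lit 5) (nat_lit 470) (nat_lit 428) (nat_lit 242)) (XT.nd (nat_lit 78) (nat_lit 0) (nat_lit 0) (XT.lf (nat_lit 0) (nat_lit 655441237) (nat_lit 760) (nat_lit 719968284) (nat_lit 836) (nat_lit 15461852864) (nat_lit 315) (nat_lit 5) (nat_lit 325) (nat_lit 5) (nat_lit 326) (nat_lit 5) (nat_lit 471) (nat_lit 428) (nat_lit 241)) (XT.lf (nat_lit 0) (nat_lit 3803910390) (nat_lit 836) (nat_lit 6936961364) (nat_lit 76) (nat_lit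 6284166777) (nat_lit 315) (nat_lit 5) (nat_lit 326) (nat_lit 5) (nat_lit 316) (nat_lit 5) (nat_lit 472) (nat_lit 428) (nat_lit 240))))) (XT.nd (nat_lit 234) (nat_lit 760) (nat_lit 0) (XT.nd (nat_lit 78) (nat_lit 684) (nat_lit 0) (XT.lf (nat_lit 0) (nat_lit 2512858340) (nat_lit 684) (nat_lit 3781871368) (nat_lit 760) (nat_lit 10921566885) (nat_lit 306) (nat_lit 5) (nat_lit 315) (nat_lit 5) (nat_lit 316) (nat_lit 5) (nat_lit 473) (nat_lit 428) (nat_lit 239)) (XT.nd (nat_lit 78) (nat_lit 684) (nat_lit 0) (XT.lf (nat_lit 0) (nat_lit 8896507346) (nat_lit 760) (nat_lit 5194795210) (nat_lit 76) (nat_lit 3318855756) (nat_lit 306) (nat_lit 5) (nat_lit 316) (nat_lit 5) (nat_lit 307) (nat_lit 5) (nat_lit 474) (nat_lit 428) (nat_lit 238)) (XT.lf (nat_lit 0) (nat_lit 4530339224) (nat_lit 684) (nat_lit 7067334226) (nat_lit 760) (nat_lit 6009278066) (nat_lit 297) (nat_lit 5) (nat_lit 306) (nat_lit 5) (nat_lit 307) (nat_lit 5) (nat_lit 475)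 (nat_lit 428) (nat_lit 237)))) (XT.nd (nat_lit 78) (nat_lit 760) (nat_lit 0) (XT.lf (nat_lit 0) (nat_lit 14381558558) (nat_lit 760) (nat_lit 3295586115) (nat_lit 76) (nat_lit 129963280) (nat_lit 297) (nat_lit 5) (nat_lit 307) (nat_lit 5) (nat_lit 298) (nat_lit 5) (nat_lit 476) (nat_lit 428) (nat_lit 236)) (XT.nd (nat_lit 78) (nat_lit 76) (nat_lit 0) (XT.lf (nat_lit 0) (nat_lit 6714341844) (nat_lit 684) (nat_lit 10590289264) (nat_lit 760) (nat_lit 704967473) (nat_lit 288) (nat_lit 5) (nat_lit 297) (nat_lit 5) (nat_lit 298) (nat_lit 5) (nat_lit 477) (nat_lit 428) (nat_lit 235)) (XT.lf (nat_lit 0) (nat_lit 2058288478) (nat_lit 760) (nat_lit 1268157046) (nat_lit 76) (nat_lit 14889117684) (nat_lit 287) (nat_lit 5) (nat_lit 297) (nat_lit 5) (nat_lit 288) (nat_lit 5) (nat_lit 478) (nat_lit 428) (nat_lit 234))))))))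
noncomputable def xc198 : XT := (XT.nd (nat_lit 1794) (nat_lit 2660) (nat_lit 0) (XT.nd (nat_lit 858) (nat_lit 3192) (nat_lit 0) (XT.nd (nat_lit 390) (nat_lit 2432) (nat_lit 0) (XT.nd (nat_lit 156) (nat_lit 608) (nat_lit 0) (XT.nd (nat_lit 78) (nat_lit 608) (nat_lit 0) (XT.lf (nat_lit 0) (nat_lit 4946445081) (nat_lit 760) (nat_lit 9385574068) (nat_lit 76) (nat_lit 4091954466) (nat_lit 278) (nat_lit 5) (nat_lit 288) (nat_lit 5) (nat_lit 279) (nat_lit 5) (nat_lit 479) (nat_lit 428) (nat_lit 233)) (XT.lf (nat_lit 0) (nat_lit 913862923) (nat_lit 608) (nat_lit 7008388403) (nat_lit 684) (nat_lit 10713704335) (nat_lit 270) (nat_lit 5) (nat_lit 278) (nat_lit 5) (nat_lit 279) (nat_lit 5) (nat_lit 480) (nat_lit 428) (nat_lit 232))) (XT.nd (nat_lit 78) (nat_lit 608) (nat_lit 0) (XT.lf (nat_lit 0) (nat_lit 11017398546) (nat_lit 684) (nat_lit 7315823863) (nat_lit 76) (nat_lit 517759582) (nat_lit 270) (nat_lit 5) (nat_lit 279) (nat_lit 5)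 (nat_lit 271) (nat_lit 5) (nat_lit 481) (nat_lit 428) (nat_lit 231)) (XT.nd (nat_lit 78) (nat_lit 0) (nat_lit 0) (XT.lf (nat_lit 0) (nat_lit 3287425458) (nat_lit 608) (nat_lit 10948337278) (nat_lit 684) (nat_lit 4833320947) (nat_lit 262) (nat_lit 5) (nat_lit 270) (nat_lit 5) (nat_lit 271) (nat_lit 5) (nat_lit 482) (nat_lit 428) (nat_lit 230)) (XT.lf (nat_lit 0) (nat_lit 14194112370) (nat_lit 608) (nat_lit 3367107309) (nat_lit 684) (nat_lit 1729474316) (nat_lit 262) (nat_lit 5) (nat_lit 270) (nat_lit 5) (nat_lit 271) (nat_lit 5) (nat_lit 483) (nat_lit 428) (nat_lit 229))))) (XT.nd (nat_lit 234) (nat_lit 1140) (nat_lit 0) (XT.nd (nat_lit 78) (nat_lit 608) (nat_lit 0) (XT.lf (nat_lit 0) (nat_lit 1478034782) (nat_lit 684) (nat_lit 13682540731) (nat_lit 76) (nat_lit 4354767026) (nat_lit 253) (nat_lit 5) (nat_lit 262) (nat_lit 5) (nat_lit 254) (nat_lit 5) (nat_lit 484) (nat_lit 428) (nat_lit 228)) (XT.nd (nat_lit 78) (nat_lit 608)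 (nat_lit 0) (XT.lf (nat_lit 0) (nat_lit 4777062795) (nat_lit 684) (nat_lit 2735712280) (nat_lit 76) (nat_lit 12230470849) (nat_lit 253) (nat_lit 5) (nat_lit 262) (nat_lit 5) (nat_lit 254) (nat_lit 5) (nat_lit 485) (nat_lit 428) (nat_lit 227)) (XT.lf (nat_lit 0) (nat_lit 8193609475) (nat_lit 684) (nat_lit 11442605885) (nat_lit 76) (nat_lit 338462265) (nat_lit 245) (nat_lit 5) (nat_lit 254) (nat_lit 5) (nat_lit 246) (nat_lit 5) (nat_lit 486) (nat_lit 428) (nat_lit 226)))) (XT.nd (nat_lit 78) (nat_lit 1140) (nat_lit 0) (XT.lf (nat_lit 0) (nat_lit 11740681170) (nat_lit 684) (nat_lit 205651474) (nat_lit 76) (nat_lit 8263162426) (nat_lit 245) (nat_lit 5) (nat_lit 254) (nat_lit 5) (nat_lit 246) (nat_lit 5) (nat_lit 487) (nat_lit 428) (nat_lit 225)) (XT.nd (nat_lit 78) (nat_lit 608) (nat_lit 0) (XT.lf (nat_lit 0) (nat_lit 11397979193) (nat_lit 532) (nat_lit 4028797717) (nat_lit 608) (nat_lit 5020871274) (nat_lit 238) (nat_lit 5) (nat_lit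 245) (nat_lit 5) (nat_lit 246) (nat_lit 5) (nat_lit 488) (nat_lit 428) (nat_lit 224)) (XT.lf (nat_lit 0) (nat_lit 2545424518) (nat_lit 608) (nat_lit 16679498258) (nat_lit 684) (nat_lit 1464875973) (nat_lit 230) (nat_lit 5) (nat_lit 238) (nat_lit 5) (nat_lit 239) (nat_lit 5) (nat_lit 489) (nat_lit 428) (nat_lit 223)))))) (XT.nd (nat_lit 468) (nat_lit 1520) (nat_lit 0) (XT.nd (nat_lit 234) (nat_lit 1064) (nat_lit 0) (XT.nd (nat_lit 78) (nat_lit 532) (nat_lit 0) (XT.lf (nat_lit 0) (nat_lit 2215854743) (nat_lit 684) (nat_lit 6489244348) (nat_lit 76) (nat_lit 12229773903) (nat_lit 229) (nat_lit 5) (nat_lit 238) (nat_lit 5) (nat_lit 230) (nat_lit 5) (nat_lit 490) (nat_lit 428) (nat_lit 222)) (XT.nd (nat_lit 78) (nat_lit 0) (nat_lit 0) (XT.lf (nat_lit 0) (nat_lit 5453322505) (nat_lit 532) (nat_lit 526964932) (nat_lit 608) (nat_lit 15203774488) (nat_lit 222) (nat_lit 5) (nat_lit 229) (nat_lit 5) (nat_lit 230) (nat_lit 5) (nat_lit 491)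 (nat_lit 428) (nat_lit 221)) (XT.lf (nat_lit 0) (nat_lit 9908911358) (nat_lit 608) (nat_lit 3773225444) (nat_lit 76) (nat_lit 7754320661) (nat_lit 222) (nat_lit 5) (nat_lit 230) (nat_lit 5) (nat_lit 223) (nat_lit 5) (nat_lit 492) (nat_lit 428) (nat_lit 220)))) (XT.nd (nat_lit 78) (nat_lit 532) (nat_lit 0) (XT.lf (nat_lit 0) (nat_lit 8524356228) (nat_lit 532) (nat_lit 5445027841) (nat_lit 608) (nat_lit 7723452179) (nat_lit 215) (nat_lit 5) (nat_lit 222) (nat_lit 5) (nat_lit 223) (nat_lit 5) (nat_lit 493) (nat_lit 428) (nat_lit 219)) (XT.nd (nat_lit 78) (nat_lit 532) (nat_lit 0) (XT.lf (nat_lit 0) (nat_lit 18150241969) (nat_lit 608) (nat_lit 861606362) (nat_lit 76) (nat_lit 2941711610) (nat_lit 215) (nat_lit 5) (nat_lit 223) (nat_lit 5) (nat_lit 216) (nat_lit 5) (nat_lit 494) (nat_lit 428) (nat_lit 218)) (XT.lf (nat_lit 0) (nat_lit 300658085) (nat_lit 532) (nat_lit 10416485234) (nat_lit 76) (nat_lit 11500170263) (nat_lit 208)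 (nat_lit 5) (nat_lit 215) (nat_lit 5) (nat_lit 209) (nat_lit 5) (nat_lit 495) (nat_lit 428) (nat_lit 217))))) (XT.nd (nat_lit 234) (nat_lit 532) (nat_lit 0) (XT.nd (nat_lit 78) (nat_lit 456) (nat_lit 0) (XT.lf (nat_lit 0) (nat_lit 2238780788) (nat_lit 532) (nat_lit 2212030602) (nat_lit 608) (nat_lit 18034728422) (nat_lit 201) (nat_lit 5) (nat_lit 208) (nat_lit 5) (nat_lit 209) (nat_lit 5) (nat_lit 496) (nat_lit 428) (nat_lit 216)) (XT.nd (nat_lit 78) (nat_lit 456) (nat_lit 0) (XT.lf (nat_lit 0) (nat_lit 8790960428) (nat_lit 608) (nat_lit 7519174601) (nat_lit 76) (nat_lit 6446856466) (nat_lit 201) (nat_lit 5) (nat_lit 209) (nat_lit 5) (nat_lit 202) (nat_lit 5) (nat_lit 497) (nat_lit 428) (nat_lit 215)) (XT.lf (nat_lit 0) (nat_lit 5513399793) (nat_lit 456) (nat_lit 7749729466) (nat_lit 532) (nat_lit 9769839382) (nat_lit 195) (nat_lit 5) (nat_lit 201) (nat_lit 5) (nat_lit 202) (nat_lit 5) (nat_lit 498) (nat_lit 428) (nat_lit 214))))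 (XT.nd (nat_lit 78) (nat_lit 532) (nat_lit 0) (XT.lf (nat_lit 0) (nat_lit 17876722199) (nat_lit 532) (nat_lit 4418880759) (nat_lit 76) (nat_lit 1017823510) (nat_lit 195) (nat_lit 5) (nat_lit 202) (nat_lit 5) (nat_lit 196) (nat_lit 5) (nat_lit 499) (nat_lit 428) (nat_lit 213)) (XT.nd (nat_lit 78) (nat_lit 76) (nat_lit 0) (XT.lf (nat_lit 0) (nat_lit 9003457354) (nat_lit 456) (nat_lit 13683824371) (nat_lit 532) (nat_lit 910118567) (nat_lit 189) (nat_lit 5) (nat_lit 195) (nat_lit 5) (nat_lit 196) (nat_lit 5) (nat_lit 500) (nat_lit 428) (nat_lit 212)) (XT.lf (nat_lit 0) (nat_lit 3683165608) (nat_lit 532) (nat_lit 1163728024) (nat_lit 76) (nat_lit 19039183609) (nat_lit 188) (nat_lit 5) (nat_lit 195) (nat_lit 5) (nat_lit 189) (nat_lit 5) (nat_lit 501) (nat_lit 428) (nat_lit 211))))))) (XT.nd (nat_lit 53820) (nat_lit 0) (nat_lit 24168) (XT.nd (nat_lit 468) (nat_lit 836) (nat_lit 0) (XT.nd (nat_lit 234) (nat_lit 912) (nat_lit 0) (XT.nd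 (nat_lit 78) (nat_lit 456) (nat_lit 0) (XT.lf (nat_lit 0) (nat_lit 8461182702) (nat_lit 532) (nat_lit 11518013837) (nat_lit 76) (nat_lit 4199110493) (nat_lit 182) (nat_lit 5) (nat_lit 189) (nat_lit 5) (nat_lit 183) (nat_lit 5) (nat_lit 502) (nat_lit 428) (nat_lit 210)) (XT.nd (nat_lit 78) (nat_lit 0) (nat_lit 0) (XT.lf (nat_lit 0) (nat_lit 2291199743) (nat_lit 456) (nat_lit 11093469499) (nat_lit 532) (nat_lit 11090714675) (nat_lit 176) (nat_lit 5) (nat_lit 182) (nat_lit 5) (nat_lit 183) (nat_lit 5) (nat_lit 503) (nat_lit 428) (nat_lit 209)) (XT.lf (nat_lit 0) (nat_lit 16525729997) (nat_lit 456) (nat_lit 1953312157) (nat_lit 532) (nat_lit 6297912520) (nat_lit 176) (nat_lit 5) (nat_lit 182) (nat_lit 5) (nat_lit 183) (nat_lit 5) (nat_lit 504) (nat_lit 428) (nat_lit 208)))) (XT.nd (nat_lit 78) (nat_lit 532) (nat_lit 0) (XT.lf (nat_lit 0) (nat_lit 5984084864) (nat_lit 380) (nat_lit 17773125744) (nat_lit 456) (nat_lit 1325708731)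 (nat_lit 171) (nat_lit 5) (nat_lit 176) (nat_lit 5) (nat_lit 177) (nat_lit 5) (nat_lit 505) (nat_lit 428) (nat_lit 207)) (XT.nd (nat_lit 78) (nat_lit 456) (nat_lit 0) (XT.lf (nat_lit 0) (nat_lit 3760707005) (nat_lit 456) (nat_lit 4822532699) (nat_lit 76) (nat_lit 16809999868) (nat_lit 170) (nat_lit 5) (nat_lit 176) (nat_lit 5) (nat_lit 171) (nat_lit 5) (nat_lit 506) (nat_lit 428) (nat_lit 206)) (XT.lf (nat_lit 0) (nat_lit 8996005626) (nat_lit 532) (nat_lit 15861091885) (nat_lit 76) (nat_lit 851195942) (nat_lit 164) (nat_lit 5) (nat_lit 171) (nat_lit 5) (nat_lit 165) (nat_lit 5) (nat_lit 507) (nat_lit 428) (nat_lit 205))))) (XT.nd (nat_lit 234) (nat_lit 76) (nat_lit 0) (XT.nd (nat_lit 78) (nat_lit 760) (nat_lit 0) (XT.lf (nat_lit 0) (nat_lit 14420780372) (nat_lit 532) (nat_lit 1217216161) (nat_lit 76) (nat_lit 10389957078) (nat_lit 164) (nat_lit 5) (nat_lit 171) (nat_lit 5) (nat_lit 165) (nat_lit 5) (nat_lit 508) (nat_lit 428)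 (nat_lit 204)) (XT.nd (nat_lit 78) (nat_lit 380) (nat_lit 0) (XT.lf (nat_lit 0) (nat_lit 13895048386) (nat_lit 380) (nat_lit 6144660702) (nat_lit 456) (nat_lit 6312585309) (nat_lit 159) (nat_lit 5) (nat_lit 164) (nat_lit 5) (nat_lit 165) (nat_lit 5) (nat_lit 509) (nat_lit 428) (nat_lit 203)) (XT.lf (nat_lit 0) (nat_lit 2648042948) (nat_lit 380) (nat_lit 23166837606) (nat_lit 456) (nat_lit 867364741) (nat_lit 154) (nat_lit 5) (nat_lit 159) (nat_lit 5) (nat_lit 160) (nat_lit 5) (nat_lit 510) (nat_lit 428) (nat_lit 202)))) (XT.nd (nat_lit 52962) (nat_lit 0) (nat_lit 24092) (XT.lf (nat_lit 0) (nat_lit 4745623361) (nat_lit 456) (nat_lit 8871273943) (nat_lit 76) (nat_lit 13398883258) (nat_lit 153) (nat_lit 5) (nat_lit 159) (nat_lit 5) (nat_lit 154) (nat_lit 5) (nat_lit 511) (nat_lit 428) (nat_lit 201)) (XT.nd (nat_lit 78) (nat_lit 0) (nat_lit 0) (XT.lf (nat_lit 0) (nat_lit 655025389) (nat_lit 1748) (nat_lit 2451492240) (nat_lit 1748)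 (nat_lit 2451492240) (nat_lit 470) (nat_lit 3) (nat_lit 493) (nat_lit 3) (nat_lit 493) (nat_lit 5) (nat_lit 429) (nat_lit 429) (nat_lit 282)) (XT.lf (nat_lit 76) (nat_lit 511676370) (nat_lit 0) (nat_lit 1370523740) (nat_lit 1748) (nat_lit 9333672339) (nat_lit 471) (nat_lit 5) (nat_lit 470) (nat_lit 3) (nat_lit 493) (nat_lit 5) (nat_lit 430) (nat_lit 429) (nat_lit 281)))))) (XT.nd (nat_lit 468) (nat_lit 0) (nat_lit 152) (XT.nd (nat_lit 234) (nat_lit 0) (nat_lit 76) (XT.nd (nat_lit 78) (nat_lit 0) (nat_lit 0) (XT.lf (nat_lit 0) (nat_lit 2507503398) (nat_lit 1672) (nat_lit 5247238229) (nat_lit 1748) (nat_lit 3562149683) (nat_lit 471) (nat_lit 5) (nat_lit 493) (nat_lit 5) (nat_lit 494) (nat_lit 5) (nat_lit 431) (nat_lit 429) (nat_lit 280)) (XT.nd (nat_lit 78) (nat_lit 0) (nat_lit 76) (XT.lf (nat_lit 76) (nat_lit 306074550) (nat_lit 0) (nat_lit 2836007845) (nat_lit 1748) (nat_lit 8277916015) (nat_lit 472) (nat_lit 5) (nat_lit 471)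 (nat_lit 5) (nat_lit 494) (nat_lit 5) (nat_lit 432) (nat_lit 429) (nat_lit 279)) (XT.lf (nat_lit 0) (nat_lit 3824937098) (nat_lit 1672) (nat_lit 5505273771) (nat_lit 1748) (nat_lit 2194248288) (nat_lit 472) (nat_lit 5) (nat_lit 494) (nat_lit 5) (nat_lit 495) (nat_lit 5) (nat_lit 433) (nat_lit 429) (nat_lit 278)))) (XT.nd (nat_lit 78) (nat_lit 0) (nat_lit 76) (XT.lf (nat_lit 76) (nat_lit 191438072) (nat_lit 0) (nat_lit 4336288270) (nat_lit 1748) (nat_lit 7103160356) (nat_lit 473) (nat_lit 5) (nat_lit 472) (nat_lit 5) (nat_lit 495) (nat_lit 5) (nat_lit 434) (nat_lit 429) (nat_lit 277)) (XT.nd (nat_lit 78) (nat_lit 0) (nat_lit 0) (XT.lf (nat_lit 0) (nat_lit 5273186825) (nat_lit 1672) (nat_lit 5675257059) (nat_lit 1748) (nat_lit 790429663) (nat_lit 473) (nat_lit 5) (nat_lit 495) (nat_lit 5) (nat_lit 496) (nat_lit 5) (nat_lit 435) (nat_lit 429) (nat_lit 276)) (XT.lf (nat_lit 76) (nat_lit 169787016) (nat_lit 0) (nat_lit 5880362772)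 (nat_lit 1748) (nat_lit 5798541484) (nat_lit 474) (nat_lit 5) (nat_lit 473) (nat_lit 5) (nat_lit 496) (nat_lit 5) (nat_lit 436) (nat_lit 429) (nat_lit 275))))) (XT.nd (nat_lit 234) (nat_lit 0) (nat_lit 152) (XT.nd (nat_lit 78) (nat_lit 0) (nat_lit 76) (XT.lf (nat_lit 76) (nat_lit 6200772849) (nat_lit 0) (nat_lit 666945002) (nat_lit 1748) (nat_lit 5092489131) (nat_lit 474) (nat_lit 5) (nat_lit 473) (nat_lit 5) (nat_lit 496) (nat_lit 5) (nat_lit 437) (nat_lit 429) (nat_lit 274)) (XT.nd (nat_lit 78) (nat_lit 0) (nat_lit 0) (XT.lf (nat_lit 76) (nat_lit 243397049) (nat_lit 0) (nat_lit 7477286006) (nat_lit 1748) (nat_lit 4352891925) (nat_lit 475) (nat_lit 5) (nat_lit 474) (nat_lit 5) (nat_lit 497) (nat_lit 5) (nat_lit 438) (nat_lit 429) (nat_lit 273)) (XT.lf (nat_lit 76) (nat_lit 6431907903) (nat_lit 0) (nat_lit 2189303930) (nat_lit 1748) (nat_lit 3567391252) (nat_lit 475) (nat_lit 5) (nat_lit 474) (nat_lit 5) (nat_lit 497) (nat_lit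 5) (nat_lit 439) (nat_lit 429) (nat_lit 272)))) (XT.nd (nat_lit 78) (nat_lit 0) (nat_lit 0) (XT.lf (nat_lit 76) (nat_lit 414798776) (nat_lit 0) (nat_lit 9136193294) (nat_lit 1748) (nat_lit 2754717641) (nat_lit 476) (nat_lit 5) (nat_lit 475) (nat_lit 5) (nat_lit 498) (nat_lit 5) (nat_lit 440) (nat_lit 429) (nat_lit 271)) (XT.nd (nat_lit 78) (nat_lit 0) (nat_lit 76) (XT.lf (nat_lit 76) (nat_lit 6765024726) (nat_lit 0) (nat_lit 3775307500) (nat_lit 1748) (nat_lit 1884009679) (nat_lit 476) (nat_lit 5) (nat_lit 475) (nat_lit 5) (nat_lit 498) (nat_lit 5) (nat_lit 441) (nat_lit 429) (nat_lit 270)) (XT.lf (nat_lit 76) (nat_lit 686777556) (nat_lit 0) (nat_lit 10866324247) (nat_lit 1748) (nat_lit 992174757) (nat_lit 477) (nat_lit 5) (nat_lit 476) (nat_lit 5) (nat_lit 499) (nat_lit 5) (nat_lit 442) (nat_lit 429) (nat_lit 269))))))))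
noncomputable def xc199 : XT := (XT.nd (nat_lit 1794) (nat_lit 8968) (nat_lit 0) (XT.nd (nat_lit 858) (nat_lit 7448) (nat_lit 0) (XT.nd (nat_lit 390) (nat_lit 0) (nat_lit 76) (XT.nd (nat_lit 156) (nat_lit 0) (nat_lit 0) (XT.nd (nat_lit 78) (nat_lit 1672) (nat_lit 0) (XT.lf (nat_lit 76) (nat_lit 7203079671) (nat_lit 0) (nat_lit 5434233458) (nat_lit 1748) (nat_lit 30295667) (nat_lit 477) (nat_lit 5) (nat_lit 476) (nat_lit 5) (nat_lit 499) (nat_lit 5) (nat_lit 443) (nat_lit 429) (nat_lit 268)) (XT.lf (nat_lit 0) (nat_lit 934534605) (nat_lit 1748) (nat_lit 11736240478) (nat_lit 1824) (nat_lit 121567969) (nat_lit 454) (nat_lit 5) (nat_lit 477) (nat_lit 5) (nat_lit 478) (nat_lit 5) (nat_lit 444) (nat_lit 429) (nat_lit 267))) (XT.nd (nat_lit 78) (nat_lit 0) (nat_lit 0) (XT.lf (nat_lit 0) (nat_lit 1979873106) (nat_lit 1748) (nat_lit 5182337008) (nat_lit 1824) (nat_lit 5756127991) (nat_lit 454) (nat_lit 5) (nat_lit 477) (nat_lit 5)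 (nat_lit 478) (nat_lit 5) (nat_lit 445) (nat_lit 429) (nat_lit 266)) (XT.nd (nat_lit 78) (nat_lit 0) (nat_lit 76) (XT.lf (nat_lit 76) (nat_lit 1514381731) (nat_lit 0) (nat_lit 1530506163) (nat_lit 1824) (nat_lit 10001992194) (nat_lit 455) (nat_lit 5) (nat_lit 454) (nat_lit 5) (nat_lit 478) (nat_lit 5) (nat_lit 446) (nat_lit 429) (nat_lit 265)) (XT.lf (nat_lit 0) (nat_lit 4182688507) (nat_lit 1748) (nat_lit 4797913331) (nat_lit 1824) (nat_lit 4196363730) (nat_lit 455) (nat_lit 5) (nat_lit 478) (nat_lit 5) (nat_lit 479) (nat_lit 5) (nat_lit 447) (nat_lit 429) (nat_lit 264))))) (XT.nd (nat_lit 234) (nat_lit 0) (nat_lit 152) (XT.nd (nat_lit 78) (nat_lit 0) (nat_lit 76) (XT.lf (nat_lit 76) (nat_lit 2080365455) (nat_lit 0) (nat_lit 3275855948) (nat_lit 1824) (nat_lit 7953174155) (nat_lit 456) (nat_lit 5) (nat_lit 455) (nat_lit 5) (nat_lit 479) (nat_lit 5) (nat_lit 448) (nat_lit 429) (nat_lit 263)) (XT.nd (nat_lit 78) (nat_lit 0)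 (nat_lit 0) (XT.lf (nat_lit 0) (nat_lit 6591651101) (nat_lit 1748) (nat_lit 4307628470) (nat_lit 1824) (nat_lit 2544428330) (nat_lit 456) (nat_lit 5) (nat_lit 479) (nat_lit 5) (nat_lit 480) (nat_lit 5) (nat_lit 449) (nat_lit 429) (nat_lit 262)) (XT.lf (nat_lit 76) (nat_lit 2758527445) (nat_lit 0) (nat_lit 5122577973) (nat_lit 1824) (nat_lit 5699016986) (nat_lit 457) (nat_lit 5) (nat_lit 456) (nat_lit 5) (nat_lit 480) (nat_lit 5) (nat_lit 450) (nat_lit 429) (nat_lit 261)))) (XT.nd (nat_lit 78) (nat_lit 0) (nat_lit 0) (XT.lf (nat_lit 0) (nat_lit 9220317598) (nat_lit 1748) (nat_lit 3707800558) (nat_lit 1824) (nat_lit 790669855) (nat_lit 457) (nat_lit 5) (nat_lit 480) (nat_lit 5) (nat_lit 481) (nat_lit 5) (nat_lit 451) (nat_lit 429) (nat_lit 260)) (XT.nd (nat_lit 78) (nat_lit 0) (nat_lit 0) (XT.lf (nat_lit 76) (nat_lit 3552781480) (nat_lit 0) (nat_lit 7080596223) (nat_lit 1824) (nat_lit 3225910101) (nat_lit 458) (nat_lit 5) (nat_lit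 457) (nat_lit 5) (nat_lit 481) (nat_lit 5) (nat_lit 452) (nat_lit 429) (nat_lit 259)) (XT.lf (nat_lit 76) (nat_lit 11000729792) (nat_lit 0) (nat_lit 1089064858) (nat_lit 1824) (nat_lit 1912503133) (nat_lit 458) (nat_lit 5) (nat_lit 457) (nat_lit 5) (nat_lit 481) (nat_lit 5) (nat_lit 453) (nat_lit 429) (nat_lit 258)))))) (XT.nd (nat_lit 468) (nat_lit 3572) (nat_lit 0) (XT.nd (nat_lit 234) (nat_lit 912) (nat_lit 0) (XT.nd (nat_lit 78) (nat_lit 1520) (nat_lit 0) (XT.lf (nat_lit 0) (nat_lit 4467299173) (nat_lit 1748) (nat_lit 9160070432) (nat_lit 1824) (nat_lit 519759827) (nat_lit 435) (nat_lit 5) (nat_lit 458) (nat_lit 5) (nat_lit 459) (nat_lit 5) (nat_lit 454) (nat_lit 429) (nat_lit 257)) (XT.nd (nat_lit 78) (nat_lit 1444) (nat_lit 0) (XT.lf (nat_lit 0) (nat_lit 906999210) (nat_lit 1824) (nat_lit 2189644779) (nat_lit 76) (nat_lit 11197739222) (nat_lit 434) (nat_lit 5) (nat_lit 458) (nat_lit 5) (nat_lit 435) (nat_lit 5) (nat_lit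 455) (nat_lit 429) (nat_lit 256)) (XT.lf (nat_lit 0) (nat_lit 2402113996) (nat_lit 1520) (nat_lit 8953186845) (nat_lit 76) (nat_lit 3088278852) (nat_lit 415) (nat_lit 5) (nat_lit 435) (nat_lit 5) (nat_lit 416) (nat_lit 5) (nat_lit 456) (nat_lit 429) (nat_lit 255)))) (XT.nd (nat_lit 78) (nat_lit 912) (nat_lit 0) (XT.lf (nat_lit 0) (nat_lit 3953242352) (nat_lit 1520) (nat_lit 1270563862) (nat_lit 76) (nat_lit 9371433572) (nat_lit 415) (nat_lit 5) (nat_lit 435) (nat_lit 5) (nat_lit 416) (nat_lit 5) (nat_lit 457) (nat_lit 429) (nat_lit 254)) (XT.nd (nat_lit 78) (nat_lit 0) (nat_lit 0) (XT.lf (nat_lit 0) (nat_lit 5576510159) (nat_lit 988) (nat_lit 8111418488) (nat_lit 76) (nat_lit 1061183964) (nat_lit 403) (nat_lit 5) (nat_lit 416) (nat_lit 5) (nat_lit 404) (nat_lit 5) (nat_lit 458) (nat_lit 429) (nat_lit 253)) (XT.lf (nat_lit 0) (nat_lit 7266544056) (nat_lit 988) (nat_lit 227380123) (nat_lit 76) (nat_lit 7411454531) (nat_lit 403)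 (nat_lit 5) (nat_lit 416) (nat_lit 5) (nat_lit 404) (nat_lit 5) (nat_lit 459) (nat_lit 429) (nat_lit 252))))) (XT.nd (nat_lit 234) (nat_lit 1748) (nat_lit 0) (XT.nd (nat_lit 78) (nat_lit 912) (nat_lit 0) (XT.lf (nat_lit 0) (nat_lit 7910064612) (nat_lit 912) (nat_lit 1122968830) (nat_lit 988) (nat_lit 6030885390) (nat_lit 391) (nat_lit 5) (nat_lit 403) (nat_lit 5) (nat_lit 404) (nat_lit 5) (nat_lit 460) (nat_lit 429) (nat_lit 251)) (XT.nd (nat_lit 78) (nat_lit 0) (nat_lit 0) (XT.lf (nat_lit 0) (nat_lit 957243784) (nat_lit 912) (nat_lit 9911680921) (nat_lit 988) (nat_lit 4356025369) (nat_lit 379) (nat_lit 5) (nat_lit 391) (nat_lit 5) (nat_lit 392) (nat_lit 5) (nat_lit 461) (nat_lit 429) (nat_lit 250)) (XT.lf (nat_lit 0) (nat_lit 9311912937) (nat_lit 912) (nat_lit 3476551040) (nat_lit 988) (nat_lit 2599801087) (nat_lit 379) (nat_lit 5) (nat_lit 391) (nat_lit 5) (nat_lit 392) (nat_lit 5) (nat_lit 462) (nat_lit 429) (nat_lit 249))))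 (XT.nd (nat_lit 78) (nat_lit 912) (nat_lit 0) (XT.lf (nat_lit 0) (nat_lit 2280595917) (nat_lit 836) (nat_lit 12492354395) (nat_lit 912) (nat_lit 781366609) (nat_lit 368) (nat_lit 5) (nat_lit 379) (nat_lit 5) (nat_lit 380) (nat_lit 5) (nat_lit 463) (nat_lit 429) (nat_lit 248)) (XT.nd (nat_lit 78) (nat_lit 836) (nat_lit 0) (XT.lf (nat_lit 0) (nat_lit 1115186353) (nat_lit 912) (nat_lit 4874244654) (nat_lit 76) (nat_lit 9733004484) (nat_lit 367) (nat_lit 5) (nat_lit 379) (nat_lit 5) (nat_lit 368) (nat_lit 5) (nat_lit 464) (nat_lit 429) (nat_lit 247)) (XT.lf (nat_lit 0) (nat_lit 3059722632) (nat_lit 912) (nat_lit 12168909744) (nat_lit 76) (nat_lit 664772060) (nat_lit 356) (nat_lit 5) (nat_lit 368) (nat_lit 5) (nat_lit 357) (nat_lit 5) (nat_lit 465) (nat_lit 429) (nat_lit 246))))))) (XT.nd (nat_lit 936) (nat_lit 4484) (nat_lit 0) (XT.nd (nat_lit 468) (nat_lit 2204) (nat_lit 0) (XT.nd (nat_lit 234) (nat_lit 1520) (nat_lit 0) (XT.nd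 (nat_lit 78) (nat_lit 760) (nat_lit 0) (XT.lf (nat_lit 0) (nat_lit 5107767749) (nat_lit 912) (nat_lit 3553845267) (nat_lit 76) (nat_lit 7404888944) (nat_lit 356) (nat_lit 5) (nat_lit 368) (nat_lit 5) (nat_lit 357) (nat_lit 5) (nat_lit 466) (nat_lit 429) (nat_lit 245)) (XT.nd (nat_lit 78) (nat_lit 0) (nat_lit 0) (XT.lf (nat_lit 0) (nat_lit 5295019097) (nat_lit 760) (nat_lit 1928317412) (nat_lit 836) (nat_lit 9019195204) (nat_lit 346) (nat_lit 5) (nat_lit 356) (nat_lit 5) (nat_lit 357) (nat_lit 5) (nat_lit 467) (nat_lit 429) (nat_lit 244)) (XT.lf (nat_lit 0) (nat_lit 9429578995) (nat_lit 836) (nat_lit 2092849282) (nat_lit 76) (nat_lit 4898688039) (nat_lit 346) (nat_lit 5) (nat_lit 357) (nat_lit 5) (nat_lit 347) (nat_lit 5) (nat_lit 468) (nat_lit 429) (nat_lit 243)))) (XT.nd (nat_lit 78) (nat_lit 760) (nat_lit 0) (XT.lf (nat_lit 0) (nat_lit 7010185810) (nat_lit 760) (nat_lit 4720481685) (nat_lit 836) (nat_lit 4871592167) (nat_lit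 336) (nat_lit 5) (nat_lit 346) (nat_lit 5) (nat_lit 347) (nat_lit 5) (nat_lit 469) (nat_lit 429) (nat_lit 242)) (XT.nd (nat_lit 78) (nat_lit 760) (nat_lit 0) (XT.lf (nat_lit 0) (nat_lit 14098843471) (nat_lit 836) (nat_lit 485572261) (nat_lit 76) (nat_lit 2202190274) (nat_lit 336) (nat_lit 5) (nat_lit 347) (nat_lit 5) (nat_lit 337) (nat_lit 5) (nat_lit 470) (nat_lit 429) (nat_lit 241)) (XT.lf (nat_lit 0) (nat_lit 8880435539) (nat_lit 760) (nat_lit 7715544093) (nat_lit 836) (nat_lit 377029127) (nat_lit 326) (nat_lit 5) (nat_lit 336) (nat_lit 5) (nat_lit 337) (nat_lit 5) (nat_lit 471) (nat_lit 429) (nat_lit 240))))) (XT.nd (nat_lit 234) (nat_lit 684) (nat_lit 0) (XT.nd (nat_lit 78) (nat_lit 684) (nat_lit 0) (XT.lf (nat_lit 0) (nat_lit 1273215646) (nat_lit 760) (nat_lit 685004237) (nat_lit 836) (nat_lit 15204578589) (nat_lit 315) (nat_lit 5) (nat_lit 325) (nat_lit 5) (nat_lit 326) (nat_lit 5) (nat_lit 472) (nat_lit 429) (nat_lit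 239)) (XT.nd (nat_lit 78) (nat_lit 684) (nat_lit 0) (XT.lf (nat_lit 0) (nat_lit 4424716707) (nat_lit 836) (nat_lit 6472216038) (nat_lit 76) (nat_lit 6457610899) (nat_lit 315) (nat_lit 5) (nat_lit 326) (nat_lit 5) (nat_lit 316) (nat_lit 5) (nat_lit 473) (nat_lit 429) (nat_lit 238)) (XT.lf (nat_lit 0) (nat_lit 3162629766) (nat_lit 684) (nat_lit 3795934146) (nat_lit 760) (nat_lit 10591200707) (nat_lit 306) (nat_lit 5) (nat_lit 315) (nat_lit 5) (nat_lit 316) (nat_lit 5) (nat_lit 474) (nat_lit 429) (nat_lit 237)))) (XT.nd (nat_lit 78) (nat_lit 684) (nat_lit 0) (XT.lf (nat_lit 0) (nat_lit 9602221212) (nat_lit 760) (nat_lit 4700678976) (nat_lit 76) (nat_lit 3444808447) (nat_lit 306) (nat_lit 5) (nat_lit 316) (nat_lit 5) (nat_lit 307) (nat_lit 5) (nat_lit 475) (nat_lit 429) (nat_lit 236)) (XT.nd (nat_lit 78) (nat_lit 0) (nat_lit 0) (XT.lf (nat_lit 0) (nat_lit 5215023856) (nat_lit 684) (nat_lit 7135895229) (nat_lit 760) (nat_lit 5597650353)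 (nat_lit 297) (nat_lit 5) (nat_lit 306) (nat_lit 5) (nat_lit 307) (nat_lit 5) (nat_lit 476) (nat_lit 429) (nat_lit 235)) (XT.lf (nat_lit 0) (nat_lit 15180723788) (nat_lit 760) (nat_lit 2769217070) (nat_lit 76) (nat_lit 202985177) (nat_lit 297) (nat_lit 5) (nat_lit 307) (nat_lit 5) (nat_lit 298) (nat_lit 5) (nat_lit 477) (nat_lit 429) (nat_lit 234)))))) (XT.nd (nat_lit 468) (nat_lit 1824) (nat_lit 0) (XT.nd (nat_lit 234) (nat_lit 1216) (nat_lit 0) (XT.nd (nat_lit 78) (nat_lit 760) (nat_lit 0) (XT.lf (nat_lit 0) (nat_lit 7437012864) (nat_lit 684) (nat_lit 10719035025) (nat_lit 760) (nat_lit 203544615) (nat_lit 288) (nat_lit 5) (nat_lit 297) (nat_lit 5) (nat_lit 298) (nat_lit 5) (nat_lit 478) (nat_lit 429) (nat_lit 233)) (XT.nd (nat_lit 78) (nat_lit 684) (nat_lit 0) (XT.lf (nat_lit 0) (nat_lit 2598239581) (nat_lit 760) (nat_lit 709956345) (nat_lit 76) (nat_lit 15261614830) (nat_lit 287) (nat_lit 5) (nat_lit 297) (nat_lit 5) (nat_lit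 288) (nat_lit 5) (nat_lit 479) (nat_lit 429) (nat_lit 232)) (XT.lf (nat_lit 0) (nat_lit 5538707740) (nat_lit 760) (nat_lit 8984183848) (nat_lit 76) (nat_lit 4259608539) (nat_lit 278) (nat_lit 5) (nat_lit 288) (nat_lit 5) (nat_lit 279) (nat_lit 5) (nat_lit 480) (nat_lit 429) (nat_lit 231)))) (XT.nd (nat_lit 78) (nat_lit 608) (nat_lit 0) (XT.lf (nat_lit 0) (nat_lit 1517366214) (nat_lit 608) (nat_lit 7050790362) (nat_lit 684) (nat_lit 10430684403) (nat_lit 270) (nat_lit 5) (nat_lit 278) (nat_lit 5) (nat_lit 279) (nat_lit 5) (nat_lit 481) (nat_lit 429) (nat_lit 230)) (XT.nd (nat_lit 78) (nat_lit 608) (nat_lit 0) (XT.lf (nat_lit 0) (nat_lit 11716271010) (nat_lit 684) (nat_lit 6879370666) (nat_lit 76) (nat_lit 622706532) (nat_lit 270) (nat_lit 5) (nat_lit 279) (nat_lit 5) (nat_lit 271) (nat_lit 5) (nat_lit 482) (nat_lit 429) (nat_lit 229)) (XT.lf (nat_lit 0) (nat_lit 3932109630) (nat_lit 608) (nat_lit 11061268855) (nat_lit 684) (nat_lit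 4447547555) (nat_lit 262) (nat_lit 5) (nat_lit 270) (nat_lit 5) (nat_lit 271) (nat_lit 5) (nat_lit 483) (nat_lit 429) (nat_lit 228))))) (XT.nd (nat_lit 234) (nat_lit 1140) (nat_lit 0) (XT.nd (nat_lit 78) (nat_lit 684) (nat_lit 0) (XT.lf (nat_lit 0) (nat_lit 15045578600) (nat_lit 608) (nat_lit 3330493407) (nat_lit 684) (nat_lit 1291083595) (nat_lit 262) (nat_lit 5) (nat_lit 270) (nat_lit 5) (nat_lit 271) (nat_lit 5) (nat_lit 484) (nat_lit 429) (nat_lit 227)) (XT.nd (nat_lit 78) (nat_lit 0) (nat_lit 0) (XT.lf (nat_lit 0) (nat_lit 1969627545) (nat_lit 684) (nat_lit 13377504656) (nat_lit 76) (nat_lit 4549199932) (nat_lit 253) (nat_lit 5) (nat_lit 262) (nat_lit 5) (nat_lit 254) (nat_lit 5) (nat_lit 485) (nat_lit 429) (nat_lit 226)) (XT.lf (nat_lit 0) (nat_lit 5325576666) (nat_lit 684) (nat_lit 2223086437) (nat_lit 76) (nat_lit 12580313173) (nat_lit 253) (nat_lit 5) (nat_lit 262) (nat_lit 5) (nat_lit 254) (nat_lit 5) (nat_lit 486)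 (nat_lit 429) (nat_lit 225)))) (XT.nd (nat_lit 78) (nat_lit 532) (nat_lit 0) (XT.lf (nat_lit 0) (nat_lit 8805984001) (nat_lit 684) (nat_lit 11099573993) (nat_lit 76) (nat_lit 459569494) (nat_lit 245) (nat_lit 5) (nat_lit 254) (nat_lit 5) (nat_lit 246) (nat_lit 5) (nat_lit 487) (nat_lit 429) (nat_lit 224)) (XT.nd (nat_lit 78) (nat_lit 0) (nat_lit 0) (XT.lf (nat_lit 0) (nat_lit 355569449) (nat_lit 532) (nat_lit 12061942109) (nat_lit 608) (nat_lit 8187260879) (nat_lit 238) (nat_lit 5) (nat_lit 245) (nat_lit 5) (nat_lit 246) (nat_lit 5) (nat_lit 488) (nat_lit 429) (nat_lit 223)) (XT.lf (nat_lit 0) (nat_lit 12182920752) (nat_lit 532) (nat_lit 3987094437) (nat_lit 608) (nat_lit 4677821121) (nat_lit 238) (nat_lit 5) (nat_lit 245) (nat_lit 5) (nat_lit 246) (nat_lit 5) (nat_lit 489) (nat_lit 429) (nat_lit 222))))))))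
noncomputable def xc200 : XT := (XT.nd (nat_lit 54756) (nat_lit 0) (nat_lit 22724) (XT.nd (nat_lit 858) (nat_lit 3116) (nat_lit 0) (XT.nd (nat_lit 390) (nat_lit 1520) (nat_lit 0) (XT.nd (nat_lit 156) (nat_lit 1064) (nat_lit 0) (XT.nd (nat_lit 78) (nat_lit 76) (nat_lit 0) (XT.lf (nat_lit 0) (nat_lit 3157569107) (nat_lit 608) (nat_lit 16882453550) (nat_lit 684) (nat_lit 1054890644) (nat_lit 230) (nat_lit 5) (nat_lit 238) (nat_lit 5) (nat_lit 239) (nat_lit 5) (nat_lit 490) (nat_lit 429) (nat_lit 221)) (XT.lf (nat_lit 0) (nat_lit 2685192990) (nat_lit 684) (nat_lit 6063082759) (nat_lit 76) (nat_lit 12596727583) (nat_lit 229) (nat_lit 5) (nat_lit 238) (nat_lit 5) (nat_lit 230) (nat_lit 5) (nat_lit 491) (nat_lit 429) (nat_lit 220))) (XT.nd (nat_lit 78) (nat_lit 532) (nat_lit 0) (XT.lf (nat_lit 0) (nat_lit 6114677889) (nat_lit 532) (nat_lit 405488526) (nat_lit 608) (nat_lit 15079105892) (nat_lit 222) (nat_lit 5) (nat_lit 229) (nat_lit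 5) (nat_lit 230) (nat_lit 5) (nat_lit 492) (nat_lit 429) (nat_lit 219)) (XT.nd (nat_lit 78) (nat_lit 532) (nat_lit 0) (XT.lf (nat_lit 0) (nat_lit 10519962490) (nat_lit 608) (nat_lit 3299765780) (nat_lit 76) (nat_lit 8037136775) (nat_lit 222) (nat_lit 5) (nat_lit 230) (nat_lit 5) (nat_lit 223) (nat_lit 5) (nat_lit 493) (nat_lit 429) (nat_lit 218)) (XT.lf (nat_lit 0) (nat_lit 9240156183) (nat_lit 532) (nat_lit 5416933458) (nat_lit 608) (nat_lit 7461374122) (nat_lit 215) (nat_lit 5) (nat_lit 222) (nat_lit 5) (nat_lit 223) (nat_lit 5) (nat_lit 494) (nat_lit 429) (nat_lit 217))))) (XT.nd (nat_lit 234) (nat_lit 456) (nat_lit 0) (XT.nd (nat_lit 78) (nat_lit 1064) (nat_lit 0) (XT.lf (nat_lit 0) (nat_lit 18914430488) (nat_lit 608) (nat_lit 337022236) (nat_lit 76) (nat_lit 3133093123) (nat_lit 215) (nat_lit 5) (nat_lit 223) (nat_lit 5) (nat_lit 216) (nat_lit 5) (nat_lit 495) (nat_lit 429) (nat_lit 216)) (XT.nd (nat_lit 78) (nat_lit 532)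 (nat_lit 0) (XT.lf (nat_lit 0) (nat_lit 706170780) (nat_lit 532) (nat_lit 10081194900) (nat_lit 76) (nat_lit 11866244957) (nat_lit 208) (nat_lit 5) (nat_lit 215) (nat_lit 5) (nat_lit 209) (nat_lit 5) (nat_lit 496) (nat_lit 429) (nat_lit 215)) (XT.lf (nat_lit 0) (nat_lit 2823599996) (nat_lit 532) (nat_lit 2111400152) (nat_lit 608) (nat_lit 17992288944) (nat_lit 201) (nat_lit 5) (nat_lit 208) (nat_lit 5) (nat_lit 209) (nat_lit 5) (nat_lit 497) (nat_lit 429) (nat_lit 214)))) (XT.nd (nat_lit 78) (nat_lit 456) (nat_lit 0) (XT.lf (nat_lit 0) (nat_lit 9355125842) (nat_lit 608) (nat_lit 7133220338) (nat_lit 76) (nat_lit 6715961292) (nat_lit 201) (nat_lit 5) (nat_lit 209) (nat_lit 5) (nat_lit 202) (nat_lit 5) (nat_lit 498) (nat_lit 429) (nat_lit 213)) (XT.nd (nat_lit 78) (nat_lit 0) (nat_lit 0) (XT.lf (nat_lit 0) (nat_lit 6156477006) (nat_lit 456) (nat_lit 7756105763) (nat_lit 532) (nat_lit 9573305615) (nat_lit 195) (nat_lit 5) (nat_lit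 201) (nat_lit 5) (nat_lit 202) (nat_lit 5) (nat_lit 499) (nat_lit 429) (nat_lit 212)) (XT.lf (nat_lit 0) (nat_lit 18611860420) (nat_lit 532) (nat_lit 3978254533) (nat_lit 76) (nat_lit 1181973251) (nat_lit 195) (nat_lit 5) (nat_lit 202) (nat_lit 5) (nat_lit 196) (nat_lit 5) (nat_lit 500) (nat_lit 429) (nat_lit 211)))))) (XT.nd (nat_lit 468) (nat_lit 1292) (nat_lit 0) (XT.nd (nat_lit 234) (nat_lit 836) (nat_lit 0) (XT.nd (nat_lit 78) (nat_lit 532) (nat_lit 0) (XT.lf (nat_lit 0) (nat_lit 9709050054) (nat_lit 456) (nat_lit 13805589135) (nat_lit 532) (nat_lit 547183228) (nat_lit 189) (nat_lit 5) (nat_lit 195) (nat_lit 5) (nat_lit 196) (nat_lit 5) (nat_lit 501) (nat_lit 429) (nat_lit 210)) (XT.nd (nat_lit 78) (nat_lit 456) (nat_lit 0) (XT.lf (nat_lit 0) (nat_lit 4125592666) (nat_lit 532) (nat_lit 666831178) (nat_lit 76) (nat_lit 19563948106) (nat_lit 188) (nat_lit 5) (nat_lit 195) (nat_lit 5) (nat_lit 189) (nat_lit 5) (nat_lit 502)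 (nat_lit 429) (nat_lit 209)) (XT.lf (nat_lit 0) (nat_lit 8996280501) (nat_lit 532) (nat_lit 11225262557) (nat_lit 76) (nat_lit 4432962081) (nat_lit 182) (nat_lit 5) (nat_lit 189) (nat_lit 5) (nat_lit 183) (nat_lit 5) (nat_lit 503) (nat_lit 429) (nat_lit 208)))) (XT.nd (nat_lit 78) (nat_lit 380) (nat_lit 0) (XT.lf (nat_lit 0) (nat_lit 2856693772) (nat_lit 456) (nat_lit 11157743040) (nat_lit 532) (nat_lit 10943163740) (nat_lit 176) (nat_lit 5) (nat_lit 182) (nat_lit 5) (nat_lit 183) (nat_lit 5) (nat_lit 504) (nat_lit 429) (nat_lit 207)) (XT.nd (nat_lit 78) (nat_lit 380) (nat_lit 0) (XT.lf (nat_lit 0) (nat_lit 17365725022) (nat_lit 456) (nat_lit 1837872666) (nat_lit 532) (nat_lit 6061747999) (nat_lit 176) (nat_lit 5) (nat_lit 182) (nat_lit 5) (nat_lit 183) (nat_lit 5) (nat_lit 505) (nat_lit 429) (nat_lit 206)) (XT.lf (nat_lit 0) (nat_lit 6615999642) (nat_lit 380) (nat_lit 17968678823) (nat_lit 456) (nat_lit 992805154) (nat_lit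 171) (nat_lit 5) (nat_lit 176) (nat_lit 5) (nat_lit 177) (nat_lit 5) (nat_lit 506) (nat_lit 429) (nat_lit 205))))) (XT.nd (nat_lit 234) (nat_lit 760) (nat_lit 0) (XT.nd (nat_lit 78) (nat_lit 456) (nat_lit 0) (XT.lf (nat_lit 0) (nat_lit 4183670089) (nat_lit 456) (nat_lit 4412126874) (nat_lit 76) (nat_lit 17298306637) (nat_lit 170) (nat_lit 5) (nat_lit 176) (nat_lit 5) (nat_lit 171) (nat_lit 5) (nat_lit 507) (nat_lit 429) (nat_lit 204)) (XT.nd (nat_lit 78) (nat_lit 0) (nat_lit 0) (XT.lf (nat_lit 0) (nat_lit 9521159700) (nat_lit 532) (nat_lit 15668897374) (nat_lit 76) (nat_lit 1025452681) (nat_lit 164) (nat_lit 5) (nat_lit 171) (nat_lit 5) (nat_lit 165) (nat_lit 5) (nat_lit 508) (nat_lit 429) (nat_lit 203)) (XT.lf (nat_lit 0) (nat_lit 15047660648) (nat_lit 532) (nat_lit 742132691) (nat_lit 76) (nat_lit 10751906044) (nat_lit 164) (nat_lit 5) (nat_lit 171) (nat_lit 5) (nat_lit 165) (nat_lit 5) (nat_lit 509) (nat_lit 429) (nat_lit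 202)))) (XT.nd (nat_lit 78) (nat_lit 380) (nat_lit 0) (XT.lf (nat_lit 0) (nat_lit 14669091438) (nat_lit 380) (nat_lit 6106461222) (nat_lit 456) (nat_lit 6097043493) (nat_lit 159) (nat_lit 5) (nat_lit 164) (nat_lit 5) (nat_lit 165) (nat_lit 5) (nat_lit 510) (nat_lit 429) (nat_lit 201)) (XT.nd (nat_lit 53040) (nat_lit 0) (nat_lit 24016) (XT.lf (nat_lit 0) (nat_lit 3199542521) (nat_lit 380) (nat_lit 23464377694) (nat_lit 456) (nat_lit 545272846) (nat_lit 154) (nat_lit 5) (nat_lit 159) (nat_lit 5) (nat_lit 160) (nat_lit 5) (nat_lit 511) (nat_lit 429) (nat_lit 200)) (XT.lf (nat_lit 0) (nat_lit 1220244432) (nat_lit 1748) (nat_lit 2218878787) (nat_lit 1748) (nat_lit 2218878787) (nat_lit 470) (nat_lit 3) (nat_lit 493) (nat_lit 3) (nat_lit 493) (nat_lit 5) (nat_lit 430) (nat_lit 430) (nat_lit 280))))))) (XT.nd (nat_lit 858) (nat_lit 1292) (nat_lit 0) (XT.nd (nat_lit 390) (nat_lit 0) (nat_lit 228) (XT.nd (nat_lit 156) (nat_lit 0) (nat_lit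 76) (XT.nd (nat_lit 78) (nat_lit 0) (nat_lit 76) (XT.lf (nat_lit 76) (nat_lit 1081490661) (nat_lit 0) (nat_lit 1924571981) (nat_lit 1748) (nat_lit 8412156430) (nat_lit 471) (nat_lit 5) (nat_lit 470) (nat_lit 3) (nat_lit 493) (nat_lit 5) (nat_lit 431) (nat_lit 430) (nat_lit 279)) (XT.lf (nat_lit 0) (nat_lit 3619221358) (nat_lit 1672) (nat_lit 4778682140) (nat_lit 1748) (nat_lit 3123852659) (nat_lit 471) (nat_lit 5) (nat_lit 493) (nat_lit 5) (nat_lit 494) (nat_lit 5) (nat_lit 432) (nat_lit 430) (nat_lit 278))) (XT.nd (nat_lit 78) (nat_lit 0) (nat_lit 76) (XT.lf (nat_lit 76) (nat_lit 881923862) (nat_lit 0) (nat_lit 3367452066) (nat_lit 1748) (nat_lit 7377896527) (nat_lit 472) (nat_lit 5) (nat_lit 471) (nat_lit 5) (nat_lit 494) (nat_lit 5) (nat_lit 433) (nat_lit 430) (nat_lit 277)) (XT.nd (nat_lit 78) (nat_lit 0) (nat_lit 0) (XT.lf (nat_lit 0) (nat_lit 4922386489) (nat_lit 1672) (nat_lit 5033089083) (nat_lit 1748) (nat_lit 1778821515)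 (nat_lit 472) (nat_lit 5) (nat_lit 494) (nat_lit 5) (nat_lit 495) (nat_lit 5) (nat_lit 434) (nat_lit 430) (nat_lit 276)) (XT.lf (nat_lit 76) (nat_lit 773726141) (nat_lit 0) (nat_lit 4849242479) (nat_lit 1748) (nat_lit 6220214372) (nat_lit 473) (nat_lit 5) (nat_lit 472) (nat_lit 5) (nat_lit 495) (nat_lit 5) (nat_lit 435) (nat_lit 430) (nat_lit 275))))) (XT.nd (nat_lit 234) (nat_lit 0) (nat_lit 76) (XT.nd (nat_lit 78) (nat_lit 0) (nat_lit 0) (XT.lf (nat_lit 0) (nat_lit 6360925456) (nat_lit 1672) (nat_lit 5199009155) (nat_lit 1748) (nat_lit 393847687) (nat_lit 473) (nat_lit 5) (nat_lit 495) (nat_lit 5) (nat_lit 496) (nat_lit 5) (nat_lit 436) (nat_lit 430) (nat_lit 274)) (XT.nd (nat_lit 78) (nat_lit 0) (nat_lit 0) (XT.lf (nat_lit 76) (nat_lit 759055847) (nat_lit 0) (nat_lit 6378915416) (nat_lit 1748) (nat_lit 4928138621) (nat_lit 474) (nat_lit 5) (nat_lit 473) (nat_lit 5) (nat_lit 496) (nat_lit 5) (nat_lit 437) (nat_lit 430) (nat_lit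 273)) (XT.lf (nat_lit 76) (nat_lit 6899173689) (nat_lit 0) (nat_lit 1053759774) (nat_lit 1748) (nat_lit 4227305881) (nat_lit 474) (nat_lit 5) (nat_lit 473) (nat_lit 5) (nat_lit 496) (nat_lit 5) (nat_lit 438) (nat_lit 430) (nat_lit 272)))) (XT.nd (nat_lit 78) (nat_lit 0) (nat_lit 0) (XT.lf (nat_lit 76) (nat_lit 840326070) (nat_lit 0) (nat_lit 7965513132) (nat_lit 1748) (nat_lit 3490382082) (nat_lit 475) (nat_lit 5) (nat_lit 474) (nat_lit 5) (nat_lit 497) (nat_lit 5) (nat_lit 439) (nat_lit 430) (nat_lit 271)) (XT.nd (nat_lit 78) (nat_lit 0) (nat_lit 76) (XT.lf (nat_lit 76) (nat_lit 7140998100) (nat_lit 0) (nat_lit 2565130602) (nat_lit 1748) (nat_lit 2707790370) (nat_lit 475) (nat_lit 5) (nat_lit 474) (nat_lit 5) (nat_lit 497) (nat_lit 5) (nat_lit 440) (nat_lit 430) (nat_lit 270)) (XT.lf (nat_lit 76) (nat_lit 1020204325) (nat_lit 0) (nat_lit 9618171482) (nat_lit 1748) (nat_lit 1895318642) (nat_lit 476) (nat_lit 5) (nat_lit 475)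 (nat_lit 5) (nat_lit 498) (nat_lit 5) (nat_lit 441) (nat_lit 430) (nat_lit 269)))))) (XT.nd (nat_lit 468) (nat_lit 0) (nat_lit 152) (XT.nd (nat_lit 234) (nat_lit 0) (nat_lit 0) (XT.nd (nat_lit 78) (nat_lit 1672) (nat_lit 0) (XT.lf (nat_lit 76) (nat_lit 7485726763) (nat_lit 0) (nat_lit 4144200240) (nat_lit 1748) (nat_lit 1025127763) (nat_lit 476) (nat_lit 5) (nat_lit 475) (nat_lit 5) (nat_lit 498) (nat_lit 5) (nat_lit 442) (nat_lit 430) (nat_lit 268)) (XT.nd (nat_lit 78) (nat_lit 1748) (nat_lit 0) (XT.lf (nat_lit 76) (nat_lit 1301612695) (nat_lit 0) (nat_lit 11346143364) (nat_lit 1748) (nat_lit 130959860) (nat_lit 477) (nat_lit 5) (nat_lit 476) (nat_lit 5) (nat_lit 499) (nat_lit 5) (nat_lit 443) (nat_lit 430) (nat_lit 267)) (XT.lf (nat_lit 0) (nat_lit 821957770) (nat_lit 1748) (nat_lit 4972790306) (nat_lit 1824) (nat_lit 7108981047) (nat_lit 453) (nat_lit 5) (nat_lit 476) (nat_lit 5) (nat_lit 477) (nat_lit 5) (nat_lit 444) (nat_lit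 430) (nat_lit 266)))) (XT.nd (nat_lit 78) (nat_lit 0) (nat_lit 76) (XT.lf (nat_lit 76) (nat_lit 1674932674) (nat_lit 0) (nat_lit 117091437) (nat_lit 1824) (nat_lit 11239206705) (nat_lit 454) (nat_lit 5) (nat_lit 453) (nat_lit 5) (nat_lit 477) (nat_lit 5) (nat_lit 445) (nat_lit 430) (nat_lit 265)) (XT.nd (nat_lit 78) (nat_lit 0) (nat_lit 0) (XT.lf (nat_lit 0) (nat_lit 2841077019) (nat_lit 1748) (nat_lit 4682623572) (nat_lit 1824) (nat_lit 5636392619) (nat_lit 454) (nat_lit 5) (nat_lit 477) (nat_lit 5) (nat_lit 478) (nat_lit 5) (nat_lit 446) (nat_lit 430) (nat_lit 264)) (XT.lf (nat_lit 76) (nat_lit 2144060067) (nat_lit 0) (nat_lit 1771113747) (nat_lit 1824) (nat_lit 9376280103) (nat_lit 455) (nat_lit 5) (nat_lit 454) (nat_lit 5) (nat_lit 478) (nat_lit 5) (nat_lit 447) (nat_lit 430) (nat_lit 263))))) (XT.nd (nat_lit 234) (nat_lit 0) (nat_lit 76) (XT.nd (nat_lit 78) (nat_lit 0) (nat_lit 0) (XT.lf (nat_lit 0) (nat_lit 5058523375)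 (nat_lit 1748) (nat_lit 4288854033) (nat_lit 1824) (nat_lit 4077111293) (nat_lit 455) (nat_lit 5) (nat_lit 478) (nat_lit 5) (nat_lit 479) (nat_lit 5) (nat_lit 448) (nat_lit 430) (nat_lit 262)) (XT.nd (nat_lit 78) (nat_lit 0) (nat_lit 76) (XT.lf (nat_lit 76) (nat_lit 2723009949) (nat_lit 0) (nat_lit 3520886348) (nat_lit 1824) (nat_lit 7315906988) (nat_lit 456) (nat_lit 5) (nat_lit 455) (nat_lit 5) (nat_lit 479) (nat_lit 5) (nat_lit 449) (nat_lit 430) (nat_lit 261)) (XT.lf (nat_lit 0) (nat_lit 7487587013) (nat_lit 1748) (nat_lit 3787915462) (nat_lit 1824) (nat_lit 2421631669) (nat_lit 456) (nat_lit 5) (nat_lit 479) (nat_lit 5) (nat_lit 480) (nat_lit 5) (nat_lit 450) (nat_lit 430) (nat_lit 260)))) (XT.nd (nat_lit 78) (nat_lit 0) (nat_lit 76) (XT.lf (nat_lit 76) (nat_lit 3415577613) (nat_lit 0) (nat_lit 5376178196) (nat_lit 1824) (nat_lit 5044745873) (nat_lit 457) (nat_lit 5) (nat_lit 456) (nat_lit 5) (nat_lit 480) (nat_lit 5)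 (nat_lit 451) (nat_lit 430) (nat_lit 259)) (XT.nd (nat_lit 78) (nat_lit 0) (nat_lit 0) (XT.lf (nat_lit 0) (nat_lit 10142024856) (nat_lit 1748) (nat_lit 3175991720) (nat_lit 1824) (nat_lit 660241761) (nat_lit 457) (nat_lit 5) (nat_lit 480) (nat_lit 5) (nat_lit 481) (nat_lit 5) (nat_lit 452) (nat_lit 430) (nat_lit 258)) (XT.lf (nat_lit 76) (nat_lit 4225815349) (nat_lit 0) (nat_lit 7346982377) (nat_lit 1824) (nat_lit 2548984495) (nat_lit 458) (nat_lit 5) (nat_lit 457) (nat_lit 5) (nat_lit 481) (nat_lit 5) (nat_lit 453) (nat_lit 430) (nat_lit 257))))))))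
noncomputable def xc201 : XT := (XT.nd (nat_lit 1794) (nat_lit 8436) (nat_lit 0) (XT.nd (nat_lit 858) (nat_lit 4712) (nat_lit 0) (XT.nd (nat_lit 390) (nat_lit 3572) (nat_lit 0) (XT.nd (nat_lit 156) (nat_lit 1444) (nat_lit 0) (XT.nd (nat_lit 78) (nat_lit 1748) (nat_lit 0) (XT.lf (nat_lit 76) (nat_lit 11810919132) (nat_lit 0) (nat_lit 1233173831) (nat_lit 1824) (nat_lit 1223847502) (nat_lit 458) (nat_lit 5) (nat_lit 457) (nat_lit 5) (nat_lit 481) (nat_lit 5) (nat_lit 454) (nat_lit 430) (nat_lit 256)) (XT.lf (nat_lit 0) (nat_lit 183250790) (nat_lit 1824) (nat_lit 9259059548) (nat_lit 76) (nat_lit 4973554196) (nat_lit 434) (nat_lit 5) (nat_lit 458) (nat_lit 5) (nat_lit 435) (nat_lit 5) (nat_lit 455) (nat_lit 430) (nat_lit 255))) (XT.nd (nat_lit 78) (nat_lit 1444) (nat_lit 0) (XT.lf (nat_lit 0) (nat_lit 1617739916) (nat_lit 1824) (nat_lit 1634491401) (nat_lit 76) (nat_lit 11314043156) (nat_lit 434) (nat_lit 5) (nat_lit 458) (nat_lit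 5) (nat_lit 435) (nat_lit 5) (nat_lit 456) (nat_lit 430) (nat_lit 254)) (XT.nd (nat_lit 78) (nat_lit 0) (nat_lit 0) (XT.lf (nat_lit 0) (nat_lit 3132469204) (nat_lit 1520) (nat_lit 8522874957) (nat_lit 76) (nat_lit 3063319311) (nat_lit 415) (nat_lit 5) (nat_lit 435) (nat_lit 5) (nat_lit 416) (nat_lit 5) (nat_lit 457) (nat_lit 430) (nat_lit 253)) (XT.lf (nat_lit 0) (nat_lit 4701241442) (nat_lit 1520) (nat_lit 698548056) (nat_lit 76) (nat_lit 9473837617) (nat_lit 415) (nat_lit 5) (nat_lit 435) (nat_lit 5) (nat_lit 416) (nat_lit 5) (nat_lit 458) (nat_lit 430) (nat_lit 252))))) (XT.nd (nat_lit 234) (nat_lit 1748) (nat_lit 0) (XT.nd (nat_lit 78) (nat_lit 912) (nat_lit 0) (XT.lf (nat_lit 0) (nat_lit 6347281972) (nat_lit 988) (nat_lit 7666391081) (nat_lit 76) (nat_lit 1017100918) (nat_lit 403) (nat_lit 5) (nat_lit 416) (nat_lit 5) (nat_lit 404) (nat_lit 5) (nat_lit 459) (nat_lit 430) (nat_lit 251)) (XT.nd (nat_lit 78) (nat_lit 0) (nat_lit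 0) (XT.lf (nat_lit 0) (nat_lit 368250749) (nat_lit 912) (nat_lit 7692330420) (nat_lit 988) (nat_lit 7129797599) (nat_lit 391) (nat_lit 5) (nat_lit 403) (nat_lit 5) (nat_lit 404) (nat_lit 5) (nat_lit 460) (nat_lit 430) (nat_lit 250)) (XT.lf (nat_lit 0) (nat_lit 8659697936) (nat_lit 912) (nat_lit 1191478598) (nat_lit 988) (nat_lit 5501140249) (nat_lit 391) (nat_lit 5) (nat_lit 403) (nat_lit 5) (nat_lit 404) (nat_lit 5) (nat_lit 461) (nat_lit 430) (nat_lit 249)))) (XT.nd (nat_lit 78) (nat_lit 836) (nat_lit 0) (XT.lf (nat_lit 0) (nat_lit 1577022400) (nat_lit 912) (nat_lit 10137870153) (nat_lit 988) (nat_lit 3801856523) (nat_lit 379) (nat_lit 5) (nat_lit 391) (nat_lit 5) (nat_lit 392) (nat_lit 5) (nat_lit 462) (nat_lit 430) (nat_lit 248)) (XT.nd (nat_lit 78) (nat_lit 836) (nat_lit 0) (XT.lf (nat_lit 0) (nat_lit 10087007804) (nat_lit 912) (nat_lit 3573489525) (nat_lit 988) (nat_lit 2023082057) (nat_lit 379) (nat_lit 5) (nat_lit 391)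 (nat_lit 5) (nat_lit 392) (nat_lit 5) (nat_lit 463) (nat_lit 430) (nat_lit 247)) (XT.lf (nat_lit 0) (nat_lit 2923736230) (nat_lit 836) (nat_lit 12752558645) (nat_lit 912) (nat_lit 176827441) (nat_lit 368) (nat_lit 5) (nat_lit 379) (nat_lit 5) (nat_lit 380) (nat_lit 5) (nat_lit 464) (nat_lit 430) (nat_lit 246)))))) (XT.nd (nat_lit 468) (nat_lit 2280) (nat_lit 0) (XT.nd (nat_lit 234) (nat_lit 1520) (nat_lit 0) (XT.nd (nat_lit 78) (nat_lit 836) (nat_lit 0) (XT.lf (nat_lit 0) (nat_lit 1737522340) (nat_lit 912) (nat_lit 4377824834) (nat_lit 76) (nat_lit 9909417933) (nat_lit 367) (nat_lit 5) (nat_lit 379) (nat_lit 5) (nat_lit 368) (nat_lit 5) (nat_lit 465) (nat_lit 430) (nat_lit 245)) (XT.nd (nat_lit 78) (nat_lit 0) (nat_lit 0) (XT.lf (nat_lit 0) (nat_lit 3713001025) (nat_lit 912) (nat_lit 11810318781) (nat_lit 76) (nat_lit 675994913) (nat_lit 356) (nat_lit 5) (nat_lit 368) (nat_lit 5) (nat_lit 357) (nat_lit 5) (nat_lit 466) (nat_lit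 430) (nat_lit 244)) (XT.lf (nat_lit 0) (nat_lit 5790397555) (nat_lit 912) (nat_lit 3034756332) (nat_lit 76) (nat_lit 7550954774) (nat_lit 356) (nat_lit 5) (nat_lit 368) (nat_lit 5) (nat_lit 357) (nat_lit 5) (nat_lit 467) (nat_lit 430) (nat_lit 243)))) (XT.nd (nat_lit 78) (nat_lit 760) (nat_lit 0) (XT.lf (nat_lit 0) (nat_lit 5987202650) (nat_lit 760) (nat_lit 1953499728) (nat_lit 836) (nat_lit 8615110369) (nat_lit 346) (nat_lit 5) (nat_lit 356) (nat_lit 5) (nat_lit 357) (nat_lit 5) (nat_lit 468) (nat_lit 430) (nat_lit 242)) (XT.nd (nat_lit 78) (nat_lit 760) (nat_lit 0) (XT.lf (nat_lit 0) (nat_lit 10179921592) (nat_lit 836) (nat_lit 1548661295) (nat_lit 76) (nat_lit 5009611308) (nat_lit 346) (nat_lit 5) (nat_lit 357) (nat_lit 5) (nat_lit 347) (nat_lit 5) (nat_lit 469) (nat_lit 430) (nat_lit 241)) (XT.lf (nat_lit 0) (nat_lit 7732578940) (nat_lit 760) (nat_lit 4787218156) (nat_lit 836) (nat_lit 4403310152) (nat_lit 336) (nat_lit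 5) (nat_lit 346) (nat_lit 5) (nat_lit 347) (nat_lit 5) (nat_lit 470) (nat_lit 430) (nat_lit 240))))) (XT.nd (nat_lit 234) (nat_lit 684) (nat_lit 0) (XT.nd (nat_lit 78) (nat_lit 836) (nat_lit 0) (XT.lf (nat_lit 0) (nat_lit 87438902) (nat_lit 760) (nat_lit 14837768682) (nat_lit 836) (nat_lit 2186137619) (nat_lit 326) (nat_lit 5) (nat_lit 336) (nat_lit 5) (nat_lit 337) (nat_lit 5) (nat_lit 471) (nat_lit 430) (nat_lit 239)) (XT.nd (nat_lit 78) (nat_lit 760) (nat_lit 0) (XT.lf (nat_lit 0) (nat_lit 161038972) (nat_lit 836) (nat_lit 7666893209) (nat_lit 76) (nat_lit 9473674297) (nat_lit 325) (nat_lit 5) (nat_lit 336) (nat_lit 5) (nat_lit 326) (nat_lit 5) (nat_lit 472) (nat_lit 430) (nat_lit 238)) (XT.lf (nat_lit 0) (nat_lit 1879865641) (nat_lit 760) (nat_lit 651257750) (nat_lit 836) (nat_lit 14964157155) (nat_lit 315) (nat_lit 5) (nat_lit 325) (nat_lit 5) (nat_lit 326) (nat_lit 5) (nat_lit 473) (nat_lit 430) (nat_lit 237)))) (XT.nd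 (nat_lit 78) (nat_lit 684) (nat_lit 0) (XT.lf (nat_lit 0) (nat_lit 5036786694) (nat_lit 836) (nat_lit 6021609846) (nat_lit 76) (nat_lit 6632669295) (nat_lit 315) (nat_lit 5) (nat_lit 326) (nat_lit 5) (nat_lit 316) (nat_lit 5) (nat_lit 474) (nat_lit 430) (nat_lit 236)) (XT.nd (nat_lit 78) (nat_lit 0) (nat_lit 0) (XT.lf (nat_lit 0) (nat_lit 3802116753) (nat_lit 684) (nat_lit 3812669198) (nat_lit 760) (nat_lit 10275537683) (nat_lit 306) (nat_lit 5) (nat_lit 315) (nat_lit 5) (nat_lit 316) (nat_lit 5) (nat_lit 475) (nat_lit 430) (nat_lit 235)) (XT.lf (nat_lit 0) (nat_lit 10301554871) (nat_lit 760) (nat_lit 4219901957) (nat_lit 76) (nat_lit 3570966799) (nat_lit 306) (nat_lit 5) (nat_lit 316) (nat_lit 5) (nat_lit 307) (nat_lit 5) (nat_lit 476) (nat_lit 430) (nat_lit 234))))))) (XT.nd (nat_lit 936) (nat_lit 3800) (nat_lit 0) (XT.nd (nat_lit 468) (nat_lit 1900) (nat_lit 0) (XT.nd (nat_lit 234) (nat_lit 1292) (nat_lit 0) (XT.nd (nat_lit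 78) (nat_lit 760) (nat_lit 0) (XT.lf (nat_lit 0) (nat_lit 5890333415) (nat_lit 684) (nat_lit 7208653809) (nat_lit 760) (nat_lit 5198441044) (nat_lit 297) (nat_lit 5) (nat_lit 306) (nat_lit 5) (nat_lit 307) (nat_lit 5) (nat_lit 477) (nat_lit 430) (nat_lit 233)) (XT.nd (nat_lit 78) (nat_lit 760) (nat_lit 0) (XT.lf (nat_lit 0) (nat_lit 15976008831) (nat_lit 760) (nat_lit 2255319628) (nat_lit 76) (nat_lit 274732916) (nat_lit 297) (nat_lit 5) (nat_lit 307) (nat_lit 5) (nat_lit 298) (nat_lit 5) (nat_lit 478) (nat_lit 430) (nat_lit 232)) (XT.lf (nat_lit 0) (nat_lit 284112635) (nat_lit 760) (nat_lit 10567561843) (nat_lit 76) (nat_lit 7865270448) (nat_lit 287) (nat_lit 5) (nat_lit 297) (nat_lit 5) (nat_lit 288) (nat_lit 5) (nat_lit 479) (nat_lit 430) (nat_lit 231)))) (XT.nd (nat_lit 78) (nat_lit 1292) (nat_lit 0) (XT.lf (nat_lit 0) (nat_lit 3129621264) (nat_lit 760) (nat_lit 163252125) (nat_lit 76) (nat_lit 15638660653) (nat_lit 287)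 (nat_lit 5) (nat_lit 297) (nat_lit 5) (nat_lit 288) (nat_lit 5) (nat_lit 480) (nat_lit 430) (nat_lit 230)) (XT.nd (nat_lit 78) (nat_lit 608) (nat_lit 0) (XT.lf (nat_lit 0) (nat_lit 6123658902) (nat_lit 760) (nat_lit 8597641361) (nat_lit 76) (nat_lit 4427283394) (nat_lit 278) (nat_lit 5) (nat_lit 288) (nat_lit 5) (nat_lit 279) (nat_lit 5) (nat_lit 481) (nat_lit 430) (nat_lit 229)) (XT.lf (nat_lit 0) (nat_lit 2110214530) (nat_lit 608) (nat_lit 7097836725) (nat_lit 684) (nat_lit 10161314605) (nat_lit 270) (nat_lit 5) (nat_lit 278) (nat_lit 5) (nat_lit 279) (nat_lit 5) (nat_lit 482) (nat_lit 430) (nat_lit 228))))) (XT.nd (nat_lit 234) (nat_lit 1292) (nat_lit 0) (XT.nd (nat_lit 78) (nat_lit 608) (nat_lit 0) (XT.lf (nat_lit 0) (nat_lit 12410539234) (nat_lit 684) (nat_lit 6456818062) (nat_lit 76) (nat_lit 726079307) (nat_lit 270) (nat_lit 5) (nat_lit 279) (nat_lit 5) (nat_lit 271) (nat_lit 5) (nat_lit 483) (nat_lit 430) (nat_lit 227))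 (XT.nd (nat_lit 78) (nat_lit 0) (nat_lit 0) (XT.lf (nat_lit 0) (nat_lit 4567206709) (nat_lit 608) (nat_lit 11180576538) (nat_lit 684) (nat_lit 4072792420) (nat_lit 262) (nat_lit 5) (nat_lit 270) (nat_lit 5) (nat_lit 271) (nat_lit 5) (nat_lit 484) (nat_lit 430) (nat_lit 226)) (XT.lf (nat_lit 0) (nat_lit 15892034178) (nat_lit 608) (nat_lit 3297183968) (nat_lit 684) (nat_lit 862291458) (nat_lit 262) (nat_lit 5) (nat_lit 270) (nat_lit 5) (nat_lit 271) (nat_lit 5) (nat_lit 485) (nat_lit 430) (nat_lit 225)))) (XT.nd (nat_lit 78) (nat_lit 608) (nat_lit 0) (XT.lf (nat_lit 0) (nat_lit 2453110894) (nat_lit 684) (nat_lit 13088838975) (nat_lit 76) (nat_lit 4743353447) (nat_lit 253) (nat_lit 5) (nat_lit 262) (nat_lit 5) (nat_lit 254) (nat_lit 5) (nat_lit 486) (nat_lit 430) (nat_lit 224)) (XT.nd (nat_lit 78) (nat_lit 608) (nat_lit 0) (XT.lf (nat_lit 0) (nat_lit 5867471335) (nat_lit 684) (nat_lit 1722238584) (nat_lit 76) (nat_lit 12933066021)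 (nat_lit 253) (nat_lit 5) (nat_lit 262) (nat_lit 5) (nat_lit 254) (nat_lit 5) (nat_lit 487) (nat_lit 430) (nat_lit 223)) (XT.lf (nat_lit 0) (nat_lit 9413190125) (nat_lit 684) (nat_lit 10771888417) (nat_lit 76) (nat_lit 578658985) (nat_lit 245) (nat_lit 5) (nat_lit 254) (nat_lit 5) (nat_lit 246) (nat_lit 5) (nat_lit 488) (nat_lit 430) (nat_lit 222)))))) (XT.nd (nat_lit 468) (nat_lit 2052) (nat_lit 0) (XT.nd (nat_lit 234) (nat_lit 608) (nat_lit 0) (XT.nd (nat_lit 78) (nat_lit 608) (nat_lit 0) (XT.lf (nat_lit 0) (nat_lit 908741598) (nat_lit 532) (nat_lit 12183299349) (nat_lit 608) (nat_lit 7916233962) (nat_lit 238) (nat_lit 5) (nat_lit 245) (nat_lit 5) (nat_lit 246) (nat_lit 5) (nat_lit 489) (nat_lit 430) (nat_lit 221)) (XT.nd (nat_lit 78) (nat_lit 608) (nat_lit 0) (XT.lf (nat_lit 0) (nat_lit 12961932852) (nat_lit 532) (nat_lit 3949305344) (nat_lit 608) (nat_lit 4345130353) (nat_lit 238) (nat_lit 5) (nat_lit 245) (nat_lit 5) (nat_lit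 246) (nat_lit 5) (nat_lit 490) (nat_lit 430) (nat_lit 220)) (XT.lf (nat_lit 0) (nat_lit 3760163106) (nat_lit 608) (nat_lit 17094540651) (nat_lit 684) (nat_lit 653763497) (nat_lit 230) (nat_lit 5) (nat_lit 238) (nat_lit 5) (nat_lit 239) (nat_lit 5) (nat_lit 491) (nat_lit 430) (nat_lit 219)))) (XT.nd (nat_lit 78) (nat_lit 532) (nat_lit 0) (XT.lf (nat_lit 0) (nat_lit 3147413912) (nat_lit 684) (nat_lit 5649986017) (nat_lit 76) (nat_lit 12966269018) (nat_lit 229) (nat_lit 5) (nat_lit 238) (nat_lit 5) (nat_lit 230) (nat_lit 5) (nat_lit 492) (nat_lit 430) (nat_lit 218)) (XT.nd (nat_lit 78) (nat_lit 0) (nat_lit 0) (XT.lf (nat_lit 0) (nat_lit 6767814328) (nat_lit 532) (nat_lit 286708923) (nat_lit 608) (nat_lit 14968592579) (nat_lit 222) (nat_lit 5) (nat_lit 229) (nat_lit 5) (nat_lit 230) (nat_lit 5) (nat_lit 493) (nat_lit 430) (nat_lit 217)) (XT.lf (nat_lit 0) (nat_lit 11127202286) (nat_lit 608) (nat_lit 2838152316) (nat_lit 76) (nat_lit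 8320649311) (nat_lit 222) (nat_lit 5) (nat_lit 230) (nat_lit 5) (nat_lit 223) (nat_lit 5) (nat_lit 494) (nat_lit 430) (nat_lit 216))))) (XT.nd (nat_lit 234) (nat_lit 988) (nat_lit 0) (XT.nd (nat_lit 78) (nat_lit 532) (nat_lit 0) (XT.lf (nat_lit 0) (nat_lit 9949096975) (nat_lit 532) (nat_lit 5393596868) (nat_lit 608) (nat_lit 7210229535) (nat_lit 215) (nat_lit 5) (nat_lit 222) (nat_lit 5) (nat_lit 223) (nat_lit 5) (nat_lit 495) (nat_lit 430) (nat_lit 215)) (XT.nd (nat_lit 78) (nat_lit 76) (nat_lit 0) (XT.lf (nat_lit 0) (nat_lit 179366612) (nat_lit 456) (nat_lit 19500122280) (nat_lit 532) (nat_lit 3144953249) (nat_lit 209) (nat_lit 5) (nat_lit 215) (nat_lit 5) (nat_lit 216) (nat_lit 5) (nat_lit 496) (nat_lit 430) (nat_lit 214)) (XT.lf (nat_lit 0) (nat_lit 1104280675) (nat_lit 532) (nat_lit 9760308187) (nat_lit 76) (nat_lit 12234357330) (nat_lit 208) (nat_lit 5) (nat_lit 215) (nat_lit 5) (nat_lit 209) (nat_lit 5) (nat_lit 497)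 (nat_lit 430) (nat_lit 213)))) (XT.nd (nat_lit 78) (nat_lit 456) (nat_lit 0) (XT.lf (nat_lit 0) (nat_lit 3399145036) (nat_lit 532) (nat_lit 2014382614) (nat_lit 608) (nat_lit 17964654862) (nat_lit 201) (nat_lit 5) (nat_lit 208) (nat_lit 5) (nat_lit 209) (nat_lit 5) (nat_lit 498) (nat_lit 430) (nat_lit 212)) (XT.nd (nat_lit 78) (nat_lit 456) (nat_lit 0) (XT.lf (nat_lit 0) (nat_lit 9915494607) (nat_lit 608) (nat_lit 6760373640) (nat_lit 76) (nat_lit 6985005333) (nat_lit 201) (nat_lit 5) (nat_lit 209) (nat_lit 5) (nat_lit 202) (nat_lit 5) (nat_lit 499) (nat_lit 430) (nat_lit 211)) (XT.lf (nat_lit 0) (nat_lit 6791726131) (nat_lit 456) (nat_lit 7768380616) (nat_lit 532) (nat_lit 9388060314) (nat_lit 195) (nat_lit 5) (nat_lit 201) (nat_lit 5) (nat_lit 202) (nat_lit 5) (nat_lit 500) (nat_lit 430) (nat_lit 210))))))))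
noncomputable def xc202 : XT := (XT.nd (nat_lit 54834) (nat_lit 0) (nat_lit 15808) (XT.nd (nat_lit 53898) (nat_lit 0) (nat_lit 23636) (XT.nd (nat_lit 390) (nat_lit 1292) (nat_lit 0) (XT.nd (nat_lit 156) (nat_lit 988) (nat_lit 0) (XT.nd (nat_lit 78) (nat_lit 456) (nat_lit 0) (XT.lf (nat_lit 0) (nat_lit 19347038591) (nat_lit 532) (nat_lit 3549357647) (nat_lit 76) (nat_lit 1343822319) (nat_lit 195) (nat_lit 5) (nat_lit 202) (nat_lit 5) (nat_lit 196) (nat_lit 5) (nat_lit 501) (nat_lit 430) (nat_lit 209)) (XT.lf (nat_lit 0) (nat_lit 10408347888) (nat_lit 456) (nat_lit 13935688111) (nat_lit 532) (nat_lit 191789224) (nat_lit 189) (nat_lit 5) (nat_lit 195) (nat_lit 5) (nat_lit 196) (nat_lit 5) (nat_lit 502) (nat_lit 430) (nat_lit 208))) (XT.nd (nat_lit 78) (nat_lit 912) (nat_lit 0) (XT.lf (nat_lit 0) (nat_lit 4562548719) (nat_lit 532) (nat_lit 180195285) (nat_lit 76) (nat_lit 20093616942) (nat_lit 188) (nat_lit 5) (nat_lit 195) (nat_lit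 5) (nat_lit 189) (nat_lit 5) (nat_lit 503) (nat_lit 430) (nat_lit 207)) (XT.nd (nat_lit 78) (nat_lit 456) (nat_lit 0) (XT.lf (nat_lit 0) (nat_lit 9527872918) (nat_lit 532) (nat_lit 10946969311) (nat_lit 76) (nat_lit 4665671091) (nat_lit 182) (nat_lit 5) (nat_lit 189) (nat_lit 5) (nat_lit 183) (nat_lit 5) (nat_lit 504) (nat_lit 430) (nat_lit 206)) (XT.lf (nat_lit 0) (nat_lit 3413318260) (nat_lit 456) (nat_lit 11229421692) (nat_lit 532) (nat_lit 10807004689) (nat_lit 176) (nat_lit 5) (nat_lit 182) (nat_lit 5) (nat_lit 183) (nat_lit 5) (nat_lit 505) (nat_lit 430) (nat_lit 205))))) (XT.nd (nat_lit 234) (nat_lit 836) (nat_lit 0) (XT.nd (nat_lit 78) (nat_lit 456) (nat_lit 0) (XT.lf (nat_lit 0) (nat_lit 18202736201) (nat_lit 456) (nat_lit 1726124032) (nat_lit 532) (nat_lit 5834921855) (nat_lit 176) (nat_lit 5) (nat_lit 182) (nat_lit 5) (nat_lit 183) (nat_lit 5) (nat_lit 506) (nat_lit 430) (nat_lit 204)) (XT.nd (nat_lit 78) (nat_lit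 76) (nat_lit 0) (XT.lf (nat_lit 0) (nat_lit 7240662080) (nat_lit 380) (nat_lit 18174352441) (nat_lit 456) (nat_lit 667200135) (nat_lit 171) (nat_lit 5) (nat_lit 176) (nat_lit 5) (nat_lit 177) (nat_lit 5) (nat_lit 507) (nat_lit 430) (nat_lit 203)) (XT.lf (nat_lit 0) (nat_lit 4601588920) (nat_lit 456) (nat_lit 4013194786) (nat_lit 76) (nat_lit 17790473051) (nat_lit 170) (nat_lit 5) (nat_lit 176) (nat_lit 5) (nat_lit 171) (nat_lit 5) (nat_lit 508) (nat_lit 430) (nat_lit 202)))) (XT.nd (nat_lit 78) (nat_lit 380) (nat_lit 0) (XT.lf (nat_lit 0) (nat_lit 10043411001) (nat_lit 532) (nat_lit 15492640230) (nat_lit 76) (nat_lit 1197089013) (nat_lit 164) (nat_lit 5) (nat_lit 171) (nat_lit 5) (nat_lit 165) (nat_lit 5) (nat_lit 509) (nat_lit 430) (nat_lit 201)) (XT.nd (nat_lit 78) (nat_lit 380) (nat_lit 0) (XT.lf (nat_lit 0) (nat_lit 15673935534) (nat_lit 532) (nat_lit 276940942) (nat_lit 76) (nat_lit 11115108163) (nat_lit 164) (nat_lit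 5) (nat_lit 171) (nat_lit 5) (nat_lit 165) (nat_lit 5) (nat_lit 510) (nat_lit 430) (nat_lit 200)) (XT.lf (nat_lit 0) (nat_lit 15439349549) (nat_lit 380) (nat_lit 6073753178) (nat_lit 456) (nat_lit 5890463100) (nat_lit 159) (nat_lit 5) (nat_lit 164) (nat_lit 5) (nat_lit 165) (nat_lit 5) (nat_lit 511) (nat_lit 430) (nat_lit 199)))))) (XT.nd (nat_lit 468) (nat_lit 0) (nat_lit 228) (XT.nd (nat_lit 234) (nat_lit 0) (nat_lit 76) (XT.nd (nat_lit 78) (nat_lit 0) (nat_lit 0) (XT.lf (nat_lit 0) (nat_lit 1775328419) (nat_lit 1748) (nat_lit 1992549617) (nat_lit 1748) (nat_lit 1992549617) (nat_lit 470) (nat_lit 3) (nat_lit 493) (nat_lit 3) (nat_lit 493) (nat_lit 5) (nat_lit 431) (nat_lit 431) (nat_lit 278)) (XT.nd (nat_lit 78) (nat_lit 0) (nat_lit 76) (XT.lf (nat_lit 76) (nat_lit 1640972035) (nat_lit 0) (nat_lit 2469251202) (nat_lit 1748) (nat_lit 7515242546) (nat_lit 471) (nat_lit 5) (nat_lit 470) (nat_lit 3) (nat_lit 493) (nat_lit 5)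 (nat_lit 432) (nat_lit 431) (nat_lit 277)) (XT.lf (nat_lit 0) (nat_lit 4711951701) (nat_lit 1672) (nat_lit 4323024666) (nat_lit 1748) (nat_lit 2696575755) (nat_lit 471) (nat_lit 5) (nat_lit 493) (nat_lit 5) (nat_lit 494) (nat_lit 5) (nat_lit 433) (nat_lit 431) (nat_lit 276)))) (XT.nd (nat_lit 78) (nat_lit 0) (nat_lit 76) (XT.lf (nat_lit 76) (nat_lit 1447166935) (nat_lit 0) (nat_lit 3891091057) (nat_lit 1748) (nat_lit 6501254335) (nat_lit 472) (nat_lit 5) (nat_lit 471) (nat_lit 5) (nat_lit 494) (nat_lit 5) (nat_lit 434) (nat_lit 431) (nat_lit 275)) (XT.nd (nat_lit 78) (nat_lit 0) (nat_lit 0) (XT.lf (nat_lit 0) (nat_lit 6002140110) (nat_lit 1672) (nat_lit 4574071737) (nat_lit 1748) (nat_lit 1372921842) (nat_lit 472) (nat_lit 5) (nat_lit 494) (nat_lit 5) (nat_lit 495) (nat_lit 5) (nat_lit 435) (nat_lit 431) (nat_lit 274)) (XT.lf (nat_lit 76) (nat_lit 1345197691) (nat_lit 0) (nat_lit 5355904802) (nat_lit 1748) (nat_lit 5359411824)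 (nat_lit 473) (nat_lit 5) (nat_lit 472) (nat_lit 5) (nat_lit 495) (nat_lit 5) (nat_lit 436) (nat_lit 431) (nat_lit 273))))) (XT.nd (nat_lit 234) (nat_lit 0) (nat_lit 76) (XT.nd (nat_lit 78) (nat_lit 0) (nat_lit 0) (XT.lf (nat_lit 0) (nat_lit 7432275929) (nat_lit 1672) (nat_lit 4736137123) (nat_lit 1748) (nat_lit 5347700) (nat_lit 473) (nat_lit 5) (nat_lit 495) (nat_lit 5) (nat_lit 496) (nat_lit 5) (nat_lit 437) (nat_lit 431) (nat_lit 272)) (XT.nd (nat_lit 78) (nat_lit 0) (nat_lit 0) (XT.lf (nat_lit 76) (nat_lit 1337359888) (nat_lit 0) (nat_lit 6872646540) (nat_lit 1748) (nat_lit 4078629792) (nat_lit 474) (nat_lit 5) (nat_lit 473) (nat_lit 5) (nat_lit 496) (nat_lit 5) (nat_lit 438) (nat_lit 431) (nat_lit 271)) (XT.lf (nat_lit 76) (nat_lit 7589238462) (nat_lit 0) (nat_lit 1433808317) (nat_lit 1748) (nat_lit 3382370037) (nat_lit 474) (nat_lit 5) (nat_lit 473) (nat_lit 5) (nat_lit 496) (nat_lit 5) (nat_lit 439) (nat_lit 431) (nat_lit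 270)))) (XT.nd (nat_lit 78) (nat_lit 0) (nat_lit 0) (XT.lf (nat_lit 76) (nat_lit 1426203218) (nat_lit 0) (nat_lit 8450353389) (nat_lit 1748) (nat_lit 2647494912) (nat_lit 475) (nat_lit 5) (nat_lit 474) (nat_lit 5) (nat_lit 497) (nat_lit 5) (nat_lit 440) (nat_lit 431) (nat_lit 269)) (XT.nd (nat_lit 78) (nat_lit 0) (nat_lit 76) (XT.lf (nat_lit 76) (nat_lit 7841730441) (nat_lit 0) (nat_lit 2935580267) (nat_lit 1748) (nat_lit 1867147342) (nat_lit 475) (nat_lit 5) (nat_lit 474) (nat_lit 5) (nat_lit 497) (nat_lit 5) (nat_lit 441) (nat_lit 431) (nat_lit 268)) (XT.lf (nat_lit 76) (nat_lit 1614531492) (nat_lit 0) (nat_lit 10098168824) (nat_lit 1748) (nat_lit 1054242554) (nat_lit 476) (nat_lit 5) (nat_lit 475) (nat_lit 5) (nat_lit 498) (nat_lit 5) (nat_lit 442) (nat_lit 431) (nat_lit 267))))))) (XT.nd (nat_lit 936) (nat_lit 6536) (nat_lit 0) (XT.nd (nat_lit 468) (nat_lit 0) (nat_lit 152) (XT.nd (nat_lit 234) (nat_lit 0) (nat_lit 0) (XT.nd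 (nat_lit 78) (nat_lit 1672) (nat_lit 0) (XT.lf (nat_lit 76) (nat_lit 8198110986) (nat_lit 0) (nat_lit 4509078276) (nat_lit 1748) (nat_lit 183882808) (nat_lit 476) (nat_lit 5) (nat_lit 475) (nat_lit 5) (nat_lit 498) (nat_lit 5) (nat_lit 443) (nat_lit 431) (nat_lit 266)) (XT.nd (nat_lit 78) (nat_lit 0) (nat_lit 0) (XT.lf (nat_lit 0) (nat_lit 703912141) (nat_lit 1748) (nat_lit 11116730192) (nat_lit 1824) (nat_lit 1196767345) (nat_lit 453) (nat_lit 5) (nat_lit 476) (nat_lit 5) (nat_lit 477) (nat_lit 5) (nat_lit 444) (nat_lit 431) (nat_lit 265)) (XT.lf (nat_lit 0) (nat_lit 1657749166) (nat_lit 1748) (nat_lit 4494748257) (nat_lit 1824) (nat_lit 6992739709) (nat_lit 453) (nat_lit 5) (nat_lit 476) (nat_lit 5) (nat_lit 477) (nat_lit 5) (nat_lit 445) (nat_lit 431) (nat_lit 264)))) (XT.nd (nat_lit 78) (nat_lit 0) (nat_lit 76) (XT.lf (nat_lit 76) (nat_lit 2282129855) (nat_lit 0) (nat_lit 352746080) (nat_lit 1824) (nat_lit 10640663262)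 (nat_lit 454) (nat_lit 5) (nat_lit 453) (nat_lit 5) (nat_lit 477) (nat_lit 5) (nat_lit 446) (nat_lit 431) (nat_lit 263)) (XT.nd (nat_lit 78) (nat_lit 0) (nat_lit 0) (XT.lf (nat_lit 0) (nat_lit 3687601031) (nat_lit 1748) (nat_lit 4196345078) (nat_lit 1824) (nat_lit 5523382358) (nat_lit 454) (nat_lit 5) (nat_lit 477) (nat_lit 5) (nat_lit 478) (nat_lit 5) (nat_lit 447) (nat_lit 431) (nat_lit 262)) (XT.lf (nat_lit 76) (nat_lit 2763056898) (nat_lit 0) (nat_lit 2008379026) (nat_lit 1824) (nat_lit 8770118725) (nat_lit 455) (nat_lit 5) (nat_lit 454) (nat_lit 5) (nat_lit 478) (nat_lit 5) (nat_lit 448) (nat_lit 431) (nat_lit 261))))) (XT.nd (nat_lit 234) (nat_lit 0) (nat_lit 76) (XT.nd (nat_lit 78) (nat_lit 0) (nat_lit 0) (XT.lf (nat_lit 0) (nat_lit 5921113583) (nat_lit 1748) (nat_lit 3793107119) (nat_lit 1824) (nat_lit 3963363522) (nat_lit 455) (nat_lit 5) (nat_lit 478) (nat_lit 5) (nat_lit 479) (nat_lit 5) (nat_lit 449) (nat_lit 431)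 (nat_lit 260)) (XT.nd (nat_lit 78) (nat_lit 0) (nat_lit 76) (XT.lf (nat_lit 76) (nat_lit 3355168328) (nat_lit 0) (nat_lit 3763846637) (nat_lit 1824) (nat_lit 6696816967) (nat_lit 456) (nat_lit 5) (nat_lit 455) (nat_lit 5) (nat_lit 479) (nat_lit 5) (nat_lit 450) (nat_lit 431) (nat_lit 259)) (XT.lf (nat_lit 0) (nat_lit 8371770597) (nat_lit 1748) (nat_lit 3281334694) (nat_lit 1824) (nat_lit 2303123484) (nat_lit 456) (nat_lit 5) (nat_lit 479) (nat_lit 5) (nat_lit 480) (nat_lit 5) (nat_lit 451) (nat_lit 431) (nat_lit 258)))) (XT.nd (nat_lit 78) (nat_lit 0) (nat_lit 76) (XT.lf (nat_lit 76) (nat_lit 4062397065) (nat_lit 0) (nat_lit 5628981136) (nat_lit 1824) (nat_lit 4407221478) (nat_lit 457) (nat_lit 5) (nat_lit 456) (nat_lit 5) (nat_lit 480) (nat_lit 5) (nat_lit 452) (nat_lit 431) (nat_lit 257)) (XT.nd (nat_lit 78) (nat_lit 0) (nat_lit 0) (XT.lf (nat_lit 0) (nat_lit 11053535967) (nat_lit 1748) (nat_lit 2657077058) (nat_lit 1824)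 (nat_lit 532883840) (nat_lit 457) (nat_lit 5) (nat_lit 480) (nat_lit 5) (nat_lit 481) (nat_lit 5) (nat_lit 453) (nat_lit 431) (nat_lit 256)) (XT.lf (nat_lit 76) (nat_lit 4888934346) (nat_lit 0) (nat_lit 7613851118) (nat_lit 1824) (nat_lit 1887311543) (nat_lit 458) (nat_lit 5) (nat_lit 457) (nat_lit 5) (nat_lit 481) (nat_lit 5) (nat_lit 454) (nat_lit 431) (nat_lit 255)))))) (XT.nd (nat_lit 468) (nat_lit 2736) (nat_lit 0) (XT.nd (nat_lit 234) (nat_lit 2356) (nat_lit 0) (XT.nd (nat_lit 78) (nat_lit 1748) (nat_lit 0) (XT.lf (nat_lit 76) (nat_lit 12614395054) (nat_lit 0) (nat_lit 1375414851) (nat_lit 1824) (nat_lit 549645392) (nat_lit 458) (nat_lit 5) (nat_lit 457) (nat_lit 5) (nat_lit 481) (nat_lit 5) (nat_lit 455) (nat_lit 431) (nat_lit 254)) (XT.nd (nat_lit 78) (nat_lit 0) (nat_lit 0) (XT.lf (nat_lit 0) (nat_lit 865936121) (nat_lit 1824) (nat_lit 8857038509) (nat_lit 76) (nat_lit 4967485230) (nat_lit 434) (nat_lit 5) (nat_lit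 458) (nat_lit 5) (nat_lit 435) (nat_lit 5) (nat_lit 456) (nat_lit 431) (nat_lit 253)) (XT.lf (nat_lit 0) (nat_lit 2315800905) (nat_lit 1824) (nat_lit 1091492768) (nat_lit 76) (nat_lit 11436853383) (nat_lit 434) (nat_lit 5) (nat_lit 458) (nat_lit 5) (nat_lit 435) (nat_lit 5) (nat_lit 457) (nat_lit 431) (nat_lit 252)))) (XT.nd (nat_lit 78) (nat_lit 912) (nat_lit 0) (XT.lf (nat_lit 0) (nat_lit 3850936473) (nat_lit 1520) (nat_lit 8107619629) (nat_lit 76) (nat_lit 3041228220) (nat_lit 415) (nat_lit 5) (nat_lit 435) (nat_lit 5) (nat_lit 416) (nat_lit 5) (nat_lit 458) (nat_lit 431) (nat_lit 251)) (XT.nd (nat_lit 78) (nat_lit 912) (nat_lit 0) (XT.lf (nat_lit 0) (nat_lit 5438224982) (nat_lit 1520) (nat_lit 138290756) (nat_lit 76) (nat_lit 9581591353) (nat_lit 415) (nat_lit 5) (nat_lit 435) (nat_lit 5) (nat_lit 416) (nat_lit 5) (nat_lit 459) (nat_lit 431) (nat_lit 250)) (XT.lf (nat_lit 0) (nat_lit 7107870066) (nat_lit 988) (nat_lit 7236043608)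 (nat_lit 76) (nat_lit 974672150) (nat_lit 403) (nat_lit 5) (nat_lit 416) (nat_lit 5) (nat_lit 404) (nat_lit 5) (nat_lit 460) (nat_lit 431) (nat_lit 249))))) (XT.nd (nat_lit 234) (nat_lit 912) (nat_lit 0) (XT.nd (nat_lit 78) (nat_lit 912) (nat_lit 0) (XT.lf (nat_lit 0) (nat_lit 955451089) (nat_lit 912) (nat_lit 7891324471) (nat_lit 988) (nat_lit 6634782915) (nat_lit 391) (nat_lit 5) (nat_lit 403) (nat_lit 5) (nat_lit 404) (nat_lit 5) (nat_lit 461) (nat_lit 431) (nat_lit 248)) (XT.nd (nat_lit 78) (nat_lit 912) (nat_lit 0) (XT.lf (nat_lit 0) (nat_lit 9401357901) (nat_lit 912) (nat_lit 1259570368) (nat_lit 988) (nat_lit 4986054587) (nat_lit 391) (nat_lit 5) (nat_lit 403) (nat_lit 5) (nat_lit 404) (nat_lit 5) (nat_lit 462) (nat_lit 431) (nat_lit 247)) (XT.lf (nat_lit 0) (nat_lit 2185873248) (nat_lit 912) (nat_lit 10367497618) (nat_lit 988) (nat_lit 3261506348) (nat_lit 379) (nat_lit 5) (nat_lit 391) (nat_lit 5) (nat_lit 392) (nat_lit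 5) (nat_lit 463) (nat_lit 431) (nat_lit 246)))) (XT.nd (nat_lit 78) (nat_lit 912) (nat_lit 0) (XT.lf (nat_lit 0) (nat_lit 10854738549) (nat_lit 912) (nat_lit 3671302514) (nat_lit 988) (nat_lit 1459242418) (nat_lit 379) (nat_lit 5) (nat_lit 391) (nat_lit 5) (nat_lit 392) (nat_lit 5) (nat_lit 464) (nat_lit 431) (nat_lit 245)) (XT.nd (nat_lit 78) (nat_lit 0) (nat_lit 0) (XT.lf (nat_lit 0) (nat_lit 410268437) (nat_lit 912) (nat_lit 12604543243) (nat_lit 76) (nat_lit 3143515038) (nat_lit 367) (nat_lit 5) (nat_lit 379) (nat_lit 5) (nat_lit 368) (nat_lit 5) (nat_lit 465) (nat_lit 431) (nat_lit 244)) (XT.lf (nat_lit 0) (nat_lit 2349005063) (nat_lit 912) (nat_lit 3894538662) (nat_lit 76) (nat_lit 10090068190) (nat_lit 367) (nat_lit 5) (nat_lit 379) (nat_lit 5) (nat_lit 368) (nat_lit 5) (nat_lit 466) (nat_lit 431) (nat_lit 243))))))))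
noncomputable def xc203 : XT := (XT.nd (nat_lit 1794) (nat_lit 6536) (nat_lit 0) (XT.nd (nat_lit 858) (nat_lit 4636) (nat_lit 0) (XT.nd (nat_lit 390) (nat_lit 2280) (nat_lit 0) (XT.nd (nat_lit 156) (nat_lit 1520) (nat_lit 0) (XT.nd (nat_lit 78) (nat_lit 0) (nat_lit 0) (XT.lf (nat_lit 0) (nat_lit 4356353646) (nat_lit 912) (nat_lit 11467931195) (nat_lit 76) (nat_lit 687522705) (nat_lit 356) (nat_lit 5) (nat_lit 368) (nat_lit 5) (nat_lit 357) (nat_lit 5) (nat_lit 467) (nat_lit 431) (nat_lit 242)) (XT.lf (nat_lit 0) (nat_lit 6464139428) (nat_lit 912) (nat_lit 2528202476) (nat_lit 76) (nat_lit 7700020823) (nat_lit 356) (nat_lit 5) (nat_lit 368) (nat_lit 5) (nat_lit 357) (nat_lit 5) (nat_lit 468) (nat_lit 431) (nat_lit 241))) (XT.nd (nat_lit 78) (nat_lit 760) (nat_lit 0) (XT.lf (nat_lit 0) (nat_lit 6670463784) (nat_lit 760) (nat_lit 1979705409) (nat_lit 836) (nat_lit 8225639471) (nat_lit 346) (nat_lit 5) (nat_lit 356) (nat_lit 5)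 (nat_lit 357) (nat_lit 5) (nat_lit 469) (nat_lit 431) (nat_lit 240)) (XT.nd (nat_lit 78) (nat_lit 760) (nat_lit 0) (XT.lf (nat_lit 0) (nat_lit 10923457564) (nat_lit 836) (nat_lit 1016346388) (nat_lit 76) (nat_lit 5122250196) (nat_lit 346) (nat_lit 5) (nat_lit 357) (nat_lit 5) (nat_lit 347) (nat_lit 5) (nat_lit 470) (nat_lit 431) (nat_lit 239)) (XT.lf (nat_lit 0) (nat_lit 8446812809) (nat_lit 760) (nat_lit 4856363938) (nat_lit 836) (nat_lit 3947629856) (nat_lit 336) (nat_lit 5) (nat_lit 346) (nat_lit 5) (nat_lit 347) (nat_lit 5) (nat_lit 471) (nat_lit 431) (nat_lit 238))))) (XT.nd (nat_lit 234) (nat_lit 684) (nat_lit 0) (XT.nd (nat_lit 78) (nat_lit 836) (nat_lit 0) (XT.lf (nat_lit 0) (nat_lit 655608931) (nat_lit 760) (nat_lit 15094482745) (nat_lit 836) (nat_lit 1692851738) (nat_lit 326) (nat_lit 5) (nat_lit 336) (nat_lit 5) (nat_lit 337) (nat_lit 5) (nat_lit 472) (nat_lit 431) (nat_lit 237)) (XT.nd (nat_lit 78) (nat_lit 760)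 (nat_lit 0) (XT.lf (nat_lit 0) (nat_lit 683833936) (nat_lit 836) (nat_lit 7257914085) (nat_lit 76) (nat_lit 9695401934) (nat_lit 325) (nat_lit 5) (nat_lit 336) (nat_lit 5) (nat_lit 326) (nat_lit 5) (nat_lit 473) (nat_lit 431) (nat_lit 236)) (XT.lf (nat_lit 0) (nat_lit 2476080488) (nat_lit 760) (nat_lit 618678742) (nat_lit 836) (nat_lit 14740071395) (nat_lit 315) (nat_lit 5) (nat_lit 325) (nat_lit 5) (nat_lit 326) (nat_lit 5) (nat_lit 474) (nat_lit 431) (nat_lit 235)))) (XT.nd (nat_lit 78) (nat_lit 684) (nat_lit 0) (XT.lf (nat_lit 0) (nat_lit 5640767001) (nat_lit 836) (nat_lit 5584515599) (nat_lit 76) (nat_lit 6809446265) (nat_lit 315) (nat_lit 5) (nat_lit 326) (nat_lit 5) (nat_lit 316) (nat_lit 5) (nat_lit 475) (nat_lit 431) (nat_lit 234)) (XT.nd (nat_lit 78) (nat_lit 0) (nat_lit 0) (XT.lf (nat_lit 0) (nat_lit 4432017595) (nat_lit 684) (nat_lit 3832037123) (nat_lit 760) (nat_lit 9974044363) (nat_lit 306) (nat_lit 5) (nat_lit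 315) (nat_lit 5) (nat_lit 316) (nat_lit 5) (nat_lit 476) (nat_lit 431) (nat_lit 233)) (XT.lf (nat_lit 0) (nat_lit 10995176543) (nat_lit 760) (nat_lit 3751829217) (nat_lit 76) (nat_lit 3697424758) (nat_lit 306) (nat_lit 5) (nat_lit 316) (nat_lit 5) (nat_lit 307) (nat_lit 5) (nat_lit 477) (nat_lit 431) (nat_lit 232)))))) (XT.nd (nat_lit 468) (nat_lit 1900) (nat_lit 0) (XT.nd (nat_lit 234) (nat_lit 1292) (nat_lit 0) (XT.nd (nat_lit 78) (nat_lit 760) (nat_lit 0) (XT.lf (nat_lit 0) (nat_lit 6556976186) (nat_lit 684) (nat_lit 7285584166) (nat_lit 760) (nat_lit 4811096605) (nat_lit 297) (nat_lit 5) (nat_lit 306) (nat_lit 5) (nat_lit 307) (nat_lit 5) (nat_lit 478) (nat_lit 431) (nat_lit 231)) (XT.nd (nat_lit 78) (nat_lit 760) (nat_lit 0) (XT.lf (nat_lit 0) (nat_lit 16768107407) (nat_lit 760) (nat_lit 1753250143) (nat_lit 76) (nat_lit 345287201) (nat_lit 297) (nat_lit 5) (nat_lit 307) (nat_lit 5) (nat_lit 298) (nat_lit 5) (nat_lit 479)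 (nat_lit 431) (nat_lit 230)) (XT.lf (nat_lit 0) (nat_lit 759811448) (nat_lit 760) (nat_lit 10229007837) (nat_lit 76) (nat_lit 8092981275) (nat_lit 287) (nat_lit 5) (nat_lit 297) (nat_lit 5) (nat_lit 288) (nat_lit 5) (nat_lit 480) (nat_lit 431) (nat_lit 229)))) (XT.nd (nat_lit 78) (nat_lit 608) (nat_lit 0) (XT.lf (nat_lit 0) (nat_lit 377557351) (nat_lit 684) (nat_lit 3277908240) (nat_lit 760) (nat_lit 15645352787) (nat_lit 278) (nat_lit 5) (nat_lit 287) (nat_lit 5) (nat_lit 288) (nat_lit 5) (nat_lit 481) (nat_lit 431) (nat_lit 228)) (XT.nd (nat_lit 78) (nat_lit 608) (nat_lit 0) (XT.lf (nat_lit 0) (nat_lit 6701896216) (nat_lit 760) (nat_lit 8225355276) (nat_lit 76) (nat_lit 4595108843) (nat_lit 278) (nat_lit 5) (nat_lit 288) (nat_lit 5) (nat_lit 279) (nat_lit 5) (nat_lit 482) (nat_lit 431) (nat_lit 227)) (XT.lf (nat_lit 0) (nat_lit 2693077213) (nat_lit 608) (nat_lit 7149472964) (nat_lit 684) (nat_lit 9905118093) (nat_lit 270)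 (nat_lit 5) (nat_lit 278) (nat_lit 5) (nat_lit 279) (nat_lit 5) (nat_lit 483) (nat_lit 431) (nat_lit 226))))) (XT.nd (nat_lit 234) (nat_lit 1292) (nat_lit 0) (XT.nd (nat_lit 78) (nat_lit 608) (nat_lit 0) (XT.lf (nat_lit 0) (nat_lit 13100832683) (nat_lit 684) (nat_lit 6047565325) (nat_lit 76) (nat_lit 827989056) (nat_lit 270) (nat_lit 5) (nat_lit 279) (nat_lit 5) (nat_lit 271) (nat_lit 5) (nat_lit 484) (nat_lit 431) (nat_lit 225)) (XT.nd (nat_lit 78) (nat_lit 0) (nat_lit 0) (XT.lf (nat_lit 0) (nat_lit 5193397907) (nat_lit 608) (nat_lit 11306227963) (nat_lit 684) (nat_lit 3708548456) (nat_lit 262) (nat_lit 5) (nat_lit 270) (nat_lit 5) (nat_lit 271) (nat_lit 5) (nat_lit 485) (nat_lit 431) (nat_lit 224)) (XT.lf (nat_lit 0) (nat_lit 16734234729) (nat_lit 608) (nat_lit 3267088328) (nat_lit 684) (nat_lit 442576687) (nat_lit 262) (nat_lit 5) (nat_lit 270) (nat_lit 5) (nat_lit 271) (nat_lit 5) (nat_lit 486) (nat_lit 431) (nat_lit 223))))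 (XT.nd (nat_lit 78) (nat_lit 608) (nat_lit 0) (XT.lf (nat_lit 0) (nat_lit 2929019324) (nat_lit 684) (nat_lit 12815998518) (nat_lit 76) (nat_lit 4937383835) (nat_lit 253) (nat_lit 5) (nat_lit 262) (nat_lit 5) (nat_lit 254) (nat_lit 5) (nat_lit 487) (nat_lit 431) (nat_lit 222)) (XT.nd (nat_lit 78) (nat_lit 608) (nat_lit 0) (XT.lf (nat_lit 0) (nat_lit 6403297439) (nat_lit 684) (nat_lit 1232548810) (nat_lit 76) (nat_lit 13288946281) (nat_lit 253) (nat_lit 5) (nat_lit 262) (nat_lit 5) (nat_lit 254) (nat_lit 5) (nat_lit 488) (nat_lit 431) (nat_lit 221)) (XT.lf (nat_lit 0) (nat_lit 10015800760) (nat_lit 684) (nat_lit 10458993760) (nat_lit 76) (nat_lit 695862788) (nat_lit 245) (nat_lit 5) (nat_lit 254) (nat_lit 5) (nat_lit 246) (nat_lit 5) (nat_lit 489) (nat_lit 431) (nat_lit 220))))))) (XT.nd (nat_lit 936) (nat_lit 2736) (nat_lit 0) (XT.nd (nat_lit 468) (nat_lit 2052) (nat_lit 0) (XT.nd (nat_lit 234) (nat_lit 608) (nat_lit 0) (XT.nd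 (nat_lit 78) (nat_lit 608) (nat_lit 0) (XT.lf (nat_lit 0) (nat_lit 1451772984) (nat_lit 532) (nat_lit 12311738883) (nat_lit 608) (nat_lit 7656669238) (nat_lit 238) (nat_lit 5) (nat_lit 245) (nat_lit 5) (nat_lit 246) (nat_lit 5) (nat_lit 490) (nat_lit 431) (nat_lit 219)) (XT.nd (nat_lit 78) (nat_lit 608) (nat_lit 0) (XT.lf (nat_lit 0) (nat_lit 13735736759) (nat_lit 532) (nat_lit 3915324339) (nat_lit 608) (nat_lit 4022337467) (nat_lit 238) (nat_lit 5) (nat_lit 245) (nat_lit 5) (nat_lit 246) (nat_lit 5) (nat_lit 491) (nat_lit 431) (nat_lit 218)) (XT.lf (nat_lit 0) (nat_lit 4353861770) (nat_lit 608) (nat_lit 17315745219) (nat_lit 684) (nat_lit 261009317) (nat_lit 230) (nat_lit 5) (nat_lit 238) (nat_lit 5) (nat_lit 239) (nat_lit 5) (nat_lit 492) (nat_lit 431) (nat_lit 217)))) (XT.nd (nat_lit 78) (nat_lit 532) (nat_lit 0) (XT.lf (nat_lit 0) (nat_lit 3603016037) (nat_lit 684) (nat_lit 5249377127) (nat_lit 76) (nat_lit 13338634464)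 (nat_lit 229) (nat_lit 5) (nat_lit 238) (nat_lit 5) (nat_lit 230) (nat_lit 5) (nat_lit 493) (nat_lit 431) (nat_lit 216)) (XT.nd (nat_lit 78) (nat_lit 0) (nat_lit 0) (XT.lf (nat_lit 0) (nat_lit 7413400220) (nat_lit 532) (nat_lit 170480997) (nat_lit 608) (nat_lit 14871871167) (nat_lit 222) (nat_lit 5) (nat_lit 229) (nat_lit 5) (nat_lit 230) (nat_lit 5) (nat_lit 494) (nat_lit 431) (nat_lit 215)) (XT.lf (nat_lit 0) (nat_lit 11731177077) (nat_lit 608) (nat_lit 2387794276) (nat_lit 76) (nat_lit 8605064797) (nat_lit 222) (nat_lit 5) (nat_lit 230) (nat_lit 5) (nat_lit 223) (nat_lit 5) (nat_lit 495) (nat_lit 431) (nat_lit 214))))) (XT.nd (nat_lit 234) (nat_lit 988) (nat_lit 0) (XT.nd (nat_lit 78) (nat_lit 532) (nat_lit 0) (XT.lf (nat_lit 0) (nat_lit 10651863679) (nat_lit 532) (nat_lit 5374906657) (nat_lit 608) (nat_lit 6969608991) (nat_lit 215) (nat_lit 5) (nat_lit 222) (nat_lit 5) (nat_lit 223) (nat_lit 5) (nat_lit 496) (nat_lit 431)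 (nat_lit 213)) (XT.nd (nat_lit 78) (nat_lit 76) (nat_lit 0) (XT.lf (nat_lit 0) (nat_lit 690160517) (nat_lit 456) (nat_lit 19756842980) (nat_lit 532) (nat_lit 2826392061) (nat_lit 209) (nat_lit 5) (nat_lit 215) (nat_lit 5) (nat_lit 216) (nat_lit 5) (nat_lit 497) (nat_lit 431) (nat_lit 212)) (XT.lf (nat_lit 0) (nat_lit 1495442105) (nat_lit 532) (nat_lit 9453293464) (nat_lit 76) (nat_lit 12604753313) (nat_lit 208) (nat_lit 5) (nat_lit 215) (nat_lit 5) (nat_lit 209) (nat_lit 5) (nat_lit 498) (nat_lit 431) (nat_lit 211)))) (XT.nd (nat_lit 78) (nat_lit 456) (nat_lit 0) (XT.lf (nat_lit 0) (nat_lit 3966044739) (nat_lit 532) (nat_lit 1920831798) (nat_lit 608) (nat_lit 17951514414) (nat_lit 201) (nat_lit 5) (nat_lit 208) (nat_lit 5) (nat_lit 209) (nat_lit 5) (nat_lit 499) (nat_lit 431) (nat_lit 210)) (XT.nd (nat_lit 78) (nat_lit 456) (nat_lit 0) (XT.lf (nat_lit 0) (nat_lit 10472576365) (nat_lit 608) (nat_lit 6400087931) (nat_lit 76)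 (nat_lit 7254198726) (nat_lit 201) (nat_lit 5) (nat_lit 209) (nat_lit 5) (nat_lit 202) (nat_lit 5) (nat_lit 500) (nat_lit 431) (nat_lit 209)) (XT.lf (nat_lit 0) (nat_lit 7419794011) (nat_lit 456) (nat_lit 7786447899) (nat_lit 532) (nat_lit 9213738271) (nat_lit 195) (nat_lit 5) (nat_lit 201) (nat_lit 5) (nat_lit 202) (nat_lit 5) (nat_lit 501) (nat_lit 431) (nat_lit 208)))))) (XT.nd (nat_lit 468) (nat_lit 1292) (nat_lit 0) (XT.nd (nat_lit 234) (nat_lit 456) (nat_lit 0) (XT.nd (nat_lit 78) (nat_lit 988) (nat_lit 0) (XT.lf (nat_lit 0) (nat_lit 20082826885) (nat_lit 532) (nat_lit 3131627021) (nat_lit 76) (nat_lit 1503541521) (nat_lit 195) (nat_lit 5) (nat_lit 202) (nat_lit 5) (nat_lit 196) (nat_lit 5) (nat_lit 502) (nat_lit 431) (nat_lit 207)) (XT.nd (nat_lit 78) (nat_lit 456) (nat_lit 0) (XT.lf (nat_lit 0) (nat_lit 154434961) (nat_lit 532) (nat_lit 13918587622) (nat_lit 76) (nat_lit 10946546075) (nat_lit 188) (nat_lit 5) (nat_lit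 195) (nat_lit 5) (nat_lit 189) (nat_lit 5) (nat_lit 503) (nat_lit 431) (nat_lit 206)) (XT.lf (nat_lit 0) (nat_lit 300702551) (nat_lit 456) (nat_lit 4695730202) (nat_lit 532) (nat_lit 20329755116) (nat_lit 182) (nat_lit 5) (nat_lit 188) (nat_lit 5) (nat_lit 189) (nat_lit 5) (nat_lit 504) (nat_lit 431) (nat_lit 205)))) (XT.nd (nat_lit 78) (nat_lit 456) (nat_lit 0) (XT.lf (nat_lit 0) (nat_lit 10056441532) (nat_lit 532) (nat_lit 10682634478) (nat_lit 76) (nat_lit 4897440652) (nat_lit 182) (nat_lit 5) (nat_lit 189) (nat_lit 5) (nat_lit 183) (nat_lit 5) (nat_lit 505) (nat_lit 431) (nat_lit 204)) (XT.nd (nat_lit 78) (nat_lit 0) (nat_lit 0) (XT.lf (nat_lit 0) (nat_lit 3961679409) (nat_lit 456) (nat_lit 11308415922) (nat_lit 532) (nat_lit 10681908407) (nat_lit 176) (nat_lit 5) (nat_lit 182) (nat_lit 5) (nat_lit 183) (nat_lit 5) (nat_lit 506) (nat_lit 431) (nat_lit 203)) (XT.lf (nat_lit 0) (nat_lit 19037472086) (nat_lit 456) (nat_lit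 1617907097) (nat_lit 532) (nat_lit 5617074825) (nat_lit 176) (nat_lit 5) (nat_lit 182) (nat_lit 5) (nat_lit 183) (nat_lit 5) (nat_lit 507) (nat_lit 431) (nat_lit 202))))) (XT.nd (nat_lit 234) (nat_lit 380) (nat_lit 0) (XT.nd (nat_lit 78) (nat_lit 532) (nat_lit 0) (XT.lf (nat_lit 0) (nat_lit 7858699510) (nat_lit 380) (nat_lit 18390107889) (nat_lit 456) (nat_lit 348497691) (nat_lit 171) (nat_lit 5) (nat_lit 176) (nat_lit 5) (nat_lit 177) (nat_lit 5) (nat_lit 508) (nat_lit 431) (nat_lit 201)) (XT.nd (nat_lit 78) (nat_lit 456) (nat_lit 0) (XT.lf (nat_lit 0) (nat_lit 5014886970) (nat_lit 456) (nat_lit 3625201642) (nat_lit 76) (nat_lit 18286805657) (nat_lit 170) (nat_lit 5) (nat_lit 176) (nat_lit 5) (nat_lit 171) (nat_lit 5) (nat_lit 509) (nat_lit 431) (nat_lit 200)) (XT.lf (nat_lit 0) (nat_lit 10563222038) (nat_lit 532) (nat_lit 15331871071) (nat_lit 76) (nat_lit 1366289616) (nat_lit 164) (nat_lit 5) (nat_lit 171) (nat_lit 5) (nat_lit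 165) (nat_lit 5) (nat_lit 510) (nat_lit 431) (nat_lit 199)))) (XT.nd (nat_lit 53196) (nat_lit 0) (nat_lit 23636) (XT.lf (nat_lit 0) (nat_lit 181291998) (nat_lit 380) (nat_lit 16119988350) (nat_lit 456) (nat_lit 11299706006) (nat_lit 159) (nat_lit 5) (nat_lit 164) (nat_lit 5) (nat_lit 165) (nat_lit 5) (nat_lit 511) (nat_lit 431) (nat_lit 198)) (XT.nd (nat_lit 78) (nat_lit 0) (nat_lit 0) (XT.lf (nat_lit 0) (nat_lit 2320907170) (nat_lit 1748) (nat_lit 1772205736) (nat_lit 1748) (nat_lit 1772205736) (nat_lit 470) (nat_lit 3) (nat_lit 493) (nat_lit 3) (nat_lit 493) (nat_lit 5) (nat_lit 432) (nat_lit 432) (nat_lit 276)) (XT.lf (nat_lit 76) (nat_lit 2190757605) (nat_lit 0) (nat_lit 3005168118) (nat_lit 1748) (nat_lit 6641751730) (nat_lit 471) (nat_lit 5) (nat_lit 470) (nat_lit 3) (nat_lit 493) (nat_lit 5) (nat_lit 433) (nat_lit 432) (nat_lit 275))))))))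
noncomputable def xc204 : XT := (XT.nd (nat_lit 1794) (nat_lit 10336) (nat_lit 0) (XT.nd (nat_lit 858) (nat_lit 1444) (nat_lit 0) (XT.nd (nat_lit 390) (nat_lit 1444) (nat_lit 0) (XT.nd (nat_lit 156) (nat_lit 0) (nat_lit 76) (XT.nd (nat_lit 78) (nat_lit 0) (nat_lit 0) (XT.lf (nat_lit 0) (nat_lit 5786915376) (nat_lit 1672) (nat_lit 3879659019) (nat_lit 1748) (nat_lit 2279771055) (nat_lit 471) (nat_lit 5) (nat_lit 493) (nat_lit 5) (nat_lit 494) (nat_lit 5) (nat_lit 434) (nat_lit 432) (nat_lit 274)) (XT.lf (nat_lit 76) (nat_lit 2002450716) (nat_lit 0) (nat_lit 4407484534) (nat_lit 1748) (nat_lit 5646850239) (nat_lit 472) (nat_lit 5) (nat_lit 471) (nat_lit 5) (nat_lit 494) (nat_lit 5) (nat_lit 435) (nat_lit 432) (nat_lit 273))) (XT.nd (nat_lit 78) (nat_lit 0) (nat_lit 0) (XT.lf (nat_lit 0) (nat_lit 7065383500) (nat_lit 1672) (nat_lit 4127607068) (nat_lit 1748) (nat_lit 976047231) (nat_lit 472) (nat_lit 5) (nat_lit 494) (nat_lit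 5) (nat_lit 495) (nat_lit 5) (nat_lit 436) (nat_lit 432) (nat_lit 272)) (XT.nd (nat_lit 78) (nat_lit 0) (nat_lit 0) (XT.lf (nat_lit 76) (nat_lit 1906508630) (nat_lit 0) (nat_lit 5856792095) (nat_lit 1748) (nat_lit 4519650007) (nat_lit 473) (nat_lit 5) (nat_lit 472) (nat_lit 5) (nat_lit 495) (nat_lit 5) (nat_lit 437) (nat_lit 432) (nat_lit 271)) (XT.lf (nat_lit 76) (nat_lit 8110341122) (nat_lit 0) (nat_lit 380521089) (nat_lit 1748) (nat_lit 3907968718) (nat_lit 473) (nat_lit 5) (nat_lit 472) (nat_lit 5) (nat_lit 495) (nat_lit 5) (nat_lit 438) (nat_lit 432) (nat_lit 270))))) (XT.nd (nat_lit 234) (nat_lit 1596) (nat_lit 0) (XT.nd (nat_lit 78) (nat_lit 0) (nat_lit 0) (XT.lf (nat_lit 76) (nat_lit 1905363261) (nat_lit 0) (nat_lit 7362034126) (nat_lit 1748) (nat_lit 3248945563) (nat_lit 474) (nat_lit 5) (nat_lit 473) (nat_lit 5) (nat_lit 496) (nat_lit 5) (nat_lit 439) (nat_lit 432) (nat_lit 269)) (XT.nd (nat_lit 78) (nat_lit 0) (nat_lit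 76) (XT.lf (nat_lit 76) (nat_lit 8271666540) (nat_lit 0) (nat_lit 1807518459) (nat_lit 1748) (nat_lit 2556628393) (nat_lit 474) (nat_lit 5) (nat_lit 473) (nat_lit 5) (nat_lit 496) (nat_lit 5) (nat_lit 440) (nat_lit 432) (nat_lit 268)) (XT.lf (nat_lit 76) (nat_lit 2001700204) (nat_lit 0) (nat_lit 8932249724) (nat_lit 1748) (nat_lit 1823191050) (nat_lit 475) (nat_lit 5) (nat_lit 474) (nat_lit 5) (nat_lit 497) (nat_lit 5) (nat_lit 441) (nat_lit 432) (nat_lit 267)))) (XT.nd (nat_lit 78) (nat_lit 1672) (nat_lit 0) (XT.lf (nat_lit 76) (nat_lit 8534813012) (nat_lit 0) (nat_lit 3301046057) (nat_lit 1748) (nat_lit 1044437583) (nat_lit 475) (nat_lit 5) (nat_lit 474) (nat_lit 5) (nat_lit 497) (nat_lit 5) (nat_lit 442) (nat_lit 432) (nat_lit 266)) (XT.nd (nat_lit 78) (nat_lit 1748) (nat_lit 0) (XT.lf (nat_lit 76) (nat_lit 2198459071) (nat_lit 0) (nat_lit 10576596937) (nat_lit 1748) (nat_lit 230476905) (nat_lit 476) (nat_lit 5) (nat_lit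 475) (nat_lit 5) (nat_lit 498) (nat_lit 5) (nat_lit 443) (nat_lit 432) (nat_lit 265)) (XT.lf (nat_lit 0) (nat_lit 632321124) (nat_lit 1748) (nat_lit 4233739369) (nat_lit 1824) (nat_lit 8266329411) (nat_lit 452) (nat_lit 5) (nat_lit 475) (nat_lit 5) (nat_lit 476) (nat_lit 5) (nat_lit 444) (nat_lit 432) (nat_lit 264)))))) (XT.nd (nat_lit 468) (nat_lit 1520) (nat_lit 0) (XT.nd (nat_lit 234) (nat_lit 0) (nat_lit 76) (XT.nd (nat_lit 78) (nat_lit 0) (nat_lit 0) (XT.lf (nat_lit 0) (nat_lit 1521276895) (nat_lit 1748) (nat_lit 10772890428) (nat_lit 1824) (nat_lit 967348811) (nat_lit 453) (nat_lit 5) (nat_lit 476) (nat_lit 5) (nat_lit 477) (nat_lit 5) (nat_lit 445) (nat_lit 432) (nat_lit 263)) (XT.nd (nat_lit 78) (nat_lit 0) (nat_lit 0) (XT.lf (nat_lit 0) (nat_lit 2478439944) (nat_lit 1748) (nat_lit 4029570312) (nat_lit 1824) (nat_lit 6884208345) (nat_lit 453) (nat_lit 5) (nat_lit 476) (nat_lit 5) (nat_lit 477) (nat_lit 5) (nat_lit 446)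 (nat_lit 432) (nat_lit 262)) (XT.lf (nat_lit 76) (nat_lit 2879193567) (nat_lit 0) (nat_lit 584053995) (nat_lit 1824) (nat_lit 10062119763) (nat_lit 454) (nat_lit 5) (nat_lit 453) (nat_lit 5) (nat_lit 477) (nat_lit 5) (nat_lit 447) (nat_lit 432) (nat_lit 261)))) (XT.nd (nat_lit 78) (nat_lit 0) (nat_lit 0) (XT.lf (nat_lit 0) (nat_lit 4520390413) (nat_lit 1748) (nat_lit 3722860441) (nat_lit 1824) (nat_lit 5416877579) (nat_lit 454) (nat_lit 5) (nat_lit 477) (nat_lit 5) (nat_lit 478) (nat_lit 5) (nat_lit 448) (nat_lit 432) (nat_lit 260)) (XT.nd (nat_lit 78) (nat_lit 0) (nat_lit 76) (XT.lf (nat_lit 76) (nat_lit 3372062394) (nat_lit 0) (nat_lit 2242551801) (nat_lit 1824) (nat_lit 8182653952) (nat_lit 455) (nat_lit 5) (nat_lit 454) (nat_lit 5) (nat_lit 478) (nat_lit 5) (nat_lit 449) (nat_lit 432) (nat_lit 259)) (XT.lf (nat_lit 0) (nat_lit 6771388738) (nat_lit 1748) (nat_lit 3310026551) (nat_lit 1824) (nat_lit 3854924144) (nat_lit 455)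 (nat_lit 5) (nat_lit 478) (nat_lit 5) (nat_lit 479) (nat_lit 5) (nat_lit 450) (nat_lit 432) (nat_lit 258))))) (XT.nd (nat_lit 234) (nat_lit 1672) (nat_lit 0) (XT.nd (nat_lit 78) (nat_lit 0) (nat_lit 76) (XT.lf (nat_lit 76) (nat_lit 3977537149) (nat_lit 0) (nat_lit 4004966093) (nat_lit 1824) (nat_lit 6095066878) (nat_lit 456) (nat_lit 5) (nat_lit 455) (nat_lit 5) (nat_lit 479) (nat_lit 5) (nat_lit 451) (nat_lit 432) (nat_lit 257)) (XT.nd (nat_lit 78) (nat_lit 0) (nat_lit 0) (XT.lf (nat_lit 0) (nat_lit 9245118969) (nat_lit 1748) (nat_lit 2787235246) (nat_lit 1824) (nat_lit 2188727650) (nat_lit 456) (nat_lit 5) (nat_lit 479) (nat_lit 5) (nat_lit 480) (nat_lit 5) (nat_lit 452) (nat_lit 432) (nat_lit 256)) (XT.lf (nat_lit 76) (nat_lit 4699688740) (nat_lit 0) (nat_lit 5881198760) (nat_lit 1824) (nat_lit 3785620318) (nat_lit 457) (nat_lit 5) (nat_lit 456) (nat_lit 5) (nat_lit 480) (nat_lit 5) (nat_lit 453) (nat_lit 432) (nat_lit 255))))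 (XT.nd (nat_lit 78) (nat_lit 1824) (nat_lit 0) (XT.lf (nat_lit 0) (nat_lit 11955758757) (nat_lit 1748) (nat_lit 2150400745) (nat_lit 1824) (nat_lit 408436984) (nat_lit 457) (nat_lit 5) (nat_lit 480) (nat_lit 5) (nat_lit 481) (nat_lit 5) (nat_lit 454) (nat_lit 432) (nat_lit 254)) (XT.nd (nat_lit 78) (nat_lit 1824) (nat_lit 0) (XT.lf (nat_lit 76) (nat_lit 5542847875) (nat_lit 0) (nat_lit 7881400242) (nat_lit 1824) (nat_lit 1240078304) (nat_lit 458) (nat_lit 5) (nat_lit 457) (nat_lit 5) (nat_lit 481) (nat_lit 5) (nat_lit 455) (nat_lit 432) (nat_lit 253)) (XT.lf (nat_lit 0) (nat_lit 109455593) (nat_lit 1824) (nat_lit 1405744914) (nat_lit 1900) (nat_lit 13301723095) (nat_lit 433) (nat_lit 5) (nat_lit 457) (nat_lit 5) (nat_lit 458) (nat_lit 5) (nat_lit 456) (nat_lit 432) (nat_lit 252))))))) (XT.nd (nat_lit 858) (nat_lit 5320) (nat_lit 0) (XT.nd (nat_lit 390) (nat_lit 2736) (nat_lit 0) (XT.nd (nat_lit 156) (nat_lit 2356) (nat_lit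 0) (XT.nd (nat_lit 78) (nat_lit 0) (nat_lit 0) (XT.lf (nat_lit 0) (nat_lit 1535907972) (nat_lit 1824) (nat_lit 8469778828) (nat_lit 76) (nat_lit 4965393134) (nat_lit 434) (nat_lit 5) (nat_lit 458) (nat_lit 5) (nat_lit 435) (nat_lit 5) (nat_lit 457) (nat_lit 432) (nat_lit 251)) (XT.lf (nat_lit 0) (nat_lit 3001972932) (nat_lit 1824) (nat_lit 559988848) (nat_lit 76) (nat_lit 11566137705) (nat_lit 434) (nat_lit 5) (nat_lit 458) (nat_lit 5) (nat_lit 435) (nat_lit 5) (nat_lit 458) (nat_lit 432) (nat_lit 250))) (XT.nd (nat_lit 78) (nat_lit 912) (nat_lit 0) (XT.lf (nat_lit 0) (nat_lit 4558306880) (nat_lit 1520) (nat_lit 7706803138) (nat_lit 76) (nat_lit 3021932181) (nat_lit 415) (nat_lit 5) (nat_lit 435) (nat_lit 5) (nat_lit 416) (nat_lit 5) (nat_lit 459) (nat_lit 432) (nat_lit 249)) (XT.nd (nat_lit 78) (nat_lit 0) (nat_lit 0) (XT.lf (nat_lit 0) (nat_lit 416334001) (nat_lit 912) (nat_lit 5751350437) (nat_lit 988) (nat_lit 9281042683)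 (nat_lit 403) (nat_lit 5) (nat_lit 415) (nat_lit 5) (nat_lit 416) (nat_lit 5) (nat_lit 460) (nat_lit 432) (nat_lit 248)) (XT.lf (nat_lit 0) (nat_lit 7859064813) (nat_lit 988) (nat_lit 6819754008) (nat_lit 76) (nat_lit 933832274) (nat_lit 403) (nat_lit 5) (nat_lit 416) (nat_lit 5) (nat_lit 404) (nat_lit 5) (nat_lit 461) (nat_lit 432) (nat_lit 247))))) (XT.nd (nat_lit 234) (nat_lit 912) (nat_lit 0) (XT.nd (nat_lit 78) (nat_lit 912) (nat_lit 0) (XT.lf (nat_lit 0) (nat_lit 1531879725) (nat_lit 912) (nat_lit 8092545272) (nat_lit 988) (nat_lit 6154627135) (nat_lit 391) (nat_lit 5) (nat_lit 403) (nat_lit 5) (nat_lit 404) (nat_lit 5) (nat_lit 462) (nat_lit 432) (nat_lit 246)) (XT.nd (nat_lit 78) (nat_lit 912) (nat_lit 0) (XT.lf (nat_lit 0) (nat_lit 10135776836) (nat_lit 912) (nat_lit 1327305219) (nat_lit 988) (nat_lit 4484940936) (nat_lit 391) (nat_lit 5) (nat_lit 403) (nat_lit 5) (nat_lit 404) (nat_lit 5) (nat_lit 463) (nat_lit 432)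 (nat_lit 245)) (XT.lf (nat_lit 0) (nat_lit 2784483447) (nat_lit 912) (nat_lit 10600674236) (nat_lit 988) (nat_lit 2734284239) (nat_lit 379) (nat_lit 5) (nat_lit 391) (nat_lit 5) (nat_lit 392) (nat_lit 5) (nat_lit 464) (nat_lit 432) (nat_lit 244)))) (XT.nd (nat_lit 78) (nat_lit 912) (nat_lit 0) (XT.lf (nat_lit 0) (nat_lit 11615845804) (nat_lit 912) (nat_lit 3770048824) (nat_lit 988) (nat_lit 907591741) (nat_lit 379) (nat_lit 5) (nat_lit 391) (nat_lit 5) (nat_lit 392) (nat_lit 5) (nat_lit 465) (nat_lit 432) (nat_lit 243)) (XT.nd (nat_lit 78) (nat_lit 0) (nat_lit 0) (XT.lf (nat_lit 0) (nat_lit 983897606) (nat_lit 912) (nat_lit 12296984432) (nat_lit 76) (nat_lit 3189191121) (nat_lit 367) (nat_lit 5) (nat_lit 379) (nat_lit 5) (nat_lit 368) (nat_lit 5) (nat_lit 466) (nat_lit 432) (nat_lit 242)) (XT.lf (nat_lit 0) (nat_lit 2950322223) (nat_lit 912) (nat_lit 3423753283) (nat_lit 76) (nat_lit 10275012478) (nat_lit 367) (nat_lit 5) (nat_lit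 379) (nat_lit 5) (nat_lit 368) (nat_lit 5) (nat_lit 467) (nat_lit 432) (nat_lit 241)))))) (XT.nd (nat_lit 468) (nat_lit 2204) (nat_lit 0) (XT.nd (nat_lit 234) (nat_lit 1520) (nat_lit 0) (XT.nd (nat_lit 78) (nat_lit 760) (nat_lit 0) (XT.lf (nat_lit 0) (nat_lit 4990474759) (nat_lit 912) (nat_lit 11141163365) (nat_lit 76) (nat_lit 699358408) (nat_lit 356) (nat_lit 5) (nat_lit 368) (nat_lit 5) (nat_lit 357) (nat_lit 5) (nat_lit 468) (nat_lit 432) (nat_lit 240)) (XT.nd (nat_lit 78) (nat_lit 760) (nat_lit 0) (XT.lf (nat_lit 0) (nat_lit 7129690884) (nat_lit 912) (nat_lit 2033544513) (nat_lit 76) (nat_lit 7852144033) (nat_lit 356) (nat_lit 5) (nat_lit 368) (nat_lit 5) (nat_lit 357) (nat_lit 5) (nat_lit 469) (nat_lit 432) (nat_lit 239)) (XT.lf (nat_lit 0) (nat_lit 7345508086) (nat_lit 760) (nat_lit 2006934740) (nat_lit 836) (nat_lit 7850193490) (nat_lit 346) (nat_lit 5) (nat_lit 356) (nat_lit 5) (nat_lit 357) (nat_lit 5) (nat_lit 470)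 (nat_lit 432) (nat_lit 238)))) (XT.nd (nat_lit 78) (nat_lit 1520) (nat_lit 0) (XT.lf (nat_lit 0) (nat_lit 11660897822) (nat_lit 836) (nat_lit 495258348) (nat_lit 76) (nat_lit 5236658544) (nat_lit 346) (nat_lit 5) (nat_lit 357) (nat_lit 5) (nat_lit 347) (nat_lit 5) (nat_lit 471) (nat_lit 432) (nat_lit 237)) (XT.nd (nat_lit 78) (nat_lit 760) (nat_lit 0) (XT.lf (nat_lit 0) (nat_lit 9153602092) (nat_lit 760) (nat_lit 4927925492) (nat_lit 836) (nat_lit 3503950292) (nat_lit 336) (nat_lit 5) (nat_lit 346) (nat_lit 5) (nat_lit 347) (nat_lit 5) (nat_lit 472) (nat_lit 432) (nat_lit 236)) (XT.lf (nat_lit 0) (nat_lit 1213147533) (nat_lit 760) (nat_lit 15357885942) (nat_lit 836) (nat_lit 1210552839) (nat_lit 326) (nat_lit 5) (nat_lit 336) (nat_lit 5) (nat_lit 337) (nat_lit 5) (nat_lit 473) (nat_lit 432) (nat_lit 235))))) (XT.nd (nat_lit 234) (nat_lit 1368) (nat_lit 0) (XT.nd (nat_lit 78) (nat_lit 760) (nat_lit 0) (XT.lf (nat_lit 0) (nat_lit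 1196909101) (nat_lit 836) (nat_lit 6862590833) (nat_lit 76) (nat_lit 9920311655) (nat_lit 325) (nat_lit 5) (nat_lit 336) (nat_lit 5) (nat_lit 326) (nat_lit 5) (nat_lit 474) (nat_lit 432) (nat_lit 234)) (XT.nd (nat_lit 78) (nat_lit 0) (nat_lit 0) (XT.lf (nat_lit 0) (nat_lit 3062527833) (nat_lit 760) (nat_lit 587219020) (nat_lit 836) (nat_lit 14531826973) (nat_lit 315) (nat_lit 5) (nat_lit 325) (nat_lit 5) (nat_lit 326) (nat_lit 5) (nat_lit 475) (nat_lit 432) (nat_lit 233)) (XT.lf (nat_lit 0) (nat_lit 6237285313) (nat_lit 836) (nat_lit 5160328898) (nat_lit 76) (nat_lit 6988045402) (nat_lit 315) (nat_lit 5) (nat_lit 326) (nat_lit 5) (nat_lit 316) (nat_lit 5) (nat_lit 476) (nat_lit 432) (nat_lit 232)))) (XT.nd (nat_lit 78) (nat_lit 684) (nat_lit 0) (XT.lf (nat_lit 0) (nat_lit 5053009453) (nat_lit 684) (nat_lit 3854001339) (nat_lit 760) (nat_lit 9686208762) (nat_lit 306) (nat_lit 5) (nat_lit 315) (nat_lit 5) (nat_lit 316) (nat_lit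 5) (nat_lit 477) (nat_lit 432) (nat_lit 231)) (XT.nd (nat_lit 78) (nat_lit 684) (nat_lit 0) (XT.lf (nat_lit 0) (nat_lit 11683736913) (nat_lit 760) (nat_lit 3295848136) (nat_lit 76) (nat_lit 3824274660) (nat_lit 306) (nat_lit 5) (nat_lit 316) (nat_lit 5) (nat_lit 307) (nat_lit 5) (nat_lit 478) (nat_lit 432) (nat_lit 230)) (XT.lf (nat_lit 0) (nat_lit 7215639838) (nat_lit 684) (nat_lit 7366664246) (nat_lit 760) (nat_lit 4435083569) (nat_lit 297) (nat_lit 5) (nat_lit 306) (nat_lit 5) (nat_lit 307) (nat_lit 5) (nat_lit 479) (nat_lit 432) (nat_lit 229))))))))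
noncomputable def xc205 : XT := (XT.nd (nat_lit 1794) (nat_lit 2356) (nat_lit 0) (XT.nd (nat_lit 858) (nat_lit 3800) (nat_lit 0) (XT.nd (nat_lit 390) (nat_lit 1900) (nat_lit 0) (XT.nd (nat_lit 156) (nat_lit 1292) (nat_lit 0) (XT.nd (nat_lit 78) (nat_lit 760) (nat_lit 0) (XT.lf (nat_lit 0) (nat_lit 17557697160) (nat_lit 760) (nat_lit 1262386774) (nat_lit 76) (nat_lit 414726226) (nat_lit 297) (nat_lit 5) (nat_lit 307) (nat_lit 5) (nat_lit 298) (nat_lit 5) (nat_lit 480) (nat_lit 432) (nat_lit 228)) (XT.lf (nat_lit 0) (nat_lit 1226772921) (nat_lit 760) (nat_lit 9905036243) (nat_lit 76) (nat_lit 8322512390) (nat_lit 287) (nat_lit 5) (nat_lit 297) (nat_lit 5) (nat_lit 288) (nat_lit 5) (nat_lit 481) (nat_lit 432) (nat_lit 227))) (XT.nd (nat_lit 78) (nat_lit 608) (nat_lit 0) (XT.lf (nat_lit 0) (nat_lit 910182935) (nat_lit 684) (nat_lit 3264708201) (nat_lit 760) (nat_lit 15502939135) (nat_lit 278) (nat_lit 5) (nat_lit 287) (nat_lit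 5) (nat_lit 288) (nat_lit 5) (nat_lit 482) (nat_lit 432) (nat_lit 226)) (XT.nd (nat_lit 78) (nat_lit 608) (nat_lit 0) (XT.lf (nat_lit 0) (nat_lit 7274000400) (nat_lit 760) (nat_lit 7866756930) (nat_lit 76) (nat_lit 4763212270) (nat_lit 278) (nat_lit 5) (nat_lit 288) (nat_lit 5) (nat_lit 279) (nat_lit 5) (nat_lit 483) (nat_lit 432) (nat_lit 225)) (XT.lf (nat_lit 0) (nat_lit 3266602726) (nat_lit 608) (nat_lit 7205649182) (nat_lit 684) (nat_lit 9661637597) (nat_lit 270) (nat_lit 5) (nat_lit 278) (nat_lit 5) (nat_lit 279) (nat_lit 5) (nat_lit 484) (nat_lit 432) (nat_lit 224))))) (XT.nd (nat_lit 234) (nat_lit 1292) (nat_lit 0) (XT.nd (nat_lit 78) (nat_lit 608) (nat_lit 0) (XT.lf (nat_lit 0) (nat_lit 13787765393) (nat_lit 684) (nat_lit 5651033839) (nat_lit 76) (nat_lit 928543611) (nat_lit 270) (nat_lit 5) (nat_lit 279) (nat_lit 5) (nat_lit 271) (nat_lit 5) (nat_lit 485) (nat_lit 432) (nat_lit 223)) (XT.nd (nat_lit 78) (nat_lit 0)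 (nat_lit 0) (XT.lf (nat_lit 0) (nat_lit 5811344166) (nat_lit 608) (nat_lit 11438196327) (nat_lit 684) (nat_lit 3354326679) (nat_lit 262) (nat_lit 5) (nat_lit 270) (nat_lit 5) (nat_lit 271) (nat_lit 5) (nat_lit 486) (nat_lit 432) (nat_lit 222)) (XT.lf (nat_lit 0) (nat_lit 17572917757) (nat_lit 608) (nat_lit 3240120099) (nat_lit 684) (nat_lit 31435332) (nat_lit 262) (nat_lit 5) (nat_lit 270) (nat_lit 5) (nat_lit 271) (nat_lit 5) (nat_lit 487) (nat_lit 432) (nat_lit 221)))) (XT.nd (nat_lit 78) (nat_lit 608) (nat_lit 0) (XT.lf (nat_lit 0) (nat_lit 3397870963) (nat_lit 684) (nat_lit 12558461091) (nat_lit 76) (nat_lit 5131444198) (nat_lit 253) (nat_lit 5) (nat_lit 262) (nat_lit 5) (nat_lit 254) (nat_lit 5) (nat_lit 488) (nat_lit 432) (nat_lit 220)) (XT.nd (nat_lit 78) (nat_lit 608) (nat_lit 0) (XT.lf (nat_lit 0) (nat_lit 6933590107) (nat_lit 684) (nat_lit 753418024) (nat_lit 76) (nat_lit 13648169017) (nat_lit 253) (nat_lit 5) (nat_lit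 262) (nat_lit 5) (nat_lit 254) (nat_lit 5) (nat_lit 489) (nat_lit 432) (nat_lit 219)) (XT.lf (nat_lit 0) (nat_lit 10614374014) (nat_lit 684) (nat_lit 10160357002) (nat_lit 76) (nat_lit 811308901) (nat_lit 245) (nat_lit 5) (nat_lit 254) (nat_lit 5) (nat_lit 246) (nat_lit 5) (nat_lit 490) (nat_lit 432) (nat_lit 218)))))) (XT.nd (nat_lit 468) (nat_lit 2052) (nat_lit 0) (XT.nd (nat_lit 234) (nat_lit 532) (nat_lit 0) (XT.nd (nat_lit 78) (nat_lit 684) (nat_lit 0) (XT.lf (nat_lit 0) (nat_lit 1985284179) (nat_lit 532) (nat_lit 12447221591) (nat_lit 608) (nat_lit 7408140375) (nat_lit 238) (nat_lit 5) (nat_lit 245) (nat_lit 5) (nat_lit 246) (nat_lit 5) (nat_lit 491) (nat_lit 432) (nat_lit 217)) (XT.nd (nat_lit 78) (nat_lit 684) (nat_lit 0) (XT.lf (nat_lit 0) (nat_lit 14505035548) (nat_lit 532) (nat_lit 3885050366) (nat_lit 608) (nat_lit 3708997698) (nat_lit 238) (nat_lit 5) (nat_lit 245) (nat_lit 5) (nat_lit 246) (nat_lit 5) (nat_lit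 492) (nat_lit 432) (nat_lit 216)) (XT.lf (nat_lit 0) (nat_lit 122216895) (nat_lit 684) (nat_lit 17423023236) (nat_lit 76) (nat_lit 4816263564) (nat_lit 229) (nat_lit 5) (nat_lit 238) (nat_lit 5) (nat_lit 230) (nat_lit 5) (nat_lit 493) (nat_lit 432) (nat_lit 215)))) (XT.nd (nat_lit 78) (nat_lit 532) (nat_lit 0) (XT.lf (nat_lit 0) (nat_lit 4052482977) (nat_lit 684) (nat_lit 4860700109) (nat_lit 76) (nat_lit 13714057735) (nat_lit 229) (nat_lit 5) (nat_lit 238) (nat_lit 5) (nat_lit 230) (nat_lit 5) (nat_lit 494) (nat_lit 432) (nat_lit 214)) (XT.nd (nat_lit 78) (nat_lit 0) (nat_lit 0) (XT.lf (nat_lit 0) (nat_lit 8052084992) (nat_lit 532) (nat_lit 56664450) (nat_lit 608) (nat_lit 14788596112) (nat_lit 222) (nat_lit 5) (nat_lit 229) (nat_lit 5) (nat_lit 230) (nat_lit 5) (nat_lit 495) (nat_lit 432) (nat_lit 213)) (XT.lf (nat_lit 0) (nat_lit 12332419943) (nat_lit 608) (nat_lit 1948121204) (nat_lit 76) (nat_lit 8890586411) (nat_lit 222)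 (nat_lit 5) (nat_lit 230) (nat_lit 5) (nat_lit 223) (nat_lit 5) (nat_lit 496) (nat_lit 432) (nat_lit 212))))) (XT.nd (nat_lit 234) (nat_lit 988) (nat_lit 0) (XT.nd (nat_lit 78) (nat_lit 532) (nat_lit 0) (XT.lf (nat_lit 0) (nat_lit 11349123140) (nat_lit 532) (nat_lit 5360757204) (nat_lit 608) (nat_lit 6739119266) (nat_lit 215) (nat_lit 5) (nat_lit 222) (nat_lit 5) (nat_lit 223) (nat_lit 5) (nat_lit 497) (nat_lit 432) (nat_lit 211)) (XT.nd (nat_lit 78) (nat_lit 76) (nat_lit 0) (XT.lf (nat_lit 0) (nat_lit 1191474852) (nat_lit 456) (nat_lit 20023873587) (nat_lit 532) (nat_lit 2516272216) (nat_lit 209) (nat_lit 5) (nat_lit 215) (nat_lit 5) (nat_lit 216) (nat_lit 5) (nat_lit 498) (nat_lit 432) (nat_lit 210)) (XT.lf (nat_lit 0) (nat_lit 1880095099) (nat_lit 532) (nat_lit 9159640296) (nat_lit 76) (nat_lit 12977675789) (nat_lit 208) (nat_lit 5) (nat_lit 215) (nat_lit 5) (nat_lit 209) (nat_lit 5) (nat_lit 499) (nat_lit 432) (nat_lit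 209)))) (XT.nd (nat_lit 78) (nat_lit 456) (nat_lit 0) (XT.lf (nat_lit 0) (nat_lit 4524908888) (nat_lit 532) (nat_lit 1830607078) (nat_lit 608) (nat_lit 17952573205) (nat_lit 201) (nat_lit 5) (nat_lit 208) (nat_lit 5) (nat_lit 209) (nat_lit 5) (nat_lit 500) (nat_lit 432) (nat_lit 208)) (XT.nd (nat_lit 78) (nat_lit 456) (nat_lit 0) (XT.lf (nat_lit 0) (nat_lit 11026868209) (nat_lit 608) (nat_lit 6051837113) (nat_lit 76) (nat_lit 7523747605) (nat_lit 201) (nat_lit 5) (nat_lit 209) (nat_lit 5) (nat_lit 202) (nat_lit 5) (nat_lit 501) (nat_lit 432) (nat_lit 207)) (XT.lf (nat_lit 0) (nat_lit 8041309228) (nat_lit 456) (nat_lit 7810208066) (nat_lit 532) (nat_lit 9049989920) (nat_lit 195) (nat_lit 5) (nat_lit 201) (nat_lit 5) (nat_lit 202) (nat_lit 5) (nat_lit 502) (nat_lit 432) (nat_lit 206))))))) (XT.nd (nat_lit 54132) (nat_lit 0) (nat_lit 21888) (XT.nd (nat_lit 468) (nat_lit 912) (nat_lit 0) (XT.nd (nat_lit 234) (nat_lit 456) (nat_lit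 0) (XT.nd (nat_lit 78) (nat_lit 988) (nat_lit 0) (XT.lf (nat_lit 0) (nat_lit 20819784771) (nat_lit 532) (nat_lit 2724519289) (nat_lit 76) (nat_lit 1661296661) (nat_lit 195) (nat_lit 5) (nat_lit 202) (nat_lit 5) (nat_lit 196) (nat_lit 5) (nat_lit 503) (nat_lit 432) (nat_lit 205)) (XT.nd (nat_lit 78) (nat_lit 456) (nat_lit 0) (XT.lf (nat_lit 0) (nat_lit 491524346) (nat_lit 532) (nat_lit 13725824105) (nat_lit 76) (nat_lit 11295884866) (nat_lit 188) (nat_lit 5) (nat_lit 195) (nat_lit 5) (nat_lit 189) (nat_lit 5) (nat_lit 504) (nat_lit 432) (nat_lit 204)) (XT.lf (nat_lit 0) (nat_lit 774752297) (nat_lit 456) (nat_lit 4652099562) (nat_lit 532) (nat_lit 20399204174) (nat_lit 182) (nat_lit 5) (nat_lit 188) (nat_lit 5) (nat_lit 189) (nat_lit 5) (nat_lit 505) (nat_lit 432) (nat_lit 203)))) (XT.nd (nat_lit 78) (nat_lit 456) (nat_lit 0) (XT.lf (nat_lit 0) (nat_lit 10582456133) (nat_lit 532) (nat_lit 10431779075) (nat_lit 76) (nat_lit 5128469185)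 (nat_lit 182) (nat_lit 5) (nat_lit 189) (nat_lit 5) (nat_lit 183) (nat_lit 5) (nat_lit 506) (nat_lit 432) (nat_lit 202)) (XT.nd (nat_lit 78) (nat_lit 0) (nat_lit 0) (XT.lf (nat_lit 0) (nat_lit 4502365115) (nat_lit 456) (nat_lit 11394643637) (nat_lit 532) (nat_lit 10567560823) (nat_lit 176) (nat_lit 5) (nat_lit 182) (nat_lit 5) (nat_lit 183) (nat_lit 5) (nat_lit 507) (nat_lit 432) (nat_lit 201)) (XT.lf (nat_lit 0) (nat_lit 19870625565) (nat_lit 456) (nat_lit 1513068569) (nat_lit 532) (nat_lit 5407861663) (nat_lit 176) (nat_lit 5) (nat_lit 182) (nat_lit 5) (nat_lit 183) (nat_lit 5) (nat_lit 508) (nat_lit 432) (nat_lit 200))))) (XT.nd (nat_lit 53430) (nat_lit 0) (nat_lit 23256) (XT.nd (nat_lit 78) (nat_lit 532) (nat_lit 0) (XT.lf (nat_lit 0) (nat_lit 8470721817) (nat_lit 380) (nat_lit 18615915043) (nat_lit 456) (nat_lit 36314968) (nat_lit 171) (nat_lit 5) (nat_lit 176) (nat_lit 5) (nat_lit 177) (nat_lit 5) (nat_lit 509) (nat_lit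 432) (nat_lit 199)) (XT.nd (nat_lit 78) (nat_lit 456) (nat_lit 0) (XT.lf (nat_lit 0) (nat_lit 5423975820) (nat_lit 456) (nat_lit 3247631625) (nat_lit 76) (nat_lit 18787608230) (nat_lit 170) (nat_lit 5) (nat_lit 176) (nat_lit 5) (nat_lit 171) (nat_lit 5) (nat_lit 510) (nat_lit 432) (nat_lit 198)) (XT.lf (nat_lit 0) (nat_lit 11081044357) (nat_lit 532) (nat_lit 15186161352) (nat_lit 76) (nat_lit 1533233653) (nat_lit 164) (nat_lit 5) (nat_lit 171) (nat_lit 5) (nat_lit 165) (nat_lit 5) (nat_lit 511) (nat_lit 432) (nat_lit 197)))) (XT.nd (nat_lit 78) (nat_lit 0) (nat_lit 0) (XT.lf (nat_lit 0) (nat_lit 2857590771) (nat_lit 1748) (nat_lit 1557558662) (nat_lit 1748) (nat_lit 1557558662) (nat_lit 470) (nat_lit 3) (nat_lit 493) (nat_lit 3) (nat_lit 493) (nat_lit 5) (nat_lit 433) (nat_lit 433) (nat_lit 274)) (XT.nd (nat_lit 78) (nat_lit 0) (nat_lit 76) (XT.lf (nat_lit 76) (nat_lit 2731464462) (nat_lit 0) (nat_lit 3532910747) (nat_lit 1748)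 (nat_lit 5790546330) (nat_lit 471) (nat_lit 5) (nat_lit 470) (nat_lit 3) (nat_lit 493) (nat_lit 5) (nat_lit 434) (nat_lit 433) (nat_lit 273)) (XT.lf (nat_lit 0) (nat_lit 6845295592) (nat_lit 1672) (nat_lit 3447999854) (nat_lit 1748) (nat_lit 1872909522) (nat_lit 471) (nat_lit 5) (nat_lit 493) (nat_lit 5) (nat_lit 494) (nat_lit 5) (nat_lit 435) (nat_lit 433) (nat_lit 272)))))) (XT.nd (nat_lit 468) (nat_lit 1444) (nat_lit 0) (XT.nd (nat_lit 234) (nat_lit 0) (nat_lit 76) (XT.nd (nat_lit 78) (nat_lit 0) (nat_lit 76) (XT.lf (nat_lit 76) (nat_lit 2548401731) (nat_lit 0) (nat_lit 4917175608) (nat_lit 1748) (nat_lit 4813584645) (nat_lit 472) (nat_lit 5) (nat_lit 471) (nat_lit 5) (nat_lit 494) (nat_lit 5) (nat_lit 436) (nat_lit 433) (nat_lit 271)) (XT.nd (nat_lit 78) (nat_lit 0) (nat_lit 0) (XT.lf (nat_lit 0) (nat_lit 8113266129) (nat_lit 1672) (nat_lit 3693102208) (nat_lit 1748) (nat_lit 587712497) (nat_lit 472) (nat_lit 5) (nat_lit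 494) (nat_lit 5) (nat_lit 495) (nat_lit 5) (nat_lit 437) (nat_lit 433) (nat_lit 270)) (XT.lf (nat_lit 76) (nat_lit 2458294113) (nat_lit 0) (nat_lit 6352406597) (nat_lit 1748) (nat_lit 3699864179) (nat_lit 473) (nat_lit 5) (nat_lit 472) (nat_lit 5) (nat_lit 495) (nat_lit 5) (nat_lit 438) (nat_lit 433) (nat_lit 269)))) (XT.nd (nat_lit 78) (nat_lit 0) (nat_lit 76) (XT.lf (nat_lit 76) (nat_lit 8776131583) (nat_lit 0) (nat_lit 759189020) (nat_lit 1748) (nat_lit 3093795908) (nat_lit 473) (nat_lit 5) (nat_lit 472) (nat_lit 5) (nat_lit 495) (nat_lit 5) (nat_lit 439) (nat_lit 433) (nat_lit 268)) (XT.nd (nat_lit 78) (nat_lit 0) (nat_lit 0) (XT.lf (nat_lit 76) (nat_lit 2463709064) (nat_lit 0) (nat_lit 7847543412) (nat_lit 1748) (nat_lit 2438052862) (nat_lit 474) (nat_lit 5) (nat_lit 473) (nat_lit 5) (nat_lit 496) (nat_lit 5) (nat_lit 440) (nat_lit 433) (nat_lit 267)) (XT.lf (nat_lit 76) (nat_lit 8947137653) (nat_lit 0) (nat_lit 2175304714)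 (nat_lit 1748) (nat_lit 1749063302) (nat_lit 474) (nat_lit 5) (nat_lit 473) (nat_lit 5) (nat_lit 496) (nat_lit 5) (nat_lit 441) (nat_lit 433) (nat_lit 266))))) (XT.nd (nat_lit 234) (nat_lit 0) (nat_lit 0) (XT.nd (nat_lit 78) (nat_lit 1672) (nat_lit 0) (XT.lf (nat_lit 76) (nat_lit 2567467503) (nat_lit 0) (nat_lit 9411634115) (nat_lit 1748) (nat_lit 1016465944) (nat_lit 475) (nat_lit 5) (nat_lit 474) (nat_lit 5) (nat_lit 497) (nat_lit 5) (nat_lit 442) (nat_lit 433) (nat_lit 265)) (XT.nd (nat_lit 78) (nat_lit 1672) (nat_lit 0) (XT.lf (nat_lit 76) (nat_lit 9220934072) (nat_lit 0) (nat_lit 3661909523) (nat_lit 1748) (nat_lit 238670524) (nat_lit 475) (nat_lit 5) (nat_lit 474) (nat_lit 5) (nat_lit 497) (nat_lit 5) (nat_lit 443) (nat_lit 433) (nat_lit 264)) (XT.lf (nat_lit 0) (nat_lit 569390580) (nat_lit 1748) (nat_lit 10480646658) (nat_lit 1824) (nat_lit 2199432974) (nat_lit 452) (nat_lit 5) (nat_lit 475) (nat_lit 5) (nat_lit 476)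 (nat_lit 5) (nat_lit 444) (nat_lit 433) (nat_lit 263)))) (XT.nd (nat_lit 78) (nat_lit 0) (nat_lit 76) (XT.lf (nat_lit 0) (nat_lit 1430647765) (nat_lit 1748) (nat_lit 3787980506) (nat_lit 1824) (nat_lit 8160523270) (nat_lit 452) (nat_lit 5) (nat_lit 475) (nat_lit 5) (nat_lit 476) (nat_lit 5) (nat_lit 445) (nat_lit 433) (nat_lit 262)) (XT.nd (nat_lit 78) (nat_lit 0) (nat_lit 0) (XT.lf (nat_lit 0) (nat_lit 2323796349) (nat_lit 1748) (nat_lit 10444159109) (nat_lit 1824) (nat_lit 743179946) (nat_lit 453) (nat_lit 5) (nat_lit 476) (nat_lit 5) (nat_lit 477) (nat_lit 5) (nat_lit 446) (nat_lit 433) (nat_lit 261)) (XT.lf (nat_lit 0) (nat_lit 3284963563) (nat_lit 1748) (nat_lit 3576642965) (nat_lit 1824) (nat_lit 6783151492) (nat_lit 453) (nat_lit 5) (nat_lit 476) (nat_lit 5) (nat_lit 477) (nat_lit 5) (nat_lit 447) (nat_lit 433) (nat_lit 260))))))))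
noncomputable def xc206 : XT := (XT.nd (nat_lit 1794) (nat_lit 9652) (nat_lit 0) (XT.nd (nat_lit 858) (nat_lit 5852) (nat_lit 0) (XT.nd (nat_lit 390) (nat_lit 1520) (nat_lit 0) (XT.nd (nat_lit 156) (nat_lit 0) (nat_lit 76) (XT.nd (nat_lit 78) (nat_lit 0) (nat_lit 76) (XT.lf (nat_lit 76) (nat_lit 3466786199) (nat_lit 0) (nat_lit 811280052) (nat_lit 1824) (nat_lit 9502734742) (nat_lit 454) (nat_lit 5) (nat_lit 453) (nat_lit 5) (nat_lit 477) (nat_lit 5) (nat_lit 448) (nat_lit 433) (nat_lit 259)) (XT.lf (nat_lit 0) (nat_lit 5340361237) (nat_lit 1748) (nat_lit 3261551080) (nat_lit 1824) (nat_lit 5316668008) (nat_lit 454) (nat_lit 5) (nat_lit 477) (nat_lit 5) (nat_lit 478) (nat_lit 5) (nat_lit 449) (nat_lit 433) (nat_lit 258))) (XT.nd (nat_lit 78) (nat_lit 0) (nat_lit 76) (XT.lf (nat_lit 76) (nat_lit 3971745431) (nat_lit 0) (nat_lit 2473874573) (nat_lit 1824) (nat_lit 7613062945) (nat_lit 455) (nat_lit 5) (nat_lit 454) (nat_lit 5)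 (nat_lit 478) (nat_lit 5) (nat_lit 450) (nat_lit 433) (nat_lit 257)) (XT.nd (nat_lit 78) (nat_lit 0) (nat_lit 0) (XT.lf (nat_lit 0) (nat_lit 7610250657) (nat_lit 1748) (nat_lit 2838988799) (nat_lit 1824) (nat_lit 3751604857) (nat_lit 455) (nat_lit 5) (nat_lit 478) (nat_lit 5) (nat_lit 479) (nat_lit 5) (nat_lit 451) (nat_lit 433) (nat_lit 256)) (XT.lf (nat_lit 76) (nat_lit 4590791713) (nat_lit 0) (nat_lit 4244468072) (nat_lit 1824) (nat_lit 5509849387) (nat_lit 456) (nat_lit 5) (nat_lit 455) (nat_lit 5) (nat_lit 479) (nat_lit 5) (nat_lit 452) (nat_lit 433) (nat_lit 255))))) (XT.nd (nat_lit 234) (nat_lit 1748) (nat_lit 0) (XT.nd (nat_lit 78) (nat_lit 0) (nat_lit 0) (XT.lf (nat_lit 0) (nat_lit 10108522847) (nat_lit 1748) (nat_lit 2304988657) (nat_lit 1824) (nat_lit 2078274691) (nat_lit 456) (nat_lit 5) (nat_lit 479) (nat_lit 5) (nat_lit 480) (nat_lit 5) (nat_lit 453) (nat_lit 433) (nat_lit 254)) (XT.nd (nat_lit 78) (nat_lit 0)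 (nat_lit 76) (XT.lf (nat_lit 76) (nat_lit 5328134392) (nat_lit 0) (nat_lit 6133038422) (nat_lit 1824) (nat_lit 3179147420) (nat_lit 457) (nat_lit 5) (nat_lit 456) (nat_lit 5) (nat_lit 480) (nat_lit 5) (nat_lit 454) (nat_lit 433) (nat_lit 253)) (XT.lf (nat_lit 0) (nat_lit 12849576037) (nat_lit 1748) (nat_lit 1655329315) (nat_lit 1824) (nat_lit 286747464) (nat_lit 457) (nat_lit 5) (nat_lit 480) (nat_lit 5) (nat_lit 481) (nat_lit 5) (nat_lit 455) (nat_lit 433) (nat_lit 252)))) (XT.nd (nat_lit 78) (nat_lit 1824) (nat_lit 0) (XT.lf (nat_lit 76) (nat_lit 6188244281) (nat_lit 0) (nat_lit 8149824191) (nat_lit 1824) (nat_lit 606498987) (nat_lit 458) (nat_lit 5) (nat_lit 457) (nat_lit 5) (nat_lit 481) (nat_lit 5) (nat_lit 456) (nat_lit 433) (nat_lit 251)) (XT.nd (nat_lit 78) (nat_lit 0) (nat_lit 76) (XT.lf (nat_lit 0) (nat_lit 748650684) (nat_lit 1824) (nat_lit 901202663) (nat_lit 1900) (nat_lit 13450535215) (nat_lit 433) (nat_lit 5)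 (nat_lit 457) (nat_lit 5) (nat_lit 458) (nat_lit 5) (nat_lit 457) (nat_lit 433) (nat_lit 250)) (XT.lf (nat_lit 0) (nat_lit 2193935944) (nat_lit 1824) (nat_lit 8096690311) (nat_lit 76) (nat_lit 4967198305) (nat_lit 434) (nat_lit 5) (nat_lit 458) (nat_lit 5) (nat_lit 435) (nat_lit 5) (nat_lit 458) (nat_lit 433) (nat_lit 249)))))) (XT.nd (nat_lit 468) (nat_lit 2660) (nat_lit 0) (XT.nd (nat_lit 234) (nat_lit 912) (nat_lit 0) (XT.nd (nat_lit 78) (nat_lit 2356) (nat_lit 0) (XT.lf (nat_lit 0) (nat_lit 3677022011) (nat_lit 1824) (nat_lit 39341475) (nat_lit 76) (nat_lit 11701869584) (nat_lit 434) (nat_lit 5) (nat_lit 458) (nat_lit 5) (nat_lit 435) (nat_lit 5) (nat_lit 459) (nat_lit 433) (nat_lit 248)) (XT.nd (nat_lit 78) (nat_lit 912) (nat_lit 0) (XT.lf (nat_lit 0) (nat_lit 5255347371) (nat_lit 1520) (nat_lit 7319831085) (nat_lit 76) (nat_lit 3005361401) (nat_lit 415) (nat_lit 5) (nat_lit 435) (nat_lit 5) (nat_lit 416) (nat_lit 5) (nat_lit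 460) (nat_lit 433) (nat_lit 247)) (XT.lf (nat_lit 0) (nat_lit 962208875) (nat_lit 912) (nat_lit 5926313835) (nat_lit 988) (nat_lit 8857106027) (nat_lit 403) (nat_lit 5) (nat_lit 415) (nat_lit 5) (nat_lit 416) (nat_lit 5) (nat_lit 461) (nat_lit 433) (nat_lit 246)))) (XT.nd (nat_lit 78) (nat_lit 912) (nat_lit 0) (XT.lf (nat_lit 0) (nat_lit 8601633792) (nat_lit 988) (nat_lit 6416923337) (nat_lit 76) (nat_lit 894518416) (nat_lit 403) (nat_lit 5) (nat_lit 416) (nat_lit 5) (nat_lit 404) (nat_lit 5) (nat_lit 462) (nat_lit 433) (nat_lit 245)) (XT.nd (nat_lit 78) (nat_lit 0) (nat_lit 0) (XT.lf (nat_lit 0) (nat_lit 2098195533) (nat_lit 912) (nat_lit 8296105436) (nat_lit 988) (nat_lit 5688666008) (nat_lit 391) (nat_lit 5) (nat_lit 403) (nat_lit 5) (nat_lit 404) (nat_lit 5) (nat_lit 463) (nat_lit 433) (nat_lit 244)) (XT.lf (nat_lit 0) (nat_lit 10863667092) (nat_lit 912) (nat_lit 1394742753) (nat_lit 988) (nat_lit 3997136157) (nat_lit 391)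 (nat_lit 5) (nat_lit 403) (nat_lit 5) (nat_lit 404) (nat_lit 5) (nat_lit 464) (nat_lit 433) (nat_lit 243))))) (XT.nd (nat_lit 234) (nat_lit 836) (nat_lit 0) (XT.nd (nat_lit 78) (nat_lit 912) (nat_lit 0) (XT.lf (nat_lit 0) (nat_lit 3373518689) (nat_lit 912) (nat_lit 10837511506) (nat_lit 988) (nat_lit 2219523330) (nat_lit 379) (nat_lit 5) (nat_lit 391) (nat_lit 5) (nat_lit 392) (nat_lit 5) (nat_lit 465) (nat_lit 433) (nat_lit 242)) (XT.nd (nat_lit 78) (nat_lit 912) (nat_lit 0) (XT.lf (nat_lit 0) (nat_lit 12371050536) (nat_lit 912) (nat_lit 3869786845) (nat_lit 988) (nat_lit 367462602) (nat_lit 379) (nat_lit 5) (nat_lit 391) (nat_lit 5) (nat_lit 392) (nat_lit 5) (nat_lit 466) (nat_lit 433) (nat_lit 241)) (XT.lf (nat_lit 0) (nat_lit 1547043263) (nat_lit 912) (nat_lit 12005006325) (nat_lit 76) (nat_lit 3236448398) (nat_lit 367) (nat_lit 5) (nat_lit 379) (nat_lit 5) (nat_lit 368) (nat_lit 5) (nat_lit 467) (nat_lit 433) (nat_lit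 240)))) (XT.nd (nat_lit 78) (nat_lit 836) (nat_lit 0) (XT.lf (nat_lit 0) (nat_lit 3542140142) (nat_lit 912) (nat_lit 2964857961) (nat_lit 76) (nat_lit 10464310232) (nat_lit 367) (nat_lit 5) (nat_lit 379) (nat_lit 5) (nat_lit 368) (nat_lit 5) (nat_lit 468) (nat_lit 433) (nat_lit 239)) (XT.nd (nat_lit 78) (nat_lit 0) (nat_lit 0) (XT.lf (nat_lit 0) (nat_lit 5616037850) (nat_lit 912) (nat_lit 10829455248) (nat_lit 76) (nat_lit 711505177) (nat_lit 356) (nat_lit 5) (nat_lit 368) (nat_lit 5) (nat_lit 357) (nat_lit 5) (nat_lit 469) (nat_lit 433) (nat_lit 238)) (XT.lf (nat_lit 0) (nat_lit 7787729403) (nat_lit 912) (nat_lit 1550165026) (nat_lit 76) (nat_lit 8007382601) (nat_lit 356) (nat_lit 5) (nat_lit 368) (nat_lit 5) (nat_lit 357) (nat_lit 5) (nat_lit 470) (nat_lit 433) (nat_lit 237))))))) (XT.nd (nat_lit 936) (nat_lit 4408) (nat_lit 0) (XT.nd (nat_lit 468) (nat_lit 2128) (nat_lit 0) (XT.nd (nat_lit 234) (nat_lit 1596) (nat_lit 0)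 (XT.nd (nat_lit 78) (nat_lit 760) (nat_lit 0) (XT.lf (nat_lit 0) (nat_lit 8013020925) (nat_lit 760) (nat_lit 2035188798) (nat_lit 836) (nat_lit 7488205846) (nat_lit 346) (nat_lit 5) (nat_lit 356) (nat_lit 5) (nat_lit 357) (nat_lit 5) (nat_lit 471) (nat_lit 433) (nat_lit 236)) (XT.nd (nat_lit 78) (nat_lit 0) (nat_lit 0) (XT.lf (nat_lit 0) (nat_lit 15430016) (nat_lit 760) (nat_lit 12377604771) (nat_lit 836) (nat_lit 5337560673) (nat_lit 336) (nat_lit 5) (nat_lit 346) (nat_lit 5) (nat_lit 347) (nat_lit 5) (nat_lit 472) (nat_lit 433) (nat_lit 235)) (XT.lf (nat_lit 0) (nat_lit 9853641673) (nat_lit 760) (nat_lit 5001911025) (nat_lit 836) (nat_lit 3071691582) (nat_lit 336) (nat_lit 5) (nat_lit 346) (nat_lit 5) (nat_lit 347) (nat_lit 5) (nat_lit 473) (nat_lit 433) (nat_lit 234)))) (XT.nd (nat_lit 78) (nat_lit 836) (nat_lit 0) (XT.lf (nat_lit 0) (nat_lit 1760696165) (nat_lit 760) (nat_lit 15628051679) (nat_lit 836) (nat_lit 738650926)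 (nat_lit 326) (nat_lit 5) (nat_lit 336) (nat_lit 5) (nat_lit 337) (nat_lit 5) (nat_lit 474) (nat_lit 433) (nat_lit 233)) (XT.nd (nat_lit 78) (nat_lit 760) (nat_lit 0) (XT.lf (nat_lit 0) (nat_lit 1700853517) (nat_lit 836) (nat_lit 6480348672) (nat_lit 76) (nat_lit 10148515737) (nat_lit 325) (nat_lit 5) (nat_lit 336) (nat_lit 5) (nat_lit 326) (nat_lit 5) (nat_lit 475) (nat_lit 433) (nat_lit 232)) (XT.lf (nat_lit 0) (nat_lit 3639854643) (nat_lit 760) (nat_lit 556832203) (nat_lit 836) (nat_lit 14338951546) (nat_lit 315) (nat_lit 5) (nat_lit 325) (nat_lit 5) (nat_lit 326) (nat_lit 5) (nat_lit 476) (nat_lit 433) (nat_lit 231))))) (XT.nd (nat_lit 234) (nat_lit 1444) (nat_lit 0) (XT.nd (nat_lit 78) (nat_lit 684) (nat_lit 0) (XT.lf (nat_lit 0) (nat_lit 6826951216) (nat_lit 836) (nat_lit 4748467220) (nat_lit 76) (nat_lit 7168569682) (nat_lit 315) (nat_lit 5) (nat_lit 326) (nat_lit 5) (nat_lit 316) (nat_lit 5) (nat_lit 477) (nat_lit 433)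 (nat_lit 230)) (XT.nd (nat_lit 78) (nat_lit 0) (nat_lit 0) (XT.lf (nat_lit 0) (nat_lit 5665749290) (nat_lit 684) (nat_lit 3878527995) (nat_lit 760) (nat_lit 9411539542) (nat_lit 306) (nat_lit 5) (nat_lit 315) (nat_lit 5) (nat_lit 316) (nat_lit 5) (nat_lit 478) (nat_lit 433) (nat_lit 229)) (XT.lf (nat_lit 0) (nat_lit 12367869974) (nat_lit 760) (nat_lit 2851367497) (nat_lit 76) (nat_lit 3951607333) (nat_lit 306) (nat_lit 5) (nat_lit 316) (nat_lit 5) (nat_lit 307) (nat_lit 5) (nat_lit 479) (nat_lit 433) (nat_lit 228)))) (XT.nd (nat_lit 78) (nat_lit 760) (nat_lit 0) (XT.lf (nat_lit 0) (nat_lit 7866992358) (nat_lit 684) (nat_lit 7451875653) (nat_lit 760) (nat_lit 4069887732) (nat_lit 297) (nat_lit 5) (nat_lit 306) (nat_lit 5) (nat_lit 307) (nat_lit 5) (nat_lit 480) (nat_lit 433) (nat_lit 227)) (XT.nd (nat_lit 78) (nat_lit 760) (nat_lit 0) (XT.lf (nat_lit 0) (nat_lit 18345440497) (nat_lit 760) (nat_lit 782128578) (nat_lit 76) (nat_lit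 483125789) (nat_lit 297) (nat_lit 5) (nat_lit 307) (nat_lit 5) (nat_lit 298) (nat_lit 5) (nat_lit 481) (nat_lit 433) (nat_lit 226)) (XT.lf (nat_lit 0) (nat_lit 1685531029) (nat_lit 760) (nat_lit 9595109525) (nat_lit 76) (nat_lit 8554006361) (nat_lit 287) (nat_lit 5) (nat_lit 297) (nat_lit 5) (nat_lit 288) (nat_lit 5) (nat_lit 482) (nat_lit 433) (nat_lit 225)))))) (XT.nd (nat_lit 468) (nat_lit 2432) (nat_lit 0) (XT.nd (nat_lit 234) (nat_lit 684) (nat_lit 0) (XT.nd (nat_lit 78) (nat_lit 608) (nat_lit 0) (XT.lf (nat_lit 0) (nat_lit 1433071750) (nat_lit 684) (nat_lit 3254302439) (nat_lit 760) (nat_lit 15375357868) (nat_lit 278) (nat_lit 5) (nat_lit 287) (nat_lit 5) (nat_lit 288) (nat_lit 5) (nat_lit 483) (nat_lit 433) (nat_lit 224)) (XT.nd (nat_lit 78) (nat_lit 608) (nat_lit 0) (XT.lf (nat_lit 0) (nat_lit 7840536020) (nat_lit 760) (nat_lit 7521299439) (nat_lit 76) (nat_lit 4931718779) (nat_lit 278) (nat_lit 5) (nat_lit 288) (nat_lit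 5) (nat_lit 279) (nat_lit 5) (nat_lit 484) (nat_lit 433) (nat_lit 223)) (XT.lf (nat_lit 0) (nat_lit 3831419564) (nat_lit 608) (nat_lit 7266319989) (nat_lit 684) (nat_lit 9430434692) (nat_lit 270) (nat_lit 5) (nat_lit 278) (nat_lit 5) (nat_lit 279) (nat_lit 5) (nat_lit 485) (nat_lit 433) (nat_lit 222)))) (XT.nd (nat_lit 78) (nat_lit 684) (nat_lit 0) (XT.lf (nat_lit 0) (nat_lit 14471936748) (nat_lit 684) (nat_lit 5266666210) (nat_lit 76) (nat_lit 1027847638) (nat_lit 270) (nat_lit 5) (nat_lit 279) (nat_lit 5) (nat_lit 271) (nat_lit 5) (nat_lit 486) (nat_lit 433) (nat_lit 221)) (XT.nd (nat_lit 78) (nat_lit 76) (nat_lit 0) (XT.lf (nat_lit 0) (nat_lit 6421687064) (nat_lit 608) (nat_lit 11576460258) (nat_lit 684) (nat_lit 3009655479) (nat_lit 262) (nat_lit 5) (nat_lit 270) (nat_lit 5) (nat_lit 271) (nat_lit 5) (nat_lit 487) (nat_lit 433) (nat_lit 220)) (XT.lf (nat_lit 0) (nat_lit 366746149) (nat_lit 684) (nat_lit 2846989806) (nat_lit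 76) (nat_lit 18039596368) (nat_lit 261) (nat_lit 5) (nat_lit 270) (nat_lit 5) (nat_lit 262) (nat_lit 5) (nat_lit 488) (nat_lit 433) (nat_lit 219))))) (XT.nd (nat_lit 234) (nat_lit 1216) (nat_lit 0) (XT.nd (nat_lit 78) (nat_lit 608) (nat_lit 0) (XT.lf (nat_lit 0) (nat_lit 3860168302) (nat_lit 684) (nat_lit 12315726623) (nat_lit 76) (nat_lit 5325684660) (nat_lit 253) (nat_lit 5) (nat_lit 262) (nat_lit 5) (nat_lit 254) (nat_lit 5) (nat_lit 489) (nat_lit 433) (nat_lit 218)) (XT.nd (nat_lit 78) (nat_lit 608) (nat_lit 0) (XT.lf (nat_lit 0) (nat_lit 7458869674) (nat_lit 684) (nat_lit 284267081) (nat_lit 76) (nat_lit 14010947670) (nat_lit 253) (nat_lit 5) (nat_lit 262) (nat_lit 5) (nat_lit 254) (nat_lit 5) (nat_lit 490) (nat_lit 433) (nat_lit 217)) (XT.lf (nat_lit 0) (nat_lit 11209453920) (nat_lit 684) (nat_lit 9875466647) (nat_lit 76) (nat_lit 925121447) (nat_lit 245) (nat_lit 5) (nat_lit 254) (nat_lit 5) (nat_lit 246) (nat_lit 5)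 (nat_lit 491) (nat_lit 433) (nat_lit 216)))) (XT.nd (nat_lit 78) (nat_lit 684) (nat_lit 0) (XT.lf (nat_lit 0) (nat_lit 2509876190) (nat_lit 532) (nat_lit 12589714591) (nat_lit 608) (nat_lit 7170237969) (nat_lit 238) (nat_lit 5) (nat_lit 245) (nat_lit 5) (nat_lit 246) (nat_lit 5) (nat_lit 492) (nat_lit 433) (nat_lit 215)) (XT.nd (nat_lit 78) (nat_lit 684) (nat_lit 0) (XT.lf (nat_lit 0) (nat_lit 15270515011) (nat_lit 532) (nat_lit 3858387224) (nat_lit 608) (nat_lit 3404682345) (nat_lit 238) (nat_lit 5) (nat_lit 245) (nat_lit 5) (nat_lit 246) (nat_lit 5) (nat_lit 493) (nat_lit 433) (nat_lit 214)) (XT.lf (nat_lit 0) (nat_lit 494667723) (nat_lit 684) (nat_lit 17287498837) (nat_lit 76) (nat_lit 5019109014) (nat_lit 229) (nat_lit 5) (nat_lit 238) (nat_lit 5) (nat_lit 230) (nat_lit 5) (nat_lit 494) (nat_lit 433) (nat_lit 213))))))))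
noncomputable def xc207 : XT := (XT.nd (nat_lit 55068) (nat_lit 0) (nat_lit 17708) (XT.nd (nat_lit 858) (nat_lit 1368) (nat_lit 0) (XT.nd (nat_lit 390) (nat_lit 1596) (nat_lit 0) (XT.nd (nat_lit 156) (nat_lit 988) (nat_lit 0) (XT.nd (nat_lit 78) (nat_lit 532) (nat_lit 0) (XT.lf (nat_lit 0) (nat_lit 4496284097) (nat_lit 684) (nat_lit 4483419147) (nat_lit 76) (nat_lit 14092770437) (nat_lit 229) (nat_lit 5) (nat_lit 238) (nat_lit 5) (nat_lit 230) (nat_lit 5) (nat_lit 495) (nat_lit 433) (nat_lit 212)) (XT.lf (nat_lit 0) (nat_lit 8629979880) (nat_lit 608) (nat_lit 14663918985) (nat_lit 76) (nat_lit 54156679) (nat_lit 222) (nat_lit 5) (nat_lit 230) (nat_lit 5) (nat_lit 223) (nat_lit 5) (nat_lit 496) (nat_lit 433) (nat_lit 211))) (XT.nd (nat_lit 78) (nat_lit 988) (nat_lit 0) (XT.lf (nat_lit 0) (nat_lit 12931451391) (nat_lit 608) (nat_lit 1518582132) (nat_lit 76) (nat_lit 9177414209) (nat_lit 222) (nat_lit 5) (nat_lit 230) (nat_lit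 5) (nat_lit 223) (nat_lit 5) (nat_lit 497) (nat_lit 433) (nat_lit 210)) (XT.nd (nat_lit 78) (nat_lit 456) (nat_lit 0) (XT.lf (nat_lit 0) (nat_lit 12041524853) (nat_lit 532) (nat_lit 5351048486) (nat_lit 608) (nat_lit 6518382711) (nat_lit 215) (nat_lit 5) (nat_lit 222) (nat_lit 5) (nat_lit 223) (nat_lit 5) (nat_lit 498) (nat_lit 433) (nat_lit 209)) (XT.lf (nat_lit 0) (nat_lit 1683884821) (nat_lit 456) (nat_lit 20301219329) (nat_lit 532) (nat_lit 2214187351) (nat_lit 209) (nat_lit 5) (nat_lit 215) (nat_lit 5) (nat_lit 216) (nat_lit 5) (nat_lit 499) (nat_lit 433) (nat_lit 208))))) (XT.nd (nat_lit 234) (nat_lit 988) (nat_lit 0) (XT.nd (nat_lit 78) (nat_lit 532) (nat_lit 0) (XT.lf (nat_lit 0) (nat_lit 2258666006) (nat_lit 532) (nat_lit 8878858633) (nat_lit 76) (nat_lit 13353364839) (nat_lit 208) (nat_lit 5) (nat_lit 215) (nat_lit 5) (nat_lit 209) (nat_lit 5) (nat_lit 500) (nat_lit 433) (nat_lit 207)) (XT.nd (nat_lit 78) (nat_lit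 0) (nat_lit 0) (XT.lf (nat_lit 0) (nat_lit 5076329072) (nat_lit 532) (nat_lit 1743573163) (nat_lit 608) (nat_lit 17967553642) (nat_lit 201) (nat_lit 5) (nat_lit 208) (nat_lit 5) (nat_lit 209) (nat_lit 5) (nat_lit 501) (nat_lit 433) (nat_lit 206)) (XT.lf (nat_lit 0) (nat_lit 11578855320) (nat_lit 608) (nat_lit 5715114746) (nat_lit 76) (nat_lit 7793854337) (nat_lit 201) (nat_lit 5) (nat_lit 209) (nat_lit 5) (nat_lit 202) (nat_lit 5) (nat_lit 502) (nat_lit 433) (nat_lit 205)))) (XT.nd (nat_lit 78) (nat_lit 532) (nat_lit 0) (XT.lf (nat_lit 0) (nat_lit 8656882948) (nat_lit 456) (nat_lit 7839567946) (nat_lit 532) (nat_lit 8896480764) (nat_lit 195) (nat_lit 5) (nat_lit 201) (nat_lit 5) (nat_lit 202) (nat_lit 5) (nat_lit 503) (nat_lit 433) (nat_lit 204)) (XT.nd (nat_lit 78) (nat_lit 532) (nat_lit 0) (XT.lf (nat_lit 0) (nat_lit 21558461655) (nat_lit 532) (nat_lit 2327509990) (nat_lit 76) (nat_lit 1817248767) (nat_lit 195) (nat_lit 5)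 (nat_lit 202) (nat_lit 5) (nat_lit 196) (nat_lit 5) (nat_lit 504) (nat_lit 433) (nat_lit 203)) (XT.lf (nat_lit 0) (nat_lit 822385865) (nat_lit 532) (nat_lit 13547500074) (nat_lit 76) (nat_lit 11647146536) (nat_lit 188) (nat_lit 5) (nat_lit 195) (nat_lit 5) (nat_lit 189) (nat_lit 5) (nat_lit 505) (nat_lit 433) (nat_lit 202)))))) (XT.nd (nat_lit 53742) (nat_lit 0) (nat_lit 22800) (XT.nd (nat_lit 234) (nat_lit 456) (nat_lit 0) (XT.nd (nat_lit 78) (nat_lit 456) (nat_lit 0) (XT.lf (nat_lit 0) (nat_lit 1240108642) (nat_lit 456) (nat_lit 4612937359) (nat_lit 532) (nat_lit 20483134004) (nat_lit 182) (nat_lit 5) (nat_lit 188) (nat_lit 5) (nat_lit 189) (nat_lit 5) (nat_lit 506) (nat_lit 433) (nat_lit 201)) (XT.nd (nat_lit 78) (nat_lit 456) (nat_lit 0) (XT.lf (nat_lit 0) (nat_lit 11106375316) (nat_lit 532) (nat_lit 10193943979) (nat_lit 76) (nat_lit 5358950640) (nat_lit 182) (nat_lit 5) (nat_lit 189) (nat_lit 5) (nat_lit 183) (nat_lit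 5) (nat_lit 507) (nat_lit 433) (nat_lit 200)) (XT.lf (nat_lit 0) (nat_lit 5035945787) (nat_lit 456) (nat_lit 11488029970) (nat_lit 532) (nat_lit 10463662374) (nat_lit 176) (nat_lit 5) (nat_lit 182) (nat_lit 5) (nat_lit 183) (nat_lit 5) (nat_lit 508) (nat_lit 433) (nat_lit 199)))) (XT.nd (nat_lit 78) (nat_lit 456) (nat_lit 0) (XT.lf (nat_lit 0) (nat_lit 20702874713) (nat_lit 456) (nat_lit 1411460784) (nat_lit 532) (nat_lit 5206950597) (nat_lit 176) (nat_lit 5) (nat_lit 182) (nat_lit 5) (nat_lit 183) (nat_lit 5) (nat_lit 509) (nat_lit 433) (nat_lit 198)) (XT.nd (nat_lit 78) (nat_lit 0) (nat_lit 0) (XT.lf (nat_lit 0) (nat_lit 266180918) (nat_lit 456) (nat_lit 18583785048) (nat_lit 76) (nat_lit 8809355123) (nat_lit 170) (nat_lit 5) (nat_lit 176) (nat_lit 5) (nat_lit 171) (nat_lit 5) (nat_lit 510) (nat_lit 433) (nat_lit 197)) (XT.lf (nat_lit 0) (nat_lit 5829255712) (nat_lit 456) (nat_lit 2879987133) (nat_lit 76) (nat_lit 19293182060)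 (nat_lit 170) (nat_lit 5) (nat_lit 176) (nat_lit 5) (nat_lit 171) (nat_lit 5) (nat_lit 511) (nat_lit 433) (nat_lit 196))))) (XT.nd (nat_lit 234) (nat_lit 0) (nat_lit 76) (XT.nd (nat_lit 78) (nat_lit 0) (nat_lit 0) (XT.lf (nat_lit 0) (nat_lit 3385970440) (nat_lit 1748) (nat_lit 1348329992) (nat_lit 1748) (nat_lit 1348329992) (nat_lit 470) (nat_lit 3) (nat_lit 493) (nat_lit 3) (nat_lit 493) (nat_lit 5) (nat_lit 434) (nat_lit 434) (nat_lit 272)) (XT.nd (nat_lit 78) (nat_lit 0) (nat_lit 76) (XT.lf (nat_lit 76) (nat_lit 3263690545) (nat_lit 0) (nat_lit 4053049225) (nat_lit 1748) (nat_lit 4960528312) (nat_lit 471) (nat_lit 5) (nat_lit 470) (nat_lit 3) (nat_lit 493) (nat_lit 5) (nat_lit 435) (nat_lit 434) (nat_lit 271)) (XT.lf (nat_lit 0) (nat_lit 7888239477) (nat_lit 1672) (nat_lit 3027482395) (nat_lit 1748) (nat_lit 1475480214) (nat_lit 471) (nat_lit 5) (nat_lit 493) (nat_lit 5) (nat_lit 494) (nat_lit 5) (nat_lit 436) (nat_lit 434)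 (nat_lit 270)))) (XT.nd (nat_lit 78) (nat_lit 0) (nat_lit 76) (XT.lf (nat_lit 76) (nat_lit 3085626976) (nat_lit 0) (nat_lit 5420691538) (nat_lit 1748) (nat_lit 4000395939) (nat_lit 472) (nat_lit 5) (nat_lit 471) (nat_lit 5) (nat_lit 494) (nat_lit 5) (nat_lit 437) (nat_lit 434) (nat_lit 269)) (XT.nd (nat_lit 78) (nat_lit 0) (nat_lit 0) (XT.lf (nat_lit 0) (nat_lit 9146903000) (nat_lit 1672) (nat_lit 3269985204) (nat_lit 1748) (nat_lit 207448601) (nat_lit 472) (nat_lit 5) (nat_lit 494) (nat_lit 5) (nat_lit 495) (nat_lit 5) (nat_lit 438) (nat_lit 434) (nat_lit 268)) (XT.lf (nat_lit 76) (nat_lit 3001169444) (nat_lit 0) (nat_lit 6843236601) (nat_lit 1748) (nat_lit 2899025988) (nat_lit 473) (nat_lit 5) (nat_lit 472) (nat_lit 5) (nat_lit 495) (nat_lit 5) (nat_lit 439) (nat_lit 434) (nat_lit 267))))))) (XT.nd (nat_lit 936) (nat_lit 3648) (nat_lit 0) (XT.nd (nat_lit 468) (nat_lit 0) (nat_lit 76) (XT.nd (nat_lit 234) (nat_lit 1596) (nat_lit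 0) (XT.nd (nat_lit 78) (nat_lit 0) (nat_lit 76) (XT.lf (nat_lit 76) (nat_lit 9435683086) (nat_lit 0) (nat_lit 1131021695) (nat_lit 1748) (nat_lit 2297989988) (nat_lit 473) (nat_lit 5) (nat_lit 472) (nat_lit 5) (nat_lit 495) (nat_lit 5) (nat_lit 440) (nat_lit 434) (nat_lit 266)) (XT.nd (nat_lit 78) (nat_lit 0) (nat_lit 0) (XT.lf (nat_lit 76) (nat_lit 3013020287) (nat_lit 0) (nat_lit 8329627502) (nat_lit 1748) (nat_lit 1644953470) (nat_lit 474) (nat_lit 5) (nat_lit 473) (nat_lit 5) (nat_lit 496) (nat_lit 5) (nat_lit 441) (nat_lit 434) (nat_lit 265)) (XT.lf (nat_lit 76) (nat_lit 9616312800) (nat_lit 0) (nat_lit 2537568869) (nat_lit 1748) (nat_lit 958691186) (nat_lit 474) (nat_lit 5) (nat_lit 473) (nat_lit 5) (nat_lit 496) (nat_lit 5) (nat_lit 442) (nat_lit 434) (nat_lit 264)))) (XT.nd (nat_lit 78) (nat_lit 1748) (nat_lit 0) (XT.lf (nat_lit 76) (nat_lit 3124135284) (nat_lit 0) (nat_lit 9888928116) (nat_lit 1748) (nat_lit 226348390)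 (nat_lit 475) (nat_lit 5) (nat_lit 474) (nat_lit 5) (nat_lit 497) (nat_lit 5) (nat_lit 443) (nat_lit 434) (nat_lit 263)) (XT.nd (nat_lit 78) (nat_lit 0) (nat_lit 76) (XT.lf (nat_lit 0) (nat_lit 543883892) (nat_lit 1748) (nat_lit 3471007524) (nat_lit 1824) (nat_lit 9353229340) (nat_lit 451) (nat_lit 5) (nat_lit 474) (nat_lit 5) (nat_lit 475) (nat_lit 5) (nat_lit 444) (nat_lit 434) (nat_lit 262)) (XT.lf (nat_lit 0) (nat_lit 1351053117) (nat_lit 1748) (nat_lit 10170226600) (nat_lit 1824) (nat_lit 1977605232) (nat_lit 452) (nat_lit 5) (nat_lit 475) (nat_lit 5) (nat_lit 476) (nat_lit 5) (nat_lit 445) (nat_lit 434) (nat_lit 261))))) (XT.nd (nat_lit 234) (nat_lit 0) (nat_lit 76) (XT.nd (nat_lit 78) (nat_lit 0) (nat_lit 76) (XT.lf (nat_lit 0) (nat_lit 2214432019) (nat_lit 1748) (nat_lit 3353903850) (nat_lit 1824) (nat_lit 8063129419) (nat_lit 452) (nat_lit 5) (nat_lit 475) (nat_lit 5) (nat_lit 476) (nat_lit 5) (nat_lit 446) (nat_lit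 434) (nat_lit 260)) (XT.nd (nat_lit 78) (nat_lit 0) (nat_lit 0) (XT.lf (nat_lit 0) (nat_lit 3112384845) (nat_lit 1748) (nat_lit 10129984691) (nat_lit 1824) (nat_lit 523983720) (nat_lit 453) (nat_lit 5) (nat_lit 476) (nat_lit 5) (nat_lit 477) (nat_lit 5) (nat_lit 447) (nat_lit 434) (nat_lit 259)) (XT.lf (nat_lit 0) (nat_lit 4078224176) (nat_lit 1748) (nat_lit 3135374256) (nat_lit 1824) (nat_lit 6689344106) (nat_lit 453) (nat_lit 5) (nat_lit 476) (nat_lit 5) (nat_lit 477) (nat_lit 5) (nat_lit 448) (nat_lit 434) (nat_lit 258)))) (XT.nd (nat_lit 78) (nat_lit 0) (nat_lit 76) (XT.lf (nat_lit 76) (nat_lit 4045549797) (nat_lit 0) (nat_lit 1034680755) (nat_lit 1824) (nat_lit 8961698110) (nat_lit 454) (nat_lit 5) (nat_lit 453) (nat_lit 5) (nat_lit 477) (nat_lit 5) (nat_lit 449) (nat_lit 434) (nat_lit 257)) (XT.nd (nat_lit 78) (nat_lit 0) (nat_lit 0) (XT.lf (nat_lit 0) (nat_lit 6148401656) (nat_lit 1748) (nat_lit 2811820001) (nat_lit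 1824) (nat_lit 5222552384) (nat_lit 454) (nat_lit 5) (nat_lit 477) (nat_lit 5) (nat_lit 478) (nat_lit 5) (nat_lit 450) (nat_lit 434) (nat_lit 256)) (XT.lf (nat_lit 76) (nat_lit 4562754532) (nat_lit 0) (nat_lit 2702582875) (nat_lit 1824) (nat_lit 7060552879) (nat_lit 455) (nat_lit 5) (nat_lit 454) (nat_lit 5) (nat_lit 478) (nat_lit 5) (nat_lit 451) (nat_lit 434) (nat_lit 255)))))) (XT.nd (nat_lit 468) (nat_lit 2280) (nat_lit 0) (XT.nd (nat_lit 234) (nat_lit 1672) (nat_lit 0) (XT.nd (nat_lit 78) (nat_lit 0) (nat_lit 0) (XT.lf (nat_lit 0) (nat_lit 8438574609) (nat_lit 1748) (nat_lit 2379391910) (nat_lit 1824) (nat_lit 3653225026) (nat_lit 455) (nat_lit 5) (nat_lit 478) (nat_lit 5) (nat_lit 479) (nat_lit 5) (nat_lit 452) (nat_lit 434) (nat_lit 254)) (XT.nd (nat_lit 78) (nat_lit 0) (nat_lit 76) (XT.lf (nat_lit 76) (nat_lit 5195586998) (nat_lit 0) (nat_lit 4482570290) (nat_lit 1824) (nat_lit 4940385832) (nat_lit 456) (nat_lit 5)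 (nat_lit 455) (nat_lit 5) (nat_lit 479) (nat_lit 5) (nat_lit 453) (nat_lit 434) (nat_lit 253)) (XT.lf (nat_lit 0) (nat_lit 10962847763) (nat_lit 1748) (nat_lit 1833987994) (nat_lit 1824) (nat_lit 1971601516) (nat_lit 456) (nat_lit 5) (nat_lit 479) (nat_lit 5) (nat_lit 480) (nat_lit 5) (nat_lit 454) (nat_lit 434) (nat_lit 252)))) (XT.nd (nat_lit 78) (nat_lit 1748) (nat_lit 0) (XT.lf (nat_lit 76) (nat_lit 5948395539) (nat_lit 0) (nat_lit 6384703120) (nat_lit 1824) (nat_lit 2587035151) (nat_lit 457) (nat_lit 5) (nat_lit 456) (nat_lit 5) (nat_lit 480) (nat_lit 5) (nat_lit 455) (nat_lit 434) (nat_lit 251)) (XT.nd (nat_lit 78) (nat_lit 1824) (nat_lit 0) (XT.lf (nat_lit 0) (nat_lit 13735846782) (nat_lit 1748) (nat_lit 1171250737) (nat_lit 1824) (nat_lit 167666709) (nat_lit 457) (nat_lit 5) (nat_lit 480) (nat_lit 5) (nat_lit 481) (nat_lit 5) (nat_lit 456) (nat_lit 434) (nat_lit 250)) (XT.lf (nat_lit 0) (nat_lit 14000129) (nat_lit 1824)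 (nat_lit 8405220201) (nat_lit 1900) (nat_lit 6811697720) (nat_lit 433) (nat_lit 5) (nat_lit 457) (nat_lit 5) (nat_lit 458) (nat_lit 5) (nat_lit 457) (nat_lit 434) (nat_lit 249))))) (XT.nd (nat_lit 234) (nat_lit 912) (nat_lit 0) (XT.nd (nat_lit 78) (nat_lit 1368) (nat_lit 0) (XT.lf (nat_lit 0) (nat_lit 1375893959) (nat_lit 1824) (nat_lit 407253293) (nat_lit 1900) (nat_lit 13606875463) (nat_lit 433) (nat_lit 5) (nat_lit 457) (nat_lit 5) (nat_lit 458) (nat_lit 5) (nat_lit 458) (nat_lit 434) (nat_lit 248)) (XT.nd (nat_lit 78) (nat_lit 1444) (nat_lit 0) (XT.lf (nat_lit 0) (nat_lit 2840765271) (nat_lit 1824) (nat_lit 7737205342) (nat_lit 76) (nat_lit 4972825728) (nat_lit 434) (nat_lit 5) (nat_lit 458) (nat_lit 5) (nat_lit 435) (nat_lit 5) (nat_lit 459) (nat_lit 434) (nat_lit 247)) (XT.lf (nat_lit 0) (nat_lit 477326799) (nat_lit 1444) (nat_lit 3867462820) (nat_lit 1520) (nat_lit 11369800334) (nat_lit 415) (nat_lit 5) (nat_lit 434)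 (nat_lit 5) (nat_lit 435) (nat_lit 5) (nat_lit 460) (nat_lit 434) (nat_lit 246)))) (XT.nd (nat_lit 78) (nat_lit 912) (nat_lit 0) (XT.lf (nat_lit 0) (nat_lit 5942801832) (nat_lit 1520) (nat_lit 6946131479) (nat_lit 76) (nat_lit 2991449575) (nat_lit 415) (nat_lit 5) (nat_lit 435) (nat_lit 5) (nat_lit 416) (nat_lit 5) (nat_lit 461) (nat_lit 434) (nat_lit 245)) (XT.nd (nat_lit 78) (nat_lit 0) (nat_lit 0) (XT.lf (nat_lit 0) (nat_lit 1498127595) (nat_lit 912) (nat_lit 6102449098) (nat_lit 988) (nat_lit 8448360499) (nat_lit 403) (nat_lit 5) (nat_lit 415) (nat_lit 5) (nat_lit 416) (nat_lit 5) (nat_lit 462) (nat_lit 434) (nat_lit 244)) (XT.lf (nat_lit 0) (nat_lit 9336322834) (nat_lit 988) (nat_lit 6026974846) (nat_lit 76) (nat_lit 856670123) (nat_lit 403) (nat_lit 5) (nat_lit 416) (nat_lit 5) (nat_lit 404) (nat_lit 5) (nat_lit 463) (nat_lit 434) (nat_lit 243))))))))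
noncomputable def xc208 : XT := (XT.nd (nat_lit 1794) (nat_lit 7144) (nat_lit 0) (XT.nd (nat_lit 858) (nat_lit 5016) (nat_lit 0) (XT.nd (nat_lit 390) (nat_lit 2356) (nat_lit 0) (XT.nd (nat_lit 156) (nat_lit 1824) (nat_lit 0) (XT.nd (nat_lit 78) (nat_lit 0) (nat_lit 0) (XT.lf (nat_lit 0) (nat_lit 2655036619) (nat_lit 912) (nat_lit 8502117181) (nat_lit 988) (nat_lit 5236259331) (nat_lit 391) (nat_lit 5) (nat_lit 403) (nat_lit 5) (nat_lit 404) (nat_lit 5) (nat_lit 464) (nat_lit 434) (nat_lit 242)) (XT.lf (nat_lit 0) (nat_lit 11585721979) (nat_lit 912) (nat_lit 1461941173) (nat_lit 988) (nat_lit 3522000451) (nat_lit 391) (nat_lit 5) (nat_lit 403) (nat_lit 5) (nat_lit 404) (nat_lit 5) (nat_lit 465) (nat_lit 434) (nat_lit 241))) (XT.nd (nat_lit 78) (nat_lit 912) (nat_lit 0) (XT.lf (nat_lit 0) (nat_lit 3953624176) (nat_lit 912) (nat_lit 11078121582) (nat_lit 988) (nat_lit 1716579509) (nat_lit 379) (nat_lit 5) (nat_lit 391) (nat_lit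 5) (nat_lit 392) (nat_lit 5) (nat_lit 466) (nat_lit 434) (nat_lit 240)) (XT.nd (nat_lit 78) (nat_lit 836) (nat_lit 0) (XT.lf (nat_lit 0) (nat_lit 159668479) (nat_lit 988) (nat_lit 3809834649) (nat_lit 76) (nat_lit 12960315053) (nat_lit 378) (nat_lit 5) (nat_lit 391) (nat_lit 5) (nat_lit 379) (nat_lit 5) (nat_lit 467) (nat_lit 434) (nat_lit 239)) (XT.lf (nat_lit 0) (nat_lit 2100348319) (nat_lit 912) (nat_lit 11728076659) (nat_lit 76) (nat_lit 3285292567) (nat_lit 367) (nat_lit 5) (nat_lit 379) (nat_lit 5) (nat_lit 368) (nat_lit 5) (nat_lit 468) (nat_lit 434) (nat_lit 238))))) (XT.nd (nat_lit 234) (nat_lit 1520) (nat_lit 0) (XT.nd (nat_lit 78) (nat_lit 836) (nat_lit 0) (XT.lf (nat_lit 0) (nat_lit 4125104702) (nat_lit 912) (nat_lit 2517263166) (nat_lit 76) (nat_lit 10658023104) (nat_lit 367) (nat_lit 5) (nat_lit 379) (nat_lit 5) (nat_lit 368) (nat_lit 5) (nat_lit 469) (nat_lit 434) (nat_lit 237)) (XT.nd (nat_lit 78) (nat_lit 0)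 (nat_lit 0) (XT.lf (nat_lit 0) (nat_lit 6233696549) (nat_lit 912) (nat_lit 10532269473) (nat_lit 76) (nat_lit 723966347) (nat_lit 356) (nat_lit 5) (nat_lit 368) (nat_lit 5) (nat_lit 357) (nat_lit 5) (nat_lit 470) (nat_lit 434) (nat_lit 236)) (XT.lf (nat_lit 0) (nat_lit 8438913346) (nat_lit 912) (nat_lit 1077467464) (nat_lit 76) (nat_lit 8165796004) (nat_lit 356) (nat_lit 5) (nat_lit 368) (nat_lit 5) (nat_lit 357) (nat_lit 5) (nat_lit 471) (nat_lit 434) (nat_lit 235)))) (XT.nd (nat_lit 78) (nat_lit 760) (nat_lit 0) (XT.lf (nat_lit 0) (nat_lit 8673668385) (nat_lit 760) (nat_lit 2064469431) (nat_lit 836) (nat_lit 7139131523) (nat_lit 346) (nat_lit 5) (nat_lit 356) (nat_lit 5) (nat_lit 357) (nat_lit 5) (nat_lit 472) (nat_lit 434) (nat_lit 234)) (XT.nd (nat_lit 78) (nat_lit 0) (nat_lit 0) (XT.lf (nat_lit 0) (nat_lit 522569537) (nat_lit 760) (nat_lit 12601065712) (nat_lit 836) (nat_lit 4951823929) (nat_lit 336) (nat_lit 5) (nat_lit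 346) (nat_lit 5) (nat_lit 347) (nat_lit 5) (nat_lit 473) (nat_lit 434) (nat_lit 233)) (XT.lf (nat_lit 0) (nat_lit 10547607565) (nat_lit 760) (nat_lit 5078330467) (nat_lit 836) (nat_lit 2650294082) (nat_lit 336) (nat_lit 5) (nat_lit 346) (nat_lit 5) (nat_lit 347) (nat_lit 5) (nat_lit 474) (nat_lit 434) (nat_lit 232)))))) (XT.nd (nat_lit 468) (nat_lit 2736) (nat_lit 0) (XT.nd (nat_lit 234) (nat_lit 684) (nat_lit 0) (XT.nd (nat_lit 78) (nat_lit 836) (nat_lit 0) (XT.lf (nat_lit 0) (nat_lit 2298875949) (nat_lit 760) (nat_lit 15905057174) (nat_lit 836) (nat_lit 276575646) (nat_lit 326) (nat_lit 5) (nat_lit 336) (nat_lit 5) (nat_lit 337) (nat_lit 5) (nat_lit 475) (nat_lit 434) (nat_lit 231)) (XT.nd (nat_lit 78) (nat_lit 760) (nat_lit 0) (XT.lf (nat_lit 0) (nat_lit 2196237595) (nat_lit 836) (nat_lit 6110634252) (nat_lit 76) (nat_lit 10380126815) (nat_lit 325) (nat_lit 5) (nat_lit 336) (nat_lit 5) (nat_lit 326) (nat_lit 5) (nat_lit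 476) (nat_lit 434) (nat_lit 230)) (XT.lf (nat_lit 0) (nat_lit 4208688120) (nat_lit 760) (nat_lit 527473655) (nat_lit 836) (nat_lit 14160993969) (nat_lit 315) (nat_lit 5) (nat_lit 325) (nat_lit 5) (nat_lit 326) (nat_lit 5) (nat_lit 477) (nat_lit 434) (nat_lit 229)))) (XT.nd (nat_lit 78) (nat_lit 684) (nat_lit 0) (XT.lf (nat_lit 0) (nat_lit 7410357018) (nat_lit 836) (nat_lit 4348369037) (nat_lit 76) (nat_lit 7351121556) (nat_lit 315) (nat_lit 5) (nat_lit 326) (nat_lit 5) (nat_lit 316) (nat_lit 5) (nat_lit 478) (nat_lit 434) (nat_lit 228)) (XT.nd (nat_lit 78) (nat_lit 0) (nat_lit 0) (XT.lf (nat_lit 0) (nat_lit 6270874780) (nat_lit 684) (nat_lit 3905585895) (nat_lit 760) (nat_lit 9149565225) (nat_lit 306) (nat_lit 5) (nat_lit 315) (nat_lit 5) (nat_lit 316) (nat_lit 5) (nat_lit 479) (nat_lit 434) (nat_lit 227)) (XT.lf (nat_lit 0) (nat_lit 13048193850) (nat_lit 760) (nat_lit 2417816605) (nat_lit 76) (nat_lit 4079512202) (nat_lit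 306) (nat_lit 5) (nat_lit 316) (nat_lit 5) (nat_lit 307) (nat_lit 5) (nat_lit 480) (nat_lit 434) (nat_lit 226))))) (XT.nd (nat_lit 234) (nat_lit 1292) (nat_lit 0) (XT.nd (nat_lit 78) (nat_lit 760) (nat_lit 0) (XT.lf (nat_lit 0) (nat_lit 8511682958) (nat_lit 684) (nat_lit 7541203556) (nat_lit 760) (nat_lit 3715013372) (nat_lit 297) (nat_lit 5) (nat_lit 306) (nat_lit 5) (nat_lit 307) (nat_lit 5) (nat_lit 481) (nat_lit 434) (nat_lit 225)) (XT.nd (nat_lit 78) (nat_lit 760) (nat_lit 0) (XT.lf (nat_lit 0) (nat_lit 19131985402) (nat_lit 760) (nat_lit 311894629) (nat_lit 76) (nat_lit 550559391) (nat_lit 297) (nat_lit 5) (nat_lit 307) (nat_lit 5) (nat_lit 298) (nat_lit 5) (nat_lit 482) (nat_lit 434) (nat_lit 224)) (XT.lf (nat_lit 0) (nat_lit 2136602904) (nat_lit 760) (nat_lit 9298711598) (nat_lit 76) (nat_lit 8787604484) (nat_lit 287) (nat_lit 5) (nat_lit 297) (nat_lit 5) (nat_lit 288) (nat_lit 5) (nat_lit 483) (nat_lit 434) (nat_lit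 223)))) (XT.nd (nat_lit 78) (nat_lit 608) (nat_lit 0) (XT.lf (nat_lit 0) (nat_lit 1946820802) (nat_lit 684) (nat_lit 3246628082) (nat_lit 760) (nat_lit 15262219072) (nat_lit 278) (nat_lit 5) (nat_lit 287) (nat_lit 5) (nat_lit 288) (nat_lit 5) (nat_lit 484) (nat_lit 434) (nat_lit 222)) (XT.nd (nat_lit 78) (nat_lit 608) (nat_lit 0) (XT.lf (nat_lit 0) (nat_lit 8402052250) (nat_lit 760) (nat_lit 7188456849) (nat_lit 76) (nat_lit 5100751331) (nat_lit 278) (nat_lit 5) (nat_lit 288) (nat_lit 5) (nat_lit 279) (nat_lit 5) (nat_lit 485) (nat_lit 434) (nat_lit 221)) (XT.lf (nat_lit 0) (nat_lit 4388137136) (nat_lit 608) (nat_lit 7331444374) (nat_lit 684) (nat_lit 9211089083) (nat_lit 270) (nat_lit 5) (nat_lit 278) (nat_lit 5) (nat_lit 279) (nat_lit 5) (nat_lit 486) (nat_lit 434) (nat_lit 220))))))) (XT.nd (nat_lit 858) (nat_lit 3496) (nat_lit 0) (XT.nd (nat_lit 390) (nat_lit 1748) (nat_lit 0) (XT.nd (nat_lit 156) (nat_lit 1292) (nat_lit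 0) (XT.nd (nat_lit 78) (nat_lit 608) (nat_lit 0) (XT.lf (nat_lit 0) (nat_lit 15153932238) (nat_lit 684) (nat_lit 4893925423) (nat_lit 76) (nat_lit 1126002779) (nat_lit 270) (nat_lit 5) (nat_lit 279) (nat_lit 5) (nat_lit 271) (nat_lit 5) (nat_lit 487) (nat_lit 434) (nat_lit 219)) (XT.lf (nat_lit 0) (nat_lit 7025049692) (nat_lit 608) (nat_lit 11721003693) (nat_lit 684) (nat_lit 2674079910) (nat_lit 262) (nat_lit 5) (nat_lit 270) (nat_lit 5) (nat_lit 271) (nat_lit 5) (nat_lit 488) (nat_lit 434) (nat_lit 218))) (XT.nd (nat_lit 78) (nat_lit 1216) (nat_lit 0) (XT.lf (nat_lit 0) (nat_lit 757000780) (nat_lit 684) (nat_lit 2433160135) (nat_lit 76) (nat_lit 18480515551) (nat_lit 261) (nat_lit 5) (nat_lit 270) (nat_lit 5) (nat_lit 262) (nat_lit 5) (nat_lit 489) (nat_lit 434) (nat_lit 217)) (XT.nd (nat_lit 78) (nat_lit 608) (nat_lit 0) (XT.lf (nat_lit 0) (nat_lit 4316398889) (nat_lit 684) (nat_lit 12087316349) (nat_lit 76) (nat_lit 5520252543)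 (nat_lit 253) (nat_lit 5) (nat_lit 262) (nat_lit 5) (nat_lit 254) (nat_lit 5) (nat_lit 490) (nat_lit 434) (nat_lit 216)) (XT.lf (nat_lit 0) (nat_lit 177795878) (nat_lit 608) (nat_lit 7803000871) (nat_lit 684) (nat_lit 14200852750) (nat_lit 245) (nat_lit 5) (nat_lit 253) (nat_lit 5) (nat_lit 254) (nat_lit 5) (nat_lit 491) (nat_lit 434) (nat_lit 215))))) (XT.nd (nat_lit 234) (nat_lit 1216) (nat_lit 0) (XT.nd (nat_lit 78) (nat_lit 532) (nat_lit 0) (XT.lf (nat_lit 0) (nat_lit 11801571128) (nat_lit 684) (nat_lit 9603831905) (nat_lit 76) (nat_lit 1037420846) (nat_lit 245) (nat_lit 5) (nat_lit 254) (nat_lit 5) (nat_lit 246) (nat_lit 5) (nat_lit 492) (nat_lit 434) (nat_lit 214)) (XT.nd (nat_lit 78) (nat_lit 0) (nat_lit 0) (XT.lf (nat_lit 0) (nat_lit 3026131314) (nat_lit 532) (nat_lit 12739191090) (nat_lit 608) (nat_lit 6942568897) (nat_lit 238) (nat_lit 5) (nat_lit 245) (nat_lit 5) (nat_lit 246) (nat_lit 5) (nat_lit 493) (nat_lit 434)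 (nat_lit 213)) (XT.lf (nat_lit 0) (nat_lit 16032844527) (nat_lit 532) (nat_lit 3835243407) (nat_lit 608) (nat_lit 3108978118) (nat_lit 238) (nat_lit 5) (nat_lit 245) (nat_lit 5) (nat_lit 246) (nat_lit 5) (nat_lit 494) (nat_lit 434) (nat_lit 212)))) (XT.nd (nat_lit 78) (nat_lit 532) (nat_lit 0) (XT.lf (nat_lit 0) (nat_lit 860199764) (nat_lit 684) (nat_lit 17168057672) (nat_lit 76) (nat_lit 5221875064) (nat_lit 229) (nat_lit 5) (nat_lit 238) (nat_lit 5) (nat_lit 230) (nat_lit 5) (nat_lit 495) (nat_lit 434) (nat_lit 211)) (XT.nd (nat_lit 78) (nat_lit 532) (nat_lit 0) (XT.lf (nat_lit 0) (nat_lit 4934875158) (nat_lit 684) (nat_lit 4117017783) (nat_lit 76) (nat_lit 14475002189) (nat_lit 229) (nat_lit 5) (nat_lit 238) (nat_lit 5) (nat_lit 230) (nat_lit 5) (nat_lit 496) (nat_lit 434) (nat_lit 210)) (XT.lf (nat_lit 0) (nat_lit 9148053055) (nat_lit 608) (nat_lit 14497882172) (nat_lit 76) (nat_lit 162118312) (nat_lit 222) (nat_lit 5)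 (nat_lit 230) (nat_lit 5) (nat_lit 223) (nat_lit 5) (nat_lit 497) (nat_lit 434) (nat_lit 209)))))) (XT.nd (nat_lit 468) (nat_lit 1900) (nat_lit 0) (XT.nd (nat_lit 234) (nat_lit 608) (nat_lit 0) (XT.nd (nat_lit 78) (nat_lit 988) (nat_lit 0) (XT.lf (nat_lit 0) (nat_lit 13528780004) (nat_lit 608) (nat_lit 1098644762) (nat_lit 76) (nat_lit 9465745336) (nat_lit 222) (nat_lit 5) (nat_lit 230) (nat_lit 5) (nat_lit 223) (nat_lit 5) (nat_lit 498) (nat_lit 434) (nat_lit 208)) (XT.nd (nat_lit 78) (nat_lit 456) (nat_lit 0) (XT.lf (nat_lit 0) (nat_lit 12729701803) (nat_lit 532) (nat_lit 5345685890) (nat_lit 608) (nat_lit 6307036659) (nat_lit 215) (nat_lit 5) (nat_lit 222) (nat_lit 5) (nat_lit 223) (nat_lit 5) (nat_lit 499) (nat_lit 434) (nat_lit 207)) (XT.lf (nat_lit 0) (nat_lit 2167947440) (nat_lit 456) (nat_lit 20588893340) (nat_lit 532) (nat_lit 1919745311) (nat_lit 209) (nat_lit 5) (nat_lit 215) (nat_lit 5) (nat_lit 216) (nat_lit 5)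 (nat_lit 500) (nat_lit 434) (nat_lit 206)))) (XT.nd (nat_lit 78) (nat_lit 532) (nat_lit 0) (XT.lf (nat_lit 0) (nat_lit 2631568089) (nat_lit 532) (nat_lit 8610478030) (nat_lit 76) (nat_lit 13732057985) (nat_lit 208) (nat_lit 5) (nat_lit 215) (nat_lit 5) (nat_lit 209) (nat_lit 5) (nat_lit 501) (nat_lit 434) (nat_lit 205)) (XT.nd (nat_lit 78) (nat_lit 0) (nat_lit 0) (XT.lf (nat_lit 0) (nat_lit 5620879495) (nat_lit 532) (nat_lit 1659599898) (nat_lit 608) (nat_lit 17996194385) (nat_lit 201) (nat_lit 5) (nat_lit 208) (nat_lit 5) (nat_lit 209) (nat_lit 5) (nat_lit 502) (nat_lit 434) (nat_lit 204)) (XT.lf (nat_lit 0) (nat_lit 12129011575) (nat_lit 608) (nat_lit 5389433276) (nat_lit 76) (nat_lit 8064717756) (nat_lit 201) (nat_lit 5) (nat_lit 209) (nat_lit 5) (nat_lit 202) (nat_lit 5) (nat_lit 503) (nat_lit 434) (nat_lit 203))))) (XT.nd (nat_lit 234) (nat_lit 912) (nat_lit 0) (XT.nd (nat_lit 78) (nat_lit 532) (nat_lit 0) (XT.lf (nat_lit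 0) (nat_lit 9267109742) (nat_lit 456) (nat_lit 7874440542) (nat_lit 532) (nat_lit 8752890815) (nat_lit 195) (nat_lit 5) (nat_lit 201) (nat_lit 5) (nat_lit 202) (nat_lit 5) (nat_lit 504) (nat_lit 434) (nat_lit 202)) (XT.nd (nat_lit 78) (nat_lit 532) (nat_lit 0) (XT.lf (nat_lit 0) (nat_lit 22299397505) (nat_lit 532) (nat_lit 1940092788) (nat_lit 76) (nat_lit 1971554307) (nat_lit 195) (nat_lit 5) (nat_lit 202) (nat_lit 5) (nat_lit 196) (nat_lit 5) (nat_lit 505) (nat_lit 434) (nat_lit 201)) (XT.lf (nat_lit 0) (nat_lit 1147398588) (nat_lit 532) (nat_lit 13383193912) (nat_lit 76) (nat_lit 12000566180) (nat_lit 188) (nat_lit 5) (nat_lit 195) (nat_lit 5) (nat_lit 189) (nat_lit 5) (nat_lit 506) (nat_lit 434) (nat_lit 200)))) (XT.nd (nat_lit 78) (nat_lit 456) (nat_lit 0) (XT.lf (nat_lit 0) (nat_lit 1697303451) (nat_lit 456) (nat_lit 4578125561) (nat_lit 532) (nat_lit 20581325853) (nat_lit 182) (nat_lit 5) (nat_lit 188) (nat_lit 5) (nat_lit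 189) (nat_lit 5) (nat_lit 507) (nat_lit 434) (nat_lit 199)) (XT.nd (nat_lit 78) (nat_lit 456) (nat_lit 0) (XT.lf (nat_lit 0) (nat_lit 11628647056) (nat_lit 532) (nat_lit 9968689183) (nat_lit 76) (nat_lit 5589074742) (nat_lit 182) (nat_lit 5) (nat_lit 189) (nat_lit 5) (nat_lit 183) (nat_lit 5) (nat_lit 508) (nat_lit 434) (nat_lit 198)) (XT.lf (nat_lit 0) (nat_lit 5562975131) (nat_lit 456) (nat_lit 11588507083) (nat_lit 532) (nat_lit 10369927485) (nat_lit 176) (nat_lit 5) (nat_lit 182) (nat_lit 5) (nat_lit 183) (nat_lit 5) (nat_lit 509) (nat_lit 434) (nat_lit 197))))))))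
noncomputable def xc209 : XT := (XT.nd (nat_lit 55146) (nat_lit 0) (nat_lit 11020) (XT.nd (nat_lit 54210) (nat_lit 0) (nat_lit 21356) (XT.nd (nat_lit 53742) (nat_lit 0) (nat_lit 22876) (XT.nd (nat_lit 53508) (nat_lit 0) (nat_lit 22800) (XT.nd (nat_lit 78) (nat_lit 456) (nat_lit 0) (XT.lf (nat_lit 0) (nat_lit 21534883608) (nat_lit 456) (nat_lit 1312941484) (nat_lit 532) (nat_lit 5014022808) (nat_lit 176) (nat_lit 5) (nat_lit 182) (nat_lit 5) (nat_lit 183) (nat_lit 5) (nat_lit 510) (nat_lit 434) (nat_lit 196)) (XT.lf (nat_lit 0) (nat_lit 562485297) (nat_lit 456) (nat_lit 18531345920) (nat_lit 76) (nat_lit 9112818367) (nat_lit 170) (nat_lit 5) (nat_lit 176) (nat_lit 5) (nat_lit 171) (nat_lit 5) (nat_lit 511) (nat_lit 434) (nat_lit 195))) (XT.nd (nat_lit 78) (nat_lit 0) (nat_lit 0) (XT.lf (nat_lit 0) (nat_lit 3906619350) (nat_lit 1748) (nat_lit 1144250991) (nat_lit 1748) (nat_lit 1144250991) (nat_lit 470) (nat_lit 3) (nat_lit 493)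 (nat_lit 3) (nat_lit 493) (nat_lit 5) (nat_lit 435) (nat_lit 435) (nat_lit 270)) (XT.nd (nat_lit 78) (nat_lit 0) (nat_lit 76) (XT.lf (nat_lit 76) (nat_lit 3788015484) (nat_lit 0) (nat_lit 4566136606) (nat_lit 1748) (nat_lit 4150637624) (nat_lit 471) (nat_lit 5) (nat_lit 470) (nat_lit 3) (nat_lit 493) (nat_lit 5) (nat_lit 436) (nat_lit 435) (nat_lit 269)) (XT.lf (nat_lit 0) (nat_lit 8916859682) (nat_lit 1672) (nat_lit 2617561593) (nat_lit 1748) (nat_lit 1086989531) (nat_lit 471) (nat_lit 5) (nat_lit 493) (nat_lit 5) (nat_lit 494) (nat_lit 5) (nat_lit 437) (nat_lit 435) (nat_lit 268))))) (XT.nd (nat_lit 234) (nat_lit 0) (nat_lit 76) (XT.nd (nat_lit 78) (nat_lit 0) (nat_lit 0) (XT.lf (nat_lit 76) (nat_lit 3614714765) (nat_lit 0) (nat_lit 5918544448) (nat_lit 1748) (nat_lit 3206258915) (nat_lit 472) (nat_lit 5) (nat_lit 471) (nat_lit 5) (nat_lit 494) (nat_lit 5) (nat_lit 438) (nat_lit 435) (nat_lit 267)) (XT.nd (nat_lit 78) (nat_lit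 0) (nat_lit 76) (XT.lf (nat_lit 76) (nat_lit 10001069594) (nat_lit 0) (nat_lit 167393424) (nat_lit 1748) (nat_lit 2691397567) (nat_lit 472) (nat_lit 5) (nat_lit 471) (nat_lit 5) (nat_lit 494) (nat_lit 5) (nat_lit 439) (nat_lit 435) (nat_lit 266)) (XT.lf (nat_lit 76) (nat_lit 3535730943) (nat_lit 0) (nat_lit 7329757112) (nat_lit 1748) (nat_lit 2116141960) (nat_lit 473) (nat_lit 5) (nat_lit 472) (nat_lit 5) (nat_lit 495) (nat_lit 5) (nat_lit 440) (nat_lit 435) (nat_lit 265)))) (XT.nd (nat_lit 78) (nat_lit 0) (nat_lit 76) (XT.lf (nat_lit 76) (nat_lit 10089630188) (nat_lit 0) (nat_lit 1496441912) (nat_lit 1748) (nat_lit 1519572780) (nat_lit 473) (nat_lit 5) (nat_lit 472) (nat_lit 5) (nat_lit 495) (nat_lit 5) (nat_lit 441) (nat_lit 435) (nat_lit 264)) (XT.nd (nat_lit 78) (nat_lit 0) (nat_lit 0) (XT.lf (nat_lit 76) (nat_lit 3553900686) (nat_lit 0) (nat_lit 8808727954) (nat_lit 1748) (nat_lit 868682557) (nat_lit 474) (nat_lit 5) (nat_lit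 473) (nat_lit 5) (nat_lit 496) (nat_lit 5) (nat_lit 442) (nat_lit 435) (nat_lit 263)) (XT.lf (nat_lit 76) (nat_lit 10279835128) (nat_lit 0) (nat_lit 2894700543) (nat_lit 1748) (nat_lit 184561106) (nat_lit 474) (nat_lit 5) (nat_lit 473) (nat_lit 5) (nat_lit 496) (nat_lit 5) (nat_lit 443) (nat_lit 435) (nat_lit 262)))))) (XT.nd (nat_lit 468) (nat_lit 0) (nat_lit 152) (XT.nd (nat_lit 234) (nat_lit 0) (nat_lit 76) (XT.nd (nat_lit 78) (nat_lit 0) (nat_lit 0) (XT.lf (nat_lit 0) (nat_lit 540912434) (nat_lit 1748) (nat_lit 9820001152) (nat_lit 1824) (nat_lit 3127772049) (nat_lit 451) (nat_lit 5) (nat_lit 474) (nat_lit 5) (nat_lit 475) (nat_lit 5) (nat_lit 444) (nat_lit 435) (nat_lit 261)) (XT.nd (nat_lit 78) (nat_lit 0) (nat_lit 76) (XT.lf (nat_lit 0) (nat_lit 1308447668) (nat_lit 1748) (nat_lit 3054072882) (nat_lit 1824) (nat_lit 9257723042) (nat_lit 451) (nat_lit 5) (nat_lit 474) (nat_lit 5) (nat_lit 475) (nat_lit 5) (nat_lit 445)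 (nat_lit 435) (nat_lit 260)) (XT.lf (nat_lit 0) (nat_lit 2118438197) (nat_lit 1748) (nat_lit 9873791656) (nat_lit 1824) (nat_lit 1761662909) (nat_lit 452) (nat_lit 5) (nat_lit 475) (nat_lit 5) (nat_lit 476) (nat_lit 5) (nat_lit 446) (nat_lit 435) (nat_lit 259)))) (XT.nd (nat_lit 78) (nat_lit 0) (nat_lit 76) (XT.lf (nat_lit 0) (nat_lit 2984567737) (nat_lit 1748) (nat_lit 2930943225) (nat_lit 1824) (nat_lit 7973907276) (nat_lit 452) (nat_lit 5) (nat_lit 475) (nat_lit 5) (nat_lit 476) (nat_lit 5) (nat_lit 447) (nat_lit 435) (nat_lit 258)) (XT.nd (nat_lit 78) (nat_lit 0) (nat_lit 0) (XT.lf (nat_lit 0) (nat_lit 3887927975) (nat_lit 1748) (nat_lit 9829837748) (nat_lit 1824) (nat_lit 309492399) (nat_lit 453) (nat_lit 5) (nat_lit 476) (nat_lit 5) (nat_lit 477) (nat_lit 5) (nat_lit 448) (nat_lit 435) (nat_lit 257)) (XT.lf (nat_lit 0) (nat_lit 4859097908) (nat_lit 1748) (nat_lit 2705192882) (nat_lit 1824) (nat_lit 6602571188) (nat_lit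 453) (nat_lit 5) (nat_lit 476) (nat_lit 5) (nat_lit 477) (nat_lit 5) (nat_lit 449) (nat_lit 435) (nat_lit 256))))) (XT.nd (nat_lit 234) (nat_lit 0) (nat_lit 152) (XT.nd (nat_lit 78) (nat_lit 0) (nat_lit 76) (XT.lf (nat_lit 76) (nat_lit 4616106963) (nat_lit 0) (nat_lit 1254504611) (nat_lit 1824) (nat_lit 8438229913) (nat_lit 454) (nat_lit 5) (nat_lit 453) (nat_lit 5) (nat_lit 477) (nat_lit 5) (nat_lit 450) (nat_lit 435) (nat_lit 255)) (XT.nd (nat_lit 78) (nat_lit 0) (nat_lit 0) (XT.lf (nat_lit 0) (nat_lit 6945373145) (nat_lit 1748) (nat_lit 2373090906) (nat_lit 1824) (nat_lit 5134338126) (nat_lit 454) (nat_lit 5) (nat_lit 477) (nat_lit 5) (nat_lit 478) (nat_lit 5) (nat_lit 451) (nat_lit 435) (nat_lit 254)) (XT.lf (nat_lit 76) (nat_lit 5145718765) (nat_lit 0) (nat_lit 2928905593) (nat_lit 1824) (nat_lit 6524359741) (nat_lit 455) (nat_lit 5) (nat_lit 454) (nat_lit 5) (nat_lit 478) (nat_lit 5) (nat_lit 452) (nat_lit 435) (nat_lit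 253)))) (XT.nd (nat_lit 78) (nat_lit 0) (nat_lit 0) (XT.lf (nat_lit 0) (nat_lit 9257210518) (nat_lit 1748) (nat_lit 1930654618) (nat_lit 1824) (nat_lit 3559611395) (nat_lit 455) (nat_lit 5) (nat_lit 478) (nat_lit 5) (nat_lit 479) (nat_lit 5) (nat_lit 453) (nat_lit 435) (nat_lit 252)) (XT.nd (nat_lit 78) (nat_lit 0) (nat_lit 76) (XT.lf (nat_lit 76) (nat_lit 5792558571) (nat_lit 0) (nat_lit 4719485111) (nat_lit 1824) (nat_lit 4385925054) (nat_lit 456) (nat_lit 5) (nat_lit 455) (nat_lit 5) (nat_lit 479) (nat_lit 5) (nat_lit 454) (nat_lit 435) (nat_lit 251)) (XT.lf (nat_lit 0) (nat_lit 11808935226) (nat_lit 1748) (nat_lit 1373646959) (nat_lit 1824) (nat_lit 1868551165) (nat_lit 456) (nat_lit 5) (nat_lit 479) (nat_lit 5) (nat_lit 480) (nat_lit 5) (nat_lit 455) (nat_lit 435) (nat_lit 250))))))) (XT.nd (nat_lit 936) (nat_lit 4864) (nat_lit 0) (XT.nd (nat_lit 468) (nat_lit 2736) (nat_lit 0) (XT.nd (nat_lit 234) (nat_lit 1368) (nat_lit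 0) (XT.nd (nat_lit 78) (nat_lit 1748) (nat_lit 0) (XT.lf (nat_lit 76) (nat_lit 6561114372) (nat_lit 0) (nat_lit 6636391731) (nat_lit 1824) (nat_lit 2008542081) (nat_lit 457) (nat_lit 5) (nat_lit 456) (nat_lit 5) (nat_lit 480) (nat_lit 5) (nat_lit 456) (nat_lit 435) (nat_lit 249)) (XT.nd (nat_lit 78) (nat_lit 1824) (nat_lit 0) (XT.lf (nat_lit 0) (nat_lit 14615407263) (nat_lit 1748) (nat_lit 697573517) (nat_lit 1824) (nat_lit 51051084) (nat_lit 457) (nat_lit 5) (nat_lit 480) (nat_lit 5) (nat_lit 481) (nat_lit 5) (nat_lit 457) (nat_lit 435) (nat_lit 248)) (XT.lf (nat_lit 0) (nat_lit 614545093) (nat_lit 1824) (nat_lit 8071389876) (nat_lit 1900) (nat_lit 6837470443) (nat_lit 433) (nat_lit 5) (nat_lit 457) (nat_lit 5) (nat_lit 458) (nat_lit 5) (nat_lit 458) (nat_lit 435) (nat_lit 247)))) (XT.nd (nat_lit 78) (nat_lit 1368) (nat_lit 0) (XT.lf (nat_lit 76) (nat_lit 77713742) (nat_lit 0) (nat_lit 1914697726) (nat_lit 1900) (nat_lit 13693508475)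 (nat_lit 434) (nat_lit 5) (nat_lit 433) (nat_lit 5) (nat_lit 458) (nat_lit 5) (nat_lit 459) (nat_lit 435) (nat_lit 246)) (XT.nd (nat_lit 78) (nat_lit 1444) (nat_lit 0) (XT.lf (nat_lit 0) (nat_lit 3477117877) (nat_lit 1824) (nat_lit 7390778000) (nat_lit 76) (nat_lit 4982204827) (nat_lit 434) (nat_lit 5) (nat_lit 458) (nat_lit 5) (nat_lit 435) (nat_lit 5) (nat_lit 460) (nat_lit 435) (nat_lit 245)) (XT.lf (nat_lit 0) (nat_lit 984747604) (nat_lit 1444) (nat_lit 4018344163) (nat_lit 1520) (nat_lit 11014243411) (nat_lit 415) (nat_lit 5) (nat_lit 434) (nat_lit 5) (nat_lit 435) (nat_lit 5) (nat_lit 461) (nat_lit 435) (nat_lit 244))))) (XT.nd (nat_lit 234) (nat_lit 1824) (nat_lit 0) (XT.nd (nat_lit 78) (nat_lit 912) (nat_lit 0) (XT.lf (nat_lit 0) (nat_lit 6621392119) (nat_lit 1520) (nat_lit 6585153851) (nat_lit 76) (nat_lit 2980133763) (nat_lit 415) (nat_lit 5) (nat_lit 435) (nat_lit 5) (nat_lit 416) (nat_lit 5) (nat_lit 462) (nat_lit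 435) (nat_lit 243)) (XT.nd (nat_lit 78) (nat_lit 0) (nat_lit 0) (XT.lf (nat_lit 0) (nat_lit 2024701587) (nat_lit 912) (nat_lit 6279870040) (nat_lit 988) (nat_lit 8054190792) (nat_lit 403) (nat_lit 5) (nat_lit 415) (nat_lit 5) (nat_lit 416) (nat_lit 5) (nat_lit 463) (nat_lit 435) (nat_lit 242)) (XT.lf (nat_lit 0) (nat_lit 10063857025) (nat_lit 988) (nat_lit 5649353099) (nat_lit 76) (nat_lit 820229265) (nat_lit 403) (nat_lit 5) (nat_lit 416) (nat_lit 5) (nat_lit 404) (nat_lit 5) (nat_lit 464) (nat_lit 435) (nat_lit 241)))) (XT.nd (nat_lit 78) (nat_lit 912) (nat_lit 0) (XT.lf (nat_lit 0) (nat_lit 3203021219) (nat_lit 912) (nat_lit 8710692432) (nat_lit 988) (nat_lit 4796789979) (nat_lit 391) (nat_lit 5) (nat_lit 403) (nat_lit 5) (nat_lit 404) (nat_lit 5) (nat_lit 465) (nat_lit 435) (nat_lit 240)) (XT.nd (nat_lit 78) (nat_lit 912) (nat_lit 0) (XT.lf (nat_lit 0) (nat_lit 12302616681) (nat_lit 912) (nat_lit 1528957357) (nat_lit 988)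 (nat_lit 3058916403) (nat_lit 391) (nat_lit 5) (nat_lit 403) (nat_lit 5) (nat_lit 404) (nat_lit 5) (nat_lit 466) (nat_lit 435) (nat_lit 239)) (XT.lf (nat_lit 0) (nat_lit 4525425528) (nat_lit 912) (nat_lit 11322617354) (nat_lit 988) (nat_lit 1224830468) (nat_lit 379) (nat_lit 5) (nat_lit 391) (nat_lit 5) (nat_lit 392) (nat_lit 5) (nat_lit 467) (nat_lit 435) (nat_lit 238)))))) (XT.nd (nat_lit 468) (nat_lit 2356) (nat_lit 0) (XT.nd (nat_lit 234) (nat_lit 1596) (nat_lit 0) (XT.nd (nat_lit 78) (nat_lit 836) (nat_lit 0) (XT.lf (nat_lit 0) (nat_lit 671862817) (nat_lit 988) (nat_lit 3396098375) (nat_lit 76) (nat_lit 13190172238) (nat_lit 378) (nat_lit 5) (nat_lit 391) (nat_lit 5) (nat_lit 379) (nat_lit 5) (nat_lit 468) (nat_lit 435) (nat_lit 237)) (XT.nd (nat_lit 78) (nat_lit 0) (nat_lit 0) (XT.lf (nat_lit 0) (nat_lit 2644435439) (nat_lit 912) (nat_lit 11465685296) (nat_lit 76) (nat_lit 3335730445) (nat_lit 367) (nat_lit 5) (nat_lit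 379) (nat_lit 5) (nat_lit 368) (nat_lit 5) (nat_lit 469) (nat_lit 435) (nat_lit 236)) (XT.lf (nat_lit 0) (nat_lit 4699842240) (nat_lit 912) (nat_lit 2080399708) (nat_lit 76) (nat_lit 10856214965) (nat_lit 367) (nat_lit 5) (nat_lit 379) (nat_lit 5) (nat_lit 368) (nat_lit 5) (nat_lit 470) (nat_lit 435) (nat_lit 235)))) (XT.nd (nat_lit 78) (nat_lit 760) (nat_lit 0) (XT.lf (nat_lit 0) (nat_lit 6844085534) (nat_lit 912) (nat_lit 10249090487) (nat_lit 76) (nat_lit 736745430) (nat_lit 356) (nat_lit 5) (nat_lit 368) (nat_lit 5) (nat_lit 357) (nat_lit 5) (nat_lit 471) (nat_lit 435) (nat_lit 234)) (XT.nd (nat_lit 78) (nat_lit 760) (nat_lit 0) (XT.lf (nat_lit 0) (nat_lit 9083882842) (nat_lit 912) (nat_lit 614875269) (nat_lit 76) (nat_lit 8327445018) (nat_lit 356) (nat_lit 5) (nat_lit 368) (nat_lit 5) (nat_lit 357) (nat_lit 5) (nat_lit 472) (nat_lit 435) (nat_lit 233)) (XT.lf (nat_lit 0) (nat_lit 9328098155) (nat_lit 760) (nat_lit 2094779252)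 (nat_lit 836) (nat_lit 6802446217) (nat_lit 346) (nat_lit 5) (nat_lit 356) (nat_lit 5) (nat_lit 357) (nat_lit 5) (nat_lit 473) (nat_lit 435) (nat_lit 232))))) (XT.nd (nat_lit 234) (nat_lit 760) (nat_lit 0) (XT.nd (nat_lit 78) (nat_lit 836) (nat_lit 0) (XT.lf (nat_lit 0) (nat_lit 1020170985) (nat_lit 760) (nat_lit 12829931362) (nat_lit 836) (nat_lit 4577496357) (nat_lit 336) (nat_lit 5) (nat_lit 346) (nat_lit 5) (nat_lit 347) (nat_lit 5) (nat_lit 474) (nat_lit 435) (nat_lit 231)) (XT.nd (nat_lit 78) (nat_lit 836) (nat_lit 0) (XT.lf (nat_lit 0) (nat_lit 11236157812) (nat_lit 760) (nat_lit 5157195443) (nat_lit 836) (nat_lit 2239217562) (nat_lit 336) (nat_lit 5) (nat_lit 346) (nat_lit 5) (nat_lit 347) (nat_lit 5) (nat_lit 475) (nat_lit 435) (nat_lit 230)) (XT.lf (nat_lit 0) (nat_lit 173913322) (nat_lit 836) (nat_lit 16013903072) (nat_lit 76) (nat_lit 2653208180) (nat_lit 325) (nat_lit 5) (nat_lit 336) (nat_lit 5) (nat_lit 326)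 (nat_lit 5) (nat_lit 476) (nat_lit 435) (nat_lit 229)))) (XT.nd (nat_lit 78) (nat_lit 760) (nat_lit 0) (XT.lf (nat_lit 0) (nat_lit 2683613910) (nat_lit 836) (nat_lit 5752914802) (nat_lit 76) (nat_lit 10615257958) (nat_lit 325) (nat_lit 5) (nat_lit 336) (nat_lit 5) (nat_lit 326) (nat_lit 5) (nat_lit 477) (nat_lit 435) (nat_lit 228)) (XT.nd (nat_lit 78) (nat_lit 0) (nat_lit 0) (XT.lf (nat_lit 0) (nat_lit 4769636569) (nat_lit 760) (nat_lit 499100414) (nat_lit 836) (nat_lit 13997523529) (nat_lit 315) (nat_lit 5) (nat_lit 325) (nat_lit 5) (nat_lit 326) (nat_lit 5) (nat_lit 478) (nat_lit 435) (nat_lit 227)) (XT.lf (nat_lit 0) (nat_lit 7988078556) (nat_lit 836) (nat_lit 3959492966) (nat_lit 76) (nat_lit 7535803042) (nat_lit 315) (nat_lit 5) (nat_lit 326) (nat_lit 5) (nat_lit 316) (nat_lit 5) (nat_lit 479) (nat_lit 435) (nat_lit 226))))))))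
noncomputable def xc210 : XT := (XT.nd (nat_lit 1794) (nat_lit 2432) (nat_lit 0) (XT.nd (nat_lit 858) (nat_lit 4028) (nat_lit 0) (XT.nd (nat_lit 390) (nat_lit 1976) (nat_lit 0) (XT.nd (nat_lit 156) (nat_lit 1444) (nat_lit 0) (XT.nd (nat_lit 78) (nat_lit 0) (nat_lit 0) (XT.lf (nat_lit 0) (nat_lit 6869005179) (nat_lit 684) (nat_lit 3935146422) (nat_lit 760) (nat_lit 8899833434) (nat_lit 306) (nat_lit 5) (nat_lit 315) (nat_lit 5) (nat_lit 316) (nat_lit 5) (nat_lit 480) (nat_lit 435) (nat_lit 225)) (XT.lf (nat_lit 0) (nat_lit 13725311588) (nat_lit 760) (nat_lit 1994644447) (nat_lit 76) (nat_lit 4208077381) (nat_lit 306) (nat_lit 5) (nat_lit 316) (nat_lit 5) (nat_lit 307) (nat_lit 5) (nat_lit 481) (nat_lit 435) (nat_lit 224))) (XT.nd (nat_lit 78) (nat_lit 760) (nat_lit 0) (XT.lf (nat_lit 0) (nat_lit 9150342946) (nat_lit 684) (nat_lit 7634636613) (nat_lit 760) (nat_lit 3369982503) (nat_lit 297) (nat_lit 5) (nat_lit 306) (nat_lit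 5) (nat_lit 307) (nat_lit 5) (nat_lit 482) (nat_lit 435) (nat_lit 223)) (XT.nd (nat_lit 78) (nat_lit 76) (nat_lit 0) (XT.lf (nat_lit 0) (nat_lit 150855315) (nat_lit 684) (nat_lit 19768090361) (nat_lit 760) (nat_lit 467222481) (nat_lit 288) (nat_lit 5) (nat_lit 297) (nat_lit 5) (nat_lit 298) (nat_lit 5) (nat_lit 483) (nat_lit 435) (nat_lit 222)) (XT.lf (nat_lit 0) (nat_lit 2580489571) (nat_lit 760) (nat_lit 9015347001) (nat_lit 76) (nat_lit 9023446920) (nat_lit 287) (nat_lit 5) (nat_lit 297) (nat_lit 5) (nat_lit 288) (nat_lit 5) (nat_lit 484) (nat_lit 435) (nat_lit 221))))) (XT.nd (nat_lit 234) (nat_lit 684) (nat_lit 0) (XT.nd (nat_lit 78) (nat_lit 608) (nat_lit 0) (XT.lf (nat_lit 0) (nat_lit 2452008292) (nat_lit 684) (nat_lit 3241625613) (nat_lit 760) (nat_lit 15163151695) (nat_lit 278) (nat_lit 5) (nat_lit 287) (nat_lit 5) (nat_lit 288) (nat_lit 5) (nat_lit 485) (nat_lit 435) (nat_lit 220)) (XT.nd (nat_lit 78) (nat_lit 608)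 (nat_lit 0) (XT.lf (nat_lit 0) (nat_lit 8959083597) (nat_lit 760) (nat_lit 6867723315) (nat_lit 76) (nat_lit 5270430887) (nat_lit 278) (nat_lit 5) (nat_lit 288) (nat_lit 5) (nat_lit 279) (nat_lit 5) (nat_lit 486) (nat_lit 435) (nat_lit 219)) (XT.lf (nat_lit 0) (nat_lit 4937346611) (nat_lit 608) (nat_lit 7400985588) (nat_lit 684) (nat_lit 9003197925) (nat_lit 270) (nat_lit 5) (nat_lit 278) (nat_lit 5) (nat_lit 279) (nat_lit 5) (nat_lit 487) (nat_lit 435) (nat_lit 218)))) (XT.nd (nat_lit 78) (nat_lit 684) (nat_lit 0) (XT.lf (nat_lit 0) (nat_lit 15834324180) (nat_lit 684) (nat_lit 4532294020) (nat_lit 76) (nat_lit 1223107790) (nat_lit 270) (nat_lit 5) (nat_lit 279) (nat_lit 5) (nat_lit 271) (nat_lit 5) (nat_lit 488) (nat_lit 435) (nat_lit 217)) (XT.nd (nat_lit 78) (nat_lit 76) (nat_lit 0) (XT.lf (nat_lit 0) (nat_lit 7622037505) (nat_lit 608) (nat_lit 11871815760) (nat_lit 684) (nat_lit 2347161009) (nat_lit 262) (nat_lit 5) (nat_lit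 270) (nat_lit 5) (nat_lit 271) (nat_lit 5) (nat_lit 489) (nat_lit 435) (nat_lit 216)) (XT.lf (nat_lit 0) (nat_lit 1140191264) (nat_lit 684) (nat_lit 2029334423) (nat_lit 76) (nat_lit 18927141679) (nat_lit 261) (nat_lit 5) (nat_lit 270) (nat_lit 5) (nat_lit 262) (nat_lit 5) (nat_lit 490) (nat_lit 435) (nat_lit 215)))))) (XT.nd (nat_lit 468) (nat_lit 1596) (nat_lit 0) (XT.nd (nat_lit 234) (nat_lit 1216) (nat_lit 0) (XT.nd (nat_lit 78) (nat_lit 608) (nat_lit 0) (XT.lf (nat_lit 0) (nat_lit 4767035998) (nat_lit 684) (nat_lit 11872772012) (nat_lit 76) (nat_lit 5715292531) (nat_lit 253) (nat_lit 5) (nat_lit 262) (nat_lit 5) (nat_lit 254) (nat_lit 5) (nat_lit 491) (nat_lit 435) (nat_lit 214)) (XT.nd (nat_lit 78) (nat_lit 0) (nat_lit 0) (XT.lf (nat_lit 0) (nat_lit 634640548) (nat_lit 608) (nat_lit 7865881003) (nat_lit 684) (nat_lit 14117499534) (nat_lit 245) (nat_lit 5) (nat_lit 253) (nat_lit 5) (nat_lit 254) (nat_lit 5) (nat_lit 492)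 (nat_lit 435) (nat_lit 213)) (XT.lf (nat_lit 0) (nat_lit 12391243582) (nat_lit 684) (nat_lit 9344981905) (nat_lit 76) (nat_lit 1148323983) (nat_lit 245) (nat_lit 5) (nat_lit 254) (nat_lit 5) (nat_lit 246) (nat_lit 5) (nat_lit 493) (nat_lit 435) (nat_lit 212)))) (XT.nd (nat_lit 78) (nat_lit 684) (nat_lit 0) (XT.lf (nat_lit 0) (nat_lit 3534613956) (nat_lit 532) (nat_lit 12895630243) (nat_lit 608) (nat_lit 6724755693) (nat_lit 238) (nat_lit 5) (nat_lit 245) (nat_lit 5) (nat_lit 246) (nat_lit 5) (nat_lit 494) (nat_lit 435) (nat_lit 211)) (XT.nd (nat_lit 78) (nat_lit 684) (nat_lit 0) (XT.lf (nat_lit 0) (nat_lit 16792677903) (nat_lit 532) (nat_lit 3815531933) (nat_lit 608) (nat_lit 2821486522) (nat_lit 238) (nat_lit 5) (nat_lit 245) (nat_lit 5) (nat_lit 246) (nat_lit 5) (nat_lit 495) (nat_lit 435) (nat_lit 210)) (XT.lf (nat_lit 0) (nat_lit 1219232562) (nat_lit 684) (nat_lit 17064291623) (nat_lit 76) (nat_lit 5424720745) (nat_lit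 229) (nat_lit 5) (nat_lit 238) (nat_lit 5) (nat_lit 230) (nat_lit 5) (nat_lit 496) (nat_lit 435) (nat_lit 209))))) (XT.nd (nat_lit 234) (nat_lit 1064) (nat_lit 0) (XT.nd (nat_lit 78) (nat_lit 532) (nat_lit 0) (XT.lf (nat_lit 0) (nat_lit 5368698939) (nat_lit 684) (nat_lit 3760998136) (nat_lit 76) (nat_lit 14860980839) (nat_lit 229) (nat_lit 5) (nat_lit 238) (nat_lit 5) (nat_lit 230) (nat_lit 5) (nat_lit 497) (nat_lit 435) (nat_lit 208)) (XT.nd (nat_lit 78) (nat_lit 0) (nat_lit 0) (XT.lf (nat_lit 0) (nat_lit 9663072534) (nat_lit 608) (nat_lit 14346360392) (nat_lit 76) (nat_lit 268088955) (nat_lit 222) (nat_lit 5) (nat_lit 230) (nat_lit 5) (nat_lit 223) (nat_lit 5) (nat_lit 498) (nat_lit 435) (nat_lit 207)) (XT.lf (nat_lit 0) (nat_lit 14124903072) (nat_lit 608) (nat_lit 687794693) (nat_lit 76) (nat_lit 9755774240) (nat_lit 222) (nat_lit 5) (nat_lit 230) (nat_lit 5) (nat_lit 223) (nat_lit 5) (nat_lit 499) (nat_lit 435) (nat_lit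 206)))) (XT.nd (nat_lit 78) (nat_lit 532) (nat_lit 0) (XT.lf (nat_lit 0) (nat_lit 13414271284) (nat_lit 532) (nat_lit 5344580033) (nat_lit 608) (nat_lit 6104732846) (nat_lit 215) (nat_lit 5) (nat_lit 222) (nat_lit 5) (nat_lit 223) (nat_lit 5) (nat_lit 500) (nat_lit 435) (nat_lit 205)) (XT.nd (nat_lit 78) (nat_lit 76) (nat_lit 0) (XT.lf (nat_lit 0) (nat_lit 2644202315) (nat_lit 456) (nat_lit 20886916521) (nat_lit 532) (nat_lit 1632567564) (nat_lit 209) (nat_lit 5) (nat_lit 215) (nat_lit 5) (nat_lit 216) (nat_lit 5) (nat_lit 501) (nat_lit 435) (nat_lit 204)) (XT.lf (nat_lit 0) (nat_lit 2999202106) (nat_lit 532) (nat_lit 8354046900) (nat_lit 76) (nat_lit 14113990427) (nat_lit 208) (nat_lit 5) (nat_lit 215) (nat_lit 5) (nat_lit 209) (nat_lit 5) (nat_lit 502) (nat_lit 435) (nat_lit 203))))))) (XT.nd (nat_lit 54444) (nat_lit 0) (nat_lit 20824) (XT.nd (nat_lit 468) (nat_lit 456) (nat_lit 0) (XT.nd (nat_lit 234) (nat_lit 988) (nat_lit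 0) (XT.nd (nat_lit 78) (nat_lit 456) (nat_lit 0) (XT.lf (nat_lit 0) (nat_lit 6159117772) (nat_lit 532) (nat_lit 1578562052) (nat_lit 608) (nat_lit 18038249827) (nat_lit 201) (nat_lit 5) (nat_lit 208) (nat_lit 5) (nat_lit 209) (nat_lit 5) (nat_lit 503) (nat_lit 435) (nat_lit 202)) (XT.nd (nat_lit 78) (nat_lit 456) (nat_lit 0) (XT.lf (nat_lit 0) (nat_lit 12677800139) (nat_lit 608) (nat_lit 5074323282) (nat_lit 76) (nat_lit 8336533384) (nat_lit 201) (nat_lit 5) (nat_lit 209) (nat_lit 5) (nat_lit 202) (nat_lit 5) (nat_lit 504) (nat_lit 435) (nat_lit 201)) (XT.lf (nat_lit 0) (nat_lit 9872568368) (nat_lit 456) (nat_lit 7914744844) (nat_lit 532) (nat_lit 8618914064) (nat_lit 195) (nat_lit 5) (nat_lit 201) (nat_lit 5) (nat_lit 202) (nat_lit 5) (nat_lit 505) (nat_lit 435) (nat_lit 200)))) (XT.nd (nat_lit 78) (nat_lit 988) (nat_lit 0) (XT.lf (nat_lit 0) (nat_lit 23043123457) (nat_lit 532) (nat_lit 1561778725) (nat_lit 76) (nat_lit 2124365406)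 (nat_lit 195) (nat_lit 5) (nat_lit 202) (nat_lit 5) (nat_lit 196) (nat_lit 5) (nat_lit 506) (nat_lit 435) (nat_lit 199)) (XT.nd (nat_lit 78) (nat_lit 456) (nat_lit 0) (XT.lf (nat_lit 0) (nat_lit 1466929611) (nat_lit 532) (nat_lit 13232503154) (nat_lit 76) (nat_lit 12356375959) (nat_lit 188) (nat_lit 5) (nat_lit 195) (nat_lit 5) (nat_lit 189) (nat_lit 5) (nat_lit 507) (nat_lit 435) (nat_lit 198)) (XT.lf (nat_lit 0) (nat_lit 2146851823) (nat_lit 456) (nat_lit 4547551832) (nat_lit 532) (nat_lit 20693576330) (nat_lit 182) (nat_lit 5) (nat_lit 188) (nat_lit 5) (nat_lit 189) (nat_lit 5) (nat_lit 508) (nat_lit 435) (nat_lit 197))))) (XT.nd (nat_lit 53742) (nat_lit 0) (nat_lit 22344) (XT.nd (nat_lit 78) (nat_lit 456) (nat_lit 0) (XT.lf (nat_lit 0) (nat_lit 12149709263) (nat_lit 532) (nat_lit 9755593074) (nat_lit 76) (nat_lit 5819027219) (nat_lit 182) (nat_lit 5) (nat_lit 189) (nat_lit 5) (nat_lit 183) (nat_lit 5) (nat_lit 509) (nat_lit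 435) (nat_lit 196)) (XT.nd (nat_lit 53586) (nat_lit 0) (nat_lit 22344) (XT.lf (nat_lit 0) (nat_lit 6083990909) (nat_lit 456) (nat_lit 11696013974) (nat_lit 532) (nat_lit 10286084074) (nat_lit 176) (nat_lit 5) (nat_lit 182) (nat_lit 5) (nat_lit 183) (nat_lit 5) (nat_lit 510) (nat_lit 435) (nat_lit 195)) (XT.lf (nat_lit 0) (nat_lit 4420093433) (nat_lit 1748) (nat_lit 945062192) (nat_lit 1748) (nat_lit 945062192) (nat_lit 470) (nat_lit 3) (nat_lit 493) (nat_lit 3) (nat_lit 493) (nat_lit 5) (nat_lit 436) (nat_lit 436) (nat_lit 268)))) (XT.nd (nat_lit 78) (nat_lit 0) (nat_lit 76) (XT.lf (nat_lit 76) (nat_lit 4305001407) (nat_lit 0) (nat_lit 5072709624) (nat_lit 1748) (nat_lit 3359850632) (nat_lit 471) (nat_lit 5) (nat_lit 470) (nat_lit 3) (nat_lit 493) (nat_lit 5) (nat_lit 437) (nat_lit 436) (nat_lit 267)) (XT.nd (nat_lit 78) (nat_lit 0) (nat_lit 0) (XT.lf (nat_lit 0) (nat_lit 9932235913) (nat_lit 1672) (nat_lit 2217711316) (nat_lit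 1748) (nat_lit 706960495) (nat_lit 471) (nat_lit 5) (nat_lit 493) (nat_lit 5) (nat_lit 494) (nat_lit 5) (nat_lit 438) (nat_lit 436) (nat_lit 266)) (XT.lf (nat_lit 76) (nat_lit 4136235559) (nat_lit 0) (nat_lit 6411232021) (nat_lit 1748) (nat_lit 2430183264) (nat_lit 472) (nat_lit 5) (nat_lit 471) (nat_lit 5) (nat_lit 494) (nat_lit 5) (nat_lit 439) (nat_lit 436) (nat_lit 265)))))) (XT.nd (nat_lit 468) (nat_lit 0) (nat_lit 76) (XT.nd (nat_lit 234) (nat_lit 1596) (nat_lit 0) (XT.nd (nat_lit 78) (nat_lit 0) (nat_lit 76) (XT.lf (nat_lit 76) (nat_lit 10641509123) (nat_lit 0) (nat_lit 537718435) (nat_lit 1748) (nat_lit 1921499215) (nat_lit 472) (nat_lit 5) (nat_lit 471) (nat_lit 5) (nat_lit 494) (nat_lit 5) (nat_lit 440) (nat_lit 436) (nat_lit 264)) (XT.nd (nat_lit 78) (nat_lit 0) (nat_lit 0) (XT.lf (nat_lit 76) (nat_lit 4062556778) (nat_lit 0) (nat_lit 7812430473) (nat_lit 1748) (nat_lit 1350252047) (nat_lit 473) (nat_lit 5) (nat_lit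 472) (nat_lit 5) (nat_lit 495) (nat_lit 5) (nat_lit 441) (nat_lit 436) (nat_lit 263)) (XT.lf (nat_lit 76) (nat_lit 10738590651) (nat_lit 0) (nat_lit 1855859200) (nat_lit 1748) (nat_lit 757598793) (nat_lit 473) (nat_lit 5) (nat_lit 472) (nat_lit 5) (nat_lit 495) (nat_lit 5) (nat_lit 442) (nat_lit 436) (nat_lit 262)))) (XT.nd (nat_lit 78) (nat_lit 1748) (nat_lit 0) (XT.lf (nat_lit 76) (nat_lit 4086935634) (nat_lit 0) (nat_lit 9285275352) (nat_lit 1748) (nat_lit 108307282) (nat_lit 474) (nat_lit 5) (nat_lit 473) (nat_lit 5) (nat_lit 496) (nat_lit 5) (nat_lit 443) (nat_lit 436) (nat_lit 261)) (XT.nd (nat_lit 78) (nat_lit 0) (nat_lit 76) (XT.lf (nat_lit 0) (nat_lit 566715270) (nat_lit 1748) (nat_lit 2676559501) (nat_lit 1824) (nat_lit 10367812556) (nat_lit 450) (nat_lit 5) (nat_lit 473) (nat_lit 5) (nat_lit 474) (nat_lit 5) (nat_lit 444) (nat_lit 436) (nat_lit 260)) (XT.lf (nat_lit 0) (nat_lit 1290638622) (nat_lit 1748) (nat_lit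 9539582752) (nat_lit 1824) (nat_lit 2913297211) (nat_lit 451) (nat_lit 5) (nat_lit 474) (nat_lit 5) (nat_lit 475) (nat_lit 5) (nat_lit 445) (nat_lit 436) (nat_lit 259))))) (XT.nd (nat_lit 234) (nat_lit 0) (nat_lit 152) (XT.nd (nat_lit 78) (nat_lit 0) (nat_lit 76) (XT.lf (nat_lit 0) (nat_lit 2059036170) (nat_lit 1748) (nat_lit 2647685297) (nat_lit 1824) (nat_lit 9171279189) (nat_lit 451) (nat_lit 5) (nat_lit 474) (nat_lit 5) (nat_lit 475) (nat_lit 5) (nat_lit 446) (nat_lit 436) (nat_lit 258)) (XT.nd (nat_lit 78) (nat_lit 0) (nat_lit 0) (XT.lf (nat_lit 0) (nat_lit 2872421743) (nat_lit 1748) (nat_lit 9590837388) (nat_lit 1824) (nat_lit 1551322901) (nat_lit 452) (nat_lit 5) (nat_lit 475) (nat_lit 5) (nat_lit 476) (nat_lit 5) (nat_lit 447) (nat_lit 436) (nat_lit 257)) (XT.lf (nat_lit 0) (nat_lit 3741920642) (nat_lit 1748) (nat_lit 2518552187) (nat_lit 1824) (nat_lit 7892627316) (nat_lit 452) (nat_lit 5) (nat_lit 475) (nat_lit 5)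 (nat_lit 476) (nat_lit 5) (nat_lit 448) (nat_lit 436) (nat_lit 256)))) (XT.nd (nat_lit 78) (nat_lit 0) (nat_lit 0) (XT.lf (nat_lit 0) (nat_lit 4651283837) (nat_lit 1748) (nat_lit 9543210131) (nat_lit 1824) (nat_lit 99447149) (nat_lit 453) (nat_lit 5) (nat_lit 476) (nat_lit 5) (nat_lit 477) (nat_lit 5) (nat_lit 449) (nat_lit 436) (nat_lit 255)) (XT.nd (nat_lit 78) (nat_lit 0) (nat_lit 0) (XT.lf (nat_lit 0) (nat_lit 5628434084) (nat_lit 1748) (nat_lit 2285547355) (nat_lit 1824) (nat_lit 6522627417) (nat_lit 453) (nat_lit 5) (nat_lit 476) (nat_lit 5) (nat_lit 477) (nat_lit 5) (nat_lit 450) (nat_lit 436) (nat_lit 254)) (XT.lf (nat_lit 76) (nat_lit 5179061714) (nat_lit 0) (nat_lit 1470992474) (nat_lit 1824) (nat_lit 7931579133) (nat_lit 454) (nat_lit 5) (nat_lit 453) (nat_lit 5) (nat_lit 477) (nat_lit 5) (nat_lit 451) (nat_lit 436) (nat_lit 253))))))))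
noncomputable def xc211 : XT := (XT.nd (nat_lit 1794) (nat_lit 8892) (nat_lit 0) (XT.nd (nat_lit 858) (nat_lit 5244) (nat_lit 0) (XT.nd (nat_lit 390) (nat_lit 2964) (nat_lit 0) (XT.nd (nat_lit 156) (nat_lit 0) (nat_lit 76) (XT.nd (nat_lit 78) (nat_lit 0) (nat_lit 0) (XT.lf (nat_lit 0) (nat_lit 7732111687) (nat_lit 1748) (nat_lit 1944807343) (nat_lit 1824) (nat_lit 5051841012) (nat_lit 454) (nat_lit 5) (nat_lit 477) (nat_lit 5) (nat_lit 478) (nat_lit 5) (nat_lit 452) (nat_lit 436) (nat_lit 252)) (XT.lf (nat_lit 76) (nat_lit 5721248618) (nat_lit 0) (nat_lit 3153065270) (nat_lit 1824) (nat_lit 6003747171) (nat_lit 455) (nat_lit 5) (nat_lit 454) (nat_lit 5) (nat_lit 478) (nat_lit 5) (nat_lit 453) (nat_lit 436) (nat_lit 251))) (XT.nd (nat_lit 78) (nat_lit 0) (nat_lit 0) (XT.lf (nat_lit 0) (nat_lit 10066984118) (nat_lit 1748) (nat_lit 1492215489) (nat_lit 1824) (nat_lit 3470597806) (nat_lit 455) (nat_lit 5) (nat_lit 478) (nat_lit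 5) (nat_lit 479) (nat_lit 5) (nat_lit 454) (nat_lit 436) (nat_lit 250)) (XT.nd (nat_lit 78) (nat_lit 0) (nat_lit 76) (XT.lf (nat_lit 76) (nat_lit 6382323462) (nat_lit 0) (nat_lit 4955419811) (nat_lit 1824) (nat_lit 3845742272) (nat_lit 456) (nat_lit 5) (nat_lit 455) (nat_lit 5) (nat_lit 479) (nat_lit 5) (nat_lit 455) (nat_lit 436) (nat_lit 249)) (XT.lf (nat_lit 0) (nat_lit 12647603844) (nat_lit 1748) (nat_lit 923399025) (nat_lit 1824) (nat_lit 1768972571) (nat_lit 456) (nat_lit 5) (nat_lit 479) (nat_lit 5) (nat_lit 480) (nat_lit 5) (nat_lit 456) (nat_lit 436) (nat_lit 248))))) (XT.nd (nat_lit 234) (nat_lit 1368) (nat_lit 0) (XT.nd (nat_lit 78) (nat_lit 1748) (nat_lit 0) (XT.lf (nat_lit 76) (nat_lit 7166914631) (nat_lit 0) (nat_lit 6888299255) (nat_lit 1824) (nat_lit 1442951896) (nat_lit 457) (nat_lit 5) (nat_lit 456) (nat_lit 5) (nat_lit 480) (nat_lit 5) (nat_lit 457) (nat_lit 436) (nat_lit 247)) (XT.nd (nat_lit 78) (nat_lit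 1748) (nat_lit 0) (XT.lf (nat_lit 76) (nat_lit 15425409468) (nat_lit 0) (nat_lit 64078715) (nat_lit 1824) (nat_lit 170063165) (nat_lit 457) (nat_lit 5) (nat_lit 456) (nat_lit 5) (nat_lit 480) (nat_lit 5) (nat_lit 458) (nat_lit 436) (nat_lit 246)) (XT.lf (nat_lit 0) (nat_lit 1203791937) (nat_lit 1824) (nat_lit 7750373682) (nat_lit 1900) (nat_lit 6868047965) (nat_lit 433) (nat_lit 5) (nat_lit 457) (nat_lit 5) (nat_lit 458) (nat_lit 5) (nat_lit 459) (nat_lit 436) (nat_lit 245)))) (XT.nd (nat_lit 78) (nat_lit 1368) (nat_lit 0) (XT.lf (nat_lit 76) (nat_lit 558538034) (nat_lit 0) (nat_lit 2042476481) (nat_lit 1900) (nat_lit 13387130281) (nat_lit 434) (nat_lit 5) (nat_lit 433) (nat_lit 5) (nat_lit 458) (nat_lit 5) (nat_lit 460) (nat_lit 436) (nat_lit 244)) (XT.nd (nat_lit 78) (nat_lit 1444) (nat_lit 0) (XT.lf (nat_lit 0) (nat_lit 4103693396) (nat_lit 1824) (nat_lit 7056883210) (nat_lit 76) (nat_lit 4995269323) (nat_lit 434) (nat_lit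 5) (nat_lit 458) (nat_lit 5) (nat_lit 435) (nat_lit 5) (nat_lit 461) (nat_lit 436) (nat_lit 243)) (XT.lf (nat_lit 0) (nat_lit 1482983759) (nat_lit 1444) (nat_lit 4169387792) (nat_lit 1520) (nat_lit 10674212122) (nat_lit 415) (nat_lit 5) (nat_lit 434) (nat_lit 5) (nat_lit 435) (nat_lit 5) (nat_lit 462) (nat_lit 436) (nat_lit 242)))))) (XT.nd (nat_lit 468) (nat_lit 2508) (nat_lit 0) (XT.nd (nat_lit 234) (nat_lit 1824) (nat_lit 0) (XT.nd (nat_lit 78) (nat_lit 912) (nat_lit 0) (XT.lf (nat_lit 0) (nat_lit 7291819049) (nat_lit 1520) (nat_lit 6236368406) (nat_lit 76) (nat_lit 2971354274) (nat_lit 415) (nat_lit 5) (nat_lit 435) (nat_lit 5) (nat_lit 416) (nat_lit 5) (nat_lit 463) (nat_lit 436) (nat_lit 241)) (XT.nd (nat_lit 78) (nat_lit 0) (nat_lit 0) (XT.lf (nat_lit 0) (nat_lit 2542523032) (nat_lit 912) (nat_lit 6458689240) (nat_lit 988) (nat_lit 7674004984) (nat_lit 403) (nat_lit 5) (nat_lit 415) (nat_lit 5) (nat_lit 416) (nat_lit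 5) (nat_lit 464) (nat_lit 436) (nat_lit 240)) (XT.lf (nat_lit 0) (nat_lit 10784941675) (nat_lit 988) (nat_lit 5283523125) (nat_lit 76) (nat_lit 785139943) (nat_lit 403) (nat_lit 5) (nat_lit 416) (nat_lit 5) (nat_lit 404) (nat_lit 5) (nat_lit 465) (nat_lit 436) (nat_lit 239)))) (XT.nd (nat_lit 78) (nat_lit 912) (nat_lit 0) (XT.lf (nat_lit 0) (nat_lit 3742748567) (nat_lit 912) (nat_lit 8921942908) (nat_lit 988) (nat_lit 4369662977) (nat_lit 391) (nat_lit 5) (nat_lit 403) (nat_lit 5) (nat_lit 404) (nat_lit 5) (nat_lit 466) (nat_lit 436) (nat_lit 238)) (XT.nd (nat_lit 78) (nat_lit 912) (nat_lit 0) (XT.lf (nat_lit 0) (nat_lit 13015009135) (nat_lit 912) (nat_lit 1595846923) (nat_lit 988) (nat_lit 2607288063) (nat_lit 391) (nat_lit 5) (nat_lit 403) (nat_lit 5) (nat_lit 404) (nat_lit 5) (nat_lit 467) (nat_lit 436) (nat_lit 237)) (XT.lf (nat_lit 0) (nat_lit 5089529644) (nat_lit 912) (nat_lit 11571112511) (nat_lit 988) (nat_lit 743674799)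 (nat_lit 379) (nat_lit 5) (nat_lit 391) (nat_lit 5) (nat_lit 392) (nat_lit 5) (nat_lit 468) (nat_lit 436) (nat_lit 236))))) (XT.nd (nat_lit 234) (nat_lit 1596) (nat_lit 0) (XT.nd (nat_lit 78) (nat_lit 836) (nat_lit 0) (XT.lf (nat_lit 0) (nat_lit 1174535915) (nat_lit 988) (nat_lit 2993112070) (nat_lit 76) (nat_lit 13425766229) (nat_lit 378) (nat_lit 5) (nat_lit 391) (nat_lit 5) (nat_lit 379) (nat_lit 5) (nat_lit 469) (nat_lit 436) (nat_lit 235)) (XT.nd (nat_lit 78) (nat_lit 0) (nat_lit 0) (XT.lf (nat_lit 0) (nat_lit 3179907917) (nat_lit 912) (nat_lit 11217343393) (nat_lit 76) (nat_lit 3387769955) (nat_lit 367) (nat_lit 5) (nat_lit 379) (nat_lit 5) (nat_lit 368) (nat_lit 5) (nat_lit 470) (nat_lit 436) (nat_lit 234)) (XT.lf (nat_lit 0) (nat_lit 5266960427) (nat_lit 912) (nat_lit 1653717890) (nat_lit 76) (nat_lit 11058951912) (nat_lit 367) (nat_lit 5) (nat_lit 379) (nat_lit 5) (nat_lit 368) (nat_lit 5) (nat_lit 471) (nat_lit 436)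 (nat_lit 233)))) (XT.nd (nat_lit 78) (nat_lit 760) (nat_lit 0) (XT.lf (nat_lit 0) (nat_lit 7447821392) (nat_lit 912) (nat_lit 9979423724) (nat_lit 76) (nat_lit 749846117) (nat_lit 356) (nat_lit 5) (nat_lit 368) (nat_lit 5) (nat_lit 357) (nat_lit 5) (nat_lit 472) (nat_lit 436) (nat_lit 232)) (XT.nd (nat_lit 78) (nat_lit 760) (nat_lit 0) (XT.lf (nat_lit 0) (nat_lit 9723260643) (nat_lit 912) (nat_lit 161831036) (nat_lit 76) (nat_lit 8492391741) (nat_lit 356) (nat_lit 5) (nat_lit 368) (nat_lit 5) (nat_lit 357) (nat_lit 5) (nat_lit 473) (nat_lit 436) (nat_lit 231)) (XT.lf (nat_lit 0) (nat_lit 9976940397) (nat_lit 760) (nat_lit 2126121619) (nat_lit 836) (nat_lit 6477645530) (nat_lit 346) (nat_lit 5) (nat_lit 356) (nat_lit 5) (nat_lit 357) (nat_lit 5) (nat_lit 474) (nat_lit 436) (nat_lit 230))))))) (XT.nd (nat_lit 936) (nat_lit 3724) (nat_lit 0) (XT.nd (nat_lit 468) (nat_lit 2812) (nat_lit 0) (XT.nd (nat_lit 234) (nat_lit 760) (nat_lit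 0) (XT.nd (nat_lit 78) (nat_lit 836) (nat_lit 0) (XT.lf (nat_lit 0) (nat_lit 1508807832) (nat_lit 760) (nat_lit 13064273486) (nat_lit 836) (nat_lit 4214063537) (nat_lit 336) (nat_lit 5) (nat_lit 346) (nat_lit 5) (nat_lit 347) (nat_lit 5) (nat_lit 475) (nat_lit 436) (nat_lit 229)) (XT.nd (nat_lit 78) (nat_lit 836) (nat_lit 0) (XT.lf (nat_lit 0) (nat_lit 11919933348) (nat_lit 760) (nat_lit 5238519252) (nat_lit 836) (nat_lit 1837940397) (nat_lit 336) (nat_lit 5) (nat_lit 346) (nat_lit 5) (nat_lit 347) (nat_lit 5) (nat_lit 476) (nat_lit 436) (nat_lit 228)) (XT.lf (nat_lit 0) (nat_lit 612148023) (nat_lit 836) (nat_lit 15863659433) (nat_lit 76) (nat_lit 2733261174) (nat_lit 325) (nat_lit 5) (nat_lit 336) (nat_lit 5) (nat_lit 326) (nat_lit 5) (nat_lit 477) (nat_lit 436) (nat_lit 227)))) (XT.nd (nat_lit 78) (nat_lit 760) (nat_lit 0) (XT.lf (nat_lit 0) (nat_lit 3163517988) (nat_lit 836) (nat_lit 5406677313) (nat_lit 76) (nat_lit 10854022754)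 (nat_lit 325) (nat_lit 5) (nat_lit 336) (nat_lit 5) (nat_lit 326) (nat_lit 5) (nat_lit 478) (nat_lit 436) (nat_lit 226)) (XT.nd (nat_lit 78) (nat_lit 0) (nat_lit 0) (XT.lf (nat_lit 0) (nat_lit 5323290245) (nat_lit 760) (nat_lit 471671125) (nat_lit 836) (nat_lit 13848129211) (nat_lit 315) (nat_lit 5) (nat_lit 325) (nat_lit 5) (nat_lit 326) (nat_lit 5) (nat_lit 479) (nat_lit 436) (nat_lit 225)) (XT.lf (nat_lit 0) (nat_lit 8560675956) (nat_lit 836) (nat_lit 3581316955) (nat_lit 76) (nat_lit 7722715810) (nat_lit 315) (nat_lit 5) (nat_lit 326) (nat_lit 5) (nat_lit 316) (nat_lit 5) (nat_lit 480) (nat_lit 436) (nat_lit 224))))) (XT.nd (nat_lit 234) (nat_lit 1444) (nat_lit 0) (XT.nd (nat_lit 78) (nat_lit 684) (nat_lit 0) (XT.lf (nat_lit 0) (nat_lit 7460742167) (nat_lit 684) (nat_lit 3967183461) (nat_lit 760) (nat_lit 8661910172) (nat_lit 306) (nat_lit 5) (nat_lit 315) (nat_lit 5) (nat_lit 316) (nat_lit 5) (nat_lit 481) (nat_lit 436)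 (nat_lit 223)) (XT.nd (nat_lit 78) (nat_lit 684) (nat_lit 0) (XT.lf (nat_lit 0) (nat_lit 14399811919) (nat_lit 760) (nat_lit 1581318872) (nat_lit 76) (nat_lit 4337389770) (nat_lit 306) (nat_lit 5) (nat_lit 316) (nat_lit 5) (nat_lit 307) (nat_lit 5) (nat_lit 482) (nat_lit 436) (nat_lit 222)) (XT.lf (nat_lit 0) (nat_lit 9783586569) (nat_lit 684) (nat_lit 7732166895) (nat_lit 760) (nat_lit 3034334155) (nat_lit 297) (nat_lit 5) (nat_lit 306) (nat_lit 5) (nat_lit 307) (nat_lit 5) (nat_lit 483) (nat_lit 436) (nat_lit 221)))) (XT.nd (nat_lit 78) (nat_lit 760) (nat_lit 0) (XT.lf (nat_lit 0) (nat_lit 608712532) (nat_lit 684) (nat_lit 20099244068) (nat_lit 760) (nat_lit 78051497) (nat_lit 288) (nat_lit 5) (nat_lit 297) (nat_lit 5) (nat_lit 298) (nat_lit 5) (nat_lit 484) (nat_lit 436) (nat_lit 220)) (XT.nd (nat_lit 78) (nat_lit 684) (nat_lit 0) (XT.lf (nat_lit 0) (nat_lit 3017676648) (nat_lit 760) (nat_lit 8744540110) (nat_lit 76) (nat_lit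 9261672823) (nat_lit 287) (nat_lit 5) (nat_lit 297) (nat_lit 5) (nat_lit 288) (nat_lit 5) (nat_lit 485) (nat_lit 436) (nat_lit 219)) (XT.lf (nat_lit 0) (nat_lit 2949194434) (nat_lit 684) (nat_lit 3239238757) (nat_lit 760) (nat_lit 15077802888) (nat_lit 278) (nat_lit 5) (nat_lit 287) (nat_lit 5) (nat_lit 288) (nat_lit 5) (nat_lit 486) (nat_lit 436) (nat_lit 218)))))) (XT.nd (nat_lit 468) (nat_lit 1824) (nat_lit 0) (XT.nd (nat_lit 234) (nat_lit 1292) (nat_lit 0) (XT.nd (nat_lit 78) (nat_lit 608) (nat_lit 0) (XT.lf (nat_lit 0) (nat_lit 9512150603) (nat_lit 760) (nat_lit 6558612315) (nat_lit 76) (nat_lit 5440876538) (nat_lit 278) (nat_lit 5) (nat_lit 288) (nat_lit 5) (nat_lit 279) (nat_lit 5) (nat_lit 487) (nat_lit 436) (nat_lit 217)) (XT.nd (nat_lit 78) (nat_lit 0) (nat_lit 0) (XT.lf (nat_lit 0) (nat_lit 5479621736) (nat_lit 608) (nat_lit 7474911034) (nat_lit 684) (nat_lit 8806375167) (nat_lit 270) (nat_lit 5) (nat_lit 278) (nat_lit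 5) (nat_lit 279) (nat_lit 5) (nat_lit 488) (nat_lit 436) (nat_lit 216)) (XT.lf (nat_lit 0) (nat_lit 16513672425) (nat_lit 684) (nat_lit 4181273320) (nat_lit 76) (nat_lit 1319258677) (nat_lit 270) (nat_lit 5) (nat_lit 279) (nat_lit 5) (nat_lit 271) (nat_lit 5) (nat_lit 489) (nat_lit 436) (nat_lit 215)))) (XT.nd (nat_lit 78) (nat_lit 684) (nat_lit 0) (XT.lf (nat_lit 0) (nat_lit 8213239135) (nat_lit 608) (nat_lit 12028890670) (nat_lit 684) (nat_lit 2028475146) (nat_lit 262) (nat_lit 5) (nat_lit 270) (nat_lit 5) (nat_lit 271) (nat_lit 5) (nat_lit 490) (nat_lit 436) (nat_lit 214)) (XT.nd (nat_lit 78) (nat_lit 608) (nat_lit 0) (XT.lf (nat_lit 0) (nat_lit 1516753709) (nat_lit 684) (nat_lit 1635002892) (nat_lit 76) (nat_lit 19379709711) (nat_lit 261) (nat_lit 5) (nat_lit 270) (nat_lit 5) (nat_lit 262) (nat_lit 5) (nat_lit 491) (nat_lit 436) (nat_lit 213)) (XT.lf (nat_lit 0) (nat_lit 5212539282) (nat_lit 684) (nat_lit 11671655111) (nat_lit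 76) (nat_lit 5910946842) (nat_lit 253) (nat_lit 5) (nat_lit 262) (nat_lit 5) (nat_lit 254) (nat_lit 5) (nat_lit 492) (nat_lit 436) (nat_lit 212))))) (XT.nd (nat_lit 234) (nat_lit 684) (nat_lit 0) (XT.nd (nat_lit 78) (nat_lit 532) (nat_lit 0) (XT.lf (nat_lit 0) (nat_lit 1083020355) (nat_lit 608) (nat_lit 7933637027) (nat_lit 684) (nat_lit 14046744689) (nat_lit 245) (nat_lit 5) (nat_lit 253) (nat_lit 5) (nat_lit 254) (nat_lit 5) (nat_lit 493) (nat_lit 436) (nat_lit 211)) (XT.nd (nat_lit 78) (nat_lit 532) (nat_lit 0) (XT.lf (nat_lit 0) (nat_lit 12978977173) (nat_lit 684) (nat_lit 9098464936) (nat_lit 76) (nat_lit 1257944365) (nat_lit 245) (nat_lit 5) (nat_lit 254) (nat_lit 5) (nat_lit 246) (nat_lit 5) (nat_lit 494) (nat_lit 436) (nat_lit 210)) (XT.lf (nat_lit 0) (nat_lit 4035871417) (nat_lit 532) (nat_lit 13059017023) (nat_lit 608) (nat_lit 6516435946) (nat_lit 238) (nat_lit 5) (nat_lit 245) (nat_lit 5) (nat_lit 246) (nat_lit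 5) (nat_lit 495) (nat_lit 436) (nat_lit 209)))) (XT.nd (nat_lit 78) (nat_lit 684) (nat_lit 0) (XT.lf (nat_lit 0) (nat_lit 17550654189) (nat_lit 532) (nat_lit 3799170194) (nat_lit 608) (nat_lit 2541823251) (nat_lit 238) (nat_lit 5) (nat_lit 245) (nat_lit 5) (nat_lit 246) (nat_lit 5) (nat_lit 496) (nat_lit 436) (nat_lit 208)) (XT.nd (nat_lit 78) (nat_lit 0) (nat_lit 0) (XT.lf (nat_lit 0) (nat_lit 1572172388) (nat_lit 684) (nat_lit 16975812747) (nat_lit 76) (nat_lit 5627802029) (nat_lit 229) (nat_lit 5) (nat_lit 238) (nat_lit 5) (nat_lit 230) (nat_lit 5) (nat_lit 497) (nat_lit 436) (nat_lit 207)) (XT.lf (nat_lit 0) (nat_lit 5798185833) (nat_lit 684) (nat_lit 3414880149) (nat_lit 76) (nat_lit 15250932682) (nat_lit 229) (nat_lit 5) (nat_lit 238) (nat_lit 5) (nat_lit 230) (nat_lit 5) (nat_lit 498) (nat_lit 436) (nat_lit 206))))))))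
noncomputable def xc212 : XT := (XT.nd (nat_lit 55380) (nat_lit 0) (nat_lit 14896) (XT.nd (nat_lit 858) (nat_lit 0) (nat_lit 0) (XT.nd (nat_lit 390) (nat_lit 1976) (nat_lit 0) (XT.nd (nat_lit 156) (nat_lit 1064) (nat_lit 0) (XT.nd (nat_lit 78) (nat_lit 0) (nat_lit 0) (XT.lf (nat_lit 0) (nat_lit 10175498169) (nat_lit 608) (nat_lit 14208951360) (nat_lit 76) (nat_lit 372189947) (nat_lit 222) (nat_lit 5) (nat_lit 230) (nat_lit 5) (nat_lit 223) (nat_lit 5) (nat_lit 499) (nat_lit 436) (nat_lit 205)) (XT.lf (nat_lit 0) (nat_lit 14720307197) (nat_lit 608) (nat_lit 285534665) (nat_lit 76) (nat_lit 10047692874) (nat_lit 222) (nat_lit 5) (nat_lit 230) (nat_lit 5) (nat_lit 223) (nat_lit 5) (nat_lit 500) (nat_lit 436) (nat_lit 204))) (XT.nd (nat_lit 78) (nat_lit 532) (nat_lit 0) (XT.lf (nat_lit 0) (nat_lit 14095835685) (nat_lit 532) (nat_lit 5347646590) (nat_lit 608) (nat_lit 5911136859) (nat_lit 215) (nat_lit 5) (nat_lit 222) (nat_lit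 5) (nat_lit 223) (nat_lit 5) (nat_lit 501) (nat_lit 436) (nat_lit 203)) (XT.nd (nat_lit 78) (nat_lit 76) (nat_lit 0) (XT.lf (nat_lit 0) (nat_lit 3113172411) (nat_lit 456) (nat_lit 21195317399) (nat_lit 532) (nat_lit 1352288646) (nat_lit 209) (nat_lit 5) (nat_lit 215) (nat_lit 5) (nat_lit 216) (nat_lit 5) (nat_lit 502) (nat_lit 436) (nat_lit 202)) (XT.lf (nat_lit 0) (nat_lit 3361956867) (nat_lit 532) (nat_lit 8109131787) (nat_lit 76) (nat_lit 14499395266) (nat_lit 208) (nat_lit 5) (nat_lit 215) (nat_lit 5) (nat_lit 209) (nat_lit 5) (nat_lit 503) (nat_lit 436) (nat_lit 201))))) (XT.nd (nat_lit 234) (nat_lit 988) (nat_lit 0) (XT.nd (nat_lit 78) (nat_lit 456) (nat_lit 0) (XT.lf (nat_lit 0) (nat_lit 6691585677) (nat_lit 532) (nat_lit 1500339134) (nat_lit 608) (nat_lit 18093489598) (nat_lit 201) (nat_lit 5) (nat_lit 208) (nat_lit 5) (nat_lit 209) (nat_lit 5) (nat_lit 504) (nat_lit 436) (nat_lit 200)) (XT.nd (nat_lit 78) (nat_lit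 456) (nat_lit 0) (XT.lf (nat_lit 0) (nat_lit 13225674032) (nat_lit 608) (nat_lit 4769332759) (nat_lit 76) (nat_lit 8609493649) (nat_lit 201) (nat_lit 5) (nat_lit 209) (nat_lit 5) (nat_lit 202) (nat_lit 5) (nat_lit 505) (nat_lit 436) (nat_lit 199)) (XT.lf (nat_lit 0) (nat_lit 10473822534) (nat_lit 456) (nat_lit 7960405649) (nat_lit 532) (nat_lit 8494257967) (nat_lit 195) (nat_lit 5) (nat_lit 201) (nat_lit 5) (nat_lit 202) (nat_lit 5) (nat_lit 506) (nat_lit 436) (nat_lit 198)))) (XT.nd (nat_lit 78) (nat_lit 988) (nat_lit 0) (XT.lf (nat_lit 0) (nat_lit 23790162398) (nat_lit 532) (nat_lit 1192095501) (nat_lit 76) (nat_lit 2275830043) (nat_lit 195) (nat_lit 5) (nat_lit 202) (nat_lit 5) (nat_lit 196) (nat_lit 5) (nat_lit 507) (nat_lit 436) (nat_lit 197)) (XT.nd (nat_lit 78) (nat_lit 456) (nat_lit 0) (XT.lf (nat_lit 0) (nat_lit 1781334573) (nat_lit 532) (nat_lit 13095043801) (nat_lit 76) (nat_lit 12714805339) (nat_lit 188) (nat_lit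 5) (nat_lit 195) (nat_lit 5) (nat_lit 189) (nat_lit 5) (nat_lit 508) (nat_lit 436) (nat_lit 196)) (XT.lf (nat_lit 0) (nat_lit 2589252819) (nat_lit 456) (nat_lit 4521109327) (nat_lit 532) (nat_lit 20819696954) (nat_lit 182) (nat_lit 5) (nat_lit 188) (nat_lit 5) (nat_lit 189) (nat_lit 5) (nat_lit 509) (nat_lit 436) (nat_lit 195)))))) (XT.nd (nat_lit 54054) (nat_lit 0) (nat_lit 20368) (XT.nd (nat_lit 53820) (nat_lit 0) (nat_lit 21964) (XT.nd (nat_lit 53664) (nat_lit 0) (nat_lit 21888) (XT.lf (nat_lit 0) (nat_lit 12669990326) (nat_lit 532) (nat_lit 9554251751) (nat_lit 76) (nat_lit 6048990023) (nat_lit 182) (nat_lit 5) (nat_lit 189) (nat_lit 5) (nat_lit 183) (nat_lit 5) (nat_lit 510) (nat_lit 436) (nat_lit 194)) (XT.nd (nat_lit 78) (nat_lit 0) (nat_lit 0) (XT.lf (nat_lit 0) (nat_lit 4926932149) (nat_lit 1748) (nat_lit 750513014) (nat_lit 1748) (nat_lit 750513014) (nat_lit 470) (nat_lit 3) (nat_lit 493) (nat_lit 3) (nat_lit 493)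 (nat_lit 5) (nat_lit 437) (nat_lit 437) (nat_lit 266)) (XT.lf (nat_lit 76) (nat_lit 4815193721) (nat_lit 0) (nat_lit 5573289427) (nat_lit 1748) (nat_lit 2587178610) (nat_lit 471) (nat_lit 5) (nat_lit 470) (nat_lit 3) (nat_lit 493) (nat_lit 5) (nat_lit 438) (nat_lit 437) (nat_lit 265)))) (XT.nd (nat_lit 78) (nat_lit 0) (nat_lit 0) (XT.lf (nat_lit 0) (nat_lit 10935416423) (nat_lit 1672) (nat_lit 1827423569) (nat_lit 1748) (nat_lit 334932051) (nat_lit 471) (nat_lit 5) (nat_lit 493) (nat_lit 5) (nat_lit 494) (nat_lit 5) (nat_lit 439) (nat_lit 437) (nat_lit 264)) (XT.nd (nat_lit 78) (nat_lit 0) (nat_lit 0) (XT.lf (nat_lit 76) (nat_lit 4650742757) (nat_lit 0) (nat_lit 6899238174) (nat_lit 1748) (nat_lit 1671212122) (nat_lit 472) (nat_lit 5) (nat_lit 471) (nat_lit 5) (nat_lit 494) (nat_lit 5) (nat_lit 440) (nat_lit 437) (nat_lit 263)) (XT.lf (nat_lit 76) (nat_lit 11277655469) (nat_lit 0) (nat_lit 901199776) (nat_lit 1748) (nat_lit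 1168189193) (nat_lit 472) (nat_lit 5) (nat_lit 471) (nat_lit 5) (nat_lit 494) (nat_lit 5) (nat_lit 441) (nat_lit 437) (nat_lit 262))))) (XT.nd (nat_lit 234) (nat_lit 0) (nat_lit 0) (XT.nd (nat_lit 78) (nat_lit 1672) (nat_lit 0) (XT.lf (nat_lit 76) (nat_lit 4582207775) (nat_lit 0) (nat_lit 8291706975) (nat_lit 1748) (nat_lit 600428222) (nat_lit 473) (nat_lit 5) (nat_lit 472) (nat_lit 5) (nat_lit 495) (nat_lit 5) (nat_lit 442) (nat_lit 437) (nat_lit 261)) (XT.nd (nat_lit 78) (nat_lit 1672) (nat_lit 0) (XT.lf (nat_lit 76) (nat_lit 11383166250) (nat_lit 0) (nat_lit 2209670396) (nat_lit 1748) (nat_lit 11153841) (nat_lit 473) (nat_lit 5) (nat_lit 472) (nat_lit 5) (nat_lit 495) (nat_lit 5) (nat_lit 443) (nat_lit 437) (nat_lit 260)) (XT.lf (nat_lit 0) (nat_lit 628719211) (nat_lit 1748) (nat_lit 9126751607) (nat_lit 1824) (nat_lit 3979754681) (nat_lit 450) (nat_lit 5) (nat_lit 473) (nat_lit 5) (nat_lit 474) (nat_lit 5) (nat_lit 444)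 (nat_lit 437) (nat_lit 259)))) (XT.nd (nat_lit 78) (nat_lit 0) (nat_lit 76) (XT.lf (nat_lit 0) (nat_lit 1301327773) (nat_lit 1748) (nat_lit 2285006952) (nat_lit 1824) (nat_lit 10282349369) (nat_lit 450) (nat_lit 5) (nat_lit 473) (nat_lit 5) (nat_lit 474) (nat_lit 5) (nat_lit 445) (nat_lit 437) (nat_lit 258)) (XT.nd (nat_lit 78) (nat_lit 0) (nat_lit 0) (XT.lf (nat_lit 0) (nat_lit 2026666638) (nat_lit 1748) (nat_lit 9272071424) (nat_lit 1824) (nat_lit 2705290299) (nat_lit 451) (nat_lit 5) (nat_lit 474) (nat_lit 5) (nat_lit 475) (nat_lit 5) (nat_lit 446) (nat_lit 437) (nat_lit 257)) (XT.lf (nat_lit 0) (nat_lit 2796506348) (nat_lit 1748) (nat_lit 2251322353) (nat_lit 1824) (nat_lit 9093652953) (nat_lit 451) (nat_lit 5) (nat_lit 474) (nat_lit 5) (nat_lit 475) (nat_lit 5) (nat_lit 447) (nat_lit 437) (nat_lit 256))))))) (XT.nd (nat_lit 858) (nat_lit 5624) (nat_lit 0) (XT.nd (nat_lit 390) (nat_lit 0) (nat_lit 152) (XT.nd (nat_lit 156)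 (nat_lit 0) (nat_lit 0) (XT.nd (nat_lit 78) (nat_lit 0) (nat_lit 0) (XT.lf (nat_lit 0) (nat_lit 3613852089) (nat_lit 1748) (nat_lit 9320879722) (nat_lit 1824) (nat_lit 1346312001) (nat_lit 452) (nat_lit 5) (nat_lit 475) (nat_lit 5) (nat_lit 476) (nat_lit 5) (nat_lit 448) (nat_lit 437) (nat_lit 255)) (XT.lf (nat_lit 0) (nat_lit 4487329556) (nat_lit 1748) (nat_lit 2116203217) (nat_lit 1824) (nat_lit 7819070688) (nat_lit 452) (nat_lit 5) (nat_lit 475) (nat_lit 5) (nat_lit 476) (nat_lit 5) (nat_lit 449) (nat_lit 437) (nat_lit 254))) (XT.nd (nat_lit 78) (nat_lit 0) (nat_lit 76) (XT.lf (nat_lit 76) (nat_lit 5296167888) (nat_lit 0) (nat_lit 107816364) (nat_lit 1824) (nat_lit 9162497805) (nat_lit 453) (nat_lit 5) (nat_lit 452) (nat_lit 5) (nat_lit 476) (nat_lit 5) (nat_lit 450) (nat_lit 437) (nat_lit 253)) (XT.nd (nat_lit 78) (nat_lit 0) (nat_lit 0) (XT.lf (nat_lit 0) (nat_lit 6387056416) (nat_lit 1748) (nat_lit 1875905184) (nat_lit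 1824) (nat_lit 6449316803) (nat_lit 453) (nat_lit 5) (nat_lit 476) (nat_lit 5) (nat_lit 477) (nat_lit 5) (nat_lit 451) (nat_lit 437) (nat_lit 252)) (XT.lf (nat_lit 76) (nat_lit 5735000322) (nat_lit 0) (nat_lit 1684377885) (nat_lit 1824) (nat_lit 7441022539) (nat_lit 454) (nat_lit 5) (nat_lit 453) (nat_lit 5) (nat_lit 477) (nat_lit 5) (nat_lit 452) (nat_lit 437) (nat_lit 251))))) (XT.nd (nat_lit 234) (nat_lit 0) (nat_lit 76) (XT.nd (nat_lit 78) (nat_lit 0) (nat_lit 0) (XT.lf (nat_lit 0) (nat_lit 8509428930) (nat_lit 1748) (nat_lit 1526431882) (nat_lit 1824) (nat_lit 4974884871) (nat_lit 454) (nat_lit 5) (nat_lit 477) (nat_lit 5) (nat_lit 478) (nat_lit 5) (nat_lit 453) (nat_lit 437) (nat_lit 250)) (XT.nd (nat_lit 78) (nat_lit 0) (nat_lit 76) (XT.lf (nat_lit 76) (nat_lit 6289936833) (nat_lit 0) (nat_lit 3375278407) (nat_lit 1824) (nat_lit 5498005347) (nat_lit 455) (nat_lit 5) (nat_lit 454) (nat_lit 5) (nat_lit 478) (nat_lit 5)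 (nat_lit 454) (nat_lit 437) (nat_lit 249)) (XT.lf (nat_lit 0) (nat_lit 10868698069) (nat_lit 1748) (nat_lit 1063532097) (nat_lit 1824) (nat_lit 3386024932) (nat_lit 455) (nat_lit 5) (nat_lit 478) (nat_lit 5) (nat_lit 479) (nat_lit 5) (nat_lit 455) (nat_lit 437) (nat_lit 248)))) (XT.nd (nat_lit 78) (nat_lit 0) (nat_lit 76) (XT.lf (nat_lit 76) (nat_lit 6965481003) (nat_lit 0) (nat_lit 5190576840) (nat_lit 1824) (nat_lit 3319138006) (nat_lit 456) (nat_lit 5) (nat_lit 455) (nat_lit 5) (nat_lit 479) (nat_lit 5) (nat_lit 456) (nat_lit 437) (nat_lit 247)) (XT.nd (nat_lit 78) (nat_lit 0) (nat_lit 0) (XT.lf (nat_lit 0) (nat_lit 13479650418) (nat_lit 1748) (nat_lit 482696617) (nat_lit 1824) (nat_lit 1672720326) (nat_lit 456) (nat_lit 5) (nat_lit 479) (nat_lit 5) (nat_lit 480) (nat_lit 5) (nat_lit 457) (nat_lit 437) (nat_lit 246)) (XT.lf (nat_lit 76) (nat_lit 7766402455) (nat_lit 0) (nat_lit 7140617037) (nat_lit 1824) (nat_lit 889572345)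 (nat_lit 457) (nat_lit 5) (nat_lit 456) (nat_lit 5) (nat_lit 480) (nat_lit 5) (nat_lit 458) (nat_lit 437) (nat_lit 245)))))) (XT.nd (nat_lit 468) (nat_lit 2812) (nat_lit 0) (XT.nd (nat_lit 234) (nat_lit 1292) (nat_lit 0) (XT.nd (nat_lit 78) (nat_lit 0) (nat_lit 76) (XT.lf (nat_lit 76) (nat_lit 219997135) (nat_lit 0) (nat_lit 173577530) (nat_lit 1900) (nat_lit 15567776505) (nat_lit 433) (nat_lit 5) (nat_lit 432) (nat_lit 5) (nat_lit 457) (nat_lit 5) (nat_lit 459) (nat_lit 437) (nat_lit 244)) (XT.nd (nat_lit 78) (nat_lit 0) (nat_lit 0) (XT.lf (nat_lit 0) (nat_lit 1782419815) (nat_lit 1824) (nat_lit 7441671053) (nat_lit 1900) (nat_lit 6903359821) (nat_lit 433) (nat_lit 5) (nat_lit 457) (nat_lit 5) (nat_lit 458) (nat_lit 5) (nat_lit 460) (nat_lit 437) (nat_lit 243)) (XT.lf (nat_lit 76) (nat_lit 1030368174) (nat_lit 0) (nat_lit 2169336008) (nat_lit 1900) (nat_lit 13097156273) (nat_lit 434) (nat_lit 5) (nat_lit 433) (nat_lit 5) (nat_lit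 458) (nat_lit 5) (nat_lit 461) (nat_lit 437) (nat_lit 242)))) (XT.nd (nat_lit 78) (nat_lit 1444) (nat_lit 0) (XT.lf (nat_lit 0) (nat_lit 4721170148) (nat_lit 1824) (nat_lit 6735015923) (nat_lit 76) (nat_lit 5011957101) (nat_lit 434) (nat_lit 5) (nat_lit 458) (nat_lit 5) (nat_lit 435) (nat_lit 5) (nat_lit 462) (nat_lit 437) (nat_lit 241)) (XT.nd (nat_lit 78) (nat_lit 0) (nat_lit 0) (XT.lf (nat_lit 0) (nat_lit 1972602300) (nat_lit 1444) (nat_lit 4320707829) (nat_lit 1520) (nat_lit 10349137966) (nat_lit 415) (nat_lit 5) (nat_lit 434) (nat_lit 5) (nat_lit 435) (nat_lit 5) (nat_lit 463) (nat_lit 437) (nat_lit 240)) (XT.lf (nat_lit 0) (nat_lit 7954763357) (nat_lit 1520) (nat_lit 5899265208) (nat_lit 76) (nat_lit 2965054558) (nat_lit 415) (nat_lit 5) (nat_lit 435) (nat_lit 5) (nat_lit 416) (nat_lit 5) (nat_lit 464) (nat_lit 437) (nat_lit 239))))) (XT.nd (nat_lit 234) (nat_lit 988) (nat_lit 0) (XT.nd (nat_lit 78) (nat_lit 912) (nat_lit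 0) (XT.lf (nat_lit 0) (nat_lit 3052165700) (nat_lit 912) (nat_lit 6639018156) (nat_lit 988) (nat_lit 7307233619) (nat_lit 403) (nat_lit 5) (nat_lit 415) (nat_lit 5) (nat_lit 416) (nat_lit 5) (nat_lit 465) (nat_lit 437) (nat_lit 238)) (XT.nd (nat_lit 78) (nat_lit 912) (nat_lit 0) (XT.lf (nat_lit 0) (nat_lit 11500263260) (nat_lit 988) (nat_lit 4928969601) (nat_lit 76) (nat_lit 751348406) (nat_lit 403) (nat_lit 5) (nat_lit 416) (nat_lit 5) (nat_lit 404) (nat_lit 5) (nat_lit 466) (nat_lit 437) (nat_lit 237)) (XT.lf (nat_lit 0) (nat_lit 4274799735) (nat_lit 912) (nat_lit 9135980217) (nat_lit 988) (nat_lit 3954304602) (nat_lit 391) (nat_lit 5) (nat_lit 403) (nat_lit 5) (nat_lit 404) (nat_lit 5) (nat_lit 467) (nat_lit 437) (nat_lit 236)))) (XT.nd (nat_lit 78) (nat_lit 988) (nat_lit 0) (XT.lf (nat_lit 0) (nat_lit 13723540884) (nat_lit 912) (nat_lit 1662664303) (nat_lit 988) (nat_lit 2166540064) (nat_lit 391) (nat_lit 5) (nat_lit 403)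 (nat_lit 5) (nat_lit 404) (nat_lit 5) (nat_lit 468) (nat_lit 437) (nat_lit 235)) (XT.nd (nat_lit 78) (nat_lit 76) (nat_lit 0) (XT.lf (nat_lit 0) (nat_lit 5646525547) (nat_lit 912) (nat_lit 11823721622) (nat_lit 988) (nat_lit 272531111) (nat_lit 379) (nat_lit 5) (nat_lit 391) (nat_lit 5) (nat_lit 392) (nat_lit 5) (nat_lit 469) (nat_lit 437) (nat_lit 234)) (XT.lf (nat_lit 0) (nat_lit 1668264850) (nat_lit 988) (nat_lit 2600351981) (nat_lit 76) (nat_lit 13667167506) (nat_lit 378) (nat_lit 5) (nat_lit 391) (nat_lit 5) (nat_lit 379) (nat_lit 5) (nat_lit 470) (nat_lit 437) (nat_lit 233))))))))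
noncomputable def xc213 : XT := (XT.nd (nat_lit 1794) (nat_lit 5396) (nat_lit 0) (XT.nd (nat_lit 858) (nat_lit 4712) (nat_lit 0) (XT.nd (nat_lit 390) (nat_lit 2356) (nat_lit 0) (XT.nd (nat_lit 156) (nat_lit 1596) (nat_lit 0) (XT.nd (nat_lit 78) (nat_lit 0) (nat_lit 0) (XT.lf (nat_lit 0) (nat_lit 3707350528) (nat_lit 912) (nat_lit 10982582601) (nat_lit 76) (nat_lit 3441420107) (nat_lit 367) (nat_lit 5) (nat_lit 379) (nat_lit 5) (nat_lit 368) (nat_lit 5) (nat_lit 471) (nat_lit 437) (nat_lit 232)) (XT.lf (nat_lit 0) (nat_lit 5827049099) (nat_lit 912) (nat_lit 1236686699) (nat_lit 76) (nat_lit 11266302277) (nat_lit 367) (nat_lit 5) (nat_lit 379) (nat_lit 5) (nat_lit 368) (nat_lit 5) (nat_lit 472) (nat_lit 437) (nat_lit 231))) (XT.nd (nat_lit 78) (nat_lit 760) (nat_lit 0) (XT.lf (nat_lit 0) (nat_lit 8045503451) (nat_lit 912) (nat_lit 9722794808) (nat_lit 76) (nat_lit 763272277) (nat_lit 356) (nat_lit 5) (nat_lit 368) (nat_lit 5)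 (nat_lit 357) (nat_lit 5) (nat_lit 473) (nat_lit 437) (nat_lit 230)) (XT.nd (nat_lit 78) (nat_lit 0) (nat_lit 0) (XT.lf (nat_lit 0) (nat_lit 285954640) (nat_lit 760) (nat_lit 10073554912) (nat_lit 836) (nat_lit 8376601579) (nat_lit 346) (nat_lit 5) (nat_lit 356) (nat_lit 5) (nat_lit 357) (nat_lit 5) (nat_lit 474) (nat_lit 437) (nat_lit 229)) (XT.lf (nat_lit 0) (nat_lit 10620808578) (nat_lit 760) (nat_lit 2158500628) (nat_lit 836) (nat_lit 6164244181) (nat_lit 346) (nat_lit 5) (nat_lit 356) (nat_lit 5) (nat_lit 357) (nat_lit 5) (nat_lit 475) (nat_lit 437) (nat_lit 228))))) (XT.nd (nat_lit 234) (nat_lit 760) (nat_lit 0) (XT.nd (nat_lit 78) (nat_lit 836) (nat_lit 0) (XT.lf (nat_lit 0) (nat_lit 1989035342) (nat_lit 760) (nat_lit 13304166701) (nat_lit 836) (nat_lit 3861029596) (nat_lit 336) (nat_lit 5) (nat_lit 346) (nat_lit 5) (nat_lit 347) (nat_lit 5) (nat_lit 476) (nat_lit 437) (nat_lit 227)) (XT.nd (nat_lit 78) (nat_lit 836)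 (nat_lit 0) (XT.lf (nat_lit 0) (nat_lit 12599558832) (nat_lit 760) (nat_lit 5322316838) (nat_lit 836) (nat_lit 1445958801) (nat_lit 336) (nat_lit 5) (nat_lit 346) (nat_lit 5) (nat_lit 347) (nat_lit 5) (nat_lit 477) (nat_lit 437) (nat_lit 226)) (XT.lf (nat_lit 0) (nat_lit 1042265297) (nat_lit 836) (nat_lit 15728681852) (nat_lit 76) (nat_lit 2813867218) (nat_lit 325) (nat_lit 5) (nat_lit 336) (nat_lit 5) (nat_lit 326) (nat_lit 5) (nat_lit 478) (nat_lit 437) (nat_lit 225)))) (XT.nd (nat_lit 78) (nat_lit 760) (nat_lit 0) (XT.lf (nat_lit 0) (nat_lit 3636469047) (nat_lit 836) (nat_lit 5071427752) (nat_lit 76) (nat_lit 11096535387) (nat_lit 325) (nat_lit 5) (nat_lit 336) (nat_lit 5) (nat_lit 326) (nat_lit 5) (nat_lit 479) (nat_lit 437) (nat_lit 224)) (XT.nd (nat_lit 78) (nat_lit 0) (nat_lit 0) (XT.lf (nat_lit 0) (nat_lit 5870222164) (nat_lit 760) (nat_lit 445145976) (nat_lit 836) (nat_lit 13712418987) (nat_lit 315) (nat_lit 5) (nat_lit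 325) (nat_lit 5) (nat_lit 326) (nat_lit 5) (nat_lit 480) (nat_lit 437) (nat_lit 223)) (XT.lf (nat_lit 0) (nat_lit 9128694386) (nat_lit 836) (nat_lit 3213337498) (nat_lit 76) (nat_lit 7911961272) (nat_lit 315) (nat_lit 5) (nat_lit 326) (nat_lit 5) (nat_lit 316) (nat_lit 5) (nat_lit 481) (nat_lit 437) (nat_lit 222)))))) (XT.nd (nat_lit 468) (nat_lit 1900) (nat_lit 0) (XT.nd (nat_lit 234) (nat_lit 1444) (nat_lit 0) (XT.nd (nat_lit 78) (nat_lit 684) (nat_lit 0) (XT.lf (nat_lit 0) (nat_lit 8046670663) (nat_lit 684) (nat_lit 4001673335) (nat_lit 760) (nat_lit 8435379123) (nat_lit 306) (nat_lit 5) (nat_lit 315) (nat_lit 5) (nat_lit 316) (nat_lit 5) (nat_lit 482) (nat_lit 437) (nat_lit 221)) (XT.nd (nat_lit 78) (nat_lit 684) (nat_lit 0) (XT.lf (nat_lit 0) (nat_lit 15072269999) (nat_lit 760) (nat_lit 1177325810) (nat_lit 76) (nat_lit 4467535144) (nat_lit 306) (nat_lit 5) (nat_lit 316) (nat_lit 5) (nat_lit 307) (nat_lit 5) (nat_lit 483)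 (nat_lit 437) (nat_lit 220)) (XT.lf (nat_lit 0) (nat_lit 10412011822) (nat_lit 684) (nat_lit 7833789808) (nat_lit 760) (nat_lit 2707623685) (nat_lit 297) (nat_lit 5) (nat_lit 306) (nat_lit 5) (nat_lit 307) (nat_lit 5) (nat_lit 484) (nat_lit 437) (nat_lit 219)))) (XT.nd (nat_lit 78) (nat_lit 684) (nat_lit 0) (XT.lf (nat_lit 0) (nat_lit 299448552) (nat_lit 760) (nat_lit 20138056119) (nat_lit 76) (nat_lit 756606888) (nat_lit 287) (nat_lit 5) (nat_lit 297) (nat_lit 5) (nat_lit 288) (nat_lit 5) (nat_lit 485) (nat_lit 437) (nat_lit 218)) (XT.nd (nat_lit 78) (nat_lit 684) (nat_lit 0) (XT.lf (nat_lit 0) (nat_lit 3448635031) (nat_lit 760) (nat_lit 8485834382) (nat_lit 76) (nat_lit 9502420471) (nat_lit 287) (nat_lit 5) (nat_lit 297) (nat_lit 5) (nat_lit 288) (nat_lit 5) (nat_lit 486) (nat_lit 437) (nat_lit 217)) (XT.lf (nat_lit 0) (nat_lit 3438922245) (nat_lit 684) (nat_lit 3239414374) (nat_lit 760) (nat_lit 15005837378) (nat_lit 278)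 (nat_lit 5) (nat_lit 287) (nat_lit 5) (nat_lit 288) (nat_lit 5) (nat_lit 487) (nat_lit 437) (nat_lit 216))))) (XT.nd (nat_lit 234) (nat_lit 1292) (nat_lit 0) (XT.nd (nat_lit 78) (nat_lit 608) (nat_lit 0) (XT.lf (nat_lit 0) (nat_lit 10061760526) (nat_lit 760) (nat_lit 6260655893) (nat_lit 76) (nat_lit 5612205635) (nat_lit 278) (nat_lit 5) (nat_lit 288) (nat_lit 5) (nat_lit 279) (nat_lit 5) (nat_lit 488) (nat_lit 437) (nat_lit 215)) (XT.nd (nat_lit 78) (nat_lit 0) (nat_lit 0) (XT.lf (nat_lit 0) (nat_lit 6015519624) (nat_lit 608) (nat_lit 7553192160) (nat_lit 684) (nat_lit 8620250924) (nat_lit 270) (nat_lit 5) (nat_lit 278) (nat_lit 5) (nat_lit 279) (nat_lit 5) (nat_lit 489) (nat_lit 437) (nat_lit 214)) (XT.lf (nat_lit 0) (nat_lit 17192525038) (nat_lit 684) (nat_lit 3840382657) (nat_lit 76) (nat_lit 1414548820) (nat_lit 270) (nat_lit 5) (nat_lit 279) (nat_lit 5) (nat_lit 271) (nat_lit 5) (nat_lit 490) (nat_lit 437) (nat_lit 213))))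 (XT.nd (nat_lit 78) (nat_lit 684) (nat_lit 0) (XT.lf (nat_lit 0) (nat_lit 8799227178) (nat_lit 608) (nat_lit 12192227608) (nat_lit 684) (nat_lit 1717613388) (nat_lit 262) (nat_lit 5) (nat_lit 270) (nat_lit 5) (nat_lit 271) (nat_lit 5) (nat_lit 491) (nat_lit 437) (nat_lit 212)) (XT.nd (nat_lit 78) (nat_lit 608) (nat_lit 0) (XT.lf (nat_lit 0) (nat_lit 1887110525) (nat_lit 684) (nat_lit 1249673136) (nat_lit 76) (nat_lit 19838454615) (nat_lit 261) (nat_lit 5) (nat_lit 270) (nat_lit 5) (nat_lit 262) (nat_lit 5) (nat_lit 492) (nat_lit 437) (nat_lit 211)) (XT.lf (nat_lit 0) (nat_lit 5653355392) (nat_lit 684) (nat_lit 11483546171) (nat_lit 76) (nat_lit 6107355379) (nat_lit 253) (nat_lit 5) (nat_lit 262) (nat_lit 5) (nat_lit 254) (nat_lit 5) (nat_lit 493) (nat_lit 437) (nat_lit 210))))))) (XT.nd (nat_lit 936) (nat_lit 1444) (nat_lit 0) (XT.nd (nat_lit 468) (nat_lit 2128) (nat_lit 0) (XT.nd (nat_lit 234) (nat_lit 684) (nat_lit 0) (XT.nd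 (nat_lit 78) (nat_lit 532) (nat_lit 0) (XT.lf (nat_lit 0) (nat_lit 1523449502) (nat_lit 608) (nat_lit 8006225956) (nat_lit 684) (nat_lit 13988286237) (nat_lit 245) (nat_lit 5) (nat_lit 253) (nat_lit 5) (nat_lit 254) (nat_lit 5) (nat_lit 494) (nat_lit 437) (nat_lit 209)) (XT.nd (nat_lit 78) (nat_lit 532) (nat_lit 0) (XT.lf (nat_lit 0) (nat_lit 13565266365) (nat_lit 684) (nat_lit 8863847722) (nat_lit 76) (nat_lit 1366392278) (nat_lit 245) (nat_lit 5) (nat_lit 254) (nat_lit 5) (nat_lit 246) (nat_lit 5) (nat_lit 495) (nat_lit 437) (nat_lit 208)) (XT.lf (nat_lit 0) (nat_lit 4530434657) (nat_lit 532) (nat_lit 13229342091) (nat_lit 608) (nat_lit 6317261722) (nat_lit 238) (nat_lit 5) (nat_lit 245) (nat_lit 5) (nat_lit 246) (nat_lit 5) (nat_lit 496) (nat_lit 437) (nat_lit 207)))) (XT.nd (nat_lit 78) (nat_lit 684) (nat_lit 0) (XT.lf (nat_lit 0) (nat_lit 18307398461) (nat_lit 532) (nat_lit 3786079802) (nat_lit 608) (nat_lit 2269617616)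 (nat_lit 238) (nat_lit 5) (nat_lit 245) (nat_lit 5) (nat_lit 246) (nat_lit 5) (nat_lit 497) (nat_lit 437) (nat_lit 206)) (XT.nd (nat_lit 78) (nat_lit 0) (nat_lit 0) (XT.lf (nat_lit 0) (nat_lit 1919412812) (nat_lit 684) (nat_lit 16902252581) (nat_lit 76) (nat_lit 5831272016) (nat_lit 229) (nat_lit 5) (nat_lit 238) (nat_lit 5) (nat_lit 230) (nat_lit 5) (nat_lit 498) (nat_lit 437) (nat_lit 205)) (XT.lf (nat_lit 0) (nat_lit 6223754429) (nat_lit 684) (nat_lit 3078200868) (nat_lit 76) (nat_lit 15645082655) (nat_lit 229) (nat_lit 5) (nat_lit 238) (nat_lit 5) (nat_lit 230) (nat_lit 5) (nat_lit 499) (nat_lit 437) (nat_lit 204))))) (XT.nd (nat_lit 234) (nat_lit 1064) (nat_lit 0) (XT.nd (nat_lit 78) (nat_lit 532) (nat_lit 0) (XT.lf (nat_lit 0) (nat_lit 10685778782) (nat_lit 608) (nat_lit 14085271640) (nat_lit 76) (nat_lit 474538795) (nat_lit 222) (nat_lit 5) (nat_lit 230) (nat_lit 5) (nat_lit 223) (nat_lit 5) (nat_lit 500) (nat_lit 437)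 (nat_lit 203)) (XT.nd (nat_lit 78) (nat_lit 0) (nat_lit 0) (XT.lf (nat_lit 0) (nat_lit 110059609) (nat_lit 532) (nat_lit 15206123851) (nat_lit 608) (nat_lit 10232345868) (nat_lit 215) (nat_lit 5) (nat_lit 222) (nat_lit 5) (nat_lit 223) (nat_lit 5) (nat_lit 501) (nat_lit 437) (nat_lit 202)) (XT.lf (nat_lit 0) (nat_lit 14774983247) (nat_lit 532) (nat_lit 5354806132) (nat_lit 608) (nat_lit 5725927604) (nat_lit 215) (nat_lit 5) (nat_lit 222) (nat_lit 5) (nat_lit 223) (nat_lit 5) (nat_lit 502) (nat_lit 437) (nat_lit 201)))) (XT.nd (nat_lit 78) (nat_lit 608) (nat_lit 0) (XT.lf (nat_lit 0) (nat_lit 3575364781) (nat_lit 456) (nat_lit 21514132000) (nat_lit 532) (nat_lit 1078555613) (nat_lit 209) (nat_lit 5) (nat_lit 215) (nat_lit 5) (nat_lit 216) (nat_lit 5) (nat_lit 503) (nat_lit 437) (nat_lit 200)) (XT.nd (nat_lit 78) (nat_lit 532) (nat_lit 0) (XT.lf (nat_lit 0) (nat_lit 3720209767) (nat_lit 532) (nat_lit 7875316681) (nat_lit 76)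 (nat_lit 14888503731) (nat_lit 208) (nat_lit 5) (nat_lit 215) (nat_lit 5) (nat_lit 209) (nat_lit 5) (nat_lit 504) (nat_lit 437) (nat_lit 199)) (XT.lf (nat_lit 0) (nat_lit 7218809884) (nat_lit 532) (nat_lit 1424815198) (nat_lit 608) (nat_lit 18161698081) (nat_lit 201) (nat_lit 5) (nat_lit 208) (nat_lit 5) (nat_lit 209) (nat_lit 5) (nat_lit 505) (nat_lit 437) (nat_lit 198)))))) (XT.nd (nat_lit 54132) (nat_lit 0) (nat_lit 20292) (XT.nd (nat_lit 234) (nat_lit 988) (nat_lit 0) (XT.nd (nat_lit 78) (nat_lit 456) (nat_lit 0) (XT.lf (nat_lit 0) (nat_lit 13773076680) (nat_lit 608) (nat_lit 4474026422) (nat_lit 76) (nat_lit 8883788094) (nat_lit 201) (nat_lit 5) (nat_lit 209) (nat_lit 5) (nat_lit 202) (nat_lit 5) (nat_lit 506) (nat_lit 437) (nat_lit 197)) (XT.nd (nat_lit 78) (nat_lit 0) (nat_lit 0) (XT.lf (nat_lit 0) (nat_lit 11071421628) (nat_lit 456) (nat_lit 8011353389) (nat_lit 532) (nat_lit 8378642955) (nat_lit 195) (nat_lit 5) (nat_lit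 201) (nat_lit 5) (nat_lit 202) (nat_lit 5) (nat_lit 507) (nat_lit 437) (nat_lit 196)) (XT.lf (nat_lit 0) (nat_lit 24541029537) (nat_lit 532) (nat_lit 830586777) (nat_lit 76) (nat_lit 2426092250) (nat_lit 195) (nat_lit 5) (nat_lit 202) (nat_lit 5) (nat_lit 196) (nat_lit 5) (nat_lit 508) (nat_lit 437) (nat_lit 195)))) (XT.nd (nat_lit 78) (nat_lit 456) (nat_lit 0) (XT.lf (nat_lit 0) (nat_lit 2090958159) (nat_lit 532) (nat_lit 12970449660) (nat_lit 76) (nat_lit 13076081320) (nat_lit 188) (nat_lit 5) (nat_lit 195) (nat_lit 5) (nat_lit 189) (nat_lit 5) (nat_lit 509) (nat_lit 437) (nat_lit 194)) (XT.nd (nat_lit 53742) (nat_lit 0) (nat_lit 21888) (XT.lf (nat_lit 0) (nat_lit 3024990162) (nat_lit 456) (nat_lit 4498696506) (nat_lit 532) (nat_lit 20959513708) (nat_lit 182) (nat_lit 5) (nat_lit 188) (nat_lit 5) (nat_lit 189) (nat_lit 5) (nat_lit 510) (nat_lit 437) (nat_lit 193)) (XT.lf (nat_lit 0) (nat_lit 5427659228) (nat_lit 1748) (nat_lit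 560361392) (nat_lit 1748) (nat_lit 560361392) (nat_lit 470) (nat_lit 3) (nat_lit 493) (nat_lit 3) (nat_lit 493) (nat_lit 5) (nat_lit 438) (nat_lit 438) (nat_lit 264))))) (XT.nd (nat_lit 234) (nat_lit 1596) (nat_lit 0) (XT.nd (nat_lit 78) (nat_lit 0) (nat_lit 0) (XT.lf (nat_lit 76) (nat_lit 5319121860) (nat_lit 0) (nat_lit 6068382292) (nat_lit 1748) (nat_lit 1831666285) (nat_lit 471) (nat_lit 5) (nat_lit 470) (nat_lit 3) (nat_lit 493) (nat_lit 5) (nat_lit 439) (nat_lit 438) (nat_lit 263)) (XT.nd (nat_lit 78) (nat_lit 0) (nat_lit 76) (XT.lf (nat_lit 76) (nat_lit 11897679598) (nat_lit 0) (nat_lit 29934192) (nat_lit 1748) (nat_lit 1416467904) (nat_lit 471) (nat_lit 5) (nat_lit 470) (nat_lit 3) (nat_lit 493) (nat_lit 5) (nat_lit 440) (nat_lit 438) (nat_lit 262)) (XT.lf (nat_lit 76) (nat_lit 5158773459) (nat_lit 0) (nat_lit 7383033694) (nat_lit 1748) (nat_lit 928420672) (nat_lit 472) (nat_lit 5) (nat_lit 471) (nat_lit 5) (nat_lit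 494) (nat_lit 5) (nat_lit 441) (nat_lit 438) (nat_lit 261)))) (XT.nd (nat_lit 78) (nat_lit 1672) (nat_lit 0) (XT.lf (nat_lit 76) (nat_lit 11910086859) (nat_lit 0) (nat_lit 1258253925) (nat_lit 1748) (nat_lit 430557199) (nat_lit 472) (nat_lit 5) (nat_lit 471) (nat_lit 5) (nat_lit 494) (nat_lit 5) (nat_lit 442) (nat_lit 438) (nat_lit 260)) (XT.nd (nat_lit 78) (nat_lit 0) (nat_lit 0) (XT.lf (nat_lit 0) (nat_lit 132466457) (nat_lit 1748) (nat_lit 8634670062) (nat_lit 1824) (nat_lit 4961872814) (nat_lit 449) (nat_lit 5) (nat_lit 472) (nat_lit 5) (nat_lit 473) (nat_lit 5) (nat_lit 443) (nat_lit 438) (nat_lit 259)) (XT.lf (nat_lit 0) (nat_lit 711194866) (nat_lit 1748) (nat_lit 1842292843) (nat_lit 1824) (nat_lit 11307976197) (nat_lit 449) (nat_lit 5) (nat_lit 472) (nat_lit 5) (nat_lit 473) (nat_lit 5) (nat_lit 444) (nat_lit 438) (nat_lit 258))))))))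
noncomputable def xc214 : XT := (XT.nd (nat_lit 1794) (nat_lit 10108) (nat_lit 0) (XT.nd (nat_lit 858) (nat_lit 3572) (nat_lit 0) (XT.nd (nat_lit 390) (nat_lit 0) (nat_lit 152) (XT.nd (nat_lit 156) (nat_lit 0) (nat_lit 76) (XT.nd (nat_lit 78) (nat_lit 0) (nat_lit 0) (XT.lf (nat_lit 0) (nat_lit 1350389867) (nat_lit 1748) (nat_lit 8872930032) (nat_lit 1824) (nat_lit 3772271894) (nat_lit 450) (nat_lit 5) (nat_lit 473) (nat_lit 5) (nat_lit 474) (nat_lit 5) (nat_lit 445) (nat_lit 438) (nat_lit 257)) (XT.lf (nat_lit 0) (nat_lit 2022546751) (nat_lit 1748) (nat_lit 1902906496) (nat_lit 1824) (nat_lit 10206547454) (nat_lit 450) (nat_lit 5) (nat_lit 473) (nat_lit 5) (nat_lit 474) (nat_lit 5) (nat_lit 446) (nat_lit 438) (nat_lit 256))) (XT.nd (nat_lit 78) (nat_lit 0) (nat_lit 0) (XT.lf (nat_lit 0) (nat_lit 2749836691) (nat_lit 1748) (nat_lit 9017006333) (nat_lit 1824) (nat_lit 2503462949) (nat_lit 451) (nat_lit 5) (nat_lit 474) (nat_lit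 5) (nat_lit 475) (nat_lit 5) (nat_lit 447) (nat_lit 438) (nat_lit 255)) (XT.nd (nat_lit 78) (nat_lit 0) (nat_lit 76) (XT.lf (nat_lit 0) (nat_lit 3521688161) (nat_lit 1748) (nat_lit 1864479664) (nat_lit 1824) (nat_lit 9024611153) (nat_lit 451) (nat_lit 5) (nat_lit 474) (nat_lit 5) (nat_lit 475) (nat_lit 5) (nat_lit 448) (nat_lit 438) (nat_lit 254)) (XT.lf (nat_lit 0) (nat_lit 4343551192) (nat_lit 1748) (nat_lit 9063454166) (nat_lit 1824) (nat_lit 1146366501) (nat_lit 452) (nat_lit 5) (nat_lit 475) (nat_lit 5) (nat_lit 476) (nat_lit 5) (nat_lit 449) (nat_lit 438) (nat_lit 253))))) (XT.nd (nat_lit 234) (nat_lit 0) (nat_lit 76) (XT.nd (nat_lit 78) (nat_lit 0) (nat_lit 0) (XT.lf (nat_lit 0) (nat_lit 5221607579) (nat_lit 1748) (nat_lit 1723386938) (nat_lit 1824) (nat_lit 7753028828) (nat_lit 452) (nat_lit 5) (nat_lit 475) (nat_lit 5) (nat_lit 476) (nat_lit 5) (nat_lit 450) (nat_lit 438) (nat_lit 252)) (XT.nd (nat_lit 78) (nat_lit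 0) (nat_lit 76) (XT.lf (nat_lit 76) (nat_lit 5834368824) (nat_lit 0) (nat_lit 312395306) (nat_lit 1824) (nat_lit 8698214782) (nat_lit 453) (nat_lit 5) (nat_lit 452) (nat_lit 5) (nat_lit 476) (nat_lit 5) (nat_lit 451) (nat_lit 438) (nat_lit 251)) (XT.lf (nat_lit 0) (nat_lit 7135764144) (nat_lit 1748) (nat_lit 1475752087) (nat_lit 1824) (nat_lit 6382452349) (nat_lit 453) (nat_lit 5) (nat_lit 476) (nat_lit 5) (nat_lit 477) (nat_lit 5) (nat_lit 452) (nat_lit 438) (nat_lit 250)))) (XT.nd (nat_lit 78) (nat_lit 0) (nat_lit 76) (XT.lf (nat_lit 76) (nat_lit 6284492114) (nat_lit 0) (nat_lit 1894887398) (nat_lit 1824) (nat_lit 6965863582) (nat_lit 454) (nat_lit 5) (nat_lit 453) (nat_lit 5) (nat_lit 477) (nat_lit 5) (nat_lit 453) (nat_lit 438) (nat_lit 249)) (XT.nd (nat_lit 78) (nat_lit 0) (nat_lit 0) (XT.lf (nat_lit 0) (nat_lit 9278113288) (nat_lit 1748) (nat_lit 1117445325) (nat_lit 1824) (nat_lit 4903301290) (nat_lit 454) (nat_lit 5)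 (nat_lit 477) (nat_lit 5) (nat_lit 478) (nat_lit 5) (nat_lit 454) (nat_lit 438) (nat_lit 248)) (XT.lf (nat_lit 76) (nat_lit 6852359216) (nat_lit 0) (nat_lit 3595755746) (nat_lit 1824) (nat_lit 5006449915) (nat_lit 455) (nat_lit 5) (nat_lit 454) (nat_lit 5) (nat_lit 478) (nat_lit 5) (nat_lit 455) (nat_lit 438) (nat_lit 247)))))) (XT.nd (nat_lit 468) (nat_lit 2204) (nat_lit 0) (XT.nd (nat_lit 234) (nat_lit 1748) (nat_lit 0) (XT.nd (nat_lit 78) (nat_lit 0) (nat_lit 0) (XT.lf (nat_lit 0) (nat_lit 11663133035) (nat_lit 1748) (nat_lit 644080227) (nat_lit 1824) (nat_lit 3305740020) (nat_lit 455) (nat_lit 5) (nat_lit 478) (nat_lit 5) (nat_lit 479) (nat_lit 5) (nat_lit 456) (nat_lit 438) (nat_lit 246)) (XT.nd (nat_lit 78) (nat_lit 0) (nat_lit 76) (XT.lf (nat_lit 76) (nat_lit 7542613645) (nat_lit 0) (nat_lit 5425154075) (nat_lit 1824) (nat_lit 2805437038) (nat_lit 456) (nat_lit 5) (nat_lit 455) (nat_lit 5) (nat_lit 479) (nat_lit 5) (nat_lit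 457) (nat_lit 438) (nat_lit 245)) (XT.lf (nat_lit 0) (nat_lit 14305850978) (nat_lit 1748) (nat_lit 51010306) (nat_lit 1824) (nat_lit 1579654456) (nat_lit 456) (nat_lit 5) (nat_lit 479) (nat_lit 5) (nat_lit 480) (nat_lit 5) (nat_lit 458) (nat_lit 438) (nat_lit 244)))) (XT.nd (nat_lit 78) (nat_lit 1824) (nat_lit 0) (XT.lf (nat_lit 76) (nat_lit 8360167193) (nat_lit 0) (nat_lit 7393532989) (nat_lit 1824) (nat_lit 347734238) (nat_lit 457) (nat_lit 5) (nat_lit 456) (nat_lit 5) (nat_lit 480) (nat_lit 5) (nat_lit 459) (nat_lit 438) (nat_lit 243)) (XT.nd (nat_lit 78) (nat_lit 0) (nat_lit 76) (XT.lf (nat_lit 76) (nat_lit 667356032) (nat_lit 0) (nat_lit 278426808) (nat_lit 1900) (nat_lit 15323794771) (nat_lit 433) (nat_lit 5) (nat_lit 432) (nat_lit 5) (nat_lit 457) (nat_lit 5) (nat_lit 460) (nat_lit 438) (nat_lit 242)) (XT.lf (nat_lit 0) (nat_lit 2351086319) (nat_lit 1824) (nat_lit 7144800799) (nat_lit 1900) (nat_lit 6943340606) (nat_lit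 433) (nat_lit 5) (nat_lit 457) (nat_lit 5) (nat_lit 458) (nat_lit 5) (nat_lit 461) (nat_lit 438) (nat_lit 241))))) (XT.nd (nat_lit 234) (nat_lit 912) (nat_lit 0) (XT.nd (nat_lit 78) (nat_lit 1368) (nat_lit 0) (XT.lf (nat_lit 76) (nat_lit 1493746951) (nat_lit 0) (nat_lit 2295392853) (nat_lit 1900) (nat_lit 12823039602) (nat_lit 434) (nat_lit 5) (nat_lit 433) (nat_lit 5) (nat_lit 458) (nat_lit 5) (nat_lit 462) (nat_lit 438) (nat_lit 240)) (XT.nd (nat_lit 78) (nat_lit 1444) (nat_lit 0) (XT.lf (nat_lit 0) (nat_lit 5330206089) (nat_lit 1824) (nat_lit 6424690338) (nat_lit 76) (nat_lit 5032210076) (nat_lit 434) (nat_lit 5) (nat_lit 458) (nat_lit 5) (nat_lit 435) (nat_lit 5) (nat_lit 463) (nat_lit 438) (nat_lit 239)) (XT.lf (nat_lit 0) (nat_lit 2454152448) (nat_lit 1444) (nat_lit 4472416374) (nat_lit 1520) (nat_lit 10038475207) (nat_lit 415) (nat_lit 5) (nat_lit 434) (nat_lit 5) (nat_lit 435) (nat_lit 5) (nat_lit 464) (nat_lit 438)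 (nat_lit 238)))) (XT.nd (nat_lit 78) (nat_lit 912) (nat_lit 0) (XT.lf (nat_lit 0) (nat_lit 8610886620) (nat_lit 1520) (nat_lit 5573353389) (nat_lit 76) (nat_lit 2961181099) (nat_lit 415) (nat_lit 5) (nat_lit 435) (nat_lit 5) (nat_lit 416) (nat_lit 5) (nat_lit 465) (nat_lit 438) (nat_lit 237)) (XT.nd (nat_lit 78) (nat_lit 0) (nat_lit 0) (XT.lf (nat_lit 0) (nat_lit 3554185761) (nat_lit 912) (nat_lit 6820967235) (nat_lit 988) (nat_lit 6953328825) (nat_lit 403) (nat_lit 5) (nat_lit 415) (nat_lit 5) (nat_lit 416) (nat_lit 5) (nat_lit 466) (nat_lit 438) (nat_lit 236)) (XT.lf (nat_lit 0) (nat_lit 12210490316) (nat_lit 988) (nat_lit 4585196064) (nat_lit 76) (nat_lit 718802963) (nat_lit 403) (nat_lit 5) (nat_lit 416) (nat_lit 5) (nat_lit 404) (nat_lit 5) (nat_lit 467) (nat_lit 438) (nat_lit 235))))))) (XT.nd (nat_lit 936) (nat_lit 4180) (nat_lit 0) (XT.nd (nat_lit 468) (nat_lit 3192) (nat_lit 0) (XT.nd (nat_lit 234) (nat_lit 836) (nat_lit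 0) (XT.nd (nat_lit 78) (nat_lit 988) (nat_lit 0) (XT.lf (nat_lit 0) (nat_lit 4799738442) (nat_lit 912) (nat_lit 9352915940) (nat_lit 988) (nat_lit 3550161517) (nat_lit 391) (nat_lit 5) (nat_lit 403) (nat_lit 5) (nat_lit 404) (nat_lit 5) (nat_lit 468) (nat_lit 438) (nat_lit 234)) (XT.nd (nat_lit 78) (nat_lit 988) (nat_lit 0) (XT.lf (nat_lit 0) (nat_lit 14428837890) (nat_lit 912) (nat_lit 1729462804) (nat_lit 988) (nat_lit 1736116771) (nat_lit 391) (nat_lit 5) (nat_lit 403) (nat_lit 5) (nat_lit 404) (nat_lit 5) (nat_lit 469) (nat_lit 438) (nat_lit 233)) (XT.lf (nat_lit 0) (nat_lit 186681907) (nat_lit 988) (nat_lit 11892625563) (nat_lit 76) (nat_lit 6009050551) (nat_lit 378) (nat_lit 5) (nat_lit 391) (nat_lit 5) (nat_lit 379) (nat_lit 5) (nat_lit 470) (nat_lit 438) (nat_lit 232)))) (XT.nd (nat_lit 78) (nat_lit 836) (nat_lit 0) (XT.lf (nat_lit 0) (nat_lit 2153608442) (nat_lit 988) (nat_lit 2217312566) (nat_lit 76) (nat_lit 13914449681)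 (nat_lit 378) (nat_lit 5) (nat_lit 391) (nat_lit 5) (nat_lit 379) (nat_lit 5) (nat_lit 471) (nat_lit 438) (nat_lit 231)) (XT.nd (nat_lit 78) (nat_lit 0) (nat_lit 0) (XT.lf (nat_lit 0) (nat_lit 4227330346) (nat_lit 912) (nat_lit 10760954304) (nat_lit 76) (nat_lit 3496690986) (nat_lit 367) (nat_lit 5) (nat_lit 379) (nat_lit 5) (nat_lit 368) (nat_lit 5) (nat_lit 472) (nat_lit 438) (nat_lit 230)) (XT.lf (nat_lit 0) (nat_lit 6380681069) (nat_lit 912) (nat_lit 828793031) (nat_lit 76) (nat_lit 11478336633) (nat_lit 367) (nat_lit 5) (nat_lit 379) (nat_lit 5) (nat_lit 368) (nat_lit 5) (nat_lit 473) (nat_lit 438) (nat_lit 229))))) (XT.nd (nat_lit 234) (nat_lit 1596) (nat_lit 0) (XT.nd (nat_lit 78) (nat_lit 760) (nat_lit 0) (XT.lf (nat_lit 0) (nat_lit 8637714588) (nat_lit 912) (nat_lit 9478748791) (nat_lit 76) (nat_lit 777027954) (nat_lit 356) (nat_lit 5) (nat_lit 368) (nat_lit 5) (nat_lit 357) (nat_lit 5) (nat_lit 474) (nat_lit 438)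 (nat_lit 228)) (XT.nd (nat_lit 78) (nat_lit 0) (nat_lit 0) (XT.lf (nat_lit 0) (nat_lit 727290765) (nat_lit 760) (nat_lit 10265081477) (nat_lit 836) (nat_lit 8109864729) (nat_lit 346) (nat_lit 5) (nat_lit 356) (nat_lit 5) (nat_lit 357) (nat_lit 5) (nat_lit 475) (nat_lit 438) (nat_lit 227)) (XT.lf (nat_lit 0) (nat_lit 11260300271) (nat_lit 760) (nat_lit 2191921099) (nat_lit 836) (nat_lit 5861775258) (nat_lit 346) (nat_lit 5) (nat_lit 356) (nat_lit 5) (nat_lit 357) (nat_lit 5) (nat_lit 476) (nat_lit 438) (nat_lit 226)))) (XT.nd (nat_lit 78) (nat_lit 836) (nat_lit 0) (XT.lf (nat_lit 0) (nat_lit 2461391359) (nat_lit 760) (nat_lit 13549688467) (nat_lit 836) (nat_lit 3517916458) (nat_lit 336) (nat_lit 5) (nat_lit 346) (nat_lit 5) (nat_lit 347) (nat_lit 5) (nat_lit 477) (nat_lit 438) (nat_lit 225)) (XT.nd (nat_lit 78) (nat_lit 836) (nat_lit 0) (XT.lf (nat_lit 0) (nat_lit 13275643450) (nat_lit 760) (nat_lit 5408604774) (nat_lit 836)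 (nat_lit 1062786085) (nat_lit 336) (nat_lit 5) (nat_lit 346) (nat_lit 5) (nat_lit 347) (nat_lit 5) (nat_lit 478) (nat_lit 438) (nat_lit 224)) (XT.lf (nat_lit 0) (nat_lit 1464758347) (nat_lit 836) (nat_lit 15608566168) (nat_lit 76) (nat_lit 2895078070) (nat_lit 325) (nat_lit 5) (nat_lit 336) (nat_lit 5) (nat_lit 326) (nat_lit 5) (nat_lit 479) (nat_lit 438) (nat_lit 223)))))) (XT.nd (nat_lit 468) (nat_lit 2052) (nat_lit 0) (XT.nd (nat_lit 234) (nat_lit 1368) (nat_lit 0) (XT.nd (nat_lit 78) (nat_lit 760) (nat_lit 0) (XT.lf (nat_lit 0) (nat_lit 4102970726) (nat_lit 836) (nat_lit 4746690305) (nat_lit 76) (nat_lit 11342910710) (nat_lit 325) (nat_lit 5) (nat_lit 336) (nat_lit 5) (nat_lit 326) (nat_lit 5) (nat_lit 480) (nat_lit 438) (nat_lit 222)) (XT.nd (nat_lit 78) (nat_lit 0) (nat_lit 0) (XT.lf (nat_lit 0) (nat_lit 6410988885) (nat_lit 760) (nat_lit 419486639) (nat_lit 836) (nat_lit 13590019147) (nat_lit 315) (nat_lit 5) (nat_lit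 325) (nat_lit 5) (nat_lit 326) (nat_lit 5) (nat_lit 481) (nat_lit 438) (nat_lit 221)) (XT.lf (nat_lit 0) (nat_lit 9692664767) (nat_lit 836) (nat_lit 2855068880) (nat_lit 76) (nat_lit 8103640660) (nat_lit 315) (nat_lit 5) (nat_lit 326) (nat_lit 5) (nat_lit 316) (nat_lit 5) (nat_lit 482) (nat_lit 438) (nat_lit 220)))) (XT.nd (nat_lit 78) (nat_lit 684) (nat_lit 0) (XT.lf (nat_lit 0) (nat_lit 8627359606) (nat_lit 684) (nat_lit 4038594733) (nat_lit 760) (nat_lit 8219840980) (nat_lit 306) (nat_lit 5) (nat_lit 315) (nat_lit 5) (nat_lit 316) (nat_lit 5) (nat_lit 483) (nat_lit 438) (nat_lit 219)) (XT.nd (nat_lit 78) (nat_lit 684) (nat_lit 0) (XT.lf (nat_lit 0) (nat_lit 15743248118) (nat_lit 760) (nat_lit 782168521) (nat_lit 76) (nat_lit 4598598244) (nat_lit 306) (nat_lit 5) (nat_lit 316) (nat_lit 5) (nat_lit 307) (nat_lit 5) (nat_lit 484) (nat_lit 438) (nat_lit 218)) (XT.lf (nat_lit 0) (nat_lit 11036201233) (nat_lit 684) (nat_lit 7939504027)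 (nat_lit 760) (nat_lit 2389422110) (nat_lit 297) (nat_lit 5) (nat_lit 306) (nat_lit 5) (nat_lit 307) (nat_lit 5) (nat_lit 485) (nat_lit 438) (nat_lit 217))))) (XT.nd (nat_lit 234) (nat_lit 608) (nat_lit 0) (XT.nd (nat_lit 78) (nat_lit 684) (nat_lit 0) (XT.lf (nat_lit 0) (nat_lit 668775611) (nat_lit 760) (nat_lit 20115722603) (nat_lit 76) (nat_lit 826164704) (nat_lit 287) (nat_lit 5) (nat_lit 297) (nat_lit 5) (nat_lit 288) (nat_lit 5) (nat_lit 486) (nat_lit 438) (nat_lit 216)) (XT.nd (nat_lit 78) (nat_lit 684) (nat_lit 0) (XT.lf (nat_lit 0) (nat_lit 3873821544) (nat_lit 760) (nat_lit 8238791621) (nat_lit 76) (nat_lit 9745827388) (nat_lit 287) (nat_lit 5) (nat_lit 297) (nat_lit 5) (nat_lit 288) (nat_lit 5) (nat_lit 487) (nat_lit 438) (nat_lit 215)) (XT.lf (nat_lit 0) (nat_lit 3921718300) (nat_lit 684) (nat_lit 3242102356) (nat_lit 760) (nat_lit 14946936854) (nat_lit 278) (nat_lit 5) (nat_lit 287) (nat_lit 5) (nat_lit 288) (nat_lit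 5) (nat_lit 488) (nat_lit 438) (nat_lit 214)))) (XT.nd (nat_lit 78) (nat_lit 608) (nat_lit 0) (XT.lf (nat_lit 0) (nat_lit 10608407992) (nat_lit 760) (nat_lit 5973403932) (nat_lit 76) (nat_lit 5784533914) (nat_lit 278) (nat_lit 5) (nat_lit 288) (nat_lit 5) (nat_lit 279) (nat_lit 5) (nat_lit 489) (nat_lit 438) (nat_lit 213)) (XT.nd (nat_lit 78) (nat_lit 0) (nat_lit 0) (XT.lf (nat_lit 0) (nat_lit 6545581510) (nat_lit 608) (nat_lit 7635804356) (nat_lit 684) (nat_lit 8444470873) (nat_lit 270) (nat_lit 5) (nat_lit 278) (nat_lit 5) (nat_lit 279) (nat_lit 5) (nat_lit 490) (nat_lit 438) (nat_lit 212)) (XT.lf (nat_lit 0) (nat_lit 17871418949) (nat_lit 684) (nat_lit 3509158659) (nat_lit 76) (nat_lit 1509069103) (nat_lit 270) (nat_lit 5) (nat_lit 279) (nat_lit 5) (nat_lit 271) (nat_lit 5) (nat_lit 491) (nat_lit 438) (nat_lit 211))))))))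
noncomputable def xc215 : XT := (XT.nd (nat_lit 55536) (nat_lit 0) (nat_lit 17252) (XT.nd (nat_lit 858) (nat_lit 2052) (nat_lit 0) (XT.nd (nat_lit 390) (nat_lit 2280) (nat_lit 0) (XT.nd (nat_lit 156) (nat_lit 1216) (nat_lit 0) (XT.nd (nat_lit 78) (nat_lit 76) (nat_lit 0) (XT.lf (nat_lit 0) (nat_lit 9380558954) (nat_lit 608) (nat_lit 12361830643) (nat_lit 684) (nat_lit 1414180899) (nat_lit 262) (nat_lit 5) (nat_lit 270) (nat_lit 5) (nat_lit 271) (nat_lit 5) (nat_lit 492) (nat_lit 438) (nat_lit 210)) (XT.lf (nat_lit 0) (nat_lit 2251671019) (nat_lit 684) (nat_lit 872869391) (nat_lit 76) (nat_lit 20303611549) (nat_lit 261) (nat_lit 5) (nat_lit 270) (nat_lit 5) (nat_lit 262) (nat_lit 5) (nat_lit 493) (nat_lit 438) (nat_lit 209))) (XT.nd (nat_lit 78) (nat_lit 608) (nat_lit 0) (XT.lf (nat_lit 0) (nat_lit 6089918583) (nat_lit 684) (nat_lit 11308044042) (nat_lit 76) (nat_lit 6304655889) (nat_lit 253) (nat_lit 5) (nat_lit 262) (nat_lit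 5) (nat_lit 254) (nat_lit 5) (nat_lit 494) (nat_lit 438) (nat_lit 208)) (XT.nd (nat_lit 78) (nat_lit 0) (nat_lit 0) (XT.lf (nat_lit 0) (nat_lit 1956425932) (nat_lit 608) (nat_lit 8083609404) (nat_lit 684) (nat_lit 13941837675) (nat_lit 245) (nat_lit 5) (nat_lit 253) (nat_lit 5) (nat_lit 254) (nat_lit 5) (nat_lit 495) (nat_lit 438) (nat_lit 207)) (XT.lf (nat_lit 0) (nat_lit 14150594808) (nat_lit 684) (nat_lit 8640714727) (nat_lit 76) (nat_lit 1473774935) (nat_lit 245) (nat_lit 5) (nat_lit 254) (nat_lit 5) (nat_lit 246) (nat_lit 5) (nat_lit 496) (nat_lit 438) (nat_lit 206))))) (XT.nd (nat_lit 234) (nat_lit 1064) (nat_lit 0) (XT.nd (nat_lit 78) (nat_lit 684) (nat_lit 0) (XT.lf (nat_lit 0) (nat_lit 5018819024) (nat_lit 532) (nat_lit 13406601682) (nat_lit 608) (nat_lit 6126899015) (nat_lit 238) (nat_lit 5) (nat_lit 245) (nat_lit 5) (nat_lit 246) (nat_lit 5) (nat_lit 497) (nat_lit 438) (nat_lit 205)) (XT.nd (nat_lit 78) (nat_lit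 684) (nat_lit 0) (XT.lf (nat_lit 0) (nat_lit 19063522581) (nat_lit 532) (nat_lit 3776186446) (nat_lit 608) (nat_lit 2004511986) (nat_lit 238) (nat_lit 5) (nat_lit 245) (nat_lit 5) (nat_lit 246) (nat_lit 5) (nat_lit 498) (nat_lit 438) (nat_lit 204)) (XT.lf (nat_lit 0) (nat_lit 2261335263) (nat_lit 684) (nat_lit 16843261472) (nat_lit 76) (nat_lit 6035281104) (nat_lit 229) (nat_lit 5) (nat_lit 238) (nat_lit 5) (nat_lit 230) (nat_lit 5) (nat_lit 499) (nat_lit 438) (nat_lit 203)))) (XT.nd (nat_lit 78) (nat_lit 1064) (nat_lit 0) (XT.lf (nat_lit 0) (nat_lit 6645812061) (nat_lit 684) (nat_lit 2750513748) (nat_lit 76) (nat_lit 16043654550) (nat_lit 229) (nat_lit 5) (nat_lit 238) (nat_lit 5) (nat_lit 230) (nat_lit 5) (nat_lit 500) (nat_lit 438) (nat_lit 202)) (XT.nd (nat_lit 78) (nat_lit 532) (nat_lit 0) (XT.lf (nat_lit 0) (nat_lit 11194352730) (nat_lit 608) (nat_lit 13974955979) (nat_lit 76) (nat_lit 575249341) (nat_lit 222) (nat_lit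 5) (nat_lit 230) (nat_lit 5) (nat_lit 223) (nat_lit 5) (nat_lit 501) (nat_lit 438) (nat_lit 201)) (XT.lf (nat_lit 0) (nat_lit 501702809) (nat_lit 532) (nat_lit 15412409671) (nat_lit 608) (nat_lit 10139510441) (nat_lit 215) (nat_lit 5) (nat_lit 222) (nat_lit 5) (nat_lit 223) (nat_lit 5) (nat_lit 502) (nat_lit 438) (nat_lit 200)))))) (XT.nd (nat_lit 468) (nat_lit 532) (nat_lit 0) (XT.nd (nat_lit 234) (nat_lit 988) (nat_lit 0) (XT.nd (nat_lit 78) (nat_lit 532) (nat_lit 0) (XT.lf (nat_lit 0) (nat_lit 15452288802) (nat_lit 532) (nat_lit 5365983963) (nat_lit 608) (nat_lit 5548796798) (nat_lit 215) (nat_lit 5) (nat_lit 222) (nat_lit 5) (nat_lit 223) (nat_lit 5) (nat_lit 503) (nat_lit 438) (nat_lit 199)) (XT.nd (nat_lit 78) (nat_lit 76) (nat_lit 0) (XT.lf (nat_lit 0) (nat_lit 4031271271) (nat_lit 456) (nat_lit 21843403734) (nat_lit 532) (nat_lit 811027527) (nat_lit 209) (nat_lit 5) (nat_lit 215) (nat_lit 5) (nat_lit 216) (nat_lit 5)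 (nat_lit 504) (nat_lit 438) (nat_lit 198)) (XT.lf (nat_lit 0) (nat_lit 4074327306) (nat_lit 532) (nat_lit 7652202348) (nat_lit 76) (nat_lit 15281545394) (nat_lit 208) (nat_lit 5) (nat_lit 215) (nat_lit 5) (nat_lit 209) (nat_lit 5) (nat_lit 505) (nat_lit 438) (nat_lit 197)))) (XT.nd (nat_lit 78) (nat_lit 456) (nat_lit 0) (XT.lf (nat_lit 0) (nat_lit 7741302666) (nat_lit 532) (nat_lit 1351878671) (nat_lit 608) (nat_lit 18242673960) (nat_lit 201) (nat_lit 5) (nat_lit 208) (nat_lit 5) (nat_lit 209) (nat_lit 5) (nat_lit 506) (nat_lit 438) (nat_lit 196)) (XT.nd (nat_lit 78) (nat_lit 456) (nat_lit 0) (XT.lf (nat_lit 0) (nat_lit 14320442449) (nat_lit 608) (nat_lit 4187985044) (nat_lit 76) (nat_lit 9159603584) (nat_lit 201) (nat_lit 5) (nat_lit 209) (nat_lit 5) (nat_lit 202) (nat_lit 5) (nat_lit 507) (nat_lit 438) (nat_lit 195)) (XT.lf (nat_lit 0) (nat_lit 11665901428) (nat_lit 456) (nat_lit 8067523967) (nat_lit 532) (nat_lit 8271801962)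 (nat_lit 195) (nat_lit 5) (nat_lit 201) (nat_lit 5) (nat_lit 202) (nat_lit 5) (nat_lit 508) (nat_lit 438) (nat_lit 194))))) (XT.nd (nat_lit 53976) (nat_lit 0) (nat_lit 21432) (XT.nd (nat_lit 78) (nat_lit 532) (nat_lit 0) (XT.lf (nat_lit 0) (nat_lit 25296232952) (nat_lit 532) (nat_lit 476811514) (nat_lit 76) (nat_lit 2575292302) (nat_lit 195) (nat_lit 5) (nat_lit 202) (nat_lit 5) (nat_lit 196) (nat_lit 5) (nat_lit 509) (nat_lit 438) (nat_lit 193)) (XT.nd (nat_lit 53820) (nat_lit 0) (nat_lit 21432) (XT.lf (nat_lit 0) (nat_lit 2396134584) (nat_lit 532) (nat_lit 12858371709) (nat_lit 76) (nat_lit 13440428661) (nat_lit 188) (nat_lit 5) (nat_lit 195) (nat_lit 5) (nat_lit 189) (nat_lit 5) (nat_lit 510) (nat_lit 438) (nat_lit 192)) (XT.lf (nat_lit 0) (nat_lit 5922783380) (nat_lit 1748) (nat_lit 374373425) (nat_lit 1748) (nat_lit 374373425) (nat_lit 470) (nat_lit 3) (nat_lit 493) (nat_lit 3) (nat_lit 493) (nat_lit 5) (nat_lit 439) (nat_lit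 439) (nat_lit 262)))) (XT.nd (nat_lit 78) (nat_lit 0) (nat_lit 0) (XT.lf (nat_lit 76) (nat_lit 5817300015) (nat_lit 0) (nat_lit 6558480308) (nat_lit 1748) (nat_lit 1092390444) (nat_lit 471) (nat_lit 5) (nat_lit 470) (nat_lit 3) (nat_lit 493) (nat_lit 5) (nat_lit 440) (nat_lit 439) (nat_lit 261)) (XT.nd (nat_lit 78) (nat_lit 0) (nat_lit 76) (XT.lf (nat_lit 76) (nat_lit 12519746639) (nat_lit 0) (nat_lit 392033238) (nat_lit 1748) (nat_lit 684102001) (nat_lit 471) (nat_lit 5) (nat_lit 470) (nat_lit 3) (nat_lit 493) (nat_lit 5) (nat_lit 441) (nat_lit 439) (nat_lit 260)) (XT.lf (nat_lit 76) (nat_lit 5660849204) (nat_lit 0) (nat_lit 7863076872) (nat_lit 1748) (nat_lit 200914793) (nat_lit 472) (nat_lit 5) (nat_lit 471) (nat_lit 5) (nat_lit 494) (nat_lit 5) (nat_lit 442) (nat_lit 439) (nat_lit 259))))))) (XT.nd (nat_lit 936) (nat_lit 2508) (nat_lit 0) (XT.nd (nat_lit 468) (nat_lit 0) (nat_lit 228) (XT.nd (nat_lit 234) (nat_lit 0) (nat_lit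 152) (XT.nd (nat_lit 78) (nat_lit 0) (nat_lit 76) (XT.lf (nat_lit 0) (nat_lit 288443774) (nat_lit 1748) (nat_lit 1318904820) (nat_lit 1824) (nat_lit 12248987913) (nat_lit 448) (nat_lit 5) (nat_lit 471) (nat_lit 5) (nat_lit 472) (nat_lit 5) (nat_lit 443) (nat_lit 439) (nat_lit 258)) (XT.nd (nat_lit 78) (nat_lit 0) (nat_lit 0) (XT.lf (nat_lit 0) (nat_lit 843373212) (nat_lit 1748) (nat_lit 8392781097) (nat_lit 1824) (nat_lit 4753113771) (nat_lit 449) (nat_lit 5) (nat_lit 472) (nat_lit 5) (nat_lit 473) (nat_lit 5) (nat_lit 444) (nat_lit 439) (nat_lit 257)) (XT.lf (nat_lit 0) (nat_lit 1419788789) (nat_lit 1748) (nat_lit 1472685400) (nat_lit 1824) (nat_lit 11232178369) (nat_lit 449) (nat_lit 5) (nat_lit 472) (nat_lit 5) (nat_lit 473) (nat_lit 5) (nat_lit 445) (nat_lit 439) (nat_lit 256)))) (XT.nd (nat_lit 78) (nat_lit 0) (nat_lit 0) (XT.lf (nat_lit 0) (nat_lit 2058958863) (nat_lit 1748) (nat_lit 8630976285) (nat_lit 1824) (nat_lit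 3571787036) (nat_lit 450) (nat_lit 5) (nat_lit 473) (nat_lit 5) (nat_lit 474) (nat_lit 5) (nat_lit 446) (nat_lit 439) (nat_lit 255)) (XT.nd (nat_lit 78) (nat_lit 0) (nat_lit 76) (XT.lf (nat_lit 0) (nat_lit 2731194940) (nat_lit 1748) (nat_lit 1529776049) (nat_lit 1824) (nat_lit 10140158505) (nat_lit 450) (nat_lit 5) (nat_lit 473) (nat_lit 5) (nat_lit 474) (nat_lit 5) (nat_lit 447) (nat_lit 439) (nat_lit 254)) (XT.lf (nat_lit 0) (nat_lit 3460962529) (nat_lit 1748) (nat_lit 8773945345) (nat_lit 1824) (nat_lit 2307537247) (nat_lit 451) (nat_lit 5) (nat_lit 474) (nat_lit 5) (nat_lit 475) (nat_lit 5) (nat_lit 448) (nat_lit 439) (nat_lit 253))))) (XT.nd (nat_lit 234) (nat_lit 0) (nat_lit 76) (XT.nd (nat_lit 78) (nat_lit 0) (nat_lit 76) (XT.lf (nat_lit 0) (nat_lit 4235385752) (nat_lit 1748) (nat_lit 1486670125) (nat_lit 1824) (nat_lit 8963931847) (nat_lit 451) (nat_lit 5) (nat_lit 474) (nat_lit 5) (nat_lit 475) (nat_lit 5) (nat_lit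 449) (nat_lit 439) (nat_lit 252)) (XT.nd (nat_lit 78) (nat_lit 0) (nat_lit 0) (XT.lf (nat_lit 0) (nat_lit 5062315776) (nat_lit 1748) (nat_lit 8818115069) (nat_lit 1824) (nat_lit 951231798) (nat_lit 452) (nat_lit 5) (nat_lit 475) (nat_lit 5) (nat_lit 476) (nat_lit 5) (nat_lit 450) (nat_lit 439) (nat_lit 251)) (XT.lf (nat_lit 0) (nat_lit 5945543222) (nat_lit 1748) (nat_lit 1339611362) (nat_lit 1824) (nat_lit 7694303097) (nat_lit 452) (nat_lit 5) (nat_lit 475) (nat_lit 5) (nat_lit 476) (nat_lit 5) (nat_lit 451) (nat_lit 439) (nat_lit 250)))) (XT.nd (nat_lit 78) (nat_lit 0) (nat_lit 76) (XT.lf (nat_lit 76) (nat_lit 6366547913) (nat_lit 0) (nat_lit 513205511) (nat_lit 1824) (nat_lit 8249790593) (nat_lit 453) (nat_lit 5) (nat_lit 452) (nat_lit 5) (nat_lit 476) (nat_lit 5) (nat_lit 452) (nat_lit 439) (nat_lit 249)) (XT.nd (nat_lit 78) (nat_lit 0) (nat_lit 0) (XT.lf (nat_lit 0) (nat_lit 7875333137) (nat_lit 1748) (nat_lit 1084591233)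 (nat_lit 1824) (nat_lit 6321855730) (nat_lit 453) (nat_lit 5) (nat_lit 476) (nat_lit 5) (nat_lit 477) (nat_lit 5) (nat_lit 453) (nat_lit 439) (nat_lit 248)) (XT.lf (nat_lit 76) (nat_lit 6828090247) (nat_lit 0) (nat_lit 2102740889) (nat_lit 1824) (nat_lit 6505431327) (nat_lit 454) (nat_lit 5) (nat_lit 453) (nat_lit 5) (nat_lit 477) (nat_lit 5) (nat_lit 454) (nat_lit 439) (nat_lit 247)))))) (XT.nd (nat_lit 468) (nat_lit 1292) (nat_lit 0) (XT.nd (nat_lit 234) (nat_lit 1672) (nat_lit 0) (XT.nd (nat_lit 78) (nat_lit 0) (nat_lit 0) (XT.lf (nat_lit 0) (nat_lit 10038931013) (nat_lit 1748) (nat_lit 717345948) (nat_lit 1824) (nat_lit 4836929333) (nat_lit 454) (nat_lit 5) (nat_lit 477) (nat_lit 5) (nat_lit 478) (nat_lit 5) (nat_lit 455) (nat_lit 439) (nat_lit 246)) (XT.nd (nat_lit 78) (nat_lit 0) (nat_lit 76) (XT.lf (nat_lit 76) (nat_lit 7409075420) (nat_lit 0) (nat_lit 3814702552) (nat_lit 1824) (nat_lit 4528420955) (nat_lit 455) (nat_lit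 5) (nat_lit 454) (nat_lit 5) (nat_lit 478) (nat_lit 5) (nat_lit 456) (nat_lit 439) (nat_lit 245)) (XT.lf (nat_lit 0) (nat_lit 12451048718) (nat_lit 1748) (nat_lit 233353112) (nat_lit 1824) (nat_lit 3229596640) (nat_lit 455) (nat_lit 5) (nat_lit 478) (nat_lit 5) (nat_lit 479) (nat_lit 5) (nat_lit 457) (nat_lit 439) (nat_lit 244)))) (XT.nd (nat_lit 78) (nat_lit 1748) (nat_lit 0) (XT.lf (nat_lit 76) (nat_lit 8114287738) (nat_lit 0) (nat_lit 5659345063) (nat_lit 1824) (nat_lit 2303987408) (nat_lit 456) (nat_lit 5) (nat_lit 455) (nat_lit 5) (nat_lit 479) (nat_lit 5) (nat_lit 458) (nat_lit 439) (nat_lit 243)) (XT.nd (nat_lit 78) (nat_lit 1824) (nat_lit 0) (XT.lf (nat_lit 76) (nat_lit 377117919) (nat_lit 0) (nat_lit 14752292379) (nat_lit 1824) (nat_lit 1114970784) (nat_lit 457) (nat_lit 5) (nat_lit 456) (nat_lit 5) (nat_lit 480) (nat_lit 5) (nat_lit 459) (nat_lit 439) (nat_lit 242)) (XT.lf (nat_lit 0) (nat_lit 180806707) (nat_lit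 1824) (nat_lit 7465211786) (nat_lit 1900) (nat_lit 8766762179) (nat_lit 432) (nat_lit 5) (nat_lit 456) (nat_lit 5) (nat_lit 457) (nat_lit 5) (nat_lit 460) (nat_lit 439) (nat_lit 241))))) (XT.nd (nat_lit 234) (nat_lit 1292) (nat_lit 0) (XT.nd (nat_lit 78) (nat_lit 0) (nat_lit 76) (XT.lf (nat_lit 76) (nat_lit 1106461471) (nat_lit 0) (nat_lit 381436450) (nat_lit 1900) (nat_lit 15096497825) (nat_lit 433) (nat_lit 5) (nat_lit 432) (nat_lit 5) (nat_lit 457) (nat_lit 5) (nat_lit 461) (nat_lit 439) (nat_lit 240)) (XT.nd (nat_lit 78) (nat_lit 0) (nat_lit 0) (XT.lf (nat_lit 0) (nat_lit 2910428411) (nat_lit 1824) (nat_lit 6859300357) (nat_lit 1900) (nat_lit 6987929821) (nat_lit 433) (nat_lit 5) (nat_lit 457) (nat_lit 5) (nat_lit 458) (nat_lit 5) (nat_lit 462) (nat_lit 439) (nat_lit 239)) (XT.lf (nat_lit 76) (nat_lit 1949199950) (nat_lit 0) (nat_lit 2420760653) (nat_lit 1900) (nat_lit 12564256452) (nat_lit 434) (nat_lit 5) (nat_lit 433)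 (nat_lit 5) (nat_lit 458) (nat_lit 5) (nat_lit 463) (nat_lit 439) (nat_lit 238)))) (XT.nd (nat_lit 78) (nat_lit 1444) (nat_lit 0) (XT.lf (nat_lit 0) (nat_lit 5931439717) (nat_lit 1824) (nat_lit 6125439139) (nat_lit 76) (nat_lit 5055974070) (nat_lit 434) (nat_lit 5) (nat_lit 458) (nat_lit 5) (nat_lit 435) (nat_lit 5) (nat_lit 464) (nat_lit 439) (nat_lit 237)) (XT.nd (nat_lit 78) (nat_lit 0) (nat_lit 0) (XT.lf (nat_lit 0) (nat_lit 2928166390) (nat_lit 1444) (nat_lit 4624623629) (nat_lit 1520) (nat_lit 9741699998) (nat_lit 415) (nat_lit 5) (nat_lit 434) (nat_lit 5) (nat_lit 435) (nat_lit 5) (nat_lit 465) (nat_lit 439) (nat_lit 236)) (XT.lf (nat_lit 0) (nat_lit 9260832145) (nat_lit 1520) (nat_lit 5258160401) (nat_lit 76) (nat_lit 2959683317) (nat_lit 415) (nat_lit 5) (nat_lit 435) (nat_lit 5) (nat_lit 416) (nat_lit 5) (nat_lit 466) (nat_lit 439) (nat_lit 235))))))))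
noncomputable def xc216 : XT := (XT.nd (nat_lit 1794) (nat_lit 6308) (nat_lit 0) (XT.nd (nat_lit 858) (nat_lit 5168) (nat_lit 0) (XT.nd (nat_lit 390) (nat_lit 2432) (nat_lit 0) (XT.nd (nat_lit 156) (nat_lit 1900) (nat_lit 0) (XT.nd (nat_lit 78) (nat_lit 0) (nat_lit 0) (XT.lf (nat_lit 0) (nat_lit 4049122559) (nat_lit 912) (nat_lit 7004646013) (nat_lit 988) (nat_lit 6611763465) (nat_lit 403) (nat_lit 5) (nat_lit 415) (nat_lit 5) (nat_lit 416) (nat_lit 5) (nat_lit 467) (nat_lit 439) (nat_lit 234)) (XT.lf (nat_lit 0) (nat_lit 12916274315) (nat_lit 988) (nat_lit 4251724161) (nat_lit 76) (nat_lit 687453906) (nat_lit 403) (nat_lit 5) (nat_lit 416) (nat_lit 5) (nat_lit 404) (nat_lit 5) (nat_lit 468) (nat_lit 439) (nat_lit 233))) (XT.nd (nat_lit 78) (nat_lit 988) (nat_lit 0) (XT.lf (nat_lit 0) (nat_lit 5318111826) (nat_lit 912) (nat_lit 9572861724) (nat_lit 988) (nat_lit 3156699949) (nat_lit 391) (nat_lit 5) (nat_lit 403) (nat_lit 5)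 (nat_lit 404) (nat_lit 5) (nat_lit 469) (nat_lit 439) (nat_lit 232)) (XT.nd (nat_lit 78) (nat_lit 988) (nat_lit 0) (XT.lf (nat_lit 0) (nat_lit 15131511330) (nat_lit 912) (nat_lit 1796294673) (nat_lit 988) (nat_lit 1315481461) (nat_lit 391) (nat_lit 5) (nat_lit 403) (nat_lit 5) (nat_lit 404) (nat_lit 5) (nat_lit 470) (nat_lit 439) (nat_lit 231)) (XT.lf (nat_lit 0) (nat_lit 633531520) (nat_lit 988) (nat_lit 11703961943) (nat_lit 76) (nat_lit 6103681390) (nat_lit 378) (nat_lit 5) (nat_lit 391) (nat_lit 5) (nat_lit 379) (nat_lit 5) (nat_lit 471) (nat_lit 439) (nat_lit 230))))) (XT.nd (nat_lit 234) (nat_lit 1596) (nat_lit 0) (XT.nd (nat_lit 78) (nat_lit 836) (nat_lit 0) (XT.lf (nat_lit 0) (nat_lit 2631108037) (nat_lit 988) (nat_lit 1843505748) (nat_lit 76) (nat_lit 14167689487) (nat_lit 378) (nat_lit 5) (nat_lit 391) (nat_lit 5) (nat_lit 379) (nat_lit 5) (nat_lit 472) (nat_lit 439) (nat_lit 229)) (XT.nd (nat_lit 78) (nat_lit 0)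 (nat_lit 0) (XT.lf (nat_lit 0) (nat_lit 4740397529) (nat_lit 912) (nat_lit 10552028879) (nat_lit 76) (nat_lit 3553593738) (nat_lit 367) (nat_lit 5) (nat_lit 379) (nat_lit 5) (nat_lit 368) (nat_lit 5) (nat_lit 473) (nat_lit 439) (nat_lit 228)) (XT.lf (nat_lit 0) (nat_lit 6928412902) (nat_lit 912) (nat_lit 429540940) (nat_lit 76) (nat_lit 11695127809) (nat_lit 367) (nat_lit 5) (nat_lit 379) (nat_lit 5) (nat_lit 368) (nat_lit 5) (nat_lit 474) (nat_lit 439) (nat_lit 227)))) (XT.nd (nat_lit 78) (nat_lit 760) (nat_lit 0) (XT.lf (nat_lit 0) (nat_lit 9225022001) (nat_lit 912) (nat_lit 9246849418) (nat_lit 76) (nat_lit 791117371) (nat_lit 356) (nat_lit 5) (nat_lit 368) (nat_lit 5) (nat_lit 357) (nat_lit 5) (nat_lit 475) (nat_lit 439) (nat_lit 226)) (XT.nd (nat_lit 78) (nat_lit 0) (nat_lit 0) (XT.lf (nat_lit 0) (nat_lit 1160538072) (nat_lit 760) (nat_lit 10460824732) (nat_lit 836) (nat_lit 7854656331) (nat_lit 346) (nat_lit 5) (nat_lit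 356) (nat_lit 5) (nat_lit 357) (nat_lit 5) (nat_lit 476) (nat_lit 439) (nat_lit 225)) (XT.lf (nat_lit 0) (nat_lit 11895997935) (nat_lit 760) (nat_lit 2226388565) (nat_lit 836) (nat_lit 5569789497) (nat_lit 346) (nat_lit 5) (nat_lit 356) (nat_lit 5) (nat_lit 357) (nat_lit 5) (nat_lit 477) (nat_lit 439) (nat_lit 224)))))) (XT.nd (nat_lit 468) (nat_lit 2812) (nat_lit 0) (XT.nd (nat_lit 234) (nat_lit 760) (nat_lit 0) (XT.nd (nat_lit 78) (nat_lit 836) (nat_lit 0) (XT.lf (nat_lit 0) (nat_lit 2926397070) (nat_lit 760) (nat_lit 13800919099) (nat_lit 836) (nat_lit 3184263129) (nat_lit 336) (nat_lit 5) (nat_lit 346) (nat_lit 5) (nat_lit 347) (nat_lit 5) (nat_lit 478) (nat_lit 439) (nat_lit 223)) (XT.nd (nat_lit 78) (nat_lit 836) (nat_lit 0) (XT.lf (nat_lit 0) (nat_lit 13948781695) (nat_lit 760) (nat_lit 5497401245) (nat_lit 836) (nat_lit 687951945) (nat_lit 336) (nat_lit 5) (nat_lit 346) (nat_lit 5) (nat_lit 347) (nat_lit 5) (nat_lit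 479) (nat_lit 439) (nat_lit 222)) (XT.lf (nat_lit 0) (nat_lit 1880104786) (nat_lit 836) (nat_lit 15502927686) (nat_lit 76) (nat_lit 2976944940) (nat_lit 325) (nat_lit 5) (nat_lit 336) (nat_lit 5) (nat_lit 326) (nat_lit 5) (nat_lit 480) (nat_lit 439) (nat_lit 221)))) (XT.nd (nat_lit 78) (nat_lit 760) (nat_lit 0) (XT.lf (nat_lit 0) (nat_lit 4563511780) (nat_lit 836) (nat_lit 4432006655) (nat_lit 76) (nat_lit 11593264325) (nat_lit 325) (nat_lit 5) (nat_lit 336) (nat_lit 5) (nat_lit 326) (nat_lit 5) (nat_lit 481) (nat_lit 439) (nat_lit 220)) (XT.nd (nat_lit 78) (nat_lit 0) (nat_lit 0) (XT.lf (nat_lit 0) (nat_lit 6946131267) (nat_lit 760) (nat_lit 394656211) (nat_lit 836) (nat_lit 13480573643) (nat_lit 315) (nat_lit 5) (nat_lit 325) (nat_lit 5) (nat_lit 326) (nat_lit 5) (nat_lit 482) (nat_lit 439) (nat_lit 219)) (XT.lf (nat_lit 0) (nat_lit 10253104464) (nat_lit 836) (nat_lit 2506042453) (nat_lit 76) (nat_lit 8297855113) (nat_lit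 315) (nat_lit 5) (nat_lit 326) (nat_lit 5) (nat_lit 316) (nat_lit 5) (nat_lit 483) (nat_lit 439) (nat_lit 218))))) (XT.nd (nat_lit 234) (nat_lit 1444) (nat_lit 0) (XT.nd (nat_lit 78) (nat_lit 684) (nat_lit 0) (XT.lf (nat_lit 0) (nat_lit 9203362709) (nat_lit 684) (nat_lit 4077928654) (nat_lit 760) (nat_lit 8014912805) (nat_lit 306) (nat_lit 5) (nat_lit 315) (nat_lit 5) (nat_lit 316) (nat_lit 5) (nat_lit 484) (nat_lit 439) (nat_lit 217)) (XT.nd (nat_lit 78) (nat_lit 684) (nat_lit 0) (XT.lf (nat_lit 0) (nat_lit 16413296393) (nat_lit 760) (nat_lit 395366866) (nat_lit 76) (nat_lit 4730662864) (nat_lit 306) (nat_lit 5) (nat_lit 316) (nat_lit 5) (nat_lit 307) (nat_lit 5) (nat_lit 485) (nat_lit 439) (nat_lit 216)) (XT.lf (nat_lit 0) (nat_lit 11656722619) (nat_lit 684) (nat_lit 8049311430) (nat_lit 760) (nat_lit 2079315464) (nat_lit 297) (nat_lit 5) (nat_lit 306) (nat_lit 5) (nat_lit 307) (nat_lit 5) (nat_lit 486) (nat_lit 439) (nat_lit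 215)))) (XT.nd (nat_lit 78) (nat_lit 684) (nat_lit 0) (XT.lf (nat_lit 0) (nat_lit 1031380351) (nat_lit 760) (nat_lit 20109449360) (nat_lit 76) (nat_lit 895000261) (nat_lit 287) (nat_lit 5) (nat_lit 297) (nat_lit 5) (nat_lit 288) (nat_lit 5) (nat_lit 487) (nat_lit 439) (nat_lit 214)) (XT.nd (nat_lit 78) (nat_lit 684) (nat_lit 0) (XT.lf (nat_lit 0) (nat_lit 4293679570) (nat_lit 760) (nat_lit 8002991282) (nat_lit 76) (nat_lit 9992030468) (nat_lit 287) (nat_lit 5) (nat_lit 297) (nat_lit 5) (nat_lit 288) (nat_lit 5) (nat_lit 488) (nat_lit 439) (nat_lit 213)) (XT.lf (nat_lit 0) (nat_lit 4398093468) (nat_lit 684) (nat_lit 3247255527) (nat_lit 760) (nat_lit 14900799399) (nat_lit 278) (nat_lit 5) (nat_lit 287) (nat_lit 5) (nat_lit 288) (nat_lit 5) (nat_lit 489) (nat_lit 439) (nat_lit 212))))))) (XT.nd (nat_lit 858) (nat_lit 2584) (nat_lit 0) (XT.nd (nat_lit 390) (nat_lit 2432) (nat_lit 0) (XT.nd (nat_lit 156) (nat_lit 684) (nat_lit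 0) (XT.nd (nat_lit 78) (nat_lit 608) (nat_lit 0) (XT.lf (nat_lit 0) (nat_lit 11152575629) (nat_lit 760) (nat_lit 5696423454) (nat_lit 76) (nat_lit 5957975616) (nat_lit 278) (nat_lit 5) (nat_lit 288) (nat_lit 5) (nat_lit 279) (nat_lit 5) (nat_lit 490) (nat_lit 439) (nat_lit 211)) (XT.lf (nat_lit 0) (nat_lit 7070333483) (nat_lit 608) (nat_lit 7722726856) (nat_lit 684) (nat_lit 8278695672) (nat_lit 270) (nat_lit 5) (nat_lit 278) (nat_lit 5) (nat_lit 279) (nat_lit 5) (nat_lit 491) (nat_lit 439) (nat_lit 210))) (XT.nd (nat_lit 78) (nat_lit 684) (nat_lit 0) (XT.lf (nat_lit 0) (nat_lit 18550880594) (nat_lit 684) (nat_lit 3187154548) (nat_lit 76) (nat_lit 1602908026) (nat_lit 270) (nat_lit 5) (nat_lit 279) (nat_lit 5) (nat_lit 271) (nat_lit 5) (nat_lit 492) (nat_lit 439) (nat_lit 209)) (XT.nd (nat_lit 78) (nat_lit 76) (nat_lit 0) (XT.lf (nat_lit 0) (nat_lit 9957777238) (nat_lit 608) (nat_lit 12537708627) (nat_lit 684) (nat_lit 1117796354)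 (nat_lit 262) (nat_lit 5) (nat_lit 270) (nat_lit 5) (nat_lit 271) (nat_lit 5) (nat_lit 493) (nat_lit 439) (nat_lit 208)) (XT.lf (nat_lit 0) (nat_lit 2610831970) (nat_lit 684) (nat_lit 504131847) (nat_lit 76) (nat_lit 20775416038) (nat_lit 261) (nat_lit 5) (nat_lit 270) (nat_lit 5) (nat_lit 262) (nat_lit 5) (nat_lit 494) (nat_lit 439) (nat_lit 207))))) (XT.nd (nat_lit 234) (nat_lit 1216) (nat_lit 0) (XT.nd (nat_lit 78) (nat_lit 608) (nat_lit 0) (XT.lf (nat_lit 0) (nat_lit 6522651291) (nat_lit 684) (nat_lit 11144765235) (nat_lit 76) (nat_lit 6502984111) (nat_lit 253) (nat_lit 5) (nat_lit 262) (nat_lit 5) (nat_lit 254) (nat_lit 5) (nat_lit 495) (nat_lit 439) (nat_lit 206)) (XT.nd (nat_lit 78) (nat_lit 0) (nat_lit 0) (XT.lf (nat_lit 0) (nat_lit 2382432035) (nat_lit 608) (nat_lit 8165753457) (nat_lit 684) (nat_lit 13907127439) (nat_lit 245) (nat_lit 5) (nat_lit 253) (nat_lit 5) (nat_lit 254) (nat_lit 5) (nat_lit 496) (nat_lit 439)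 (nat_lit 205)) (XT.lf (nat_lit 0) (nat_lit 14735435920) (nat_lit 684) (nat_lit 8428667478) (nat_lit 76) (nat_lit 1580196619) (nat_lit 245) (nat_lit 5) (nat_lit 254) (nat_lit 5) (nat_lit 246) (nat_lit 5) (nat_lit 497) (nat_lit 439) (nat_lit 204)))) (XT.nd (nat_lit 78) (nat_lit 684) (nat_lit 0) (XT.lf (nat_lit 0) (nat_lit 5501524964) (nat_lit 532) (nat_lit 13590797488) (nat_lit 608) (nat_lit 5945027209) (nat_lit 238) (nat_lit 5) (nat_lit 245) (nat_lit 5) (nat_lit 246) (nat_lit 5) (nat_lit 498) (nat_lit 439) (nat_lit 203)) (XT.nd (nat_lit 78) (nat_lit 684) (nat_lit 0) (XT.lf (nat_lit 0) (nat_lit 19819625935) (nat_lit 532) (nat_lit 3769419756) (nat_lit 608) (nat_lit 1746161259) (nat_lit 238) (nat_lit 5) (nat_lit 245) (nat_lit 5) (nat_lit 246) (nat_lit 5) (nat_lit 499) (nat_lit 439) (nat_lit 202)) (XT.lf (nat_lit 0) (nat_lit 2598309560) (nat_lit 684) (nat_lit 16798507939) (nat_lit 76) (nat_lit 6239977159) (nat_lit 229) (nat_lit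 5) (nat_lit 238) (nat_lit 5) (nat_lit 230) (nat_lit 5) (nat_lit 500) (nat_lit 439) (nat_lit 201)))))) (XT.nd (nat_lit 468) (nat_lit 988) (nat_lit 0) (XT.nd (nat_lit 234) (nat_lit 532) (nat_lit 0) (XT.nd (nat_lit 78) (nat_lit 1064) (nat_lit 0) (XT.lf (nat_lit 0) (nat_lit 7064755353) (nat_lit 684) (nat_lit 2431387982) (nat_lit 76) (nat_lit 16446871204) (nat_lit 229) (nat_lit 5) (nat_lit 238) (nat_lit 5) (nat_lit 230) (nat_lit 5) (nat_lit 501) (nat_lit 439) (nat_lit 200)) (XT.nd (nat_lit 78) (nat_lit 532) (nat_lit 0) (XT.lf (nat_lit 0) (nat_lit 11701648446) (nat_lit 608) (nat_lit 13877656661) (nat_lit 76) (nat_lit 674431924) (nat_lit 222) (nat_lit 5) (nat_lit 230) (nat_lit 5) (nat_lit 223) (nat_lit 5) (nat_lit 502) (nat_lit 439) (nat_lit 199)) (XT.lf (nat_lit 0) (nat_lit 886056365) (nat_lit 532) (nat_lit 15626620324) (nat_lit 608) (nat_lit 10056369906) (nat_lit 215) (nat_lit 5) (nat_lit 222) (nat_lit 5) (nat_lit 223) (nat_lit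 5) (nat_lit 503) (nat_lit 439) (nat_lit 198)))) (XT.nd (nat_lit 78) (nat_lit 532) (nat_lit 0) (XT.lf (nat_lit 0) (nat_lit 16128314480) (nat_lit 532) (nat_lit 5381109975) (nat_lit 608) (nat_lit 5379448476) (nat_lit 215) (nat_lit 5) (nat_lit 222) (nat_lit 5) (nat_lit 223) (nat_lit 5) (nat_lit 504) (nat_lit 439) (nat_lit 197)) (XT.nd (nat_lit 78) (nat_lit 76) (nat_lit 0) (XT.lf (nat_lit 0) (nat_lit 4481369201) (nat_lit 456) (nat_lit 22183183280) (nat_lit 532) (nat_lit 549374954) (nat_lit 209) (nat_lit 5) (nat_lit 215) (nat_lit 5) (nat_lit 216) (nat_lit 5) (nat_lit 505) (nat_lit 439) (nat_lit 196)) (XT.lf (nat_lit 0) (nat_lit 4424665585) (nat_lit 532) (nat_lit 7439405693) (nat_lit 76) (nat_lit 15678748378) (nat_lit 208) (nat_lit 5) (nat_lit 215) (nat_lit 5) (nat_lit 209) (nat_lit 5) (nat_lit 506) (nat_lit 439) (nat_lit 195))))) (XT.nd (nat_lit 234) (nat_lit 0) (nat_lit 0) (XT.nd (nat_lit 78) (nat_lit 456) (nat_lit 0) (XT.lf (nat_lit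 0) (nat_lit 8259562575) (nat_lit 532) (nat_lit 1281422173) (nat_lit 608) (nat_lit 18336229783) (nat_lit 201) (nat_lit 5) (nat_lit 208) (nat_lit 5) (nat_lit 209) (nat_lit 5) (nat_lit 507) (nat_lit 439) (nat_lit 194)) (XT.nd (nat_lit 78) (nat_lit 456) (nat_lit 0) (XT.lf (nat_lit 0) (nat_lit 14868197162) (nat_lit 608) (nat_lit 3910804811) (nat_lit 76) (nat_lit 9437124498) (nat_lit 201) (nat_lit 5) (nat_lit 209) (nat_lit 5) (nat_lit 202) (nat_lit 5) (nat_lit 508) (nat_lit 439) (nat_lit 193)) (XT.lf (nat_lit 0) (nat_lit 12257784786) (nat_lit 456) (nat_lit 8128858596) (nat_lit 532) (nat_lit 8173479973) (nat_lit 195) (nat_lit 5) (nat_lit 201) (nat_lit 5) (nat_lit 202) (nat_lit 5) (nat_lit 509) (nat_lit 439) (nat_lit 192)))) (XT.nd (nat_lit 53898) (nat_lit 0) (nat_lit 20900) (XT.lf (nat_lit 0) (nat_lit 26056274129) (nat_lit 532) (nat_lit 130343324) (nat_lit 76) (nat_lit 2723566898) (nat_lit 195) (nat_lit 5) (nat_lit 202) (nat_lit 5)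 (nat_lit 196) (nat_lit 5) (nat_lit 510) (nat_lit 439) (nat_lit 191)) (XT.nd (nat_lit 78) (nat_lit 0) (nat_lit 0) (XT.lf (nat_lit 0) (nat_lit 6412798994) (nat_lit 1748) (nat_lit 192323027) (nat_lit 1748) (nat_lit 192323027) (nat_lit 470) (nat_lit 3) (nat_lit 493) (nat_lit 3) (nat_lit 493) (nat_lit 5) (nat_lit 440) (nat_lit 440) (nat_lit 260)) (XT.lf (nat_lit 76) (nat_lit 6310227828) (nat_lit 0) (nat_lit 7044062034) (nat_lit 1748) (nat_lit 368458584) (nat_lit 471) (nat_lit 5) (nat_lit 470) (nat_lit 3) (nat_lit 493) (nat_lit 5) (nat_lit 441) (nat_lit 440) (nat_lit 259))))))))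
noncomputable def xc217 : XT := (XT.nd (nat_lit 1794) (nat_lit 11020) (nat_lit 0) (XT.nd (nat_lit 858) (nat_lit 1140) (nat_lit 0) (XT.nd (nat_lit 390) (nat_lit 0) (nat_lit 228) (XT.nd (nat_lit 156) (nat_lit 0) (nat_lit 76) (XT.nd (nat_lit 78) (nat_lit 0) (nat_lit 76) (XT.lf (nat_lit 0) (nat_lit 32934809) (nat_lit 1748) (nat_lit 714180946) (nat_lit 1824) (nat_lit 13106183608) (nat_lit 447) (nat_lit 5) (nat_lit 470) (nat_lit 3) (nat_lit 471) (nat_lit 5) (nat_lit 442) (nat_lit 440) (nat_lit 258)) (XT.lf (nat_lit 0) (nat_lit 505453023) (nat_lit 1748) (nat_lit 7830969217) (nat_lit 1824) (nat_lit 5648631800) (nat_lit 448) (nat_lit 5) (nat_lit 471) (nat_lit 5) (nat_lit 472) (nat_lit 5) (nat_lit 443) (nat_lit 440) (nat_lit 257))) (XT.nd (nat_lit 78) (nat_lit 0) (nat_lit 76) (XT.lf (nat_lit 0) (nat_lit 988034590) (nat_lit 1748) (nat_lit 960016523) (nat_lit 1824) (nat_lit 12171382460) (nat_lit 448) (nat_lit 5) (nat_lit 471) (nat_lit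 5) (nat_lit 472) (nat_lit 5) (nat_lit 444) (nat_lit 440) (nat_lit 256)) (XT.nd (nat_lit 78) (nat_lit 0) (nat_lit 0) (XT.lf (nat_lit 0) (nat_lit 1540995604) (nat_lit 1748) (nat_lit 8162153092) (nat_lit 1824) (nat_lit 4552139426) (nat_lit 449) (nat_lit 5) (nat_lit 472) (nat_lit 5) (nat_lit 473) (nat_lit 5) (nat_lit 445) (nat_lit 440) (nat_lit 255)) (XT.lf (nat_lit 0) (nat_lit 2115591356) (nat_lit 1748) (nat_lit 1111468885) (nat_lit 1824) (nat_lit 11166589956) (nat_lit 449) (nat_lit 5) (nat_lit 472) (nat_lit 5) (nat_lit 473) (nat_lit 5) (nat_lit 446) (nat_lit 440) (nat_lit 254))))) (XT.nd (nat_lit 234) (nat_lit 0) (nat_lit 76) (XT.nd (nat_lit 78) (nat_lit 0) (nat_lit 0) (XT.lf (nat_lit 0) (nat_lit 2755233387) (nat_lit 1748) (nat_lit 8400469755) (nat_lit 1824) (nat_lit 3378007190) (nat_lit 450) (nat_lit 5) (nat_lit 473) (nat_lit 5) (nat_lit 474) (nat_lit 5) (nat_lit 447) (nat_lit 440) (nat_lit 253)) (XT.nd (nat_lit 78) (nat_lit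 0) (nat_lit 76) (XT.lf (nat_lit 0) (nat_lit 3428069179) (nat_lit 1748) (nat_lit 1165149947) (nat_lit 1824) (nat_lit 10082946394) (nat_lit 450) (nat_lit 5) (nat_lit 473) (nat_lit 5) (nat_lit 474) (nat_lit 5) (nat_lit 448) (nat_lit 440) (nat_lit 252)) (XT.lf (nat_lit 0) (nat_lit 4160832591) (nat_lit 1748) (nat_lit 8542464319) (nat_lit 1824) (nat_lit 2117245316) (nat_lit 451) (nat_lit 5) (nat_lit 474) (nat_lit 5) (nat_lit 475) (nat_lit 5) (nat_lit 449) (nat_lit 440) (nat_lit 251)))) (XT.nd (nat_lit 78) (nat_lit 0) (nat_lit 76) (XT.lf (nat_lit 0) (nat_lit 4938378576) (nat_lit 1748) (nat_lit 1117423201) (nat_lit 1824) (nat_lit 8911403939) (nat_lit 451) (nat_lit 5) (nat_lit 474) (nat_lit 5) (nat_lit 475) (nat_lit 5) (nat_lit 450) (nat_lit 440) (nat_lit 250)) (XT.nd (nat_lit 78) (nat_lit 0) (nat_lit 0) (XT.lf (nat_lit 0) (nat_lit 5770918456) (nat_lit 1748) (nat_lit 8584434906) (nat_lit 1824) (nat_lit 760662015) (nat_lit 452) (nat_lit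 5) (nat_lit 475) (nat_lit 5) (nat_lit 476) (nat_lit 5) (nat_lit 451) (nat_lit 440) (nat_lit 249)) (XT.lf (nat_lit 0) (nat_lit 6659901502) (nat_lit 1748) (nat_lit 964401173) (nat_lit 1824) (nat_lit 7642704435) (nat_lit 452) (nat_lit 5) (nat_lit 475) (nat_lit 5) (nat_lit 476) (nat_lit 5) (nat_lit 452) (nat_lit 440) (nat_lit 248)))))) (XT.nd (nat_lit 468) (nat_lit 1520) (nat_lit 0) (XT.nd (nat_lit 234) (nat_lit 0) (nat_lit 152) (XT.nd (nat_lit 78) (nat_lit 0) (nat_lit 76) (XT.lf (nat_lit 76) (nat_lit 6893236535) (nat_lit 0) (nat_lit 710476828) (nat_lit 1824) (nat_lit 7816566024) (nat_lit 453) (nat_lit 5) (nat_lit 452) (nat_lit 5) (nat_lit 476) (nat_lit 5) (nat_lit 453) (nat_lit 440) (nat_lit 247)) (XT.nd (nat_lit 78) (nat_lit 0) (nat_lit 0) (XT.lf (nat_lit 0) (nat_lit 8606516952) (nat_lit 1748) (nat_lit 701942520) (nat_lit 1824) (nat_lit 6267356988) (nat_lit 453) (nat_lit 5) (nat_lit 476) (nat_lit 5) (nat_lit 477) (nat_lit 5)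 (nat_lit 454) (nat_lit 440) (nat_lit 246)) (XT.lf (nat_lit 76) (nat_lit 7366332455) (nat_lit 0) (nat_lit 2308151861) (nat_lit 1824) (nat_lit 6059079432) (nat_lit 454) (nat_lit 5) (nat_lit 453) (nat_lit 5) (nat_lit 477) (nat_lit 5) (nat_lit 455) (nat_lit 440) (nat_lit 245)))) (XT.nd (nat_lit 78) (nat_lit 0) (nat_lit 0) (XT.lf (nat_lit 0) (nat_lit 10792627222) (nat_lit 1748) (nat_lit 325648765) (nat_lit 1824) (nat_lit 4775615264) (nat_lit 454) (nat_lit 5) (nat_lit 477) (nat_lit 5) (nat_lit 478) (nat_lit 5) (nat_lit 456) (nat_lit 440) (nat_lit 244)) (XT.nd (nat_lit 78) (nat_lit 0) (nat_lit 76) (XT.lf (nat_lit 76) (nat_lit 7960629687) (nat_lit 0) (nat_lit 4032318875) (nat_lit 1824) (nat_lit 4063281994) (nat_lit 455) (nat_lit 5) (nat_lit 454) (nat_lit 5) (nat_lit 478) (nat_lit 5) (nat_lit 457) (nat_lit 440) (nat_lit 243)) (XT.lf (nat_lit 76) (nat_lit 171387074) (nat_lit 0) (nat_lit 13062910546) (nat_lit 1824) (nat_lit 2987180135)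 (nat_lit 456) (nat_lit 5) (nat_lit 455) (nat_lit 5) (nat_lit 479) (nat_lit 5) (nat_lit 458) (nat_lit 440) (nat_lit 242))))) (XT.nd (nat_lit 234) (nat_lit 0) (nat_lit 0) (XT.nd (nat_lit 78) (nat_lit 1748) (nat_lit 0) (XT.lf (nat_lit 76) (nat_lit 8681054289) (nat_lit 0) (nat_lit 5893339257) (nat_lit 1824) (nat_lit 1814159457) (nat_lit 456) (nat_lit 5) (nat_lit 455) (nat_lit 5) (nat_lit 479) (nat_lit 5) (nat_lit 459) (nat_lit 440) (nat_lit 241)) (XT.nd (nat_lit 78) (nat_lit 1824) (nat_lit 0) (XT.lf (nat_lit 76) (nat_lit 797808962) (nat_lit 0) (nat_lit 15151091318) (nat_lit 1824) (nat_lit 609918772) (nat_lit 457) (nat_lit 5) (nat_lit 456) (nat_lit 5) (nat_lit 480) (nat_lit 5) (nat_lit 460) (nat_lit 440) (nat_lit 240)) (XT.lf (nat_lit 0) (nat_lit 694653350) (nat_lit 1824) (nat_lit 7202580315) (nat_lit 1900) (nat_lit 8833490727) (nat_lit 432) (nat_lit 5) (nat_lit 456) (nat_lit 5) (nat_lit 457) (nat_lit 5) (nat_lit 461) (nat_lit 440)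 (nat_lit 239)))) (XT.nd (nat_lit 78) (nat_lit 0) (nat_lit 76) (XT.lf (nat_lit 76) (nat_lit 1537816304) (nat_lit 0) (nat_lit 482722529) (nat_lit 1900) (nat_lit 14885381990) (nat_lit 433) (nat_lit 5) (nat_lit 432) (nat_lit 5) (nat_lit 457) (nat_lit 5) (nat_lit 462) (nat_lit 440) (nat_lit 238)) (XT.nd (nat_lit 78) (nat_lit 0) (nat_lit 0) (XT.lf (nat_lit 0) (nat_lit 3461063320) (nat_lit 1824) (nat_lit 6584725063) (nat_lit 1900) (nat_lit 7037071734) (nat_lit 433) (nat_lit 5) (nat_lit 457) (nat_lit 5) (nat_lit 458) (nat_lit 5) (nat_lit 463) (nat_lit 440) (nat_lit 237)) (XT.lf (nat_lit 76) (nat_lit 2397236295) (nat_lit 0) (nat_lit 2545550282) (nat_lit 1900) (nat_lit 12320305189) (nat_lit 434) (nat_lit 5) (nat_lit 433) (nat_lit 5) (nat_lit 458) (nat_lit 5) (nat_lit 464) (nat_lit 440) (nat_lit 236))))))) (XT.nd (nat_lit 936) (nat_lit 5244) (nat_lit 0) (XT.nd (nat_lit 468) (nat_lit 2660) (nat_lit 0) (XT.nd (nat_lit 234) (nat_lit 1824)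 (nat_lit 0) (XT.nd (nat_lit 78) (nat_lit 1444) (nat_lit 0) (XT.lf (nat_lit 0) (nat_lit 6525490951) (nat_lit 1824) (nat_lit 5836812776) (nat_lit 76) (nat_lit 5083198697) (nat_lit 434) (nat_lit 5) (nat_lit 458) (nat_lit 5) (nat_lit 435) (nat_lit 5) (nat_lit 465) (nat_lit 440) (nat_lit 235)) (XT.nd (nat_lit 78) (nat_lit 0) (nat_lit 0) (XT.lf (nat_lit 0) (nat_lit 3395160028) (nat_lit 1444) (nat_lit 4777438023) (nat_lit 1520) (nat_lit 9458309553) (nat_lit 415) (nat_lit 5) (nat_lit 434) (nat_lit 5) (nat_lit 435) (nat_lit 5) (nat_lit 466) (nat_lit 440) (nat_lit 234)) (XT.lf (nat_lit 0) (nat_lit 9905225829) (nat_lit 1520) (nat_lit 4953231282) (nat_lit 76) (nat_lit 2960513464) (nat_lit 415) (nat_lit 5) (nat_lit 435) (nat_lit 5) (nat_lit 416) (nat_lit 5) (nat_lit 467) (nat_lit 440) (nat_lit 233)))) (XT.nd (nat_lit 78) (nat_lit 912) (nat_lit 0) (XT.lf (nat_lit 0) (nat_lit 4537499361) (nat_lit 912) (nat_lit 7190163227) (nat_lit 988) (nat_lit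 6282030322) (nat_lit 403) (nat_lit 5) (nat_lit 415) (nat_lit 5) (nat_lit 416) (nat_lit 5) (nat_lit 468) (nat_lit 440) (nat_lit 232)) (XT.nd (nat_lit 78) (nat_lit 912) (nat_lit 0) (XT.lf (nat_lit 0) (nat_lit 13618250506) (nat_lit 988) (nat_lit 3928092914) (nat_lit 76) (nat_lit 657253431) (nat_lit 403) (nat_lit 5) (nat_lit 416) (nat_lit 5) (nat_lit 404) (nat_lit 5) (nat_lit 469) (nat_lit 440) (nat_lit 231)) (XT.lf (nat_lit 0) (nat_lit 5830451202) (nat_lit 912) (nat_lit 9795929364) (nat_lit 988) (nat_lit 2773404884) (nat_lit 391) (nat_lit 5) (nat_lit 403) (nat_lit 5) (nat_lit 404) (nat_lit 5) (nat_lit 470) (nat_lit 440) (nat_lit 230))))) (XT.nd (nat_lit 234) (nat_lit 1672) (nat_lit 0) (XT.nd (nat_lit 78) (nat_lit 988) (nat_lit 0) (XT.lf (nat_lit 0) (nat_lit 15832158359) (nat_lit 912) (nat_lit 1863211159) (nat_lit 988) (nat_lit 904115536) (nat_lit 391) (nat_lit 5) (nat_lit 403) (nat_lit 5) (nat_lit 404) (nat_lit 5) (nat_lit 471)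 (nat_lit 440) (nat_lit 229)) (XT.nd (nat_lit 78) (nat_lit 0) (nat_lit 0) (XT.lf (nat_lit 0) (nat_lit 1072111391) (nat_lit 988) (nat_lit 11528087192) (nat_lit 76) (nat_lit 6201196990) (nat_lit 378) (nat_lit 5) (nat_lit 391) (nat_lit 5) (nat_lit 379) (nat_lit 5) (nat_lit 472) (nat_lit 440) (nat_lit 228)) (XT.lf (nat_lit 0) (nat_lit 3101288277) (nat_lit 988) (nat_lit 1478460186) (nat_lit 76) (nat_lit 14426966779) (nat_lit 378) (nat_lit 5) (nat_lit 391) (nat_lit 5) (nat_lit 379) (nat_lit 5) (nat_lit 473) (nat_lit 440) (nat_lit 227)))) (XT.nd (nat_lit 78) (nat_lit 836) (nat_lit 0) (XT.lf (nat_lit 0) (nat_lit 5247086080) (nat_lit 912) (nat_lit 10355394993) (nat_lit 76) (nat_lit 3612140557) (nat_lit 367) (nat_lit 5) (nat_lit 379) (nat_lit 5) (nat_lit 368) (nat_lit 5) (nat_lit 474) (nat_lit 440) (nat_lit 226)) (XT.nd (nat_lit 78) (nat_lit 836) (nat_lit 0) (XT.lf (nat_lit 0) (nat_lit 7470785670) (nat_lit 912) (nat_lit 38450912) (nat_lit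 76) (nat_lit 11916750898) (nat_lit 367) (nat_lit 5) (nat_lit 379) (nat_lit 5) (nat_lit 368) (nat_lit 5) (nat_lit 475) (nat_lit 440) (nat_lit 225)) (XT.lf (nat_lit 0) (nat_lit 9807977960) (nat_lit 912) (nat_lit 9026678420) (nat_lit 76) (nat_lit 805544927) (nat_lit 356) (nat_lit 5) (nat_lit 368) (nat_lit 5) (nat_lit 357) (nat_lit 5) (nat_lit 476) (nat_lit 440) (nat_lit 224)))))) (XT.nd (nat_lit 468) (nat_lit 2888) (nat_lit 0) (XT.nd (nat_lit 234) (nat_lit 836) (nat_lit 0) (XT.nd (nat_lit 78) (nat_lit 760) (nat_lit 0) (XT.lf (nat_lit 0) (nat_lit 1586191636) (nat_lit 760) (nat_lit 10660854016) (nat_lit 836) (nat_lit 7610552138) (nat_lit 346) (nat_lit 5) (nat_lit 356) (nat_lit 5) (nat_lit 357) (nat_lit 5) (nat_lit 477) (nat_lit 440) (nat_lit 223)) (XT.nd (nat_lit 78) (nat_lit 760) (nat_lit 0) (XT.lf (nat_lit 0) (nat_lit 12528469661) (nat_lit 760) (nat_lit 2261909267) (nat_lit 836) (nat_lit 5287854581) (nat_lit 346) (nat_lit 5) (nat_lit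 356) (nat_lit 5) (nat_lit 357) (nat_lit 5) (nat_lit 478) (nat_lit 440) (nat_lit 222)) (XT.lf (nat_lit 0) (nat_lit 3384557733) (nat_lit 760) (nat_lit 14057941770) (nat_lit 836) (nat_lit 2859624998) (nat_lit 336) (nat_lit 5) (nat_lit 346) (nat_lit 5) (nat_lit 347) (nat_lit 5) (nat_lit 479) (nat_lit 440) (nat_lit 221)))) (XT.nd (nat_lit 78) (nat_lit 836) (nat_lit 0) (XT.lf (nat_lit 0) (nat_lit 14619554115) (nat_lit 760) (nat_lit 5588726024) (nat_lit 836) (nat_lit 321001775) (nat_lit 336) (nat_lit 5) (nat_lit 346) (nat_lit 5) (nat_lit 347) (nat_lit 5) (nat_lit 480) (nat_lit 440) (nat_lit 220)) (XT.nd (nat_lit 78) (nat_lit 0) (nat_lit 0) (XT.lf (nat_lit 0) (nat_lit 2288767313) (nat_lit 836) (nat_lit 15411400498) (nat_lit 76) (nat_lit 3059518546) (nat_lit 325) (nat_lit 5) (nat_lit 336) (nat_lit 5) (nat_lit 326) (nat_lit 5) (nat_lit 481) (nat_lit 440) (nat_lit 219)) (XT.lf (nat_lit 0) (nat_lit 5018566752) (nat_lit 836) (nat_lit 4126935278)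 (nat_lit 76) (nat_lit 11847712657) (nat_lit 325) (nat_lit 5) (nat_lit 336) (nat_lit 5) (nat_lit 326) (nat_lit 5) (nat_lit 482) (nat_lit 440) (nat_lit 218))))) (XT.nd (nat_lit 234) (nat_lit 1444) (nat_lit 0) (XT.nd (nat_lit 78) (nat_lit 684) (nat_lit 0) (XT.lf (nat_lit 0) (nat_lit 7476175196) (nat_lit 760) (nat_lit 370619153) (nat_lit 836) (nat_lit 13383743473) (nat_lit 315) (nat_lit 5) (nat_lit 325) (nat_lit 5) (nat_lit 326) (nat_lit 5) (nat_lit 483) (nat_lit 440) (nat_lit 217)) (XT.nd (nat_lit 78) (nat_lit 684) (nat_lit 0) (XT.lf (nat_lit 0) (nat_lit 10810517958) (nat_lit 836) (nat_lit 2165805936) (nat_lit 76) (nat_lit 8494705757) (nat_lit 315) (nat_lit 5) (nat_lit 326) (nat_lit 5) (nat_lit 316) (nat_lit 5) (nat_lit 484) (nat_lit 440) (nat_lit 216)) (XT.lf (nat_lit 0) (nat_lit 9775219190) (nat_lit 684) (nat_lit 4119658340) (nat_lit 760) (nat_lit 7820227405) (nat_lit 306) (nat_lit 5) (nat_lit 315) (nat_lit 5) (nat_lit 316)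 (nat_lit 5) (nat_lit 485) (nat_lit 440) (nat_lit 215)))) (XT.nd (nat_lit 78) (nat_lit 1444) (nat_lit 0) (XT.lf (nat_lit 0) (nat_lit 17082953434) (nat_lit 760) (nat_lit 16456608) (nat_lit 76) (nat_lit 4863811929) (nat_lit 306) (nat_lit 5) (nat_lit 316) (nat_lit 5) (nat_lit 307) (nat_lit 5) (nat_lit 486) (nat_lit 440) (nat_lit 214)) (XT.nd (nat_lit 78) (nat_lit 760) (nat_lit 0) (XT.lf (nat_lit 0) (nat_lit 12274129814) (nat_lit 684) (nat_lit 8163217038) (nat_lit 760) (nat_lit 1776904188) (nat_lit 297) (nat_lit 5) (nat_lit 306) (nat_lit 5) (nat_lit 307) (nat_lit 5) (nat_lit 487) (nat_lit 440) (nat_lit 213)) (XT.lf (nat_lit 0) (nat_lit 1387676189) (nat_lit 760) (nat_lit 20118916611) (nat_lit 76) (nat_lit 963181179) (nat_lit 287) (nat_lit 5) (nat_lit 297) (nat_lit 5) (nat_lit 288) (nat_lit 5) (nat_lit 488) (nat_lit 440) (nat_lit 212))))))))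
noncomputable def xc218 : XT := (XT.nd (nat_lit 55692) (nat_lit 0) (nat_lit 18012) (XT.nd (nat_lit 858) (nat_lit 3268) (nat_lit 0) (XT.nd (nat_lit 390) (nat_lit 2432) (nat_lit 0) (XT.nd (nat_lit 156) (nat_lit 608) (nat_lit 0) (XT.nd (nat_lit 78) (nat_lit 684) (nat_lit 0) (XT.lf (nat_lit 0) (nat_lit 4708639663) (nat_lit 760) (nat_lit 7778029797) (nat_lit 76) (nat_lit 10241166091) (nat_lit 287) (nat_lit 5) (nat_lit 297) (nat_lit 5) (nat_lit 288) (nat_lit 5) (nat_lit 489) (nat_lit 440) (nat_lit 211)) (XT.lf (nat_lit 0) (nat_lit 4868543613) (nat_lit 684) (nat_lit 3254829554) (nat_lit 760) (nat_lit 14867138923) (nat_lit 278) (nat_lit 5) (nat_lit 287) (nat_lit 5) (nat_lit 288) (nat_lit 5) (nat_lit 490) (nat_lit 440) (nat_lit 210))) (XT.nd (nat_lit 78) (nat_lit 608) (nat_lit 0) (XT.lf (nat_lit 0) (nat_lit 11694734674) (nat_lit 760) (nat_lit 5429297947) (nat_lit 76) (nat_lit 6132643611) (nat_lit 278) (nat_lit 5) (nat_lit 288) (nat_lit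 5) (nat_lit 279) (nat_lit 5) (nat_lit 491) (nat_lit 440) (nat_lit 209)) (XT.nd (nat_lit 78) (nat_lit 0) (nat_lit 0) (XT.lf (nat_lit 0) (nat_lit 7590287195) (nat_lit 608) (nat_lit 7813942651) (nat_lit 684) (nat_lit 8122600402) (nat_lit 270) (nat_lit 5) (nat_lit 278) (nat_lit 5) (nat_lit 279) (nat_lit 5) (nat_lit 492) (nat_lit 440) (nat_lit 208)) (XT.lf (nat_lit 0) (nat_lit 19231426528) (nat_lit 684) (nat_lit 2873939465) (nat_lit 76) (nat_lit 1696151829) (nat_lit 270) (nat_lit 5) (nat_lit 279) (nat_lit 5) (nat_lit 271) (nat_lit 5) (nat_lit 493) (nat_lit 440) (nat_lit 207))))) (XT.nd (nat_lit 234) (nat_lit 1140) (nat_lit 0) (XT.nd (nat_lit 78) (nat_lit 684) (nat_lit 0) (XT.lf (nat_lit 0) (nat_lit 10531410969) (nat_lit 608) (nat_lit 12719875113) (nat_lit 684) (nat_lit 828091379) (nat_lit 262) (nat_lit 5) (nat_lit 270) (nat_lit 5) (nat_lit 271) (nat_lit 5) (nat_lit 494) (nat_lit 440) (nat_lit 206)) (XT.nd (nat_lit 78) (nat_lit 608)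 (nat_lit 0) (XT.lf (nat_lit 0) (nat_lit 2964978185) (nat_lit 684) (nat_lit 143015972) (nat_lit 76) (nat_lit 21254104153) (nat_lit 261) (nat_lit 5) (nat_lit 270) (nat_lit 5) (nat_lit 262) (nat_lit 5) (nat_lit 495) (nat_lit 440) (nat_lit 205)) (XT.lf (nat_lit 0) (nat_lit 6951964693) (nat_lit 684) (nat_lit 10993343270) (nat_lit 76) (nat_lit 6702473920) (nat_lit 253) (nat_lit 5) (nat_lit 262) (nat_lit 5) (nat_lit 254) (nat_lit 5) (nat_lit 496) (nat_lit 440) (nat_lit 204)))) (XT.nd (nat_lit 78) (nat_lit 532) (nat_lit 0) (XT.lf (nat_lit 0) (nat_lit 2801935333) (nat_lit 608) (nat_lit 8252628566) (nat_lit 684) (nat_lit 13883898410) (nat_lit 245) (nat_lit 5) (nat_lit 253) (nat_lit 5) (nat_lit 254) (nat_lit 5) (nat_lit 497) (nat_lit 440) (nat_lit 203)) (XT.nd (nat_lit 78) (nat_lit 532) (nat_lit 0) (XT.lf (nat_lit 0) (nat_lit 15320253457) (nat_lit 684) (nat_lit 8227323926) (nat_lit 76) (nat_lit 1685758822) (nat_lit 245) (nat_lit 5) (nat_lit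 254) (nat_lit 5) (nat_lit 246) (nat_lit 5) (nat_lit 498) (nat_lit 440) (nat_lit 202)) (XT.lf (nat_lit 0) (nat_lit 5979038701) (nat_lit 532) (nat_lit 13781936556) (nat_lit 608) (nat_lit 5771338570) (nat_lit 238) (nat_lit 5) (nat_lit 245) (nat_lit 5) (nat_lit 246) (nat_lit 5) (nat_lit 499) (nat_lit 440) (nat_lit 201)))))) (XT.nd (nat_lit 468) (nat_lit 1520) (nat_lit 0) (XT.nd (nat_lit 234) (nat_lit 1064) (nat_lit 0) (XT.nd (nat_lit 78) (nat_lit 684) (nat_lit 0) (XT.lf (nat_lit 0) (nat_lit 20576296137) (nat_lit 532) (nat_lit 3765713169) (nat_lit 608) (nat_lit 1494232343) (nat_lit 238) (nat_lit 5) (nat_lit 245) (nat_lit 5) (nat_lit 246) (nat_lit 5) (nat_lit 500) (nat_lit 440) (nat_lit 200)) (XT.nd (nat_lit 78) (nat_lit 0) (nat_lit 0) (XT.lf (nat_lit 0) (nat_lit 2930694429) (nat_lit 684) (nat_lit 16767678057) (nat_lit 76) (nat_lit 6445505685) (nat_lit 229) (nat_lit 5) (nat_lit 238) (nat_lit 5) (nat_lit 230) (nat_lit 5) (nat_lit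 501) (nat_lit 440) (nat_lit 199)) (XT.lf (nat_lit 0) (nat_lit 7480970732) (nat_lit 684) (nat_lit 2120407859) (nat_lit 76) (nat_lit 16854954689) (nat_lit 229) (nat_lit 5) (nat_lit 238) (nat_lit 5) (nat_lit 230) (nat_lit 5) (nat_lit 502) (nat_lit 440) (nat_lit 198)))) (XT.nd (nat_lit 78) (nat_lit 532) (nat_lit 0) (XT.lf (nat_lit 0) (nat_lit 12208084973) (nat_lit 608) (nat_lit 13793042899) (nat_lit 76) (nat_lit 772193530) (nat_lit 222) (nat_lit 5) (nat_lit 230) (nat_lit 5) (nat_lit 223) (nat_lit 5) (nat_lit 503) (nat_lit 440) (nat_lit 197)) (XT.nd (nat_lit 78) (nat_lit 0) (nat_lit 0) (XT.lf (nat_lit 0) (nat_lit 1263561711) (nat_lit 532) (nat_lit 15848766782) (nat_lit 608) (nat_lit 9982669601) (nat_lit 215) (nat_lit 5) (nat_lit 222) (nat_lit 5) (nat_lit 223) (nat_lit 5) (nat_lit 504) (nat_lit 440) (nat_lit 196)) (XT.lf (nat_lit 0) (nat_lit 16803610395) (nat_lit 532) (nat_lit 5400118500) (nat_lit 608) (nat_lit 5217598520) (nat_lit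 215) (nat_lit 5) (nat_lit 222) (nat_lit 5) (nat_lit 223) (nat_lit 5) (nat_lit 505) (nat_lit 440) (nat_lit 195))))) (XT.nd (nat_lit 234) (nat_lit 456) (nat_lit 0) (XT.nd (nat_lit 78) (nat_lit 608) (nat_lit 0) (XT.lf (nat_lit 0) (nat_lit 4926122022) (nat_lit 456) (nat_lit 22533528482) (nat_lit 532) (nat_lit 293279481) (nat_lit 209) (nat_lit 5) (nat_lit 215) (nat_lit 5) (nat_lit 216) (nat_lit 5) (nat_lit 506) (nat_lit 440) (nat_lit 194)) (XT.nd (nat_lit 78) (nat_lit 532) (nat_lit 0) (XT.lf (nat_lit 0) (nat_lit 4771570790) (nat_lit 532) (nat_lit 7236559144) (nat_lit 76) (nat_lit 16080339566) (nat_lit 208) (nat_lit 5) (nat_lit 215) (nat_lit 5) (nat_lit 209) (nat_lit 5) (nat_lit 507) (nat_lit 440) (nat_lit 193)) (XT.lf (nat_lit 0) (nat_lit 8774075103) (nat_lit 532) (nat_lit 1213342358) (nat_lit 608) (nat_lit 18442191540) (nat_lit 201) (nat_lit 5) (nat_lit 208) (nat_lit 5) (nat_lit 209) (nat_lit 5) (nat_lit 508) (nat_lit 440) (nat_lit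 192)))) (XT.nd (nat_lit 78) (nat_lit 456) (nat_lit 0) (XT.lf (nat_lit 0) (nat_lit 15416758590) (nat_lit 608) (nat_lit 3642096711) (nat_lit 76) (nat_lit 9716532926) (nat_lit 201) (nat_lit 5) (nat_lit 209) (nat_lit 5) (nat_lit 202) (nat_lit 5) (nat_lit 509) (nat_lit 440) (nat_lit 191)) (XT.nd (nat_lit 53976) (nat_lit 0) (nat_lit 20900) (XT.lf (nat_lit 0) (nat_lit 12847582281) (nat_lit 456) (nat_lit 8195303655) (nat_lit 532) (nat_lit 8083433591) (nat_lit 195) (nat_lit 5) (nat_lit 201) (nat_lit 5) (nat_lit 202) (nat_lit 5) (nat_lit 510) (nat_lit 440) (nat_lit 190)) (XT.lf (nat_lit 0) (nat_lit 6898186794) (nat_lit 1748) (nat_lit 13991608) (nat_lit 1748) (nat_lit 13991608) (nat_lit 470) (nat_lit 3) (nat_lit 493) (nat_lit 3) (nat_lit 493) (nat_lit 5) (nat_lit 441) (nat_lit 441) (nat_lit 258))))))) (XT.nd (nat_lit 936) (nat_lit 1140) (nat_lit 0) (XT.nd (nat_lit 468) (nat_lit 0) (nat_lit 228) (XT.nd (nat_lit 234) (nat_lit 0) (nat_lit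 76) (XT.nd (nat_lit 78) (nat_lit 0) (nat_lit 0) (XT.lf (nat_lit 0) (nat_lit 336520201) (nat_lit 1748) (nat_lit 7186814711) (nat_lit 1824) (nat_lit 6459612637) (nat_lit 447) (nat_lit 5) (nat_lit 470) (nat_lit 3) (nat_lit 471) (nat_lit 5) (nat_lit 442) (nat_lit 441) (nat_lit 257)) (XT.nd (nat_lit 78) (nat_lit 0) (nat_lit 76) (XT.lf (nat_lit 0) (nat_lit 727141456) (nat_lit 1748) (nat_lit 364232999) (nat_lit 1824) (nat_lit 13024966711) (nat_lit 447) (nat_lit 5) (nat_lit 470) (nat_lit 3) (nat_lit 471) (nat_lit 5) (nat_lit 443) (nat_lit 441) (nat_lit 256)) (XT.lf (nat_lit 0) (nat_lit 1195779671) (nat_lit 1748) (nat_lit 7609876451) (nat_lit 1824) (nat_lit 5445344425) (nat_lit 448) (nat_lit 5) (nat_lit 471) (nat_lit 5) (nat_lit 472) (nat_lit 5) (nat_lit 444) (nat_lit 441) (nat_lit 255)))) (XT.nd (nat_lit 78) (nat_lit 0) (nat_lit 76) (XT.lf (nat_lit 0) (nat_lit 1674675270) (nat_lit 1748) (nat_lit 608910824) (nat_lit 1824) (nat_lit 12104751274)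 (nat_lit 448) (nat_lit 5) (nat_lit 471) (nat_lit 5) (nat_lit 472) (nat_lit 5) (nat_lit 445) (nat_lit 441) (nat_lit 254)) (XT.nd (nat_lit 78) (nat_lit 0) (nat_lit 0) (XT.lf (nat_lit 0) (nat_lit 2226135900) (nat_lit 1748) (nat_lit 7942386131) (nat_lit 1824) (nat_lit 4358641058) (nat_lit 449) (nat_lit 5) (nat_lit 472) (nat_lit 5) (nat_lit 473) (nat_lit 5) (nat_lit 446) (nat_lit 441) (nat_lit 253)) (XT.lf (nat_lit 0) (nat_lit 2799393756) (nat_lit 1748) (nat_lit 758198241) (nat_lit 1824) (nat_lit 11110959837) (nat_lit 449) (nat_lit 5) (nat_lit 472) (nat_lit 5) (nat_lit 473) (nat_lit 5) (nat_lit 447) (nat_lit 441) (nat_lit 252))))) (XT.nd (nat_lit 234) (nat_lit 0) (nat_lit 76) (XT.nd (nat_lit 78) (nat_lit 0) (nat_lit 0) (XT.lf (nat_lit 0) (nat_lit 3439995251) (nat_lit 1748) (nat_lit 8181006971) (nat_lit 1824) (nat_lit 3190650391) (nat_lit 450) (nat_lit 5) (nat_lit 473) (nat_lit 5) (nat_lit 474) (nat_lit 5) (nat_lit 448) (nat_lit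 441) (nat_lit 251)) (XT.nd (nat_lit 78) (nat_lit 0) (nat_lit 76) (XT.lf (nat_lit 0) (nat_lit 4113941540) (nat_lit 1748) (nat_lit 808578261) (nat_lit 1824) (nat_lit 10034686751) (nat_lit 450) (nat_lit 5) (nat_lit 473) (nat_lit 5) (nat_lit 474) (nat_lit 5) (nat_lit 449) (nat_lit 441) (nat_lit 250)) (XT.lf (nat_lit 0) (nat_lit 4850211114) (nat_lit 1748) (nat_lit 8322156423) (nat_lit 1824) (nat_lit 1932328904) (nat_lit 451) (nat_lit 5) (nat_lit 474) (nat_lit 5) (nat_lit 475) (nat_lit 5) (nat_lit 450) (nat_lit 441) (nat_lit 249)))) (XT.nd (nat_lit 78) (nat_lit 0) (nat_lit 76) (XT.lf (nat_lit 0) (nat_lit 5631422493) (nat_lit 1748) (nat_lit 756284231) (nat_lit 1824) (nat_lit 8866826803) (nat_lit 451) (nat_lit 5) (nat_lit 474) (nat_lit 5) (nat_lit 475) (nat_lit 5) (nat_lit 451) (nat_lit 441) (nat_lit 248)) (XT.nd (nat_lit 78) (nat_lit 0) (nat_lit 0) (XT.lf (nat_lit 0) (nat_lit 6470108801) (nat_lit 1748) (nat_lit 8362003588) (nat_lit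 1824) (nat_lit 574419644) (nat_lit 452) (nat_lit 5) (nat_lit 475) (nat_lit 5) (nat_lit 476) (nat_lit 5) (nat_lit 452) (nat_lit 441) (nat_lit 247)) (XT.lf (nat_lit 0) (nat_lit 7365424999) (nat_lit 1748) (nat_lit 597297024) (nat_lit 1824) (nat_lit 7598053022) (nat_lit 452) (nat_lit 5) (nat_lit 475) (nat_lit 5) (nat_lit 476) (nat_lit 5) (nat_lit 453) (nat_lit 441) (nat_lit 246)))))) (XT.nd (nat_lit 468) (nat_lit 1520) (nat_lit 0) (XT.nd (nat_lit 234) (nat_lit 0) (nat_lit 152) (XT.nd (nat_lit 78) (nat_lit 0) (nat_lit 76) (XT.lf (nat_lit 76) (nat_lit 7414951385) (nat_lit 0) (nat_lit 904431854) (nat_lit 1824) (nat_lit 7397906591) (nat_lit 453) (nat_lit 5) (nat_lit 452) (nat_lit 5) (nat_lit 476) (nat_lit 5) (nat_lit 454) (nat_lit 441) (nat_lit 245)) (XT.nd (nat_lit 78) (nat_lit 0) (nat_lit 0) (XT.lf (nat_lit 0) (nat_lit 9330047861) (nat_lit 1748) (nat_lit 327341869) (nat_lit 1824) (nat_lit 6218794231) (nat_lit 453) (nat_lit 5) (nat_lit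 476) (nat_lit 5) (nat_lit 477) (nat_lit 5) (nat_lit 455) (nat_lit 441) (nat_lit 244)) (XT.lf (nat_lit 76) (nat_lit 7899741767) (nat_lit 0) (nat_lit 2511327734) (nat_lit 1824) (nat_lit 5626185163) (nat_lit 454) (nat_lit 5) (nat_lit 453) (nat_lit 5) (nat_lit 477) (nat_lit 5) (nat_lit 456) (nat_lit 441) (nat_lit 243)))) (XT.nd (nat_lit 78) (nat_lit 0) (nat_lit 0) (XT.lf (nat_lit 76) (nat_lit 58887494) (nat_lit 0) (nat_lit 11481421734) (nat_lit 1824) (nat_lit 4660707133) (nat_lit 455) (nat_lit 5) (nat_lit 454) (nat_lit 5) (nat_lit 478) (nat_lit 5) (nat_lit 457) (nat_lit 441) (nat_lit 242)) (XT.nd (nat_lit 78) (nat_lit 0) (nat_lit 76) (XT.lf (nat_lit 76) (nat_lit 8507551584) (nat_lit 0) (nat_lit 4248799808) (nat_lit 1824) (nat_lit 3610419049) (nat_lit 455) (nat_lit 5) (nat_lit 454) (nat_lit 5) (nat_lit 478) (nat_lit 5) (nat_lit 458) (nat_lit 441) (nat_lit 241)) (XT.lf (nat_lit 76) (nat_lit 571364615) (nat_lit 0) (nat_lit 13442607279)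 (nat_lit 1824) (nat_lit 2521524032) (nat_lit 456) (nat_lit 5) (nat_lit 455) (nat_lit 5) (nat_lit 479) (nat_lit 5) (nat_lit 459) (nat_lit 441) (nat_lit 240))))) (XT.nd (nat_lit 234) (nat_lit 0) (nat_lit 0) (XT.nd (nat_lit 78) (nat_lit 1748) (nat_lit 0) (XT.lf (nat_lit 76) (nat_lit 9243449689) (nat_lit 0) (nat_lit 6127322240) (nat_lit 1824) (nat_lit 1335344896) (nat_lit 456) (nat_lit 5) (nat_lit 455) (nat_lit 5) (nat_lit 479) (nat_lit 5) (nat_lit 460) (nat_lit 441) (nat_lit 239)) (XT.nd (nat_lit 78) (nat_lit 1824) (nat_lit 0) (XT.lf (nat_lit 76) (nat_lit 1210870758) (nat_lit 0) (nat_lit 15553837377) (nat_lit 1824) (nat_lit 115243418) (nat_lit 457) (nat_lit 5) (nat_lit 456) (nat_lit 5) (nat_lit 480) (nat_lit 5) (nat_lit 461) (nat_lit 441) (nat_lit 238)) (XT.lf (nat_lit 0) (nat_lit 1198964054) (nat_lit 1824) (nat_lit 6950692180) (nat_lit 1900) (nat_lit 8905771177) (nat_lit 432) (nat_lit 5) (nat_lit 456) (nat_lit 5) (nat_lit 457)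 (nat_lit 5) (nat_lit 462) (nat_lit 441) (nat_lit 237)))) (XT.nd (nat_lit 78) (nat_lit 0) (nat_lit 76) (XT.lf (nat_lit 76) (nat_lit 1961907504) (nat_lit 0) (nat_lit 582397500) (nat_lit 1900) (nat_lit 14689966032) (nat_lit 433) (nat_lit 5) (nat_lit 432) (nat_lit 5) (nat_lit 457) (nat_lit 5) (nat_lit 463) (nat_lit 441) (nat_lit 236)) (XT.nd (nat_lit 78) (nat_lit 0) (nat_lit 0) (XT.lf (nat_lit 0) (nat_lit 4003589412) (nat_lit 1824) (nat_lit 6320647456) (nat_lit 1900) (nat_lit 7090715242) (nat_lit 433) (nat_lit 5) (nat_lit 457) (nat_lit 5) (nat_lit 458) (nat_lit 5) (nat_lit 464) (nat_lit 441) (nat_lit 235)) (XT.lf (nat_lit 76) (nat_lit 2838349365) (nat_lit 0) (nat_lit 2669869992) (nat_lit 1900) (nat_lit 12090705534) (nat_lit 434) (nat_lit 5) (nat_lit 433) (nat_lit 5) (nat_lit 458) (nat_lit 5) (nat_lit 465) (nat_lit 441) (nat_lit 234))))))))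
noncomputable def xc219 : XT := (XT.nd (nat_lit 1794) (nat_lit 7296) (nat_lit 0) (XT.nd (nat_lit 858) (nat_lit 4484) (nat_lit 0) (XT.nd (nat_lit 390) (nat_lit 3572) (nat_lit 0) (XT.nd (nat_lit 156) (nat_lit 912) (nat_lit 0) (XT.nd (nat_lit 78) (nat_lit 1444) (nat_lit 0) (XT.lf (nat_lit 0) (nat_lit 7112961976) (nat_lit 1824) (nat_lit 5558378764) (nat_lit 76) (nat_lit 5113837243) (nat_lit 434) (nat_lit 5) (nat_lit 458) (nat_lit 5) (nat_lit 435) (nat_lit 5) (nat_lit 466) (nat_lit 441) (nat_lit 233)) (XT.lf (nat_lit 0) (nat_lit 3855633691) (nat_lit 1444) (nat_lit 4930966332) (nat_lit 1520) (nat_lit 9187821337) (nat_lit 415) (nat_lit 5) (nat_lit 434) (nat_lit 5) (nat_lit 435) (nat_lit 5) (nat_lit 467) (nat_lit 441) (nat_lit 232))) (XT.nd (nat_lit 78) (nat_lit 912) (nat_lit 0) (XT.lf (nat_lit 0) (nat_lit 10544676982) (nat_lit 1520) (nat_lit 4658127966) (nat_lit 76) (nat_lit 2963626541) (nat_lit 415) (nat_lit 5) (nat_lit 435) (nat_lit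 5) (nat_lit 416) (nat_lit 5) (nat_lit 468) (nat_lit 441) (nat_lit 231)) (XT.nd (nat_lit 78) (nat_lit 0) (nat_lit 0) (XT.lf (nat_lit 0) (nat_lit 5019824080) (nat_lit 912) (nat_lit 7377626903) (nat_lit 988) (nat_lit 5963641313) (nat_lit 403) (nat_lit 5) (nat_lit 415) (nat_lit 5) (nat_lit 416) (nat_lit 5) (nat_lit 469) (nat_lit 441) (nat_lit 230)) (XT.lf (nat_lit 0) (nat_lit 14317038724) (nat_lit 988) (nat_lit 3613858031) (nat_lit 76) (nat_lit 628155560) (nat_lit 403) (nat_lit 5) (nat_lit 416) (nat_lit 5) (nat_lit 404) (nat_lit 5) (nat_lit 470) (nat_lit 441) (nat_lit 229))))) (XT.nd (nat_lit 234) (nat_lit 1672) (nat_lit 0) (XT.nd (nat_lit 78) (nat_lit 988) (nat_lit 0) (XT.lf (nat_lit 0) (nat_lit 6337272778) (nat_lit 912) (nat_lit 10022230886) (nat_lit 988) (nat_lit 2399779301) (nat_lit 391) (nat_lit 5) (nat_lit 403) (nat_lit 5) (nat_lit 404) (nat_lit 5) (nat_lit 471) (nat_lit 441) (nat_lit 228)) (XT.nd (nat_lit 78) (nat_lit 988)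 (nat_lit 0) (XT.lf (nat_lit 0) (nat_lit 16531362852) (nat_lit 912) (nat_lit 1930262573) (nat_lit 988) (nat_lit 501517769) (nat_lit 391) (nat_lit 5) (nat_lit 403) (nat_lit 5) (nat_lit 404) (nat_lit 5) (nat_lit 472) (nat_lit 441) (nat_lit 227)) (XT.lf (nat_lit 0) (nat_lit 1502924285) (nat_lit 988) (nat_lit 11364613959) (nat_lit 76) (nat_lit 6301616521) (nat_lit 378) (nat_lit 5) (nat_lit 391) (nat_lit 5) (nat_lit 379) (nat_lit 5) (nat_lit 473) (nat_lit 441) (nat_lit 226)))) (XT.nd (nat_lit 78) (nat_lit 1672) (nat_lit 0) (XT.lf (nat_lit 0) (nat_lit 3564657833) (nat_lit 988) (nat_lit 1121720589) (nat_lit 76) (nat_lit 14692364537) (nat_lit 378) (nat_lit 5) (nat_lit 391) (nat_lit 5) (nat_lit 379) (nat_lit 5) (nat_lit 474) (nat_lit 441) (nat_lit 225)) (XT.nd (nat_lit 78) (nat_lit 836) (nat_lit 0) (XT.lf (nat_lit 0) (nat_lit 5747914576) (nat_lit 912) (nat_lit 10170658926) (nat_lit 76) (nat_lit 3672344675) (nat_lit 367) (nat_lit 5) (nat_lit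 379) (nat_lit 5) (nat_lit 368) (nat_lit 5) (nat_lit 475) (nat_lit 441) (nat_lit 224)) (XT.lf (nat_lit 0) (nat_lit 349524902) (nat_lit 836) (nat_lit 7661070117) (nat_lit 912) (nat_lit 11796027721) (nat_lit 356) (nat_lit 5) (nat_lit 367) (nat_lit 5) (nat_lit 368) (nat_lit 5) (nat_lit 476) (nat_lit 441) (nat_lit 223)))))) (XT.nd (nat_lit 468) (nat_lit 2128) (nat_lit 0) (XT.nd (nat_lit 234) (nat_lit 1596) (nat_lit 0) (XT.nd (nat_lit 78) (nat_lit 760) (nat_lit 0) (XT.lf (nat_lit 0) (nat_lit 10387120525) (nat_lit 912) (nat_lit 8817834838) (nat_lit 76) (nat_lit 820315194) (nat_lit 356) (nat_lit 5) (nat_lit 368) (nat_lit 5) (nat_lit 357) (nat_lit 5) (nat_lit 477) (nat_lit 441) (nat_lit 222)) (XT.nd (nat_lit 78) (nat_lit 0) (nat_lit 0) (XT.lf (nat_lit 0) (nat_lit 2004730926) (nat_lit 760) (nat_lit 10865240636) (nat_lit 836) (nat_lit 7377144841) (nat_lit 346) (nat_lit 5) (nat_lit 356) (nat_lit 5) (nat_lit 357) (nat_lit 5) (nat_lit 478)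 (nat_lit 441) (nat_lit 221)) (XT.lf (nat_lit 0) (nat_lit 13158269895) (nat_lit 760) (nat_lit 2298490138) (nat_lit 836) (nat_lit 5015554477) (nat_lit 346) (nat_lit 5) (nat_lit 356) (nat_lit 5) (nat_lit 357) (nat_lit 5) (nat_lit 479) (nat_lit 441) (nat_lit 220)))) (XT.nd (nat_lit 78) (nat_lit 836) (nat_lit 0) (XT.lf (nat_lit 0) (nat_lit 3836363384) (nat_lit 760) (nat_lit 14320842522) (nat_lit 836) (nat_lit 2543573175) (nat_lit 336) (nat_lit 5) (nat_lit 346) (nat_lit 5) (nat_lit 347) (nat_lit 5) (nat_lit 480) (nat_lit 441) (nat_lit 219)) (XT.nd (nat_lit 78) (nat_lit 760) (nat_lit 0) (XT.lf (nat_lit 0) (nat_lit 37999009) (nat_lit 836) (nat_lit 5644346460) (nat_lit 76) (nat_lit 15250274034) (nat_lit 335) (nat_lit 5) (nat_lit 346) (nat_lit 5) (nat_lit 336) (nat_lit 5) (nat_lit 481) (nat_lit 441) (nat_lit 218)) (XT.lf (nat_lit 0) (nat_lit 2691194362) (nat_lit 836) (nat_lit 15333636831) (nat_lit 76) (nat_lit 3142849158) (nat_lit 325)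 (nat_lit 5) (nat_lit 336) (nat_lit 5) (nat_lit 326) (nat_lit 5) (nat_lit 482) (nat_lit 441) (nat_lit 217))))) (XT.nd (nat_lit 234) (nat_lit 1368) (nat_lit 0) (XT.nd (nat_lit 78) (nat_lit 760) (nat_lit 0) (XT.lf (nat_lit 0) (nat_lit 5468596619) (nat_lit 836) (nat_lit 3831050770) (nat_lit 76) (nat_lit 12106373029) (nat_lit 325) (nat_lit 5) (nat_lit 336) (nat_lit 5) (nat_lit 326) (nat_lit 5) (nat_lit 483) (nat_lit 441) (nat_lit 216)) (XT.nd (nat_lit 78) (nat_lit 0) (nat_lit 0) (XT.lf (nat_lit 0) (nat_lit 8001632286) (nat_lit 760) (nat_lit 347341241) (nat_lit 836) (nat_lit 13299206074) (nat_lit 315) (nat_lit 5) (nat_lit 325) (nat_lit 5) (nat_lit 326) (nat_lit 5) (nat_lit 484) (nat_lit 441) (nat_lit 215)) (XT.lf (nat_lit 0) (nat_lit 11365397488) (nat_lit 836) (nat_lit 1833922740) (nat_lit 76) (nat_lit 8694293780) (nat_lit 315) (nat_lit 5) (nat_lit 326) (nat_lit 5) (nat_lit 316) (nat_lit 5) (nat_lit 485) (nat_lit 441) (nat_lit 214))))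 (XT.nd (nat_lit 78) (nat_lit 684) (nat_lit 0) (XT.lf (nat_lit 0) (nat_lit 10343454471) (nat_lit 684) (nat_lit 4163769223) (nat_lit 760) (nat_lit 7635432746) (nat_lit 306) (nat_lit 5) (nat_lit 315) (nat_lit 5) (nat_lit 316) (nat_lit 5) (nat_lit 486) (nat_lit 441) (nat_lit 213)) (XT.nd (nat_lit 78) (nat_lit 0) (nat_lit 0) (XT.lf (nat_lit 0) (nat_lit 359729169) (nat_lit 684) (nat_lit 17395353413) (nat_lit 760) (nat_lit 4640734015) (nat_lit 297) (nat_lit 5) (nat_lit 306) (nat_lit 5) (nat_lit 307) (nat_lit 5) (nat_lit 487) (nat_lit 441) (nat_lit 212)) (XT.lf (nat_lit 0) (nat_lit 12888963374) (nat_lit 684) (nat_lit 8281228957) (nat_lit 760) (nat_lit 1481802532) (nat_lit 297) (nat_lit 5) (nat_lit 306) (nat_lit 5) (nat_lit 307) (nat_lit 5) (nat_lit 488) (nat_lit 441) (nat_lit 211))))))) (XT.nd (nat_lit 936) (nat_lit 2812) (nat_lit 0) (XT.nd (nat_lit 468) (nat_lit 2432) (nat_lit 0) (XT.nd (nat_lit 234) (nat_lit 608) (nat_lit 0) (XT.nd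 (nat_lit 78) (nat_lit 684) (nat_lit 0) (XT.lf (nat_lit 0) (nat_lit 1738063537) (nat_lit 760) (nat_lit 20143823070) (nat_lit 76) (nat_lit 1030773247) (nat_lit 287) (nat_lit 5) (nat_lit 297) (nat_lit 5) (nat_lit 288) (nat_lit 5) (nat_lit 489) (nat_lit 441) (nat_lit 210)) (XT.nd (nat_lit 78) (nat_lit 684) (nat_lit 0) (XT.lf (nat_lit 0) (nat_lit 5119120127) (nat_lit 760) (nat_lit 7563519929) (nat_lit 76) (nat_lit 10493370240) (nat_lit 287) (nat_lit 5) (nat_lit 297) (nat_lit 5) (nat_lit 288) (nat_lit 5) (nat_lit 490) (nat_lit 441) (nat_lit 209)) (XT.lf (nat_lit 0) (nat_lit 5333550275) (nat_lit 684) (nat_lit 3264782851) (nat_lit 760) (nat_lit 14845684639) (nat_lit 278) (nat_lit 5) (nat_lit 287) (nat_lit 5) (nat_lit 288) (nat_lit 5) (nat_lit 491) (nat_lit 441) (nat_lit 208)))) (XT.nd (nat_lit 78) (nat_lit 608) (nat_lit 0) (XT.lf (nat_lit 0) (nat_lit 12235345565) (nat_lit 760) (nat_lit 5171626719) (nat_lit 76) (nat_lit 6308649503)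 (nat_lit 278) (nat_lit 5) (nat_lit 288) (nat_lit 5) (nat_lit 279) (nat_lit 5) (nat_lit 492) (nat_lit 441) (nat_lit 207)) (XT.nd (nat_lit 78) (nat_lit 0) (nat_lit 0) (XT.lf (nat_lit 0) (nat_lit 8105940538) (nat_lit 608) (nat_lit 7909438400) (nat_lit 684) (nat_lit 7975874032) (nat_lit 270) (nat_lit 5) (nat_lit 278) (nat_lit 5) (nat_lit 279) (nat_lit 5) (nat_lit 493) (nat_lit 441) (nat_lit 206)) (XT.lf (nat_lit 0) (nat_lit 19913564019) (nat_lit 684) (nat_lit 2569097825) (nat_lit 76) (nat_lit 1788884594) (nat_lit 270) (nat_lit 5) (nat_lit 279) (nat_lit 5) (nat_lit 271) (nat_lit 5) (nat_lit 494) (nat_lit 441) (nat_lit 205))))) (XT.nd (nat_lit 234) (nat_lit 1140) (nat_lit 0) (XT.nd (nat_lit 78) (nat_lit 684) (nat_lit 0) (XT.lf (nat_lit 0) (nat_lit 11101975930) (nat_lit 608) (nat_lit 12908348273) (nat_lit 684) (nat_lit 544710009) (nat_lit 262) (nat_lit 5) (nat_lit 270) (nat_lit 5) (nat_lit 271) (nat_lit 5) (nat_lit 495) (nat_lit 441)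 (nat_lit 204)) (XT.nd (nat_lit 78) (nat_lit 0) (nat_lit 0) (XT.lf (nat_lit 0) (nat_lit 213710987) (nat_lit 608) (nat_lit 3102159598) (nat_lit 684) (nat_lit 21527589248) (nat_lit 253) (nat_lit 5) (nat_lit 261) (nat_lit 5) (nat_lit 262) (nat_lit 5) (nat_lit 496) (nat_lit 441) (nat_lit 203)) (XT.lf (nat_lit 0) (nat_lit 7378259251) (nat_lit 684) (nat_lit 10853428060) (nat_lit 76) (nat_lit 6903257469) (nat_lit 253) (nat_lit 5) (nat_lit 262) (nat_lit 5) (nat_lit 254) (nat_lit 5) (nat_lit 497) (nat_lit 441) (nat_lit 202)))) (XT.nd (nat_lit 78) (nat_lit 532) (nat_lit 0) (XT.lf (nat_lit 0) (nat_lit 3215389127) (nat_lit 608) (nat_lit 8344209434) (nat_lit 684) (nat_lit 13871907426) (nat_lit 245) (nat_lit 5) (nat_lit 253) (nat_lit 5) (nat_lit 254) (nat_lit 5) (nat_lit 498) (nat_lit 441) (nat_lit 201)) (XT.nd (nat_lit 78) (nat_lit 532) (nat_lit 0) (XT.lf (nat_lit 0) (nat_lit 15905502066) (nat_lit 684) (nat_lit 8036317828) (nat_lit 76) (nat_lit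 1790560380) (nat_lit 245) (nat_lit 5) (nat_lit 254) (nat_lit 5) (nat_lit 246) (nat_lit 5) (nat_lit 499) (nat_lit 441) (nat_lit 200)) (XT.lf (nat_lit 0) (nat_lit 6451832890) (nat_lit 532) (nat_lit 13980031187) (nat_lit 608) (nat_lit 5605537753) (nat_lit 238) (nat_lit 5) (nat_lit 245) (nat_lit 5) (nat_lit 246) (nat_lit 5) (nat_lit 500) (nat_lit 441) (nat_lit 199)))))) (XT.nd (nat_lit 468) (nat_lit 1064) (nat_lit 0) (XT.nd (nat_lit 234) (nat_lit 1064) (nat_lit 0) (XT.nd (nat_lit 78) (nat_lit 684) (nat_lit 0) (XT.lf (nat_lit 0) (nat_lit 21334109722) (nat_lit 532) (nat_lit 3765003805) (nat_lit 608) (nat_lit 1248403668) (nat_lit 238) (nat_lit 5) (nat_lit 245) (nat_lit 5) (nat_lit 246) (nat_lit 5) (nat_lit 501) (nat_lit 441) (nat_lit 198)) (XT.nd (nat_lit 78) (nat_lit 0) (nat_lit 0) (XT.lf (nat_lit 0) (nat_lit 3258837996) (nat_lit 684) (nat_lit 16750474871) (nat_lit 76) (nat_lit 6652009977) (nat_lit 229) (nat_lit 5) (nat_lit 238)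 (nat_lit 5) (nat_lit 230) (nat_lit 5) (nat_lit 502) (nat_lit 441) (nat_lit 197)) (XT.lf (nat_lit 0) (nat_lit 7894834930) (nat_lit 684) (nat_lit 1817172145) (nat_lit 76) (nat_lit 17268126506) (nat_lit 229) (nat_lit 5) (nat_lit 238) (nat_lit 5) (nat_lit 230) (nat_lit 5) (nat_lit 503) (nat_lit 441) (nat_lit 196)))) (XT.nd (nat_lit 78) (nat_lit 532) (nat_lit 0) (XT.lf (nat_lit 0) (nat_lit 12714072469) (nat_lit 608) (nat_lit 13720800244) (nat_lit 76) (nat_lit 868637946) (nat_lit 222) (nat_lit 5) (nat_lit 230) (nat_lit 5) (nat_lit 223) (nat_lit 5) (nat_lit 504) (nat_lit 441) (nat_lit 195)) (XT.nd (nat_lit 78) (nat_lit 0) (nat_lit 0) (XT.lf (nat_lit 0) (nat_lit 1634646303) (nat_lit 532) (nat_lit 16078865966) (nat_lit 608) (nat_lit 9918167184) (nat_lit 215) (nat_lit 5) (nat_lit 222) (nat_lit 5) (nat_lit 223) (nat_lit 5) (nat_lit 505) (nat_lit 441) (nat_lit 194)) (XT.lf (nat_lit 0) (nat_lit 17478715308) (nat_lit 532) (nat_lit 5422948172)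 (nat_lit 608) (nat_lit 5062974207) (nat_lit 215) (nat_lit 5) (nat_lit 222) (nat_lit 5) (nat_lit 223) (nat_lit 5) (nat_lit 506) (nat_lit 441) (nat_lit 193))))) (XT.nd (nat_lit 54288) (nat_lit 0) (nat_lit 18696) (XT.nd (nat_lit 78) (nat_lit 608) (nat_lit 0) (XT.lf (nat_lit 0) (nat_lit 5365979947) (nat_lit 456) (nat_lit 22894504259) (nat_lit 532) (nat_lit 42433256) (nat_lit 209) (nat_lit 5) (nat_lit 215) (nat_lit 5) (nat_lit 216) (nat_lit 5) (nat_lit 507) (nat_lit 441) (nat_lit 192)) (XT.nd (nat_lit 78) (nat_lit 532) (nat_lit 0) (XT.lf (nat_lit 0) (nat_lit 5115379650) (nat_lit 532) (nat_lit 7043310067) (nat_lit 76) (nat_lit 16486544801) (nat_lit 208) (nat_lit 5) (nat_lit 215) (nat_lit 5) (nat_lit 209) (nat_lit 5) (nat_lit 508) (nat_lit 441) (nat_lit 191)) (XT.lf (nat_lit 0) (nat_lit 9285313310) (nat_lit 532) (nat_lit 1147539754) (nat_lit 608) (nat_lit 18560398271) (nat_lit 201) (nat_lit 5) (nat_lit 208) (nat_lit 5) (nat_lit 209)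 (nat_lit 5) (nat_lit 509) (nat_lit 441) (nat_lit 190)))) (XT.nd (nat_lit 78) (nat_lit 0) (nat_lit 0) (XT.lf (nat_lit 0) (nat_lit 159774142) (nat_lit 0) (nat_lit 159774142) (nat_lit 1748) (nat_lit 6738117882) (nat_lit 447) (nat_lit 5) (nat_lit 447) (nat_lit 3) (nat_lit 470) (nat_lit 3) (nat_lit 442) (nat_lit 442) (nat_lit 256)) (XT.nd (nat_lit 78) (nat_lit 0) (nat_lit 0) (XT.lf (nat_lit 0) (nat_lit 1023199577) (nat_lit 1748) (nat_lit 6973461235) (nat_lit 1824) (nat_lit 6252196488) (nat_lit 447) (nat_lit 5) (nat_lit 470) (nat_lit 3) (nat_lit 471) (nat_lit 5) (nat_lit 443) (nat_lit 442) (nat_lit 255)) (XT.lf (nat_lit 0) (nat_lit 1408300924) (nat_lit 1748) (nat_lit 21429649) (nat_lit 1824) (nat_lit 12955457808) (nat_lit 447) (nat_lit 5) (nat_lit 470) (nat_lit 3) (nat_lit 471) (nat_lit 5) (nat_lit 444) (nat_lit 442) (nat_lit 254))))))))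
noncomputable def xc220 : XT := (XT.nd (nat_lit 1794) (nat_lit 11020) (nat_lit 0) (XT.nd (nat_lit 858) (nat_lit 1216) (nat_lit 0) (XT.nd (nat_lit 390) (nat_lit 0) (nat_lit 152) (XT.nd (nat_lit 156) (nat_lit 0) (nat_lit 76) (XT.nd (nat_lit 78) (nat_lit 0) (nat_lit 0) (XT.lf (nat_lit 0) (nat_lit 1873499175) (nat_lit 1748) (nat_lit 7399028853) (nat_lit 1824) (nat_lit 5250272064) (nat_lit 448) (nat_lit 5) (nat_lit 471) (nat_lit 5) (nat_lit 472) (nat_lit 5) (nat_lit 445) (nat_lit 442) (nat_lit 253)) (XT.lf (nat_lit 0) (nat_lit 2349153001) (nat_lit 1748) (nat_lit 265162445) (nat_lit 1824) (nat_lit 12048827428) (nat_lit 448) (nat_lit 5) (nat_lit 471) (nat_lit 5) (nat_lit 472) (nat_lit 5) (nat_lit 446) (nat_lit 442) (nat_lit 252))) (XT.nd (nat_lit 78) (nat_lit 0) (nat_lit 0) (XT.lf (nat_lit 0) (nat_lit 2899570943) (nat_lit 1748) (nat_lit 7733096578) (nat_lit 1824) (nat_lit 4172321802) (nat_lit 449) (nat_lit 5) (nat_lit 472) (nat_lit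 5) (nat_lit 473) (nat_lit 5) (nat_lit 447) (nat_lit 442) (nat_lit 251)) (XT.nd (nat_lit 78) (nat_lit 0) (nat_lit 76) (XT.lf (nat_lit 0) (nat_lit 3471962342) (nat_lit 1748) (nat_lit 412443307) (nat_lit 1824) (nat_lit 11065049546) (nat_lit 449) (nat_lit 5) (nat_lit 472) (nat_lit 5) (nat_lit 473) (nat_lit 5) (nat_lit 448) (nat_lit 442) (nat_lit 250)) (XT.lf (nat_lit 0) (nat_lit 4114001997) (nat_lit 1748) (nat_lit 7972200948) (nat_lit 1824) (nat_lit 3009445192) (nat_lit 450) (nat_lit 5) (nat_lit 473) (nat_lit 5) (nat_lit 474) (nat_lit 5) (nat_lit 449) (nat_lit 442) (nat_lit 249))))) (XT.nd (nat_lit 234) (nat_lit 0) (nat_lit 152) (XT.nd (nat_lit 78) (nat_lit 0) (nat_lit 76) (XT.lf (nat_lit 0) (nat_lit 4789560410) (nat_lit 1748) (nat_lit 459626137) (nat_lit 1824) (nat_lit 9995166558) (nat_lit 450) (nat_lit 5) (nat_lit 473) (nat_lit 5) (nat_lit 474) (nat_lit 5) (nat_lit 450) (nat_lit 442) (nat_lit 248)) (XT.nd (nat_lit 78) (nat_lit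 0) (nat_lit 0) (XT.lf (nat_lit 0) (nat_lit 5529839204) (nat_lit 1748) (nat_lit 8112631478) (nat_lit 1824) (nat_lit 1752538997) (nat_lit 451) (nat_lit 5) (nat_lit 474) (nat_lit 5) (nat_lit 475) (nat_lit 5) (nat_lit 451) (nat_lit 442) (nat_lit 247)) (XT.lf (nat_lit 0) (nat_lit 6315250813) (nat_lit 1748) (nat_lit 402813766) (nat_lit 1824) (nat_lit 8830009923) (nat_lit 451) (nat_lit 5) (nat_lit 474) (nat_lit 5) (nat_lit 475) (nat_lit 5) (nat_lit 452) (nat_lit 442) (nat_lit 246)))) (XT.nd (nat_lit 78) (nat_lit 0) (nat_lit 0) (XT.lf (nat_lit 0) (nat_lit 7160614375) (nat_lit 1748) (nat_lit 8150427805) (nat_lit 1824) (nat_lit 392275191) (nat_lit 452) (nat_lit 5) (nat_lit 475) (nat_lit 5) (nat_lit 476) (nat_lit 5) (nat_lit 453) (nat_lit 442) (nat_lit 245)) (XT.nd (nat_lit 78) (nat_lit 0) (nat_lit 0) (XT.lf (nat_lit 0) (nat_lit 8062834870) (nat_lit 1748) (nat_lit 237854871) (nat_lit 1824) (nat_lit 7560177959) (nat_lit 452) (nat_lit 5)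 (nat_lit 475) (nat_lit 5) (nat_lit 476) (nat_lit 5) (nat_lit 454) (nat_lit 442) (nat_lit 244)) (XT.lf (nat_lit 76) (nat_lit 7932195163) (nat_lit 0) (nat_lit 1095286244) (nat_lit 1824) (nat_lit 6993201560) (nat_lit 453) (nat_lit 5) (nat_lit 452) (nat_lit 5) (nat_lit 476) (nat_lit 5) (nat_lit 455) (nat_lit 442) (nat_lit 243)))))) (XT.nd (nat_lit 468) (nat_lit 1596) (nat_lit 0) (XT.nd (nat_lit 234) (nat_lit 0) (nat_lit 76) (XT.nd (nat_lit 78) (nat_lit 0) (nat_lit 0) (XT.lf (nat_lit 76) (nat_lit 40186502) (nat_lit 0) (nat_lit 10006712247) (nat_lit 1824) (nat_lit 6136087766) (nat_lit 454) (nat_lit 5) (nat_lit 453) (nat_lit 5) (nat_lit 477) (nat_lit 5) (nat_lit 456) (nat_lit 442) (nat_lit 242)) (XT.nd (nat_lit 78) (nat_lit 0) (nat_lit 76) (XT.lf (nat_lit 76) (nat_lit 8428827204) (nat_lit 0) (nat_lit 2712470125) (nat_lit 1824) (nat_lit 5206148450) (nat_lit 454) (nat_lit 5) (nat_lit 453) (nat_lit 5) (nat_lit 477) (nat_lit 5) (nat_lit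 457) (nat_lit 442) (nat_lit 241)) (XT.lf (nat_lit 76) (nat_lit 440172404) (nat_lit 0) (nat_lit 11844221301) (nat_lit 1824) (nat_lit 4230265800) (nat_lit 455) (nat_lit 5) (nat_lit 454) (nat_lit 5) (nat_lit 478) (nat_lit 5) (nat_lit 458) (nat_lit 442) (nat_lit 240)))) (XT.nd (nat_lit 78) (nat_lit 0) (nat_lit 76) (XT.lf (nat_lit 76) (nat_lit 9050356695) (nat_lit 0) (nat_lit 4464335738) (nat_lit 1824) (nat_lit 3169239709) (nat_lit 455) (nat_lit 5) (nat_lit 454) (nat_lit 5) (nat_lit 478) (nat_lit 5) (nat_lit 459) (nat_lit 442) (nat_lit 239)) (XT.nd (nat_lit 78) (nat_lit 0) (nat_lit 0) (XT.lf (nat_lit 76) (nat_lit 963943196) (nat_lit 0) (nat_lit 13825298834) (nat_lit 1824) (nat_lit 2066956719) (nat_lit 456) (nat_lit 5) (nat_lit 455) (nat_lit 5) (nat_lit 479) (nat_lit 5) (nat_lit 460) (nat_lit 442) (nat_lit 238)) (XT.lf (nat_lit 76) (nat_lit 9801996416) (nat_lit 0) (nat_lit 6361475949) (nat_lit 1824) (nat_lit 866955917) (nat_lit 456)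 (nat_lit 5) (nat_lit 455) (nat_lit 5) (nat_lit 479) (nat_lit 5) (nat_lit 461) (nat_lit 442) (nat_lit 237))))) (XT.nd (nat_lit 234) (nat_lit 0) (nat_lit 76) (XT.nd (nat_lit 78) (nat_lit 0) (nat_lit 0) (XT.lf (nat_lit 0) (nat_lit 364794984) (nat_lit 1824) (nat_lit 15593522993) (nat_lit 1900) (nat_lit 1249530744) (nat_lit 432) (nat_lit 5) (nat_lit 456) (nat_lit 5) (nat_lit 457) (nat_lit 5) (nat_lit 462) (nat_lit 442) (nat_lit 236)) (XT.nd (nat_lit 78) (nat_lit 0) (nat_lit 0) (XT.lf (nat_lit 0) (nat_lit 1694317457) (nat_lit 1824) (nat_lit 6709141105) (nat_lit 1900) (nat_lit 8983550803) (nat_lit 432) (nat_lit 5) (nat_lit 456) (nat_lit 5) (nat_lit 457) (nat_lit 5) (nat_lit 463) (nat_lit 442) (nat_lit 235)) (XT.lf (nat_lit 76) (nat_lit 2379206857) (nat_lit 0) (nat_lit 680570365) (nat_lit 1900) (nat_lit 14509790345) (nat_lit 433) (nat_lit 5) (nat_lit 432) (nat_lit 5) (nat_lit 457) (nat_lit 5) (nat_lit 464) (nat_lit 442) (nat_lit 234))))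 (XT.nd (nat_lit 78) (nat_lit 0) (nat_lit 0) (XT.lf (nat_lit 0) (nat_lit 4538587023) (nat_lit 1824) (nat_lit 6066656610) (nat_lit 1900) (nat_lit 7148813739) (nat_lit 433) (nat_lit 5) (nat_lit 457) (nat_lit 5) (nat_lit 458) (nat_lit 5) (nat_lit 465) (nat_lit 442) (nat_lit 233)) (XT.nd (nat_lit 78) (nat_lit 0) (nat_lit 76) (XT.lf (nat_lit 76) (nat_lit 3273017491) (nat_lit 0) (nat_lit 2793825547) (nat_lit 1900) (nat_lit 11874997770) (nat_lit 434) (nat_lit 5) (nat_lit 433) (nat_lit 5) (nat_lit 458) (nat_lit 5) (nat_lit 466) (nat_lit 442) (nat_lit 232)) (XT.lf (nat_lit 0) (nat_lit 7694438062) (nat_lit 1824) (nat_lit 5289721016) (nat_lit 76) (nat_lit 5147846564) (nat_lit 434) (nat_lit 5) (nat_lit 458) (nat_lit 5) (nat_lit 435) (nat_lit 5) (nat_lit 467) (nat_lit 442) (nat_lit 231))))))) (XT.nd (nat_lit 858) (nat_lit 5244) (nat_lit 0) (XT.nd (nat_lit 390) (nat_lit 2660) (nat_lit 0) (XT.nd (nat_lit 156) (nat_lit 1824) (nat_lit 0) (XT.nd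 (nat_lit 78) (nat_lit 0) (nat_lit 0) (XT.lf (nat_lit 0) (nat_lit 4310072838) (nat_lit 1444) (nat_lit 5085313790) (nat_lit 1520) (nat_lit 8929772297) (nat_lit 415) (nat_lit 5) (nat_lit 434) (nat_lit 5) (nat_lit 435) (nat_lit 5) (nat_lit 468) (nat_lit 442) (nat_lit 230)) (XT.lf (nat_lit 0) (nat_lit 11179779130) (nat_lit 1520) (nat_lit 4372428605) (nat_lit 76) (nat_lit 2968980202) (nat_lit 415) (nat_lit 5) (nat_lit 435) (nat_lit 5) (nat_lit 416) (nat_lit 5) (nat_lit 469) (nat_lit 442) (nat_lit 229))) (XT.nd (nat_lit 78) (nat_lit 912) (nat_lit 0) (XT.lf (nat_lit 0) (nat_lit 5496589969) (nat_lit 912) (nat_lit 7567144467) (nat_lit 988) (nat_lit 5656126734) (nat_lit 403) (nat_lit 5) (nat_lit 415) (nat_lit 5) (nat_lit 416) (nat_lit 5) (nat_lit 470) (nat_lit 442) (nat_lit 228)) (XT.nd (nat_lit 78) (nat_lit 912) (nat_lit 0) (XT.lf (nat_lit 0) (nat_lit 15013244173) (nat_lit 988) (nat_lit 3308591227) (nat_lit 76) (nat_lit 600116077) (nat_lit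 403) (nat_lit 5) (nat_lit 416) (nat_lit 5) (nat_lit 404) (nat_lit 5) (nat_lit 471) (nat_lit 442) (nat_lit 227)) (XT.lf (nat_lit 0) (nat_lit 6839078357) (nat_lit 912) (nat_lit 10251878631) (nat_lit 988) (nat_lit 2035343438) (nat_lit 391) (nat_lit 5) (nat_lit 403) (nat_lit 5) (nat_lit 404) (nat_lit 5) (nat_lit 472) (nat_lit 442) (nat_lit 226))))) (XT.nd (nat_lit 234) (nat_lit 1672) (nat_lit 0) (XT.nd (nat_lit 78) (nat_lit 988) (nat_lit 0) (XT.lf (nat_lit 0) (nat_lit 17229696112) (nat_lit 912) (nat_lit 1997498343) (nat_lit 988) (nat_lit 107203566) (nat_lit 391) (nat_lit 5) (nat_lit 403) (nat_lit 5) (nat_lit 404) (nat_lit 5) (nat_lit 473) (nat_lit 442) (nat_lit 225)) (XT.nd (nat_lit 78) (nat_lit 0) (nat_lit 0) (XT.lf (nat_lit 0) (nat_lit 1926457076) (nat_lit 988) (nat_lit 11213172119) (nat_lit 76) (nat_lit 6404961030) (nat_lit 378) (nat_lit 5) (nat_lit 391) (nat_lit 5) (nat_lit 379) (nat_lit 5) (nat_lit 474) (nat_lit 442) (nat_lit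 224)) (XT.lf (nat_lit 0) (nat_lit 4021710112) (nat_lit 988) (nat_lit 772847041) (nat_lit 76) (nat_lit 14963968865) (nat_lit 378) (nat_lit 5) (nat_lit 391) (nat_lit 5) (nat_lit 379) (nat_lit 5) (nat_lit 475) (nat_lit 442) (nat_lit 223)))) (XT.nd (nat_lit 78) (nat_lit 836) (nat_lit 0) (XT.lf (nat_lit 0) (nat_lit 6243386876) (nat_lit 912) (nat_lit 9997443917) (nat_lit 76) (nat_lit 3734220353) (nat_lit 367) (nat_lit 5) (nat_lit 379) (nat_lit 5) (nat_lit 368) (nat_lit 5) (nat_lit 476) (nat_lit 442) (nat_lit 222)) (XT.nd (nat_lit 78) (nat_lit 0) (nat_lit 0) (XT.lf (nat_lit 0) (nat_lit 730665771) (nat_lit 836) (nat_lit 7815623330) (nat_lit 912) (nat_lit 11648882808) (nat_lit 356) (nat_lit 5) (nat_lit 367) (nat_lit 5) (nat_lit 368) (nat_lit 5) (nat_lit 477) (nat_lit 442) (nat_lit 221)) (XT.lf (nat_lit 0) (nat_lit 10962974244) (nat_lit 912) (nat_lit 8619934375) (nat_lit 76) (nat_lit 835432926) (nat_lit 356) (nat_lit 5) (nat_lit 368)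 (nat_lit 5) (nat_lit 357) (nat_lit 5) (nat_lit 478) (nat_lit 442) (nat_lit 220)))))) (XT.nd (nat_lit 468) (nat_lit 2888) (nat_lit 0) (XT.nd (nat_lit 234) (nat_lit 836) (nat_lit 0) (XT.nd (nat_lit 78) (nat_lit 760) (nat_lit 0) (XT.lf (nat_lit 0) (nat_lit 2416620487) (nat_lit 760) (nat_lit 11074057885) (nat_lit 836) (nat_lit 7154043428) (nat_lit 346) (nat_lit 5) (nat_lit 356) (nat_lit 5) (nat_lit 357) (nat_lit 5) (nat_lit 479) (nat_lit 442) (nat_lit 219)) (XT.nd (nat_lit 78) (nat_lit 760) (nat_lit 0) (XT.lf (nat_lit 0) (nat_lit 13785940139) (nat_lit 760) (nat_lit 2336138800) (nat_lit 836) (nat_lit 4752488793) (nat_lit 346) (nat_lit 5) (nat_lit 356) (nat_lit 5) (nat_lit 357) (nat_lit 5) (nat_lit 480) (nat_lit 442) (nat_lit 218)) (XT.lf (nat_lit 0) (nat_lit 4282289514) (nat_lit 760) (nat_lit 14589710272) (nat_lit 836) (nat_lit 2235693847) (nat_lit 336) (nat_lit 5) (nat_lit 346) (nat_lit 5) (nat_lit 347) (nat_lit 5) (nat_lit 481)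 (nat_lit 442) (nat_lit 217)))) (XT.nd (nat_lit 78) (nat_lit 760) (nat_lit 0) (XT.lf (nat_lit 0) (nat_lit 385862626) (nat_lit 836) (nat_lit 5390595504) (nat_lit 76) (nat_lit 15567806298) (nat_lit 335) (nat_lit 5) (nat_lit 346) (nat_lit 5) (nat_lit 336) (nat_lit 5) (nat_lit 482) (nat_lit 442) (nat_lit 216)) (XT.nd (nat_lit 78) (nat_lit 0) (nat_lit 0) (XT.lf (nat_lit 0) (nat_lit 3087820731) (nat_lit 836) (nat_lit 15269306417) (nat_lit 76) (nat_lit 3226986649) (nat_lit 325) (nat_lit 5) (nat_lit 336) (nat_lit 5) (nat_lit 326) (nat_lit 5) (nat_lit 483) (nat_lit 442) (nat_lit 215)) (XT.lf (nat_lit 0) (nat_lit 5914049416) (nat_lit 836) (nat_lit 3543943207) (nat_lit 76) (nat_lit 12369363733) (nat_lit 325) (nat_lit 5) (nat_lit 336) (nat_lit 5) (nat_lit 326) (nat_lit 5) (nat_lit 484) (nat_lit 442) (nat_lit 214))))) (XT.nd (nat_lit 234) (nat_lit 1444) (nat_lit 0) (XT.nd (nat_lit 78) (nat_lit 684) (nat_lit 0) (XT.lf (nat_lit 0) (nat_lit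 8523000560) (nat_lit 760) (nat_lit 324789513) (nat_lit 836) (nat_lit 13226654759) (nat_lit 315) (nat_lit 5) (nat_lit 325) (nat_lit 5) (nat_lit 326) (nat_lit 5) (nat_lit 485) (nat_lit 442) (nat_lit 213)) (XT.nd (nat_lit 78) (nat_lit 684) (nat_lit 0) (XT.lf (nat_lit 0) (nat_lit 11918223672) (nat_lit 836) (nat_lit 1509971327) (nat_lit 76) (nat_lit 8896720512) (nat_lit 315) (nat_lit 5) (nat_lit 326) (nat_lit 5) (nat_lit 316) (nat_lit 5) (nat_lit 486) (nat_lit 442) (nat_lit 212)) (XT.lf (nat_lit 0) (nat_lit 10908580864) (nat_lit 684) (nat_lit 4210248873) (nat_lit 760) (nat_lit 7460191374) (nat_lit 306) (nat_lit 5) (nat_lit 315) (nat_lit 5) (nat_lit 316) (nat_lit 5) (nat_lit 487) (nat_lit 442) (nat_lit 211)))) (XT.nd (nat_lit 78) (nat_lit 760) (nat_lit 0) (XT.lf (nat_lit 0) (nat_lit 729032540) (nat_lit 684) (nat_lit 17698895361) (nat_lit 760) (nat_lit 4409392087) (nat_lit 297) (nat_lit 5) (nat_lit 306) (nat_lit 5) (nat_lit 307) (nat_lit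 5) (nat_lit 488) (nat_lit 442) (nat_lit 210)) (XT.nd (nat_lit 78) (nat_lit 760) (nat_lit 0) (XT.lf (nat_lit 0) (nat_lit 13501751258) (nat_lit 684) (nat_lit 8403358320) (nat_lit 760) (nat_lit 1193637987) (nat_lit 297) (nat_lit 5) (nat_lit 306) (nat_lit 5) (nat_lit 307) (nat_lit 5) (nat_lit 489) (nat_lit 442) (nat_lit 209)) (XT.lf (nat_lit 0) (nat_lit 2082930367) (nat_lit 760) (nat_lit 20183885351) (nat_lit 76) (nat_lit 1097840504) (nat_lit 287) (nat_lit 5) (nat_lit 297) (nat_lit 5) (nat_lit 288) (nat_lit 5) (nat_lit 490) (nat_lit 442) (nat_lit 208))))))))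
noncomputable def xc221 : XT := (XT.nd (nat_lit 55926) (nat_lit 0) (nat_lit 15732) (XT.nd (nat_lit 858) (nat_lit 2280) (nat_lit 0) (XT.nd (nat_lit 390) (nat_lit 2432) (nat_lit 0) (XT.nd (nat_lit 156) (nat_lit 608) (nat_lit 0) (XT.nd (nat_lit 78) (nat_lit 684) (nat_lit 0) (XT.lf (nat_lit 0) (nat_lit 5525527588) (nat_lit 760) (nat_lit 7359090151) (nat_lit 76) (nat_lit 10748778618) (nat_lit 287) (nat_lit 5) (nat_lit 297) (nat_lit 5) (nat_lit 288) (nat_lit 5) (nat_lit 491) (nat_lit 442) (nat_lit 207)) (XT.lf (nat_lit 0) (nat_lit 5793581324) (nat_lit 684) (nat_lit 3277076495) (nat_lit 760) (nat_lit 14836180548) (nat_lit 278) (nat_lit 5) (nat_lit 287) (nat_lit 5) (nat_lit 288) (nat_lit 5) (nat_lit 492) (nat_lit 442) (nat_lit 206))) (XT.nd (nat_lit 78) (nat_lit 608) (nat_lit 0) (XT.lf (nat_lit 0) (nat_lit 12774858511) (nat_lit 760) (nat_lit 4923024280) (nat_lit 76) (nat_lit 6486103750) (nat_lit 278) (nat_lit 5) (nat_lit 288) (nat_lit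 5) (nat_lit 279) (nat_lit 5) (nat_lit 493) (nat_lit 442) (nat_lit 205)) (XT.nd (nat_lit 78) (nat_lit 0) (nat_lit 0) (XT.lf (nat_lit 0) (nat_lit 8617778303) (nat_lit 608) (nat_lit 8009204345) (nat_lit 684) (nat_lit 7838218909) (nat_lit 270) (nat_lit 5) (nat_lit 278) (nat_lit 5) (nat_lit 279) (nat_lit 5) (nat_lit 494) (nat_lit 442) (nat_lit 204)) (XT.lf (nat_lit 0) (nat_lit 20597791623) (nat_lit 684) (nat_lit 2272228696) (nat_lit 76) (nat_lit 1881188361) (nat_lit 270) (nat_lit 5) (nat_lit 279) (nat_lit 5) (nat_lit 271) (nat_lit 5) (nat_lit 495) (nat_lit 442) (nat_lit 203))))) (XT.nd (nat_lit 234) (nat_lit 1140) (nat_lit 0) (XT.nd (nat_lit 78) (nat_lit 684) (nat_lit 0) (XT.lf (nat_lit 0) (nat_lit 11669975408) (nat_lit 608) (nat_lit 13103150818) (nat_lit 684) (nat_lit 267308172) (nat_lit 262) (nat_lit 5) (nat_lit 270) (nat_lit 5) (nat_lit 271) (nat_lit 5) (nat_lit 496) (nat_lit 442) (nat_lit 202)) (XT.nd (nat_lit 78) (nat_lit 0)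 (nat_lit 0) (XT.lf (nat_lit 0) (nat_lit 565472614) (nat_lit 608) (nat_lit 3097907759) (nat_lit 684) (nat_lit 21671278108) (nat_lit 253) (nat_lit 5) (nat_lit 261) (nat_lit 5) (nat_lit 262) (nat_lit 5) (nat_lit 497) (nat_lit 442) (nat_lit 201)) (XT.lf (nat_lit 0) (nat_lit 7801925228) (nat_lit 684) (nat_lit 10724685323) (nat_lit 76) (nat_lit 7105465324) (nat_lit 253) (nat_lit 5) (nat_lit 262) (nat_lit 5) (nat_lit 254) (nat_lit 5) (nat_lit 498) (nat_lit 442) (nat_lit 200)))) (XT.nd (nat_lit 78) (nat_lit 532) (nat_lit 0) (XT.lf (nat_lit 0) (nat_lit 3623233133) (nat_lit 608) (nat_lit 8440474915) (nat_lit 684) (nat_lit 13870924822) (nat_lit 245) (nat_lit 5) (nat_lit 253) (nat_lit 5) (nat_lit 254) (nat_lit 5) (nat_lit 499) (nat_lit 442) (nat_lit 199)) (XT.nd (nat_lit 78) (nat_lit 532) (nat_lit 0) (XT.lf (nat_lit 0) (nat_lit 16491627813) (nat_lit 684) (nat_lit 7855298147) (nat_lit 76) (nat_lit 1894697598) (nat_lit 245) (nat_lit 5) (nat_lit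 254) (nat_lit 5) (nat_lit 246) (nat_lit 5) (nat_lit 500) (nat_lit 442) (nat_lit 198)) (XT.lf (nat_lit 0) (nat_lit 6920367256) (nat_lit 532) (nat_lit 14185098843) (nat_lit 608) (nat_lit 5447341329) (nat_lit 238) (nat_lit 5) (nat_lit 245) (nat_lit 5) (nat_lit 246) (nat_lit 5) (nat_lit 501) (nat_lit 442) (nat_lit 197)))))) (XT.nd (nat_lit 468) (nat_lit 532) (nat_lit 0) (XT.nd (nat_lit 234) (nat_lit 1064) (nat_lit 0) (XT.nd (nat_lit 78) (nat_lit 684) (nat_lit 0) (XT.lf (nat_lit 0) (nat_lit 22093632806) (nat_lit 532) (nat_lit 3767232344) (nat_lit 608) (nat_lit 1008364704) (nat_lit 238) (nat_lit 5) (nat_lit 245) (nat_lit 5) (nat_lit 246) (nat_lit 5) (nat_lit 502) (nat_lit 442) (nat_lit 196)) (XT.nd (nat_lit 78) (nat_lit 0) (nat_lit 0) (XT.lf (nat_lit 0) (nat_lit 3583078268) (nat_lit 684) (nat_lit 16746617828) (nat_lit 76) (nat_lit 6859631277) (nat_lit 229) (nat_lit 5) (nat_lit 238) (nat_lit 5) (nat_lit 230) (nat_lit 5) (nat_lit 503)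 (nat_lit 442) (nat_lit 195)) (XT.lf (nat_lit 0) (nat_lit 8306715464) (nat_lit 684) (nat_lit 1521293490) (nat_lit 76) (nat_lit 17686607763) (nat_lit 229) (nat_lit 5) (nat_lit 238) (nat_lit 5) (nat_lit 230) (nat_lit 5) (nat_lit 504) (nat_lit 442) (nat_lit 194)))) (XT.nd (nat_lit 78) (nat_lit 532) (nat_lit 0) (XT.lf (nat_lit 0) (nat_lit 13220012699) (nat_lit 608) (nat_lit 13660630020) (nat_lit 76) (nat_lit 963865900) (nat_lit 222) (nat_lit 5) (nat_lit 230) (nat_lit 5) (nat_lit 223) (nat_lit 5) (nat_lit 505) (nat_lit 442) (nat_lit 193)) (XT.nd (nat_lit 78) (nat_lit 0) (nat_lit 0) (XT.lf (nat_lit 0) (nat_lit 1999724234) (nat_lit 532) (nat_lit 16316940640) (nat_lit 608) (nat_lit 9862632210) (nat_lit 215) (nat_lit 5) (nat_lit 222) (nat_lit 5) (nat_lit 223) (nat_lit 5) (nat_lit 506) (nat_lit 442) (nat_lit 192)) (XT.lf (nat_lit 0) (nat_lit 18154157265) (nat_lit 532) (nat_lit 5449541797) (nat_lit 608) (nat_lit 4915313772) (nat_lit 215)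 (nat_lit 5) (nat_lit 222) (nat_lit 5) (nat_lit 223) (nat_lit 5) (nat_lit 507) (nat_lit 442) (nat_lit 191))))) (XT.nd (nat_lit 54366) (nat_lit 0) (nat_lit 18164) (XT.nd (nat_lit 78) (nat_lit 0) (nat_lit 0) (XT.lf (nat_lit 0) (nat_lit 200793027) (nat_lit 532) (nat_lit 23064042054) (nat_lit 76) (nat_lit 5599240102) (nat_lit 208) (nat_lit 5) (nat_lit 215) (nat_lit 5) (nat_lit 209) (nat_lit 5) (nat_lit 508) (nat_lit 442) (nat_lit 190)) (XT.nd (nat_lit 54210) (nat_lit 0) (nat_lit 18164) (XT.lf (nat_lit 0) (nat_lit 5456419888) (nat_lit 532) (nat_lit 6859320195) (nat_lit 76) (nat_lit 16897589080) (nat_lit 208) (nat_lit 5) (nat_lit 215) (nat_lit 5) (nat_lit 209) (nat_lit 5) (nat_lit 509) (nat_lit 442) (nat_lit 189)) (XT.lf (nat_lit 0) (nat_lit 330166562) (nat_lit 0) (nat_lit 330166562) (nat_lit 1748) (nat_lit 6531724852) (nat_lit 447) (nat_lit 5) (nat_lit 447) (nat_lit 3) (nat_lit 470) (nat_lit 3) (nat_lit 443) (nat_lit 443) (nat_lit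 254)))) (XT.nd (nat_lit 78) (nat_lit 0) (nat_lit 0) (XT.lf (nat_lit 0) (nat_lit 1697209292) (nat_lit 1748) (nat_lit 6769706920) (nat_lit 1824) (nat_lit 6053702931) (nat_lit 447) (nat_lit 5) (nat_lit 470) (nat_lit 3) (nat_lit 471) (nat_lit 5) (nat_lit 444) (nat_lit 443) (nat_lit 253)) (XT.nd (nat_lit 78) (nat_lit 0) (nat_lit 76) (XT.lf (nat_lit 76) (nat_lit 318816762) (nat_lit 0) (nat_lit 1760451251) (nat_lit 1824) (nat_lit 12580626556) (nat_lit 448) (nat_lit 5) (nat_lit 447) (nat_lit 5) (nat_lit 471) (nat_lit 5) (nat_lit 445) (nat_lit 443) (nat_lit 252)) (XT.lf (nat_lit 0) (nat_lit 2539385066) (nat_lit 1748) (nat_lit 7198061788) (nat_lit 1824) (nat_lit 5063102140) (nat_lit 448) (nat_lit 5) (nat_lit 471) (nat_lit 5) (nat_lit 472) (nat_lit 5) (nat_lit 446) (nat_lit 443) (nat_lit 251))))))) (XT.nd (nat_lit 936) (nat_lit 2508) (nat_lit 0) (XT.nd (nat_lit 468) (nat_lit 0) (nat_lit 228) (XT.nd (nat_lit 234) (nat_lit 0) (nat_lit 152)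 (XT.nd (nat_lit 78) (nat_lit 0) (nat_lit 76) (XT.lf (nat_lit 76) (nat_lit 72591892) (nat_lit 0) (nat_lit 2940109510) (nat_lit 1824) (nat_lit 11931236962) (nat_lit 449) (nat_lit 5) (nat_lit 448) (nat_lit 5) (nat_lit 472) (nat_lit 5) (nat_lit 447) (nat_lit 443) (nat_lit 250)) (XT.nd (nat_lit 78) (nat_lit 0) (nat_lit 0) (XT.lf (nat_lit 0) (nat_lit 3562053256) (nat_lit 1748) (nat_lit 7533916452) (nat_lit 1824) (nat_lit 3992896191) (nat_lit 449) (nat_lit 5) (nat_lit 472) (nat_lit 5) (nat_lit 473) (nat_lit 5) (nat_lit 448) (nat_lit 443) (nat_lit 249)) (XT.lf (nat_lit 0) (nat_lit 4134039720) (nat_lit 1748) (nat_lit 73788195) (nat_lit 1824) (nat_lit 11028632844) (nat_lit 449) (nat_lit 5) (nat_lit 472) (nat_lit 5) (nat_lit 473) (nat_lit 5) (nat_lit 449) (nat_lit 443) (nat_lit 248)))) (XT.nd (nat_lit 78) (nat_lit 0) (nat_lit 0) (XT.lf (nat_lit 0) (nat_lit 4777987957) (nat_lit 1748) (nat_lit 7773680566) (nat_lit 1824) (nat_lit 2834130245)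 (nat_lit 450) (nat_lit 5) (nat_lit 473) (nat_lit 5) (nat_lit 474) (nat_lit 5) (nat_lit 450) (nat_lit 443) (nat_lit 247)) (XT.nd (nat_lit 78) (nat_lit 0) (nat_lit 76) (XT.lf (nat_lit 0) (nat_lit 5455651540) (nat_lit 1748) (nat_lit 117873169) (nat_lit 1824) (nat_lit 9964183760) (nat_lit 450) (nat_lit 5) (nat_lit 473) (nat_lit 5) (nat_lit 474) (nat_lit 5) (nat_lit 451) (nat_lit 443) (nat_lit 246)) (XT.lf (nat_lit 0) (nat_lit 6200435861) (nat_lit 1748) (nat_lit 7913515333) (nat_lit 1824) (nat_lit 1577635448) (nat_lit 451) (nat_lit 5) (nat_lit 474) (nat_lit 5) (nat_lit 475) (nat_lit 5) (nat_lit 452) (nat_lit 443) (nat_lit 245))))) (XT.nd (nat_lit 234) (nat_lit 0) (nat_lit 76) (XT.nd (nat_lit 78) (nat_lit 0) (nat_lit 76) (XT.lf (nat_lit 0) (nat_lit 6990575312) (nat_lit 1748) (nat_lit 56586929) (nat_lit 1824) (nat_lit 8800772543) (nat_lit 451) (nat_lit 5) (nat_lit 474) (nat_lit 5) (nat_lit 475) (nat_lit 5) (nat_lit 453) (nat_lit 443)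 (nat_lit 244)) (XT.nd (nat_lit 78) (nat_lit 0) (nat_lit 0) (XT.lf (nat_lit 0) (nat_lit 7843141733) (nat_lit 1748) (nat_lit 7949330387) (nat_lit 1824) (nat_lit 214006849) (nat_lit 452) (nat_lit 5) (nat_lit 475) (nat_lit 5) (nat_lit 476) (nat_lit 5) (nat_lit 454) (nat_lit 443) (nat_lit 243)) (XT.lf (nat_lit 76) (nat_lit 115874385) (nat_lit 0) (nat_lit 8637709780) (nat_lit 1824) (nat_lit 7413794912) (nat_lit 453) (nat_lit 5) (nat_lit 452) (nat_lit 5) (nat_lit 476) (nat_lit 5) (nat_lit 455) (nat_lit 443) (nat_lit 242)))) (XT.nd (nat_lit 78) (nat_lit 0) (nat_lit 76) (XT.lf (nat_lit 76) (nat_lit 8445457243) (nat_lit 0) (nat_lit 1283249018) (nat_lit 1824) (nat_lit 6601863013) (nat_lit 453) (nat_lit 5) (nat_lit 452) (nat_lit 5) (nat_lit 476) (nat_lit 5) (nat_lit 456) (nat_lit 443) (nat_lit 241)) (XT.nd (nat_lit 78) (nat_lit 0) (nat_lit 0) (XT.lf (nat_lit 76) (nat_lit 404804549) (nat_lit 0) (nat_lit 10354803194) (nat_lit 1824) (nat_lit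 5736691466) (nat_lit 454) (nat_lit 5) (nat_lit 453) (nat_lit 5) (nat_lit 477) (nat_lit 5) (nat_lit 457) (nat_lit 443) (nat_lit 240)) (XT.lf (nat_lit 76) (nat_lit 8954084451) (nat_lit 0) (nat_lit 2911775117) (nat_lit 1824) (nat_lit 4798390972) (nat_lit 454) (nat_lit 5) (nat_lit 453) (nat_lit 5) (nat_lit 477) (nat_lit 5) (nat_lit 458) (nat_lit 443) (nat_lit 239)))))) (XT.nd (nat_lit 468) (nat_lit 1292) (nat_lit 0) (XT.nd (nat_lit 234) (nat_lit 1672) (nat_lit 0) (XT.nd (nat_lit 78) (nat_lit 0) (nat_lit 0) (XT.lf (nat_lit 76) (nat_lit 814322988) (nat_lit 0) (nat_lit 12209105662) (nat_lit 1824) (nat_lit 3811549821) (nat_lit 455) (nat_lit 5) (nat_lit 454) (nat_lit 5) (nat_lit 478) (nat_lit 5) (nat_lit 459) (nat_lit 443) (nat_lit 238)) (XT.nd (nat_lit 78) (nat_lit 0) (nat_lit 76) (XT.lf (nat_lit 76) (nat_lit 9589547295) (nat_lit 0) (nat_lit 4679112585) (nat_lit 1824) (nat_lit 2739172252) (nat_lit 455) (nat_lit 5) (nat_lit 454) (nat_lit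 5) (nat_lit 478) (nat_lit 5) (nat_lit 460) (nat_lit 443) (nat_lit 237)) (XT.lf (nat_lit 76) (nat_lit 1349572779) (nat_lit 0) (nat_lit 14211223698) (nat_lit 1824) (nat_lit 1622907739) (nat_lit 456) (nat_lit 5) (nat_lit 455) (nat_lit 5) (nat_lit 479) (nat_lit 5) (nat_lit 461) (nat_lit 443) (nat_lit 236)))) (XT.nd (nat_lit 78) (nat_lit 1748) (nat_lit 0) (XT.lf (nat_lit 76) (nat_lit 10357203716) (nat_lit 0) (nat_lit 6595978886) (nat_lit 1824) (nat_lit 408424335) (nat_lit 456) (nat_lit 5) (nat_lit 455) (nat_lit 5) (nat_lit 479) (nat_lit 5) (nat_lit 462) (nat_lit 443) (nat_lit 235)) (XT.nd (nat_lit 78) (nat_lit 0) (nat_lit 0) (XT.lf (nat_lit 0) (nat_lit 834222376) (nat_lit 1824) (nat_lit 15532290591) (nat_lit 1900) (nat_lit 1176152930) (nat_lit 432) (nat_lit 5) (nat_lit 456) (nat_lit 5) (nat_lit 457) (nat_lit 5) (nat_lit 463) (nat_lit 443) (nat_lit 234)) (XT.lf (nat_lit 0) (nat_lit 2181273897) (nat_lit 1824) (nat_lit 6477536807)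 (nat_lit 1900) (nat_lit 9066782182) (nat_lit 432) (nat_lit 5) (nat_lit 456) (nat_lit 5) (nat_lit 457) (nat_lit 5) (nat_lit 464) (nat_lit 443) (nat_lit 233))))) (XT.nd (nat_lit 234) (nat_lit 1292) (nat_lit 0) (XT.nd (nat_lit 78) (nat_lit 0) (nat_lit 76) (XT.lf (nat_lit 76) (nat_lit 2790171619) (nat_lit 0) (nat_lit 777346818) (nat_lit 1900) (nat_lit 14344416171) (nat_lit 433) (nat_lit 5) (nat_lit 432) (nat_lit 5) (nat_lit 457) (nat_lit 5) (nat_lit 465) (nat_lit 443) (nat_lit 232)) (XT.nd (nat_lit 78) (nat_lit 0) (nat_lit 0) (XT.lf (nat_lit 0) (nat_lit 5066619262) (nat_lit 1824) (nat_lit 5822357491) (nat_lit 1900) (nat_lit 7211324992) (nat_lit 433) (nat_lit 5) (nat_lit 457) (nat_lit 5) (nat_lit 458) (nat_lit 5) (nat_lit 466) (nat_lit 443) (nat_lit 231)) (XT.lf (nat_lit 76) (nat_lit 3701704617) (nat_lit 0) (nat_lit 2917520354) (nat_lit 1900) (nat_lit 11672741982) (nat_lit 434) (nat_lit 5) (nat_lit 433) (nat_lit 5) (nat_lit 458)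 (nat_lit 5) (nat_lit 467) (nat_lit 443) (nat_lit 230)))) (XT.nd (nat_lit 78) (nat_lit 1444) (nat_lit 0) (XT.lf (nat_lit 0) (nat_lit 8270488344) (nat_lit 1824) (nat_lit 5030439192) (nat_lit 76) (nat_lit 5185186979) (nat_lit 434) (nat_lit 5) (nat_lit 458) (nat_lit 5) (nat_lit 435) (nat_lit 5) (nat_lit 468) (nat_lit 443) (nat_lit 229)) (XT.nd (nat_lit 78) (nat_lit 0) (nat_lit 0) (XT.lf (nat_lit 0) (nat_lit 4758948721) (nat_lit 1444) (nat_lit 5240584207) (nat_lit 1520) (nat_lit 8683718122) (nat_lit 415) (nat_lit 5) (nat_lit 434) (nat_lit 5) (nat_lit 435) (nat_lit 5) (nat_lit 469) (nat_lit 443) (nat_lit 228)) (XT.lf (nat_lit 0) (nat_lit 11811110784) (nat_lit 1520) (nat_lit 4095726927) (nat_lit 76) (nat_lit 2976534672) (nat_lit 415) (nat_lit 5) (nat_lit 435) (nat_lit 5) (nat_lit 416) (nat_lit 5) (nat_lit 470) (nat_lit 443) (nat_lit 227))))))))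
noncomputable def xc222 : XT := (XT.nd (nat_lit 1794) (nat_lit 5320) (nat_lit 0) (XT.nd (nat_lit 858) (nat_lit 5168) (nat_lit 0) (XT.nd (nat_lit 390) (nat_lit 2432) (nat_lit 0) (XT.nd (nat_lit 156) (nat_lit 1900) (nat_lit 0) (XT.nd (nat_lit 78) (nat_lit 0) (nat_lit 0) (XT.lf (nat_lit 0) (nat_lit 5968276293) (nat_lit 912) (nat_lit 7758822828) (nat_lit 988) (nat_lit 5359034539) (nat_lit 403) (nat_lit 5) (nat_lit 415) (nat_lit 5) (nat_lit 416) (nat_lit 5) (nat_lit 471) (nat_lit 443) (nat_lit 226)) (XT.lf (nat_lit 0) (nat_lit 15707458186) (nat_lit 988) (nat_lit 3011879579) (nat_lit 76) (nat_lit 573092452) (nat_lit 403) (nat_lit 5) (nat_lit 416) (nat_lit 5) (nat_lit 404) (nat_lit 5) (nat_lit 472) (nat_lit 443) (nat_lit 225))) (XT.nd (nat_lit 78) (nat_lit 988) (nat_lit 0) (XT.lf (nat_lit 0) (nat_lit 7336356005) (nat_lit 912) (nat_lit 10484985339) (nat_lit 988) (nat_lit 1679634074) (nat_lit 391) (nat_lit 5) (nat_lit 403) (nat_lit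 5) (nat_lit 404) (nat_lit 5) (nat_lit 473) (nat_lit 443) (nat_lit 224)) (XT.nd (nat_lit 78) (nat_lit 912) (nat_lit 0) (XT.lf (nat_lit 0) (nat_lit 275632714) (nat_lit 988) (nat_lit 1787484714) (nat_lit 76) (nat_lit 17650235211) (nat_lit 390) (nat_lit 5) (nat_lit 403) (nat_lit 5) (nat_lit 391) (nat_lit 5) (nat_lit 474) (nat_lit 443) (nat_lit 223)) (XT.lf (nat_lit 0) (nat_lit 2343181435) (nat_lit 988) (nat_lit 11073408150) (nat_lit 76) (nat_lit 6511253425) (nat_lit 378) (nat_lit 5) (nat_lit 391) (nat_lit 5) (nat_lit 379) (nat_lit 5) (nat_lit 475) (nat_lit 443) (nat_lit 222))))) (XT.nd (nat_lit 234) (nat_lit 760) (nat_lit 0) (XT.nd (nat_lit 78) (nat_lit 1672) (nat_lit 0) (XT.lf (nat_lit 0) (nat_lit 4472923939) (nat_lit 988) (nat_lit 431414363) (nat_lit 76) (nat_lit 15241869002) (nat_lit 378) (nat_lit 5) (nat_lit 391) (nat_lit 5) (nat_lit 379) (nat_lit 5) (nat_lit 476) (nat_lit 443) (nat_lit 221)) (XT.nd (nat_lit 78) (nat_lit 836)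 (nat_lit 0) (XT.lf (nat_lit 0) (nat_lit 6733992799) (nat_lit 912) (nat_lit 9835389539) (nat_lit 76) (nat_lit 3797782869) (nat_lit 367) (nat_lit 5) (nat_lit 379) (nat_lit 5) (nat_lit 368) (nat_lit 5) (nat_lit 477) (nat_lit 443) (nat_lit 220)) (XT.lf (nat_lit 0) (nat_lit 1104900743) (nat_lit 836) (nat_lit 7973215892) (nat_lit 912) (nat_lit 11513669896) (nat_lit 356) (nat_lit 5) (nat_lit 367) (nat_lit 5) (nat_lit 368) (nat_lit 5) (nat_lit 478) (nat_lit 443) (nat_lit 219)))) (XT.nd (nat_lit 78) (nat_lit 760) (nat_lit 0) (XT.lf (nat_lit 0) (nat_lit 11536050827) (nat_lit 912) (nat_lit 8432608763) (nat_lit 76) (nat_lit 850903049) (nat_lit 356) (nat_lit 5) (nat_lit 368) (nat_lit 5) (nat_lit 357) (nat_lit 5) (nat_lit 479) (nat_lit 443) (nat_lit 218)) (XT.nd (nat_lit 78) (nat_lit 0) (nat_lit 0) (XT.lf (nat_lit 0) (nat_lit 2822310589) (nat_lit 760) (nat_lit 11287381062) (nat_lit 836) (nat_lit 6940872558) (nat_lit 346) (nat_lit 5) (nat_lit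 356) (nat_lit 5) (nat_lit 357) (nat_lit 5) (nat_lit 480) (nat_lit 443) (nat_lit 217)) (XT.lf (nat_lit 0) (nat_lit 14412009619) (nat_lit 760) (nat_lit 2374863556) (nat_lit 836) (nat_lit 4498272158) (nat_lit 346) (nat_lit 5) (nat_lit 356) (nat_lit 5) (nat_lit 357) (nat_lit 5) (nat_lit 481) (nat_lit 443) (nat_lit 216)))))) (XT.nd (nat_lit 468) (nat_lit 2812) (nat_lit 0) (XT.nd (nat_lit 234) (nat_lit 760) (nat_lit 0) (XT.nd (nat_lit 78) (nat_lit 836) (nat_lit 0) (XT.lf (nat_lit 0) (nat_lit 4722797724) (nat_lit 760) (nat_lit 14864636830) (nat_lit 836) (nat_lit 1935587664) (nat_lit 336) (nat_lit 5) (nat_lit 346) (nat_lit 5) (nat_lit 347) (nat_lit 5) (nat_lit 482) (nat_lit 443) (nat_lit 215)) (XT.nd (nat_lit 78) (nat_lit 760) (nat_lit 0) (XT.lf (nat_lit 0) (nat_lit 727205059) (nat_lit 836) (nat_lit 5146006524) (nat_lit 76) (nat_lit 15891202778) (nat_lit 335) (nat_lit 5) (nat_lit 346) (nat_lit 5) (nat_lit 336) (nat_lit 5) (nat_lit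 483) (nat_lit 443) (nat_lit 214)) (XT.lf (nat_lit 0) (nat_lit 3479068190) (nat_lit 836) (nat_lit 15218095900) (nat_lit 76) (nat_lit 3311980543) (nat_lit 325) (nat_lit 5) (nat_lit 336) (nat_lit 5) (nat_lit 326) (nat_lit 5) (nat_lit 484) (nat_lit 443) (nat_lit 213)))) (XT.nd (nat_lit 78) (nat_lit 760) (nat_lit 0) (XT.lf (nat_lit 0) (nat_lit 6355360840) (nat_lit 836) (nat_lit 3265217516) (nat_lit 76) (nat_lit 12636804107) (nat_lit 325) (nat_lit 5) (nat_lit 336) (nat_lit 5) (nat_lit 326) (nat_lit 5) (nat_lit 485) (nat_lit 443) (nat_lit 212)) (XT.nd (nat_lit 78) (nat_lit 0) (nat_lit 0) (XT.lf (nat_lit 0) (nat_lit 9040765095) (nat_lit 760) (nat_lit 302932215) (nat_lit 836) (nat_lit 13165798161) (nat_lit 315) (nat_lit 5) (nat_lit 325) (nat_lit 5) (nat_lit 326) (nat_lit 5) (nat_lit 486) (nat_lit 443) (nat_lit 211)) (XT.lf (nat_lit 0) (nat_lit 12469466110) (nat_lit 836) (nat_lit 1193544583) (nat_lit 76) (nat_lit 9102087503) (nat_lit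 315) (nat_lit 5) (nat_lit 326) (nat_lit 5) (nat_lit 316) (nat_lit 5) (nat_lit 487) (nat_lit 443) (nat_lit 210))))) (XT.nd (nat_lit 234) (nat_lit 1444) (nat_lit 0) (XT.nd (nat_lit 78) (nat_lit 684) (nat_lit 0) (XT.lf (nat_lit 0) (nat_lit 11471098216) (nat_lit 684) (nat_lit 4259086938) (nat_lit 760) (nat_lit 7294179874) (nat_lit 306) (nat_lit 5) (nat_lit 315) (nat_lit 5) (nat_lit 316) (nat_lit 5) (nat_lit 488) (nat_lit 443) (nat_lit 209)) (XT.nd (nat_lit 78) (nat_lit 0) (nat_lit 0) (XT.lf (nat_lit 0) (nat_lit 1091660853) (nat_lit 684) (nat_lit 18010230900) (nat_lit 760) (nat_lit 4186010718) (nat_lit 297) (nat_lit 5) (nat_lit 306) (nat_lit 5) (nat_lit 307) (nat_lit 5) (nat_lit 489) (nat_lit 443) (nat_lit 208)) (XT.lf (nat_lit 0) (nat_lit 14113009481) (nat_lit 684) (nat_lit 8529619243) (nat_lit 760) (nat_lit 912050735) (nat_lit 297) (nat_lit 5) (nat_lit 306) (nat_lit 5) (nat_lit 307) (nat_lit 5) (nat_lit 490) (nat_lit 443) (nat_lit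 207)))) (XT.nd (nat_lit 78) (nat_lit 684) (nat_lit 0) (XT.lf (nat_lit 0) (nat_lit 2422652758) (nat_lit 760) (nat_lit 20238837395) (nat_lit 76) (nat_lit 1164445327) (nat_lit 287) (nat_lit 5) (nat_lit 297) (nat_lit 5) (nat_lit 288) (nat_lit 5) (nat_lit 491) (nat_lit 443) (nat_lit 206)) (XT.nd (nat_lit 78) (nat_lit 684) (nat_lit 0) (XT.lf (nat_lit 0) (nat_lit 5928257535) (nat_lit 760) (nat_lit 7164384049) (nat_lit 76) (nat_lit 11007526751) (nat_lit 287) (nat_lit 5) (nat_lit 297) (nat_lit 5) (nat_lit 288) (nat_lit 5) (nat_lit 492) (nat_lit 443) (nat_lit 205)) (XT.lf (nat_lit 0) (nat_lit 6249091593) (nat_lit 684) (nat_lit 3291674145) (nat_lit 760) (nat_lit 14838384951) (nat_lit 278) (nat_lit 5) (nat_lit 287) (nat_lit 5) (nat_lit 288) (nat_lit 5) (nat_lit 493) (nat_lit 443) (nat_lit 204))))))) (XT.nd (nat_lit 936) (nat_lit 1596) (nat_lit 0) (XT.nd (nat_lit 468) (nat_lit 1824) (nat_lit 0) (XT.nd (nat_lit 234) (nat_lit 1292) (nat_lit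 0) (XT.nd (nat_lit 78) (nat_lit 608) (nat_lit 0) (XT.lf (nat_lit 0) (nat_lit 13313714038) (nat_lit 760) (nat_lit 4683119740) (nat_lit 76) (nat_lit 6665115768) (nat_lit 278) (nat_lit 5) (nat_lit 288) (nat_lit 5) (nat_lit 279) (nat_lit 5) (nat_lit 494) (nat_lit 443) (nat_lit 203)) (XT.nd (nat_lit 78) (nat_lit 0) (nat_lit 0) (XT.lf (nat_lit 0) (nat_lit 9126272809) (nat_lit 608) (nat_lit 8113234239) (nat_lit 684) (nat_lit 7709350258) (nat_lit 270) (nat_lit 5) (nat_lit 278) (nat_lit 5) (nat_lit 279) (nat_lit 5) (nat_lit 495) (nat_lit 443) (nat_lit 202)) (XT.lf (nat_lit 0) (nat_lit 21284599748) (nat_lit 684) (nat_lit 1982945199) (nat_lit 76) (nat_lit 1973143226) (nat_lit 270) (nat_lit 5) (nat_lit 279) (nat_lit 5) (nat_lit 271) (nat_lit 5) (nat_lit 496) (nat_lit 443) (nat_lit 201)))) (XT.nd (nat_lit 78) (nat_lit 608) (nat_lit 0) (XT.lf (nat_lit 0) (nat_lit 4388493) (nat_lit 684) (nat_lit 13299891989) (nat_lit 76) (nat_lit 12231482886)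 (nat_lit 261) (nat_lit 5) (nat_lit 270) (nat_lit 5) (nat_lit 262) (nat_lit 5) (nat_lit 497) (nat_lit 443) (nat_lit 200)) (XT.nd (nat_lit 78) (nat_lit 0) (nat_lit 0) (XT.lf (nat_lit 0) (nat_lit 910776114) (nat_lit 608) (nat_lit 3096145200) (nat_lit 684) (nat_lit 21828979983) (nat_lit 253) (nat_lit 5) (nat_lit 261) (nat_lit 5) (nat_lit 262) (nat_lit 5) (nat_lit 498) (nat_lit 443) (nat_lit 199)) (XT.lf (nat_lit 0) (nat_lit 8223343194) (nat_lit 684) (nat_lit 10606796006) (nat_lit 76) (nat_lit 7309226597) (nat_lit 253) (nat_lit 5) (nat_lit 262) (nat_lit 5) (nat_lit 254) (nat_lit 5) (nat_lit 499) (nat_lit 443) (nat_lit 198))))) (XT.nd (nat_lit 234) (nat_lit 684) (nat_lit 0) (XT.nd (nat_lit 78) (nat_lit 532) (nat_lit 0) (XT.lf (nat_lit 0) (nat_lit 4025894089) (nat_lit 608) (nat_lit 8541407916) (nat_lit 684) (nat_lit 13880733982) (nat_lit 245) (nat_lit 5) (nat_lit 253) (nat_lit 5) (nat_lit 254) (nat_lit 5) (nat_lit 500) (nat_lit 443)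 (nat_lit 197)) (XT.nd (nat_lit 78) (nat_lit 532) (nat_lit 0) (XT.lf (nat_lit 0) (nat_lit 17079068698) (nat_lit 684) (nat_lit 7683928488) (nat_lit 76) (nat_lit 1998264379) (nat_lit 245) (nat_lit 5) (nat_lit 254) (nat_lit 5) (nat_lit 246) (nat_lit 5) (nat_lit 501) (nat_lit 443) (nat_lit 196)) (XT.lf (nat_lit 0) (nat_lit 7385089199) (nat_lit 532) (nat_lit 14397162058) (nat_lit 608) (nat_lit 5296477334) (nat_lit 238) (nat_lit 5) (nat_lit 245) (nat_lit 5) (nat_lit 246) (nat_lit 5) (nat_lit 502) (nat_lit 443) (nat_lit 195)))) (XT.nd (nat_lit 78) (nat_lit 684) (nat_lit 0) (XT.lf (nat_lit 0) (nat_lit 22855421735) (nat_lit 532) (nat_lit 3772342910) (nat_lit 608) (nat_lit 773815506) (nat_lit 238) (nat_lit 5) (nat_lit 245) (nat_lit 5) (nat_lit 246) (nat_lit 5) (nat_lit 503) (nat_lit 443) (nat_lit 194)) (XT.nd (nat_lit 78) (nat_lit 0) (nat_lit 0) (XT.lf (nat_lit 0) (nat_lit 3903743594) (nat_lit 684) (nat_lit 16755842246) (nat_lit 76) (nat_lit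 7068508929) (nat_lit 229) (nat_lit 5) (nat_lit 238) (nat_lit 5) (nat_lit 230) (nat_lit 5) (nat_lit 504) (nat_lit 443) (nat_lit 193)) (XT.lf (nat_lit 0) (nat_lit 8716971108) (nat_lit 684) (nat_lit 1232397851) (nat_lit 76) (nat_lit 18110619356) (nat_lit 229) (nat_lit 5) (nat_lit 238) (nat_lit 5) (nat_lit 230) (nat_lit 5) (nat_lit 505) (nat_lit 443) (nat_lit 192)))))) (XT.nd (nat_lit 54678) (nat_lit 0) (nat_lit 18164) (XT.nd (nat_lit 234) (nat_lit 532) (nat_lit 0) (XT.nd (nat_lit 78) (nat_lit 532) (nat_lit 0) (XT.lf (nat_lit 0) (nat_lit 13726299517) (nat_lit 608) (nat_lit 13612248782) (nat_lit 76) (nat_lit 1057975202) (nat_lit 222) (nat_lit 5) (nat_lit 230) (nat_lit 5) (nat_lit 223) (nat_lit 5) (nat_lit 506) (nat_lit 443) (nat_lit 191)) (XT.nd (nat_lit 78) (nat_lit 0) (nat_lit 0) (XT.lf (nat_lit 0) (nat_lit 2359196808) (nat_lit 532) (nat_lit 16563019318) (nat_lit 608) (nat_lit 9815845718) (nat_lit 215) (nat_lit 5) (nat_lit 222)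 (nat_lit 5) (nat_lit 223) (nat_lit 5) (nat_lit 507) (nat_lit 443) (nat_lit 190)) (XT.lf (nat_lit 0) (nat_lit 18830454223) (nat_lit 532) (nat_lit 5479846226) (nat_lit 608) (nat_lit 4774365993) (nat_lit 215) (nat_lit 5) (nat_lit 222) (nat_lit 5) (nat_lit 223) (nat_lit 5) (nat_lit 508) (nat_lit 443) (nat_lit 189)))) (XT.nd (nat_lit 54288) (nat_lit 0) (nat_lit 18164) (XT.lf (nat_lit 0) (nat_lit 438860500) (nat_lit 532) (nat_lit 23206836548) (nat_lit 76) (nat_lit 5790943907) (nat_lit 208) (nat_lit 5) (nat_lit 215) (nat_lit 5) (nat_lit 209) (nat_lit 5) (nat_lit 509) (nat_lit 443) (nat_lit 188)) (XT.nd (nat_lit 78) (nat_lit 0) (nat_lit 0) (XT.lf (nat_lit 0) (nat_lit 497474368) (nat_lit 0) (nat_lit 497474368) (nat_lit 1748) (nat_lit 6334451440) (nat_lit 447) (nat_lit 5) (nat_lit 447) (nat_lit 3) (nat_lit 470) (nat_lit 3) (nat_lit 444) (nat_lit 444) (nat_lit 252)) (XT.lf (nat_lit 0) (nat_lit 2359321225) (nat_lit 1748) (nat_lit 6575205307)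 (nat_lit 1824) (nat_lit 5863802857) (nat_lit 447) (nat_lit 5) (nat_lit 470) (nat_lit 3) (nat_lit 471) (nat_lit 5) (nat_lit 445) (nat_lit 444) (nat_lit 251))))) (XT.nd (nat_lit 234) (nat_lit 0) (nat_lit 152) (XT.nd (nat_lit 78) (nat_lit 0) (nat_lit 76) (XT.lf (nat_lit 76) (nat_lit 652918482) (nat_lit 0) (nat_lit 2085913435) (nat_lit 1824) (nat_lit 12201764913) (nat_lit 448) (nat_lit 5) (nat_lit 447) (nat_lit 5) (nat_lit 471) (nat_lit 5) (nat_lit 446) (nat_lit 444) (nat_lit 250)) (XT.nd (nat_lit 78) (nat_lit 0) (nat_lit 0) (XT.lf (nat_lit 0) (nat_lit 3194186519) (nat_lit 1748) (nat_lit 7006625444) (nat_lit 1824) (nat_lit 4883534343) (nat_lit 448) (nat_lit 5) (nat_lit 471) (nat_lit 5) (nat_lit 472) (nat_lit 5) (nat_lit 447) (nat_lit 444) (nat_lit 249)) (XT.lf (nat_lit 76) (nat_lit 407234747) (nat_lit 0) (nat_lit 3260054325) (nat_lit 1824) (nat_lit 11563510610) (nat_lit 449) (nat_lit 5) (nat_lit 448) (nat_lit 5) (nat_lit 472) (nat_lit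 5) (nat_lit 448) (nat_lit 444) (nat_lit 248)))) (XT.nd (nat_lit 78) (nat_lit 0) (nat_lit 0) (XT.lf (nat_lit 0) (nat_lit 4214312096) (nat_lit 1748) (nat_lit 7344492842) (nat_lit 1824) (nat_lit 3820089711) (nat_lit 449) (nat_lit 5) (nat_lit 472) (nat_lit 5) (nat_lit 473) (nat_lit 5) (nat_lit 449) (nat_lit 444) (nat_lit 247)) (XT.nd (nat_lit 78) (nat_lit 0) (nat_lit 76) (XT.lf (nat_lit 76) (nat_lit 261600248) (nat_lit 0) (nat_lit 4526444018) (nat_lit 1824) (nat_lit 10741593535) (nat_lit 450) (nat_lit 5) (nat_lit 449) (nat_lit 5) (nat_lit 473) (nat_lit 5) (nat_lit 450) (nat_lit 444) (nat_lit 246)) (XT.lf (nat_lit 0) (nat_lit 5432665287) (nat_lit 1748) (nat_lit 7585089971) (nat_lit 1824) (nat_lit 2664453900) (nat_lit 450) (nat_lit 5) (nat_lit 473) (nat_lit 5) (nat_lit 474) (nat_lit 5) (nat_lit 451) (nat_lit 444) (nat_lit 245))))))))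
noncomputable def xc223 : XT := (XT.nd (nat_lit 1794) (nat_lit 9880) (nat_lit 0) (XT.nd (nat_lit 858) (nat_lit 4484) (nat_lit 0) (XT.nd (nat_lit 390) (nat_lit 0) (nat_lit 152) (XT.nd (nat_lit 156) (nat_lit 0) (nat_lit 76) (XT.nd (nat_lit 78) (nat_lit 0) (nat_lit 76) (XT.lf (nat_lit 76) (nat_lit 219972191) (nat_lit 0) (nat_lit 5894375066) (nat_lit 1824) (nat_lit 9723002910) (nat_lit 451) (nat_lit 5) (nat_lit 450) (nat_lit 5) (nat_lit 474) (nat_lit 5) (nat_lit 452) (nat_lit 444) (nat_lit 244)) (XT.lf (nat_lit 0) (nat_lit 6862698974) (nat_lit 1748) (nat_lit 7724449256) (nat_lit 1824) (nat_lit 1407386609) (nat_lit 451) (nat_lit 5) (nat_lit 474) (nat_lit 5) (nat_lit 475) (nat_lit 5) (nat_lit 453) (nat_lit 444) (nat_lit 243))) (XT.nd (nat_lit 78) (nat_lit 0) (nat_lit 76) (XT.lf (nat_lit 76) (nat_lit 286565557) (nat_lit 0) (nat_lit 7373382222) (nat_lit 1824) (nat_lit 8494238355) (nat_lit 452) (nat_lit 5) (nat_lit 451) (nat_lit 5)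 (nat_lit 475) (nat_lit 5) (nat_lit 454) (nat_lit 444) (nat_lit 242)) (XT.nd (nat_lit 78) (nat_lit 0) (nat_lit 0) (XT.lf (nat_lit 0) (nat_lit 8518377376) (nat_lit 1748) (nat_lit 7758349699) (nat_lit 1824) (nat_lit 39400168) (nat_lit 452) (nat_lit 5) (nat_lit 475) (nat_lit 5) (nat_lit 476) (nat_lit 5) (nat_lit 455) (nat_lit 444) (nat_lit 241)) (XT.lf (nat_lit 76) (nat_lit 465856751) (nat_lit 0) (nat_lit 8973265003) (nat_lit 1824) (nat_lit 7041283969) (nat_lit 453) (nat_lit 5) (nat_lit 452) (nat_lit 5) (nat_lit 476) (nat_lit 5) (nat_lit 456) (nat_lit 444) (nat_lit 240))))) (XT.nd (nat_lit 234) (nat_lit 0) (nat_lit 152) (XT.nd (nat_lit 78) (nat_lit 0) (nat_lit 76) (XT.lf (nat_lit 76) (nat_lit 8955214308) (nat_lit 0) (nat_lit 1468522849) (nat_lit 1824) (nat_lit 6223324938) (nat_lit 453) (nat_lit 5) (nat_lit 452) (nat_lit 5) (nat_lit 476) (nat_lit 5) (nat_lit 457) (nat_lit 444) (nat_lit 239)) (XT.nd (nat_lit 78) (nat_lit 0) (nat_lit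 0) (XT.lf (nat_lit 76) (nat_lit 762587603) (nat_lit 0) (nat_lit 10704110620) (nat_lit 1824) (nat_lit 5349581721) (nat_lit 454) (nat_lit 5) (nat_lit 453) (nat_lit 5) (nat_lit 477) (nat_lit 5) (nat_lit 458) (nat_lit 444) (nat_lit 238)) (XT.lf (nat_lit 76) (nat_lit 9475996496) (nat_lit 0) (nat_lit 3109433524) (nat_lit 1824) (nat_lit 4402355287) (nat_lit 454) (nat_lit 5) (nat_lit 453) (nat_lit 5) (nat_lit 477) (nat_lit 5) (nat_lit 459) (nat_lit 444) (nat_lit 237)))) (XT.nd (nat_lit 78) (nat_lit 0) (nat_lit 0) (XT.lf (nat_lit 76) (nat_lit 1181769709) (nat_lit 0) (nat_lit 12576317318) (nat_lit 1824) (nat_lit 3404004101) (nat_lit 455) (nat_lit 5) (nat_lit 454) (nat_lit 5) (nat_lit 478) (nat_lit 5) (nat_lit 460) (nat_lit 444) (nat_lit 236)) (XT.nd (nat_lit 78) (nat_lit 0) (nat_lit 76) (XT.lf (nat_lit 76) (nat_lit 10125613007) (nat_lit 0) (nat_lit 4893312035) (nat_lit 1824) (nat_lit 2319664800) (nat_lit 455) (nat_lit 5) (nat_lit 454)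 (nat_lit 5) (nat_lit 478) (nat_lit 5) (nat_lit 461) (nat_lit 444) (nat_lit 235)) (XT.lf (nat_lit 76) (nat_lit 1728689109) (nat_lit 0) (nat_lit 14600618189) (nat_lit 1824) (nat_lit 1188825991) (nat_lit 456) (nat_lit 5) (nat_lit 455) (nat_lit 5) (nat_lit 479) (nat_lit 5) (nat_lit 462) (nat_lit 444) (nat_lit 234)))))) (XT.nd (nat_lit 468) (nat_lit 3040) (nat_lit 0) (XT.nd (nat_lit 234) (nat_lit 0) (nat_lit 76) (XT.nd (nat_lit 78) (nat_lit 0) (nat_lit 76) (XT.lf (nat_lit 0) (nat_lit 40264149) (nat_lit 1824) (nat_lit 6790471981) (nat_lit 1900) (nat_lit 10869033912) (nat_lit 431) (nat_lit 5) (nat_lit 455) (nat_lit 5) (nat_lit 456) (nat_lit 5) (nat_lit 463) (nat_lit 444) (nat_lit 233)) (XT.nd (nat_lit 78) (nat_lit 0) (nat_lit 0) (XT.lf (nat_lit 0) (nat_lit 1295093187) (nat_lit 1824) (nat_lit 15484321580) (nat_lit 1900) (nat_lit 1105127324) (nat_lit 432) (nat_lit 5) (nat_lit 456) (nat_lit 5) (nat_lit 457) (nat_lit 5) (nat_lit 464)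 (nat_lit 444) (nat_lit 232)) (XT.lf (nat_lit 0) (nat_lit 2660376201) (nat_lit 1824) (nat_lit 6255504384) (nat_lit 1900) (nat_lit 9155423057) (nat_lit 432) (nat_lit 5) (nat_lit 456) (nat_lit 5) (nat_lit 457) (nat_lit 5) (nat_lit 465) (nat_lit 444) (nat_lit 231)))) (XT.nd (nat_lit 78) (nat_lit 0) (nat_lit 76) (XT.lf (nat_lit 76) (nat_lit 3195245164) (nat_lit 0) (nat_lit 872829401) (nat_lit 1900) (nat_lit 14193424851) (nat_lit 433) (nat_lit 5) (nat_lit 432) (nat_lit 5) (nat_lit 457) (nat_lit 5) (nat_lit 466) (nat_lit 444) (nat_lit 230)) (XT.nd (nat_lit 78) (nat_lit 0) (nat_lit 0) (XT.lf (nat_lit 0) (nat_lit 5588232788) (nat_lit 1824) (nat_lit 5587370334) (nat_lit 1900) (nat_lit 7278211026) (nat_lit 433) (nat_lit 5) (nat_lit 457) (nat_lit 5) (nat_lit 458) (nat_lit 5) (nat_lit 467) (nat_lit 444) (nat_lit 229)) (XT.lf (nat_lit 76) (nat_lit 4124860948) (nat_lit 0) (nat_lit 3041055590) (nat_lit 1900) (nat_lit 11483517330) (nat_lit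 434) (nat_lit 5) (nat_lit 433) (nat_lit 5) (nat_lit 458) (nat_lit 5) (nat_lit 468) (nat_lit 444) (nat_lit 228))))) (XT.nd (nat_lit 234) (nat_lit 1824) (nat_lit 0) (XT.nd (nat_lit 78) (nat_lit 1444) (nat_lit 0) (XT.lf (nat_lit 0) (nat_lit 8841666585) (nat_lit 1824) (nat_lit 4780148088) (nat_lit 76) (nat_lit 5225822172) (nat_lit 434) (nat_lit 5) (nat_lit 458) (nat_lit 5) (nat_lit 435) (nat_lit 5) (nat_lit 469) (nat_lit 444) (nat_lit 227)) (XT.nd (nat_lit 78) (nat_lit 0) (nat_lit 0) (XT.lf (nat_lit 0) (nat_lit 5202719032) (nat_lit 1444) (nat_lit 5396880070) (nat_lit 1520) (nat_lit 8449232525) (nat_lit 415) (nat_lit 5) (nat_lit 434) (nat_lit 5) (nat_lit 435) (nat_lit 5) (nat_lit 470) (nat_lit 444) (nat_lit 226)) (XT.lf (nat_lit 0) (nat_lit 12439236183) (nat_lit 1520) (nat_lit 3827631614) (nat_lit 76) (nat_lit 2986252664) (nat_lit 415) (nat_lit 5) (nat_lit 435) (nat_lit 5) (nat_lit 416) (nat_lit 5) (nat_lit 471) (nat_lit 444) (nat_lit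 225)))) (XT.nd (nat_lit 78) (nat_lit 912) (nat_lit 0) (XT.lf (nat_lit 0) (nat_lit 6435348974) (nat_lit 912) (nat_lit 7952768481) (nat_lit 988) (nat_lit 5071929638) (nat_lit 403) (nat_lit 5) (nat_lit 415) (nat_lit 5) (nat_lit 416) (nat_lit 5) (nat_lit 472) (nat_lit 444) (nat_lit 224)) (XT.nd (nat_lit 78) (nat_lit 912) (nat_lit 0) (XT.lf (nat_lit 0) (nat_lit 16400258954) (nat_lit 988) (nat_lit 2723324905) (nat_lit 76) (nat_lit 547043780) (nat_lit 403) (nat_lit 5) (nat_lit 416) (nat_lit 5) (nat_lit 404) (nat_lit 5) (nat_lit 473) (nat_lit 444) (nat_lit 223)) (XT.lf (nat_lit 0) (nat_lit 7829580705) (nat_lit 912) (nat_lit 10721664222) (nat_lit 988) (nat_lit 1332203847) (nat_lit 391) (nat_lit 5) (nat_lit 403) (nat_lit 5) (nat_lit 404) (nat_lit 5) (nat_lit 474) (nat_lit 444) (nat_lit 222))))))) (XT.nd (nat_lit 936) (nat_lit 4864) (nat_lit 0) (XT.nd (nat_lit 468) (nat_lit 2356) (nat_lit 0) (XT.nd (nat_lit 234) (nat_lit 1672) (nat_lit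 0) (XT.nd (nat_lit 78) (nat_lit 912) (nat_lit 0) (XT.lf (nat_lit 0) (nat_lit 649798038) (nat_lit 988) (nat_lit 1478558058) (nat_lit 76) (nat_lit 17971816900) (nat_lit 390) (nat_lit 5) (nat_lit 403) (nat_lit 5) (nat_lit 391) (nat_lit 5) (nat_lit 475) (nat_lit 444) (nat_lit 221)) (XT.nd (nat_lit 78) (nat_lit 0) (nat_lit 0) (XT.lf (nat_lit 0) (nat_lit 2753554500) (nat_lit 988) (nat_lit 10944984530) (nat_lit 76) (nat_lit 6620518453) (nat_lit 378) (nat_lit 5) (nat_lit 391) (nat_lit 5) (nat_lit 379) (nat_lit 5) (nat_lit 476) (nat_lit 444) (nat_lit 220)) (XT.lf (nat_lit 0) (nat_lit 4918764219) (nat_lit 988) (nat_lit 97011490) (nat_lit 76) (nat_lit 15526157323) (nat_lit 378) (nat_lit 5) (nat_lit 391) (nat_lit 5) (nat_lit 379) (nat_lit 5) (nat_lit 477) (nat_lit 444) (nat_lit 219)))) (XT.nd (nat_lit 78) (nat_lit 836) (nat_lit 0) (XT.lf (nat_lit 0) (nat_lit 7220208782) (nat_lit 912) (nat_lit 9684151100) (nat_lit 76) (nat_lit 3863048512)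 (nat_lit 367) (nat_lit 5) (nat_lit 379) (nat_lit 5) (nat_lit 368) (nat_lit 5) (nat_lit 478) (nat_lit 444) (nat_lit 218)) (XT.nd (nat_lit 78) (nat_lit 0) (nat_lit 0) (XT.lf (nat_lit 0) (nat_lit 1472655867) (nat_lit 836) (nat_lit 8133910597) (nat_lit 912) (nat_lit 11390050014) (nat_lit 356) (nat_lit 5) (nat_lit 367) (nat_lit 5) (nat_lit 368) (nat_lit 5) (nat_lit 479) (nat_lit 444) (nat_lit 217)) (XT.lf (nat_lit 0) (nat_lit 12106849792) (nat_lit 912) (nat_lit 8255505173) (nat_lit 76) (nat_lit 866730668) (nat_lit 356) (nat_lit 5) (nat_lit 368) (nat_lit 5) (nat_lit 357) (nat_lit 5) (nat_lit 480) (nat_lit 444) (nat_lit 216))))) (XT.nd (nat_lit 234) (nat_lit 836) (nat_lit 0) (XT.nd (nat_lit 78) (nat_lit 760) (nat_lit 0) (XT.lf (nat_lit 0) (nat_lit 3222237857) (nat_lit 760) (nat_lit 11505287487) (nat_lit 836) (nat_lit 6737271959) (nat_lit 346) (nat_lit 5) (nat_lit 356) (nat_lit 5) (nat_lit 357) (nat_lit 5) (nat_lit 481) (nat_lit 444)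 (nat_lit 215)) (XT.nd (nat_lit 78) (nat_lit 760) (nat_lit 0) (XT.lf (nat_lit 0) (nat_lit 15036995946) (nat_lit 760) (nat_lit 2414673380) (nat_lit 836) (nat_lit 4252533630) (nat_lit 346) (nat_lit 5) (nat_lit 356) (nat_lit 5) (nat_lit 357) (nat_lit 5) (nat_lit 482) (nat_lit 444) (nat_lit 214)) (XT.lf (nat_lit 0) (nat_lit 5158336359) (nat_lit 760) (nat_lit 15145716911) (nat_lit 836) (nat_lit 1642869140) (nat_lit 336) (nat_lit 5) (nat_lit 346) (nat_lit 5) (nat_lit 347) (nat_lit 5) (nat_lit 483) (nat_lit 444) (nat_lit 213)))) (XT.nd (nat_lit 78) (nat_lit 760) (nat_lit 0) (XT.lf (nat_lit 0) (nat_lit 1062419267) (nat_lit 836) (nat_lit 4910209921) (nat_lit 76) (nat_lit 16220599645) (nat_lit 335) (nat_lit 5) (nat_lit 346) (nat_lit 5) (nat_lit 336) (nat_lit 5) (nat_lit 484) (nat_lit 444) (nat_lit 212)) (XT.nd (nat_lit 78) (nat_lit 0) (nat_lit 0) (XT.lf (nat_lit 0) (nat_lit 3865346059) (nat_lit 836) (nat_lit 15179708255) (nat_lit 76)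 (nat_lit 3397880054) (nat_lit 325) (nat_lit 5) (nat_lit 336) (nat_lit 5) (nat_lit 326) (nat_lit 5) (nat_lit 485) (nat_lit 444) (nat_lit 211)) (XT.lf (nat_lit 0) (nat_lit 6792954827) (nat_lit 836) (nat_lit 2994492883) (nat_lit 76) (nat_lit 12908814601) (nat_lit 325) (nat_lit 5) (nat_lit 336) (nat_lit 5) (nat_lit 326) (nat_lit 5) (nat_lit 486) (nat_lit 444) (nat_lit 210)))))) (XT.nd (nat_lit 468) (nat_lit 1976) (nat_lit 0) (XT.nd (nat_lit 234) (nat_lit 1444) (nat_lit 0) (XT.nd (nat_lit 78) (nat_lit 684) (nat_lit 0) (XT.lf (nat_lit 0) (nat_lit 9555398664) (nat_lit 760) (nat_lit 281738757) (nat_lit 836) (nat_lit 13116359710) (nat_lit 315) (nat_lit 5) (nat_lit 325) (nat_lit 5) (nat_lit 326) (nat_lit 5) (nat_lit 487) (nat_lit 444) (nat_lit 209)) (XT.nd (nat_lit 78) (nat_lit 684) (nat_lit 0) (XT.lf (nat_lit 0) (nat_lit 13019583964) (nat_lit 836) (nat_lit 884249221) (nat_lit 76) (nat_lit 9310496593) (nat_lit 315) (nat_lit 5) (nat_lit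 326) (nat_lit 5) (nat_lit 316) (nat_lit 5) (nat_lit 488) (nat_lit 444) (nat_lit 208)) (XT.lf (nat_lit 0) (nat_lit 12031494551) (nat_lit 684) (nat_lit 4310275105) (nat_lit 760) (nat_lit 7137088340) (nat_lit 306) (nat_lit 5) (nat_lit 315) (nat_lit 5) (nat_lit 316) (nat_lit 5) (nat_lit 489) (nat_lit 444) (nat_lit 207)))) (XT.nd (nat_lit 78) (nat_lit 760) (nat_lit 0) (XT.lf (nat_lit 0) (nat_lit 1448026618) (nat_lit 684) (nat_lit 18329449005) (nat_lit 760) (nat_lit 3970260333) (nat_lit 297) (nat_lit 5) (nat_lit 306) (nat_lit 5) (nat_lit 307) (nat_lit 5) (nat_lit 490) (nat_lit 444) (nat_lit 206)) (XT.nd (nat_lit 78) (nat_lit 760) (nat_lit 0) (XT.lf (nat_lit 0) (nat_lit 14723242757) (nat_lit 684) (nat_lit 8660028772) (nat_lit 760) (nat_lit 636693123) (nat_lit 297) (nat_lit 5) (nat_lit 306) (nat_lit 5) (nat_lit 307) (nat_lit 5) (nat_lit 491) (nat_lit 444) (nat_lit 205)) (XT.lf (nat_lit 0) (nat_lit 2757595416) (nat_lit 760) (nat_lit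 20308429922) (nat_lit 76) (nat_lit 1230648509) (nat_lit 287) (nat_lit 5) (nat_lit 297) (nat_lit 5) (nat_lit 288) (nat_lit 5) (nat_lit 492) (nat_lit 444) (nat_lit 204))))) (XT.nd (nat_lit 234) (nat_lit 1292) (nat_lit 0) (XT.nd (nat_lit 78) (nat_lit 684) (nat_lit 0) (XT.lf (nat_lit 0) (nat_lit 6327694846) (nat_lit 760) (nat_lit 6979059749) (nat_lit 76) (nat_lit 11269750105) (nat_lit 287) (nat_lit 5) (nat_lit 297) (nat_lit 5) (nat_lit 288) (nat_lit 5) (nat_lit 493) (nat_lit 444) (nat_lit 203)) (XT.nd (nat_lit 78) (nat_lit 0) (nat_lit 0) (XT.lf (nat_lit 0) (nat_lit 6700523486) (nat_lit 684) (nat_lit 3308541960) (nat_lit 760) (nat_lit 14852069982) (nat_lit 278) (nat_lit 5) (nat_lit 287) (nat_lit 5) (nat_lit 288) (nat_lit 5) (nat_lit 494) (nat_lit 444) (nat_lit 202)) (XT.lf (nat_lit 0) (nat_lit 13852343525) (nat_lit 760) (nat_lit 4451556235) (nat_lit 76) (nat_lit 6845794038) (nat_lit 278) (nat_lit 5) (nat_lit 288) (nat_lit 5) (nat_lit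 279) (nat_lit 5) (nat_lit 495) (nat_lit 444) (nat_lit 201)))) (XT.nd (nat_lit 78) (nat_lit 684) (nat_lit 0) (XT.lf (nat_lit 0) (nat_lit 9631884521) (nat_lit 608) (nat_lit 8221525267) (nat_lit 684) (nat_lit 7588995712) (nat_lit 270) (nat_lit 5) (nat_lit 278) (nat_lit 5) (nat_lit 279) (nat_lit 5) (nat_lit 496) (nat_lit 444) (nat_lit 200)) (XT.nd (nat_lit 78) (nat_lit 684) (nat_lit 0) (XT.lf (nat_lit 0) (nat_lit 21974471185) (nat_lit 684) (nat_lit 1700873931) (nat_lit 76) (nat_lit 2064827447) (nat_lit 270) (nat_lit 5) (nat_lit 279) (nat_lit 5) (nat_lit 271) (nat_lit 5) (nat_lit 497) (nat_lit 444) (nat_lit 199)) (XT.lf (nat_lit 0) (nat_lit 267324129) (nat_lit 684) (nat_lit 13242739186) (nat_lit 76) (nat_lit 12531114357) (nat_lit 261) (nat_lit 5) (nat_lit 270) (nat_lit 5) (nat_lit 262) (nat_lit 5) (nat_lit 498) (nat_lit 444) (nat_lit 198))))))))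
noncomputable def xc224 : XT := (XT.nd (nat_lit 56082) (nat_lit 0) (nat_lit 11552) (XT.nd (nat_lit 55146) (nat_lit 0) (nat_lit 17632) (XT.nd (nat_lit 390) (nat_lit 1748) (nat_lit 0) (XT.nd (nat_lit 156) (nat_lit 1140) (nat_lit 0) (XT.nd (nat_lit 78) (nat_lit 0) (nat_lit 0) (XT.lf (nat_lit 0) (nat_lit 1250016288) (nat_lit 608) (nat_lit 3096821743) (nat_lit 684) (nat_lit 22000542582) (nat_lit 253) (nat_lit 5) (nat_lit 261) (nat_lit 5) (nat_lit 262) (nat_lit 5) (nat_lit 499) (nat_lit 444) (nat_lit 197)) (XT.lf (nat_lit 0) (nat_lit 8642884512) (nat_lit 684) (nat_lit 10499455740) (nat_lit 76) (nat_lit 7514669074) (nat_lit 253) (nat_lit 5) (nat_lit 262) (nat_lit 5) (nat_lit 254) (nat_lit 5) (nat_lit 500) (nat_lit 444) (nat_lit 196))) (XT.nd (nat_lit 78) (nat_lit 532) (nat_lit 0) (XT.lf (nat_lit 0) (nat_lit 4423786340) (nat_lit 608) (nat_lit 8646995304) (nat_lit 684) (nat_lit 13901130922) (nat_lit 245) (nat_lit 5) (nat_lit 253) (nat_lit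 5) (nat_lit 254) (nat_lit 5) (nat_lit 501) (nat_lit 444) (nat_lit 195)) (XT.nd (nat_lit 78) (nat_lit 532) (nat_lit 0) (XT.lf (nat_lit 0) (nat_lit 17668255155) (nat_lit 684) (nat_lit 7521886545) (nat_lit 76) (nat_lit 2101352339) (nat_lit 245) (nat_lit 5) (nat_lit 254) (nat_lit 5) (nat_lit 246) (nat_lit 5) (nat_lit 502) (nat_lit 444) (nat_lit 194)) (XT.lf (nat_lit 0) (nat_lit 7846434388) (nat_lit 532) (nat_lit 14616248357) (nat_lit 608) (nat_lit 5152684830) (nat_lit 238) (nat_lit 5) (nat_lit 245) (nat_lit 5) (nat_lit 246) (nat_lit 5) (nat_lit 503) (nat_lit 444) (nat_lit 193))))) (XT.nd (nat_lit 234) (nat_lit 1064) (nat_lit 0) (XT.nd (nat_lit 78) (nat_lit 684) (nat_lit 0) (XT.lf (nat_lit 0) (nat_lit 23620023703) (nat_lit 532) (nat_lit 3780282963) (nat_lit 608) (nat_lit 544466276) (nat_lit 238) (nat_lit 5) (nat_lit 245) (nat_lit 5) (nat_lit 246) (nat_lit 5) (nat_lit 504) (nat_lit 444) (nat_lit 192)) (XT.nd (nat_lit 78) (nat_lit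 0) (nat_lit 0) (XT.lf (nat_lit 0) (nat_lit 4221153107) (nat_lit 684) (nat_lit 16777898788) (nat_lit 76) (nat_lit 7278780517) (nat_lit 229) (nat_lit 5) (nat_lit 238) (nat_lit 5) (nat_lit 230) (nat_lit 5) (nat_lit 505) (nat_lit 444) (nat_lit 191)) (XT.lf (nat_lit 0) (nat_lit 9125952335) (nat_lit 684) (nat_lit 950123943) (nat_lit 76) (nat_lit 18540382145) (nat_lit 229) (nat_lit 5) (nat_lit 238) (nat_lit 5) (nat_lit 230) (nat_lit 5) (nat_lit 506) (nat_lit 444) (nat_lit 190)))) (XT.nd (nat_lit 78) (nat_lit 532) (nat_lit 0) (XT.lf (nat_lit 0) (nat_lit 14233319322) (nat_lit 608) (nat_lit 13575387800) (nat_lit 76) (nat_lit 1151060872) (nat_lit 222) (nat_lit 5) (nat_lit 230) (nat_lit 5) (nat_lit 223) (nat_lit 5) (nat_lit 507) (nat_lit 444) (nat_lit 189)) (XT.nd (nat_lit 78) (nat_lit 0) (nat_lit 0) (XT.lf (nat_lit 0) (nat_lit 2713453109) (nat_lit 532) (nat_lit 16817136167) (nat_lit 608) (nat_lit 9777599834) (nat_lit 215) (nat_lit 5)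 (nat_lit 222) (nat_lit 5) (nat_lit 223) (nat_lit 5) (nat_lit 508) (nat_lit 444) (nat_lit 188)) (XT.lf (nat_lit 0) (nat_lit 19508114647) (nat_lit 532) (nat_lit 5513812232) (nat_lit 608) (nat_lit 4639889784) (nat_lit 215) (nat_lit 5) (nat_lit 222) (nat_lit 5) (nat_lit 223) (nat_lit 5) (nat_lit 509) (nat_lit 444) (nat_lit 187)))))) (XT.nd (nat_lit 468) (nat_lit 0) (nat_lit 152) (XT.nd (nat_lit 234) (nat_lit 0) (nat_lit 76) (XT.nd (nat_lit 78) (nat_lit 0) (nat_lit 0) (XT.lf (nat_lit 0) (nat_lit 661887981) (nat_lit 0) (nat_lit 661887981) (nat_lit 1748) (nat_lit 6145965624) (nat_lit 447) (nat_lit 5) (nat_lit 447) (nat_lit 3) (nat_lit 470) (nat_lit 3) (nat_lit 445) (nat_lit 445) (nat_lit 250)) (XT.nd (nat_lit 78) (nat_lit 0) (nat_lit 0) (XT.lf (nat_lit 0) (nat_lit 3010282878) (nat_lit 1748) (nat_lit 6389623916) (nat_lit 1824) (nat_lit 5682180286) (nat_lit 447) (nat_lit 5) (nat_lit 470) (nat_lit 3) (nat_lit 471) (nat_lit 5) (nat_lit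 446) (nat_lit 445) (nat_lit 249)) (XT.lf (nat_lit 76) (nat_lit 980976260) (nat_lit 0) (nat_lit 2406613978) (nat_lit 1824) (nat_lit 11839808118) (nat_lit 448) (nat_lit 5) (nat_lit 447) (nat_lit 5) (nat_lit 471) (nat_lit 5) (nat_lit 447) (nat_lit 445) (nat_lit 248)))) (XT.nd (nat_lit 78) (nat_lit 0) (nat_lit 0) (XT.lf (nat_lit 0) (nat_lit 3838629412) (nat_lit 1748) (nat_lit 6824384270) (nat_lit 1824) (nat_lit 4711280156) (nat_lit 448) (nat_lit 5) (nat_lit 471) (nat_lit 5) (nat_lit 472) (nat_lit 5) (nat_lit 448) (nat_lit 445) (nat_lit 247)) (XT.nd (nat_lit 78) (nat_lit 0) (nat_lit 76) (XT.lf (nat_lit 76) (nat_lit 735632246) (nat_lit 0) (nat_lit 3576257551) (nat_lit 1824) (nat_lit 11211975082) (nat_lit 449) (nat_lit 5) (nat_lit 448) (nat_lit 5) (nat_lit 472) (nat_lit 5) (nat_lit 449) (nat_lit 445) (nat_lit 246)) (XT.lf (nat_lit 0) (nat_lit 4857054485) (nat_lit 1748) (nat_lit 7164487333) (nat_lit 1824) (nat_lit 3653638367) (nat_lit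 449) (nat_lit 5) (nat_lit 472) (nat_lit 5) (nat_lit 473) (nat_lit 5) (nat_lit 450) (nat_lit 445) (nat_lit 245))))) (XT.nd (nat_lit 234) (nat_lit 0) (nat_lit 152) (XT.nd (nat_lit 78) (nat_lit 0) (nat_lit 76) (XT.lf (nat_lit 76) (nat_lit 591576992) (nat_lit 0) (nat_lit 4841842645) (nat_lit 1824) (nat_lit 10395697813) (nat_lit 450) (nat_lit 5) (nat_lit 449) (nat_lit 5) (nat_lit 473) (nat_lit 5) (nat_lit 451) (nat_lit 445) (nat_lit 244)) (XT.nd (nat_lit 78) (nat_lit 0) (nat_lit 0) (XT.lf (nat_lit 0) (nat_lit 6078724947) (nat_lit 1748) (nat_lit 7406087996) (nat_lit 1824) (nat_lit 2500173822) (nat_lit 450) (nat_lit 5) (nat_lit 473) (nat_lit 5) (nat_lit 474) (nat_lit 5) (nat_lit 452) (nat_lit 445) (nat_lit 243)) (XT.lf (nat_lit 76) (nat_lit 552899726) (nat_lit 0) (nat_lit 6212736473) (nat_lit 1824) (nat_lit 9377764805) (nat_lit 451) (nat_lit 5) (nat_lit 450) (nat_lit 5) (nat_lit 474) (nat_lit 5) (nat_lit 453) (nat_lit 445) (nat_lit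 242)))) (XT.nd (nat_lit 78) (nat_lit 0) (nat_lit 0) (XT.lf (nat_lit 0) (nat_lit 7517306274) (nat_lit 1748) (nat_lit 7545089351) (nat_lit 1824) (nat_lit 1241568994) (nat_lit 451) (nat_lit 5) (nat_lit 474) (nat_lit 5) (nat_lit 475) (nat_lit 5) (nat_lit 454) (nat_lit 445) (nat_lit 241)) (XT.nd (nat_lit 78) (nat_lit 0) (nat_lit 0) (XT.lf (nat_lit 76) (nat_lit 623949384) (nat_lit 0) (nat_lit 7698559797) (nat_lit 1824) (nat_lit 8144461810) (nat_lit 452) (nat_lit 5) (nat_lit 451) (nat_lit 5) (nat_lit 475) (nat_lit 5) (nat_lit 455) (nat_lit 445) (nat_lit 240)) (XT.lf (nat_lit 76) (nat_lit 9054352303) (nat_lit 0) (nat_lit 133503171) (nat_lit 1824) (nat_lit 7444502674) (nat_lit 452) (nat_lit 5) (nat_lit 451) (nat_lit 5) (nat_lit 475) (nat_lit 5) (nat_lit 456) (nat_lit 445) (nat_lit 239))))))) (XT.nd (nat_lit 858) (nat_lit 4864) (nat_lit 0) (XT.nd (nat_lit 390) (nat_lit 1596) (nat_lit 0) (XT.nd (nat_lit 156) (nat_lit 0) (nat_lit 76) (XT.nd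 (nat_lit 78) (nat_lit 0) (nat_lit 0) (XT.lf (nat_lit 76) (nat_lit 809338514) (nat_lit 0) (nat_lit 9309209569) (nat_lit 1824) (nat_lit 6681545595) (nat_lit 453) (nat_lit 5) (nat_lit 452) (nat_lit 5) (nat_lit 476) (nat_lit 5) (nat_lit 457) (nat_lit 445) (nat_lit 238)) (XT.lf (nat_lit 76) (nat_lit 9461930975) (nat_lit 0) (nat_lit 1651304350) (nat_lit 1824) (nat_lit 5857042365) (nat_lit 453) (nat_lit 5) (nat_lit 452) (nat_lit 5) (nat_lit 476) (nat_lit 5) (nat_lit 458) (nat_lit 445) (nat_lit 237))) (XT.nd (nat_lit 78) (nat_lit 0) (nat_lit 0) (XT.lf (nat_lit 76) (nat_lit 1113947547) (nat_lit 0) (nat_lit 11054881955) (nat_lit 1824) (nat_lit 4974216978) (nat_lit 454) (nat_lit 5) (nat_lit 453) (nat_lit 5) (nat_lit 477) (nat_lit 5) (nat_lit 459) (nat_lit 445) (nat_lit 236)) (XT.nd (nat_lit 78) (nat_lit 0) (nat_lit 76) (XT.lf (nat_lit 76) (nat_lit 9995034261) (nat_lit 0) (nat_lit 3305631138) (nat_lit 1824) (nat_lit 4017503984) (nat_lit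 454) (nat_lit 5) (nat_lit 453) (nat_lit 5) (nat_lit 477) (nat_lit 5) (nat_lit 460) (nat_lit 445) (nat_lit 235)) (XT.lf (nat_lit 76) (nat_lit 1542929384) (nat_lit 0) (nat_lit 12946095819) (nat_lit 1824) (nat_lit 3007093107) (nat_lit 455) (nat_lit 5) (nat_lit 454) (nat_lit 5) (nat_lit 478) (nat_lit 5) (nat_lit 461) (nat_lit 445) (nat_lit 234))))) (XT.nd (nat_lit 234) (nat_lit 0) (nat_lit 76) (XT.nd (nat_lit 78) (nat_lit 1748) (nat_lit 0) (XT.lf (nat_lit 76) (nat_lit 10659031425) (nat_lit 0) (nat_lit 5107111761) (nat_lit 1824) (nat_lit 1910184491) (nat_lit 455) (nat_lit 5) (nat_lit 454) (nat_lit 5) (nat_lit 478) (nat_lit 5) (nat_lit 462) (nat_lit 445) (nat_lit 233)) (XT.nd (nat_lit 78) (nat_lit 1824) (nat_lit 0) (XT.lf (nat_lit 76) (nat_lit 2101714327) (nat_lit 0) (nat_lit 14993716691) (nat_lit 1824) (nat_lit 764178921) (nat_lit 456) (nat_lit 5) (nat_lit 455) (nat_lit 5) (nat_lit 479) (nat_lit 5) (nat_lit 463) (nat_lit 445) (nat_lit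 232)) (XT.lf (nat_lit 0) (nat_lit 474934563) (nat_lit 1824) (nat_lit 6588608884) (nat_lit 1900) (nat_lit 10981453130) (nat_lit 431) (nat_lit 5) (nat_lit 455) (nat_lit 5) (nat_lit 456) (nat_lit 5) (nat_lit 464) (nat_lit 445) (nat_lit 231)))) (XT.nd (nat_lit 78) (nat_lit 0) (nat_lit 0) (XT.lf (nat_lit 0) (nat_lit 1747933116) (nat_lit 1824) (nat_lit 15449318640) (nat_lit 1900) (nat_lit 1036352647) (nat_lit 432) (nat_lit 5) (nat_lit 456) (nat_lit 5) (nat_lit 457) (nat_lit 5) (nat_lit 465) (nat_lit 445) (nat_lit 230)) (XT.nd (nat_lit 78) (nat_lit 0) (nat_lit 0) (XT.lf (nat_lit 0) (nat_lit 3132150456) (nat_lit 1824) (nat_lit 6042683715) (nat_lit 1900) (nat_lit 9249436201) (nat_lit 432) (nat_lit 5) (nat_lit 456) (nat_lit 5) (nat_lit 457) (nat_lit 5) (nat_lit 466) (nat_lit 445) (nat_lit 229)) (XT.lf (nat_lit 76) (nat_lit 3594857595) (nat_lit 0) (nat_lit 967117636) (nat_lit 1900) (nat_lit 14056417106) (nat_lit 433) (nat_lit 5) (nat_lit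 432) (nat_lit 5) (nat_lit 457) (nat_lit 5) (nat_lit 467) (nat_lit 445) (nat_lit 228)))))) (XT.nd (nat_lit 468) (nat_lit 2736) (nat_lit 0) (XT.nd (nat_lit 234) (nat_lit 2280) (nat_lit 0) (XT.nd (nat_lit 78) (nat_lit 0) (nat_lit 0) (XT.lf (nat_lit 0) (nat_lit 6103958556) (nat_lit 1824) (nat_lit 5361330058) (nat_lit 1900) (nat_lit 7349438004) (nat_lit 433) (nat_lit 5) (nat_lit 457) (nat_lit 5) (nat_lit 458) (nat_lit 5) (nat_lit 468) (nat_lit 445) (nat_lit 227)) (XT.nd (nat_lit 78) (nat_lit 0) (nat_lit 76) (XT.lf (nat_lit 76) (nat_lit 4542923563) (nat_lit 0) (nat_lit 3164530324) (nat_lit 1900) (nat_lit 11306921345) (nat_lit 434) (nat_lit 5) (nat_lit 433) (nat_lit 5) (nat_lit 458) (nat_lit 5) (nat_lit 469) (nat_lit 445) (nat_lit 226)) (XT.lf (nat_lit 0) (nat_lit 9408511907) (nat_lit 1824) (nat_lit 4538477032) (nat_lit 76) (nat_lit 5269719096) (nat_lit 434) (nat_lit 5) (nat_lit 458) (nat_lit 5) (nat_lit 435) (nat_lit 5) (nat_lit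 470) (nat_lit 445) (nat_lit 225)))) (XT.nd (nat_lit 78) (nat_lit 912) (nat_lit 0) (XT.lf (nat_lit 0) (nat_lit 5641828522) (nat_lit 1444) (nat_lit 5554302658) (nat_lit 1520) (nat_lit 8225906565) (nat_lit 415) (nat_lit 5) (nat_lit 434) (nat_lit 5) (nat_lit 435) (nat_lit 5) (nat_lit 471) (nat_lit 445) (nat_lit 224)) (XT.nd (nat_lit 78) (nat_lit 912) (nat_lit 0) (XT.lf (nat_lit 0) (nat_lit 13064706011) (nat_lit 1520) (nat_lit 3567765703) (nat_lit 76) (nat_lit 2998099304) (nat_lit 415) (nat_lit 5) (nat_lit 435) (nat_lit 5) (nat_lit 416) (nat_lit 5) (nat_lit 472) (nat_lit 445) (nat_lit 223)) (XT.lf (nat_lit 0) (nat_lit 6898261217) (nat_lit 912) (nat_lit 8149087592) (nat_lit 988) (nat_lit 4794393230) (nat_lit 403) (nat_lit 5) (nat_lit 415) (nat_lit 5) (nat_lit 416) (nat_lit 5) (nat_lit 473) (nat_lit 445) (nat_lit 222))))) (XT.nd (nat_lit 234) (nat_lit 1748) (nat_lit 0) (XT.nd (nat_lit 78) (nat_lit 988) (nat_lit 0) (XT.lf (nat_lit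 0) (nat_lit 17092212235) (nat_lit 988) (nat_lit 2442543167) (nat_lit 76) (nat_lit 521930714) (nat_lit 403) (nat_lit 5) (nat_lit 416) (nat_lit 5) (nat_lit 404) (nat_lit 5) (nat_lit 474) (nat_lit 445) (nat_lit 221)) (XT.nd (nat_lit 78) (nat_lit 76) (nat_lit 0) (XT.lf (nat_lit 0) (nat_lit 8319214975) (nat_lit 912) (nat_lit 10962029049) (nat_lit 988) (nat_lit 992620600) (nat_lit 391) (nat_lit 5) (nat_lit 403) (nat_lit 5) (nat_lit 404) (nat_lit 5) (nat_lit 475) (nat_lit 445) (nat_lit 220)) (XT.lf (nat_lit 0) (nat_lit 1017131437) (nat_lit 988) (nat_lit 1176837071) (nat_lit 76) (nat_lit 18301050417) (nat_lit 390) (nat_lit 5) (nat_lit 403) (nat_lit 5) (nat_lit 391) (nat_lit 5) (nat_lit 476) (nat_lit 445) (nat_lit 219)))) (XT.nd (nat_lit 78) (nat_lit 836) (nat_lit 0) (XT.lf (nat_lit 0) (nat_lit 3158019512) (nat_lit 988) (nat_lit 10827579162) (nat_lit 76) (nat_lit 6732782686) (nat_lit 378) (nat_lit 5) (nat_lit 391) (nat_lit 5) (nat_lit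 379) (nat_lit 5) (nat_lit 477) (nat_lit 445) (nat_lit 218)) (XT.nd (nat_lit 78) (nat_lit 0) (nat_lit 0) (XT.lf (nat_lit 0) (nat_lit 233825789) (nat_lit 836) (nat_lit 5127374927) (nat_lit 912) (nat_lit 15584621719) (nat_lit 367) (nat_lit 5) (nat_lit 378) (nat_lit 5) (nat_lit 379) (nat_lit 5) (nat_lit 478) (nat_lit 445) (nat_lit 217)) (XT.lf (nat_lit 0) (nat_lit 7702498507) (nat_lit 912) (nat_lit 9543399070) (nat_lit 76) (nat_lit 3930034574) (nat_lit 367) (nat_lit 5) (nat_lit 379) (nat_lit 5) (nat_lit 368) (nat_lit 5) (nat_lit 479) (nat_lit 445) (nat_lit 216))))))))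
noncomputable def xc225 : XT := (XT.nd (nat_lit 1794) (nat_lit 1748) (nat_lit 0) (XT.nd (nat_lit 858) (nat_lit 4636) (nat_lit 0) (XT.nd (nat_lit 390) (nat_lit 2280) (nat_lit 0) (XT.nd (nat_lit 156) (nat_lit 1520) (nat_lit 0) (XT.nd (nat_lit 78) (nat_lit 0) (nat_lit 0) (XT.lf (nat_lit 0) (nat_lit 1834343806) (nat_lit 836) (nat_lit 8297771419) (nat_lit 912) (nat_lit 11277699841) (nat_lit 356) (nat_lit 5) (nat_lit 367) (nat_lit 5) (nat_lit 368) (nat_lit 5) (nat_lit 480) (nat_lit 445) (nat_lit 215)) (XT.lf (nat_lit 0) (nat_lit 12675859096) (nat_lit 912) (nat_lit 8088285628) (nat_lit 76) (nat_lit 882921066) (nat_lit 356) (nat_lit 5) (nat_lit 368) (nat_lit 5) (nat_lit 357) (nat_lit 5) (nat_lit 481) (nat_lit 445) (nat_lit 214))) (XT.nd (nat_lit 78) (nat_lit 760) (nat_lit 0) (XT.lf (nat_lit 0) (nat_lit 3616825883) (nat_lit 760) (nat_lit 11727856524) (nat_lit 836) (nat_lit 6542895859) (nat_lit 346) (nat_lit 5) (nat_lit 356) (nat_lit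 5) (nat_lit 357) (nat_lit 5) (nat_lit 482) (nat_lit 445) (nat_lit 213)) (XT.nd (nat_lit 78) (nat_lit 760) (nat_lit 0) (XT.lf (nat_lit 0) (nat_lit 15661405736) (nat_lit 760) (nat_lit 2455577913) (nat_lit 836) (nat_lit 4014916127) (nat_lit 346) (nat_lit 5) (nat_lit 356) (nat_lit 5) (nat_lit 357) (nat_lit 5) (nat_lit 483) (nat_lit 445) (nat_lit 212)) (XT.lf (nat_lit 0) (nat_lit 5589341110) (nat_lit 760) (nat_lit 15433048150) (nat_lit 836) (nat_lit 1357166087) (nat_lit 336) (nat_lit 5) (nat_lit 346) (nat_lit 5) (nat_lit 347) (nat_lit 5) (nat_lit 484) (nat_lit 445) (nat_lit 211))))) (XT.nd (nat_lit 234) (nat_lit 1444) (nat_lit 0) (XT.nd (nat_lit 78) (nat_lit 760) (nat_lit 0) (XT.lf (nat_lit 0) (nat_lit 1391885749) (nat_lit 836) (nat_lit 4682850170) (nat_lit 76) (nat_lit 16556135063) (nat_lit 335) (nat_lit 5) (nat_lit 346) (nat_lit 5) (nat_lit 336) (nat_lit 5) (nat_lit 485) (nat_lit 445) (nat_lit 210)) (XT.nd (nat_lit 78) (nat_lit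 0) (nat_lit 0) (XT.lf (nat_lit 0) (nat_lit 4247051774) (nat_lit 836) (nat_lit 15153862240) (nat_lit 76) (nat_lit 3484734138) (nat_lit 325) (nat_lit 5) (nat_lit 336) (nat_lit 5) (nat_lit 326) (nat_lit 5) (nat_lit 486) (nat_lit 445) (nat_lit 209)) (XT.lf (nat_lit 0) (nat_lit 7227244113) (nat_lit 836) (nat_lit 2731402172) (nat_lit 76) (nat_lit 13185516856) (nat_lit 325) (nat_lit 5) (nat_lit 336) (nat_lit 5) (nat_lit 326) (nat_lit 5) (nat_lit 487) (nat_lit 445) (nat_lit 208)))) (XT.nd (nat_lit 78) (nat_lit 684) (nat_lit 0) (XT.lf (nat_lit 0) (nat_lit 10067362334) (nat_lit 760) (nat_lit 261179661) (nat_lit 836) (nat_lit 13078077125) (nat_lit 315) (nat_lit 5) (nat_lit 325) (nat_lit 5) (nat_lit 326) (nat_lit 5) (nat_lit 488) (nat_lit 445) (nat_lit 207)) (XT.nd (nat_lit 78) (nat_lit 684) (nat_lit 0) (XT.lf (nat_lit 0) (nat_lit 13569026519) (nat_lit 836) (nat_lit 581705203) (nat_lit 76) (nat_lit 9522049989) (nat_lit 315) (nat_lit 5)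 (nat_lit 326) (nat_lit 5) (nat_lit 316) (nat_lit 5) (nat_lit 489) (nat_lit 445) (nat_lit 206)) (XT.lf (nat_lit 0) (nat_lit 12590246674) (nat_lit 684) (nat_lit 4363807048) (nat_lit 760) (nat_lit 6988619868) (nat_lit 306) (nat_lit 5) (nat_lit 315) (nat_lit 5) (nat_lit 316) (nat_lit 5) (nat_lit 490) (nat_lit 445) (nat_lit 205)))))) (XT.nd (nat_lit 468) (nat_lit 2508) (nat_lit 0) (XT.nd (nat_lit 234) (nat_lit 684) (nat_lit 0) (XT.nd (nat_lit 78) (nat_lit 760) (nat_lit 0) (XT.lf (nat_lit 0) (nat_lit 1798529391) (nat_lit 684) (nat_lit 18656643028) (nat_lit 760) (nat_lit 3761823748) (nat_lit 297) (nat_lit 5) (nat_lit 306) (nat_lit 5) (nat_lit 307) (nat_lit 5) (nat_lit 491) (nat_lit 445) (nat_lit 204)) (XT.nd (nat_lit 78) (nat_lit 760) (nat_lit 0) (XT.lf (nat_lit 0) (nat_lit 15332945103) (nat_lit 684) (nat_lit 8794606841) (nat_lit 760) (nat_lit 367229151) (nat_lit 297) (nat_lit 5) (nat_lit 306) (nat_lit 5) (nat_lit 307) (nat_lit 5)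 (nat_lit 492) (nat_lit 445) (nat_lit 203)) (XT.lf (nat_lit 0) (nat_lit 3088112187) (nat_lit 760) (nat_lit 20392429911) (nat_lit 76) (nat_lit 1296509341) (nat_lit 287) (nat_lit 5) (nat_lit 297) (nat_lit 5) (nat_lit 288) (nat_lit 5) (nat_lit 493) (nat_lit 445) (nat_lit 202)))) (XT.nd (nat_lit 78) (nat_lit 684) (nat_lit 0) (XT.lf (nat_lit 0) (nat_lit 6724214294) (nat_lit 760) (nat_lit 6802789366) (nat_lit 76) (nat_lit 11535584188) (nat_lit 287) (nat_lit 5) (nat_lit 297) (nat_lit 5) (nat_lit 288) (nat_lit 5) (nat_lit 494) (nat_lit 445) (nat_lit 201)) (XT.nd (nat_lit 78) (nat_lit 0) (nat_lit 0) (XT.lf (nat_lit 0) (nat_lit 7148307562) (nat_lit 684) (nat_lit 3327648529) (nat_lit 760) (nat_lit 14877021159) (nat_lit 278) (nat_lit 5) (nat_lit 287) (nat_lit 5) (nat_lit 288) (nat_lit 5) (nat_lit 495) (nat_lit 445) (nat_lit 200)) (XT.lf (nat_lit 0) (nat_lit 14391169717) (nat_lit 760) (nat_lit 4227990378) (nat_lit 76) (nat_lit 7028246208)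 (nat_lit 278) (nat_lit 5) (nat_lit 288) (nat_lit 5) (nat_lit 279) (nat_lit 5) (nat_lit 496) (nat_lit 445) (nat_lit 199))))) (XT.nd (nat_lit 234) (nat_lit 1216) (nat_lit 0) (XT.nd (nat_lit 78) (nat_lit 684) (nat_lit 0) (XT.lf (nat_lit 0) (nat_lit 10135062634) (nat_lit 608) (nat_lit 8334077978) (nat_lit 684) (nat_lit 7476894858) (nat_lit 270) (nat_lit 5) (nat_lit 278) (nat_lit 5) (nat_lit 279) (nat_lit 5) (nat_lit 497) (nat_lit 445) (nat_lit 198)) (XT.nd (nat_lit 78) (nat_lit 684) (nat_lit 0) (XT.lf (nat_lit 0) (nat_lit 22667881642) (nat_lit 684) (nat_lit 1425654413) (nat_lit 76) (nat_lit 2156317533) (nat_lit 270) (nat_lit 5) (nat_lit 279) (nat_lit 5) (nat_lit 271) (nat_lit 5) (nat_lit 498) (nat_lit 445) (nat_lit 197)) (XT.lf (nat_lit 0) (nat_lit 525311774) (nat_lit 684) (nat_lit 13196991660) (nat_lit 76) (nat_lit 12834602670) (nat_lit 261) (nat_lit 5) (nat_lit 270) (nat_lit 5) (nat_lit 262) (nat_lit 5) (nat_lit 499) (nat_lit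 445) (nat_lit 196)))) (XT.nd (nat_lit 78) (nat_lit 608) (nat_lit 0) (XT.lf (nat_lit 0) (nat_lit 1583575487) (nat_lit 608) (nat_lit 3099890088) (nat_lit 684) (nat_lit 22185827366) (nat_lit 253) (nat_lit 5) (nat_lit 261) (nat_lit 5) (nat_lit 262) (nat_lit 5) (nat_lit 500) (nat_lit 445) (nat_lit 195)) (XT.nd (nat_lit 78) (nat_lit 608) (nat_lit 0) (XT.lf (nat_lit 0) (nat_lit 9060911804) (nat_lit 684) (nat_lit 10402374318) (nat_lit 76) (nat_lit 7721919342) (nat_lit 253) (nat_lit 5) (nat_lit 262) (nat_lit 5) (nat_lit 254) (nat_lit 5) (nat_lit 501) (nat_lit 445) (nat_lit 194)) (XT.lf (nat_lit 0) (nat_lit 4817312403) (nat_lit 608) (nat_lit 8757227818) (nat_lit 684) (nat_lit 13931923879) (nat_lit 245) (nat_lit 5) (nat_lit 253) (nat_lit 5) (nat_lit 254) (nat_lit 5) (nat_lit 502) (nat_lit 445) (nat_lit 193))))))) (XT.nd (nat_lit 55380) (nat_lit 0) (nat_lit 17252) (XT.nd (nat_lit 54912) (nat_lit 0) (nat_lit 17100) (XT.nd (nat_lit 234)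 (nat_lit 1216) (nat_lit 0) (XT.nd (nat_lit 78) (nat_lit 532) (nat_lit 0) (XT.lf (nat_lit 0) (nat_lit 18259610535) (nat_lit 684) (nat_lit 7368863575) (nat_lit 76) (nat_lit 2204050927) (nat_lit 245) (nat_lit 5) (nat_lit 254) (nat_lit 5) (nat_lit 246) (nat_lit 5) (nat_lit 503) (nat_lit 445) (nat_lit 192)) (XT.nd (nat_lit 78) (nat_lit 0) (nat_lit 0) (XT.lf (nat_lit 0) (nat_lit 8304827324) (nat_lit 532) (nat_lit 14842390182) (nat_lit 608) (nat_lit 5015713488) (nat_lit 238) (nat_lit 5) (nat_lit 245) (nat_lit 5) (nat_lit 246) (nat_lit 5) (nat_lit 504) (nat_lit 445) (nat_lit 191)) (XT.lf (nat_lit 0) (nat_lit 24387977362) (nat_lit 532) (nat_lit 3791003188) (nat_lit 608) (nat_lit 320036936) (nat_lit 238) (nat_lit 5) (nat_lit 245) (nat_lit 5) (nat_lit 246) (nat_lit 5) (nat_lit 505) (nat_lit 445) (nat_lit 190)))) (XT.nd (nat_lit 78) (nat_lit 532) (nat_lit 0) (XT.lf (nat_lit 0) (nat_lit 4535617155) (nat_lit 684) (nat_lit 16812552974) (nat_lit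 76) (nat_lit 7490582011) (nat_lit 229) (nat_lit 5) (nat_lit 238) (nat_lit 5) (nat_lit 230) (nat_lit 5) (nat_lit 506) (nat_lit 445) (nat_lit 189)) (XT.nd (nat_lit 78) (nat_lit 532) (nat_lit 0) (XT.lf (nat_lit 0) (nat_lit 9534001759) (nat_lit 684) (nat_lit 674122706) (nat_lit 76) (nat_lit 18976117124) (nat_lit 229) (nat_lit 5) (nat_lit 238) (nat_lit 5) (nat_lit 230) (nat_lit 5) (nat_lit 507) (nat_lit 445) (nat_lit 188)) (XT.lf (nat_lit 0) (nat_lit 14741451504) (nat_lit 608) (nat_lit 13549792559) (nat_lit 76) (nat_lit 1243215275) (nat_lit 222) (nat_lit 5) (nat_lit 230) (nat_lit 5) (nat_lit 223) (nat_lit 5) (nat_lit 508) (nat_lit 445) (nat_lit 187))))) (XT.nd (nat_lit 234) (nat_lit 0) (nat_lit 76) (XT.nd (nat_lit 78) (nat_lit 0) (nat_lit 0) (XT.lf (nat_lit 0) (nat_lit 823591835) (nat_lit 0) (nat_lit 823591835) (nat_lit 1748) (nat_lit 5965948715) (nat_lit 447) (nat_lit 5) (nat_lit 447) (nat_lit 3) (nat_lit 470) (nat_lit 3) (nat_lit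 446) (nat_lit 446) (nat_lit 248)) (XT.nd (nat_lit 78) (nat_lit 0) (nat_lit 0) (XT.lf (nat_lit 0) (nat_lit 3650818435) (nat_lit 1748) (nat_lit 6212643714) (nat_lit 1824) (nat_lit 5508531862) (nat_lit 447) (nat_lit 5) (nat_lit 470) (nat_lit 3) (nat_lit 471) (nat_lit 5) (nat_lit 447) (nat_lit 446) (nat_lit 247)) (XT.lf (nat_lit 76) (nat_lit 1303363383) (nat_lit 0) (nat_lit 2722895311) (nat_lit 1824) (nat_lit 11494143598) (nat_lit 448) (nat_lit 5) (nat_lit 447) (nat_lit 5) (nat_lit 471) (nat_lit 5) (nat_lit 448) (nat_lit 446) (nat_lit 246)))) (XT.nd (nat_lit 78) (nat_lit 0) (nat_lit 0) (XT.lf (nat_lit 0) (nat_lit 4473417342) (nat_lit 1748) (nat_lit 6651016435) (nat_lit 1824) (nat_lit 4546062396) (nat_lit 448) (nat_lit 5) (nat_lit 471) (nat_lit 5) (nat_lit 472) (nat_lit 5) (nat_lit 449) (nat_lit 446) (nat_lit 245)) (XT.nd (nat_lit 78) (nat_lit 0) (nat_lit 76) (XT.lf (nat_lit 76) (nat_lit 1058161887) (nat_lit 0) (nat_lit 3889038121)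 (nat_lit 1824) (nat_lit 10876039901) (nat_lit 449) (nat_lit 5) (nat_lit 448) (nat_lit 5) (nat_lit 472) (nat_lit 5) (nat_lit 450) (nat_lit 446) (nat_lit 244)) (XT.lf (nat_lit 0) (nat_lit 5490966189) (nat_lit 1748) (nat_lit 6993575458) (nat_lit 1824) (nat_lit 3493288280) (nat_lit 449) (nat_lit 5) (nat_lit 472) (nat_lit 5) (nat_lit 473) (nat_lit 5) (nat_lit 451) (nat_lit 446) (nat_lit 243)))))) (XT.nd (nat_lit 468) (nat_lit 0) (nat_lit 228) (XT.nd (nat_lit 234) (nat_lit 0) (nat_lit 152) (XT.nd (nat_lit 78) (nat_lit 0) (nat_lit 76) (XT.lf (nat_lit 76) (nat_lit 915543036) (nat_lit 0) (nat_lit 5154817278) (nat_lit 1824) (nat_lit 10064657913) (nat_lit 450) (nat_lit 5) (nat_lit 449) (nat_lit 5) (nat_lit 473) (nat_lit 5) (nat_lit 452) (nat_lit 446) (nat_lit 242)) (XT.nd (nat_lit 78) (nat_lit 0) (nat_lit 0) (XT.lf (nat_lit 0) (nat_lit 6716837657) (nat_lit 1748) (nat_lit 7236347613) (nat_lit 1824) (nat_lit 2341056619) (nat_lit 450) (nat_lit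 5) (nat_lit 473) (nat_lit 5) (nat_lit 474) (nat_lit 5) (nat_lit 453) (nat_lit 446) (nat_lit 241)) (XT.lf (nat_lit 76) (nat_lit 879728666) (nat_lit 0) (nat_lit 6529680462) (nat_lit 1824) (nat_lit 9046579076) (nat_lit 451) (nat_lit 5) (nat_lit 450) (nat_lit 5) (nat_lit 474) (nat_lit 5) (nat_lit 454) (nat_lit 446) (nat_lit 240)))) (XT.nd (nat_lit 78) (nat_lit 0) (nat_lit 0) (XT.lf (nat_lit 0) (nat_lit 8164916261) (nat_lit 1748) (nat_lit 7375106008) (nat_lit 1824) (nat_lit 1079966938) (nat_lit 451) (nat_lit 5) (nat_lit 474) (nat_lit 5) (nat_lit 475) (nat_lit 5) (nat_lit 455) (nat_lit 446) (nat_lit 239)) (XT.nd (nat_lit 78) (nat_lit 0) (nat_lit 0) (XT.lf (nat_lit 76) (nat_lit 955202415) (nat_lit 0) (nat_lit 8023340232) (nat_lit 1824) (nat_lit 7807868817) (nat_lit 452) (nat_lit 5) (nat_lit 451) (nat_lit 5) (nat_lit 475) (nat_lit 5) (nat_lit 456) (nat_lit 446) (nat_lit 238)) (XT.lf (nat_lit 76) (nat_lit 9547962922) (nat_lit 0) (nat_lit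 303633272) (nat_lit 1824) (nat_lit 7103704267) (nat_lit 452) (nat_lit 5) (nat_lit 451) (nat_lit 5) (nat_lit 475) (nat_lit 5) (nat_lit 457) (nat_lit 446) (nat_lit 237))))) (XT.nd (nat_lit 234) (nat_lit 0) (nat_lit 76) (XT.nd (nat_lit 78) (nat_lit 0) (nat_lit 0) (XT.lf (nat_lit 76) (nat_lit 1146713893) (nat_lit 0) (nat_lit 9645796745) (nat_lit 1824) (nat_lit 6334049965) (nat_lit 453) (nat_lit 5) (nat_lit 452) (nat_lit 5) (nat_lit 476) (nat_lit 5) (nat_lit 458) (nat_lit 446) (nat_lit 236)) (XT.nd (nat_lit 78) (nat_lit 0) (nat_lit 76) (XT.lf (nat_lit 76) (nat_lit 9966060387) (nat_lit 0) (nat_lit 1831784344) (nat_lit 1824) (nat_lit 5502490524) (nat_lit 453) (nat_lit 5) (nat_lit 452) (nat_lit 5) (nat_lit 476) (nat_lit 5) (nat_lit 459) (nat_lit 446) (nat_lit 235)) (XT.lf (nat_lit 76) (nat_lit 1459283199) (nat_lit 0) (nat_lit 11407360911) (nat_lit 1824) (nat_lit 4610075426) (nat_lit 454) (nat_lit 5) (nat_lit 453) (nat_lit 5) (nat_lit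 477) (nat_lit 5) (nat_lit 460) (nat_lit 446) (nat_lit 234)))) (XT.nd (nat_lit 78) (nat_lit 0) (nat_lit 76) (XT.lf (nat_lit 76) (nat_lit 10511657202) (nat_lit 0) (nat_lit 3500548974) (nat_lit 1824) (nat_lit 3643318876) (nat_lit 454) (nat_lit 5) (nat_lit 453) (nat_lit 5) (nat_lit 477) (nat_lit 5) (nat_lit 461) (nat_lit 446) (nat_lit 233)) (XT.nd (nat_lit 78) (nat_lit 0) (nat_lit 0) (XT.lf (nat_lit 76) (nat_lit 1898205773) (nat_lit 0) (nat_lit 13318678015) (nat_lit 1824) (nat_lit 2620300062) (nat_lit 455) (nat_lit 5) (nat_lit 454) (nat_lit 5) (nat_lit 478) (nat_lit 5) (nat_lit 462) (nat_lit 446) (nat_lit 232)) (XT.lf (nat_lit 76) (nat_lit 11190268721) (nat_lit 0) (nat_lit 5320685643) (nat_lit 1824) (nat_lit 1510216704) (nat_lit 455) (nat_lit 5) (nat_lit 454) (nat_lit 5) (nat_lit 478) (nat_lit 5) (nat_lit 463) (nat_lit 446) (nat_lit 231))))))))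
noncomputable def xc226 : XT := (XT.nd (nat_lit 1794) (nat_lit 8056) (nat_lit 0) (XT.nd (nat_lit 858) (nat_lit 5168) (nat_lit 0) (XT.nd (nat_lit 390) (nat_lit 2128) (nat_lit 0) (XT.nd (nat_lit 156) (nat_lit 0) (nat_lit 76) (XT.nd (nat_lit 78) (nat_lit 1824) (nat_lit 0) (XT.lf (nat_lit 76) (nat_lit 2469057568) (nat_lit 0) (nat_lit 15390751865) (nat_lit 1824) (nat_lit 348451745) (nat_lit 456) (nat_lit 5) (nat_lit 455) (nat_lit 5) (nat_lit 479) (nat_lit 5) (nat_lit 464) (nat_lit 446) (nat_lit 230)) (XT.lf (nat_lit 0) (nat_lit 901450873) (nat_lit 1824) (nat_lit 6395820760) (nat_lit 1900) (nat_lit 11100196513) (nat_lit 431) (nat_lit 5) (nat_lit 455) (nat_lit 5) (nat_lit 456) (nat_lit 5) (nat_lit 465) (nat_lit 446) (nat_lit 229))) (XT.nd (nat_lit 78) (nat_lit 0) (nat_lit 0) (XT.lf (nat_lit 0) (nat_lit 2193251318) (nat_lit 1824) (nat_lit 15427000349) (nat_lit 1900) (nat_lit 969731350) (nat_lit 432) (nat_lit 5) (nat_lit 456) (nat_lit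 5) (nat_lit 457) (nat_lit 5) (nat_lit 466) (nat_lit 446) (nat_lit 228)) (XT.nd (nat_lit 78) (nat_lit 0) (nat_lit 0) (XT.lf (nat_lit 0) (nat_lit 3597106740) (nat_lit 1824) (nat_lit 5838728896) (nat_lit 1900) (nat_lit 9348789287) (nat_lit 432) (nat_lit 5) (nat_lit 456) (nat_lit 5) (nat_lit 457) (nat_lit 5) (nat_lit 467) (nat_lit 446) (nat_lit 227)) (XT.lf (nat_lit 76) (nat_lit 3989426343) (nat_lit 0) (nat_lit 1060308170) (nat_lit 1900) (nat_lit 13933012342) (nat_lit 433) (nat_lit 5) (nat_lit 432) (nat_lit 5) (nat_lit 457) (nat_lit 5) (nat_lit 468) (nat_lit 446) (nat_lit 226))))) (XT.nd (nat_lit 234) (nat_lit 2280) (nat_lit 0) (XT.nd (nat_lit 78) (nat_lit 0) (nat_lit 0) (XT.lf (nat_lit 0) (nat_lit 6614312536) (nat_lit 1824) (nat_lit 5143885683) (nat_lit 1900) (nat_lit 7424976128) (nat_lit 433) (nat_lit 5) (nat_lit 457) (nat_lit 5) (nat_lit 458) (nat_lit 5) (nat_lit 469) (nat_lit 446) (nat_lit 225)) (XT.nd (nat_lit 78) (nat_lit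 0) (nat_lit 76) (XT.lf (nat_lit 76) (nat_lit 4956317017) (nat_lit 0) (nat_lit 3288041637) (nat_lit 1900) (nat_lit 11142569256) (nat_lit 434) (nat_lit 5) (nat_lit 433) (nat_lit 5) (nat_lit 458) (nat_lit 5) (nat_lit 470) (nat_lit 446) (nat_lit 224)) (XT.lf (nat_lit 0) (nat_lit 9971549494) (nat_lit 1824) (nat_lit 4305069316) (nat_lit 76) (nat_lit 5316847890) (nat_lit 434) (nat_lit 5) (nat_lit 458) (nat_lit 5) (nat_lit 435) (nat_lit 5) (nat_lit 471) (nat_lit 446) (nat_lit 223)))) (XT.nd (nat_lit 78) (nat_lit 912) (nat_lit 0) (XT.lf (nat_lit 0) (nat_lit 6076709604) (nat_lit 1444) (nat_lit 5712952135) (nat_lit 1520) (nat_lit 8013347985) (nat_lit 415) (nat_lit 5) (nat_lit 434) (nat_lit 5) (nat_lit 435) (nat_lit 5) (nat_lit 472) (nat_lit 446) (nat_lit 222)) (XT.nd (nat_lit 78) (nat_lit 912) (nat_lit 0) (XT.lf (nat_lit 0) (nat_lit 13688058094) (nat_lit 1520) (nat_lit 3315766017) (nat_lit 76) (nat_lit 3012042054) (nat_lit 415) (nat_lit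 5) (nat_lit 435) (nat_lit 5) (nat_lit 416) (nat_lit 5) (nat_lit 473) (nat_lit 446) (nat_lit 221)) (XT.lf (nat_lit 0) (nat_lit 7357454106) (nat_lit 912) (nat_lit 8347886089) (nat_lit 988) (nat_lit 4526022154) (nat_lit 403) (nat_lit 5) (nat_lit 415) (nat_lit 5) (nat_lit 416) (nat_lit 5) (nat_lit 474) (nat_lit 446) (nat_lit 220)))))) (XT.nd (nat_lit 468) (nat_lit 2432) (nat_lit 0) (XT.nd (nat_lit 234) (nat_lit 1748) (nat_lit 0) (XT.nd (nat_lit 78) (nat_lit 988) (nat_lit 0) (XT.lf (nat_lit 0) (nat_lit 17783872033) (nat_lit 988) (nat_lit 2169163891) (nat_lit 76) (nat_lit 497715404) (nat_lit 403) (nat_lit 5) (nat_lit 416) (nat_lit 5) (nat_lit 404) (nat_lit 5) (nat_lit 475) (nat_lit 446) (nat_lit 219)) (XT.nd (nat_lit 78) (nat_lit 76) (nat_lit 0) (XT.lf (nat_lit 0) (nat_lit 8805709478) (nat_lit 912) (nat_lit 11206194218) (nat_lit 988) (nat_lit 660466742) (nat_lit 391) (nat_lit 5) (nat_lit 403) (nat_lit 5) (nat_lit 404) (nat_lit 5)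 (nat_lit 476) (nat_lit 446) (nat_lit 218)) (XT.lf (nat_lit 0) (nat_lit 1378052149) (nat_lit 988) (nat_lit 881946142) (nat_lit 76) (nat_lit 18638041417) (nat_lit 390) (nat_lit 5) (nat_lit 403) (nat_lit 5) (nat_lit 391) (nat_lit 5) (nat_lit 477) (nat_lit 446) (nat_lit 217)))) (XT.nd (nat_lit 78) (nat_lit 836) (nat_lit 0) (XT.lf (nat_lit 0) (nat_lit 3557006432) (nat_lit 988) (nat_lit 10720884821) (nat_lit 76) (nat_lit 6848074503) (nat_lit 378) (nat_lit 5) (nat_lit 391) (nat_lit 5) (nat_lit 379) (nat_lit 5) (nat_lit 478) (nat_lit 446) (nat_lit 216)) (XT.nd (nat_lit 78) (nat_lit 0) (nat_lit 0) (XT.lf (nat_lit 0) (nat_lit 559621610) (nat_lit 836) (nat_lit 5240129735) (nat_lit 912) (nat_lit 15558295613) (nat_lit 367) (nat_lit 5) (nat_lit 378) (nat_lit 5) (nat_lit 379) (nat_lit 5) (nat_lit 479) (nat_lit 446) (nat_lit 215)) (XT.lf (nat_lit 0) (nat_lit 8181313520) (nat_lit 912) (nat_lit 9412818519) (nat_lit 76) (nat_lit 3998759344) (nat_lit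 367) (nat_lit 5) (nat_lit 379) (nat_lit 5) (nat_lit 368) (nat_lit 5) (nat_lit 480) (nat_lit 446) (nat_lit 214))))) (XT.nd (nat_lit 234) (nat_lit 836) (nat_lit 0) (XT.nd (nat_lit 78) (nat_lit 760) (nat_lit 0) (XT.lf (nat_lit 0) (nat_lit 2190364421) (nat_lit 836) (nat_lit 8464863535) (nat_lit 912) (nat_lit 11176311150) (nat_lit 356) (nat_lit 5) (nat_lit 367) (nat_lit 5) (nat_lit 368) (nat_lit 5) (nat_lit 481) (nat_lit 446) (nat_lit 213)) (XT.nd (nat_lit 78) (nat_lit 760) (nat_lit 0) (XT.lf (nat_lit 0) (nat_lit 13243555735) (nat_lit 912) (nat_lit 7930626458) (nat_lit 76) (nat_lit 899479703) (nat_lit 356) (nat_lit 5) (nat_lit 368) (nat_lit 5) (nat_lit 357) (nat_lit 5) (nat_lit 482) (nat_lit 446) (nat_lit 212)) (XT.lf (nat_lit 0) (nat_lit 4006485804) (nat_lit 760) (nat_lit 11955169601) (nat_lit 836) (nat_lit 6357412427) (nat_lit 346) (nat_lit 5) (nat_lit 356) (nat_lit 5) (nat_lit 357) (nat_lit 5) (nat_lit 483) (nat_lit 446) (nat_lit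 211)))) (XT.nd (nat_lit 78) (nat_lit 836) (nat_lit 0) (XT.lf (nat_lit 0) (nat_lit 16285735227) (nat_lit 760) (nat_lit 2497587458) (nat_lit 836) (nat_lit 3785075872) (nat_lit 346) (nat_lit 5) (nat_lit 356) (nat_lit 5) (nat_lit 357) (nat_lit 5) (nat_lit 484) (nat_lit 446) (nat_lit 210)) (XT.nd (nat_lit 78) (nat_lit 76) (nat_lit 0) (XT.lf (nat_lit 0) (nat_lit 6016235606) (nat_lit 760) (nat_lit 15726731125) (nat_lit 836) (nat_lit 1078119063) (nat_lit 336) (nat_lit 5) (nat_lit 346) (nat_lit 5) (nat_lit 347) (nat_lit 5) (nat_lit 485) (nat_lit 446) (nat_lit 209)) (XT.lf (nat_lit 0) (nat_lit 1715973076) (nat_lit 836) (nat_lit 4463585268) (nat_lit 76) (nat_lit 16897949254) (nat_lit 335) (nat_lit 5) (nat_lit 346) (nat_lit 5) (nat_lit 336) (nat_lit 5) (nat_lit 486) (nat_lit 446) (nat_lit 208))))))) (XT.nd (nat_lit 858) (nat_lit 3724) (nat_lit 0) (XT.nd (nat_lit 390) (nat_lit 2128) (nat_lit 0) (XT.nd (nat_lit 156) (nat_lit 1444) (nat_lit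 0) (XT.nd (nat_lit 78) (nat_lit 0) (nat_lit 0) (XT.lf (nat_lit 0) (nat_lit 4624571427) (nat_lit 836) (nat_lit 15140291868) (nat_lit 76) (nat_lit 3572591529) (nat_lit 325) (nat_lit 5) (nat_lit 336) (nat_lit 5) (nat_lit 326) (nat_lit 5) (nat_lit 487) (nat_lit 446) (nat_lit 207)) (XT.lf (nat_lit 0) (nat_lit 7658630778) (nat_lit 836) (nat_lit 2475591376) (nat_lit 76) (nat_lit 13467033771) (nat_lit 325) (nat_lit 5) (nat_lit 336) (nat_lit 5) (nat_lit 326) (nat_lit 5) (nat_lit 488) (nat_lit 446) (nat_lit 206))) (XT.nd (nat_lit 78) (nat_lit 684) (nat_lit 0) (XT.lf (nat_lit 0) (nat_lit 10577106059) (nat_lit 760) (nat_lit 241226523) (nat_lit 836) (nat_lit 13050701932) (nat_lit 315) (nat_lit 5) (nat_lit 325) (nat_lit 5) (nat_lit 326) (nat_lit 5) (nat_lit 489) (nat_lit 446) (nat_lit 205)) (XT.nd (nat_lit 78) (nat_lit 684) (nat_lit 0) (XT.lf (nat_lit 0) (nat_lit 14118233728) (nat_lit 836) (nat_lit 285545188) (nat_lit 76) (nat_lit 9736850336)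 (nat_lit 315) (nat_lit 5) (nat_lit 326) (nat_lit 5) (nat_lit 316) (nat_lit 5) (nat_lit 490) (nat_lit 446) (nat_lit 204)) (XT.lf (nat_lit 0) (nat_lit 13147820766) (nat_lit 684) (nat_lit 4419678383) (nat_lit 760) (nat_lit 6848490076) (nat_lit 306) (nat_lit 5) (nat_lit 315) (nat_lit 5) (nat_lit 316) (nat_lit 5) (nat_lit 491) (nat_lit 446) (nat_lit 203))))) (XT.nd (nat_lit 234) (nat_lit 684) (nat_lit 0) (XT.nd (nat_lit 78) (nat_lit 760) (nat_lit 0) (XT.lf (nat_lit 0) (nat_lit 2143556343) (nat_lit 684) (nat_lit 18991910686) (nat_lit 760) (nat_lit 3560395680) (nat_lit 297) (nat_lit 5) (nat_lit 306) (nat_lit 5) (nat_lit 307) (nat_lit 5) (nat_lit 492) (nat_lit 446) (nat_lit 202)) (XT.nd (nat_lit 78) (nat_lit 760) (nat_lit 0) (XT.lf (nat_lit 0) (nat_lit 15942600440) (nat_lit 684) (nat_lit 8933376230) (nat_lit 760) (nat_lit 103333986) (nat_lit 297) (nat_lit 5) (nat_lit 306) (nat_lit 5) (nat_lit 307) (nat_lit 5) (nat_lit 493) (nat_lit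 446) (nat_lit 201)) (XT.lf (nat_lit 0) (nat_lit 3414546540) (nat_lit 760) (nat_lit 20490620100) (nat_lit 76) (nat_lit 1362085685) (nat_lit 287) (nat_lit 5) (nat_lit 297) (nat_lit 5) (nat_lit 288) (nat_lit 5) (nat_lit 494) (nat_lit 446) (nat_lit 200)))) (XT.nd (nat_lit 78) (nat_lit 684) (nat_lit 0) (XT.lf (nat_lit 0) (nat_lit 7118181041) (nat_lit 760) (nat_lit 6635258478) (nat_lit 76) (nat_lit 11805164653) (nat_lit 287) (nat_lit 5) (nat_lit 297) (nat_lit 5) (nat_lit 288) (nat_lit 5) (nat_lit 495) (nat_lit 446) (nat_lit 199)) (XT.nd (nat_lit 78) (nat_lit 0) (nat_lit 0) (XT.lf (nat_lit 0) (nat_lit 7592863108) (nat_lit 684) (nat_lit 3348964791) (nat_lit 760) (nat_lit 14913036954) (nat_lit 278) (nat_lit 5) (nat_lit 287) (nat_lit 5) (nat_lit 288) (nat_lit 5) (nat_lit 496) (nat_lit 446) (nat_lit 198)) (XT.lf (nat_lit 0) (nat_lit 14930607223) (nat_lit 760) (nat_lit 4012091725) (nat_lit 76) (nat_lit 7212579191) (nat_lit 278) (nat_lit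 5) (nat_lit 288) (nat_lit 5) (nat_lit 279) (nat_lit 5) (nat_lit 497) (nat_lit 446) (nat_lit 197)))))) (XT.nd (nat_lit 468) (nat_lit 1216) (nat_lit 0) (XT.nd (nat_lit 234) (nat_lit 1216) (nat_lit 0) (XT.nd (nat_lit 78) (nat_lit 684) (nat_lit 0) (XT.lf (nat_lit 0) (nat_lit 10636245646) (nat_lit 608) (nat_lit 8450896221) (nat_lit 684) (nat_lit 7372798799) (nat_lit 270) (nat_lit 5) (nat_lit 278) (nat_lit 5) (nat_lit 279) (nat_lit 5) (nat_lit 498) (nat_lit 446) (nat_lit 196)) (XT.nd (nat_lit 78) (nat_lit 684) (nat_lit 0) (XT.lf (nat_lit 0) (nat_lit 23365300244) (nat_lit 684) (nat_lit 1156938553) (nat_lit 76) (nat_lit 2247688344) (nat_lit 270) (nat_lit 5) (nat_lit 279) (nat_lit 5) (nat_lit 271) (nat_lit 5) (nat_lit 499) (nat_lit 446) (nat_lit 195)) (XT.lf (nat_lit 0) (nat_lit 778648808) (nat_lit 684) (nat_lit 13162390250) (nat_lit 76) (nat_lit 13142107896) (nat_lit 261) (nat_lit 5) (nat_lit 270) (nat_lit 5) (nat_lit 262) (nat_lit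 5) (nat_lit 500) (nat_lit 446) (nat_lit 194)))) (XT.nd (nat_lit 78) (nat_lit 608) (nat_lit 0) (XT.lf (nat_lit 0) (nat_lit 1911824153) (nat_lit 608) (nat_lit 3105305719) (nat_lit 684) (nat_lit 22384709169) (nat_lit 253) (nat_lit 5) (nat_lit 261) (nat_lit 5) (nat_lit 262) (nat_lit 5) (nat_lit 501) (nat_lit 446) (nat_lit 193)) (XT.nd (nat_lit 78) (nat_lit 608) (nat_lit 0) (XT.lf (nat_lit 0) (nat_lit 9477779408) (nat_lit 684) (nat_lit 10315275192) (nat_lit 76) (nat_lit 7931102910) (nat_lit 253) (nat_lit 5) (nat_lit 262) (nat_lit 5) (nat_lit 254) (nat_lit 5) (nat_lit 502) (nat_lit 446) (nat_lit 192)) (XT.lf (nat_lit 0) (nat_lit 5206863510) (nat_lit 608) (nat_lit 8872099988) (nat_lit 684) (nat_lit 13972932924) (nat_lit 245) (nat_lit 5) (nat_lit 253) (nat_lit 5) (nat_lit 254) (nat_lit 5) (nat_lit 503) (nat_lit 446) (nat_lit 191))))) (XT.nd (nat_lit 234) (nat_lit 684) (nat_lit 0) (XT.nd (nat_lit 78) (nat_lit 532) (nat_lit 0) (XT.lf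 (nat_lit 0) (nat_lit 18853551569) (nat_lit 684) (nat_lit 7224563895) (nat_lit 76) (nat_lit 2306447538) (nat_lit 245) (nat_lit 5) (nat_lit 254) (nat_lit 5) (nat_lit 246) (nat_lit 5) (nat_lit 504) (nat_lit 446) (nat_lit 190)) (XT.nd (nat_lit 78) (nat_lit 0) (nat_lit 0) (XT.lf (nat_lit 0) (nat_lit 8760681895) (nat_lit 532) (nat_lit 15075624815) (nat_lit 608) (nat_lit 4885323183) (nat_lit 238) (nat_lit 5) (nat_lit 245) (nat_lit 5) (nat_lit 246) (nat_lit 5) (nat_lit 505) (nat_lit 446) (nat_lit 189)) (XT.lf (nat_lit 0) (nat_lit 25159813405) (nat_lit 532) (nat_lit 3804457398) (nat_lit 608) (nat_lit 100256720) (nat_lit 238) (nat_lit 5) (nat_lit 245) (nat_lit 5) (nat_lit 246) (nat_lit 5) (nat_lit 506) (nat_lit 446) (nat_lit 188)))) (XT.nd (nat_lit 78) (nat_lit 0) (nat_lit 0) (XT.lf (nat_lit 0) (nat_lit 4847437711) (nat_lit 684) (nat_lit 16859584705) (nat_lit 76) (nat_lit 7704047903) (nat_lit 229) (nat_lit 5) (nat_lit 238) (nat_lit 5)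 (nat_lit 230) (nat_lit 5) (nat_lit 507) (nat_lit 446) (nat_lit 187)) (XT.nd (nat_lit 54600) (nat_lit 0) (nat_lit 16568) (XT.lf (nat_lit 0) (nat_lit 9941454553) (nat_lit 684) (nat_lit 404056799) (nat_lit 76) (nat_lit 19418045596) (nat_lit 229) (nat_lit 5) (nat_lit 238) (nat_lit 5) (nat_lit 230) (nat_lit 5) (nat_lit 508) (nat_lit 446) (nat_lit 186)) (XT.lf (nat_lit 0) (nat_lit 982764647) (nat_lit 0) (nat_lit 982764647) (nat_lit 1748) (nat_lit 5794094851) (nat_lit 447) (nat_lit 5) (nat_lit 447) (nat_lit 3) (nat_lit 470) (nat_lit 3) (nat_lit 447) (nat_lit 447) (nat_lit 246))))))))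
noncomputable def xc227 : XT := (XT.nd (nat_lit 1794) (nat_lit 10260) (nat_lit 0) (XT.nd (nat_lit 858) (nat_lit 1216) (nat_lit 0) (XT.nd (nat_lit 390) (nat_lit 0) (nat_lit 152) (XT.nd (nat_lit 156) (nat_lit 0) (nat_lit 76) (XT.nd (nat_lit 78) (nat_lit 0) (nat_lit 0) (XT.lf (nat_lit 0) (nat_lit 4281629786) (nat_lit 1748) (nat_lit 6043958602) (nat_lit 1824) (nat_lit 5342566370) (nat_lit 447) (nat_lit 5) (nat_lit 470) (nat_lit 3) (nat_lit 471) (nat_lit 5) (nat_lit 448) (nat_lit 447) (nat_lit 245)) (XT.lf (nat_lit 76) (nat_lit 1620441413) (nat_lit 0) (nat_lit 3035089715) (nat_lit 1824) (nat_lit 11164183446) (nat_lit 448) (nat_lit 5) (nat_lit 447) (nat_lit 5) (nat_lit 471) (nat_lit 5) (nat_lit 449) (nat_lit 447) (nat_lit 244))) (XT.nd (nat_lit 78) (nat_lit 0) (nat_lit 0) (XT.lf (nat_lit 0) (nat_lit 5099232615) (nat_lit 1748) (nat_lit 6486213311) (nat_lit 1824) (nat_lit 4387614784) (nat_lit 448) (nat_lit 5) (nat_lit 471) (nat_lit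 5) (nat_lit 472) (nat_lit 5) (nat_lit 450) (nat_lit 447) (nat_lit 243)) (XT.nd (nat_lit 78) (nat_lit 0) (nat_lit 76) (XT.lf (nat_lit 76) (nat_lit 1375189213) (nat_lit 0) (nat_lit 4198706062) (nat_lit 1824) (nat_lit 10555138282) (nat_lit 449) (nat_lit 5) (nat_lit 448) (nat_lit 5) (nat_lit 472) (nat_lit 5) (nat_lit 451) (nat_lit 447) (nat_lit 242)) (XT.lf (nat_lit 0) (nat_lit 6116712670) (nat_lit 1748) (nat_lit 6831446179) (nat_lit 1824) (nat_lit 3338795285) (nat_lit 449) (nat_lit 5) (nat_lit 472) (nat_lit 5) (nat_lit 473) (nat_lit 5) (nat_lit 452) (nat_lit 447) (nat_lit 241))))) (XT.nd (nat_lit 234) (nat_lit 0) (nat_lit 152) (XT.nd (nat_lit 78) (nat_lit 0) (nat_lit 76) (XT.lf (nat_lit 76) (nat_lit 1233867839) (nat_lit 0) (nat_lit 5465658509) (nat_lit 1824) (nat_lit 9747925450) (nat_lit 450) (nat_lit 5) (nat_lit 449) (nat_lit 5) (nat_lit 473) (nat_lit 5) (nat_lit 453) (nat_lit 447) (nat_lit 240)) (XT.nd (nat_lit 78) (nat_lit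 0) (nat_lit 0) (XT.lf (nat_lit 0) (nat_lit 7347654812) (nat_lit 1748) (nat_lit 7075555396) (nat_lit 1824) (nat_lit 2186877482) (nat_lit 450) (nat_lit 5) (nat_lit 473) (nat_lit 5) (nat_lit 474) (nat_lit 5) (nat_lit 454) (nat_lit 447) (nat_lit 239)) (XT.lf (nat_lit 76) (nat_lit 1200832414) (nat_lit 0) (nat_lit 6845480972) (nat_lit 1824) (nat_lit 8728912978) (nat_lit 451) (nat_lit 5) (nat_lit 450) (nat_lit 5) (nat_lit 474) (nat_lit 5) (nat_lit 455) (nat_lit 447) (nat_lit 238)))) (XT.nd (nat_lit 78) (nat_lit 0) (nat_lit 0) (XT.lf (nat_lit 0) (nat_lit 8806169085) (nat_lit 1748) (nat_lit 7214183359) (nat_lit 1824) (nat_lit 922372277) (nat_lit 451) (nat_lit 5) (nat_lit 474) (nat_lit 5) (nat_lit 475) (nat_lit 5) (nat_lit 456) (nat_lit 447) (nat_lit 237)) (XT.nd (nat_lit 78) (nat_lit 0) (nat_lit 0) (XT.lf (nat_lit 76) (nat_lit 1280702122) (nat_lit 0) (nat_lit 8347983543) (nat_lit 1824) (nat_lit 7483939467) (nat_lit 452) (nat_lit 5)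 (nat_lit 451) (nat_lit 5) (nat_lit 475) (nat_lit 5) (nat_lit 457) (nat_lit 447) (nat_lit 236)) (XT.lf (nat_lit 76) (nat_lit 10039310081) (nat_lit 0) (nat_lit 470663297) (nat_lit 1824) (nat_lit 6775105091) (nat_lit 452) (nat_lit 5) (nat_lit 451) (nat_lit 5) (nat_lit 475) (nat_lit 5) (nat_lit 458) (nat_lit 447) (nat_lit 235)))))) (XT.nd (nat_lit 468) (nat_lit 1596) (nat_lit 0) (XT.nd (nat_lit 234) (nat_lit 0) (nat_lit 76) (XT.nd (nat_lit 78) (nat_lit 0) (nat_lit 0) (XT.lf (nat_lit 76) (nat_lit 1478364634) (nat_lit 0) (nat_lit 9983275333) (nat_lit 1824) (nat_lit 5998287153) (nat_lit 453) (nat_lit 5) (nat_lit 452) (nat_lit 5) (nat_lit 476) (nat_lit 5) (nat_lit 459) (nat_lit 447) (nat_lit 234)) (XT.nd (nat_lit 78) (nat_lit 0) (nat_lit 76) (XT.lf (nat_lit 76) (nat_lit 10468044793) (nat_lit 0) (nat_lit 2010148122) (nat_lit 1824) (nat_lit 5159164049) (nat_lit 453) (nat_lit 5) (nat_lit 452) (nat_lit 5) (nat_lit 476) (nat_lit 5) (nat_lit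 460) (nat_lit 447) (nat_lit 233)) (XT.lf (nat_lit 76) (nat_lit 1798980879) (nat_lit 0) (nat_lit 11761787750) (nat_lit 1824) (nat_lit 4256654202) (nat_lit 454) (nat_lit 5) (nat_lit 453) (nat_lit 5) (nat_lit 477) (nat_lit 5) (nat_lit 461) (nat_lit 447) (nat_lit 232)))) (XT.nd (nat_lit 78) (nat_lit 0) (nat_lit 76) (XT.lf (nat_lit 76) (nat_lit 11026313891) (nat_lit 0) (nat_lit 3694363503) (nat_lit 1824) (nat_lit 3279300221) (nat_lit 454) (nat_lit 5) (nat_lit 453) (nat_lit 5) (nat_lit 477) (nat_lit 5) (nat_lit 462) (nat_lit 447) (nat_lit 231)) (XT.nd (nat_lit 78) (nat_lit 0) (nat_lit 0) (XT.lf (nat_lit 76) (nat_lit 2247990151) (nat_lit 0) (nat_lit 13694298287) (nat_lit 1824) (nat_lit 2243126185) (nat_lit 455) (nat_lit 5) (nat_lit 454) (nat_lit 5) (nat_lit 478) (nat_lit 5) (nat_lit 463) (nat_lit 447) (nat_lit 230)) (XT.lf (nat_lit 76) (nat_lit 11719780235) (nat_lit 0) (nat_lit 5534203975) (nat_lit 1824) (nat_lit 1119264294) (nat_lit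 455) (nat_lit 5) (nat_lit 454) (nat_lit 5) (nat_lit 478) (nat_lit 5) (nat_lit 464) (nat_lit 447) (nat_lit 229))))) (XT.nd (nat_lit 234) (nat_lit 0) (nat_lit 76) (XT.nd (nat_lit 78) (nat_lit 0) (nat_lit 0) (XT.lf (nat_lit 0) (nat_lit 58081429) (nat_lit 1824) (nat_lit 15733483682) (nat_lit 1900) (nat_lit 2772644343) (nat_lit 431) (nat_lit 5) (nat_lit 455) (nat_lit 5) (nat_lit 456) (nat_lit 5) (nat_lit 465) (nat_lit 447) (nat_lit 228)) (XT.nd (nat_lit 78) (nat_lit 0) (nat_lit 76) (XT.lf (nat_lit 0) (nat_lit 1320304207) (nat_lit 1824) (nat_lit 6211779946) (nat_lit 1900) (nat_lit 11225232278) (nat_lit 431) (nat_lit 5) (nat_lit 455) (nat_lit 5) (nat_lit 456) (nat_lit 5) (nat_lit 466) (nat_lit 447) (nat_lit 227)) (XT.lf (nat_lit 0) (nat_lit 2631541124) (nat_lit 1824) (nat_lit 15417100656) (nat_lit 1900) (nat_lit 905169469) (nat_lit 432) (nat_lit 5) (nat_lit 456) (nat_lit 5) (nat_lit 457) (nat_lit 5) (nat_lit 467) (nat_lit 447) (nat_lit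 226)))) (XT.nd (nat_lit 78) (nat_lit 0) (nat_lit 0) (XT.lf (nat_lit 0) (nat_lit 4055739834) (nat_lit 1824) (nat_lit 5643307689) (nat_lit 1900) (nat_lit 9453454771) (nat_lit 432) (nat_lit 5) (nat_lit 456) (nat_lit 5) (nat_lit 457) (nat_lit 5) (nat_lit 468) (nat_lit 447) (nat_lit 225)) (XT.nd (nat_lit 78) (nat_lit 0) (nat_lit 76) (XT.lf (nat_lit 76) (nat_lit 4379356734) (nat_lit 0) (nat_lit 1152494900) (nat_lit 1900) (nat_lit 13822847997) (nat_lit 433) (nat_lit 5) (nat_lit 432) (nat_lit 5) (nat_lit 457) (nat_lit 5) (nat_lit 469) (nat_lit 447) (nat_lit 224)) (XT.lf (nat_lit 0) (nat_lit 7119796412) (nat_lit 1824) (nat_lit 4934699790) (nat_lit 1900) (nat_lit 7504799530) (nat_lit 433) (nat_lit 5) (nat_lit 457) (nat_lit 5) (nat_lit 458) (nat_lit 5) (nat_lit 470) (nat_lit 447) (nat_lit 223))))))) (XT.nd (nat_lit 936) (nat_lit 4560) (nat_lit 0) (XT.nd (nat_lit 468) (nat_lit 3572) (nat_lit 0) (XT.nd (nat_lit 234) (nat_lit 912) (nat_lit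 0) (XT.nd (nat_lit 78) (nat_lit 1368) (nat_lit 0) (XT.lf (nat_lit 76) (nat_lit 5365453913) (nat_lit 0) (nat_lit 3411684732) (nat_lit 1900) (nat_lit 10990093349) (nat_lit 434) (nat_lit 5) (nat_lit 433) (nat_lit 5) (nat_lit 458) (nat_lit 5) (nat_lit 471) (nat_lit 447) (nat_lit 222)) (XT.nd (nat_lit 78) (nat_lit 1444) (nat_lit 0) (XT.lf (nat_lit 0) (nat_lit 10531291277) (nat_lit 1824) (nat_lit 4079581643) (nat_lit 76) (nat_lit 5367181782) (nat_lit 434) (nat_lit 5) (nat_lit 458) (nat_lit 5) (nat_lit 435) (nat_lit 5) (nat_lit 472) (nat_lit 447) (nat_lit 221)) (XT.lf (nat_lit 0) (nat_lit 6507782927) (nat_lit 1444) (nat_lit 5872927656) (nat_lit 1520) (nat_lit 7811180582) (nat_lit 415) (nat_lit 5) (nat_lit 434) (nat_lit 5) (nat_lit 435) (nat_lit 5) (nat_lit 473) (nat_lit 447) (nat_lit 220)))) (XT.nd (nat_lit 78) (nat_lit 912) (nat_lit 0) (XT.lf (nat_lit 0) (nat_lit 14309818067) (nat_lit 1520) (nat_lit 3071282605) (nat_lit 76) (nat_lit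 3028050642) (nat_lit 415) (nat_lit 5) (nat_lit 435) (nat_lit 5) (nat_lit 416) (nat_lit 5) (nat_lit 474) (nat_lit 447) (nat_lit 219)) (XT.nd (nat_lit 78) (nat_lit 0) (nat_lit 0) (XT.lf (nat_lit 0) (nat_lit 7813357192) (nat_lit 912) (nat_lit 8549269748) (nat_lit 988) (nat_lit 4266428275) (nat_lit 403) (nat_lit 5) (nat_lit 415) (nat_lit 5) (nat_lit 416) (nat_lit 5) (nat_lit 475) (nat_lit 447) (nat_lit 218)) (XT.lf (nat_lit 0) (nat_lit 18475781262) (nat_lit 988) (nat_lit 1902829619) (nat_lit 76) (nat_lit 474361443) (nat_lit 403) (nat_lit 5) (nat_lit 416) (nat_lit 5) (nat_lit 404) (nat_lit 5) (nat_lit 476) (nat_lit 447) (nat_lit 217))))) (XT.nd (nat_lit 234) (nat_lit 1672) (nat_lit 0) (XT.nd (nat_lit 78) (nat_lit 988) (nat_lit 0) (XT.lf (nat_lit 0) (nat_lit 9289503602) (nat_lit 912) (nat_lit 11454274839) (nat_lit 988) (nat_lit 335338638) (nat_lit 391) (nat_lit 5) (nat_lit 403) (nat_lit 5) (nat_lit 404) (nat_lit 5) (nat_lit 477)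 (nat_lit 447) (nat_lit 216)) (XT.nd (nat_lit 78) (nat_lit 912) (nat_lit 0) (XT.lf (nat_lit 0) (nat_lit 1732966214) (nat_lit 988) (nat_lit 593522328) (nat_lit 76) (nat_lit 18982899507) (nat_lit 390) (nat_lit 5) (nat_lit 403) (nat_lit 5) (nat_lit 391) (nat_lit 5) (nat_lit 478) (nat_lit 447) (nat_lit 215)) (XT.lf (nat_lit 0) (nat_lit 3950932538) (nat_lit 988) (nat_lit 10624608627) (nat_lit 76) (nat_lit 6966424077) (nat_lit 378) (nat_lit 5) (nat_lit 391) (nat_lit 5) (nat_lit 379) (nat_lit 5) (nat_lit 479) (nat_lit 447) (nat_lit 214)))) (XT.nd (nat_lit 78) (nat_lit 836) (nat_lit 0) (XT.lf (nat_lit 0) (nat_lit 879463894) (nat_lit 836) (nat_lit 5354743278) (nat_lit 912) (nat_lit 15544568657) (nat_lit 367) (nat_lit 5) (nat_lit 378) (nat_lit 5) (nat_lit 379) (nat_lit 5) (nat_lit 480) (nat_lit 447) (nat_lit 213)) (XT.nd (nat_lit 78) (nat_lit 836) (nat_lit 0) (XT.lf (nat_lit 0) (nat_lit 8657093810) (nat_lit 912) (nat_lit 9292108596) (nat_lit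 76) (nat_lit 4069242104) (nat_lit 367) (nat_lit 5) (nat_lit 379) (nat_lit 5) (nat_lit 368) (nat_lit 5) (nat_lit 481) (nat_lit 447) (nat_lit 212)) (XT.lf (nat_lit 0) (nat_lit 2541105330) (nat_lit 836) (nat_lit 8635253355) (nat_lit 912) (nat_lit 11085590268) (nat_lit 356) (nat_lit 5) (nat_lit 367) (nat_lit 5) (nat_lit 368) (nat_lit 5) (nat_lit 482) (nat_lit 447) (nat_lit 211)))))) (XT.nd (nat_lit 468) (nat_lit 2204) (nat_lit 0) (XT.nd (nat_lit 234) (nat_lit 1596) (nat_lit 0) (XT.nd (nat_lit 78) (nat_lit 760) (nat_lit 0) (XT.lf (nat_lit 0) (nat_lit 13810406336) (nat_lit 912) (nat_lit 7782217762) (nat_lit 76) (nat_lit 916412219) (nat_lit 356) (nat_lit 5) (nat_lit 368) (nat_lit 5) (nat_lit 357) (nat_lit 5) (nat_lit 483) (nat_lit 447) (nat_lit 210)) (XT.nd (nat_lit 78) (nat_lit 0) (nat_lit 0) (XT.lf (nat_lit 0) (nat_lit 4391616869) (nat_lit 760) (nat_lit 12187310235) (nat_lit 836) (nat_lit 6180503247) (nat_lit 346) (nat_lit 5) (nat_lit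 356) (nat_lit 5) (nat_lit 357) (nat_lit 5) (nat_lit 484) (nat_lit 447) (nat_lit 209)) (XT.lf (nat_lit 0) (nat_lit 16910470862) (nat_lit 760) (nat_lit 2540712974) (nat_lit 836) (nat_lit 3562681871) (nat_lit 346) (nat_lit 5) (nat_lit 356) (nat_lit 5) (nat_lit 357) (nat_lit 5) (nat_lit 485) (nat_lit 447) (nat_lit 208)))) (XT.nd (nat_lit 78) (nat_lit 836) (nat_lit 0) (XT.lf (nat_lit 0) (nat_lit 6439431977) (nat_lit 760) (nat_lit 16026869373) (nat_lit 836) (nat_lit 805380843) (nat_lit 336) (nat_lit 5) (nat_lit 346) (nat_lit 5) (nat_lit 347) (nat_lit 5) (nat_lit 486) (nat_lit 447) (nat_lit 207)) (XT.nd (nat_lit 78) (nat_lit 760) (nat_lit 0) (XT.lf (nat_lit 0) (nat_lit 2035038416) (nat_lit 836) (nat_lit 4252086208) (nat_lit 76) (nat_lit 17246184564) (nat_lit 335) (nat_lit 5) (nat_lit 346) (nat_lit 5) (nat_lit 336) (nat_lit 5) (nat_lit 487) (nat_lit 447) (nat_lit 206)) (XT.lf (nat_lit 0) (nat_lit 4998280289) (nat_lit 836) (nat_lit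 15138745902) (nat_lit 76) (nat_lit 3661500789) (nat_lit 325) (nat_lit 5) (nat_lit 336) (nat_lit 5) (nat_lit 326) (nat_lit 5) (nat_lit 488) (nat_lit 447) (nat_lit 205))))) (XT.nd (nat_lit 234) (nat_lit 760) (nat_lit 0) (XT.nd (nat_lit 78) (nat_lit 1444) (nat_lit 0) (XT.lf (nat_lit 0) (nat_lit 8087506759) (nat_lit 836) (nat_lit 2226719082) (nat_lit 76) (nat_lit 13753489573) (nat_lit 325) (nat_lit 5) (nat_lit 336) (nat_lit 5) (nat_lit 326) (nat_lit 5) (nat_lit 489) (nat_lit 447) (nat_lit 204)) (XT.nd (nat_lit 78) (nat_lit 684) (nat_lit 0) (XT.lf (nat_lit 0) (nat_lit 11085069248) (nat_lit 760) (nat_lit 221851966) (nat_lit 836) (nat_lit 13033999001) (nat_lit 315) (nat_lit 5) (nat_lit 325) (nat_lit 5) (nat_lit 326) (nat_lit 5) (nat_lit 490) (nat_lit 447) (nat_lit 203)) (XT.lf (nat_lit 0) (nat_lit 4646952) (nat_lit 684) (nat_lit 14663019951) (nat_lit 760) (nat_lit 9950384004) (nat_lit 306) (nat_lit 5) (nat_lit 315) (nat_lit 5) (nat_lit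 316) (nat_lit 5) (nat_lit 491) (nat_lit 447) (nat_lit 202)))) (XT.nd (nat_lit 78) (nat_lit 760) (nat_lit 0) (XT.lf (nat_lit 0) (nat_lit 13704672951) (nat_lit 684) (nat_lit 4477886632) (nat_lit 760) (nat_lit 6716426630) (nat_lit 306) (nat_lit 5) (nat_lit 315) (nat_lit 5) (nat_lit 316) (nat_lit 5) (nat_lit 492) (nat_lit 447) (nat_lit 201)) (XT.nd (nat_lit 78) (nat_lit 76) (nat_lit 0) (XT.lf (nat_lit 0) (nat_lit 2483482798) (nat_lit 684) (nat_lit 19335354049) (nat_lit 760) (nat_lit 3365682271) (nat_lit 297) (nat_lit 5) (nat_lit 306) (nat_lit 5) (nat_lit 307) (nat_lit 5) (nat_lit 493) (nat_lit 447) (nat_lit 200)) (XT.lf (nat_lit 0) (nat_lit 153269639) (nat_lit 760) (nat_lit 8922064369) (nat_lit 76) (nat_lit 16398385004) (nat_lit 296) (nat_lit 5) (nat_lit 306) (nat_lit 5) (nat_lit 297) (nat_lit 5) (nat_lit 494) (nat_lit 447) (nat_lit 199))))))))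
noncomputable def xc228 : XT := (XT.nd (nat_lit 56394) (nat_lit 0) (nat_lit 12236) (XT.nd (nat_lit 858) (nat_lit 1216) (nat_lit 0) (XT.nd (nat_lit 390) (nat_lit 1900) (nat_lit 0) (XT.nd (nat_lit 156) (nat_lit 1292) (nat_lit 0) (XT.nd (nat_lit 78) (nat_lit 0) (nat_lit 0) (XT.lf (nat_lit 0) (nat_lit 3737232040) (nat_lit 760) (nat_lit 20602798506) (nat_lit 76) (nat_lit 1427434047) (nat_lit 287) (nat_lit 5) (nat_lit 297) (nat_lit 5) (nat_lit 288) (nat_lit 5) (nat_lit 495) (nat_lit 447) (nat_lit 198)) (XT.lf (nat_lit 0) (nat_lit 7509951101) (nat_lit 760) (nat_lit 6476165612) (nat_lit 76) (nat_lit 12078627406) (nat_lit 287) (nat_lit 5) (nat_lit 297) (nat_lit 5) (nat_lit 288) (nat_lit 5) (nat_lit 496) (nat_lit 447) (nat_lit 197))) (XT.nd (nat_lit 78) (nat_lit 608) (nat_lit 0) (XT.lf (nat_lit 0) (nat_lit 8034598682) (nat_lit 684) (nat_lit 3372463976) (nat_lit 760) (nat_lit 14959928385) (nat_lit 278) (nat_lit 5) (nat_lit 287) (nat_lit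 5) (nat_lit 288) (nat_lit 5) (nat_lit 497) (nat_lit 447) (nat_lit 196)) (XT.nd (nat_lit 78) (nat_lit 608) (nat_lit 0) (XT.lf (nat_lit 0) (nat_lit 15471062997) (nat_lit 760) (nat_lit 3803542268) (nat_lit 76) (nat_lit 7398899267) (nat_lit 278) (nat_lit 5) (nat_lit 288) (nat_lit 5) (nat_lit 279) (nat_lit 5) (nat_lit 498) (nat_lit 447) (nat_lit 195)) (XT.lf (nat_lit 0) (nat_lit 11135861908) (nat_lit 608) (nat_lit 8571987082) (nat_lit 684) (nat_lit 7276469734) (nat_lit 270) (nat_lit 5) (nat_lit 278) (nat_lit 5) (nat_lit 279) (nat_lit 5) (nat_lit 499) (nat_lit 447) (nat_lit 194))))) (XT.nd (nat_lit 234) (nat_lit 608) (nat_lit 0) (XT.nd (nat_lit 78) (nat_lit 1292) (nat_lit 0) (XT.lf (nat_lit 0) (nat_lit 24067190034) (nat_lit 684) (nat_lit 894390138) (nat_lit 76) (nat_lit 2339013181) (nat_lit 270) (nat_lit 5) (nat_lit 279) (nat_lit 5) (nat_lit 271) (nat_lit 5) (nat_lit 500) (nat_lit 447) (nat_lit 193)) (XT.nd (nat_lit 78) (nat_lit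 608) (nat_lit 0) (XT.lf (nat_lit 0) (nat_lit 1027623167) (nat_lit 684) (nat_lit 13138689532) (nat_lit 76) (nat_lit 13453790090) (nat_lit 261) (nat_lit 5) (nat_lit 270) (nat_lit 5) (nat_lit 262) (nat_lit 5) (nat_lit 501) (nat_lit 447) (nat_lit 192)) (XT.lf (nat_lit 0) (nat_lit 2235121340) (nat_lit 608) (nat_lit 3113026818) (nat_lit 684) (nat_lit 22597075840) (nat_lit 253) (nat_lit 5) (nat_lit 261) (nat_lit 5) (nat_lit 262) (nat_lit 5) (nat_lit 502) (nat_lit 447) (nat_lit 191)))) (XT.nd (nat_lit 78) (nat_lit 608) (nat_lit 0) (XT.lf (nat_lit 0) (nat_lit 9893833811) (nat_lit 684) (nat_lit 10237894985) (nat_lit 76) (nat_lit 8142344328) (nat_lit 253) (nat_lit 5) (nat_lit 262) (nat_lit 5) (nat_lit 254) (nat_lit 5) (nat_lit 503) (nat_lit 447) (nat_lit 190)) (XT.nd (nat_lit 78) (nat_lit 0) (nat_lit 0) (XT.lf (nat_lit 0) (nat_lit 5592820137) (nat_lit 608) (nat_lit 8991610050) (nat_lit 684) (nat_lit 14023989591) (nat_lit 245) (nat_lit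 5) (nat_lit 253) (nat_lit 5) (nat_lit 254) (nat_lit 5) (nat_lit 504) (nat_lit 447) (nat_lit 189)) (XT.lf (nat_lit 0) (nat_lit 19450488829) (nat_lit 684) (nat_lit 7088704392) (nat_lit 76) (nat_lit 2408627615) (nat_lit 245) (nat_lit 5) (nat_lit 254) (nat_lit 5) (nat_lit 246) (nat_lit 5) (nat_lit 505) (nat_lit 447) (nat_lit 188)))))) (XT.nd (nat_lit 55068) (nat_lit 0) (nat_lit 16644) (XT.nd (nat_lit 54834) (nat_lit 0) (nat_lit 16568) (XT.nd (nat_lit 78) (nat_lit 684) (nat_lit 0) (XT.lf (nat_lit 0) (nat_lit 9214401901) (nat_lit 532) (nat_lit 15315994317) (nat_lit 608) (nat_lit 4761283613) (nat_lit 238) (nat_lit 5) (nat_lit 245) (nat_lit 5) (nat_lit 246) (nat_lit 5) (nat_lit 506) (nat_lit 447) (nat_lit 187)) (XT.nd (nat_lit 78) (nat_lit 608) (nat_lit 0) (XT.lf (nat_lit 0) (nat_lit 113626186) (nat_lit 608) (nat_lit 3706213757) (nat_lit 76) (nat_lit 25821666453) (nat_lit 237) (nat_lit 5) (nat_lit 245) (nat_lit 5) (nat_lit 238) (nat_lit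 5) (nat_lit 507) (nat_lit 447) (nat_lit 186)) (XT.lf (nat_lit 0) (nat_lit 5156908777) (nat_lit 684) (nat_lit 16918787809) (nat_lit 76) (nat_lit 7919311341) (nat_lit 229) (nat_lit 5) (nat_lit 238) (nat_lit 5) (nat_lit 230) (nat_lit 5) (nat_lit 508) (nat_lit 447) (nat_lit 185)))) (XT.nd (nat_lit 78) (nat_lit 0) (nat_lit 0) (XT.lf (nat_lit 0) (nat_lit 1139579662) (nat_lit 0) (nat_lit 1139579662) (nat_lit 1748) (nat_lit 5630110505) (nat_lit 447) (nat_lit 5) (nat_lit 447) (nat_lit 3) (nat_lit 470) (nat_lit 3) (nat_lit 448) (nat_lit 448) (nat_lit 244)) (XT.nd (nat_lit 78) (nat_lit 0) (nat_lit 0) (XT.lf (nat_lit 0) (nat_lit 4903397506) (nat_lit 1748) (nat_lit 5883274927) (nat_lit 1824) (nat_lit 5184004270) (nat_lit 447) (nat_lit 5) (nat_lit 470) (nat_lit 3) (nat_lit 471) (nat_lit 5) (nat_lit 449) (nat_lit 448) (nat_lit 243)) (XT.lf (nat_lit 76) (nat_lit 1932560701) (nat_lit 0) (nat_lit 3343519785) (nat_lit 1824) (nat_lit 10849363479)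 (nat_lit 448) (nat_lit 5) (nat_lit 447) (nat_lit 5) (nat_lit 471) (nat_lit 5) (nat_lit 450) (nat_lit 448) (nat_lit 242))))) (XT.nd (nat_lit 234) (nat_lit 0) (nat_lit 76) (XT.nd (nat_lit 78) (nat_lit 0) (nat_lit 0) (XT.lf (nat_lit 0) (nat_lit 5716737188) (nat_lit 1748) (nat_lit 6329678972) (nat_lit 1824) (nat_lit 4235681516) (nat_lit 448) (nat_lit 5) (nat_lit 471) (nat_lit 5) (nat_lit 472) (nat_lit 5) (nat_lit 451) (nat_lit 448) (nat_lit 241)) (XT.nd (nat_lit 78) (nat_lit 0) (nat_lit 76) (XT.lf (nat_lit 76) (nat_lit 1687068322) (nat_lit 0) (nat_lit 4505562899) (nat_lit 1824) (nat_lit 10248726229) (nat_lit 449) (nat_lit 5) (nat_lit 448) (nat_lit 5) (nat_lit 472) (nat_lit 5) (nat_lit 452) (nat_lit 448) (nat_lit 240)) (XT.lf (nat_lit 0) (nat_lit 6734940001) (nat_lit 1748) (nat_lit 6677801372) (nat_lit 1824) (nat_lit 3189924554) (nat_lit 449) (nat_lit 5) (nat_lit 472) (nat_lit 5) (nat_lit 473) (nat_lit 5) (nat_lit 453) (nat_lit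 448) (nat_lit 239)))) (XT.nd (nat_lit 78) (nat_lit 0) (nat_lit 76) (XT.lf (nat_lit 76) (nat_lit 1546909230) (nat_lit 0) (nat_lit 5774649579) (nat_lit 1824) (nat_lit 9444973904) (nat_lit 450) (nat_lit 5) (nat_lit 449) (nat_lit 5) (nat_lit 473) (nat_lit 5) (nat_lit 454) (nat_lit 448) (nat_lit 238)) (XT.nd (nat_lit 78) (nat_lit 0) (nat_lit 0) (XT.lf (nat_lit 0) (nat_lit 7971809372) (nat_lit 1748) (nat_lit 6923411016) (nat_lit 1824) (nat_lit 2037419847) (nat_lit 450) (nat_lit 5) (nat_lit 473) (nat_lit 5) (nat_lit 474) (nat_lit 5) (nat_lit 455) (nat_lit 448) (nat_lit 237)) (XT.lf (nat_lit 76) (nat_lit 1516572606) (nat_lit 0) (nat_lit 7160405682) (nat_lit 1824) (nat_lit 8424254714) (nat_lit 451) (nat_lit 5) (nat_lit 450) (nat_lit 5) (nat_lit 474) (nat_lit 5) (nat_lit 456) (nat_lit 448) (nat_lit 236))))))) (XT.nd (nat_lit 858) (nat_lit 3116) (nat_lit 0) (XT.nd (nat_lit 390) (nat_lit 1520) (nat_lit 0) (XT.nd (nat_lit 156) (nat_lit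 0) (nat_lit 0) (XT.nd (nat_lit 78) (nat_lit 0) (nat_lit 0) (XT.lf (nat_lit 0) (nat_lit 9441687410) (nat_lit 1748) (nat_lit 7062018767) (nat_lit 1824) (nat_lit 768584045) (nat_lit 451) (nat_lit 5) (nat_lit 474) (nat_lit 5) (nat_lit 475) (nat_lit 5) (nat_lit 457) (nat_lit 448) (nat_lit 235)) (XT.lf (nat_lit 76) (nat_lit 1600814107) (nat_lit 0) (nat_lit 8672744548) (nat_lit 1824) (nat_lit 7172173882) (nat_lit 452) (nat_lit 5) (nat_lit 451) (nat_lit 5) (nat_lit 475) (nat_lit 5) (nat_lit 458) (nat_lit 448) (nat_lit 234))) (XT.nd (nat_lit 78) (nat_lit 0) (nat_lit 76) (XT.lf (nat_lit 76) (nat_lit 10528819755) (nat_lit 0) (nat_lit 634783753) (nat_lit 1824) (nat_lit 6458210749) (nat_lit 452) (nat_lit 5) (nat_lit 451) (nat_lit 5) (nat_lit 475) (nat_lit 5) (nat_lit 459) (nat_lit 448) (nat_lit 233)) (XT.nd (nat_lit 78) (nat_lit 0) (nat_lit 0) (XT.lf (nat_lit 76) (nat_lit 1804660553) (nat_lit 0) (nat_lit 10321889949) (nat_lit 1824) (nat_lit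 5673766341) (nat_lit 453) (nat_lit 5) (nat_lit 452) (nat_lit 5) (nat_lit 476) (nat_lit 5) (nat_lit 460) (nat_lit 448) (nat_lit 232)) (XT.lf (nat_lit 76) (nat_lit 10968316107) (nat_lit 0) (nat_lit 2186575702) (nat_lit 1824) (nat_lit 4826576198) (nat_lit 453) (nat_lit 5) (nat_lit 452) (nat_lit 5) (nat_lit 476) (nat_lit 5) (nat_lit 461) (nat_lit 448) (nat_lit 231))))) (XT.nd (nat_lit 234) (nat_lit 1672) (nat_lit 0) (XT.nd (nat_lit 78) (nat_lit 0) (nat_lit 0) (XT.lf (nat_lit 76) (nat_lit 2133414952) (nat_lit 0) (nat_lit 12118399534) (nat_lit 1824) (nat_lit 3913468627) (nat_lit 454) (nat_lit 5) (nat_lit 453) (nat_lit 5) (nat_lit 477) (nat_lit 5) (nat_lit 462) (nat_lit 448) (nat_lit 230)) (XT.nd (nat_lit 78) (nat_lit 0) (nat_lit 76) (XT.lf (nat_lit 76) (nat_lit 11539442577) (nat_lit 0) (nat_lit 3887246880) (nat_lit 1824) (nat_lit 2924965972) (nat_lit 454) (nat_lit 5) (nat_lit 453) (nat_lit 5) (nat_lit 477) (nat_lit 5) (nat_lit 463)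 (nat_lit 448) (nat_lit 229)) (XT.lf (nat_lit 76) (nat_lit 2592661856) (nat_lit 0) (nat_lit 14073188782) (nat_lit 1824) (nat_lit 1875089939) (nat_lit 455) (nat_lit 5) (nat_lit 454) (nat_lit 5) (nat_lit 478) (nat_lit 5) (nat_lit 464) (nat_lit 448) (nat_lit 228)))) (XT.nd (nat_lit 78) (nat_lit 1748) (nat_lit 0) (XT.lf (nat_lit 76) (nat_lit 12248011038) (nat_lit 0) (nat_lit 5747833672) (nat_lit 1824) (nat_lit 736846865) (nat_lit 455) (nat_lit 5) (nat_lit 454) (nat_lit 5) (nat_lit 478) (nat_lit 5) (nat_lit 465) (nat_lit 448) (nat_lit 227)) (XT.nd (nat_lit 78) (nat_lit 0) (nat_lit 0) (XT.lf (nat_lit 0) (nat_lit 452208074) (nat_lit 1824) (nat_lit 15742312935) (nat_lit 1900) (nat_lit 2733030402) (nat_lit 431) (nat_lit 5) (nat_lit 455) (nat_lit 5) (nat_lit 456) (nat_lit 5) (nat_lit 466) (nat_lit 448) (nat_lit 226)) (XT.lf (nat_lit 0) (nat_lit 1731970111) (nat_lit 1824) (nat_lit 6036171996) (nat_lit 1900) (nat_lit 11356534150) (nat_lit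 431) (nat_lit 5) (nat_lit 455) (nat_lit 5) (nat_lit 456) (nat_lit 5) (nat_lit 467) (nat_lit 448) (nat_lit 225)))))) (XT.nd (nat_lit 468) (nat_lit 3192) (nat_lit 0) (XT.nd (nat_lit 234) (nat_lit 0) (nat_lit 76) (XT.nd (nat_lit 78) (nat_lit 0) (nat_lit 0) (XT.lf (nat_lit 0) (nat_lit 3063280730) (nat_lit 1824) (nat_lit 15419368371) (nat_lit 1900) (nat_lit 842576484) (nat_lit 432) (nat_lit 5) (nat_lit 456) (nat_lit 5) (nat_lit 457) (nat_lit 5) (nat_lit 468) (nat_lit 448) (nat_lit 224)) (XT.nd (nat_lit 78) (nat_lit 0) (nat_lit 0) (XT.lf (nat_lit 0) (nat_lit 4508529909) (nat_lit 1824) (nat_lit 5456101002) (nat_lit 1900) (nat_lit 9563409774) (nat_lit 432) (nat_lit 5) (nat_lit 456) (nat_lit 5) (nat_lit 457) (nat_lit 5) (nat_lit 469) (nat_lit 448) (nat_lit 223)) (XT.lf (nat_lit 76) (nat_lit 4765042547) (nat_lit 0) (nat_lit 1243769102) (nat_lit 1900) (nat_lit 13725578898) (nat_lit 433) (nat_lit 5) (nat_lit 432) (nat_lit 5) (nat_lit 457)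 (nat_lit 5) (nat_lit 470) (nat_lit 448) (nat_lit 222)))) (XT.nd (nat_lit 78) (nat_lit 0) (nat_lit 0) (XT.lf (nat_lit 0) (nat_lit 7620898247) (nat_lit 1824) (nat_lit 4733447990) (nat_lit 1900) (nat_lit 7588886177) (nat_lit 433) (nat_lit 5) (nat_lit 457) (nat_lit 5) (nat_lit 458) (nat_lit 5) (nat_lit 471) (nat_lit 448) (nat_lit 221)) (XT.nd (nat_lit 78) (nat_lit 0) (nat_lit 76) (XT.lf (nat_lit 76) (nat_lit 5770735460) (nat_lit 0) (nat_lit 3535553050) (nat_lit 1900) (nat_lit 10849142340) (nat_lit 434) (nat_lit 5) (nat_lit 433) (nat_lit 5) (nat_lit 458) (nat_lit 5) (nat_lit 472) (nat_lit 448) (nat_lit 220)) (XT.lf (nat_lit 0) (nat_lit 11088236588) (nat_lit 1824) (nat_lit 3861683600) (nat_lit 76) (nat_lit 5420697020) (nat_lit 434) (nat_lit 5) (nat_lit 458) (nat_lit 5) (nat_lit 435) (nat_lit 5) (nat_lit 473) (nat_lit 448) (nat_lit 219))))) (XT.nd (nat_lit 234) (nat_lit 988) (nat_lit 0) (XT.nd (nat_lit 78) (nat_lit 912) (nat_lit 0)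 (XT.lf (nat_lit 0) (nat_lit 6935457935) (nat_lit 1444) (nat_lit 6034327460) (nat_lit 1520) (nat_lit 7619043598) (nat_lit 415) (nat_lit 5) (nat_lit 434) (nat_lit 5) (nat_lit 435) (nat_lit 5) (nat_lit 474) (nat_lit 448) (nat_lit 218)) (XT.nd (nat_lit 78) (nat_lit 912) (nat_lit 0) (XT.lf (nat_lit 0) (nat_lit 14930500021) (nat_lit 1520) (nat_lit 2833978218) (nat_lit 76) (nat_lit 3046096994) (nat_lit 415) (nat_lit 5) (nat_lit 435) (nat_lit 5) (nat_lit 416) (nat_lit 5) (nat_lit 475) (nat_lit 448) (nat_lit 217)) (XT.lf (nat_lit 0) (nat_lit 8266389045) (nat_lit 912) (nat_lit 8753344279) (nat_lit 988) (nat_lit 4015237884) (nat_lit 403) (nat_lit 5) (nat_lit 415) (nat_lit 5) (nat_lit 416) (nat_lit 5) (nat_lit 476) (nat_lit 448) (nat_lit 216)))) (XT.nd (nat_lit 78) (nat_lit 988) (nat_lit 0) (XT.lf (nat_lit 0) (nat_lit 19168472386) (nat_lit 988) (nat_lit 1643195372) (nat_lit 76) (nat_lit 451833804) (nat_lit 403) (nat_lit 5) (nat_lit 416)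 (nat_lit 5) (nat_lit 404) (nat_lit 5) (nat_lit 477) (nat_lit 448) (nat_lit 215)) (XT.nd (nat_lit 78) (nat_lit 76) (nat_lit 0) (XT.lf (nat_lit 0) (nat_lit 9771026022) (nat_lit 912) (nat_lit 11706386803) (nat_lit 988) (nat_lit 16846028) (nat_lit 391) (nat_lit 5) (nat_lit 403) (nat_lit 5) (nat_lit 404) (nat_lit 5) (nat_lit 478) (nat_lit 448) (nat_lit 214)) (XT.lf (nat_lit 0) (nat_lit 2082267043) (nat_lit 988) (nat_lit 311214828) (nat_lit 76) (nat_lit 19335738257) (nat_lit 390) (nat_lit 5) (nat_lit 403) (nat_lit 5) (nat_lit 391) (nat_lit 5) (nat_lit 479) (nat_lit 448) (nat_lit 213))))))))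
noncomputable def xc229 : XT := (XT.nd (nat_lit 1794) (nat_lit 1748) (nat_lit 0) (XT.nd (nat_lit 858) (nat_lit 4864) (nat_lit 0) (XT.nd (nat_lit 390) (nat_lit 2356) (nat_lit 0) (XT.nd (nat_lit 156) (nat_lit 836) (nat_lit 0) (XT.nd (nat_lit 78) (nat_lit 836) (nat_lit 0) (XT.lf (nat_lit 0) (nat_lit 4340202992) (nat_lit 988) (nat_lit 10538471532) (nat_lit 76) (nat_lit 7087863366) (nat_lit 378) (nat_lit 5) (nat_lit 391) (nat_lit 5) (nat_lit 379) (nat_lit 5) (nat_lit 480) (nat_lit 448) (nat_lit 212)) (XT.lf (nat_lit 0) (nat_lit 1193717773) (nat_lit 836) (nat_lit 5471268120) (nat_lit 912) (nat_lit 15543183148) (nat_lit 367) (nat_lit 5) (nat_lit 378) (nat_lit 5) (nat_lit 379) (nat_lit 5) (nat_lit 481) (nat_lit 448) (nat_lit 211))) (XT.nd (nat_lit 78) (nat_lit 836) (nat_lit 0) (XT.lf (nat_lit 0) (nat_lit 9130268385) (nat_lit 912) (nat_lit 9180982012) (nat_lit 76) (nat_lit 4141503122) (nat_lit 367) (nat_lit 5) (nat_lit 379) (nat_lit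 5) (nat_lit 368) (nat_lit 5) (nat_lit 482) (nat_lit 448) (nat_lit 210)) (XT.nd (nat_lit 78) (nat_lit 0) (nat_lit 0) (XT.lf (nat_lit 0) (nat_lit 2886942451) (nat_lit 836) (nat_lit 8809008546) (nat_lit 912) (nat_lit 11005257566) (nat_lit 356) (nat_lit 5) (nat_lit 367) (nat_lit 5) (nat_lit 368) (nat_lit 5) (nat_lit 483) (nat_lit 448) (nat_lit 209)) (XT.lf (nat_lit 0) (nat_lit 14376867718) (nat_lit 912) (nat_lit 7642762900) (nat_lit 76) (nat_lit 933724433) (nat_lit 356) (nat_lit 5) (nat_lit 368) (nat_lit 5) (nat_lit 357) (nat_lit 5) (nat_lit 484) (nat_lit 448) (nat_lit 208))))) (XT.nd (nat_lit 234) (nat_lit 836) (nat_lit 0) (XT.nd (nat_lit 78) (nat_lit 760) (nat_lit 0) (XT.lf (nat_lit 0) (nat_lit 4772606981) (nat_lit 760) (nat_lit 12424364054) (nat_lit 836) (nat_lit 6011862803) (nat_lit 346) (nat_lit 5) (nat_lit 356) (nat_lit 5) (nat_lit 357) (nat_lit 5) (nat_lit 485) (nat_lit 448) (nat_lit 207)) (XT.nd (nat_lit 78) (nat_lit 760)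 (nat_lit 0) (XT.lf (nat_lit 0) (nat_lit 17536089862) (nat_lit 760) (nat_lit 2584966071) (nat_lit 836) (nat_lit 3347415402) (nat_lit 346) (nat_lit 5) (nat_lit 356) (nat_lit 5) (nat_lit 357) (nat_lit 5) (nat_lit 486) (nat_lit 448) (nat_lit 206)) (XT.lf (nat_lit 0) (nat_lit 6859331400) (nat_lit 760) (nat_lit 16333569415) (nat_lit 836) (nat_lit 538615909) (nat_lit 336) (nat_lit 5) (nat_lit 346) (nat_lit 5) (nat_lit 347) (nat_lit 5) (nat_lit 487) (nat_lit 448) (nat_lit 205)))) (XT.nd (nat_lit 78) (nat_lit 760) (nat_lit 0) (XT.lf (nat_lit 0) (nat_lit 2349428033) (nat_lit 836) (nat_lit 4048036461) (nat_lit 76) (nat_lit 17600985539) (nat_lit 335) (nat_lit 5) (nat_lit 346) (nat_lit 5) (nat_lit 336) (nat_lit 5) (nat_lit 488) (nat_lit 448) (nat_lit 204)) (XT.nd (nat_lit 78) (nat_lit 0) (nat_lit 0) (XT.lf (nat_lit 0) (nat_lit 5368543313) (nat_lit 836) (nat_lit 15148987368) (nat_lit 76) (nat_lit 3751510341) (nat_lit 325) (nat_lit 5) (nat_lit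 336) (nat_lit 5) (nat_lit 326) (nat_lit 5) (nat_lit 489) (nat_lit 448) (nat_lit 203)) (XT.lf (nat_lit 0) (nat_lit 8514254363) (nat_lit 836) (nat_lit 1984455962) (nat_lit 76) (nat_lit 14045009889) (nat_lit 325) (nat_lit 5) (nat_lit 336) (nat_lit 5) (nat_lit 326) (nat_lit 5) (nat_lit 490) (nat_lit 448) (nat_lit 202)))))) (XT.nd (nat_lit 468) (nat_lit 1976) (nat_lit 0) (XT.nd (nat_lit 234) (nat_lit 1444) (nat_lit 0) (XT.nd (nat_lit 78) (nat_lit 684) (nat_lit 0) (XT.lf (nat_lit 0) (nat_lit 11591681309) (nat_lit 760) (nat_lit 203029598) (nat_lit 836) (nat_lit 13027746100) (nat_lit 315) (nat_lit 5) (nat_lit 325) (nat_lit 5) (nat_lit 326) (nat_lit 5) (nat_lit 491) (nat_lit 448) (nat_lit 201)) (XT.nd (nat_lit 78) (nat_lit 0) (nat_lit 0) (XT.lf (nat_lit 0) (nat_lit 292872998) (nat_lit 684) (nat_lit 14926686900) (nat_lit 760) (nat_lit 9885633599) (nat_lit 306) (nat_lit 5) (nat_lit 315) (nat_lit 5) (nat_lit 316) (nat_lit 5) (nat_lit 492)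 (nat_lit 448) (nat_lit 200)) (XT.lf (nat_lit 0) (nat_lit 14261249848) (nat_lit 684) (nat_lit 4538431178) (nat_lit 760) (nat_lit 6592168805) (nat_lit 306) (nat_lit 5) (nat_lit 315) (nat_lit 5) (nat_lit 316) (nat_lit 5) (nat_lit 493) (nat_lit 448) (nat_lit 199)))) (XT.nd (nat_lit 78) (nat_lit 760) (nat_lit 0) (XT.lf (nat_lit 0) (nat_lit 2818672763) (nat_lit 684) (nat_lit 19687079536) (nat_lit 760) (nat_lit 3177400644) (nat_lit 297) (nat_lit 5) (nat_lit 306) (nat_lit 5) (nat_lit 307) (nat_lit 5) (nat_lit 494) (nat_lit 448) (nat_lit 198)) (XT.nd (nat_lit 78) (nat_lit 684) (nat_lit 0) (XT.lf (nat_lit 0) (nat_lit 403632183) (nat_lit 760) (nat_lit 8817253330) (nat_lit 76) (nat_lit 16757317929) (nat_lit 296) (nat_lit 5) (nat_lit 306) (nat_lit 5) (nat_lit 297) (nat_lit 5) (nat_lit 495) (nat_lit 448) (nat_lit 197)) (XT.lf (nat_lit 0) (nat_lit 4056492798) (nat_lit 760) (nat_lit 20728777971) (nat_lit 76) (nat_lit 1492609649) (nat_lit 287)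 (nat_lit 5) (nat_lit 297) (nat_lit 5) (nat_lit 288) (nat_lit 5) (nat_lit 496) (nat_lit 448) (nat_lit 196))))) (XT.nd (nat_lit 234) (nat_lit 1292) (nat_lit 0) (XT.nd (nat_lit 78) (nat_lit 684) (nat_lit 0) (XT.lf (nat_lit 0) (nat_lit 7899871807) (nat_lit 760) (nat_lit 6325221762) (nat_lit 76) (nat_lit 12356108700) (nat_lit 287) (nat_lit 5) (nat_lit 297) (nat_lit 5) (nat_lit 288) (nat_lit 5) (nat_lit 497) (nat_lit 448) (nat_lit 195)) (XT.nd (nat_lit 78) (nat_lit 0) (nat_lit 0) (XT.lf (nat_lit 0) (nat_lit 8473912638) (nat_lit 684) (nat_lit 3398121530) (nat_lit 760) (nat_lit 15017518621) (nat_lit 278) (nat_lit 5) (nat_lit 287) (nat_lit 5) (nat_lit 288) (nat_lit 5) (nat_lit 498) (nat_lit 448) (nat_lit 194)) (XT.lf (nat_lit 0) (nat_lit 16012936803) (nat_lit 760) (nat_lit 3602035939) (nat_lit 76) (nat_lit 7587312173) (nat_lit 278) (nat_lit 5) (nat_lit 288) (nat_lit 5) (nat_lit 279) (nat_lit 5) (nat_lit 499) (nat_lit 448) (nat_lit 193))))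 (XT.nd (nat_lit 78) (nat_lit 684) (nat_lit 0) (XT.lf (nat_lit 0) (nat_lit 11634330155) (nat_lit 608) (nat_lit 8697360827) (nat_lit 684) (nat_lit 7187680559) (nat_lit 270) (nat_lit 5) (nat_lit 278) (nat_lit 5) (nat_lit 279) (nat_lit 5) (nat_lit 500) (nat_lit 448) (nat_lit 192)) (XT.nd (nat_lit 78) (nat_lit 684) (nat_lit 0) (XT.lf (nat_lit 0) (nat_lit 24774008445) (nat_lit 684) (nat_lit 637684337) (nat_lit 76) (nat_lit 2430363869) (nat_lit 270) (nat_lit 5) (nat_lit 279) (nat_lit 5) (nat_lit 271) (nat_lit 5) (nat_lit 501) (nat_lit 448) (nat_lit 191)) (XT.lf (nat_lit 0) (nat_lit 1272513752) (nat_lit 684) (nat_lit 13125657360) (nat_lit 76) (nat_lit 13769809410) (nat_lit 261) (nat_lit 5) (nat_lit 270) (nat_lit 5) (nat_lit 262) (nat_lit 5) (nat_lit 502) (nat_lit 448) (nat_lit 190))))))) (XT.nd (nat_lit 55692) (nat_lit 0) (nat_lit 14668) (XT.nd (nat_lit 55224) (nat_lit 0) (nat_lit 15884) (XT.nd (nat_lit 234) (nat_lit 532) (nat_lit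 0) (XT.nd (nat_lit 78) (nat_lit 608) (nat_lit 0) (XT.lf (nat_lit 0) (nat_lit 2553815216) (nat_lit 608) (nat_lit 3123014175) (nat_lit 684) (nat_lit 22822827898) (nat_lit 253) (nat_lit 5) (nat_lit 261) (nat_lit 5) (nat_lit 262) (nat_lit 5) (nat_lit 503) (nat_lit 448) (nat_lit 189)) (XT.nd (nat_lit 78) (nat_lit 608) (nat_lit 0) (XT.lf (nat_lit 0) (nat_lit 10309414078) (nat_lit 684) (nat_lit 10169983036) (nat_lit 76) (nat_lit 8355767300) (nat_lit 253) (nat_lit 5) (nat_lit 262) (nat_lit 5) (nat_lit 254) (nat_lit 5) (nat_lit 504) (nat_lit 448) (nat_lit 188)) (XT.lf (nat_lit 0) (nat_lit 5975552508) (nat_lit 608) (nat_lit 9115759882) (nat_lit 684) (nat_lit 14084936519) (nat_lit 245) (nat_lit 5) (nat_lit 253) (nat_lit 5) (nat_lit 254) (nat_lit 5) (nat_lit 505) (nat_lit 448) (nat_lit 187)))) (XT.nd (nat_lit 78) (nat_lit 532) (nat_lit 0) (XT.lf (nat_lit 0) (nat_lit 20050827160) (nat_lit 684) (nat_lit 6961014062) (nat_lit 76) (nat_lit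 2510674761) (nat_lit 245) (nat_lit 5) (nat_lit 254) (nat_lit 5) (nat_lit 246) (nat_lit 5) (nat_lit 506) (nat_lit 448) (nat_lit 186)) (XT.nd (nat_lit 54834) (nat_lit 0) (nat_lit 15884) (XT.lf (nat_lit 0) (nat_lit 9666381564) (nat_lit 532) (nat_lit 15563545467) (nat_lit 608) (nat_lit 4643373919) (nat_lit 238) (nat_lit 5) (nat_lit 245) (nat_lit 5) (nat_lit 246) (nat_lit 5) (nat_lit 507) (nat_lit 448) (nat_lit 185)) (XT.lf (nat_lit 0) (nat_lit 1294204899) (nat_lit 0) (nat_lit 1294204899) (nat_lit 1748) (nat_lit 5473714020) (nat_lit 447) (nat_lit 5) (nat_lit 447) (nat_lit 3) (nat_lit 470) (nat_lit 3) (nat_lit 449) (nat_lit 449) (nat_lit 242))))) (XT.nd (nat_lit 234) (nat_lit 0) (nat_lit 76) (XT.nd (nat_lit 78) (nat_lit 0) (nat_lit 0) (XT.lf (nat_lit 0) (nat_lit 5516781799) (nat_lit 1748) (nat_lit 5730311006) (nat_lit 1824) (nat_lit 5032577254) (nat_lit 447) (nat_lit 5) (nat_lit 470) (nat_lit 3) (nat_lit 471) (nat_lit 5) (nat_lit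 450) (nat_lit 449) (nat_lit 241)) (XT.nd (nat_lit 78) (nat_lit 0) (nat_lit 76) (XT.lf (nat_lit 76) (nat_lit 2240060877) (nat_lit 0) (nat_lit 3648498866) (nat_lit 1824) (nat_lit 10549142331) (nat_lit 448) (nat_lit 5) (nat_lit 447) (nat_lit 5) (nat_lit 471) (nat_lit 5) (nat_lit 451) (nat_lit 449) (nat_lit 240)) (XT.lf (nat_lit 0) (nat_lit 6326573587) (nat_lit 1748) (nat_lit 6181129717) (nat_lit 1824) (nat_lit 4090016865) (nat_lit 448) (nat_lit 5) (nat_lit 471) (nat_lit 5) (nat_lit 472) (nat_lit 5) (nat_lit 452) (nat_lit 449) (nat_lit 239)))) (XT.nd (nat_lit 78) (nat_lit 0) (nat_lit 76) (XT.lf (nat_lit 76) (nat_lit 1994142373) (nat_lit 0) (nat_lit 4809902066) (nat_lit 1824) (nat_lit 9956281666) (nat_lit 449) (nat_lit 5) (nat_lit 448) (nat_lit 5) (nat_lit 472) (nat_lit 5) (nat_lit 453) (nat_lit 449) (nat_lit 238)) (XT.nd (nat_lit 78) (nat_lit 0) (nat_lit 0) (XT.lf (nat_lit 0) (nat_lit 7346275745) (nat_lit 1748) (nat_lit 6532355352)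 (nat_lit 1824) (nat_lit 3046450231) (nat_lit 449) (nat_lit 5) (nat_lit 472) (nat_lit 5) (nat_lit 473) (nat_lit 5) (nat_lit 454) (nat_lit 449) (nat_lit 237)) (XT.lf (nat_lit 76) (nat_lit 1855013922) (nat_lit 0) (nat_lit 6082066733) (nat_lit 1824) (nat_lit 9155297781) (nat_lit 450) (nat_lit 5) (nat_lit 449) (nat_lit 5) (nat_lit 473) (nat_lit 5) (nat_lit 455) (nat_lit 449) (nat_lit 236)))))) (XT.nd (nat_lit 468) (nat_lit 1444) (nat_lit 0) (XT.nd (nat_lit 234) (nat_lit 0) (nat_lit 76) (XT.nd (nat_lit 78) (nat_lit 0) (nat_lit 0) (XT.lf (nat_lit 0) (nat_lit 8589916708) (nat_lit 1748) (nat_lit 6779626750) (nat_lit 1824) (nat_lit 1892475065) (nat_lit 450) (nat_lit 5) (nat_lit 473) (nat_lit 5) (nat_lit 474) (nat_lit 5) (nat_lit 456) (nat_lit 449) (nat_lit 235)) (XT.nd (nat_lit 78) (nat_lit 0) (nat_lit 76) (XT.lf (nat_lit 76) (nat_lit 1827299621) (nat_lit 0) (nat_lit 7474716344) (nat_lit 1824) (nat_lit 8132112623) (nat_lit 451) (nat_lit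 5) (nat_lit 450) (nat_lit 5) (nat_lit 474) (nat_lit 5) (nat_lit 457) (nat_lit 449) (nat_lit 234)) (XT.lf (nat_lit 0) (nat_lit 10072077236) (nat_lit 1748) (nat_lit 6918322330) (nat_lit 1824) (nat_lit 618408170) (nat_lit 451) (nat_lit 5) (nat_lit 474) (nat_lit 5) (nat_lit 475) (nat_lit 5) (nat_lit 458) (nat_lit 449) (nat_lit 233)))) (XT.nd (nat_lit 78) (nat_lit 0) (nat_lit 0) (XT.lf (nat_lit 76) (nat_lit 1915892617) (nat_lit 0) (nat_lit 8997873154) (nat_lit 1824) (nat_lit 6872091434) (nat_lit 452) (nat_lit 5) (nat_lit 451) (nat_lit 5) (nat_lit 475) (nat_lit 5) (nat_lit 459) (nat_lit 449) (nat_lit 232)) (XT.nd (nat_lit 78) (nat_lit 0) (nat_lit 76) (XT.lf (nat_lit 76) (nat_lit 11016908139) (nat_lit 0) (nat_lit 796179149) (nat_lit 1824) (nat_lit 6152545624) (nat_lit 452) (nat_lit 5) (nat_lit 451) (nat_lit 5) (nat_lit 475) (nat_lit 5) (nat_lit 460) (nat_lit 449) (nat_lit 231)) (XT.lf (nat_lit 76) (nat_lit 2125960056) (nat_lit 0)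 (nat_lit 10661881295) (nat_lit 1824) (nat_lit 5360015068) (nat_lit 453) (nat_lit 5) (nat_lit 452) (nat_lit 5) (nat_lit 476) (nat_lit 5) (nat_lit 461) (nat_lit 449) (nat_lit 230))))) (XT.nd (nat_lit 234) (nat_lit 1596) (nat_lit 0) (XT.nd (nat_lit 78) (nat_lit 0) (nat_lit 76) (XT.lf (nat_lit 76) (nat_lit 11467296442) (nat_lit 0) (nat_lit 2361242065) (nat_lit 1824) (nat_lit 4504258114) (nat_lit 453) (nat_lit 5) (nat_lit 452) (nat_lit 5) (nat_lit 476) (nat_lit 5) (nat_lit 462) (nat_lit 449) (nat_lit 229)) (XT.nd (nat_lit 78) (nat_lit 0) (nat_lit 0) (XT.lf (nat_lit 76) (nat_lit 2462948357) (nat_lit 0) (nat_lit 12477430374) (nat_lit 1824) (nat_lit 3580051476) (nat_lit 454) (nat_lit 5) (nat_lit 453) (nat_lit 5) (nat_lit 477) (nat_lit 5) (nat_lit 463) (nat_lit 449) (nat_lit 228)) (XT.lf (nat_lit 76) (nat_lit 12051471728) (nat_lit 0) (nat_lit 4079367160) (nat_lit 1824) (nat_lit 2579851052) (nat_lit 454) (nat_lit 5) (nat_lit 453) (nat_lit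 5) (nat_lit 477) (nat_lit 5) (nat_lit 464) (nat_lit 449) (nat_lit 227)))) (XT.nd (nat_lit 78) (nat_lit 1748) (nat_lit 0) (XT.lf (nat_lit 76) (nat_lit 2932588816) (nat_lit 0) (nat_lit 14455579634) (nat_lit 1824) (nat_lit 1515726332) (nat_lit 455) (nat_lit 5) (nat_lit 454) (nat_lit 5) (nat_lit 478) (nat_lit 5) (nat_lit 465) (nat_lit 449) (nat_lit 226)) (XT.nd (nat_lit 78) (nat_lit 1748) (nat_lit 0) (XT.lf (nat_lit 76) (nat_lit 12775396478) (nat_lit 0) (nat_lit 5961738459) (nat_lit 1824) (nat_lit 362500071) (nat_lit 455) (nat_lit 5) (nat_lit 454) (nat_lit 5) (nat_lit 478) (nat_lit 5) (nat_lit 466) (nat_lit 449) (nat_lit 225)) (XT.lf (nat_lit 0) (nat_lit 838957942) (nat_lit 1824) (nat_lit 15763194929) (nat_lit 1900) (nat_lit 2696315742) (nat_lit 431) (nat_lit 5) (nat_lit 455) (nat_lit 5) (nat_lit 456) (nat_lit 5) (nat_lit 467) (nat_lit 449) (nat_lit 224))))))))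
noncomputable def xc230 : XT := (XT.nd (nat_lit 1794) (nat_lit 6080) (nat_lit 0) (XT.nd (nat_lit 858) (nat_lit 5928) (nat_lit 0) (XT.nd (nat_lit 390) (nat_lit 2128) (nat_lit 0) (XT.nd (nat_lit 156) (nat_lit 0) (nat_lit 76) (XT.nd (nat_lit 78) (nat_lit 0) (nat_lit 76) (XT.lf (nat_lit 0) (nat_lit 2136909225) (nat_lit 1824) (nat_lit 5868695176) (nat_lit 1900) (nat_lit 11494081237) (nat_lit 431) (nat_lit 5) (nat_lit 455) (nat_lit 5) (nat_lit 456) (nat_lit 5) (nat_lit 468) (nat_lit 449) (nat_lit 223)) (XT.lf (nat_lit 0) (nat_lit 3488933872) (nat_lit 1824) (nat_lit 15433566678) (nat_lit 1900) (nat_lit 781865179) (nat_lit 432) (nat_lit 5) (nat_lit 456) (nat_lit 5) (nat_lit 457) (nat_lit 5) (nat_lit 469) (nat_lit 449) (nat_lit 222))) (XT.nd (nat_lit 78) (nat_lit 0) (nat_lit 0) (XT.lf (nat_lit 0) (nat_lit 4955943182) (nat_lit 1824) (nat_lit 5276802375) (nat_lit 1900) (nat_lit 9678635974) (nat_lit 432) (nat_lit 5) (nat_lit 456) (nat_lit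 5) (nat_lit 457) (nat_lit 5) (nat_lit 470) (nat_lit 449) (nat_lit 221)) (XT.nd (nat_lit 78) (nat_lit 0) (nat_lit 76) (XT.lf (nat_lit 76) (nat_lit 5146866540) (nat_lit 0) (nat_lit 1334219556) (nat_lit 1900) (nat_lit 13640876656) (nat_lit 433) (nat_lit 5) (nat_lit 432) (nat_lit 5) (nat_lit 457) (nat_lit 5) (nat_lit 471) (nat_lit 449) (nat_lit 220)) (XT.lf (nat_lit 0) (nat_lit 8118093131) (nat_lit 1824) (nat_lit 4539818414) (nat_lit 1900) (nat_lit 7677217780) (nat_lit 433) (nat_lit 5) (nat_lit 457) (nat_lit 5) (nat_lit 458) (nat_lit 5) (nat_lit 472) (nat_lit 449) (nat_lit 219))))) (XT.nd (nat_lit 234) (nat_lit 912) (nat_lit 0) (XT.nd (nat_lit 78) (nat_lit 1368) (nat_lit 0) (XT.lf (nat_lit 76) (nat_lit 6172552004) (nat_lit 0) (nat_lit 3659738375) (nat_lit 1900) (nat_lit 10719380784) (nat_lit 434) (nat_lit 5) (nat_lit 433) (nat_lit 5) (nat_lit 458) (nat_lit 5) (nat_lit 473) (nat_lit 449) (nat_lit 218)) (XT.nd (nat_lit 78) (nat_lit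 1444) (nat_lit 0) (XT.lf (nat_lit 0) (nat_lit 11642872798) (nat_lit 1824) (nat_lit 3651057145) (nat_lit 76) (nat_lit 5477372785) (nat_lit 434) (nat_lit 5) (nat_lit 458) (nat_lit 5) (nat_lit 435) (nat_lit 5) (nat_lit 474) (nat_lit 449) (nat_lit 217)) (XT.lf (nat_lit 0) (nat_lit 7360133404) (nat_lit 1444) (nat_lit 6197248969) (nat_lit 1520) (nat_lit 7436591142) (nat_lit 415) (nat_lit 5) (nat_lit 434) (nat_lit 5) (nat_lit 435) (nat_lit 5) (nat_lit 475) (nat_lit 449) (nat_lit 216)))) (XT.nd (nat_lit 78) (nat_lit 912) (nat_lit 0) (XT.lf (nat_lit 0) (nat_lit 15550607131) (nat_lit 1520) (nat_lit 2603527796) (nat_lit 76) (nat_lit 3066155169) (nat_lit 415) (nat_lit 5) (nat_lit 435) (nat_lit 5) (nat_lit 416) (nat_lit 5) (nat_lit 476) (nat_lit 449) (nat_lit 215)) (XT.nd (nat_lit 78) (nat_lit 0) (nat_lit 0) (XT.lf (nat_lit 0) (nat_lit 8716957800) (nat_lit 912) (nat_lit 8960215409) (nat_lit 988) (nat_lit 3772091127) (nat_lit 403) (nat_lit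 5) (nat_lit 415) (nat_lit 5) (nat_lit 416) (nat_lit 5) (nat_lit 477) (nat_lit 449) (nat_lit 214)) (XT.lf (nat_lit 0) (nat_lit 19862468034) (nat_lit 988) (nat_lit 1389928138) (nat_lit 76) (nat_lit 430098787) (nat_lit 403) (nat_lit 5) (nat_lit 416) (nat_lit 5) (nat_lit 404) (nat_lit 5) (nat_lit 478) (nat_lit 449) (nat_lit 213)))))) (XT.nd (nat_lit 468) (nat_lit 2356) (nat_lit 0) (XT.nd (nat_lit 234) (nat_lit 1672) (nat_lit 0) (XT.nd (nat_lit 78) (nat_lit 912) (nat_lit 0) (XT.lf (nat_lit 0) (nat_lit 291514471) (nat_lit 988) (nat_lit 11669176173) (nat_lit 76) (nat_lit 9957224555) (nat_lit 390) (nat_lit 5) (nat_lit 403) (nat_lit 5) (nat_lit 391) (nat_lit 5) (nat_lit 479) (nat_lit 449) (nat_lit 212)) (XT.nd (nat_lit 78) (nat_lit 912) (nat_lit 0) (XT.lf (nat_lit 0) (nat_lit 2426335975) (nat_lit 988) (nat_lit 34684466) (nat_lit 76) (nat_lit 19696675205) (nat_lit 390) (nat_lit 5) (nat_lit 403) (nat_lit 5) (nat_lit 391) (nat_lit 5) (nat_lit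 480) (nat_lit 449) (nat_lit 211)) (XT.lf (nat_lit 0) (nat_lit 4725211401) (nat_lit 988) (nat_lit 10462207833) (nat_lit 76) (nat_lit 7212426100) (nat_lit 378) (nat_lit 5) (nat_lit 391) (nat_lit 5) (nat_lit 379) (nat_lit 5) (nat_lit 481) (nat_lit 449) (nat_lit 210)))) (XT.nd (nat_lit 78) (nat_lit 836) (nat_lit 0) (XT.lf (nat_lit 0) (nat_lit 1502736883) (nat_lit 836) (nat_lit 5589757282) (nat_lit 912) (nat_lit 15553896021) (nat_lit 367) (nat_lit 5) (nat_lit 378) (nat_lit 5) (nat_lit 379) (nat_lit 5) (nat_lit 482) (nat_lit 449) (nat_lit 209)) (XT.nd (nat_lit 78) (nat_lit 836) (nat_lit 0) (XT.lf (nat_lit 0) (nat_lit 9601255816) (nat_lit 912) (nat_lit 9079164555) (nat_lit 76) (nat_lit 4215563649) (nat_lit 367) (nat_lit 5) (nat_lit 379) (nat_lit 5) (nat_lit 368) (nat_lit 5) (nat_lit 483) (nat_lit 449) (nat_lit 208)) (XT.lf (nat_lit 0) (nat_lit 3228240522) (nat_lit 836) (nat_lit 8986198063) (nat_lit 912) (nat_lit 10935046967) (nat_lit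 356) (nat_lit 5) (nat_lit 367) (nat_lit 5) (nat_lit 368) (nat_lit 5) (nat_lit 484) (nat_lit 449) (nat_lit 207))))) (XT.nd (nat_lit 234) (nat_lit 1596) (nat_lit 0) (XT.nd (nat_lit 78) (nat_lit 760) (nat_lit 0) (XT.lf (nat_lit 0) (nat_lit 14943387439) (nat_lit 912) (nat_lit 7511978003) (nat_lit 76) (nat_lit 951422344) (nat_lit 356) (nat_lit 5) (nat_lit 368) (nat_lit 5) (nat_lit 357) (nat_lit 5) (nat_lit 485) (nat_lit 449) (nat_lit 206)) (XT.nd (nat_lit 78) (nat_lit 0) (nat_lit 0) (XT.lf (nat_lit 0) (nat_lit 5149833222) (nat_lit 760) (nat_lit 12666418823) (nat_lit 836) (nat_lit 5851197994) (nat_lit 346) (nat_lit 5) (nat_lit 356) (nat_lit 5) (nat_lit 357) (nat_lit 5) (nat_lit 486) (nat_lit 449) (nat_lit 205)) (XT.lf (nat_lit 0) (nat_lit 18163060778) (nat_lit 760) (nat_lit 2630359008) (nat_lit 836) (nat_lit 3138969529) (nat_lit 346) (nat_lit 5) (nat_lit 356) (nat_lit 5) (nat_lit 357) (nat_lit 5) (nat_lit 487) (nat_lit 449) (nat_lit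 204)))) (XT.nd (nat_lit 78) (nat_lit 836) (nat_lit 0) (XT.lf (nat_lit 0) (nat_lit 7276324625) (nat_lit 760) (nat_lit 16646940778) (nat_lit 836) (nat_lit 277499963) (nat_lit 336) (nat_lit 5) (nat_lit 346) (nat_lit 5) (nat_lit 347) (nat_lit 5) (nat_lit 488) (nat_lit 449) (nat_lit 203)) (XT.nd (nat_lit 78) (nat_lit 760) (nat_lit 0) (XT.lf (nat_lit 0) (nat_lit 2659477772) (nat_lit 836) (nat_lit 3851131494) (nat_lit 76) (nat_lit 17962498986) (nat_lit 335) (nat_lit 5) (nat_lit 346) (nat_lit 5) (nat_lit 336) (nat_lit 5) (nat_lit 489) (nat_lit 449) (nat_lit 202)) (XT.lf (nat_lit 0) (nat_lit 5735715619) (nat_lit 836) (nat_lit 15170793094) (nat_lit 76) (nat_lit 3842668513) (nat_lit 325) (nat_lit 5) (nat_lit 336) (nat_lit 5) (nat_lit 326) (nat_lit 5) (nat_lit 490) (nat_lit 449) (nat_lit 201))))))) (XT.nd (nat_lit 936) (nat_lit 1900) (nat_lit 0) (XT.nd (nat_lit 468) (nat_lit 1976) (nat_lit 0) (XT.nd (nat_lit 234) (nat_lit 760) (nat_lit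 0) (XT.nd (nat_lit 78) (nat_lit 1444) (nat_lit 0) (XT.lf (nat_lit 0) (nat_lit 8939246744) (nat_lit 836) (nat_lit 1748484276) (nat_lit 76) (nat_lit 14341721818) (nat_lit 325) (nat_lit 5) (nat_lit 336) (nat_lit 5) (nat_lit 326) (nat_lit 5) (nat_lit 491) (nat_lit 449) (nat_lit 200)) (XT.nd (nat_lit 78) (nat_lit 684) (nat_lit 0) (XT.lf (nat_lit 0) (nat_lit 12097362183) (nat_lit 760) (nat_lit 184733974) (nat_lit 836) (nat_lit 13031733469) (nat_lit 315) (nat_lit 5) (nat_lit 325) (nat_lit 5) (nat_lit 326) (nat_lit 5) (nat_lit 492) (nat_lit 449) (nat_lit 199)) (XT.lf (nat_lit 0) (nat_lit 575675006) (nat_lit 684) (nat_lit 15196776338) (nat_lit 760) (nat_lit 9829830234) (nat_lit 306) (nat_lit 5) (nat_lit 315) (nat_lit 5) (nat_lit 316) (nat_lit 5) (nat_lit 493) (nat_lit 449) (nat_lit 198)))) (XT.nd (nat_lit 78) (nat_lit 760) (nat_lit 0) (XT.lf (nat_lit 0) (nat_lit 14817989108) (nat_lit 684) (nat_lit 4601313233) (nat_lit 760) (nat_lit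 6475467047) (nat_lit 306) (nat_lit 5) (nat_lit 315) (nat_lit 5) (nat_lit 316) (nat_lit 5) (nat_lit 494) (nat_lit 449) (nat_lit 197)) (XT.nd (nat_lit 78) (nat_lit 76) (nat_lit 0) (XT.lf (nat_lit 0) (nat_lit 3149479424) (nat_lit 684) (nat_lit 20047197910) (nat_lit 760) (nat_lit 2995278460) (nat_lit 297) (nat_lit 5) (nat_lit 306) (nat_lit 5) (nat_lit 307) (nat_lit 5) (nat_lit 495) (nat_lit 449) (nat_lit 196)) (XT.lf (nat_lit 0) (nat_lit 649399129) (nat_lit 760) (nat_lit 8721345103) (nat_lit 76) (nat_lit 17122227095) (nat_lit 296) (nat_lit 5) (nat_lit 306) (nat_lit 5) (nat_lit 297) (nat_lit 5) (nat_lit 496) (nat_lit 449) (nat_lit 195))))) (XT.nd (nat_lit 234) (nat_lit 608) (nat_lit 0) (XT.nd (nat_lit 78) (nat_lit 684) (nat_lit 0) (XT.lf (nat_lit 0) (nat_lit 4372643913) (nat_lit 760) (nat_lit 20868385725) (nat_lit 76) (nat_lit 1557666495) (nat_lit 287) (nat_lit 5) (nat_lit 297) (nat_lit 5) (nat_lit 288) (nat_lit 5) (nat_lit 497)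 (nat_lit 449) (nat_lit 194)) (XT.nd (nat_lit 78) (nat_lit 684) (nat_lit 0) (XT.lf (nat_lit 0) (nat_lit 8288282242) (nat_lit 760) (nat_lit 6182149918) (nat_lit 76) (nat_lit 12637745240) (nat_lit 287) (nat_lit 5) (nat_lit 297) (nat_lit 5) (nat_lit 288) (nat_lit 5) (nat_lit 498) (nat_lit 449) (nat_lit 193)) (XT.lf (nat_lit 0) (nat_lit 8911193643) (nat_lit 684) (nat_lit 3425915058) (nat_lit 760) (nat_lit 15085642608) (nat_lit 278) (nat_lit 5) (nat_lit 287) (nat_lit 5) (nat_lit 288) (nat_lit 5) (nat_lit 499) (nat_lit 449) (nat_lit 192)))) (XT.nd (nat_lit 78) (nat_lit 608) (nat_lit 0) (XT.lf (nat_lit 0) (nat_lit 16556621670) (nat_lit 760) (nat_lit 3407278144) (nat_lit 76) (nat_lit 7777923201) (nat_lit 278) (nat_lit 5) (nat_lit 288) (nat_lit 5) (nat_lit 279) (nat_lit 5) (nat_lit 500) (nat_lit 449) (nat_lit 191)) (XT.nd (nat_lit 78) (nat_lit 0) (nat_lit 0) (XT.lf (nat_lit 0) (nat_lit 12132060019) (nat_lit 608) (nat_lit 8827030846)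 (nat_lit 684) (nat_lit 7106214475) (nat_lit 270) (nat_lit 5) (nat_lit 278) (nat_lit 5) (nat_lit 279) (nat_lit 5) (nat_lit 501) (nat_lit 449) (nat_lit 190)) (XT.lf (nat_lit 0) (nat_lit 25486207770) (nat_lit 684) (nat_lit 386507224) (nat_lit 76) (nat_lit 2521810847) (nat_lit 270) (nat_lit 5) (nat_lit 279) (nat_lit 5) (nat_lit 271) (nat_lit 5) (nat_lit 502) (nat_lit 449) (nat_lit 189)))))) (XT.nd (nat_lit 55302) (nat_lit 0) (nat_lit 15352) (XT.nd (nat_lit 234) (nat_lit 608) (nat_lit 0) (XT.nd (nat_lit 78) (nat_lit 608) (nat_lit 0) (XT.lf (nat_lit 0) (nat_lit 1513590827) (nat_lit 684) (nat_lit 13123074427) (nat_lit 76) (nat_lit 14090326242) (nat_lit 261) (nat_lit 5) (nat_lit 270) (nat_lit 5) (nat_lit 262) (nat_lit 5) (nat_lit 503) (nat_lit 449) (nat_lit 188)) (XT.nd (nat_lit 78) (nat_lit 0) (nat_lit 0) (XT.lf (nat_lit 0) (nat_lit 2868243548) (nat_lit 608) (nat_lit 3135231110) (nat_lit 684) (nat_lit 23061878210) (nat_lit 253) (nat_lit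 5) (nat_lit 261) (nat_lit 5) (nat_lit 262) (nat_lit 5) (nat_lit 504) (nat_lit 449) (nat_lit 187)) (XT.lf (nat_lit 0) (nat_lit 10724852254) (nat_lit 684) (nat_lit 10111300951) (nat_lit 76) (nat_lit 8571494801) (nat_lit 253) (nat_lit 5) (nat_lit 262) (nat_lit 5) (nat_lit 254) (nat_lit 5) (nat_lit 505) (nat_lit 449) (nat_lit 186)))) (XT.nd (nat_lit 78) (nat_lit 0) (nat_lit 0) (XT.lf (nat_lit 0) (nat_lit 6355421082) (nat_lit 608) (nat_lit 9244554925) (nat_lit 684) (nat_lit 14155627114) (nat_lit 245) (nat_lit 5) (nat_lit 253) (nat_lit 5) (nat_lit 254) (nat_lit 5) (nat_lit 506) (nat_lit 449) (nat_lit 185)) (XT.nd (nat_lit 54912) (nat_lit 0) (nat_lit 15352) (XT.lf (nat_lit 0) (nat_lit 20654966113) (nat_lit 684) (nat_lit 6841233557) (nat_lit 76) (nat_lit 2612670833) (nat_lit 245) (nat_lit 5) (nat_lit 254) (nat_lit 5) (nat_lit 246) (nat_lit 5) (nat_lit 507) (nat_lit 449) (nat_lit 184)) (XT.lf (nat_lit 0) (nat_lit 1446803379) (nat_lit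 0) (nat_lit 1446803379) (nat_lit 1748) (nat_lit 5324635152) (nat_lit 447) (nat_lit 5) (nat_lit 447) (nat_lit 3) (nat_lit 470) (nat_lit 3) (nat_lit 450) (nat_lit 450) (nat_lit 240))))) (XT.nd (nat_lit 234) (nat_lit 0) (nat_lit 76) (XT.nd (nat_lit 78) (nat_lit 0) (nat_lit 0) (XT.lf (nat_lit 0) (nat_lit 6122423417) (nat_lit 1748) (nat_lit 5584796678) (nat_lit 1824) (nat_lit 4888027818) (nat_lit 447) (nat_lit 5) (nat_lit 470) (nat_lit 3) (nat_lit 471) (nat_lit 5) (nat_lit 451) (nat_lit 450) (nat_lit 239)) (XT.nd (nat_lit 78) (nat_lit 0) (nat_lit 76) (XT.lf (nat_lit 76) (nat_lit 2543271324) (nat_lit 0) (nat_lit 3950331478) (nat_lit 1824) (nat_lit 10263000594) (nat_lit 448) (nat_lit 5) (nat_lit 447) (nat_lit 5) (nat_lit 471) (nat_lit 5) (nat_lit 452) (nat_lit 450) (nat_lit 238)) (XT.lf (nat_lit 0) (nat_lit 6929365780) (nat_lit 1748) (nat_lit 6040293608) (nat_lit 1824) (nat_lit 3950384790) (nat_lit 448) (nat_lit 5) (nat_lit 471) (nat_lit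 5) (nat_lit 472) (nat_lit 5) (nat_lit 453) (nat_lit 450) (nat_lit 237)))) (XT.nd (nat_lit 78) (nat_lit 0) (nat_lit 76) (XT.lf (nat_lit 76) (nat_lit 2296744063) (nat_lit 0) (nat_lit 5112009285) (nat_lit 1824) (nat_lit 9677303602) (nat_lit 449) (nat_lit 5) (nat_lit 448) (nat_lit 5) (nat_lit 472) (nat_lit 5) (nat_lit 454) (nat_lit 450) (nat_lit 236)) (XT.nd (nat_lit 78) (nat_lit 0) (nat_lit 0) (XT.lf (nat_lit 0) (nat_lit 7951329811) (nat_lit 1748) (nat_lit 6394834401) (nat_lit 1824) (nat_lit 2908155077) (nat_lit 449) (nat_lit 5) (nat_lit 472) (nat_lit 5) (nat_lit 473) (nat_lit 5) (nat_lit 455) (nat_lit 450) (nat_lit 235)) (XT.lf (nat_lit 76) (nat_lit 2158517995) (nat_lit 0) (nat_lit 6388179582) (nat_lit 1824) (nat_lit 8878411810) (nat_lit 450) (nat_lit 5) (nat_lit 449) (nat_lit 5) (nat_lit 473) (nat_lit 5) (nat_lit 456) (nat_lit 450) (nat_lit 234))))))))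
noncomputable def xc231 : XT := (XT.nd (nat_lit 1794) (nat_lit 10108) (nat_lit 0) (XT.nd (nat_lit 858) (nat_lit 2052) (nat_lit 0) (XT.nd (nat_lit 390) (nat_lit 1520) (nat_lit 0) (XT.nd (nat_lit 156) (nat_lit 0) (nat_lit 76) (XT.nd (nat_lit 78) (nat_lit 0) (nat_lit 0) (XT.lf (nat_lit 0) (nat_lit 9202575431) (nat_lit 1748) (nat_lit 6643927006) (nat_lit 1824) (nat_lit 1751842079) (nat_lit 450) (nat_lit 5) (nat_lit 473) (nat_lit 5) (nat_lit 474) (nat_lit 5) (nat_lit 457) (nat_lit 450) (nat_lit 233)) (XT.lf (nat_lit 76) (nat_lit 2133353074) (nat_lit 0) (nat_lit 7788669099) (nat_lit 1824) (nat_lit 7852014405) (nat_lit 451) (nat_lit 5) (nat_lit 450) (nat_lit 5) (nat_lit 474) (nat_lit 5) (nat_lit 458) (nat_lit 450) (nat_lit 232))) (XT.nd (nat_lit 78) (nat_lit 0) (nat_lit 0) (XT.lf (nat_lit 0) (nat_lit 10697928698) (nat_lit 1748) (nat_lit 6782816408) (nat_lit 1824) (nat_lit 471657191) (nat_lit 451) (nat_lit 5) (nat_lit 474) (nat_lit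 5) (nat_lit 475) (nat_lit 5) (nat_lit 459) (nat_lit 450) (nat_lit 231)) (XT.nd (nat_lit 78) (nat_lit 0) (nat_lit 0) (XT.lf (nat_lit 76) (nat_lit 2226281046) (nat_lit 0) (nat_lit 9323614657) (nat_lit 1824) (nat_lit 6583229989) (nat_lit 452) (nat_lit 5) (nat_lit 451) (nat_lit 5) (nat_lit 475) (nat_lit 5) (nat_lit 460) (nat_lit 450) (nat_lit 230)) (XT.lf (nat_lit 76) (nat_lit 11503982161) (nat_lit 0) (nat_lit 955028261) (nat_lit 1824) (nat_lit 5857652151) (nat_lit 452) (nat_lit 5) (nat_lit 451) (nat_lit 5) (nat_lit 475) (nat_lit 5) (nat_lit 461) (nat_lit 450) (nat_lit 229))))) (XT.nd (nat_lit 234) (nat_lit 1672) (nat_lit 0) (XT.nd (nat_lit 78) (nat_lit 0) (nat_lit 0) (XT.lf (nat_lit 76) (nat_lit 2442610642) (nat_lit 0) (nat_lit 11003486420) (nat_lit 1824) (nat_lit 5056578499) (nat_lit 453) (nat_lit 5) (nat_lit 452) (nat_lit 5) (nat_lit 476) (nat_lit 5) (nat_lit 462) (nat_lit 450) (nat_lit 228)) (XT.nd (nat_lit 78) (nat_lit 0)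 (nat_lit 76) (XT.lf (nat_lit 76) (nat_lit 11965398630) (nat_lit 0) (nat_lit 2534317396) (nat_lit 1824) (nat_lit 4191758109) (nat_lit 453) (nat_lit 5) (nat_lit 452) (nat_lit 5) (nat_lit 476) (nat_lit 5) (nat_lit 463) (nat_lit 450) (nat_lit 227)) (XT.lf (nat_lit 76) (nat_lit 2787933108) (nat_lit 0) (nat_lit 12839111671) (nat_lit 1824) (nat_lit 3255952271) (nat_lit 454) (nat_lit 5) (nat_lit 453) (nat_lit 5) (nat_lit 477) (nat_lit 5) (nat_lit 464) (nat_lit 450) (nat_lit 226)))) (XT.nd (nat_lit 78) (nat_lit 1748) (nat_lit 0) (XT.lf (nat_lit 76) (nat_lit 12562820558) (nat_lit 0) (nat_lit 4270888513) (nat_lit 1824) (nat_lit 2243506667) (nat_lit 454) (nat_lit 5) (nat_lit 453) (nat_lit 5) (nat_lit 477) (nat_lit 5) (nat_lit 465) (nat_lit 450) (nat_lit 225)) (XT.nd (nat_lit 78) (nat_lit 1824) (nat_lit 0) (XT.lf (nat_lit 76) (nat_lit 3268128062) (nat_lit 0) (nat_lit 14841699180) (nat_lit 1824) (nat_lit 1164586219) (nat_lit 455) (nat_lit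 5) (nat_lit 454) (nat_lit 5) (nat_lit 478) (nat_lit 5) (nat_lit 466) (nat_lit 450) (nat_lit 224)) (XT.lf (nat_lit 0) (nat_lit 4169650) (nat_lit 1824) (nat_lit 6171881434) (nat_lit 1900) (nat_lit 13298165079) (nat_lit 430) (nat_lit 5) (nat_lit 454) (nat_lit 5) (nat_lit 455) (nat_lit 5) (nat_lit 467) (nat_lit 450) (nat_lit 223)))))) (XT.nd (nat_lit 468) (nat_lit 2128) (nat_lit 0) (XT.nd (nat_lit 234) (nat_lit 0) (nat_lit 76) (XT.nd (nat_lit 78) (nat_lit 0) (nat_lit 0) (XT.lf (nat_lit 0) (nat_lit 1218776033) (nat_lit 1824) (nat_lit 15795909554) (nat_lit 1900) (nat_lit 2662415002) (nat_lit 431) (nat_lit 5) (nat_lit 455) (nat_lit 5) (nat_lit 456) (nat_lit 5) (nat_lit 468) (nat_lit 450) (nat_lit 222)) (XT.nd (nat_lit 78) (nat_lit 0) (nat_lit 76) (XT.lf (nat_lit 0) (nat_lit 2535567932) (nat_lit 1824) (nat_lit 5709059988) (nat_lit 1900) (nat_lit 11637857906) (nat_lit 431) (nat_lit 5) (nat_lit 455) (nat_lit 5) (nat_lit 456) (nat_lit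 5) (nat_lit 469) (nat_lit 450) (nat_lit 221)) (XT.lf (nat_lit 0) (nat_lit 3908950466) (nat_lit 1824) (nat_lit 15459472672) (nat_lit 1900) (nat_lit 722951506) (nat_lit 432) (nat_lit 5) (nat_lit 456) (nat_lit 5) (nat_lit 457) (nat_lit 5) (nat_lit 470) (nat_lit 450) (nat_lit 220)))) (XT.nd (nat_lit 78) (nat_lit 0) (nat_lit 0) (XT.lf (nat_lit 0) (nat_lit 5398432551) (nat_lit 1824) (nat_lit 5105117500) (nat_lit 1900) (nat_lit 9799119502) (nat_lit 432) (nat_lit 5) (nat_lit 456) (nat_lit 5) (nat_lit 457) (nat_lit 5) (nat_lit 471) (nat_lit 450) (nat_lit 219)) (XT.nd (nat_lit 78) (nat_lit 0) (nat_lit 76) (XT.lf (nat_lit 76) (nat_lit 5525200971) (nat_lit 0) (nat_lit 1423932658) (nat_lit 1900) (nat_lit 13568429079) (nat_lit 433) (nat_lit 5) (nat_lit 432) (nat_lit 5) (nat_lit 457) (nat_lit 5) (nat_lit 472) (nat_lit 450) (nat_lit 218)) (XT.lf (nat_lit 0) (nat_lit 8611843805) (nat_lit 1824) (nat_lit 4353511230) (nat_lit 1900) (nat_lit 7769779706)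 (nat_lit 433) (nat_lit 5) (nat_lit 457) (nat_lit 5) (nat_lit 458) (nat_lit 5) (nat_lit 473) (nat_lit 450) (nat_lit 217))))) (XT.nd (nat_lit 234) (nat_lit 912) (nat_lit 0) (XT.nd (nat_lit 78) (nat_lit 1368) (nat_lit 0) (XT.lf (nat_lit 76) (nat_lit 6571283546) (nat_lit 0) (nat_lit 3784330935) (nat_lit 1900) (nat_lit 10600488505) (nat_lit 434) (nat_lit 5) (nat_lit 433) (nat_lit 5) (nat_lit 458) (nat_lit 5) (nat_lit 474) (nat_lit 450) (nat_lit 216)) (XT.nd (nat_lit 78) (nat_lit 1444) (nat_lit 0) (XT.lf (nat_lit 0) (nat_lit 12195675927) (nat_lit 1824) (nat_lit 3447396121) (nat_lit 76) (nat_lit 5537191122) (nat_lit 434) (nat_lit 5) (nat_lit 458) (nat_lit 5) (nat_lit 435) (nat_lit 5) (nat_lit 475) (nat_lit 450) (nat_lit 215)) (XT.lf (nat_lit 0) (nat_lit 7782197962) (nat_lit 1444) (nat_lit 6361788872) (nat_lit 1520) (nat_lit 7263491622) (nat_lit 415) (nat_lit 5) (nat_lit 434) (nat_lit 5) (nat_lit 435) (nat_lit 5) (nat_lit 476) (nat_lit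 450) (nat_lit 214)))) (XT.nd (nat_lit 78) (nat_lit 912) (nat_lit 0) (XT.lf (nat_lit 0) (nat_lit 16170632259) (nat_lit 1520) (nat_lit 2379617972) (nat_lit 76) (nat_lit 3088201297) (nat_lit 415) (nat_lit 5) (nat_lit 435) (nat_lit 5) (nat_lit 416) (nat_lit 5) (nat_lit 477) (nat_lit 450) (nat_lit 213)) (XT.nd (nat_lit 78) (nat_lit 0) (nat_lit 0) (XT.lf (nat_lit 0) (nat_lit 9165461675) (nat_lit 912) (nat_lit 9169988964) (nat_lit 988) (nat_lit 3536641451) (nat_lit 403) (nat_lit 5) (nat_lit 415) (nat_lit 5) (nat_lit 416) (nat_lit 5) (nat_lit 478) (nat_lit 450) (nat_lit 212)) (XT.lf (nat_lit 0) (nat_lit 20558281601) (nat_lit 988) (nat_lit 1142706380) (nat_lit 76) (nat_lit 409123973) (nat_lit 403) (nat_lit 5) (nat_lit 416) (nat_lit 5) (nat_lit 404) (nat_lit 5) (nat_lit 479) (nat_lit 450) (nat_lit 211))))))) (XT.nd (nat_lit 936) (nat_lit 4180) (nat_lit 0) (XT.nd (nat_lit 468) (nat_lit 2356) (nat_lit 0) (XT.nd (nat_lit 234) (nat_lit 1672)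 (nat_lit 0) (XT.nd (nat_lit 78) (nat_lit 912) (nat_lit 0) (XT.lf (nat_lit 0) (nat_lit 593838478) (nat_lit 988) (nat_lit 11625349247) (nat_lit 76) (nat_lit 10131096677) (nat_lit 390) (nat_lit 5) (nat_lit 403) (nat_lit 5) (nat_lit 391) (nat_lit 5) (nat_lit 480) (nat_lit 450) (nat_lit 210)) (XT.nd (nat_lit 78) (nat_lit 0) (nat_lit 0) (XT.lf (nat_lit 0) (nat_lit 239538383) (nat_lit 912) (nat_lit 2527559668) (nat_lit 988) (nat_lit 19827848735) (nat_lit 378) (nat_lit 5) (nat_lit 390) (nat_lit 5) (nat_lit 391) (nat_lit 5) (nat_lit 481) (nat_lit 450) (nat_lit 209)) (XT.lf (nat_lit 0) (nat_lit 5106340338) (nat_lit 988) (nat_lit 10395564706) (nat_lit 76) (nat_lit 7340147774) (nat_lit 378) (nat_lit 5) (nat_lit 391) (nat_lit 5) (nat_lit 379) (nat_lit 5) (nat_lit 482) (nat_lit 450) (nat_lit 208)))) (XT.nd (nat_lit 78) (nat_lit 836) (nat_lit 0) (XT.lf (nat_lit 0) (nat_lit 1806863856) (nat_lit 836) (nat_lit 5710264269) (nat_lit 912) (nat_lit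 15576478372) (nat_lit 367) (nat_lit 5) (nat_lit 378) (nat_lit 5) (nat_lit 379) (nat_lit 5) (nat_lit 483) (nat_lit 450) (nat_lit 207)) (XT.nd (nat_lit 78) (nat_lit 836) (nat_lit 0) (XT.lf (nat_lit 0) (nat_lit 10070464769) (nat_lit 912) (nat_lit 8986394619) (nat_lit 76) (nat_lit 4291445919) (nat_lit 367) (nat_lit 5) (nat_lit 379) (nat_lit 5) (nat_lit 368) (nat_lit 5) (nat_lit 484) (nat_lit 450) (nat_lit 206)) (XT.lf (nat_lit 0) (nat_lit 3565353604) (nat_lit 836) (nat_lit 9166892176) (nat_lit 912) (nat_lit 10874705470) (nat_lit 356) (nat_lit 5) (nat_lit 367) (nat_lit 5) (nat_lit 368) (nat_lit 5) (nat_lit 485) (nat_lit 450) (nat_lit 205))))) (XT.nd (nat_lit 234) (nat_lit 1596) (nat_lit 0) (XT.nd (nat_lit 78) (nat_lit 760) (nat_lit 0) (XT.lf (nat_lit 0) (nat_lit 15510404330) (nat_lit 912) (nat_lit 7389591502) (nat_lit 76) (nat_lit 969512136) (nat_lit 356) (nat_lit 5) (nat_lit 368) (nat_lit 5) (nat_lit 357) (nat_lit 5) (nat_lit 486)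 (nat_lit 450) (nat_lit 204)) (XT.nd (nat_lit 78) (nat_lit 0) (nat_lit 0) (XT.lf (nat_lit 0) (nat_lit 5523662356) (nat_lit 760) (nat_lit 12913564470) (nat_lit 836) (nat_lit 5698227659) (nat_lit 346) (nat_lit 5) (nat_lit 356) (nat_lit 5) (nat_lit 357) (nat_lit 5) (nat_lit 487) (nat_lit 450) (nat_lit 203)) (XT.lf (nat_lit 0) (nat_lit 18791844022) (nat_lit 760) (nat_lit 2676904689) (nat_lit 836) (nat_lit 2937048629) (nat_lit 346) (nat_lit 5) (nat_lit 356) (nat_lit 5) (nat_lit 357) (nat_lit 5) (nat_lit 488) (nat_lit 450) (nat_lit 202)))) (XT.nd (nat_lit 78) (nat_lit 836) (nat_lit 0) (XT.lf (nat_lit 0) (nat_lit 7690792483) (nat_lit 760) (nat_lit 16967096025) (nat_lit 836) (nat_lit 21719450) (nat_lit 336) (nat_lit 5) (nat_lit 346) (nat_lit 5) (nat_lit 347) (nat_lit 5) (nat_lit 489) (nat_lit 450) (nat_lit 201)) (XT.nd (nat_lit 78) (nat_lit 760) (nat_lit 0) (XT.lf (nat_lit 0) (nat_lit 2965513518) (nat_lit 836) (nat_lit 3661078291) (nat_lit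 76) (nat_lit 18330874049) (nat_lit 335) (nat_lit 5) (nat_lit 346) (nat_lit 5) (nat_lit 336) (nat_lit 5) (nat_lit 490) (nat_lit 450) (nat_lit 200)) (XT.lf (nat_lit 0) (nat_lit 6100142964) (nat_lit 836) (nat_lit 15203953264) (nat_lit 76) (nat_lit 3935023581) (nat_lit 325) (nat_lit 5) (nat_lit 336) (nat_lit 5) (nat_lit 326) (nat_lit 5) (nat_lit 491) (nat_lit 450) (nat_lit 199)))))) (XT.nd (nat_lit 468) (nat_lit 1976) (nat_lit 0) (XT.nd (nat_lit 234) (nat_lit 760) (nat_lit 0) (XT.nd (nat_lit 78) (nat_lit 1444) (nat_lit 0) (XT.lf (nat_lit 0) (nat_lit 9362848378) (nat_lit 836) (nat_lit 1518497401) (nat_lit 76) (nat_lit 14643753997) (nat_lit 325) (nat_lit 5) (nat_lit 336) (nat_lit 5) (nat_lit 326) (nat_lit 5) (nat_lit 492) (nat_lit 450) (nat_lit 198)) (XT.nd (nat_lit 78) (nat_lit 684) (nat_lit 0) (XT.lf (nat_lit 0) (nat_lit 12602522852) (nat_lit 760) (nat_lit 166940556) (nat_lit 836) (nat_lit 13045763417) (nat_lit 315) (nat_lit 5)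 (nat_lit 325) (nat_lit 5) (nat_lit 326) (nat_lit 5) (nat_lit 493) (nat_lit 450) (nat_lit 197)) (XT.lf (nat_lit 0) (nat_lit 853378959) (nat_lit 684) (nat_lit 15473372092) (nat_lit 760) (nat_lit 9782755138) (nat_lit 306) (nat_lit 5) (nat_lit 315) (nat_lit 5) (nat_lit 316) (nat_lit 5) (nat_lit 494) (nat_lit 450) (nat_lit 196)))) (XT.nd (nat_lit 78) (nat_lit 760) (nat_lit 0) (XT.lf (nat_lit 0) (nat_lit 15375319922) (nat_lit 684) (nat_lit 4666535798) (nat_lit 760) (nat_lit 6366082564) (nat_lit 306) (nat_lit 5) (nat_lit 315) (nat_lit 5) (nat_lit 316) (nat_lit 5) (nat_lit 495) (nat_lit 450) (nat_lit 195)) (XT.nd (nat_lit 78) (nat_lit 76) (nat_lit 0) (XT.lf (nat_lit 0) (nat_lit 3476245644) (nat_lit 684) (nat_lit 20415824282) (nat_lit 760) (nat_lit 2819053505) (nat_lit 297) (nat_lit 5) (nat_lit 306) (nat_lit 5) (nat_lit 307) (nat_lit 5) (nat_lit 496) (nat_lit 450) (nat_lit 194)) (XT.lf (nat_lit 0) (nat_lit 890851455) (nat_lit 760) (nat_lit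 8634090638) (nat_lit 76) (nat_lit 17493278718) (nat_lit 296) (nat_lit 5) (nat_lit 306) (nat_lit 5) (nat_lit 297) (nat_lit 5) (nat_lit 497) (nat_lit 450) (nat_lit 193))))) (XT.nd (nat_lit 234) (nat_lit 608) (nat_lit 0) (XT.nd (nat_lit 78) (nat_lit 684) (nat_lit 0) (XT.lf (nat_lit 0) (nat_lit 4685991888) (nat_lit 760) (nat_lit 21021462969) (nat_lit 76) (nat_lit 1622657439) (nat_lit 287) (nat_lit 5) (nat_lit 297) (nat_lit 5) (nat_lit 288) (nat_lit 5) (nat_lit 498) (nat_lit 450) (nat_lit 192)) (XT.nd (nat_lit 78) (nat_lit 684) (nat_lit 0) (XT.lf (nat_lit 0) (nat_lit 8675513668) (nat_lit 760) (nat_lit 6046684611) (nat_lit 76) (nat_lit 12923674275) (nat_lit 287) (nat_lit 5) (nat_lit 297) (nat_lit 5) (nat_lit 288) (nat_lit 5) (nat_lit 499) (nat_lit 450) (nat_lit 191)) (XT.lf (nat_lit 0) (nat_lit 9346821161) (nat_lit 684) (nat_lit 3455824265) (nat_lit 760) (nat_lit 15164146709) (nat_lit 278) (nat_lit 5) (nat_lit 287) (nat_lit 5) (nat_lit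 288) (nat_lit 5) (nat_lit 500) (nat_lit 450) (nat_lit 190)))) (XT.nd (nat_lit 78) (nat_lit 608) (nat_lit 0) (XT.lf (nat_lit 0) (nat_lit 17102504325) (nat_lit 760) (nat_lit 3218985305) (nat_lit 76) (nat_lit 7970837282) (nat_lit 278) (nat_lit 5) (nat_lit 288) (nat_lit 5) (nat_lit 279) (nat_lit 5) (nat_lit 501) (nat_lit 450) (nat_lit 189)) (XT.nd (nat_lit 78) (nat_lit 0) (nat_lit 0) (XT.lf (nat_lit 0) (nat_lit 12629452527) (nat_lit 608) (nat_lit 8961013602) (nat_lit 684) (nat_lit 7031864625) (nat_lit 270) (nat_lit 5) (nat_lit 278) (nat_lit 5) (nat_lit 279) (nat_lit 5) (nat_lit 502) (nat_lit 450) (nat_lit 188)) (XT.lf (nat_lit 0) (nat_lit 26204235613) (nat_lit 684) (nat_lit 140555324) (nat_lit 76) (nat_lit 2613423247) (nat_lit 270) (nat_lit 5) (nat_lit 279) (nat_lit 5) (nat_lit 271) (nat_lit 5) (nat_lit 503) (nat_lit 450) (nat_lit 187))))))))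
noncomputable def xc232 : XT := (XT.nd (nat_lit 56706) (nat_lit 0) (nat_lit 6080) (XT.nd (nat_lit 55770) (nat_lit 0) (nat_lit 14060) (XT.nd (nat_lit 55302) (nat_lit 0) (nat_lit 15352) (XT.nd (nat_lit 156) (nat_lit 608) (nat_lit 0) (XT.nd (nat_lit 78) (nat_lit 608) (nat_lit 0) (XT.lf (nat_lit 0) (nat_lit 1751116392) (nat_lit 684) (nat_lit 13130733839) (nat_lit 76) (nat_lit 14415501321) (nat_lit 261) (nat_lit 5) (nat_lit 270) (nat_lit 5) (nat_lit 262) (nat_lit 5) (nat_lit 504) (nat_lit 450) (nat_lit 186)) (XT.lf (nat_lit 0) (nat_lit 3178734166) (nat_lit 608) (nat_lit 3149643395) (nat_lit 684) (nat_lit 23314151678) (nat_lit 253) (nat_lit 5) (nat_lit 261) (nat_lit 5) (nat_lit 262) (nat_lit 5) (nat_lit 505) (nat_lit 450) (nat_lit 185))) (XT.nd (nat_lit 78) (nat_lit 608) (nat_lit 0) (XT.lf (nat_lit 0) (nat_lit 11140473765) (nat_lit 684) (nat_lit 10061622177) (nat_lit 76) (nat_lit 8789649182) (nat_lit 253) (nat_lit 5) (nat_lit 262)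 (nat_lit 5) (nat_lit 254) (nat_lit 5) (nat_lit 506) (nat_lit 450) (nat_lit 184)) (XT.nd (nat_lit 54990) (nat_lit 0) (nat_lit 15352) (XT.lf (nat_lit 0) (nat_lit 6732777028) (nat_lit 608) (nat_lit 9378004121) (nat_lit 684) (nat_lit 14235925224) (nat_lit 245) (nat_lit 5) (nat_lit 253) (nat_lit 5) (nat_lit 254) (nat_lit 5) (nat_lit 507) (nat_lit 450) (nat_lit 183)) (XT.lf (nat_lit 0) (nat_lit 1597533355) (nat_lit 0) (nat_lit 1597533355) (nat_lit 1748) (nat_lit 5182614641) (nat_lit 447) (nat_lit 5) (nat_lit 447) (nat_lit 3) (nat_lit 470) (nat_lit 3) (nat_lit 451) (nat_lit 451) (nat_lit 238))))) (XT.nd (nat_lit 234) (nat_lit 0) (nat_lit 76) (XT.nd (nat_lit 78) (nat_lit 0) (nat_lit 0) (XT.lf (nat_lit 0) (nat_lit 6720944532) (nat_lit 1748) (nat_lit 5446472861) (nat_lit 1824) (nat_lit 4750108847) (nat_lit 447) (nat_lit 5) (nat_lit 470) (nat_lit 3) (nat_lit 471) (nat_lit 5) (nat_lit 452) (nat_lit 451) (nat_lit 237)) (XT.nd (nat_lit 78)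 (nat_lit 0) (nat_lit 76) (XT.lf (nat_lit 76) (nat_lit 2842511634) (nat_lit 0) (nat_lit 4249313728) (nat_lit 1824) (nat_lit 9990439976) (nat_lit 448) (nat_lit 5) (nat_lit 447) (nat_lit 5) (nat_lit 471) (nat_lit 5) (nat_lit 453) (nat_lit 451) (nat_lit 236)) (XT.lf (nat_lit 0) (nat_lit 7525720032) (nat_lit 1748) (nat_lit 5906910031) (nat_lit 1824) (nat_lit 3816558564) (nat_lit 448) (nat_lit 5) (nat_lit 471) (nat_lit 5) (nat_lit 472) (nat_lit 5) (nat_lit 454) (nat_lit 451) (nat_lit 235)))) (XT.nd (nat_lit 78) (nat_lit 0) (nat_lit 76) (XT.lf (nat_lit 76) (nat_lit 2595196095) (nat_lit 0) (nat_lit 5412162944) (nat_lit 1824) (nat_lit 9411311325) (nat_lit 449) (nat_lit 5) (nat_lit 448) (nat_lit 5) (nat_lit 472) (nat_lit 5) (nat_lit 455) (nat_lit 451) (nat_lit 234)) (XT.nd (nat_lit 78) (nat_lit 0) (nat_lit 0) (XT.lf (nat_lit 0) (nat_lit 8550695268) (nat_lit 1748) (nat_lit 6264976324) (nat_lit 1824) (nat_lit 2774830136) (nat_lit 449)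 (nat_lit 5) (nat_lit 472) (nat_lit 5) (nat_lit 473) (nat_lit 5) (nat_lit 456) (nat_lit 451) (nat_lit 233)) (XT.lf (nat_lit 76) (nat_lit 2457747365) (nat_lit 0) (nat_lit 6693251434) (nat_lit 1824) (nat_lit 8613850167) (nat_lit 450) (nat_lit 5) (nat_lit 449) (nat_lit 5) (nat_lit 473) (nat_lit 5) (nat_lit 457) (nat_lit 451) (nat_lit 232)))))) (XT.nd (nat_lit 468) (nat_lit 1520) (nat_lit 0) (XT.nd (nat_lit 234) (nat_lit 0) (nat_lit 76) (XT.nd (nat_lit 78) (nat_lit 0) (nat_lit 0) (XT.lf (nat_lit 0) (nat_lit 9810368182) (nat_lit 1748) (nat_lit 6516047877) (nat_lit 1824) (nat_lit 1615327126) (nat_lit 450) (nat_lit 5) (nat_lit 473) (nat_lit 5) (nat_lit 474) (nat_lit 5) (nat_lit 458) (nat_lit 451) (nat_lit 231)) (XT.nd (nat_lit 78) (nat_lit 0) (nat_lit 76) (XT.lf (nat_lit 76) (nat_lit 2435062294) (nat_lit 0) (nat_lit 8102514787) (nat_lit 1824) (nat_lit 7583506374) (nat_lit 451) (nat_lit 5) (nat_lit 450) (nat_lit 5) (nat_lit 474) (nat_lit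 5) (nat_lit 459) (nat_lit 451) (nat_lit 230)) (XT.lf (nat_lit 0) (nat_lit 11319816835) (nat_lit 1748) (nat_lit 6655235165) (nat_lit 1824) (nat_lit 328149982) (nat_lit 451) (nat_lit 5) (nat_lit 474) (nat_lit 5) (nat_lit 475) (nat_lit 5) (nat_lit 460) (nat_lit 451) (nat_lit 229)))) (XT.nd (nat_lit 78) (nat_lit 0) (nat_lit 0) (XT.lf (nat_lit 76) (nat_lit 2532312412) (nat_lit 0) (nat_lit 9650210018) (nat_lit 1824) (nat_lit 6305145190) (nat_lit 452) (nat_lit 5) (nat_lit 451) (nat_lit 5) (nat_lit 475) (nat_lit 5) (nat_lit 461) (nat_lit 451) (nat_lit 228)) (XT.nd (nat_lit 78) (nat_lit 0) (nat_lit 76) (XT.lf (nat_lit 76) (nat_lit 11990439986) (nat_lit 0) (nat_lit 1111504383) (nat_lit 1824) (nat_lit 5573090097) (nat_lit 452) (nat_lit 5) (nat_lit 451) (nat_lit 5) (nat_lit 475) (nat_lit 5) (nat_lit 462) (nat_lit 451) (nat_lit 227)) (XT.lf (nat_lit 76) (nat_lit 2754949383) (nat_lit 0) (nat_lit 11346938981) (nat_lit 1824) (nat_lit 4763018729)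 (nat_lit 453) (nat_lit 5) (nat_lit 452) (nat_lit 5) (nat_lit 476) (nat_lit 5) (nat_lit 463) (nat_lit 451) (nat_lit 226))))) (XT.nd (nat_lit 234) (nat_lit 1672) (nat_lit 0) (XT.nd (nat_lit 78) (nat_lit 0) (nat_lit 76) (XT.lf (nat_lit 76) (nat_lit 12463026728) (nat_lit 0) (nat_lit 2705967306) (nat_lit 1824) (nat_lit 3888640977) (nat_lit 453) (nat_lit 5) (nat_lit 452) (nat_lit 5) (nat_lit 476) (nat_lit 5) (nat_lit 464) (nat_lit 451) (nat_lit 225)) (XT.nd (nat_lit 78) (nat_lit 0) (nat_lit 0) (XT.lf (nat_lit 76) (nat_lit 3108710785) (nat_lit 0) (nat_lit 13203672345) (nat_lit 1824) (nat_lit 2940736605) (nat_lit 454) (nat_lit 5) (nat_lit 453) (nat_lit 5) (nat_lit 477) (nat_lit 5) (nat_lit 465) (nat_lit 451) (nat_lit 224)) (XT.lf (nat_lit 76) (nat_lit 13073899534) (nat_lit 0) (nat_lit 4461971420) (nat_lit 1824) (nat_lit 1915499632) (nat_lit 454) (nat_lit 5) (nat_lit 453) (nat_lit 5) (nat_lit 477) (nat_lit 5) (nat_lit 466) (nat_lit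 451) (nat_lit 223)))) (XT.nd (nat_lit 78) (nat_lit 1824) (nat_lit 0) (XT.lf (nat_lit 76) (nat_lit 3599626215) (nat_lit 0) (nat_lit 15231774181) (nat_lit 1824) (nat_lit 821235653) (nat_lit 455) (nat_lit 5) (nat_lit 454) (nat_lit 5) (nat_lit 478) (nat_lit 5) (nat_lit 467) (nat_lit 451) (nat_lit 222)) (XT.nd (nat_lit 78) (nat_lit 0) (nat_lit 76) (XT.lf (nat_lit 0) (nat_lit 358991976) (nat_lit 1824) (nat_lit 6029612407) (nat_lit 1900) (nat_lit 13467926211) (nat_lit 430) (nat_lit 5) (nat_lit 454) (nat_lit 5) (nat_lit 455) (nat_lit 5) (nat_lit 468) (nat_lit 451) (nat_lit 221)) (XT.lf (nat_lit 0) (nat_lit 1592093243) (nat_lit 1824) (nat_lit 15840250204) (nat_lit 1900) (nat_lit 2631246678) (nat_lit 431) (nat_lit 5) (nat_lit 455) (nat_lit 5) (nat_lit 456) (nat_lit 5) (nat_lit 469) (nat_lit 451) (nat_lit 220))))))) (XT.nd (nat_lit 858) (nat_lit 5928) (nat_lit 0) (XT.nd (nat_lit 390) (nat_lit 2128) (nat_lit 0) (XT.nd (nat_lit 156) (nat_lit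 0) (nat_lit 76) (XT.nd (nat_lit 78) (nat_lit 0) (nat_lit 76) (XT.lf (nat_lit 0) (nat_lit 2928378985) (nat_lit 1824) (nat_lit 5556988696) (nat_lit 1900) (nat_lit 11787853669) (nat_lit 431) (nat_lit 5) (nat_lit 455) (nat_lit 5) (nat_lit 456) (nat_lit 5) (nat_lit 470) (nat_lit 451) (nat_lit 219)) (XT.lf (nat_lit 0) (nat_lit 4323767226) (nat_lit 1824) (nat_lit 15496876907) (nat_lit 1900) (nat_lit 665754465) (nat_lit 432) (nat_lit 5) (nat_lit 456) (nat_lit 5) (nat_lit 457) (nat_lit 5) (nat_lit 471) (nat_lit 451) (nat_lit 218))) (XT.nd (nat_lit 78) (nat_lit 0) (nat_lit 0) (XT.lf (nat_lit 0) (nat_lit 5836438213) (nat_lit 1824) (nat_lit 4940763755) (nat_lit 1900) (nat_lit 9924850842) (nat_lit 432) (nat_lit 5) (nat_lit 456) (nat_lit 5) (nat_lit 457) (nat_lit 5) (nat_lit 472) (nat_lit 451) (nat_lit 217)) (XT.nd (nat_lit 78) (nat_lit 0) (nat_lit 76) (XT.lf (nat_lit 76) (nat_lit 5900408086) (nat_lit 0) (nat_lit 1512992541) (nat_lit 1900)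 (nat_lit 13507939615) (nat_lit 433) (nat_lit 5) (nat_lit 432) (nat_lit 5) (nat_lit 457) (nat_lit 5) (nat_lit 473) (nat_lit 451) (nat_lit 216)) (XT.lf (nat_lit 0) (nat_lit 9102601260) (nat_lit 1824) (nat_lit 4174238172) (nat_lit 1900) (nat_lit 7866560892) (nat_lit 433) (nat_lit 5) (nat_lit 457) (nat_lit 5) (nat_lit 458) (nat_lit 5) (nat_lit 474) (nat_lit 451) (nat_lit 215))))) (XT.nd (nat_lit 234) (nat_lit 912) (nat_lit 0) (XT.nd (nat_lit 78) (nat_lit 1368) (nat_lit 0) (XT.lf (nat_lit 76) (nat_lit 6967300242) (nat_lit 0) (nat_lit 3909419508) (nat_lit 1900) (nat_lit 10492160045) (nat_lit 434) (nat_lit 5) (nat_lit 433) (nat_lit 5) (nat_lit 458) (nat_lit 5) (nat_lit 475) (nat_lit 451) (nat_lit 214)) (XT.nd (nat_lit 78) (nat_lit 1444) (nat_lit 0) (XT.lf (nat_lit 0) (nat_lit 12747111238) (nat_lit 1824) (nat_lit 3250405782) (nat_lit 76) (nat_lit 5600136868) (nat_lit 434) (nat_lit 5) (nat_lit 458) (nat_lit 5) (nat_lit 435) (nat_lit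 5) (nat_lit 476) (nat_lit 451) (nat_lit 213)) (XT.lf (nat_lit 0) (nat_lit 8202030589) (nat_lit 1444) (nat_lit 6528043224) (nat_lit 1520) (nat_lit 7099427216) (nat_lit 415) (nat_lit 5) (nat_lit 434) (nat_lit 5) (nat_lit 435) (nat_lit 5) (nat_lit 477) (nat_lit 451) (nat_lit 212)))) (XT.nd (nat_lit 78) (nat_lit 912) (nat_lit 0) (XT.lf (nat_lit 0) (nat_lit 16791058538) (nat_lit 1520) (nat_lit 2161946606) (nat_lit 76) (nat_lit 3112213521) (nat_lit 415) (nat_lit 5) (nat_lit 435) (nat_lit 5) (nat_lit 416) (nat_lit 5) (nat_lit 478) (nat_lit 451) (nat_lit 211)) (XT.nd (nat_lit 78) (nat_lit 0) (nat_lit 0) (XT.lf (nat_lit 0) (nat_lit 9612289478) (nat_lit 912) (nat_lit 9382770949) (nat_lit 988) (nat_lit 3308555078) (nat_lit 403) (nat_lit 5) (nat_lit 415) (nat_lit 5) (nat_lit 416) (nat_lit 5) (nat_lit 479) (nat_lit 451) (nat_lit 210)) (XT.lf (nat_lit 0) (nat_lit 21256417827) (nat_lit 988) (nat_lit 901219561) (nat_lit 76) (nat_lit 388878165)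 (nat_lit 403) (nat_lit 5) (nat_lit 416) (nat_lit 5) (nat_lit 404) (nat_lit 5) (nat_lit 480) (nat_lit 451) (nat_lit 209)))))) (XT.nd (nat_lit 468) (nat_lit 2356) (nat_lit 0) (XT.nd (nat_lit 234) (nat_lit 1672) (nat_lit 0) (XT.nd (nat_lit 78) (nat_lit 912) (nat_lit 0) (XT.lf (nat_lit 0) (nat_lit 890695752) (nat_lit 988) (nat_lit 11591410202) (nat_lit 76) (nat_lit 10309427598) (nat_lit 390) (nat_lit 5) (nat_lit 403) (nat_lit 5) (nat_lit 391) (nat_lit 5) (nat_lit 481) (nat_lit 451) (nat_lit 208)) (XT.nd (nat_lit 78) (nat_lit 0) (nat_lit 0) (XT.lf (nat_lit 0) (nat_lit 509022246) (nat_lit 912) (nat_lit 2594528981) (nat_lit 988) (nat_lit 19937616459) (nat_lit 378) (nat_lit 5) (nat_lit 390) (nat_lit 5) (nat_lit 391) (nat_lit 5) (nat_lit 482) (nat_lit 451) (nat_lit 207)) (XT.lf (nat_lit 0) (nat_lit 5483961868) (nat_lit 988) (nat_lit 10338301757) (nat_lit 76) (nat_lit 7471065639) (nat_lit 378) (nat_lit 5) (nat_lit 391) (nat_lit 5) (nat_lit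 379) (nat_lit 5) (nat_lit 483) (nat_lit 451) (nat_lit 206)))) (XT.nd (nat_lit 78) (nat_lit 836) (nat_lit 0) (XT.lf (nat_lit 0) (nat_lit 2106430809) (nat_lit 836) (nat_lit 5832843104) (nat_lit 912) (nat_lit 15610715004) (nat_lit 367) (nat_lit 5) (nat_lit 378) (nat_lit 5) (nat_lit 379) (nat_lit 5) (nat_lit 484) (nat_lit 451) (nat_lit 205)) (XT.nd (nat_lit 78) (nat_lit 836) (nat_lit 0) (XT.lf (nat_lit 0) (nat_lit 10538294515) (nat_lit 912) (nat_lit 8902422755) (nat_lit 76) (nat_lit 4369173142) (nat_lit 367) (nat_lit 5) (nat_lit 379) (nat_lit 5) (nat_lit 368) (nat_lit 5) (nat_lit 485) (nat_lit 451) (nat_lit 204)) (XT.lf (nat_lit 0) (nat_lit 3898625566) (nat_lit 836) (nat_lit 9351162499) (nat_lit 912) (nat_lit 10823992701) (nat_lit 356) (nat_lit 5) (nat_lit 367) (nat_lit 5) (nat_lit 368) (nat_lit 5) (nat_lit 486) (nat_lit 451) (nat_lit 203))))) (XT.nd (nat_lit 234) (nat_lit 1596) (nat_lit 0) (XT.nd (nat_lit 78) (nat_lit 760) (nat_lit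 0) (XT.lf (nat_lit 0) (nat_lit 16078349000) (nat_lit 912) (nat_lit 7275343672) (nat_lit 76) (nat_lit 988000173) (nat_lit 356) (nat_lit 5) (nat_lit 368) (nat_lit 5) (nat_lit 357) (nat_lit 5) (nat_lit 487) (nat_lit 451) (nat_lit 202)) (XT.nd (nat_lit 78) (nat_lit 0) (nat_lit 0) (XT.lf (nat_lit 0) (nat_lit 5894451317) (nat_lit 760) (nat_lit 13165893113) (nat_lit 836) (nat_lit 5552682124) (nat_lit 346) (nat_lit 5) (nat_lit 356) (nat_lit 5) (nat_lit 357) (nat_lit 5) (nat_lit 488) (nat_lit 451) (nat_lit 201)) (XT.lf (nat_lit 0) (nat_lit 19422892387) (nat_lit 760) (nat_lit 2724616658) (nat_lit 836) (nat_lit 2741367947) (nat_lit 346) (nat_lit 5) (nat_lit 356) (nat_lit 5) (nat_lit 357) (nat_lit 5) (nat_lit 489) (nat_lit 451) (nat_lit 200)))) (XT.nd (nat_lit 78) (nat_lit 760) (nat_lit 0) (XT.lf (nat_lit 0) (nat_lit 226025134) (nat_lit 836) (nat_lit 17066608896) (nat_lit 76) (nat_lit 7875564494) (nat_lit 335) (nat_lit 5) (nat_lit 346)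 (nat_lit 5) (nat_lit 336) (nat_lit 5) (nat_lit 490) (nat_lit 451) (nat_lit 199)) (XT.nd (nat_lit 78) (nat_lit 760) (nat_lit 0) (XT.lf (nat_lit 0) (nat_lit 3267851654) (nat_lit 836) (nat_lit 3477594904) (nat_lit 76) (nat_lit 18706262275) (nat_lit 335) (nat_lit 5) (nat_lit 346) (nat_lit 5) (nat_lit 336) (nat_lit 5) (nat_lit 491) (nat_lit 451) (nat_lit 198)) (XT.lf (nat_lit 0) (nat_lit 6462162195) (nat_lit 836) (nat_lit 15248270996) (nat_lit 76) (nat_lit 4028623800) (nat_lit 325) (nat_lit 5) (nat_lit 336) (nat_lit 5) (nat_lit 326) (nat_lit 5) (nat_lit 492) (nat_lit 451) (nat_lit 197))))))))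
noncomputable def xc233 : XT := (XT.nd (nat_lit 56862) (nat_lit 0) (nat_lit 9500) (XT.nd (nat_lit 858) (nat_lit 1292) (nat_lit 0) (XT.nd (nat_lit 390) (nat_lit 2052) (nat_lit 0) (XT.nd (nat_lit 156) (nat_lit 1368) (nat_lit 0) (XT.nd (nat_lit 78) (nat_lit 760) (nat_lit 0) (XT.lf (nat_lit 0) (nat_lit 9785415514) (nat_lit 836) (nat_lit 1294199375) (nat_lit 76) (nat_lit 14951236673) (nat_lit 325) (nat_lit 5) (nat_lit 336) (nat_lit 5) (nat_lit 326) (nat_lit 5) (nat_lit 493) (nat_lit 451) (nat_lit 196)) (XT.lf (nat_lit 0) (nat_lit 13107565836) (nat_lit 760) (nat_lit 149625678) (nat_lit 836) (nat_lit 13069649926) (nat_lit 315) (nat_lit 5) (nat_lit 325) (nat_lit 5) (nat_lit 326) (nat_lit 5) (nat_lit 494) (nat_lit 451) (nat_lit 195))) (XT.nd (nat_lit 78) (nat_lit 684) (nat_lit 0) (XT.lf (nat_lit 0) (nat_lit 1126300492) (nat_lit 684) (nat_lit 15756561397) (nat_lit 760) (nat_lit 9744200610) (nat_lit 306) (nat_lit 5) (nat_lit 315) (nat_lit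 5) (nat_lit 316) (nat_lit 5) (nat_lit 495) (nat_lit 451) (nat_lit 194)) (XT.nd (nat_lit 78) (nat_lit 684) (nat_lit 0) (XT.lf (nat_lit 0) (nat_lit 15933663530) (nat_lit 684) (nat_lit 4734103635) (nat_lit 760) (nat_lit 6263786929) (nat_lit 306) (nat_lit 5) (nat_lit 315) (nat_lit 5) (nat_lit 316) (nat_lit 5) (nat_lit 496) (nat_lit 451) (nat_lit 193)) (XT.lf (nat_lit 0) (nat_lit 3799304419) (nat_lit 684) (nat_lit 20793078113) (nat_lit 760) (nat_lit 2648473288) (nat_lit 297) (nat_lit 5) (nat_lit 306) (nat_lit 5) (nat_lit 307) (nat_lit 5) (nat_lit 497) (nat_lit 451) (nat_lit 192))))) (XT.nd (nat_lit 234) (nat_lit 1292) (nat_lit 0) (XT.nd (nat_lit 78) (nat_lit 684) (nat_lit 0) (XT.lf (nat_lit 0) (nat_lit 1128261278) (nat_lit 760) (nat_lit 8555252491) (nat_lit 76) (nat_lit 17870640526) (nat_lit 296) (nat_lit 5) (nat_lit 306) (nat_lit 5) (nat_lit 297) (nat_lit 5) (nat_lit 498) (nat_lit 451) (nat_lit 191)) (XT.nd (nat_lit 78) (nat_lit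 0) (nat_lit 0) (XT.lf (nat_lit 0) (nat_lit 4996835041) (nat_lit 760) (nat_lit 21187864479) (nat_lit 76) (nat_lit 1687634245) (nat_lit 287) (nat_lit 5) (nat_lit 297) (nat_lit 5) (nat_lit 288) (nat_lit 5) (nat_lit 499) (nat_lit 451) (nat_lit 190)) (XT.lf (nat_lit 0) (nat_lit 9061889937) (nat_lit 760) (nat_lit 5918571490) (nat_lit 76) (nat_lit 13214033700) (nat_lit 287) (nat_lit 5) (nat_lit 297) (nat_lit 5) (nat_lit 288) (nat_lit 5) (nat_lit 500) (nat_lit 451) (nat_lit 189)))) (XT.nd (nat_lit 78) (nat_lit 608) (nat_lit 0) (XT.lf (nat_lit 0) (nat_lit 9781165932) (nat_lit 684) (nat_lit 3487830894) (nat_lit 760) (nat_lit 15252888359) (nat_lit 278) (nat_lit 5) (nat_lit 287) (nat_lit 5) (nat_lit 288) (nat_lit 5) (nat_lit 501) (nat_lit 451) (nat_lit 188)) (XT.nd (nat_lit 78) (nat_lit 608) (nat_lit 0) (XT.lf (nat_lit 0) (nat_lit 17650965620) (nat_lit 760) (nat_lit 3036884424) (nat_lit 76) (nat_lit 8166159080) (nat_lit 278) (nat_lit 5)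 (nat_lit 288) (nat_lit 5) (nat_lit 279) (nat_lit 5) (nat_lit 502) (nat_lit 451) (nat_lit 187)) (XT.lf (nat_lit 0) (nat_lit 13126900582) (nat_lit 608) (nat_lit 9099328588) (nat_lit 684) (nat_lit 6964433733) (nat_lit 270) (nat_lit 5) (nat_lit 278) (nat_lit 5) (nat_lit 279) (nat_lit 5) (nat_lit 503) (nat_lit 451) (nat_lit 186)))))) (XT.nd (nat_lit 55536) (nat_lit 0) (nat_lit 14820) (XT.nd (nat_lit 55302) (nat_lit 0) (nat_lit 14744) (XT.nd (nat_lit 78) (nat_lit 684) (nat_lit 0) (XT.lf (nat_lit 0) (nat_lit 101799955) (nat_lit 608) (nat_lit 26827396323) (nat_lit 684) (nat_lit 2604129970) (nat_lit 262) (nat_lit 5) (nat_lit 270) (nat_lit 5) (nat_lit 271) (nat_lit 5) (nat_lit 504) (nat_lit 451) (nat_lit 185)) (XT.nd (nat_lit 78) (nat_lit 608) (nat_lit 0) (XT.lf (nat_lit 0) (nat_lit 1985344552) (nat_lit 684) (nat_lit 13148440714) (nat_lit 76) (nat_lit 14745495848) (nat_lit 261) (nat_lit 5) (nat_lit 270) (nat_lit 5) (nat_lit 262) (nat_lit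 5) (nat_lit 505) (nat_lit 451) (nat_lit 184)) (XT.lf (nat_lit 0) (nat_lit 3485605416) (nat_lit 608) (nat_lit 3166219175) (nat_lit 684) (nat_lit 23579584946) (nat_lit 253) (nat_lit 5) (nat_lit 261) (nat_lit 5) (nat_lit 262) (nat_lit 5) (nat_lit 506) (nat_lit 451) (nat_lit 183)))) (XT.nd (nat_lit 78) (nat_lit 0) (nat_lit 0) (XT.lf (nat_lit 0) (nat_lit 1746548525) (nat_lit 0) (nat_lit 1746548525) (nat_lit 1748) (nat_lit 5047403790) (nat_lit 447) (nat_lit 5) (nat_lit 447) (nat_lit 3) (nat_lit 470) (nat_lit 3) (nat_lit 452) (nat_lit 452) (nat_lit 236)) (XT.nd (nat_lit 78) (nat_lit 0) (nat_lit 0) (XT.lf (nat_lit 0) (nat_lit 7312949588) (nat_lit 1748) (nat_lit 5315091139) (nat_lit 1824) (nat_lit 4618583219) (nat_lit 447) (nat_lit 5) (nat_lit 470) (nat_lit 3) (nat_lit 471) (nat_lit 5) (nat_lit 453) (nat_lit 452) (nat_lit 235)) (XT.lf (nat_lit 76) (nat_lit 3138092052) (nat_lit 0) (nat_lit 4545733700) (nat_lit 1824) (nat_lit 9730982503)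 (nat_lit 448) (nat_lit 5) (nat_lit 447) (nat_lit 5) (nat_lit 471) (nat_lit 5) (nat_lit 454) (nat_lit 452) (nat_lit 234))))) (XT.nd (nat_lit 234) (nat_lit 0) (nat_lit 76) (XT.nd (nat_lit 78) (nat_lit 0) (nat_lit 0) (XT.lf (nat_lit 0) (nat_lit 8116225722) (nat_lit 1748) (nat_lit 5780729269) (nat_lit 1824) (nat_lit 3688320415) (nat_lit 448) (nat_lit 5) (nat_lit 471) (nat_lit 5) (nat_lit 472) (nat_lit 5) (nat_lit 455) (nat_lit 452) (nat_lit 233)) (XT.nd (nat_lit 78) (nat_lit 0) (nat_lit 76) (XT.lf (nat_lit 76) (nat_lit 2889811618) (nat_lit 0) (nat_lit 5710634455) (nat_lit 1824) (nat_lit 9157843637) (nat_lit 449) (nat_lit 5) (nat_lit 448) (nat_lit 5) (nat_lit 472) (nat_lit 5) (nat_lit 456) (nat_lit 452) (nat_lit 232)) (XT.lf (nat_lit 0) (nat_lit 9144949140) (nat_lit 1748) (nat_lit 6142530017) (nat_lit 1824) (nat_lit 2646274411) (nat_lit 449) (nat_lit 5) (nat_lit 472) (nat_lit 5) (nat_lit 473) (nat_lit 5) (nat_lit 457) (nat_lit 452)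 (nat_lit 231)))) (XT.nd (nat_lit 78) (nat_lit 0) (nat_lit 76) (XT.lf (nat_lit 76) (nat_lit 2753018240) (nat_lit 0) (nat_lit 6997539627) (nat_lit 1824) (nat_lit 8361165732) (nat_lit 450) (nat_lit 5) (nat_lit 449) (nat_lit 5) (nat_lit 473) (nat_lit 5) (nat_lit 458) (nat_lit 452) (nat_lit 230)) (XT.nd (nat_lit 78) (nat_lit 0) (nat_lit 0) (XT.lf (nat_lit 0) (nat_lit 10413862400) (nat_lit 1748) (nat_lit 6395736703) (nat_lit 1824) (nat_lit 1482743439) (nat_lit 450) (nat_lit 5) (nat_lit 473) (nat_lit 5) (nat_lit 474) (nat_lit 5) (nat_lit 459) (nat_lit 452) (nat_lit 229)) (XT.lf (nat_lit 76) (nat_lit 2732746775) (nat_lit 0) (nat_lit 8416499249) (nat_lit 1824) (nat_lit 7326152743) (nat_lit 451) (nat_lit 5) (nat_lit 450) (nat_lit 5) (nat_lit 474) (nat_lit 5) (nat_lit 460) (nat_lit 452) (nat_lit 228))))))) (XT.nd (nat_lit 936) (nat_lit 3952) (nat_lit 0) (XT.nd (nat_lit 468) (nat_lit 1596) (nat_lit 0) (XT.nd (nat_lit 234) (nat_lit 0) (nat_lit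 76) (XT.nd (nat_lit 78) (nat_lit 0) (nat_lit 0) (XT.lf (nat_lit 0) (nat_lit 11938302333) (nat_lit 1748) (nat_lit 6535324133) (nat_lit 1824) (nat_lit 187711489) (nat_lit 451) (nat_lit 5) (nat_lit 474) (nat_lit 5) (nat_lit 475) (nat_lit 5) (nat_lit 461) (nat_lit 452) (nat_lit 227)) (XT.nd (nat_lit 78) (nat_lit 0) (nat_lit 0) (XT.lf (nat_lit 76) (nat_lit 2834309818) (nat_lit 0) (nat_lit 9977896137) (nat_lit 1824) (nat_lit 6037409765) (nat_lit 452) (nat_lit 5) (nat_lit 451) (nat_lit 5) (nat_lit 475) (nat_lit 5) (nat_lit 462) (nat_lit 452) (nat_lit 226)) (XT.lf (nat_lit 76) (nat_lit 12476671489) (nat_lit 0) (nat_lit 1265775567) (nat_lit 1824) (nat_lit 5298435890) (nat_lit 452) (nat_lit 5) (nat_lit 451) (nat_lit 5) (nat_lit 475) (nat_lit 5) (nat_lit 463) (nat_lit 452) (nat_lit 225)))) (XT.nd (nat_lit 78) (nat_lit 0) (nat_lit 0) (XT.lf (nat_lit 76) (nat_lit 3063303396) (nat_lit 0) (nat_lit 11692469488) (nat_lit 1824) (nat_lit 4478914109)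 (nat_lit 453) (nat_lit 5) (nat_lit 452) (nat_lit 5) (nat_lit 476) (nat_lit 5) (nat_lit 464) (nat_lit 452) (nat_lit 224)) (XT.nd (nat_lit 78) (nat_lit 0) (nat_lit 76) (XT.lf (nat_lit 76) (nat_lit 12960576504) (nat_lit 0) (nat_lit 2876353051) (nat_lit 1824) (nat_lit 3594487331) (nat_lit 453) (nat_lit 5) (nat_lit 452) (nat_lit 5) (nat_lit 476) (nat_lit 5) (nat_lit 465) (nat_lit 452) (nat_lit 223)) (XT.lf (nat_lit 76) (nat_lit 3425613005) (nat_lit 0) (nat_lit 13571339063) (nat_lit 1824) (nat_lit 2633985486) (nat_lit 454) (nat_lit 5) (nat_lit 453) (nat_lit 5) (nat_lit 477) (nat_lit 5) (nat_lit 466) (nat_lit 452) (nat_lit 222))))) (XT.nd (nat_lit 234) (nat_lit 0) (nat_lit 76) (XT.nd (nat_lit 78) (nat_lit 1748) (nat_lit 0) (XT.lf (nat_lit 76) (nat_lit 13585110862) (nat_lit 0) (nat_lit 4652772880) (nat_lit 1824) (nat_lit 1595411732) (nat_lit 454) (nat_lit 5) (nat_lit 453) (nat_lit 5) (nat_lit 477) (nat_lit 5) (nat_lit 467) (nat_lit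 452) (nat_lit 221)) (XT.nd (nat_lit 78) (nat_lit 1824) (nat_lit 0) (XT.lf (nat_lit 76) (nat_lit 3927419962) (nat_lit 0) (nat_lit 15626030019) (nat_lit 1824) (nat_lit 485255243) (nat_lit 455) (nat_lit 5) (nat_lit 454) (nat_lit 5) (nat_lit 478) (nat_lit 5) (nat_lit 468) (nat_lit 452) (nat_lit 220)) (XT.lf (nat_lit 0) (nat_lit 707135802) (nat_lit 1824) (nat_lit 5894815713) (nat_lit 1900) (nat_lit 13644818212) (nat_lit 430) (nat_lit 5) (nat_lit 454) (nat_lit 5) (nat_lit 455) (nat_lit 5) (nat_lit 469) (nat_lit 452) (nat_lit 219)))) (XT.nd (nat_lit 78) (nat_lit 0) (nat_lit 0) (XT.lf (nat_lit 0) (nat_lit 1959326965) (nat_lit 1824) (nat_lit 15896023354) (nat_lit 1900) (nat_lit 2602732989) (nat_lit 431) (nat_lit 5) (nat_lit 455) (nat_lit 5) (nat_lit 456) (nat_lit 5) (nat_lit 470) (nat_lit 452) (nat_lit 218)) (XT.nd (nat_lit 78) (nat_lit 0) (nat_lit 76) (XT.lf (nat_lit 0) (nat_lit 3315762111) (nat_lit 1824) (nat_lit 5412214888) (nat_lit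 1900) (nat_lit 11944063072) (nat_lit 431) (nat_lit 5) (nat_lit 455) (nat_lit 5) (nat_lit 456) (nat_lit 5) (nat_lit 471) (nat_lit 452) (nat_lit 217)) (XT.lf (nat_lit 0) (nat_lit 4733808267) (nat_lit 1824) (nat_lit 15545582979) (nat_lit 1900) (nat_lit 610195976) (nat_lit 432) (nat_lit 5) (nat_lit 456) (nat_lit 5) (nat_lit 457) (nat_lit 5) (nat_lit 472) (nat_lit 452) (nat_lit 216)))))) (XT.nd (nat_lit 468) (nat_lit 2812) (nat_lit 0) (XT.nd (nat_lit 234) (nat_lit 1292) (nat_lit 0) (XT.nd (nat_lit 78) (nat_lit 0) (nat_lit 0) (XT.lf (nat_lit 0) (nat_lit 6270388248) (nat_lit 1824) (nat_lit 4783469749) (nat_lit 1900) (nat_lit 10055824743) (nat_lit 432) (nat_lit 5) (nat_lit 456) (nat_lit 5) (nat_lit 457) (nat_lit 5) (nat_lit 473) (nat_lit 452) (nat_lit 215)) (XT.nd (nat_lit 78) (nat_lit 0) (nat_lit 76) (XT.lf (nat_lit 76) (nat_lit 6272840599) (nat_lit 0) (nat_lit 1601481179) (nat_lit 1900) (nat_lit 13459126814) (nat_lit 433) (nat_lit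 5) (nat_lit 432) (nat_lit 5) (nat_lit 457) (nat_lit 5) (nat_lit 474) (nat_lit 452) (nat_lit 214)) (XT.lf (nat_lit 0) (nat_lit 9590805323) (nat_lit 1824) (nat_lit 4001722086) (nat_lit 1900) (nat_lit 7967553771) (nat_lit 433) (nat_lit 5) (nat_lit 457) (nat_lit 5) (nat_lit 458) (nat_lit 5) (nat_lit 475) (nat_lit 452) (nat_lit 213)))) (XT.nd (nat_lit 78) (nat_lit 1368) (nat_lit 0) (XT.lf (nat_lit 76) (nat_lit 7360962880) (nat_lit 0) (nat_lit 4035091513) (nat_lit 1900) (nat_lit 10394104140) (nat_lit 434) (nat_lit 5) (nat_lit 433) (nat_lit 5) (nat_lit 458) (nat_lit 5) (nat_lit 476) (nat_lit 452) (nat_lit 212)) (XT.nd (nat_lit 78) (nat_lit 1444) (nat_lit 0) (XT.lf (nat_lit 0) (nat_lit 13297633809) (nat_lit 1824) (nat_lit 3059802343) (nat_lit 76) (nat_lit 5666197586) (nat_lit 434) (nat_lit 5) (nat_lit 458) (nat_lit 5) (nat_lit 435) (nat_lit 5) (nat_lit 477) (nat_lit 452) (nat_lit 211)) (XT.lf (nat_lit 0) (nat_lit 8620001100) (nat_lit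 1444) (nat_lit 6696107523) (nat_lit 1520) (nat_lit 6944093347) (nat_lit 415) (nat_lit 5) (nat_lit 434) (nat_lit 5) (nat_lit 435) (nat_lit 5) (nat_lit 478) (nat_lit 452) (nat_lit 210))))) (XT.nd (nat_lit 234) (nat_lit 1900) (nat_lit 0) (XT.nd (nat_lit 78) (nat_lit 912) (nat_lit 0) (XT.lf (nat_lit 0) (nat_lit 17412359942) (nat_lit 1520) (nat_lit 1950222327) (nat_lit 76) (nat_lit 3138171938) (nat_lit 415) (nat_lit 5) (nat_lit 435) (nat_lit 5) (nat_lit 416) (nat_lit 5) (nat_lit 479) (nat_lit 452) (nat_lit 209)) (XT.nd (nat_lit 78) (nat_lit 0) (nat_lit 0) (XT.lf (nat_lit 0) (nat_lit 10057821089) (nat_lit 912) (nat_lit 9598667627) (nat_lit 988) (nat_lit 3087510491) (nat_lit 403) (nat_lit 5) (nat_lit 415) (nat_lit 5) (nat_lit 416) (nat_lit 5) (nat_lit 480) (nat_lit 452) (nat_lit 208)) (XT.lf (nat_lit 0) (nat_lit 21957373360) (nat_lit 988) (nat_lit 665167686) (nat_lit 76) (nat_lit 369331347) (nat_lit 403) (nat_lit 5) (nat_lit 416)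 (nat_lit 5) (nat_lit 404) (nat_lit 5) (nat_lit 481) (nat_lit 452) (nat_lit 207)))) (XT.nd (nat_lit 78) (nat_lit 912) (nat_lit 0) (XT.lf (nat_lit 0) (nat_lit 1182424032) (nat_lit 988) (nat_lit 11567138800) (nat_lit 76) (nat_lit 10492268387) (nat_lit 390) (nat_lit 5) (nat_lit 403) (nat_lit 5) (nat_lit 391) (nat_lit 5) (nat_lit 482) (nat_lit 452) (nat_lit 206)) (XT.nd (nat_lit 78) (nat_lit 0) (nat_lit 0) (XT.lf (nat_lit 0) (nat_lit 773617431) (nat_lit 912) (nat_lit 2662200144) (nat_lit 988) (nat_lit 20060715914) (nat_lit 378) (nat_lit 5) (nat_lit 390) (nat_lit 5) (nat_lit 391) (nat_lit 5) (nat_lit 483) (nat_lit 452) (nat_lit 205)) (XT.lf (nat_lit 0) (nat_lit 5858438033) (nat_lit 988) (nat_lit 10290190587) (nat_lit 76) (nat_lit 7605218698) (nat_lit 378) (nat_lit 5) (nat_lit 391) (nat_lit 5) (nat_lit 379) (nat_lit 5) (nat_lit 484) (nat_lit 452) (nat_lit 204))))))))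
noncomputable def xc234 : XT := (XT.nd (nat_lit 56940) (nat_lit 0) (nat_lit 12844) (XT.nd (nat_lit 858) (nat_lit 4104) (nat_lit 0) (XT.nd (nat_lit 390) (nat_lit 2356) (nat_lit 0) (XT.nd (nat_lit 156) (nat_lit 1596) (nat_lit 0) (XT.nd (nat_lit 78) (nat_lit 0) (nat_lit 0) (XT.lf (nat_lit 0) (nat_lit 2401759806) (nat_lit 836) (nat_lit 5957548360) (nat_lit 912) (nat_lit 15656403992) (nat_lit 367) (nat_lit 5) (nat_lit 378) (nat_lit 5) (nat_lit 379) (nat_lit 5) (nat_lit 485) (nat_lit 452) (nat_lit 203)) (XT.lf (nat_lit 0) (nat_lit 11005135425) (nat_lit 912) (nat_lit 8827011236) (nat_lit 76) (nat_lit 4448769509) (nat_lit 367) (nat_lit 5) (nat_lit 379) (nat_lit 5) (nat_lit 368) (nat_lit 5) (nat_lit 486) (nat_lit 452) (nat_lit 202))) (XT.nd (nat_lit 78) (nat_lit 760) (nat_lit 0) (XT.lf (nat_lit 0) (nat_lit 4228390551) (nat_lit 836) (nat_lit 9539082020) (nat_lit 912) (nat_lit 10782680477) (nat_lit 356) (nat_lit 5) (nat_lit 367) (nat_lit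 5) (nat_lit 368) (nat_lit 5) (nat_lit 487) (nat_lit 452) (nat_lit 201)) (XT.nd (nat_lit 78) (nat_lit 760) (nat_lit 0) (XT.lf (nat_lit 0) (nat_lit 16647644338) (nat_lit 912) (nat_lit 7168986205) (nat_lit 76) (nat_lit 1006893004) (nat_lit 356) (nat_lit 5) (nat_lit 368) (nat_lit 5) (nat_lit 357) (nat_lit 5) (nat_lit 488) (nat_lit 452) (nat_lit 200)) (XT.lf (nat_lit 0) (nat_lit 6262547682) (nat_lit 760) (nat_lit 13423499088) (nat_lit 836) (nat_lit 5414302772) (nat_lit 346) (nat_lit 5) (nat_lit 356) (nat_lit 5) (nat_lit 357) (nat_lit 5) (nat_lit 489) (nat_lit 452) (nat_lit 199))))) (XT.nd (nat_lit 234) (nat_lit 1520) (nat_lit 0) (XT.nd (nat_lit 78) (nat_lit 836) (nat_lit 0) (XT.lf (nat_lit 0) (nat_lit 20056651547) (nat_lit 760) (nat_lit 2773509103) (nat_lit 836) (nat_lit 2551653154) (nat_lit 346) (nat_lit 5) (nat_lit 356) (nat_lit 5) (nat_lit 357) (nat_lit 5) (nat_lit 490) (nat_lit 452) (nat_lit 198)) (XT.nd (nat_lit 78) (nat_lit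 0) (nat_lit 0) (XT.lf (nat_lit 0) (nat_lit 468808250) (nat_lit 836) (nat_lit 17156269552) (nat_lit 76) (nat_lit 8041674554) (nat_lit 335) (nat_lit 5) (nat_lit 346) (nat_lit 5) (nat_lit 336) (nat_lit 5) (nat_lit 491) (nat_lit 452) (nat_lit 197)) (XT.lf (nat_lit 0) (nat_lit 3566799485) (nat_lit 836) (nat_lit 3300410016) (nat_lit 76) (nat_lit 19088817687) (nat_lit 335) (nat_lit 5) (nat_lit 346) (nat_lit 5) (nat_lit 336) (nat_lit 5) (nat_lit 492) (nat_lit 452) (nat_lit 196)))) (XT.nd (nat_lit 78) (nat_lit 760) (nat_lit 0) (XT.lf (nat_lit 0) (nat_lit 6822101683) (nat_lit 836) (nat_lit 15303561931) (nat_lit 76) (nat_lit 4123517448) (nat_lit 325) (nat_lit 5) (nat_lit 336) (nat_lit 5) (nat_lit 326) (nat_lit 5) (nat_lit 493) (nat_lit 452) (nat_lit 195)) (XT.nd (nat_lit 78) (nat_lit 760) (nat_lit 0) (XT.lf (nat_lit 0) (nat_lit 10207296612) (nat_lit 836) (nat_lit 1075304456) (nat_lit 76) (nat_lit 15264301771) (nat_lit 325) (nat_lit 5)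 (nat_lit 336) (nat_lit 5) (nat_lit 326) (nat_lit 5) (nat_lit 494) (nat_lit 452) (nat_lit 194)) (XT.lf (nat_lit 0) (nat_lit 13612885671) (nat_lit 760) (nat_lit 132766512) (nat_lit 836) (nat_lit 13103218281) (nat_lit 315) (nat_lit 5) (nat_lit 325) (nat_lit 5) (nat_lit 326) (nat_lit 5) (nat_lit 495) (nat_lit 452) (nat_lit 193)))))) (XT.nd (nat_lit 468) (nat_lit 1976) (nat_lit 0) (XT.nd (nat_lit 234) (nat_lit 760) (nat_lit 0) (XT.nd (nat_lit 78) (nat_lit 684) (nat_lit 0) (XT.lf (nat_lit 0) (nat_lit 1394745334) (nat_lit 684) (nat_lit 16046434900) (nat_lit 760) (nat_lit 9713969636) (nat_lit 306) (nat_lit 5) (nat_lit 315) (nat_lit 5) (nat_lit 316) (nat_lit 5) (nat_lit 496) (nat_lit 452) (nat_lit 192)) (XT.nd (nat_lit 78) (nat_lit 684) (nat_lit 0) (XT.lf (nat_lit 0) (nat_lit 16493433695) (nat_lit 684) (nat_lit 4804023233) (nat_lit 760) (nat_lit 6168361701) (nat_lit 306) (nat_lit 5) (nat_lit 315) (nat_lit 5) (nat_lit 316) (nat_lit 5)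 (nat_lit 497) (nat_lit 452) (nat_lit 191)) (XT.lf (nat_lit 0) (nat_lit 4118979341) (nat_lit 684) (nat_lit 21179083222) (nat_lit 760) (nat_lit 2483294649) (nat_lit 297) (nat_lit 5) (nat_lit 306) (nat_lit 5) (nat_lit 307) (nat_lit 5) (nat_lit 498) (nat_lit 452) (nat_lit 190)))) (XT.nd (nat_lit 78) (nat_lit 684) (nat_lit 0) (XT.lf (nat_lit 0) (nat_lit 1361892241) (nat_lit 760) (nat_lit 8484604407) (nat_lit 76) (nat_lit 18254481858) (nat_lit 296) (nat_lit 5) (nat_lit 306) (nat_lit 5) (nat_lit 297) (nat_lit 5) (nat_lit 499) (nat_lit 452) (nat_lit 189)) (XT.nd (nat_lit 78) (nat_lit 0) (nat_lit 0) (XT.lf (nat_lit 0) (nat_lit 5305463894) (nat_lit 760) (nat_lit 21367458226) (nat_lit 76) (nat_lit 1752647654) (nat_lit 287) (nat_lit 5) (nat_lit 297) (nat_lit 5) (nat_lit 288) (nat_lit 5) (nat_lit 500) (nat_lit 452) (nat_lit 188)) (XT.lf (nat_lit 0) (nat_lit 9447727885) (nat_lit 760) (nat_lit 5797566898) (nat_lit 76) (nat_lit 13508962143)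 (nat_lit 287) (nat_lit 5) (nat_lit 297) (nat_lit 5) (nat_lit 288) (nat_lit 5) (nat_lit 501) (nat_lit 452) (nat_lit 187))))) (XT.nd (nat_lit 234) (nat_lit 684) (nat_lit 0) (XT.nd (nat_lit 78) (nat_lit 608) (nat_lit 0) (XT.lf (nat_lit 0) (nat_lit 10214590430) (nat_lit 684) (nat_lit 3521918676) (nat_lit 760) (nat_lit 15351735742) (nat_lit 278) (nat_lit 5) (nat_lit 287) (nat_lit 5) (nat_lit 288) (nat_lit 5) (nat_lit 502) (nat_lit 452) (nat_lit 186)) (XT.nd (nat_lit 78) (nat_lit 608) (nat_lit 0) (XT.lf (nat_lit 0) (nat_lit 18202380942) (nat_lit 760) (nat_lit 2860712667) (nat_lit 76) (nat_lit 8363993078) (nat_lit 278) (nat_lit 5) (nat_lit 288) (nat_lit 5) (nat_lit 279) (nat_lit 5) (nat_lit 503) (nat_lit 452) (nat_lit 185)) (XT.lf (nat_lit 0) (nat_lit 13624789424) (nat_lit 608) (nat_lit 9241998275) (nat_lit 684) (nat_lit 6903733764) (nat_lit 270) (nat_lit 5) (nat_lit 278) (nat_lit 5) (nat_lit 279) (nat_lit 5) (nat_lit 504) (nat_lit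 452) (nat_lit 184)))) (XT.nd (nat_lit 78) (nat_lit 76) (nat_lit 0) (XT.lf (nat_lit 0) (nat_lit 341313512) (nat_lit 608) (nat_lit 27320448963) (nat_lit 684) (nat_lit 2458317301) (nat_lit 262) (nat_lit 5) (nat_lit 270) (nat_lit 5) (nat_lit 271) (nat_lit 5) (nat_lit 505) (nat_lit 452) (nat_lit 183)) (XT.nd (nat_lit 55224) (nat_lit 0) (nat_lit 14136) (XT.lf (nat_lit 0) (nat_lit 2216521871) (nat_lit 684) (nat_lit 13176011795) (nat_lit 76) (nat_lit 15080471605) (nat_lit 261) (nat_lit 5) (nat_lit 270) (nat_lit 5) (nat_lit 262) (nat_lit 5) (nat_lit 506) (nat_lit 452) (nat_lit 182)) (XT.lf (nat_lit 0) (nat_lit 1893998240) (nat_lit 0) (nat_lit 1893998240) (nat_lit 1748) (nat_lit 4918764070) (nat_lit 447) (nat_lit 5) (nat_lit 447) (nat_lit 3) (nat_lit 470) (nat_lit 3) (nat_lit 453) (nat_lit 453) (nat_lit 234))))))) (XT.nd (nat_lit 936) (nat_lit 1292) (nat_lit 0) (XT.nd (nat_lit 468) (nat_lit 0) (nat_lit 228) (XT.nd (nat_lit 234) (nat_lit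 0) (nat_lit 76) (XT.nd (nat_lit 78) (nat_lit 0) (nat_lit 0) (XT.lf (nat_lit 0) (nat_lit 7899026117) (nat_lit 1748) (nat_lit 5190413359) (nat_lit 1824) (nat_lit 4493223429) (nat_lit 447) (nat_lit 5) (nat_lit 470) (nat_lit 3) (nat_lit 471) (nat_lit 5) (nat_lit 454) (nat_lit 453) (nat_lit 233)) (XT.nd (nat_lit 78) (nat_lit 0) (nat_lit 76) (XT.lf (nat_lit 76) (nat_lit 3430313893) (nat_lit 0) (nat_lit 4839871845) (nat_lit 1824) (nat_lit 9484169749) (nat_lit 448) (nat_lit 5) (nat_lit 447) (nat_lit 5) (nat_lit 471) (nat_lit 5) (nat_lit 455) (nat_lit 453) (nat_lit 232)) (XT.lf (nat_lit 0) (nat_lit 8701456128) (nat_lit 1748) (nat_lit 5661512094) (nat_lit 1824) (nat_lit 3565461178) (nat_lit 448) (nat_lit 5) (nat_lit 471) (nat_lit 5) (nat_lit 472) (nat_lit 5) (nat_lit 456) (nat_lit 453) (nat_lit 231)))) (XT.nd (nat_lit 78) (nat_lit 0) (nat_lit 76) (XT.lf (nat_lit 76) (nat_lit 3180894665) (nat_lit 0) (nat_lit 6007688601) (nat_lit 1824)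 (nat_lit 8916458109) (nat_lit 449) (nat_lit 5) (nat_lit 448) (nat_lit 5) (nat_lit 472) (nat_lit 5) (nat_lit 457) (nat_lit 453) (nat_lit 230)) (XT.nd (nat_lit 78) (nat_lit 0) (nat_lit 0) (XT.lf (nat_lit 0) (nat_lit 9734653165) (nat_lit 1748) (nat_lit 6027255056) (nat_lit 1824) (nat_lit 2522294548) (nat_lit 449) (nat_lit 5) (nat_lit 472) (nat_lit 5) (nat_lit 473) (nat_lit 5) (nat_lit 458) (nat_lit 453) (nat_lit 229)) (XT.lf (nat_lit 76) (nat_lit 3044637550) (nat_lit 0) (nat_lit 7301295844) (nat_lit 1824) (nat_lit 8119929380) (nat_lit 450) (nat_lit 5) (nat_lit 449) (nat_lit 5) (nat_lit 473) (nat_lit 5) (nat_lit 459) (nat_lit 453) (nat_lit 228))))) (XT.nd (nat_lit 234) (nat_lit 0) (nat_lit 76) (XT.nd (nat_lit 78) (nat_lit 0) (nat_lit 0) (XT.lf (nat_lit 0) (nat_lit 11013611057) (nat_lit 1748) (nat_lit 6282751658) (nat_lit 1824) (nat_lit 1353910967) (nat_lit 450) (nat_lit 5) (nat_lit 473) (nat_lit 5) (nat_lit 474) (nat_lit 5) (nat_lit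 460) (nat_lit 453) (nat_lit 227)) (XT.nd (nat_lit 78) (nat_lit 0) (nat_lit 76) (XT.lf (nat_lit 76) (nat_lit 3026716624) (nat_lit 0) (nat_lit 8730863611) (nat_lit 1824) (nat_lit 7079534931) (nat_lit 451) (nat_lit 5) (nat_lit 450) (nat_lit 5) (nat_lit 474) (nat_lit 5) (nat_lit 461) (nat_lit 453) (nat_lit 226)) (XT.lf (nat_lit 0) (nat_lit 12553932241) (nat_lit 1748) (nat_lit 6422839790) (nat_lit 1824) (nat_lit 50172474) (nat_lit 451) (nat_lit 5) (nat_lit 474) (nat_lit 5) (nat_lit 475) (nat_lit 5) (nat_lit 462) (nat_lit 453) (nat_lit 225)))) (XT.nd (nat_lit 78) (nat_lit 0) (nat_lit 0) (XT.lf (nat_lit 76) (nat_lit 3132586901) (nat_lit 0) (nat_lit 10306906115) (nat_lit 1824) (nat_lit 5779612853) (nat_lit 452) (nat_lit 5) (nat_lit 451) (nat_lit 5) (nat_lit 475) (nat_lit 5) (nat_lit 463) (nat_lit 453) (nat_lit 224)) (XT.nd (nat_lit 78) (nat_lit 0) (nat_lit 76) (XT.lf (nat_lit 76) (nat_lit 12963058729) (nat_lit 0) (nat_lit 1418004859)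 (nat_lit 1824) (nat_lit 5033281953) (nat_lit 452) (nat_lit 5) (nat_lit 451) (nat_lit 5) (nat_lit 475) (nat_lit 5) (nat_lit 464) (nat_lit 453) (nat_lit 223)) (XT.lf (nat_lit 76) (nat_lit 3367990289) (nat_lit 0) (nat_lit 12040305544) (nat_lit 1824) (nat_lit 4203858601) (nat_lit 453) (nat_lit 5) (nat_lit 452) (nat_lit 5) (nat_lit 476) (nat_lit 5) (nat_lit 465) (nat_lit 453) (nat_lit 222)))))) (XT.nd (nat_lit 468) (nat_lit 0) (nat_lit 76) (XT.nd (nat_lit 234) (nat_lit 1672) (nat_lit 0) (XT.nd (nat_lit 78) (nat_lit 0) (nat_lit 76) (XT.lf (nat_lit 76) (nat_lit 13458435901) (nat_lit 0) (nat_lit 3045631745) (nat_lit 1824) (nat_lit 3308892971) (nat_lit 453) (nat_lit 5) (nat_lit 452) (nat_lit 5) (nat_lit 476) (nat_lit 5) (nat_lit 466) (nat_lit 453) (nat_lit 221)) (XT.nd (nat_lit 78) (nat_lit 0) (nat_lit 0) (XT.lf (nat_lit 76) (nat_lit 3738961871) (nat_lit 0) (nat_lit 13942336464) (nat_lit 1824) (nat_lit 2335294712) (nat_lit 454) (nat_lit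 5) (nat_lit 453) (nat_lit 5) (nat_lit 477) (nat_lit 5) (nat_lit 467) (nat_lit 453) (nat_lit 220)) (XT.lf (nat_lit 76) (nat_lit 14096848967) (nat_lit 0) (nat_lit 4843446591) (nat_lit 1824) (nat_lit 1282839100) (nat_lit 454) (nat_lit 5) (nat_lit 453) (nat_lit 5) (nat_lit 477) (nat_lit 5) (nat_lit 468) (nat_lit 453) (nat_lit 219)))) (XT.nd (nat_lit 78) (nat_lit 1824) (nat_lit 0) (XT.lf (nat_lit 76) (nat_lit 4251836510) (nat_lit 0) (nat_lit 16024690907) (nat_lit 1824) (nat_lit 156239545) (nat_lit 455) (nat_lit 5) (nat_lit 454) (nat_lit 5) (nat_lit 478) (nat_lit 5) (nat_lit 469) (nat_lit 453) (nat_lit 218)) (XT.nd (nat_lit 78) (nat_lit 0) (nat_lit 76) (XT.lf (nat_lit 0) (nat_lit 1049002459) (nat_lit 1824) (nat_lit 5767240149) (nat_lit 1900) (nat_lit 13828838641) (nat_lit 430) (nat_lit 5) (nat_lit 454) (nat_lit 5) (nat_lit 455) (nat_lit 5) (nat_lit 470) (nat_lit 453) (nat_lit 217)) (XT.lf (nat_lit 0) (nat_lit 2320881687) (nat_lit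 1824) (nat_lit 15963048152) (nat_lit 1900) (nat_lit 2576799737) (nat_lit 431) (nat_lit 5) (nat_lit 455) (nat_lit 5) (nat_lit 456) (nat_lit 5) (nat_lit 471) (nat_lit 453) (nat_lit 216))))) (XT.nd (nat_lit 234) (nat_lit 0) (nat_lit 76) (XT.nd (nat_lit 78) (nat_lit 0) (nat_lit 76) (XT.lf (nat_lit 0) (nat_lit 3698124592) (nat_lit 1824) (nat_lit 5274483039) (nat_lit 1900) (nat_lit 12106485597) (nat_lit 431) (nat_lit 5) (nat_lit 455) (nat_lit 5) (nat_lit 456) (nat_lit 5) (nat_lit 472) (nat_lit 453) (nat_lit 215)) (XT.nd (nat_lit 78) (nat_lit 0) (nat_lit 0) (XT.lf (nat_lit 0) (nat_lit 5139485679) (nat_lit 1824) (nat_lit 15605407109) (nat_lit 1900) (nat_lit 556200763) (nat_lit 432) (nat_lit 5) (nat_lit 456) (nat_lit 5) (nat_lit 457) (nat_lit 5) (nat_lit 473) (nat_lit 453) (nat_lit 214)) (XT.lf (nat_lit 0) (nat_lit 6700699196) (nat_lit 1824) (nat_lit 4632974899) (nat_lit 1900) (nat_lit 10192040127) (nat_lit 432) (nat_lit 5) (nat_lit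 456) (nat_lit 5) (nat_lit 457) (nat_lit 5) (nat_lit 474) (nat_lit 453) (nat_lit 213)))) (XT.nd (nat_lit 78) (nat_lit 0) (nat_lit 76) (XT.lf (nat_lit 76) (nat_lit 6642842154) (nat_lit 0) (nat_lit 1689478494) (nat_lit 1900) (nat_lit 13421723814) (nat_lit 433) (nat_lit 5) (nat_lit 432) (nat_lit 5) (nat_lit 457) (nat_lit 5) (nat_lit 475) (nat_lit 453) (nat_lit 212)) (XT.nd (nat_lit 78) (nat_lit 0) (nat_lit 0) (XT.lf (nat_lit 0) (nat_lit 10076885210) (nat_lit 1824) (nat_lit 3835696504) (nat_lit 1900) (nat_lit 8072754194) (nat_lit 433) (nat_lit 5) (nat_lit 457) (nat_lit 5) (nat_lit 458) (nat_lit 5) (nat_lit 476) (nat_lit 453) (nat_lit 211)) (XT.lf (nat_lit 76) (nat_lit 7752623345) (nat_lit 0) (nat_lit 4161433113) (nat_lit 1900) (nat_lit 10306043214) (nat_lit 434) (nat_lit 5) (nat_lit 433) (nat_lit 5) (nat_lit 458) (nat_lit 5) (nat_lit 477) (nat_lit 453) (nat_lit 210))))))))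
noncomputable def xc235 : XT := (XT.nd (nat_lit 1794) (nat_lit 2584) (nat_lit 0) (XT.nd (nat_lit 858) (nat_lit 4560) (nat_lit 0) (XT.nd (nat_lit 390) (nat_lit 3572) (nat_lit 0) (XT.nd (nat_lit 156) (nat_lit 912) (nat_lit 0) (XT.nd (nat_lit 78) (nat_lit 1444) (nat_lit 0) (XT.lf (nat_lit 0) (nat_lit 13847689087) (nat_lit 1824) (nat_lit 2875312544) (nat_lit 76) (nat_lit 5735363503) (nat_lit 434) (nat_lit 5) (nat_lit 458) (nat_lit 5) (nat_lit 435) (nat_lit 5) (nat_lit 478) (nat_lit 453) (nat_lit 209)) (XT.lf (nat_lit 0) (nat_lit 9036470614) (nat_lit 1444) (nat_lit 6866076805) (nat_lit 1520) (nat_lit 6797198192) (nat_lit 415) (nat_lit 5) (nat_lit 434) (nat_lit 5) (nat_lit 435) (nat_lit 5) (nat_lit 479) (nat_lit 453) (nat_lit 208))) (XT.nd (nat_lit 78) (nat_lit 912) (nat_lit 0) (XT.lf (nat_lit 0) (nat_lit 18035001829) (nat_lit 1520) (nat_lit 1744164094) (nat_lit 76) (nat_lit 3166058547) (nat_lit 415) (nat_lit 5) (nat_lit 435) (nat_lit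 5) (nat_lit 416) (nat_lit 5) (nat_lit 480) (nat_lit 453) (nat_lit 207)) (XT.nd (nat_lit 78) (nat_lit 0) (nat_lit 0) (XT.lf (nat_lit 0) (nat_lit 10502427936) (nat_lit 912) (nat_lit 9817785596) (nat_lit 988) (nat_lit 2873197947) (nat_lit 403) (nat_lit 5) (nat_lit 415) (nat_lit 5) (nat_lit 416) (nat_lit 5) (nat_lit 481) (nat_lit 453) (nat_lit 206)) (XT.lf (nat_lit 0) (nat_lit 22661637298) (nat_lit 988) (nat_lit 434260866) (nat_lit 76) (nat_lit 350454631) (nat_lit 403) (nat_lit 5) (nat_lit 416) (nat_lit 5) (nat_lit 404) (nat_lit 5) (nat_lit 482) (nat_lit 453) (nat_lit 205))))) (XT.nd (nat_lit 234) (nat_lit 1672) (nat_lit 0) (XT.nd (nat_lit 78) (nat_lit 912) (nat_lit 0) (XT.lf (nat_lit 0) (nat_lit 1469350448) (nat_lit 988) (nat_lit 11552326630) (nat_lit 76) (nat_lit 10679672614) (nat_lit 390) (nat_lit 5) (nat_lit 403) (nat_lit 5) (nat_lit 391) (nat_lit 5) (nat_lit 483) (nat_lit 453) (nat_lit 204)) (XT.nd (nat_lit 78) (nat_lit 0)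 (nat_lit 0) (XT.lf (nat_lit 0) (nat_lit 1033625286) (nat_lit 912) (nat_lit 2730611951) (nat_lit 988) (nat_lit 20196981294) (nat_lit 378) (nat_lit 5) (nat_lit 390) (nat_lit 5) (nat_lit 391) (nat_lit 5) (nat_lit 484) (nat_lit 453) (nat_lit 203)) (XT.lf (nat_lit 0) (nat_lit 6230121333) (nat_lit 988) (nat_lit 10251014387) (nat_lit 76) (nat_lit 7742647703) (nat_lit 378) (nat_lit 5) (nat_lit 391) (nat_lit 5) (nat_lit 379) (nat_lit 5) (nat_lit 485) (nat_lit 453) (nat_lit 202)))) (XT.nd (nat_lit 78) (nat_lit 836) (nat_lit 0) (XT.lf (nat_lit 0) (nat_lit 2693163304) (nat_lit 836) (nat_lit 6084435193) (nat_lit 912) (nat_lit 15713356263) (nat_lit 367) (nat_lit 5) (nat_lit 378) (nat_lit 5) (nat_lit 379) (nat_lit 5) (nat_lit 486) (nat_lit 453) (nat_lit 201)) (XT.nd (nat_lit 78) (nat_lit 836) (nat_lit 0) (XT.lf (nat_lit 0) (nat_lit 11471369448) (nat_lit 912) (nat_lit 8759933647) (nat_lit 76) (nat_lit 4530260185) (nat_lit 367) (nat_lit 5)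 (nat_lit 379) (nat_lit 5) (nat_lit 368) (nat_lit 5) (nat_lit 487) (nat_lit 453) (nat_lit 200)) (XT.lf (nat_lit 0) (nat_lit 4554973427) (nat_lit 836) (nat_lit 9730725128) (nat_lit 912) (nat_lit 10750552389) (nat_lit 356) (nat_lit 5) (nat_lit 367) (nat_lit 5) (nat_lit 368) (nat_lit 5) (nat_lit 488) (nat_lit 453) (nat_lit 199)))))) (XT.nd (nat_lit 468) (nat_lit 2204) (nat_lit 0) (XT.nd (nat_lit 234) (nat_lit 1596) (nat_lit 0) (XT.nd (nat_lit 78) (nat_lit 760) (nat_lit 0) (XT.lf (nat_lit 0) (nat_lit 17218705989) (nat_lit 912) (nat_lit 7070281789) (nat_lit 76) (nat_lit 1026197365) (nat_lit 356) (nat_lit 5) (nat_lit 368) (nat_lit 5) (nat_lit 357) (nat_lit 5) (nat_lit 489) (nat_lit 453) (nat_lit 198)) (XT.nd (nat_lit 78) (nat_lit 0) (nat_lit 0) (XT.lf (nat_lit 0) (nat_lit 6628290117) (nat_lit 760) (nat_lit 13686478983) (nat_lit 836) (nat_lit 5282841619) (nat_lit 346) (nat_lit 5) (nat_lit 356) (nat_lit 5) (nat_lit 357) (nat_lit 5)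 (nat_lit 490) (nat_lit 453) (nat_lit 197)) (XT.lf (nat_lit 0) (nat_lit 20693560540) (nat_lit 760) (nat_lit 2823596846) (nat_lit 836) (nat_lit 2367639935) (nat_lit 346) (nat_lit 5) (nat_lit 356) (nat_lit 5) (nat_lit 357) (nat_lit 5) (nat_lit 491) (nat_lit 453) (nat_lit 196)))) (XT.nd (nat_lit 78) (nat_lit 760) (nat_lit 0) (XT.lf (nat_lit 0) (nat_lit 707195001) (nat_lit 836) (nat_lit 17257496133) (nat_lit 76) (nat_lit 8210772914) (nat_lit 335) (nat_lit 5) (nat_lit 346) (nat_lit 5) (nat_lit 336) (nat_lit 5) (nat_lit 492) (nat_lit 453) (nat_lit 195)) (XT.nd (nat_lit 78) (nat_lit 760) (nat_lit 0) (XT.lf (nat_lit 0) (nat_lit 3862655656) (nat_lit 836) (nat_lit 3129262520) (nat_lit 76) (nat_lit 19478696853) (nat_lit 335) (nat_lit 5) (nat_lit 346) (nat_lit 5) (nat_lit 336) (nat_lit 5) (nat_lit 493) (nat_lit 453) (nat_lit 194)) (XT.lf (nat_lit 0) (nat_lit 7180281744) (nat_lit 836) (nat_lit 15369653850) (nat_lit 76) (nat_lit 4219752861)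 (nat_lit 325) (nat_lit 5) (nat_lit 336) (nat_lit 5) (nat_lit 326) (nat_lit 5) (nat_lit 494) (nat_lit 453) (nat_lit 193))))) (XT.nd (nat_lit 234) (nat_lit 760) (nat_lit 0) (XT.nd (nat_lit 78) (nat_lit 1444) (nat_lit 0) (XT.lf (nat_lit 0) (nat_lit 10628832767) (nat_lit 836) (nat_lit 861536702) (nat_lit 76) (nat_lit 15583082967) (nat_lit 325) (nat_lit 5) (nat_lit 336) (nat_lit 5) (nat_lit 326) (nat_lit 5) (nat_lit 495) (nat_lit 453) (nat_lit 192)) (XT.nd (nat_lit 78) (nat_lit 684) (nat_lit 0) (XT.lf (nat_lit 0) (nat_lit 14118869374) (nat_lit 760) (nat_lit 116341026) (nat_lit 836) (nat_lit 13146304711) (nat_lit 315) (nat_lit 5) (nat_lit 325) (nat_lit 5) (nat_lit 326) (nat_lit 5) (nat_lit 496) (nat_lit 453) (nat_lit 191)) (XT.lf (nat_lit 0) (nat_lit 1659009745) (nat_lit 684) (nat_lit 16343086662) (nat_lit 760) (nat_lit 9691875532) (nat_lit 306) (nat_lit 5) (nat_lit 315) (nat_lit 5) (nat_lit 316) (nat_lit 5) (nat_lit 497) (nat_lit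 453) (nat_lit 190)))) (XT.nd (nat_lit 78) (nat_lit 760) (nat_lit 0) (XT.lf (nat_lit 0) (nat_lit 17055037177) (nat_lit 684) (nat_lit 4876302780) (nat_lit 760) (nat_lit 6079598056) (nat_lit 306) (nat_lit 5) (nat_lit 315) (nat_lit 5) (nat_lit 316) (nat_lit 5) (nat_lit 498) (nat_lit 453) (nat_lit 189)) (XT.nd (nat_lit 78) (nat_lit 76) (nat_lit 0) (XT.lf (nat_lit 0) (nat_lit 4435585028) (nat_lit 684) (nat_lit 21573967795) (nat_lit 760) (nat_lit 2323283394) (nat_lit 297) (nat_lit 5) (nat_lit 306) (nat_lit 5) (nat_lit 307) (nat_lit 5) (nat_lit 499) (nat_lit 453) (nat_lit 188)) (XT.lf (nat_lit 0) (nat_lit 1591999884) (nat_lit 760) (nat_lit 8421930931) (nat_lit 76) (nat_lit 18644973764) (nat_lit 296) (nat_lit 5) (nat_lit 306) (nat_lit 5) (nat_lit 297) (nat_lit 5) (nat_lit 500) (nat_lit 453) (nat_lit 187))))))) (XT.nd (nat_lit 56160) (nat_lit 0) (nat_lit 12768) (XT.nd (nat_lit 55692) (nat_lit 0) (nat_lit 14060) (XT.nd (nat_lit 234) (nat_lit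 1216) (nat_lit 0) (XT.nd (nat_lit 78) (nat_lit 684) (nat_lit 0) (XT.lf (nat_lit 0) (nat_lit 5612161553) (nat_lit 760) (nat_lit 21560125016) (nat_lit 76) (nat_lit 1817747440) (nat_lit 287) (nat_lit 5) (nat_lit 297) (nat_lit 5) (nat_lit 288) (nat_lit 5) (nat_lit 501) (nat_lit 453) (nat_lit 186)) (XT.nd (nat_lit 78) (nat_lit 684) (nat_lit 0) (XT.lf (nat_lit 0) (nat_lit 9833337718) (nat_lit 760) (nat_lit 5683437476) (nat_lit 76) (nat_lit 13808599064) (nat_lit 287) (nat_lit 5) (nat_lit 297) (nat_lit 5) (nat_lit 288) (nat_lit 5) (nat_lit 502) (nat_lit 453) (nat_lit 185)) (XT.lf (nat_lit 0) (nat_lit 10647449309) (nat_lit 684) (nat_lit 3558073279) (nat_lit 760) (nat_lit 15460567472) (nat_lit 278) (nat_lit 5) (nat_lit 287) (nat_lit 5) (nat_lit 288) (nat_lit 5) (nat_lit 503) (nat_lit 453) (nat_lit 184)))) (XT.nd (nat_lit 78) (nat_lit 1216) (nat_lit 0) (XT.lf (nat_lit 0) (nat_lit 18757120612) (nat_lit 760) (nat_lit 2690216958) (nat_lit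 76) (nat_lit 8564443658) (nat_lit 278) (nat_lit 5) (nat_lit 288) (nat_lit 5) (nat_lit 279) (nat_lit 5) (nat_lit 504) (nat_lit 453) (nat_lit 183)) (XT.nd (nat_lit 78) (nat_lit 608) (nat_lit 0) (XT.lf (nat_lit 0) (nat_lit 14123497083) (nat_lit 608) (nat_lit 9389048078) (nat_lit 684) (nat_lit 6849585599) (nat_lit 270) (nat_lit 5) (nat_lit 278) (nat_lit 5) (nat_lit 279) (nat_lit 5) (nat_lit 505) (nat_lit 453) (nat_lit 182)) (XT.lf (nat_lit 0) (nat_lit 576395798) (nat_lit 608) (nat_lit 27825051630) (nat_lit 684) (nat_lit 2317272894) (nat_lit 262) (nat_lit 5) (nat_lit 270) (nat_lit 5) (nat_lit 271) (nat_lit 5) (nat_lit 506) (nat_lit 453) (nat_lit 181))))) (XT.nd (nat_lit 234) (nat_lit 0) (nat_lit 76) (XT.nd (nat_lit 78) (nat_lit 0) (nat_lit 0) (XT.lf (nat_lit 0) (nat_lit 2040027710) (nat_lit 0) (nat_lit 2040027710) (nat_lit 1748) (nat_lit 4796466729) (nat_lit 447) (nat_lit 5) (nat_lit 447) (nat_lit 3) (nat_lit 470) (nat_lit 3) (nat_lit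 454) (nat_lit 454) (nat_lit 232)) (XT.nd (nat_lit 78) (nat_lit 0) (nat_lit 0) (XT.lf (nat_lit 0) (nat_lit 8479745526) (nat_lit 1748) (nat_lit 5072211243) (nat_lit 1824) (nat_lit 4373811221) (nat_lit 447) (nat_lit 5) (nat_lit 470) (nat_lit 3) (nat_lit 471) (nat_lit 5) (nat_lit 455) (nat_lit 454) (nat_lit 231)) (XT.lf (nat_lit 76) (nat_lit 3719469960) (nat_lit 0) (nat_lit 5132001336) (nat_lit 1824) (nat_lit 9249562099) (nat_lit 448) (nat_lit 5) (nat_lit 447) (nat_lit 5) (nat_lit 471) (nat_lit 5) (nat_lit 456) (nat_lit 454) (nat_lit 230)))) (XT.nd (nat_lit 78) (nat_lit 0) (nat_lit 0) (XT.lf (nat_lit 0) (nat_lit 9281969190) (nat_lit 1748) (nat_lit 5549029380) (nat_lit 1824) (nat_lit 3447779971) (nat_lit 448) (nat_lit 5) (nat_lit 471) (nat_lit 5) (nat_lit 472) (nat_lit 5) (nat_lit 457) (nat_lit 454) (nat_lit 229)) (XT.nd (nat_lit 78) (nat_lit 0) (nat_lit 76) (XT.lf (nat_lit 76) (nat_lit 3468740561) (nat_lit 0) (nat_lit 6303583874)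 (nat_lit 1824) (nat_lit 8686730368) (nat_lit 449) (nat_lit 5) (nat_lit 448) (nat_lit 5) (nat_lit 472) (nat_lit 5) (nat_lit 458) (nat_lit 454) (nat_lit 228)) (XT.lf (nat_lit 0) (nat_lit 10320354535) (nat_lit 1748) (nat_lit 5918921302) (nat_lit 1824) (nat_lit 2402704538) (nat_lit 449) (nat_lit 5) (nat_lit 472) (nat_lit 5) (nat_lit 473) (nat_lit 5) (nat_lit 459) (nat_lit 454) (nat_lit 227)))))) (XT.nd (nat_lit 468) (nat_lit 1444) (nat_lit 0) (XT.nd (nat_lit 234) (nat_lit 0) (nat_lit 76) (XT.nd (nat_lit 78) (nat_lit 0) (nat_lit 76) (XT.lf (nat_lit 76) (nat_lit 3332903374) (nat_lit 0) (nat_lit 7604766422) (nat_lit 1824) (nat_lit 7889729287) (nat_lit 450) (nat_lit 5) (nat_lit 449) (nat_lit 5) (nat_lit 473) (nat_lit 5) (nat_lit 460) (nat_lit 454) (nat_lit 226)) (XT.nd (nat_lit 78) (nat_lit 0) (nat_lit 0) (XT.lf (nat_lit 0) (nat_lit 11610153375) (nat_lit 1748) (nat_lit 6176861343) (nat_lit 1824) (nat_lit 1228656103) (nat_lit 450) (nat_lit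 5) (nat_lit 473) (nat_lit 5) (nat_lit 474) (nat_lit 5) (nat_lit 461) (nat_lit 454) (nat_lit 225)) (XT.lf (nat_lit 76) (nat_lit 3317272979) (nat_lit 0) (nat_lit 9045844568) (nat_lit 1824) (nat_lit 6843250901) (nat_lit 451) (nat_lit 5) (nat_lit 450) (nat_lit 5) (nat_lit 474) (nat_lit 5) (nat_lit 462) (nat_lit 454) (nat_lit 224)))) (XT.nd (nat_lit 78) (nat_lit 0) (nat_lit 76) (XT.lf (nat_lit 76) (nat_lit 13082042014) (nat_lit 0) (nat_lit 85755430) (nat_lit 1824) (nat_lit 6232350507) (nat_lit 451) (nat_lit 5) (nat_lit 450) (nat_lit 5) (nat_lit 474) (nat_lit 5) (nat_lit 463) (nat_lit 454) (nat_lit 223)) (XT.nd (nat_lit 78) (nat_lit 0) (nat_lit 0) (XT.lf (nat_lit 76) (nat_lit 3427448256) (nat_lit 0) (nat_lit 10637469512) (nat_lit 1824) (nat_lit 5531359370) (nat_lit 452) (nat_lit 5) (nat_lit 451) (nat_lit 5) (nat_lit 475) (nat_lit 5) (nat_lit 464) (nat_lit 454) (nat_lit 222)) (XT.lf (nat_lit 76) (nat_lit 13449976392) (nat_lit 0) (nat_lit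 1568350519) (nat_lit 1824) (nat_lit 4777236083) (nat_lit 452) (nat_lit 5) (nat_lit 451) (nat_lit 5) (nat_lit 475) (nat_lit 5) (nat_lit 465) (nat_lit 454) (nat_lit 221))))) (XT.nd (nat_lit 234) (nat_lit 1672) (nat_lit 0) (XT.nd (nat_lit 78) (nat_lit 0) (nat_lit 0) (XT.lf (nat_lit 76) (nat_lit 3669318592) (nat_lit 0) (nat_lit 12390672079) (nat_lit 1824) (nat_lit 3937461158) (nat_lit 453) (nat_lit 5) (nat_lit 452) (nat_lit 5) (nat_lit 476) (nat_lit 5) (nat_lit 466) (nat_lit 454) (nat_lit 220)) (XT.nd (nat_lit 78) (nat_lit 0) (nat_lit 76) (XT.lf (nat_lit 76) (nat_lit 13956985498) (nat_lit 0) (nat_lit 3213956561) (nat_lit 1824) (nat_lit 3031468266) (nat_lit 453) (nat_lit 5) (nat_lit 452) (nat_lit 5) (nat_lit 476) (nat_lit 5) (nat_lit 467) (nat_lit 454) (nat_lit 219)) (XT.lf (nat_lit 76) (nat_lit 4049070410) (nat_lit 0) (nat_lit 14316887363) (nat_lit 1824) (nat_lit 2044274266) (nat_lit 454) (nat_lit 5) (nat_lit 453) (nat_lit 5) (nat_lit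 477) (nat_lit 5) (nat_lit 468) (nat_lit 454) (nat_lit 218)))) (XT.nd (nat_lit 78) (nat_lit 1748) (nat_lit 0) (XT.lf (nat_lit 76) (nat_lit 14609500948) (nat_lit 0) (nat_lit 5034143141) (nat_lit 1824) (nat_lit 977391627) (nat_lit 454) (nat_lit 5) (nat_lit 453) (nat_lit 5) (nat_lit 477) (nat_lit 5) (nat_lit 469) (nat_lit 454) (nat_lit 217)) (XT.nd (nat_lit 78) (nat_lit 0) (nat_lit 0) (XT.lf (nat_lit 0) (nat_lit 164023736) (nat_lit 1824) (nat_lit 16262855658) (nat_lit 1900) (nat_lit 4408069608) (nat_lit 430) (nat_lit 5) (nat_lit 454) (nat_lit 5) (nat_lit 455) (nat_lit 5) (nat_lit 470) (nat_lit 454) (nat_lit 216)) (XT.lf (nat_lit 0) (nat_lit 1384980528) (nat_lit 1824) (nat_lit 5646645046) (nat_lit 1900) (nat_lit 14019990640) (nat_lit 430) (nat_lit 5) (nat_lit 454) (nat_lit 5) (nat_lit 455) (nat_lit 5) (nat_lit 471) (nat_lit 454) (nat_lit 215))))))))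
noncomputable def xc236 : XT := (XT.nd (nat_lit 1794) (nat_lit 4332) (nat_lit 0) (XT.nd (nat_lit 858) (nat_lit 5168) (nat_lit 0) (XT.nd (nat_lit 390) (nat_lit 2128) (nat_lit 0) (XT.nd (nat_lit 156) (nat_lit 0) (nat_lit 76) (XT.nd (nat_lit 78) (nat_lit 0) (nat_lit 0) (XT.lf (nat_lit 0) (nat_lit 2677149555) (nat_lit 1824) (nat_lit 16041156030) (nat_lit 1900) (nat_lit 2553376186) (nat_lit 431) (nat_lit 5) (nat_lit 455) (nat_lit 5) (nat_lit 456) (nat_lit 5) (nat_lit 472) (nat_lit 454) (nat_lit 214)) (XT.lf (nat_lit 0) (nat_lit 4075861823) (nat_lit 1824) (nat_lit 5143548107) (nat_lit 1900) (nat_lit 12275125559) (nat_lit 431) (nat_lit 5) (nat_lit 455) (nat_lit 5) (nat_lit 456) (nat_lit 5) (nat_lit 473) (nat_lit 454) (nat_lit 213))) (XT.nd (nat_lit 78) (nat_lit 0) (nat_lit 0) (XT.lf (nat_lit 0) (nat_lit 5541200082) (nat_lit 1824) (nat_lit 15676177756) (nat_lit 1900) (nat_lit 503696238) (nat_lit 432) (nat_lit 5) (nat_lit 456) (nat_lit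 5) (nat_lit 457) (nat_lit 5) (nat_lit 474) (nat_lit 454) (nat_lit 212)) (XT.nd (nat_lit 78) (nat_lit 0) (nat_lit 0) (XT.lf (nat_lit 0) (nat_lit 7127776601) (nat_lit 1824) (nat_lit 4489029009) (nat_lit 1900) (nat_lit 10333500007) (nat_lit 432) (nat_lit 5) (nat_lit 456) (nat_lit 5) (nat_lit 457) (nat_lit 5) (nat_lit 475) (nat_lit 454) (nat_lit 211)) (XT.lf (nat_lit 76) (nat_lit 7010747771) (nat_lit 0) (nat_lit 1777062463) (nat_lit 1900) (nat_lit 13395477843) (nat_lit 433) (nat_lit 5) (nat_lit 432) (nat_lit 5) (nat_lit 457) (nat_lit 5) (nat_lit 476) (nat_lit 454) (nat_lit 210))))) (XT.nd (nat_lit 234) (nat_lit 2280) (nat_lit 0) (XT.nd (nat_lit 78) (nat_lit 0) (nat_lit 0) (XT.lf (nat_lit 0) (nat_lit 10561260074) (nat_lit 1824) (nat_lit 3675905221) (nat_lit 1900) (nat_lit 8182161361) (nat_lit 433) (nat_lit 5) (nat_lit 457) (nat_lit 5) (nat_lit 458) (nat_lit 5) (nat_lit 477) (nat_lit 454) (nat_lit 209)) (XT.nd (nat_lit 78) (nat_lit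 0) (nat_lit 76) (XT.lf (nat_lit 76) (nat_lit 8142625070) (nat_lit 0) (nat_lit 4288529296) (nat_lit 1900) (nat_lit 10227712897) (nat_lit 434) (nat_lit 5) (nat_lit 433) (nat_lit 5) (nat_lit 458) (nat_lit 5) (nat_lit 478) (nat_lit 454) (nat_lit 208)) (XT.lf (nat_lit 0) (nat_lit 14397713420) (nat_lit 1824) (nat_lit 2696673229) (nat_lit 76) (nat_lit 5807627449) (nat_lit 434) (nat_lit 5) (nat_lit 458) (nat_lit 5) (nat_lit 435) (nat_lit 5) (nat_lit 479) (nat_lit 454) (nat_lit 207)))) (XT.nd (nat_lit 78) (nat_lit 912) (nat_lit 0) (XT.lf (nat_lit 0) (nat_lit 9451792003) (nat_lit 1444) (nat_lit 7038045718) (nat_lit 1520) (nat_lit 6658462204) (nat_lit 415) (nat_lit 5) (nat_lit 434) (nat_lit 5) (nat_lit 435) (nat_lit 5) (nat_lit 480) (nat_lit 454) (nat_lit 206)) (XT.nd (nat_lit 78) (nat_lit 912) (nat_lit 0) (XT.lf (nat_lit 0) (nat_lit 18659441472) (nat_lit 1520) (nat_lit 1543500780) (nat_lit 76) (nat_lit 3195857198) (nat_lit 415) (nat_lit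 5) (nat_lit 435) (nat_lit 5) (nat_lit 416) (nat_lit 5) (nat_lit 481) (nat_lit 454) (nat_lit 205)) (XT.lf (nat_lit 0) (nat_lit 10946473443) (nat_lit 912) (nat_lit 10040231866) (nat_lit 988) (nat_lit 2665319006) (nat_lit 403) (nat_lit 5) (nat_lit 415) (nat_lit 5) (nat_lit 416) (nat_lit 5) (nat_lit 482) (nat_lit 454) (nat_lit 204)))))) (XT.nd (nat_lit 468) (nat_lit 2432) (nat_lit 0) (XT.nd (nat_lit 234) (nat_lit 836) (nat_lit 0) (XT.nd (nat_lit 78) (nat_lit 1900) (nat_lit 0) (XT.lf (nat_lit 0) (nat_lit 23369691719) (nat_lit 988) (nat_lit 208218887) (nat_lit 76) (nat_lit 332220218) (nat_lit 403) (nat_lit 5) (nat_lit 416) (nat_lit 5) (nat_lit 404) (nat_lit 5) (nat_lit 483) (nat_lit 454) (nat_lit 203)) (XT.nd (nat_lit 78) (nat_lit 912) (nat_lit 0) (XT.lf (nat_lit 0) (nat_lit 1751791990) (nat_lit 988) (nat_lit 11546776713) (nat_lit 76) (nat_lit 10871696342) (nat_lit 390) (nat_lit 5) (nat_lit 403) (nat_lit 5) (nat_lit 391) (nat_lit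 5) (nat_lit 484) (nat_lit 454) (nat_lit 202)) (XT.lf (nat_lit 0) (nat_lit 1289337685) (nat_lit 912) (nat_lit 2799803010) (nat_lit 988) (nat_lit 20346260273) (nat_lit 378) (nat_lit 5) (nat_lit 390) (nat_lit 5) (nat_lit 391) (nat_lit 5) (nat_lit 485) (nat_lit 454) (nat_lit 201)))) (XT.nd (nat_lit 78) (nat_lit 836) (nat_lit 0) (XT.lf (nat_lit 0) (nat_lit 6599355190) (nat_lit 988) (nat_lit 10220567534) (nat_lit 76) (nat_lit 7883395151) (nat_lit 378) (nat_lit 5) (nat_lit 391) (nat_lit 5) (nat_lit 379) (nat_lit 5) (nat_lit 486) (nat_lit 454) (nat_lit 200)) (XT.nd (nat_lit 78) (nat_lit 0) (nat_lit 0) (XT.lf (nat_lit 0) (nat_lit 2980944584) (nat_lit 836) (nat_lit 6213559369) (nat_lit 912) (nat_lit 15781395198) (nat_lit 367) (nat_lit 5) (nat_lit 378) (nat_lit 5) (nat_lit 379) (nat_lit 5) (nat_lit 487) (nat_lit 454) (nat_lit 199)) (XT.lf (nat_lit 0) (nat_lit 11937370572) (nat_lit 912) (nat_lit 8700974482) (nat_lit 76) (nat_lit 4613671315)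 (nat_lit 367) (nat_lit 5) (nat_lit 379) (nat_lit 5) (nat_lit 368) (nat_lit 5) (nat_lit 488) (nat_lit 454) (nat_lit 198))))) (XT.nd (nat_lit 234) (nat_lit 836) (nat_lit 0) (XT.nd (nat_lit 78) (nat_lit 760) (nat_lit 0) (XT.lf (nat_lit 0) (nat_lit 4878690221) (nat_lit 836) (nat_lit 9926167646) (nat_lit 912) (nat_lit 10727403404) (nat_lit 356) (nat_lit 5) (nat_lit 367) (nat_lit 5) (nat_lit 368) (nat_lit 5) (nat_lit 489) (nat_lit 454) (nat_lit 197)) (XT.nd (nat_lit 78) (nat_lit 760) (nat_lit 0) (XT.lf (nat_lit 0) (nat_lit 17791942819) (nat_lit 912) (nat_lit 6979003706) (nat_lit 76) (nat_lit 1045920179) (nat_lit 356) (nat_lit 5) (nat_lit 368) (nat_lit 5) (nat_lit 357) (nat_lit 5) (nat_lit 490) (nat_lit 454) (nat_lit 196)) (XT.lf (nat_lit 0) (nat_lit 6992008824) (nat_lit 760) (nat_lit 13954931662) (nat_lit 836) (nat_lit 5158060920) (nat_lit 346) (nat_lit 5) (nat_lit 356) (nat_lit 5) (nat_lit 357) (nat_lit 5) (nat_lit 491) (nat_lit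 454) (nat_lit 195)))) (XT.nd (nat_lit 78) (nat_lit 836) (nat_lit 0) (XT.lf (nat_lit 0) (nat_lit 21334052246) (nat_lit 760) (nat_lit 2874895352) (nat_lit 836) (nat_lit 2189073586) (nat_lit 346) (nat_lit 5) (nat_lit 356) (nat_lit 5) (nat_lit 357) (nat_lit 5) (nat_lit 492) (nat_lit 454) (nat_lit 194)) (XT.nd (nat_lit 78) (nat_lit 0) (nat_lit 0) (XT.lf (nat_lit 0) (nat_lit 941456727) (nat_lit 836) (nat_lit 17370140471) (nat_lit 76) (nat_lit 8382932306) (nat_lit 335) (nat_lit 5) (nat_lit 346) (nat_lit 5) (nat_lit 336) (nat_lit 5) (nat_lit 493) (nat_lit 454) (nat_lit 193)) (XT.lf (nat_lit 0) (nat_lit 4155710559) (nat_lit 836) (nat_lit 2963901119) (nat_lit 76) (nat_lit 19876058961) (nat_lit 335) (nat_lit 5) (nat_lit 346) (nat_lit 5) (nat_lit 336) (nat_lit 5) (nat_lit 494) (nat_lit 454) (nat_lit 192))))))) (XT.nd (nat_lit 56238) (nat_lit 0) (nat_lit 12844) (XT.nd (nat_lit 390) (nat_lit 2128) (nat_lit 0) (XT.nd (nat_lit 156) (nat_lit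 1444) (nat_lit 0) (XT.nd (nat_lit 78) (nat_lit 0) (nat_lit 0) (XT.lf (nat_lit 0) (nat_lit 7537015048) (nat_lit 836) (nat_lit 15446386296) (nat_lit 76) (nat_lit 4317378467) (nat_lit 325) (nat_lit 5) (nat_lit 336) (nat_lit 5) (nat_lit 326) (nat_lit 5) (nat_lit 495) (nat_lit 454) (nat_lit 191)) (XT.lf (nat_lit 0) (nat_lit 11050358117) (nat_lit 836) (nat_lit 652629563) (nat_lit 76) (nat_lit 15907715753) (nat_lit 325) (nat_lit 5) (nat_lit 336) (nat_lit 5) (nat_lit 326) (nat_lit 5) (nat_lit 496) (nat_lit 454) (nat_lit 190))) (XT.nd (nat_lit 78) (nat_lit 684) (nat_lit 0) (XT.lf (nat_lit 0) (nat_lit 14625896885) (nat_lit 760) (nat_lit 100327963) (nat_lit 836) (nat_lit 13198756050) (nat_lit 315) (nat_lit 5) (nat_lit 325) (nat_lit 5) (nat_lit 326) (nat_lit 5) (nat_lit 497) (nat_lit 454) (nat_lit 189)) (XT.nd (nat_lit 78) (nat_lit 0) (nat_lit 0) (XT.lf (nat_lit 0) (nat_lit 1919380929) (nat_lit 684) (nat_lit 16646614162) (nat_lit 760)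 (nat_lit 9677741593) (nat_lit 306) (nat_lit 5) (nat_lit 315) (nat_lit 5) (nat_lit 316) (nat_lit 5) (nat_lit 498) (nat_lit 454) (nat_lit 188)) (XT.lf (nat_lit 0) (nat_lit 17618874184) (nat_lit 684) (nat_lit 4950952136) (nat_lit 760) (nat_lit 5997296439) (nat_lit 306) (nat_lit 5) (nat_lit 315) (nat_lit 5) (nat_lit 316) (nat_lit 5) (nat_lit 499) (nat_lit 454) (nat_lit 187))))) (XT.nd (nat_lit 234) (nat_lit 684) (nat_lit 0) (XT.nd (nat_lit 78) (nat_lit 760) (nat_lit 0) (XT.lf (nat_lit 0) (nat_lit 4749427543) (nat_lit 684) (nat_lit 21977864402) (nat_lit 760) (nat_lit 2168213934) (nat_lit 297) (nat_lit 5) (nat_lit 306) (nat_lit 5) (nat_lit 307) (nat_lit 5) (nat_lit 500) (nat_lit 454) (nat_lit 186)) (XT.nd (nat_lit 78) (nat_lit 684) (nat_lit 0) (XT.lf (nat_lit 0) (nat_lit 1818831998) (nat_lit 760) (nat_lit 8367027023) (nat_lit 76) (nat_lit 19042289108) (nat_lit 296) (nat_lit 5) (nat_lit 306) (nat_lit 5) (nat_lit 297) (nat_lit 5) (nat_lit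 501) (nat_lit 454) (nat_lit 185)) (XT.lf (nat_lit 0) (nat_lit 5917204074) (nat_lit 760) (nat_lit 21765758144) (nat_lit 76) (nat_lit 1882982466) (nat_lit 287) (nat_lit 5) (nat_lit 297) (nat_lit 5) (nat_lit 288) (nat_lit 5) (nat_lit 502) (nat_lit 454) (nat_lit 184)))) (XT.nd (nat_lit 78) (nat_lit 684) (nat_lit 0) (XT.lf (nat_lit 0) (nat_lit 10219023385) (nat_lit 760) (nat_lit 5575959783) (nat_lit 76) (nat_lit 14113084847) (nat_lit 287) (nat_lit 5) (nat_lit 297) (nat_lit 5) (nat_lit 288) (nat_lit 5) (nat_lit 503) (nat_lit 454) (nat_lit 183)) (XT.nd (nat_lit 78) (nat_lit 0) (nat_lit 0) (XT.lf (nat_lit 0) (nat_lit 11080089827) (nat_lit 684) (nat_lit 3596282254) (nat_lit 760) (nat_lit 15579272301) (nat_lit 278) (nat_lit 5) (nat_lit 287) (nat_lit 5) (nat_lit 288) (nat_lit 5) (nat_lit 504) (nat_lit 454) (nat_lit 182)) (XT.lf (nat_lit 0) (nat_lit 19315550271) (nat_lit 760) (nat_lit 2525153590) (nat_lit 76) (nat_lit 8767615191) (nat_lit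 278) (nat_lit 5) (nat_lit 288) (nat_lit 5) (nat_lit 279) (nat_lit 5) (nat_lit 505) (nat_lit 454) (nat_lit 181)))))) (XT.nd (nat_lit 468) (nat_lit 0) (nat_lit 152) (XT.nd (nat_lit 234) (nat_lit 0) (nat_lit 76) (XT.nd (nat_lit 78) (nat_lit 0) (nat_lit 0) (XT.lf (nat_lit 0) (nat_lit 2184778193) (nat_lit 0) (nat_lit 2184778193) (nat_lit 1748) (nat_lit 4680292428) (nat_lit 447) (nat_lit 5) (nat_lit 447) (nat_lit 3) (nat_lit 470) (nat_lit 3) (nat_lit 455) (nat_lit 455) (nat_lit 230)) (XT.nd (nat_lit 78) (nat_lit 0) (nat_lit 0) (XT.lf (nat_lit 0) (nat_lit 9055663856) (nat_lit 1748) (nat_lit 4960266018) (nat_lit 1824) (nat_lit 4260137238) (nat_lit 447) (nat_lit 5) (nat_lit 470) (nat_lit 3) (nat_lit 471) (nat_lit 5) (nat_lit 456) (nat_lit 455) (nat_lit 229)) (XT.lf (nat_lit 76) (nat_lit 4005844931) (nat_lit 0) (nat_lit 5422388436) (nat_lit 1824) (nat_lit 9026738034) (nat_lit 448) (nat_lit 5) (nat_lit 447) (nat_lit 5) (nat_lit 471) (nat_lit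 5) (nat_lit 457) (nat_lit 455) (nat_lit 228)))) (XT.nd (nat_lit 78) (nat_lit 0) (nat_lit 0) (XT.lf (nat_lit 0) (nat_lit 9858308247) (nat_lit 1748) (nat_lit 5443061720) (nat_lit 1824) (nat_lit 3335083867) (nat_lit 448) (nat_lit 5) (nat_lit 471) (nat_lit 5) (nat_lit 472) (nat_lit 5) (nat_lit 458) (nat_lit 455) (nat_lit 227)) (XT.nd (nat_lit 78) (nat_lit 0) (nat_lit 76) (XT.lf (nat_lit 76) (nat_lit 3753636328) (nat_lit 0) (nat_lit 6598572795) (nat_lit 1824) (nat_lit 8468253420) (nat_lit 449) (nat_lit 5) (nat_lit 448) (nat_lit 5) (nat_lit 472) (nat_lit 5) (nat_lit 459) (nat_lit 455) (nat_lit 226)) (XT.lf (nat_lit 0) (nat_lit 10902586604) (nat_lit 1748) (nat_lit 5817308517) (nat_lit 1824) (nat_lit 2287325429) (nat_lit 449) (nat_lit 5) (nat_lit 472) (nat_lit 5) (nat_lit 473) (nat_lit 5) (nat_lit 460) (nat_lit 455) (nat_lit 225))))) (XT.nd (nat_lit 234) (nat_lit 0) (nat_lit 76) (XT.nd (nat_lit 78) (nat_lit 0) (nat_lit 76) (XT.lf (nat_lit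 76) (nat_lit 3618105342) (nat_lit 0) (nat_lit 7908192643) (nat_lit 1824) (nat_lit 7670170278) (nat_lit 450) (nat_lit 5) (nat_lit 449) (nat_lit 5) (nat_lit 473) (nat_lit 5) (nat_lit 461) (nat_lit 455) (nat_lit 224)) (XT.nd (nat_lit 78) (nat_lit 0) (nat_lit 0) (XT.lf (nat_lit 0) (nat_lit 12204015513) (nat_lit 1748) (nat_lit 6077844410) (nat_lit 1824) (nat_lit 1106811420) (nat_lit 450) (nat_lit 5) (nat_lit 473) (nat_lit 5) (nat_lit 474) (nat_lit 5) (nat_lit 462) (nat_lit 455) (nat_lit 223)) (XT.lf (nat_lit 76) (nat_lit 3604708427) (nat_lit 0) (nat_lit 9361674651) (nat_lit 1824) (nat_lit 6616914526) (nat_lit 451) (nat_lit 5) (nat_lit 450) (nat_lit 5) (nat_lit 474) (nat_lit 5) (nat_lit 463) (nat_lit 455) (nat_lit 222)))) (XT.nd (nat_lit 78) (nat_lit 0) (nat_lit 76) (XT.lf (nat_lit 76) (nat_lit 13560437744) (nat_lit 0) (nat_lit 219738373) (nat_lit 1824) (nat_lit 6000917721) (nat_lit 451) (nat_lit 5) (nat_lit 450) (nat_lit 5) (nat_lit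 474) (nat_lit 5) (nat_lit 464) (nat_lit 455) (nat_lit 221)) (XT.nd (nat_lit 78) (nat_lit 0) (nat_lit 0) (XT.lf (nat_lit 76) (nat_lit 3719189857) (nat_lit 0) (nat_lit 10969812592) (nat_lit 1824) (nat_lit 5292269392) (nat_lit 452) (nat_lit 5) (nat_lit 451) (nat_lit 5) (nat_lit 475) (nat_lit 5) (nat_lit 465) (nat_lit 455) (nat_lit 220)) (XT.lf (nat_lit 76) (nat_lit 13937792228) (nat_lit 0) (nat_lit 1716966245) (nat_lit 1824) (nat_lit 4529920838) (nat_lit 452) (nat_lit 5) (nat_lit 451) (nat_lit 5) (nat_lit 475) (nat_lit 5) (nat_lit 466) (nat_lit 455) (nat_lit 219))))))))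
noncomputable def xc237 : XT := (XT.nd (nat_lit 1794) (nat_lit 6764) (nat_lit 0) (XT.nd (nat_lit 858) (nat_lit 4788) (nat_lit 0) (XT.nd (nat_lit 390) (nat_lit 0) (nat_lit 0) (XT.nd (nat_lit 156) (nat_lit 1672) (nat_lit 0) (XT.nd (nat_lit 78) (nat_lit 0) (nat_lit 0) (XT.lf (nat_lit 76) (nat_lit 3967588179) (nat_lit 0) (nat_lit 12743791581) (nat_lit 1824) (nat_lit 3679345123) (nat_lit 453) (nat_lit 5) (nat_lit 452) (nat_lit 5) (nat_lit 476) (nat_lit 5) (nat_lit 467) (nat_lit 455) (nat_lit 218)) (XT.lf (nat_lit 76) (nat_lit 14456598949) (nat_lit 0) (nat_lit 3381476928) (nat_lit 1824) (nat_lit 2761837574) (nat_lit 453) (nat_lit 5) (nat_lit 452) (nat_lit 5) (nat_lit 476) (nat_lit 5) (nat_lit 468) (nat_lit 455) (nat_lit 217))) (XT.nd (nat_lit 78) (nat_lit 1748) (nat_lit 0) (XT.lf (nat_lit 76) (nat_lit 4356242996) (nat_lit 0) (nat_lit 14695212972) (nat_lit 1824) (nat_lit 1760547737) (nat_lit 454) (nat_lit 5) (nat_lit 453) (nat_lit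 5) (nat_lit 477) (nat_lit 5) (nat_lit 469) (nat_lit 455) (nat_lit 216)) (XT.nd (nat_lit 78) (nat_lit 1748) (nat_lit 0) (XT.lf (nat_lit 76) (nat_lit 15123447024) (nat_lit 0) (nat_lit 5225010182) (nat_lit 1824) (nat_lit 678692387) (nat_lit 454) (nat_lit 5) (nat_lit 453) (nat_lit 5) (nat_lit 477) (nat_lit 5) (nat_lit 470) (nat_lit 455) (nat_lit 215)) (XT.lf (nat_lit 0) (nat_lit 476125799) (nat_lit 1824) (nat_lit 16356799138) (nat_lit 1900) (nat_lit 4412481221) (nat_lit 430) (nat_lit 5) (nat_lit 454) (nat_lit 5) (nat_lit 455) (nat_lit 5) (nat_lit 471) (nat_lit 455) (nat_lit 214))))) (XT.nd (nat_lit 234) (nat_lit 0) (nat_lit 152) (XT.nd (nat_lit 78) (nat_lit 0) (nat_lit 76) (XT.lf (nat_lit 0) (nat_lit 1715446401) (nat_lit 1824) (nat_lit 5532799875) (nat_lit 1900) (nat_lit 14218282826) (nat_lit 430) (nat_lit 5) (nat_lit 454) (nat_lit 5) (nat_lit 455) (nat_lit 5) (nat_lit 472) (nat_lit 455) (nat_lit 213)) (XT.nd (nat_lit 78) (nat_lit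 0) (nat_lit 0) (XT.lf (nat_lit 0) (nat_lit 3028510917) (nat_lit 1824) (nat_lit 16130190334) (nat_lit 1900) (nat_lit 2532394935) (nat_lit 431) (nat_lit 5) (nat_lit 455) (nat_lit 5) (nat_lit 456) (nat_lit 5) (nat_lit 473) (nat_lit 455) (nat_lit 212)) (XT.lf (nat_lit 0) (nat_lit 4449357854) (nat_lit 1824) (nat_lit 5019175132) (nat_lit 1900) (nat_lit 12449992016) (nat_lit 431) (nat_lit 5) (nat_lit 455) (nat_lit 5) (nat_lit 456) (nat_lit 5) (nat_lit 474) (nat_lit 455) (nat_lit 211)))) (XT.nd (nat_lit 78) (nat_lit 0) (nat_lit 0) (XT.lf (nat_lit 0) (nat_lit 5939341162) (nat_lit 1824) (nat_lit 15757735245) (nat_lit 1900) (nat_lit 452612396) (nat_lit 432) (nat_lit 5) (nat_lit 456) (nat_lit 5) (nat_lit 457) (nat_lit 5) (nat_lit 475) (nat_lit 455) (nat_lit 210)) (XT.nd (nat_lit 78) (nat_lit 0) (nat_lit 0) (XT.lf (nat_lit 0) (nat_lit 7552015543) (nat_lit 1824) (nat_lit 4351391878) (nat_lit 1900) (nat_lit 10480211413) (nat_lit 432) (nat_lit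 5) (nat_lit 456) (nat_lit 5) (nat_lit 457) (nat_lit 5) (nat_lit 476) (nat_lit 455) (nat_lit 209)) (XT.lf (nat_lit 76) (nat_lit 7376884269) (nat_lit 0) (nat_lit 1864309208) (nat_lit 1900) (nat_lit 13380149754) (nat_lit 433) (nat_lit 5) (nat_lit 432) (nat_lit 5) (nat_lit 457) (nat_lit 5) (nat_lit 477) (nat_lit 455) (nat_lit 208)))))) (XT.nd (nat_lit 468) (nat_lit 2736) (nat_lit 0) (XT.nd (nat_lit 234) (nat_lit 2280) (nat_lit 0) (XT.nd (nat_lit 78) (nat_lit 0) (nat_lit 0) (XT.lf (nat_lit 0) (nat_lit 11044339523) (nat_lit 1824) (nat_lit 3522101897) (nat_lit 1900) (nat_lit 8295777755) (nat_lit 433) (nat_lit 5) (nat_lit 457) (nat_lit 5) (nat_lit 458) (nat_lit 5) (nat_lit 478) (nat_lit 455) (nat_lit 207)) (XT.nd (nat_lit 78) (nat_lit 0) (nat_lit 76) (XT.lf (nat_lit 76) (nat_lit 8531303464) (nat_lit 0) (nat_lit 4416463974) (nat_lit 1900) (nat_lit 10158861560) (nat_lit 434) (nat_lit 5) (nat_lit 433) (nat_lit 5) (nat_lit 458) (nat_lit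 5) (nat_lit 479) (nat_lit 455) (nat_lit 206)) (XT.lf (nat_lit 0) (nat_lit 14948134577) (nat_lit 1824) (nat_lit 2523630948) (nat_lit 76) (nat_lit 5882984800) (nat_lit 434) (nat_lit 5) (nat_lit 458) (nat_lit 5) (nat_lit 435) (nat_lit 5) (nat_lit 480) (nat_lit 455) (nat_lit 205)))) (XT.nd (nat_lit 78) (nat_lit 912) (nat_lit 0) (XT.lf (nat_lit 0) (nat_lit 9866310327) (nat_lit 1444) (nat_lit 7212108609) (nat_lit 1520) (nat_lit 6527617653) (nat_lit 415) (nat_lit 5) (nat_lit 434) (nat_lit 5) (nat_lit 435) (nat_lit 5) (nat_lit 481) (nat_lit 455) (nat_lit 204)) (XT.nd (nat_lit 78) (nat_lit 912) (nat_lit 0) (XT.lf (nat_lit 0) (nat_lit 19286128579) (nat_lit 1520) (nat_lit 1347970760) (nat_lit 76) (nat_lit 3227553542) (nat_lit 415) (nat_lit 5) (nat_lit 435) (nat_lit 5) (nat_lit 416) (nat_lit 5) (nat_lit 482) (nat_lit 455) (nat_lit 203)) (XT.lf (nat_lit 0) (nat_lit 11390313473) (nat_lit 912) (nat_lit 10266113933) (nat_lit 988) (nat_lit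 2463586074) (nat_lit 403) (nat_lit 5) (nat_lit 415) (nat_lit 5) (nat_lit 416) (nat_lit 5) (nat_lit 483) (nat_lit 455) (nat_lit 202))))) (XT.nd (nat_lit 234) (nat_lit 836) (nat_lit 0) (XT.nd (nat_lit 78) (nat_lit 988) (nat_lit 0) (XT.lf (nat_lit 0) (nat_lit 13404995) (nat_lit 912) (nat_lit 24068694231) (nat_lit 988) (nat_lit 301283391) (nat_lit 391) (nat_lit 5) (nat_lit 403) (nat_lit 5) (nat_lit 404) (nat_lit 5) (nat_lit 484) (nat_lit 455) (nat_lit 201)) (XT.nd (nat_lit 78) (nat_lit 912) (nat_lit 0) (XT.lf (nat_lit 0) (nat_lit 2030055946) (nat_lit 988) (nat_lit 11550303126) (nat_lit 76) (nat_lit 11068398123) (nat_lit 390) (nat_lit 5) (nat_lit 403) (nat_lit 5) (nat_lit 391) (nat_lit 5) (nat_lit 485) (nat_lit 455) (nat_lit 200)) (XT.lf (nat_lit 0) (nat_lit 1541037448) (nat_lit 912) (nat_lit 2869811777) (nat_lit 988) (nat_lit 20508413614) (nat_lit 378) (nat_lit 5) (nat_lit 390) (nat_lit 5) (nat_lit 391) (nat_lit 5) (nat_lit 486)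 (nat_lit 455) (nat_lit 199)))) (XT.nd (nat_lit 78) (nat_lit 836) (nat_lit 0) (XT.lf (nat_lit 0) (nat_lit 6966474387) (nat_lit 988) (nat_lit 10198655221) (nat_lit 76) (nat_lit 8027505282) (nat_lit 378) (nat_lit 5) (nat_lit 391) (nat_lit 5) (nat_lit 379) (nat_lit 5) (nat_lit 487) (nat_lit 455) (nat_lit 198)) (XT.nd (nat_lit 78) (nat_lit 0) (nat_lit 0) (XT.lf (nat_lit 0) (nat_lit 3265398168) (nat_lit 836) (nat_lit 6344977300) (nat_lit 912) (nat_lit 15860356252) (nat_lit 367) (nat_lit 5) (nat_lit 378) (nat_lit 5) (nat_lit 379) (nat_lit 5) (nat_lit 488) (nat_lit 455) (nat_lit 197)) (XT.lf (nat_lit 0) (nat_lit 12403505273) (nat_lit 912) (nat_lit 8649928769) (nat_lit 76) (nat_lit 4699030023) (nat_lit 367) (nat_lit 5) (nat_lit 379) (nat_lit 5) (nat_lit 368) (nat_lit 5) (nat_lit 489) (nat_lit 455) (nat_lit 196))))))) (XT.nd (nat_lit 936) (nat_lit 1444) (nat_lit 0) (XT.nd (nat_lit 468) (nat_lit 2888) (nat_lit 0) (XT.nd (nat_lit 234)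 (nat_lit 836) (nat_lit 0) (XT.nd (nat_lit 78) (nat_lit 760) (nat_lit 0) (XT.lf (nat_lit 0) (nat_lit 5199848537) (nat_lit 836) (nat_lit 10125486861) (nat_lit 912) (nat_lit 10713039484) (nat_lit 356) (nat_lit 5) (nat_lit 367) (nat_lit 5) (nat_lit 368) (nat_lit 5) (nat_lit 490) (nat_lit 455) (nat_lit 195)) (XT.nd (nat_lit 78) (nat_lit 760) (nat_lit 0) (XT.lf (nat_lit 0) (nat_lit 18367757368) (nat_lit 912) (nat_lit 6894935454) (nat_lit 76) (nat_lit 1066068558) (nat_lit 356) (nat_lit 5) (nat_lit 368) (nat_lit 5) (nat_lit 357) (nat_lit 5) (nat_lit 491) (nat_lit 455) (nat_lit 194)) (XT.lf (nat_lit 0) (nat_lit 7354025957) (nat_lit 760) (nat_lit 14228958304) (nat_lit 836) (nat_lit 5039732777) (nat_lit 346) (nat_lit 5) (nat_lit 356) (nat_lit 5) (nat_lit 357) (nat_lit 5) (nat_lit 492) (nat_lit 455) (nat_lit 193)))) (XT.nd (nat_lit 78) (nat_lit 836) (nat_lit 0) (XT.lf (nat_lit 0) (nat_lit 21978553836) (nat_lit 760) (nat_lit 2927420718)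 (nat_lit 836) (nat_lit 2015708625) (nat_lit 346) (nat_lit 5) (nat_lit 356) (nat_lit 5) (nat_lit 357) (nat_lit 5) (nat_lit 493) (nat_lit 455) (nat_lit 192)) (XT.nd (nat_lit 78) (nat_lit 0) (nat_lit 0) (XT.lf (nat_lit 0) (nat_lit 1171856243) (nat_lit 836) (nat_lit 17494066171) (nat_lit 76) (nat_lit 8558226414) (nat_lit 335) (nat_lit 5) (nat_lit 346) (nat_lit 5) (nat_lit 336) (nat_lit 5) (nat_lit 494) (nat_lit 455) (nat_lit 191)) (XT.lf (nat_lit 0) (nat_lit 4446246714) (nat_lit 836) (nat_lit 2804083936) (nat_lit 76) (nat_lit 20281065886) (nat_lit 335) (nat_lit 5) (nat_lit 346) (nat_lit 5) (nat_lit 336) (nat_lit 5) (nat_lit 495) (nat_lit 455) (nat_lit 190))))) (XT.nd (nat_lit 234) (nat_lit 1368) (nat_lit 0) (XT.nd (nat_lit 78) (nat_lit 760) (nat_lit 0) (XT.lf (nat_lit 0) (nat_lit 7892607011) (nat_lit 836) (nat_lit 15533610225) (nat_lit 76) (nat_lit 4416442828) (nat_lit 325) (nat_lit 5) (nat_lit 336) (nat_lit 5) (nat_lit 326) (nat_lit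 5) (nat_lit 496) (nat_lit 455) (nat_lit 189)) (XT.nd (nat_lit 78) (nat_lit 760) (nat_lit 0) (XT.lf (nat_lit 0) (nat_lit 11472200243) (nat_lit 836) (nat_lit 448325490) (nat_lit 76) (nat_lit 16238337510) (nat_lit 325) (nat_lit 5) (nat_lit 336) (nat_lit 5) (nat_lit 326) (nat_lit 5) (nat_lit 497) (nat_lit 455) (nat_lit 188)) (XT.lf (nat_lit 0) (nat_lit 15134341509) (nat_lit 760) (nat_lit 84706798) (nat_lit 836) (nat_lit 13260429407) (nat_lit 315) (nat_lit 5) (nat_lit 325) (nat_lit 5) (nat_lit 326) (nat_lit 5) (nat_lit 498) (nat_lit 455) (nat_lit 187)))) (XT.nd (nat_lit 78) (nat_lit 684) (nat_lit 0) (XT.lf (nat_lit 0) (nat_lit 2176137433) (nat_lit 684) (nat_lit 16957118309) (nat_lit 760) (nat_lit 9671400759) (nat_lit 306) (nat_lit 5) (nat_lit 315) (nat_lit 5) (nat_lit 316) (nat_lit 5) (nat_lit 499) (nat_lit 455) (nat_lit 186)) (XT.nd (nat_lit 78) (nat_lit 684) (nat_lit 0) (XT.lf (nat_lit 0) (nat_lit 18185338811) (nat_lit 684) (nat_lit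 5027982810) (nat_lit 760) (nat_lit 5921266225) (nat_lit 306) (nat_lit 5) (nat_lit 315) (nat_lit 5) (nat_lit 316) (nat_lit 5) (nat_lit 500) (nat_lit 455) (nat_lit 185)) (XT.lf (nat_lit 0) (nat_lit 5060804804) (nat_lit 684) (nat_lit 22390910014) (nat_lit 760) (nat_lit 2017868939) (nat_lit 297) (nat_lit 5) (nat_lit 306) (nat_lit 5) (nat_lit 307) (nat_lit 5) (nat_lit 501) (nat_lit 455) (nat_lit 184)))))) (XT.nd (nat_lit 55926) (nat_lit 0) (nat_lit 12844) (XT.nd (nat_lit 234) (nat_lit 684) (nat_lit 0) (XT.nd (nat_lit 78) (nat_lit 684) (nat_lit 0) (XT.lf (nat_lit 0) (nat_lit 2042628973) (nat_lit 760) (nat_lit 8319697699) (nat_lit 76) (nat_lit 19446602661) (nat_lit 296) (nat_lit 5) (nat_lit 306) (nat_lit 5) (nat_lit 297) (nat_lit 5) (nat_lit 502) (nat_lit 455) (nat_lit 183)) (XT.nd (nat_lit 78) (nat_lit 0) (nat_lit 0) (XT.lf (nat_lit 0) (nat_lit 6220860814) (nat_lit 760) (nat_lit 21984263068) (nat_lit 76) (nat_lit 1948400744) (nat_lit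 287) (nat_lit 5) (nat_lit 297) (nat_lit 5) (nat_lit 288) (nat_lit 5) (nat_lit 503) (nat_lit 455) (nat_lit 182)) (XT.lf (nat_lit 0) (nat_lit 10605082929) (nat_lit 760) (nat_lit 5474919921) (nat_lit 76) (nat_lit 14422560885) (nat_lit 287) (nat_lit 5) (nat_lit 297) (nat_lit 5) (nat_lit 288) (nat_lit 5) (nat_lit 504) (nat_lit 455) (nat_lit 181)))) (XT.nd (nat_lit 55536) (nat_lit 0) (nat_lit 12844) (XT.lf (nat_lit 0) (nat_lit 11512852266) (nat_lit 684) (nat_lit 3636534994) (nat_lit 760) (nat_lit 15707748827) (nat_lit 278) (nat_lit 5) (nat_lit 287) (nat_lit 5) (nat_lit 288) (nat_lit 5) (nat_lit 505) (nat_lit 455) (nat_lit 180)) (XT.nd (nat_lit 78) (nat_lit 0) (nat_lit 0) (XT.lf (nat_lit 0) (nat_lit 2328387182) (nat_lit 0) (nat_lit 2328387182) (nat_lit 1748) (nat_lit 4570030884) (nat_lit 447) (nat_lit 5) (nat_lit 447) (nat_lit 3) (nat_lit 470) (nat_lit 3) (nat_lit 456) (nat_lit 456) (nat_lit 228)) (XT.lf (nat_lit 0) (nat_lit 9627322520)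 (nat_lit 1748) (nat_lit 4854368061) (nat_lit 1824) (nat_lit 4152000683) (nat_lit 447) (nat_lit 5) (nat_lit 470) (nat_lit 3) (nat_lit 471) (nat_lit 5) (nat_lit 457) (nat_lit 456) (nat_lit 227))))) (XT.nd (nat_lit 234) (nat_lit 0) (nat_lit 152) (XT.nd (nat_lit 78) (nat_lit 0) (nat_lit 76) (XT.lf (nat_lit 76) (nat_lit 4289715743) (nat_lit 0) (nat_lit 5711292831) (nat_lit 1824) (nat_lit 8815293453) (nat_lit 448) (nat_lit 5) (nat_lit 447) (nat_lit 5) (nat_lit 471) (nat_lit 5) (nat_lit 458) (nat_lit 456) (nat_lit 226)) (XT.nd (nat_lit 78) (nat_lit 0) (nat_lit 0) (XT.lf (nat_lit 0) (nat_lit 10431002740) (nat_lit 1748) (nat_lit 5343399072) (nat_lit 1824) (nat_lit 3227187599) (nat_lit 448) (nat_lit 5) (nat_lit 471) (nat_lit 5) (nat_lit 472) (nat_lit 5) (nat_lit 459) (nat_lit 456) (nat_lit 225)) (XT.lf (nat_lit 76) (nat_lit 4035861070) (nat_lit 0) (nat_lit 6892902232) (nat_lit 1824) (nat_lit 8260636985) (nat_lit 449) (nat_lit 5) (nat_lit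 448) (nat_lit 5) (nat_lit 472) (nat_lit 5) (nat_lit 460) (nat_lit 456) (nat_lit 224)))) (XT.nd (nat_lit 78) (nat_lit 0) (nat_lit 0) (XT.lf (nat_lit 0) (nat_lit 11481869572) (nat_lit 1748) (nat_lit 5722206004) (nat_lit 1824) (nat_lit 2175985048) (nat_lit 449) (nat_lit 5) (nat_lit 472) (nat_lit 5) (nat_lit 473) (nat_lit 5) (nat_lit 461) (nat_lit 456) (nat_lit 223)) (XT.nd (nat_lit 78) (nat_lit 0) (nat_lit 76) (XT.lf (nat_lit 76) (nat_lit 3900525022) (nat_lit 0) (nat_lit 8211811026) (nat_lit 1824) (nat_lit 7460873188) (nat_lit 450) (nat_lit 5) (nat_lit 449) (nat_lit 5) (nat_lit 473) (nat_lit 5) (nat_lit 462) (nat_lit 456) (nat_lit 222)) (XT.lf (nat_lit 0) (nat_lit 12795711232) (nat_lit 1748) (nat_lit 5985489188) (nat_lit 1824) (nat_lit 988215425) (nat_lit 450) (nat_lit 5) (nat_lit 473) (nat_lit 5) (nat_lit 474) (nat_lit 5) (nat_lit 463) (nat_lit 456) (nat_lit 221))))))))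
noncomputable def xc238 : XT := (XT.nd (nat_lit 1794) (nat_lit 7828) (nat_lit 0) (XT.nd (nat_lit 858) (nat_lit 3040) (nat_lit 0) (XT.nd (nat_lit 390) (nat_lit 1520) (nat_lit 0) (XT.nd (nat_lit 156) (nat_lit 0) (nat_lit 76) (XT.nd (nat_lit 78) (nat_lit 0) (nat_lit 0) (XT.lf (nat_lit 76) (nat_lit 3889307389) (nat_lit 0) (nat_lit 9678582491) (nat_lit 1824) (nat_lit 6400154977) (nat_lit 451) (nat_lit 5) (nat_lit 450) (nat_lit 5) (nat_lit 474) (nat_lit 5) (nat_lit 464) (nat_lit 456) (nat_lit 220)) (XT.lf (nat_lit 76) (nat_lit 14039984532) (nat_lit 0) (nat_lit 351264854) (nat_lit 1824) (nat_lit 5778683291) (nat_lit 451) (nat_lit 5) (nat_lit 450) (nat_lit 5) (nat_lit 474) (nat_lit 5) (nat_lit 465) (nat_lit 456) (nat_lit 219))) (XT.nd (nat_lit 78) (nat_lit 0) (nat_lit 0) (XT.lf (nat_lit 76) (nat_lit 4008099447) (nat_lit 0) (nat_lit 11304158564) (nat_lit 1824) (nat_lit 5061977557) (nat_lit 452) (nat_lit 5) (nat_lit 451) (nat_lit 5)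 (nat_lit 475) (nat_lit 5) (nat_lit 466) (nat_lit 456) (nat_lit 218)) (XT.nd (nat_lit 78) (nat_lit 0) (nat_lit 76) (XT.lf (nat_lit 76) (nat_lit 14426867478) (nat_lit 0) (nat_lit 1864001374) (nat_lit 1824) (nat_lit 4290972959) (nat_lit 452) (nat_lit 5) (nat_lit 451) (nat_lit 5) (nat_lit 475) (nat_lit 5) (nat_lit 467) (nat_lit 456) (nat_lit 217)) (XT.lf (nat_lit 76) (nat_lit 4263090668) (nat_lit 0) (nat_lit 13099884309) (nat_lit 1824) (nat_lit 3429147655) (nat_lit 453) (nat_lit 5) (nat_lit 452) (nat_lit 5) (nat_lit 476) (nat_lit 5) (nat_lit 468) (nat_lit 456) (nat_lit 216))))) (XT.nd (nat_lit 234) (nat_lit 1672) (nat_lit 0) (XT.nd (nat_lit 78) (nat_lit 0) (nat_lit 76) (XT.lf (nat_lit 76) (nat_lit 14957643404) (nat_lit 0) (nat_lit 3548338718) (nat_lit 1824) (nat_lit 2499638669) (nat_lit 453) (nat_lit 5) (nat_lit 452) (nat_lit 5) (nat_lit 476) (nat_lit 5) (nat_lit 469) (nat_lit 456) (nat_lit 215)) (XT.nd (nat_lit 78) (nat_lit 0)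 (nat_lit 0) (XT.lf (nat_lit 76) (nat_lit 4660775755) (nat_lit 0) (nat_lit 15077533091) (nat_lit 1824) (nat_lit 1483751758) (nat_lit 454) (nat_lit 5) (nat_lit 453) (nat_lit 5) (nat_lit 477) (nat_lit 5) (nat_lit 470) (nat_lit 456) (nat_lit 214)) (XT.lf (nat_lit 76) (nat_lit 15639060963) (nat_lit 0) (nat_lit 5416192601) (nat_lit 1824) (nat_lit 386377084) (nat_lit 454) (nat_lit 5) (nat_lit 453) (nat_lit 5) (nat_lit 477) (nat_lit 5) (nat_lit 471) (nat_lit 456) (nat_lit 213)))) (XT.nd (nat_lit 78) (nat_lit 0) (nat_lit 0) (XT.lf (nat_lit 0) (nat_lit 782477984) (nat_lit 1824) (nat_lit 16461603677) (nat_lit 1900) (nat_lit 4420233173) (nat_lit 430) (nat_lit 5) (nat_lit 454) (nat_lit 5) (nat_lit 455) (nat_lit 5) (nat_lit 472) (nat_lit 456) (nat_lit 212)) (XT.nd (nat_lit 78) (nat_lit 0) (nat_lit 76) (XT.lf (nat_lit 0) (nat_lit 2040764809) (nat_lit 1824) (nat_lit 5425483870) (nat_lit 1900) (nat_lit 14423729196) (nat_lit 430) (nat_lit 5)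 (nat_lit 454) (nat_lit 5) (nat_lit 455) (nat_lit 5) (nat_lit 473) (nat_lit 456) (nat_lit 211)) (XT.lf (nat_lit 0) (nat_lit 3375334856) (nat_lit 1824) (nat_lit 16230005967) (nat_lit 1900) (nat_lit 2513791800) (nat_lit 431) (nat_lit 5) (nat_lit 455) (nat_lit 5) (nat_lit 456) (nat_lit 5) (nat_lit 474) (nat_lit 456) (nat_lit 210)))))) (XT.nd (nat_lit 468) (nat_lit 3116) (nat_lit 0) (XT.nd (nat_lit 234) (nat_lit 0) (nat_lit 76) (XT.nd (nat_lit 78) (nat_lit 0) (nat_lit 76) (XT.lf (nat_lit 0) (nat_lit 4818985915) (nat_lit 1824) (nat_lit 4901138856) (nat_lit 1900) (nat_lit 12631098686) (nat_lit 431) (nat_lit 5) (nat_lit 455) (nat_lit 5) (nat_lit 456) (nat_lit 5) (nat_lit 475) (nat_lit 456) (nat_lit 209)) (XT.nd (nat_lit 78) (nat_lit 0) (nat_lit 0) (XT.lf (nat_lit 0) (nat_lit 6334288192) (nat_lit 1824) (nat_lit 15849931408) (nat_lit 1900) (nat_lit 402881708) (nat_lit 432) (nat_lit 5) (nat_lit 456) (nat_lit 5) (nat_lit 457) (nat_lit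 5) (nat_lit 476) (nat_lit 456) (nat_lit 208)) (XT.lf (nat_lit 0) (nat_lit 7973801155) (nat_lit 1824) (nat_lit 4219832910) (nat_lit 1900) (nat_lit 10632185312) (nat_lit 432) (nat_lit 5) (nat_lit 456) (nat_lit 5) (nat_lit 457) (nat_lit 5) (nat_lit 477) (nat_lit 456) (nat_lit 207)))) (XT.nd (nat_lit 78) (nat_lit 0) (nat_lit 76) (XT.lf (nat_lit 76) (nat_lit 7741570688) (nat_lit 0) (nat_lit 1951293101) (nat_lit 1900) (nat_lit 13375513565) (nat_lit 433) (nat_lit 5) (nat_lit 432) (nat_lit 5) (nat_lit 457) (nat_lit 5) (nat_lit 478) (nat_lit 456) (nat_lit 206)) (XT.nd (nat_lit 78) (nat_lit 0) (nat_lit 0) (XT.lf (nat_lit 0) (nat_lit 11526524129) (nat_lit 1824) (nat_lit 3374049676) (nat_lit 1900) (nat_lit 8413609081) (nat_lit 433) (nat_lit 5) (nat_lit 457) (nat_lit 5) (nat_lit 458) (nat_lit 5) (nat_lit 479) (nat_lit 456) (nat_lit 205)) (XT.lf (nat_lit 76) (nat_lit 8918986330) (nat_lit 0) (nat_lit 4545320062) (nat_lit 1900) (nat_lit 10099249869)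 (nat_lit 434) (nat_lit 5) (nat_lit 433) (nat_lit 5) (nat_lit 458) (nat_lit 5) (nat_lit 480) (nat_lit 456) (nat_lit 204))))) (XT.nd (nat_lit 234) (nat_lit 1900) (nat_lit 0) (XT.nd (nat_lit 78) (nat_lit 1444) (nat_lit 0) (XT.lf (nat_lit 0) (nat_lit 15499372248) (nat_lit 1824) (nat_lit 2355941566) (nat_lit 76) (nat_lit 5961433425) (nat_lit 434) (nat_lit 5) (nat_lit 458) (nat_lit 5) (nat_lit 435) (nat_lit 5) (nat_lit 481) (nat_lit 456) (nat_lit 203)) (XT.nd (nat_lit 78) (nat_lit 0) (nat_lit 0) (XT.lf (nat_lit 0) (nat_lit 10280363258) (nat_lit 1444) (nat_lit 7388359602) (nat_lit 1520) (nat_lit 6404408189) (nat_lit 415) (nat_lit 5) (nat_lit 434) (nat_lit 5) (nat_lit 435) (nat_lit 5) (nat_lit 482) (nat_lit 456) (nat_lit 202)) (XT.lf (nat_lit 0) (nat_lit 19915505780) (nat_lit 1520) (nat_lit 1157321529) (nat_lit 76) (nat_lit 3261134986) (nat_lit 415) (nat_lit 5) (nat_lit 435) (nat_lit 5) (nat_lit 416) (nat_lit 5) (nat_lit 483) (nat_lit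 456) (nat_lit 201)))) (XT.nd (nat_lit 78) (nat_lit 988) (nat_lit 0) (XT.lf (nat_lit 0) (nat_lit 11834296753) (nat_lit 912) (nat_lit 10495539854) (nat_lit 988) (nat_lit 2267721971) (nat_lit 403) (nat_lit 5) (nat_lit 415) (nat_lit 5) (nat_lit 416) (nat_lit 5) (nat_lit 484) (nat_lit 456) (nat_lit 200)) (XT.nd (nat_lit 78) (nat_lit 76) (nat_lit 0) (XT.lf (nat_lit 0) (nat_lit 233406586) (nat_lit 912) (nat_lit 24567177120) (nat_lit 988) (nat_lit 65681127) (nat_lit 391) (nat_lit 5) (nat_lit 403) (nat_lit 5) (nat_lit 404) (nat_lit 5) (nat_lit 485) (nat_lit 456) (nat_lit 199)) (XT.lf (nat_lit 0) (nat_lit 2304440338) (nat_lit 988) (nat_lit 11562730641) (nat_lit 76) (nat_lit 11269838995) (nat_lit 390) (nat_lit 5) (nat_lit 403) (nat_lit 5) (nat_lit 391) (nat_lit 5) (nat_lit 486) (nat_lit 456) (nat_lit 198))))))) (XT.nd (nat_lit 936) (nat_lit 2888) (nat_lit 0) (XT.nd (nat_lit 468) (nat_lit 2356) (nat_lit 0) (XT.nd (nat_lit 234) (nat_lit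 836) (nat_lit 0) (XT.nd (nat_lit 78) (nat_lit 836) (nat_lit 0) (XT.lf (nat_lit 0) (nat_lit 1788998728) (nat_lit 912) (nat_lit 2940676589) (nat_lit 988) (nat_lit 20683314813) (nat_lit 378) (nat_lit 5) (nat_lit 390) (nat_lit 5) (nat_lit 391) (nat_lit 5) (nat_lit 487) (nat_lit 456) (nat_lit 197)) (XT.nd (nat_lit 78) (nat_lit 836) (nat_lit 0) (XT.lf (nat_lit 0) (nat_lit 7331805503) (nat_lit 988) (nat_lit 10185093086) (nat_lit 76) (nat_lit 8175024081) (nat_lit 378) (nat_lit 5) (nat_lit 391) (nat_lit 5) (nat_lit 379) (nat_lit 5) (nat_lit 488) (nat_lit 456) (nat_lit 196)) (XT.lf (nat_lit 0) (nat_lit 3546810219) (nat_lit 836) (nat_lit 6478746073) (nat_lit 912) (nat_lit 15950086589) (nat_lit 367) (nat_lit 5) (nat_lit 378) (nat_lit 5) (nat_lit 379) (nat_lit 5) (nat_lit 489) (nat_lit 456) (nat_lit 195)))) (XT.nd (nat_lit 78) (nat_lit 836) (nat_lit 0) (XT.lf (nat_lit 0) (nat_lit 12870132942) (nat_lit 912) (nat_lit 8606601697) (nat_lit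 76) (nat_lit 4786364412) (nat_lit 367) (nat_lit 5) (nat_lit 379) (nat_lit 5) (nat_lit 368) (nat_lit 5) (nat_lit 490) (nat_lit 456) (nat_lit 194)) (XT.nd (nat_lit 78) (nat_lit 0) (nat_lit 0) (XT.lf (nat_lit 0) (nat_lit 5518747959) (nat_lit 836) (nat_lit 10328761557) (nat_lit 912) (nat_lit 10707277217) (nat_lit 356) (nat_lit 5) (nat_lit 367) (nat_lit 5) (nat_lit 368) (nat_lit 5) (nat_lit 491) (nat_lit 456) (nat_lit 193)) (XT.lf (nat_lit 0) (nat_lit 18946546284) (nat_lit 912) (nat_lit 6817870373) (nat_lit 76) (nat_lit 1086649806) (nat_lit 356) (nat_lit 5) (nat_lit 368) (nat_lit 5) (nat_lit 357) (nat_lit 5) (nat_lit 492) (nat_lit 456) (nat_lit 192))))) (XT.nd (nat_lit 234) (nat_lit 760) (nat_lit 0) (XT.nd (nat_lit 78) (nat_lit 836) (nat_lit 0) (XT.lf (nat_lit 0) (nat_lit 7714656030) (nat_lit 760) (nat_lit 14508662429) (nat_lit 836) (nat_lit 4927638773) (nat_lit 346) (nat_lit 5) (nat_lit 356) (nat_lit 5) (nat_lit 357) (nat_lit 5)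 (nat_lit 493) (nat_lit 456) (nat_lit 191)) (XT.nd (nat_lit 78) (nat_lit 836) (nat_lit 0) (XT.lf (nat_lit 0) (nat_lit 22627487220) (nat_lit 760) (nat_lit 2981189681) (nat_lit 836) (nat_lit 1847308425) (nat_lit 346) (nat_lit 5) (nat_lit 356) (nat_lit 5) (nat_lit 357) (nat_lit 5) (nat_lit 494) (nat_lit 456) (nat_lit 190)) (XT.lf (nat_lit 0) (nat_lit 1398648214) (nat_lit 836) (nat_lit 17629148273) (nat_lit 76) (nat_lit 8736729909) (nat_lit 335) (nat_lit 5) (nat_lit 346) (nat_lit 5) (nat_lit 336) (nat_lit 5) (nat_lit 495) (nat_lit 456) (nat_lit 189)))) (XT.nd (nat_lit 78) (nat_lit 760) (nat_lit 0) (XT.lf (nat_lit 0) (nat_lit 4734539144) (nat_lit 836) (nat_lit 2649578143) (nat_lit 76) (nat_lit 20693882270) (nat_lit 335) (nat_lit 5) (nat_lit 346) (nat_lit 5) (nat_lit 336) (nat_lit 5) (nat_lit 496) (nat_lit 456) (nat_lit 188)) (XT.nd (nat_lit 78) (nat_lit 0) (nat_lit 0) (XT.lf (nat_lit 0) (nat_lit 8247356173) (nat_lit 836) (nat_lit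 15631187661) (nat_lit 76) (nat_lit 4516994667) (nat_lit 325) (nat_lit 5) (nat_lit 336) (nat_lit 5) (nat_lit 326) (nat_lit 5) (nat_lit 497) (nat_lit 456) (nat_lit 187)) (XT.lf (nat_lit 0) (nat_lit 11894680544) (nat_lit 836) (nat_lit 248375560) (nat_lit 76) (nat_lit 16575087577) (nat_lit 325) (nat_lit 5) (nat_lit 336) (nat_lit 5) (nat_lit 326) (nat_lit 5) (nat_lit 498) (nat_lit 456) (nat_lit 186)))))) (XT.nd (nat_lit 468) (nat_lit 0) (nat_lit 0) (XT.nd (nat_lit 234) (nat_lit 1444) (nat_lit 0) (XT.nd (nat_lit 78) (nat_lit 684) (nat_lit 0) (XT.lf (nat_lit 0) (nat_lit 15644570328) (nat_lit 760) (nat_lit 69457716) (nat_lit 836) (nat_lit 13331191855) (nat_lit 315) (nat_lit 5) (nat_lit 325) (nat_lit 5) (nat_lit 326) (nat_lit 5) (nat_lit 499) (nat_lit 456) (nat_lit 185)) (XT.nd (nat_lit 78) (nat_lit 0) (nat_lit 0) (XT.lf (nat_lit 0) (nat_lit 2429549538) (nat_lit 684) (nat_lit 17274703450) (nat_lit 760) (nat_lit 9672695302) (nat_lit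 306) (nat_lit 5) (nat_lit 315) (nat_lit 5) (nat_lit 316) (nat_lit 5) (nat_lit 500) (nat_lit 456) (nat_lit 184)) (XT.lf (nat_lit 0) (nat_lit 18754819465) (nat_lit 684) (nat_lit 5107407932) (nat_lit 760) (nat_lit 5851325400) (nat_lit 306) (nat_lit 5) (nat_lit 315) (nat_lit 5) (nat_lit 316) (nat_lit 5) (nat_lit 501) (nat_lit 456) (nat_lit 183)))) (XT.nd (nat_lit 78) (nat_lit 760) (nat_lit 0) (XT.lf (nat_lit 0) (nat_lit 5370006973) (nat_lit 684) (nat_lit 22813246018) (nat_lit 760) (nat_lit 1872039011) (nat_lit 297) (nat_lit 5) (nat_lit 306) (nat_lit 5) (nat_lit 307) (nat_lit 5) (nat_lit 502) (nat_lit 456) (nat_lit 182)) (XT.nd (nat_lit 78) (nat_lit 684) (nat_lit 0) (XT.lf (nat_lit 0) (nat_lit 2263624128) (nat_lit 760) (nat_lit 8279757682) (nat_lit 76) (nat_lit 19858091202) (nat_lit 296) (nat_lit 5) (nat_lit 306) (nat_lit 5) (nat_lit 297) (nat_lit 5) (nat_lit 503) (nat_lit 456) (nat_lit 181)) (XT.lf (nat_lit 0) (nat_lit 6523394773)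 (nat_lit 760) (nat_lit 22215557097) (nat_lit 76) (nat_lit 2014049486) (nat_lit 287) (nat_lit 5) (nat_lit 297) (nat_lit 5) (nat_lit 288) (nat_lit 5) (nat_lit 504) (nat_lit 456) (nat_lit 180))))) (XT.nd (nat_lit 55770) (nat_lit 0) (nat_lit 12160) (XT.nd (nat_lit 55614) (nat_lit 0) (nat_lit 12160) (XT.lf (nat_lit 0) (nat_lit 10991808845) (nat_lit 760) (nat_lit 5380113190) (nat_lit 76) (nat_lit 14737169679) (nat_lit 287) (nat_lit 5) (nat_lit 297) (nat_lit 5) (nat_lit 288) (nat_lit 5) (nat_lit 505) (nat_lit 456) (nat_lit 179)) (XT.nd (nat_lit 78) (nat_lit 0) (nat_lit 0) (XT.lf (nat_lit 0) (nat_lit 2470988591) (nat_lit 0) (nat_lit 2470988591) (nat_lit 1748) (nat_lit 4465480528) (nat_lit 447) (nat_lit 5) (nat_lit 447) (nat_lit 3) (nat_lit 470) (nat_lit 3) (nat_lit 457) (nat_lit 457) (nat_lit 226)) (XT.lf (nat_lit 0) (nat_lit 10195249003) (nat_lit 1748) (nat_lit 4754316555) (nat_lit 1824) (nat_lit 4049208997) (nat_lit 447) (nat_lit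 5) (nat_lit 470) (nat_lit 3) (nat_lit 471) (nat_lit 5) (nat_lit 458) (nat_lit 457) (nat_lit 225)))) (XT.nd (nat_lit 78) (nat_lit 0) (nat_lit 76) (XT.lf (nat_lit 76) (nat_lit 4571351959) (nat_lit 0) (nat_lit 5998967962) (nat_lit 1824) (nat_lit 8614841016) (nat_lit 448) (nat_lit 5) (nat_lit 447) (nat_lit 5) (nat_lit 471) (nat_lit 5) (nat_lit 459) (nat_lit 457) (nat_lit 224)) (XT.nd (nat_lit 78) (nat_lit 0) (nat_lit 0) (XT.lf (nat_lit 0) (nat_lit 11000568901) (nat_lit 1748) (nat_lit 5249840407) (nat_lit 1824) (nat_lit 3123913257) (nat_lit 448) (nat_lit 5) (nat_lit 471) (nat_lit 5) (nat_lit 472) (nat_lit 5) (nat_lit 460) (nat_lit 457) (nat_lit 223)) (XT.lf (nat_lit 76) (nat_lit 4315686341) (nat_lit 0) (nat_lit 7186813700) (nat_lit 1824) (nat_lit 8063506873) (nat_lit 449) (nat_lit 5) (nat_lit 448) (nat_lit 5) (nat_lit 472) (nat_lit 5) (nat_lit 461) (nat_lit 457) (nat_lit 222))))))))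
noncomputable def xc239 : XT := (XT.nd (nat_lit 1794) (nat_lit 9044) (nat_lit 0) (XT.nd (nat_lit 858) (nat_lit 2584) (nat_lit 0) (XT.nd (nat_lit 390) (nat_lit 0) (nat_lit 152) (XT.nd (nat_lit 156) (nat_lit 0) (nat_lit 76) (XT.nd (nat_lit 78) (nat_lit 0) (nat_lit 0) (XT.lf (nat_lit 0) (nat_lit 12058711150) (nat_lit 1748) (nat_lit 5633412251) (nat_lit 1824) (nat_lit 2068517734) (nat_lit 449) (nat_lit 5) (nat_lit 472) (nat_lit 5) (nat_lit 473) (nat_lit 5) (nat_lit 462) (nat_lit 457) (nat_lit 221)) (XT.lf (nat_lit 76) (nat_lit 4180436305) (nat_lit 0) (nat_lit 8515853599) (nat_lit 1824) (nat_lit 7261474259) (nat_lit 450) (nat_lit 5) (nat_lit 449) (nat_lit 5) (nat_lit 473) (nat_lit 5) (nat_lit 463) (nat_lit 457) (nat_lit 220))) (XT.nd (nat_lit 78) (nat_lit 0) (nat_lit 0) (XT.lf (nat_lit 0) (nat_lit 13385742534) (nat_lit 1748) (nat_lit 5899593329) (nat_lit 1824) (nat_lit 872712315) (nat_lit 450) (nat_lit 5) (nat_lit 473) (nat_lit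 5) (nat_lit 474) (nat_lit 5) (nat_lit 464) (nat_lit 457) (nat_lit 219)) (XT.nd (nat_lit 78) (nat_lit 0) (nat_lit 0) (XT.lf (nat_lit 76) (nat_lit 4171346511) (nat_lit 0) (nat_lit 9996793076) (nat_lit 1824) (nat_lit 6192616132) (nat_lit 451) (nat_lit 5) (nat_lit 450) (nat_lit 5) (nat_lit 474) (nat_lit 5) (nat_lit 465) (nat_lit 457) (nat_lit 218)) (XT.lf (nat_lit 76) (nat_lit 14521032237) (nat_lit 0) (nat_lit 480485186) (nat_lit 1824) (nat_lit 5565294266) (nat_lit 451) (nat_lit 5) (nat_lit 450) (nat_lit 5) (nat_lit 474) (nat_lit 5) (nat_lit 466) (nat_lit 457) (nat_lit 217))))) (XT.nd (nat_lit 234) (nat_lit 0) (nat_lit 76) (XT.nd (nat_lit 78) (nat_lit 0) (nat_lit 0) (XT.lf (nat_lit 76) (nat_lit 4294456931) (nat_lit 0) (nat_lit 11640727819) (nat_lit 1824) (nat_lit 4840132504) (nat_lit 452) (nat_lit 5) (nat_lit 451) (nat_lit 5) (nat_lit 475) (nat_lit 5) (nat_lit 467) (nat_lit 457) (nat_lit 216)) (XT.nd (nat_lit 78) (nat_lit 0) (nat_lit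 76) (XT.lf (nat_lit 76) (nat_lit 14917557274) (nat_lit 0) (nat_lit 2009601091) (nat_lit 1824) (nat_lit 4060042806) (nat_lit 452) (nat_lit 5) (nat_lit 451) (nat_lit 5) (nat_lit 475) (nat_lit 5) (nat_lit 468) (nat_lit 457) (nat_lit 215)) (XT.lf (nat_lit 76) (nat_lit 4556109811) (nat_lit 0) (nat_lit 13459168517) (nat_lit 1824) (nat_lit 3186519180) (nat_lit 453) (nat_lit 5) (nat_lit 452) (nat_lit 5) (nat_lit 476) (nat_lit 5) (nat_lit 469) (nat_lit 457) (nat_lit 214)))) (XT.nd (nat_lit 78) (nat_lit 0) (nat_lit 76) (XT.lf (nat_lit 76) (nat_lit 15460479928) (nat_lit 0) (nat_lit 3714684436) (nat_lit 1824) (nat_lit 2244522199) (nat_lit 453) (nat_lit 5) (nat_lit 452) (nat_lit 5) (nat_lit 476) (nat_lit 5) (nat_lit 470) (nat_lit 457) (nat_lit 213)) (XT.nd (nat_lit 78) (nat_lit 0) (nat_lit 0) (XT.lf (nat_lit 76) (nat_lit 4962956955) (nat_lit 0) (nat_lit 15464066317) (nat_lit 1824) (nat_lit 1213535469) (nat_lit 454) (nat_lit 5) (nat_lit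 453) (nat_lit 5) (nat_lit 477) (nat_lit 5) (nat_lit 471) (nat_lit 457) (nat_lit 212)) (XT.lf (nat_lit 76) (nat_lit 16156710501) (nat_lit 0) (nat_lit 5607832693) (nat_lit 1824) (nat_lit 100093523) (nat_lit 454) (nat_lit 5) (nat_lit 453) (nat_lit 5) (nat_lit 477) (nat_lit 5) (nat_lit 472) (nat_lit 457) (nat_lit 211)))))) (XT.nd (nat_lit 468) (nat_lit 1140) (nat_lit 0) (XT.nd (nat_lit 234) (nat_lit 0) (nat_lit 76) (XT.nd (nat_lit 78) (nat_lit 0) (nat_lit 0) (XT.lf (nat_lit 0) (nat_lit 1083430956) (nat_lit 1824) (nat_lit 16577137709) (nat_lit 1900) (nat_lit 4431265986) (nat_lit 430) (nat_lit 5) (nat_lit 454) (nat_lit 5) (nat_lit 455) (nat_lit 5) (nat_lit 473) (nat_lit 457) (nat_lit 210)) (XT.nd (nat_lit 78) (nat_lit 0) (nat_lit 76) (XT.lf (nat_lit 0) (nat_lit 2361289333) (nat_lit 1824) (nat_lit 5324485662) (nat_lit 1900) (nat_lit 14636349025) (nat_lit 430) (nat_lit 5) (nat_lit 454) (nat_lit 5) (nat_lit 455) (nat_lit 5) (nat_lit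 474) (nat_lit 457) (nat_lit 209)) (XT.lf (nat_lit 0) (nat_lit 3717979694) (nat_lit 1824) (nat_lit 16340469048) (nat_lit 1900) (nat_lit 2497505705) (nat_lit 431) (nat_lit 5) (nat_lit 455) (nat_lit 5) (nat_lit 456) (nat_lit 5) (nat_lit 475) (nat_lit 457) (nat_lit 208)))) (XT.nd (nat_lit 78) (nat_lit 0) (nat_lit 76) (XT.lf (nat_lit 0) (nat_lit 5185108907) (nat_lit 1824) (nat_lit 4789223361) (nat_lit 1900) (nat_lit 12818463864) (nat_lit 431) (nat_lit 5) (nat_lit 455) (nat_lit 5) (nat_lit 456) (nat_lit 5) (nat_lit 476) (nat_lit 457) (nat_lit 207)) (XT.nd (nat_lit 78) (nat_lit 0) (nat_lit 0) (XT.lf (nat_lit 0) (nat_lit 6726410525) (nat_lit 1824) (nat_lit 15952629247) (nat_lit 1900) (nat_lit 354439019) (nat_lit 432) (nat_lit 5) (nat_lit 456) (nat_lit 5) (nat_lit 457) (nat_lit 5) (nat_lit 477) (nat_lit 457) (nat_lit 206)) (XT.lf (nat_lit 0) (nat_lit 8393509109) (nat_lit 1824) (nat_lit 4094130755) (nat_lit 1900) (nat_lit 10789436545)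 (nat_lit 432) (nat_lit 5) (nat_lit 456) (nat_lit 5) (nat_lit 457) (nat_lit 5) (nat_lit 478) (nat_lit 457) (nat_lit 205))))) (XT.nd (nat_lit 234) (nat_lit 1292) (nat_lit 0) (XT.nd (nat_lit 78) (nat_lit 0) (nat_lit 76) (XT.lf (nat_lit 76) (nat_lit 8105118686) (nat_lit 0) (nat_lit 2038086850) (nat_lit 1900) (nat_lit 13381356033) (nat_lit 433) (nat_lit 5) (nat_lit 432) (nat_lit 5) (nat_lit 457) (nat_lit 5) (nat_lit 479) (nat_lit 457) (nat_lit 204)) (XT.nd (nat_lit 78) (nat_lit 0) (nat_lit 0) (XT.lf (nat_lit 0) (nat_lit 12008205915) (nat_lit 1824) (nat_lit 3231520808) (nat_lit 1900) (nat_lit 8535664202) (nat_lit 433) (nat_lit 5) (nat_lit 457) (nat_lit 5) (nat_lit 458) (nat_lit 5) (nat_lit 480) (nat_lit 457) (nat_lit 203)) (XT.lf (nat_lit 76) (nat_lit 9305994274) (nat_lit 0) (nat_lit 4675179567) (nat_lit 1900) (nat_lit 10048650358) (nat_lit 434) (nat_lit 5) (nat_lit 433) (nat_lit 5) (nat_lit 458) (nat_lit 5) (nat_lit 481) (nat_lit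 457) (nat_lit 202)))) (XT.nd (nat_lit 78) (nat_lit 1444) (nat_lit 0) (XT.lf (nat_lit 0) (nat_lit 16051838528) (nat_lit 1824) (nat_lit 2193369893) (nat_lit 76) (nat_lit 6042973636) (nat_lit 434) (nat_lit 5) (nat_lit 458) (nat_lit 5) (nat_lit 435) (nat_lit 5) (nat_lit 482) (nat_lit 457) (nat_lit 201)) (XT.nd (nat_lit 78) (nat_lit 0) (nat_lit 0) (XT.lf (nat_lit 0) (nat_lit 10694281484) (nat_lit 1444) (nat_lit 7566892673) (nat_lit 1520) (nat_lit 6288588416) (nat_lit 415) (nat_lit 5) (nat_lit 434) (nat_lit 5) (nat_lit 435) (nat_lit 5) (nat_lit 483) (nat_lit 457) (nat_lit 200)) (XT.lf (nat_lit 0) (nat_lit 20548009120) (nat_lit 1520) (nat_lit 971309323) (nat_lit 76) (nat_lit 3296590648) (nat_lit 415) (nat_lit 5) (nat_lit 435) (nat_lit 5) (nat_lit 416) (nat_lit 5) (nat_lit 484) (nat_lit 457) (nat_lit 199))))))) (XT.nd (nat_lit 936) (nat_lit 2964) (nat_lit 0) (XT.nd (nat_lit 468) (nat_lit 2432) (nat_lit 0) (XT.nd (nat_lit 234) (nat_lit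 1748) (nat_lit 0) (XT.nd (nat_lit 78) (nat_lit 988) (nat_lit 0) (XT.lf (nat_lit 0) (nat_lit 12278765281) (nat_lit 912) (nat_lit 10728618320) (nat_lit 988) (nat_lit 2077459508) (nat_lit 403) (nat_lit 5) (nat_lit 415) (nat_lit 5) (nat_lit 416) (nat_lit 5) (nat_lit 485) (nat_lit 457) (nat_lit 198)) (XT.nd (nat_lit 78) (nat_lit 0) (nat_lit 0) (XT.lf (nat_lit 0) (nat_lit 163083185) (nat_lit 988) (nat_lit 24910787744) (nat_lit 76) (nat_lit 285098130) (nat_lit 390) (nat_lit 5) (nat_lit 403) (nat_lit 5) (nat_lit 391) (nat_lit 5) (nat_lit 486) (nat_lit 457) (nat_lit 197)) (XT.lf (nat_lit 0) (nat_lit 2575234328) (nat_lit 988) (nat_lit 11583894378) (nat_lit 76) (nat_lit 11476082477) (nat_lit 390) (nat_lit 5) (nat_lit 403) (nat_lit 5) (nat_lit 391) (nat_lit 5) (nat_lit 487) (nat_lit 457) (nat_lit 196)))) (XT.nd (nat_lit 78) (nat_lit 836) (nat_lit 0) (XT.lf (nat_lit 0) (nat_lit 2033487402) (nat_lit 912) (nat_lit 3012435696) (nat_lit 988)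 (nat_lit 20870849742) (nat_lit 378) (nat_lit 5) (nat_lit 390) (nat_lit 5) (nat_lit 391) (nat_lit 5) (nat_lit 488) (nat_lit 457) (nat_lit 195)) (XT.nd (nat_lit 78) (nat_lit 836) (nat_lit 0) (XT.lf (nat_lit 0) (nat_lit 7695667322) (nat_lit 988) (nat_lit 10179706866) (nat_lit 76) (nat_lit 8325999277) (nat_lit 378) (nat_lit 5) (nat_lit 391) (nat_lit 5) (nat_lit 379) (nat_lit 5) (nat_lit 489) (nat_lit 457) (nat_lit 194)) (XT.lf (nat_lit 0) (nat_lit 3825458925) (nat_lit 836) (nat_lit 6614923481) (nat_lit 912) (nat_lit 16050444734) (nat_lit 367) (nat_lit 5) (nat_lit 378) (nat_lit 5) (nat_lit 379) (nat_lit 5) (nat_lit 490) (nat_lit 457) (nat_lit 193))))) (XT.nd (nat_lit 234) (nat_lit 1596) (nat_lit 0) (XT.nd (nat_lit 78) (nat_lit 836) (nat_lit 0) (XT.lf (nat_lit 0) (nat_lit 13337606307) (nat_lit 912) (nat_lit 8570808272) (nat_lit 76) (nat_lit 4875703569) (nat_lit 367) (nat_lit 5) (nat_lit 379) (nat_lit 5) (nat_lit 368) (nat_lit 5)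 (nat_lit 491) (nat_lit 457) (nat_lit 192)) (XT.nd (nat_lit 78) (nat_lit 0) (nat_lit 0) (XT.lf (nat_lit 0) (nat_lit 5835680447) (nat_lit 836) (nat_lit 10536072042) (nat_lit 912) (nat_lit 10709943468) (nat_lit 356) (nat_lit 5) (nat_lit 367) (nat_lit 5) (nat_lit 368) (nat_lit 5) (nat_lit 492) (nat_lit 457) (nat_lit 191)) (XT.lf (nat_lit 0) (nat_lit 19528700747) (nat_lit 912) (nat_lit 6747611298) (nat_lit 76) (nat_lit 1107671419) (nat_lit 356) (nat_lit 5) (nat_lit 368) (nat_lit 5) (nat_lit 357) (nat_lit 5) (nat_lit 493) (nat_lit 457) (nat_lit 190)))) (XT.nd (nat_lit 78) (nat_lit 836) (nat_lit 0) (XT.lf (nat_lit 0) (nat_lit 8074206314) (nat_lit 760) (nat_lit 14794149942) (nat_lit 836) (nat_lit 4821569616) (nat_lit 346) (nat_lit 5) (nat_lit 356) (nat_lit 5) (nat_lit 357) (nat_lit 5) (nat_lit 494) (nat_lit 457) (nat_lit 189)) (XT.nd (nat_lit 78) (nat_lit 836) (nat_lit 0) (XT.lf (nat_lit 0) (nat_lit 23281269479) (nat_lit 760) (nat_lit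 3036219615) (nat_lit 836) (nat_lit 1683644855) (nat_lit 346) (nat_lit 5) (nat_lit 356) (nat_lit 5) (nat_lit 357) (nat_lit 5) (nat_lit 495) (nat_lit 457) (nat_lit 188)) (XT.lf (nat_lit 0) (nat_lit 1622079508) (nat_lit 836) (nat_lit 17775272933) (nat_lit 76) (nat_lit 8918518493) (nat_lit 335) (nat_lit 5) (nat_lit 346) (nat_lit 5) (nat_lit 336) (nat_lit 5) (nat_lit 496) (nat_lit 457) (nat_lit 187)))))) (XT.nd (nat_lit 468) (nat_lit 760) (nat_lit 0) (XT.nd (nat_lit 234) (nat_lit 1444) (nat_lit 0) (XT.nd (nat_lit 78) (nat_lit 760) (nat_lit 0) (XT.lf (nat_lit 0) (nat_lit 5020855741) (nat_lit 836) (nat_lit 2500159602) (nat_lit 76) (nat_lit 21114675588) (nat_lit 335) (nat_lit 5) (nat_lit 346) (nat_lit 5) (nat_lit 336) (nat_lit 5) (nat_lit 497) (nat_lit 457) (nat_lit 186)) (XT.nd (nat_lit 78) (nat_lit 0) (nat_lit 0) (XT.lf (nat_lit 0) (nat_lit 8601554568) (nat_lit 836) (nat_lit 15738991375) (nat_lit 76) (nat_lit 4619082909) (nat_lit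 325) (nat_lit 5) (nat_lit 336) (nat_lit 5) (nat_lit 326) (nat_lit 5) (nat_lit 498) (nat_lit 457) (nat_lit 185)) (XT.lf (nat_lit 0) (nat_lit 12318114617) (nat_lit 836) (nat_lit 52539112) (nat_lit 76) (nat_lit 16918107318) (nat_lit 325) (nat_lit 5) (nat_lit 336) (nat_lit 5) (nat_lit 326) (nat_lit 5) (nat_lit 499) (nat_lit 457) (nat_lit 184)))) (XT.nd (nat_lit 78) (nat_lit 684) (nat_lit 0) (XT.lf (nat_lit 0) (nat_lit 16156944616) (nat_lit 760) (nat_lit 54561578) (nat_lit 836) (nat_lit 13410920133) (nat_lit 315) (nat_lit 5) (nat_lit 325) (nat_lit 5) (nat_lit 326) (nat_lit 5) (nat_lit 500) (nat_lit 457) (nat_lit 183)) (XT.nd (nat_lit 78) (nat_lit 0) (nat_lit 0) (XT.lf (nat_lit 0) (nat_lit 2679879625) (nat_lit 684) (nat_lit 17599477388) (nat_lit 760) (nat_lit 9681476512) (nat_lit 306) (nat_lit 5) (nat_lit 315) (nat_lit 5) (nat_lit 316) (nat_lit 5) (nat_lit 501) (nat_lit 457) (nat_lit 182)) (XT.lf (nat_lit 0) (nat_lit 19327699282)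 (nat_lit 684) (nat_lit 5189242237) (nat_lit 760) (nat_lit 5787300245) (nat_lit 306) (nat_lit 5) (nat_lit 315) (nat_lit 5) (nat_lit 316) (nat_lit 5) (nat_lit 502) (nat_lit 457) (nat_lit 181))))) (XT.nd (nat_lit 55926) (nat_lit 0) (nat_lit 11476) (XT.nd (nat_lit 78) (nat_lit 76) (nat_lit 0) (XT.lf (nat_lit 0) (nat_lit 5677316833) (nat_lit 684) (nat_lit 23245018247) (nat_lit 760) (nat_lit 1730522364) (nat_lit 297) (nat_lit 5) (nat_lit 306) (nat_lit 5) (nat_lit 307) (nat_lit 5) (nat_lit 503) (nat_lit 457) (nat_lit 180)) (XT.nd (nat_lit 55770) (nat_lit 0) (nat_lit 11476) (XT.lf (nat_lit 0) (nat_lit 2482044030) (nat_lit 760) (nat_lit 8247031063) (nat_lit 76) (nat_lit 20276933619) (nat_lit 296) (nat_lit 5) (nat_lit 306) (nat_lit 5) (nat_lit 297) (nat_lit 5) (nat_lit 504) (nat_lit 457) (nat_lit 179)) (XT.lf (nat_lit 0) (nat_lit 2612712924) (nat_lit 0) (nat_lit 2612712924) (nat_lit 1748) (nat_lit 4366448180) (nat_lit 447) (nat_lit 5)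 (nat_lit 447) (nat_lit 3) (nat_lit 470) (nat_lit 3) (nat_lit 458) (nat_lit 458) (nat_lit 224)))) (XT.nd (nat_lit 78) (nat_lit 0) (nat_lit 0) (XT.lf (nat_lit 0) (nat_lit 10759957552) (nat_lit 1748) (nat_lit 4659919162) (nat_lit 1824) (nat_lit 3951577548) (nat_lit 447) (nat_lit 5) (nat_lit 470) (nat_lit 3) (nat_lit 471) (nat_lit 5) (nat_lit 459) (nat_lit 458) (nat_lit 223)) (XT.nd (nat_lit 78) (nat_lit 0) (nat_lit 76) (XT.lf (nat_lit 76) (nat_lit 4851016119) (nat_lit 0) (nat_lit 6285661350) (nat_lit 1824) (nat_lit 8425009514) (nat_lit 448) (nat_lit 5) (nat_lit 447) (nat_lit 5) (nat_lit 471) (nat_lit 5) (nat_lit 460) (nat_lit 458) (nat_lit 222)) (XT.lf (nat_lit 0) (nat_lit 11567510408) (nat_lit 1748) (nat_lit 5162193380) (nat_lit 1824) (nat_lit 3025090008) (nat_lit 448) (nat_lit 5) (nat_lit 471) (nat_lit 5) (nat_lit 472) (nat_lit 5) (nat_lit 461) (nat_lit 458) (nat_lit 221))))))))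
noncomputable def xc240 : XT := (XT.nd (nat_lit 1794) (nat_lit 8968) (nat_lit 0) (XT.nd (nat_lit 858) (nat_lit 2508) (nat_lit 0) (XT.nd (nat_lit 390) (nat_lit 0) (nat_lit 152) (XT.nd (nat_lit 156) (nat_lit 0) (nat_lit 76) (XT.nd (nat_lit 78) (nat_lit 0) (nat_lit 76) (XT.lf (nat_lit 76) (nat_lit 4593376509) (nat_lit 0) (nat_lit 7480543653) (nat_lit 1824) (nat_lit 7876504373) (nat_lit 449) (nat_lit 5) (nat_lit 448) (nat_lit 5) (nat_lit 472) (nat_lit 5) (nat_lit 462) (nat_lit 458) (nat_lit 220)) (XT.lf (nat_lit 0) (nat_lit 12633607198) (nat_lit 1748) (nat_lit 5550734597) (nat_lit 1824) (nat_lit 1964764085) (nat_lit 449) (nat_lit 5) (nat_lit 472) (nat_lit 5) (nat_lit 473) (nat_lit 5) (nat_lit 463) (nat_lit 458) (nat_lit 219))) (XT.nd (nat_lit 78) (nat_lit 0) (nat_lit 76) (XT.lf (nat_lit 76) (nat_lit 4458105760) (nat_lit 0) (nat_lit 8820548173) (nat_lit 1824) (nat_lit 7071624551) (nat_lit 450) (nat_lit 5) (nat_lit 449) (nat_lit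 5) (nat_lit 473) (nat_lit 5) (nat_lit 464) (nat_lit 458) (nat_lit 218)) (XT.nd (nat_lit 78) (nat_lit 0) (nat_lit 0) (XT.lf (nat_lit 0) (nat_lit 13974600290) (nat_lit 1748) (nat_lit 5819963471) (nat_lit 1824) (nat_lit 760151740) (nat_lit 450) (nat_lit 5) (nat_lit 473) (nat_lit 5) (nat_lit 474) (nat_lit 5) (nat_lit 465) (nat_lit 458) (nat_lit 217)) (XT.lf (nat_lit 76) (nat_lit 4451095023) (nat_lit 0) (nat_lit 10316527991) (nat_lit 1824) (nat_lit 5993956012) (nat_lit 451) (nat_lit 5) (nat_lit 450) (nat_lit 5) (nat_lit 474) (nat_lit 5) (nat_lit 466) (nat_lit 458) (nat_lit 216))))) (XT.nd (nat_lit 234) (nat_lit 0) (nat_lit 152) (XT.nd (nat_lit 78) (nat_lit 0) (nat_lit 76) (XT.lf (nat_lit 76) (nat_lit 15003925021) (nat_lit 0) (nat_lit 607544941) (nat_lit 1824) (nat_lit 5360411482) (nat_lit 451) (nat_lit 5) (nat_lit 450) (nat_lit 5) (nat_lit 474) (nat_lit 5) (nat_lit 467) (nat_lit 458) (nat_lit 215)) (XT.nd (nat_lit 78) (nat_lit 0)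 (nat_lit 0) (XT.lf (nat_lit 76) (nat_lit 4578534742) (nat_lit 0) (nat_lit 11979738149) (nat_lit 1824) (nat_lit 4626396319) (nat_lit 452) (nat_lit 5) (nat_lit 451) (nat_lit 5) (nat_lit 475) (nat_lit 5) (nat_lit 468) (nat_lit 458) (nat_lit 214)) (XT.lf (nat_lit 76) (nat_lit 15410211040) (nat_lit 0) (nat_lit 2153906616) (nat_lit 1824) (nat_lit 3836793824) (nat_lit 452) (nat_lit 5) (nat_lit 451) (nat_lit 5) (nat_lit 475) (nat_lit 5) (nat_lit 469) (nat_lit 458) (nat_lit 213)))) (XT.nd (nat_lit 78) (nat_lit 0) (nat_lit 0) (XT.lf (nat_lit 76) (nat_lit 4846921867) (nat_lit 0) (nat_lit 13821860655) (nat_lit 1824) (nat_lit 2951122855) (nat_lit 453) (nat_lit 5) (nat_lit 452) (nat_lit 5) (nat_lit 476) (nat_lit 5) (nat_lit 470) (nat_lit 458) (nat_lit 212)) (XT.nd (nat_lit 78) (nat_lit 0) (nat_lit 76) (XT.lf (nat_lit 76) (nat_lit 15965463899) (nat_lit 0) (nat_lit 3880653387) (nat_lit 1824) (nat_lit 1996151163) (nat_lit 453) (nat_lit 5) (nat_lit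 452) (nat_lit 5) (nat_lit 476) (nat_lit 5) (nat_lit 471) (nat_lit 458) (nat_lit 211)) (XT.lf (nat_lit 76) (nat_lit 5263067388) (nat_lit 0) (nat_lit 15855030232) (nat_lit 1824) (nat_lit 949559999) (nat_lit 454) (nat_lit 5) (nat_lit 453) (nat_lit 5) (nat_lit 477) (nat_lit 5) (nat_lit 472) (nat_lit 458) (nat_lit 210)))))) (XT.nd (nat_lit 468) (nat_lit 1064) (nat_lit 0) (XT.nd (nat_lit 234) (nat_lit 0) (nat_lit 152) (XT.nd (nat_lit 78) (nat_lit 0) (nat_lit 76) (XT.lf (nat_lit 0) (nat_lit 178131623) (nat_lit 1824) (nat_lit 5620743335) (nat_lit 1900) (nat_lit 16497430763) (nat_lit 429) (nat_lit 5) (nat_lit 453) (nat_lit 5) (nat_lit 454) (nat_lit 5) (nat_lit 473) (nat_lit 458) (nat_lit 209)) (XT.nd (nat_lit 78) (nat_lit 0) (nat_lit 0) (XT.lf (nat_lit 0) (nat_lit 1379324307) (nat_lit 1824) (nat_lit 16703280576) (nat_lit 1900) (nat_lit 4445523899) (nat_lit 430) (nat_lit 5) (nat_lit 454) (nat_lit 5) (nat_lit 455) (nat_lit 5) (nat_lit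 474) (nat_lit 458) (nat_lit 208)) (XT.lf (nat_lit 0) (nat_lit 2677362896) (nat_lit 1824) (nat_lit 5229602938) (nat_lit 1900) (nat_lit 14856166783) (nat_lit 430) (nat_lit 5) (nat_lit 454) (nat_lit 5) (nat_lit 455) (nat_lit 5) (nat_lit 475) (nat_lit 458) (nat_lit 207)))) (XT.nd (nat_lit 78) (nat_lit 0) (nat_lit 0) (XT.lf (nat_lit 0) (nat_lit 4056793478) (nat_lit 1824) (nat_lit 16461456594) (nat_lit 1900) (nat_lit 2483478568) (nat_lit 431) (nat_lit 5) (nat_lit 455) (nat_lit 5) (nat_lit 456) (nat_lit 5) (nat_lit 476) (nat_lit 458) (nat_lit 206)) (XT.nd (nat_lit 78) (nat_lit 0) (nat_lit 76) (XT.lf (nat_lit 0) (nat_lit 5548079900) (nat_lit 1824) (nat_lit 4683221715) (nat_lit 1900) (nat_lit 13012110347) (nat_lit 431) (nat_lit 5) (nat_lit 455) (nat_lit 5) (nat_lit 456) (nat_lit 5) (nat_lit 477) (nat_lit 458) (nat_lit 205)) (XT.lf (nat_lit 0) (nat_lit 7116068080) (nat_lit 1824) (nat_lit 16065702604) (nat_lit 1900) (nat_lit 307221453)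 (nat_lit 432) (nat_lit 5) (nat_lit 456) (nat_lit 5) (nat_lit 457) (nat_lit 5) (nat_lit 478) (nat_lit 458) (nat_lit 204))))) (XT.nd (nat_lit 234) (nat_lit 1292) (nat_lit 0) (XT.nd (nat_lit 78) (nat_lit 0) (nat_lit 0) (XT.lf (nat_lit 0) (nat_lit 8811506098) (nat_lit 1824) (nat_lit 3974072950) (nat_lit 1900) (nat_lit 10951983760) (nat_lit 432) (nat_lit 5) (nat_lit 456) (nat_lit 5) (nat_lit 457) (nat_lit 5) (nat_lit 479) (nat_lit 458) (nat_lit 203)) (XT.nd (nat_lit 78) (nat_lit 0) (nat_lit 76) (XT.lf (nat_lit 76) (nat_lit 8467832924) (nat_lit 0) (nat_lit 2124761588) (nat_lit 1900) (nat_lit 13397476229) (nat_lit 433) (nat_lit 5) (nat_lit 432) (nat_lit 5) (nat_lit 457) (nat_lit 5) (nat_lit 480) (nat_lit 458) (nat_lit 202)) (XT.lf (nat_lit 0) (nat_lit 12489768826) (nat_lit 1824) (nat_lit 3094296302) (nat_lit 1900) (nat_lit 8661955090) (nat_lit 433) (nat_lit 5) (nat_lit 457) (nat_lit 5) (nat_lit 458) (nat_lit 5) (nat_lit 481) (nat_lit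 458) (nat_lit 201)))) (XT.nd (nat_lit 78) (nat_lit 1368) (nat_lit 0) (XT.lf (nat_lit 76) (nat_lit 9692641089) (nat_lit 0) (nat_lit 4806123665) (nat_lit 1900) (nat_lit 10006847021) (nat_lit 434) (nat_lit 5) (nat_lit 433) (nat_lit 5) (nat_lit 458) (nat_lit 5) (nat_lit 482) (nat_lit 458) (nat_lit 200)) (XT.nd (nat_lit 78) (nat_lit 1444) (nat_lit 0) (XT.lf (nat_lit 0) (nat_lit 16605938384) (nat_lit 1824) (nat_lit 2035689325) (nat_lit 76) (nat_lit 6127608140) (nat_lit 434) (nat_lit 5) (nat_lit 458) (nat_lit 5) (nat_lit 435) (nat_lit 5) (nat_lit 483) (nat_lit 458) (nat_lit 199)) (XT.lf (nat_lit 0) (nat_lit 11108389107) (nat_lit 1444) (nat_lit 7747801729) (nat_lit 1520) (nat_lit 6179923491) (nat_lit 415) (nat_lit 5) (nat_lit 434) (nat_lit 5) (nat_lit 435) (nat_lit 5) (nat_lit 484) (nat_lit 458) (nat_lit 198))))))) (XT.nd (nat_lit 858) (nat_lit 3724) (nat_lit 0) (XT.nd (nat_lit 390) (nat_lit 2432) (nat_lit 0) (XT.nd (nat_lit 156) (nat_lit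 1900) (nat_lit 0) (XT.nd (nat_lit 78) (nat_lit 912) (nat_lit 0) (XT.lf (nat_lit 0) (nat_lit 21184068518) (nat_lit 1520) (nat_lit 789698757) (nat_lit 76) (nat_lit 3333911313) (nat_lit 415) (nat_lit 5) (nat_lit 435) (nat_lit 5) (nat_lit 416) (nat_lit 5) (nat_lit 485) (nat_lit 458) (nat_lit 197)) (XT.lf (nat_lit 0) (nat_lit 12724054729) (nat_lit 912) (nat_lit 10965458726) (nat_lit 988) (nat_lit 1892541088) (nat_lit 403) (nat_lit 5) (nat_lit 415) (nat_lit 5) (nat_lit 416) (nat_lit 5) (nat_lit 486) (nat_lit 458) (nat_lit 196))) (XT.nd (nat_lit 78) (nat_lit 912) (nat_lit 0) (XT.lf (nat_lit 0) (nat_lit 386644047) (nat_lit 988) (nat_lit 25203032051) (nat_lit 76) (nat_lit 272022349) (nat_lit 390) (nat_lit 5) (nat_lit 403) (nat_lit 5) (nat_lit 391) (nat_lit 5) (nat_lit 487) (nat_lit 458) (nat_lit 195)) (XT.nd (nat_lit 78) (nat_lit 912) (nat_lit 0) (XT.lf (nat_lit 0) (nat_lit 2842718621) (nat_lit 988) (nat_lit 11613639474) (nat_lit 76)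 (nat_lit 11687194575) (nat_lit 390) (nat_lit 5) (nat_lit 403) (nat_lit 5) (nat_lit 391) (nat_lit 5) (nat_lit 488) (nat_lit 458) (nat_lit 194)) (XT.lf (nat_lit 0) (nat_lit 2274761436) (nat_lit 912) (nat_lit 3085127292) (nat_lit 988) (nat_lit 21070916326) (nat_lit 378) (nat_lit 5) (nat_lit 390) (nat_lit 5) (nat_lit 391) (nat_lit 5) (nat_lit 489) (nat_lit 458) (nat_lit 193))))) (XT.nd (nat_lit 234) (nat_lit 1596) (nat_lit 0) (XT.nd (nat_lit 78) (nat_lit 836) (nat_lit 0) (XT.lf (nat_lit 0) (nat_lit 8058371239) (nat_lit 988) (nat_lit 10182332067) (nat_lit 76) (nat_lit 8480480348) (nat_lit 378) (nat_lit 5) (nat_lit 391) (nat_lit 5) (nat_lit 379) (nat_lit 5) (nat_lit 490) (nat_lit 458) (nat_lit 192)) (XT.nd (nat_lit 78) (nat_lit 0) (nat_lit 0) (XT.lf (nat_lit 0) (nat_lit 4101614876) (nat_lit 836) (nat_lit 6753568055) (nat_lit 912) (nat_lit 16161300239) (nat_lit 367) (nat_lit 5) (nat_lit 378) (nat_lit 5) (nat_lit 379) (nat_lit 5) (nat_lit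 491) (nat_lit 458) (nat_lit 191)) (XT.lf (nat_lit 0) (nat_lit 13806271839) (nat_lit 912) (nat_lit 8542372978) (nat_lit 76) (nat_lit 4967077568) (nat_lit 367) (nat_lit 5) (nat_lit 379) (nat_lit 5) (nat_lit 368) (nat_lit 5) (nat_lit 492) (nat_lit 458) (nat_lit 190)))) (XT.nd (nat_lit 78) (nat_lit 760) (nat_lit 0) (XT.lf (nat_lit 0) (nat_lit 6150930703) (nat_lit 836) (nat_lit 10747500186) (nat_lit 912) (nat_lit 10720875043) (nat_lit 356) (nat_lit 5) (nat_lit 367) (nat_lit 5) (nat_lit 368) (nat_lit 5) (nat_lit 493) (nat_lit 458) (nat_lit 189)) (XT.nd (nat_lit 78) (nat_lit 760) (nat_lit 0) (XT.lf (nat_lit 0) (nat_lit 20114606882) (nat_lit 912) (nat_lit 6683970210) (nat_lit 76) (nat_lit 1129141088) (nat_lit 356) (nat_lit 5) (nat_lit 368) (nat_lit 5) (nat_lit 357) (nat_lit 5) (nat_lit 494) (nat_lit 458) (nat_lit 188)) (XT.lf (nat_lit 0) (nat_lit 8432977219) (nat_lit 760) (nat_lit 15085529157) (nat_lit 836) (nat_lit 4721324794) (nat_lit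 346) (nat_lit 5) (nat_lit 356) (nat_lit 5) (nat_lit 357) (nat_lit 5) (nat_lit 495) (nat_lit 458) (nat_lit 187)))))) (XT.nd (nat_lit 468) (nat_lit 1368) (nat_lit 0) (XT.nd (nat_lit 234) (nat_lit 1520) (nat_lit 0) (XT.nd (nat_lit 78) (nat_lit 836) (nat_lit 0) (XT.lf (nat_lit 0) (nat_lit 23940313279) (nat_lit 760) (nat_lit 3092528533) (nat_lit 836) (nat_lit 1524497934) (nat_lit 346) (nat_lit 5) (nat_lit 356) (nat_lit 5) (nat_lit 357) (nat_lit 5) (nat_lit 496) (nat_lit 458) (nat_lit 186)) (XT.nd (nat_lit 78) (nat_lit 0) (nat_lit 0) (XT.lf (nat_lit 0) (nat_lit 1842389543) (nat_lit 836) (nat_lit 17932337114) (nat_lit 76) (nat_lit 9103668934) (nat_lit 335) (nat_lit 5) (nat_lit 346) (nat_lit 5) (nat_lit 336) (nat_lit 5) (nat_lit 497) (nat_lit 458) (nat_lit 185)) (XT.lf (nat_lit 0) (nat_lit 5305457605) (nat_lit 836) (nat_lit 2355612522) (nat_lit 76) (nat_lit 21543616228) (nat_lit 335) (nat_lit 5) (nat_lit 346) (nat_lit 5) (nat_lit 336)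 (nat_lit 5) (nat_lit 498) (nat_lit 458) (nat_lit 184)))) (XT.nd (nat_lit 78) (nat_lit 760) (nat_lit 0) (XT.lf (nat_lit 0) (nat_lit 8955488073) (nat_lit 836) (nat_lit 15856904576) (nat_lit 76) (nat_lit 4722756714) (nat_lit 325) (nat_lit 5) (nat_lit 336) (nat_lit 5) (nat_lit 326) (nat_lit 5) (nat_lit 499) (nat_lit 458) (nat_lit 183)) (XT.nd (nat_lit 78) (nat_lit 0) (nat_lit 0) (XT.lf (nat_lit 0) (nat_lit 141269375) (nat_lit 760) (nat_lit 12602460447) (nat_lit 836) (nat_lit 17127188035) (nat_lit 315) (nat_lit 5) (nat_lit 325) (nat_lit 5) (nat_lit 326) (nat_lit 5) (nat_lit 500) (nat_lit 458) (nat_lit 182)) (XT.lf (nat_lit 0) (nat_lit 16671820226) (nat_lit 760) (nat_lit 39999895) (nat_lit 836) (nat_lit 13499500359) (nat_lit 315) (nat_lit 5) (nat_lit 325) (nat_lit 5) (nat_lit 326) (nat_lit 5) (nat_lit 501) (nat_lit 458) (nat_lit 181))))) (XT.nd (nat_lit 56004) (nat_lit 0) (nat_lit 11400) (XT.nd (nat_lit 78) (nat_lit 684) (nat_lit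 0) (XT.lf (nat_lit 0) (nat_lit 2927382538) (nat_lit 684) (nat_lit 17931551392) (nat_lit 760) (nat_lit 9697604412) (nat_lit 306) (nat_lit 5) (nat_lit 315) (nat_lit 5) (nat_lit 316) (nat_lit 5) (nat_lit 502) (nat_lit 458) (nat_lit 180)) (XT.nd (nat_lit 78) (nat_lit 684) (nat_lit 0) (XT.lf (nat_lit 0) (nat_lit 19904356524) (nat_lit 684) (nat_lit 5273502039) (nat_lit 760) (nat_lit 5729025044) (nat_lit 306) (nat_lit 5) (nat_lit 315) (nat_lit 5) (nat_lit 316) (nat_lit 5) (nat_lit 503) (nat_lit 458) (nat_lit 179)) (XT.lf (nat_lit 0) (nat_lit 5983010153) (nat_lit 684) (nat_lit 23686377002) (nat_lit 760) (nat_lit 1593124520) (nat_lit 297) (nat_lit 5) (nat_lit 306) (nat_lit 5) (nat_lit 307) (nat_lit 5) (nat_lit 504) (nat_lit 458) (nat_lit 178)))) (XT.nd (nat_lit 78) (nat_lit 0) (nat_lit 0) (XT.lf (nat_lit 0) (nat_lit 2753687445) (nat_lit 0) (nat_lit 2753687445) (nat_lit 1748) (nat_lit 4272748733) (nat_lit 447) (nat_lit 5) (nat_lit 447)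 (nat_lit 3) (nat_lit 470) (nat_lit 3) (nat_lit 459) (nat_lit 459) (nat_lit 222)) (XT.nd (nat_lit 78) (nat_lit 0) (nat_lit 0) (XT.lf (nat_lit 0) (nat_lit 11321949830) (nat_lit 1748) (nat_lit 4570991704) (nat_lit 1824) (nat_lit 3858929334) (nat_lit 447) (nat_lit 5) (nat_lit 470) (nat_lit 3) (nat_lit 471) (nat_lit 5) (nat_lit 460) (nat_lit 459) (nat_lit 221)) (XT.lf (nat_lit 76) (nat_lit 5128964086) (nat_lit 0) (nat_lit 6571614896) (nat_lit 1824) (nat_lit 8245443267) (nat_lit 448) (nat_lit 5) (nat_lit 447) (nat_lit 5) (nat_lit 471) (nat_lit 5) (nat_lit 461) (nat_lit 459) (nat_lit 220))))))))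
noncomputable def xc241 : XT := (XT.nd (nat_lit 1794) (nat_lit 9348) (nat_lit 0) (XT.nd (nat_lit 858) (nat_lit 1444) (nat_lit 0) (XT.nd (nat_lit 390) (nat_lit 0) (nat_lit 152) (XT.nd (nat_lit 156) (nat_lit 0) (nat_lit 76) (XT.nd (nat_lit 78) (nat_lit 0) (nat_lit 0) (XT.lf (nat_lit 0) (nat_lit 12132319025) (nat_lit 1748) (nat_lit 5080274008) (nat_lit 1824) (nat_lit 2930553829) (nat_lit 448) (nat_lit 5) (nat_lit 471) (nat_lit 5) (nat_lit 472) (nat_lit 5) (nat_lit 462) (nat_lit 459) (nat_lit 219)) (XT.lf (nat_lit 76) (nat_lit 4869189100) (nat_lit 0) (nat_lit 7774323767) (nat_lit 1824) (nat_lit 7699285675) (nat_lit 449) (nat_lit 5) (nat_lit 448) (nat_lit 5) (nat_lit 472) (nat_lit 5) (nat_lit 463) (nat_lit 459) (nat_lit 218))) (XT.nd (nat_lit 78) (nat_lit 0) (nat_lit 0) (XT.lf (nat_lit 0) (nat_lit 13207042342) (nat_lit 1748) (nat_lit 5473988909) (nat_lit 1824) (nat_lit 1864570704) (nat_lit 449) (nat_lit 5) (nat_lit 472) (nat_lit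 5) (nat_lit 473) (nat_lit 5) (nat_lit 464) (nat_lit 459) (nat_lit 217)) (XT.nd (nat_lit 78) (nat_lit 0) (nat_lit 76) (XT.lf (nat_lit 76) (nat_lit 4733792989) (nat_lit 0) (nat_lit 9126118597) (nat_lit 1824) (nat_lit 6890989382) (nat_lit 450) (nat_lit 5) (nat_lit 449) (nat_lit 5) (nat_lit 473) (nat_lit 5) (nat_lit 465) (nat_lit 459) (nat_lit 216)) (XT.lf (nat_lit 0) (nat_lit 14562764830) (nat_lit 1748) (nat_lit 5746414908) (nat_lit 1824) (nat_lit 650388589) (nat_lit 450) (nat_lit 5) (nat_lit 473) (nat_lit 5) (nat_lit 474) (nat_lit 5) (nat_lit 466) (nat_lit 459) (nat_lit 215))))) (XT.nd (nat_lit 234) (nat_lit 0) (nat_lit 76) (XT.nd (nat_lit 78) (nat_lit 0) (nat_lit 0) (XT.lf (nat_lit 76) (nat_lit 4728815099) (nat_lit 0) (nat_lit 10638005660) (nat_lit 1824) (nat_lit 5803846242) (nat_lit 451) (nat_lit 5) (nat_lit 450) (nat_lit 5) (nat_lit 474) (nat_lit 5) (nat_lit 467) (nat_lit 459) (nat_lit 214)) (XT.nd (nat_lit 78) (nat_lit 0)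 (nat_lit 76) (XT.lf (nat_lit 76) (nat_lit 15489001732) (nat_lit 0) (nat_lit 732585164) (nat_lit 1824) (nat_lit 5163709034) (nat_lit 451) (nat_lit 5) (nat_lit 450) (nat_lit 5) (nat_lit 474) (nat_lit 5) (nat_lit 468) (nat_lit 459) (nat_lit 213)) (XT.lf (nat_lit 76) (nat_lit 4860598202) (nat_lit 0) (nat_lit 12321404974) (nat_lit 1824) (nat_lit 4420444012) (nat_lit 452) (nat_lit 5) (nat_lit 451) (nat_lit 5) (nat_lit 475) (nat_lit 5) (nat_lit 469) (nat_lit 459) (nat_lit 212)))) (XT.nd (nat_lit 78) (nat_lit 0) (nat_lit 76) (XT.lf (nat_lit 76) (nat_lit 15905172873) (nat_lit 0) (nat_lit 2297055398) (nat_lit 1824) (nat_lit 3620902020) (nat_lit 452) (nat_lit 5) (nat_lit 451) (nat_lit 5) (nat_lit 475) (nat_lit 5) (nat_lit 470) (nat_lit 459) (nat_lit 211)) (XT.nd (nat_lit 78) (nat_lit 0) (nat_lit 0) (XT.lf (nat_lit 76) (nat_lit 5135795963) (nat_lit 0) (nat_lit 14188175576) (nat_lit 1824) (nat_lit 2722634057) (nat_lit 453) (nat_lit 5) (nat_lit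 452) (nat_lit 5) (nat_lit 476) (nat_lit 5) (nat_lit 471) (nat_lit 459) (nat_lit 210)) (XT.lf (nat_lit 76) (nat_lit 16472945391) (nat_lit 0) (nat_lit 4046381854) (nat_lit 1824) (nat_lit 1754200407) (nat_lit 453) (nat_lit 5) (nat_lit 452) (nat_lit 5) (nat_lit 476) (nat_lit 5) (nat_lit 472) (nat_lit 459) (nat_lit 209)))))) (XT.nd (nat_lit 468) (nat_lit 0) (nat_lit 228) (XT.nd (nat_lit 234) (nat_lit 0) (nat_lit 76) (XT.nd (nat_lit 78) (nat_lit 1824) (nat_lit 0) (XT.lf (nat_lit 76) (nat_lit 5561380728) (nat_lit 0) (nat_lit 16250641590) (nat_lit 1824) (nat_lit 691497971) (nat_lit 454) (nat_lit 5) (nat_lit 453) (nat_lit 5) (nat_lit 477) (nat_lit 5) (nat_lit 473) (nat_lit 459) (nat_lit 208)) (XT.nd (nat_lit 78) (nat_lit 0) (nat_lit 76) (XT.lf (nat_lit 0) (nat_lit 449752712) (nat_lit 1824) (nat_lit 5540272258) (nat_lit 1900) (nat_lit 16746788768) (nat_lit 429) (nat_lit 5) (nat_lit 453) (nat_lit 5) (nat_lit 454) (nat_lit 5) (nat_lit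 474) (nat_lit 459) (nat_lit 207)) (XT.lf (nat_lit 0) (nat_lit 1670487046) (nat_lit 1824) (nat_lit 16839922229) (nat_lit 1900) (nat_lit 4462954748) (nat_lit 430) (nat_lit 5) (nat_lit 454) (nat_lit 5) (nat_lit 455) (nat_lit 5) (nat_lit 475) (nat_lit 459) (nat_lit 206)))) (XT.nd (nat_lit 78) (nat_lit 0) (nat_lit 76) (XT.lf (nat_lit 0) (nat_lit 2989318245) (nat_lit 1824) (nat_lit 5140642096) (nat_lit 1900) (nat_lit 15083212050) (nat_lit 430) (nat_lit 5) (nat_lit 454) (nat_lit 5) (nat_lit 455) (nat_lit 5) (nat_lit 476) (nat_lit 459) (nat_lit 205)) (XT.nd (nat_lit 78) (nat_lit 0) (nat_lit 0) (XT.lf (nat_lit 0) (nat_lit 4392114460) (nat_lit 1824) (nat_lit 16592856203) (nat_lit 1900) (nat_lit 2471655204) (nat_lit 431) (nat_lit 5) (nat_lit 455) (nat_lit 5) (nat_lit 456) (nat_lit 5) (nat_lit 477) (nat_lit 459) (nat_lit 204)) (XT.lf (nat_lit 0) (nat_lit 5908242589) (nat_lit 1824) (nat_lit 4582935636) (nat_lit 1900) (nat_lit 13212065362)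 (nat_lit 431) (nat_lit 5) (nat_lit 455) (nat_lit 5) (nat_lit 456) (nat_lit 5) (nat_lit 478) (nat_lit 459) (nat_lit 203))))) (XT.nd (nat_lit 234) (nat_lit 0) (nat_lit 76) (XT.nd (nat_lit 78) (nat_lit 0) (nat_lit 0) (XT.lf (nat_lit 0) (nat_lit 7503611802) (nat_lit 1824) (nat_lit 16189035852) (nat_lit 1900) (nat_lit 261168318) (nat_lit 432) (nat_lit 5) (nat_lit 456) (nat_lit 5) (nat_lit 457) (nat_lit 5) (nat_lit 479) (nat_lit 459) (nat_lit 202)) (XT.nd (nat_lit 78) (nat_lit 0) (nat_lit 0) (XT.lf (nat_lit 0) (nat_lit 9228150299) (nat_lit 1824) (nat_lit 3859455582) (nat_lit 1900) (nat_lit 11119849352) (nat_lit 432) (nat_lit 5) (nat_lit 456) (nat_lit 5) (nat_lit 457) (nat_lit 5) (nat_lit 480) (nat_lit 459) (nat_lit 201)) (XT.lf (nat_lit 76) (nat_lit 8830011444) (nat_lit 0) (nat_lit 2211386963) (nat_lit 1900) (nat_lit 13423685150) (nat_lit 433) (nat_lit 5) (nat_lit 432) (nat_lit 5) (nat_lit 457) (nat_lit 5) (nat_lit 481) (nat_lit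 459) (nat_lit 200)))) (XT.nd (nat_lit 78) (nat_lit 0) (nat_lit 0) (XT.lf (nat_lit 0) (nat_lit 12971589185) (nat_lit 1824) (nat_lit 2962165578) (nat_lit 1900) (nat_lit 8792496771) (nat_lit 433) (nat_lit 5) (nat_lit 457) (nat_lit 5) (nat_lit 458) (nat_lit 5) (nat_lit 482) (nat_lit 459) (nat_lit 199)) (XT.nd (nat_lit 78) (nat_lit 0) (nat_lit 76) (XT.lf (nat_lit 76) (nat_lit 10079234135) (nat_lit 0) (nat_lit 4938232785) (nat_lit 1900) (nat_lit 9973634918) (nat_lit 434) (nat_lit 5) (nat_lit 433) (nat_lit 5) (nat_lit 458) (nat_lit 5) (nat_lit 483) (nat_lit 459) (nat_lit 198)) (XT.lf (nat_lit 0) (nat_lit 17162070114) (nat_lit 1824) (nat_lit 1882681498) (nat_lit 76) (nat_lit 6215341994) (nat_lit 434) (nat_lit 5) (nat_lit 458) (nat_lit 5) (nat_lit 435) (nat_lit 5) (nat_lit 484) (nat_lit 459) (nat_lit 197))))))) (XT.nd (nat_lit 936) (nat_lit 3040) (nat_lit 0) (XT.nd (nat_lit 468) (nat_lit 2432) (nat_lit 0) (XT.nd (nat_lit 234) (nat_lit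 1900) (nat_lit 0) (XT.nd (nat_lit 78) (nat_lit 912) (nat_lit 0) (XT.lf (nat_lit 0) (nat_lit 11523004018) (nat_lit 1444) (nat_lit 7931180681) (nat_lit 1520) (nat_lit 6078188729) (nat_lit 415) (nat_lit 5) (nat_lit 434) (nat_lit 5) (nat_lit 435) (nat_lit 5) (nat_lit 485) (nat_lit 459) (nat_lit 196)) (XT.nd (nat_lit 78) (nat_lit 912) (nat_lit 0) (XT.lf (nat_lit 0) (nat_lit 21824108227) (nat_lit 1520) (nat_lit 612262482) (nat_lit 76) (nat_lit 3373089397) (nat_lit 415) (nat_lit 5) (nat_lit 435) (nat_lit 5) (nat_lit 416) (nat_lit 5) (nat_lit 486) (nat_lit 459) (nat_lit 195)) (XT.lf (nat_lit 0) (nat_lit 13170494822) (nat_lit 912) (nat_lit 11206171246) (nat_lit 988) (nat_lit 1712718312) (nat_lit 403) (nat_lit 5) (nat_lit 415) (nat_lit 5) (nat_lit 416) (nat_lit 5) (nat_lit 487) (nat_lit 459) (nat_lit 194)))) (XT.nd (nat_lit 78) (nat_lit 912) (nat_lit 0) (XT.lf (nat_lit 0) (nat_lit 606121641) (nat_lit 988) (nat_lit 25509119367) (nat_lit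 76) (nat_lit 259414216) (nat_lit 390) (nat_lit 5) (nat_lit 403) (nat_lit 5) (nat_lit 391) (nat_lit 5) (nat_lit 488) (nat_lit 459) (nat_lit 193)) (XT.nd (nat_lit 78) (nat_lit 912) (nat_lit 0) (XT.lf (nat_lit 0) (nat_lit 3107165850) (nat_lit 988) (nat_lit 11651820768) (nat_lit 76) (nat_lit 11903243780) (nat_lit 390) (nat_lit 5) (nat_lit 403) (nat_lit 5) (nat_lit 391) (nat_lit 5) (nat_lit 489) (nat_lit 459) (nat_lit 192)) (XT.lf (nat_lit 0) (nat_lit 2513071242) (nat_lit 912) (nat_lit 3158789548) (nat_lit 988) (nat_lit 21283424224) (nat_lit 378) (nat_lit 5) (nat_lit 390) (nat_lit 5) (nat_lit 391) (nat_lit 5) (nat_lit 490) (nat_lit 459) (nat_lit 191))))) (XT.nd (nat_lit 234) (nat_lit 1596) (nat_lit 0) (XT.nd (nat_lit 78) (nat_lit 836) (nat_lit 0) (XT.lf (nat_lit 0) (nat_lit 8420221641) (nat_lit 988) (nat_lit 10192813640) (nat_lit 76) (nat_lit 8638518528) (nat_lit 378) (nat_lit 5) (nat_lit 391) (nat_lit 5) (nat_lit 379) (nat_lit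 5) (nat_lit 491) (nat_lit 459) (nat_lit 190)) (XT.nd (nat_lit 78) (nat_lit 0) (nat_lit 0) (XT.lf (nat_lit 0) (nat_lit 4375541419) (nat_lit 836) (nat_lit 6894739093) (nat_lit 912) (nat_lit 16282533367) (nat_lit 367) (nat_lit 5) (nat_lit 378) (nat_lit 5) (nat_lit 379) (nat_lit 5) (nat_lit 492) (nat_lit 459) (nat_lit 189)) (XT.lf (nat_lit 0) (nat_lit 14276470137) (nat_lit 912) (nat_lit 8521129454) (nat_lit 76) (nat_lit 5060517473) (nat_lit 367) (nat_lit 5) (nat_lit 379) (nat_lit 5) (nat_lit 368) (nat_lit 5) (nat_lit 493) (nat_lit 459) (nat_lit 188)))) (XT.nd (nat_lit 78) (nat_lit 760) (nat_lit 0) (XT.lf (nat_lit 0) (nat_lit 6464776544) (nat_lit 836) (nat_lit 10963129451) (nat_lit 912) (nat_lit 10739918366) (nat_lit 356) (nat_lit 5) (nat_lit 367) (nat_lit 5) (nat_lit 368) (nat_lit 5) (nat_lit 494) (nat_lit 459) (nat_lit 187)) (XT.nd (nat_lit 78) (nat_lit 760) (nat_lit 0) (XT.lf (nat_lit 0) (nat_lit 20704646155) (nat_lit 912) (nat_lit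 6626767921) (nat_lit 76) (nat_lit 1151066702) (nat_lit 356) (nat_lit 5) (nat_lit 368) (nat_lit 5) (nat_lit 357) (nat_lit 5) (nat_lit 495) (nat_lit 459) (nat_lit 186)) (XT.lf (nat_lit 0) (nat_lit 8791262656) (nat_lit 760) (nat_lit 15382910844) (nat_lit 836) (nat_lit 4626712252) (nat_lit 346) (nat_lit 5) (nat_lit 356) (nat_lit 5) (nat_lit 357) (nat_lit 5) (nat_lit 496) (nat_lit 459) (nat_lit 185)))))) (XT.nd (nat_lit 468) (nat_lit 684) (nat_lit 0) (XT.nd (nat_lit 234) (nat_lit 1520) (nat_lit 0) (XT.nd (nat_lit 78) (nat_lit 836) (nat_lit 0) (XT.lf (nat_lit 0) (nat_lit 24605027282) (nat_lit 760) (nat_lit 3150135088) (nat_lit 836) (nat_lit 1369655504) (nat_lit 346) (nat_lit 5) (nat_lit 356) (nat_lit 5) (nat_lit 357) (nat_lit 5) (nat_lit 497) (nat_lit 459) (nat_lit 184)) (XT.nd (nat_lit 78) (nat_lit 0) (nat_lit 0) (XT.lf (nat_lit 0) (nat_lit 2059810618) (nat_lit 836) (nat_lit 18100248295) (nat_lit 76) (nat_lit 9292259105) (nat_lit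 335) (nat_lit 5) (nat_lit 346) (nat_lit 5) (nat_lit 336) (nat_lit 5) (nat_lit 498) (nat_lit 459) (nat_lit 183)) (XT.lf (nat_lit 0) (nat_lit 5588599389) (nat_lit 836) (nat_lit 2215729124) (nat_lit 76) (nat_lit 21980877565) (nat_lit 335) (nat_lit 5) (nat_lit 346) (nat_lit 5) (nat_lit 336) (nat_lit 5) (nat_lit 499) (nat_lit 459) (nat_lit 182)))) (XT.nd (nat_lit 78) (nat_lit 760) (nat_lit 0) (XT.lf (nat_lit 0) (nat_lit 9309436756) (nat_lit 836) (nat_lit 15984820611) (nat_lit 76) (nat_lit 4828065507) (nat_lit 325) (nat_lit 5) (nat_lit 336) (nat_lit 5) (nat_lit 326) (nat_lit 5) (nat_lit 500) (nat_lit 459) (nat_lit 181)) (XT.nd (nat_lit 78) (nat_lit 0) (nat_lit 0) (XT.lf (nat_lit 0) (nat_lit 332071937) (nat_lit 760) (nat_lit 12839163662) (nat_lit 836) (nat_lit 17293615936) (nat_lit 315) (nat_lit 5) (nat_lit 325) (nat_lit 5) (nat_lit 326) (nat_lit 5) (nat_lit 501) (nat_lit 459) (nat_lit 180)) (XT.lf (nat_lit 0) (nat_lit 17189547978)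 (nat_lit 760) (nat_lit 25754800) (nat_lit 836) (nat_lit 13596827758) (nat_lit 315) (nat_lit 5) (nat_lit 325) (nat_lit 5) (nat_lit 326) (nat_lit 5) (nat_lit 502) (nat_lit 459) (nat_lit 179))))) (XT.nd (nat_lit 56160) (nat_lit 0) (nat_lit 10716) (XT.nd (nat_lit 56004) (nat_lit 0) (nat_lit 10716) (XT.lf (nat_lit 0) (nat_lit 3172305930) (nat_lit 684) (nat_lit 18271040222) (nat_lit 760) (nat_lit 9720947475) (nat_lit 306) (nat_lit 5) (nat_lit 315) (nat_lit 5) (nat_lit 316) (nat_lit 5) (nat_lit 503) (nat_lit 459) (nat_lit 178)) (XT.nd (nat_lit 78) (nat_lit 0) (nat_lit 0) (XT.lf (nat_lit 0) (nat_lit 2894036341) (nat_lit 0) (nat_lit 2894036341) (nat_lit 1748) (nat_lit 4184204851) (nat_lit 447) (nat_lit 5) (nat_lit 447) (nat_lit 3) (nat_lit 470) (nat_lit 3) (nat_lit 460) (nat_lit 460) (nat_lit 220)) (XT.lf (nat_lit 0) (nat_lit 11881715553) (nat_lit 1748) (nat_lit 4487357866) (nat_lit 1824) (nat_lit 3771094689) (nat_lit 447) (nat_lit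 5) (nat_lit 470) (nat_lit 3) (nat_lit 471) (nat_lit 5) (nat_lit 461) (nat_lit 460) (nat_lit 219)))) (XT.nd (nat_lit 78) (nat_lit 0) (nat_lit 76) (XT.lf (nat_lit 76) (nat_lit 5405445371) (nat_lit 0) (nat_lit 6857065186) (nat_lit 1824) (nat_lit 8075801538) (nat_lit 448) (nat_lit 5) (nat_lit 447) (nat_lit 5) (nat_lit 471) (nat_lit 5) (nat_lit 462) (nat_lit 460) (nat_lit 218)) (XT.nd (nat_lit 78) (nat_lit 0) (nat_lit 0) (XT.lf (nat_lit 0) (nat_lit 12695475218) (nat_lit 1748) (nat_lit 5003906362) (nat_lit 1824) (nat_lit 2840147241) (nat_lit 448) (nat_lit 5) (nat_lit 471) (nat_lit 5) (nat_lit 472) (nat_lit 5) (nat_lit 463) (nat_lit 460) (nat_lit 217)) (XT.lf (nat_lit 76) (nat_lit 5143375132) (nat_lit 0) (nat_lit 8068381216) (nat_lit 1824) (nat_lit 7531521305) (nat_lit 449) (nat_lit 5) (nat_lit 448) (nat_lit 5) (nat_lit 472) (nat_lit 5) (nat_lit 464) (nat_lit 460) (nat_lit 216))))))))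
noncomputable def xc242 : XT := (XT.nd (nat_lit 1794) (nat_lit 7600) (nat_lit 0) (XT.nd (nat_lit 858) (nat_lit 1064) (nat_lit 0) (XT.nd (nat_lit 390) (nat_lit 1520) (nat_lit 0) (XT.nd (nat_lit 156) (nat_lit 0) (nat_lit 76) (XT.nd (nat_lit 78) (nat_lit 0) (nat_lit 0) (XT.lf (nat_lit 0) (nat_lit 13779490570) (nat_lit 1748) (nat_lit 5402999272) (nat_lit 1824) (nat_lit 1767789970) (nat_lit 449) (nat_lit 5) (nat_lit 472) (nat_lit 5) (nat_lit 473) (nat_lit 5) (nat_lit 465) (nat_lit 460) (nat_lit 215)) (XT.lf (nat_lit 76) (nat_lit 5007750966) (nat_lit 0) (nat_lit 9432785009) (nat_lit 1824) (nat_lit 6719247789) (nat_lit 450) (nat_lit 5) (nat_lit 449) (nat_lit 5) (nat_lit 473) (nat_lit 5) (nat_lit 466) (nat_lit 460) (nat_lit 214))) (XT.nd (nat_lit 78) (nat_lit 0) (nat_lit 0) (XT.lf (nat_lit 0) (nat_lit 15150706531) (nat_lit 1748) (nat_lit 5678771279) (nat_lit 1824) (nat_lit 543282763) (nat_lit 450) (nat_lit 5) (nat_lit 473) (nat_lit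 5) (nat_lit 474) (nat_lit 5) (nat_lit 467) (nat_lit 460) (nat_lit 213)) (XT.nd (nat_lit 78) (nat_lit 0) (nat_lit 0) (XT.lf (nat_lit 76) (nat_lit 5004762197) (nat_lit 0) (nat_lit 10961441581) (nat_lit 1824) (nat_lit 5621971522) (nat_lit 451) (nat_lit 5) (nat_lit 450) (nat_lit 5) (nat_lit 474) (nat_lit 5) (nat_lit 468) (nat_lit 460) (nat_lit 212)) (XT.lf (nat_lit 76) (nat_lit 15976596272) (nat_lit 0) (nat_lit 855742560) (nat_lit 1824) (nat_lit 4974873760) (nat_lit 451) (nat_lit 5) (nat_lit 450) (nat_lit 5) (nat_lit 474) (nat_lit 5) (nat_lit 469) (nat_lit 460) (nat_lit 211))))) (XT.nd (nat_lit 234) (nat_lit 1672) (nat_lit 0) (XT.nd (nat_lit 78) (nat_lit 0) (nat_lit 0) (XT.lf (nat_lit 76) (nat_lit 5140905865) (nat_lit 0) (nat_lit 12665941553) (nat_lit 1824) (nat_lit 4221963009) (nat_lit 452) (nat_lit 5) (nat_lit 451) (nat_lit 5) (nat_lit 475) (nat_lit 5) (nat_lit 470) (nat_lit 460) (nat_lit 210)) (XT.nd (nat_lit 78) (nat_lit 0)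 (nat_lit 76) (XT.lf (nat_lit 76) (nat_lit 16402781918) (nat_lit 0) (nat_lit 2439181290) (nat_lit 1824) (nat_lit 3412055470) (nat_lit 452) (nat_lit 5) (nat_lit 451) (nat_lit 5) (nat_lit 475) (nat_lit 5) (nat_lit 471) (nat_lit 460) (nat_lit 209)) (XT.lf (nat_lit 76) (nat_lit 5422994445) (nat_lit 0) (nat_lit 14558326735) (nat_lit 1824) (nat_lit 2500739896) (nat_lit 453) (nat_lit 5) (nat_lit 452) (nat_lit 5) (nat_lit 476) (nat_lit 5) (nat_lit 472) (nat_lit 460) (nat_lit 208)))) (XT.nd (nat_lit 78) (nat_lit 1748) (nat_lit 0) (XT.lf (nat_lit 76) (nat_lit 16983269557) (nat_lit 0) (nat_lit 4212003263) (nat_lit 1824) (nat_lit 1518356139) (nat_lit 453) (nat_lit 5) (nat_lit 452) (nat_lit 5) (nat_lit 476) (nat_lit 5) (nat_lit 473) (nat_lit 460) (nat_lit 207)) (XT.nd (nat_lit 78) (nat_lit 1824) (nat_lit 0) (XT.lf (nat_lit 76) (nat_lit 5858163891) (nat_lit 0) (nat_lit 16651116507) (nat_lit 1824) (nat_lit 439033016) (nat_lit 454) (nat_lit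 5) (nat_lit 453) (nat_lit 5) (nat_lit 477) (nat_lit 5) (nat_lit 474) (nat_lit 460) (nat_lit 206)) (XT.lf (nat_lit 0) (nat_lit 716397186) (nat_lit 1824) (nat_lit 5465681757) (nat_lit 1900) (nat_lit 17004263364) (nat_lit 429) (nat_lit 5) (nat_lit 453) (nat_lit 5) (nat_lit 454) (nat_lit 5) (nat_lit 475) (nat_lit 460) (nat_lit 205)))))) (XT.nd (nat_lit 468) (nat_lit 1140) (nat_lit 0) (XT.nd (nat_lit 234) (nat_lit 0) (nat_lit 76) (XT.nd (nat_lit 78) (nat_lit 0) (nat_lit 0) (XT.lf (nat_lit 0) (nat_lit 1957238051) (nat_lit 1824) (nat_lit 16986962928) (nat_lit 1900) (nat_lit 4483509854) (nat_lit 430) (nat_lit 5) (nat_lit 454) (nat_lit 5) (nat_lit 455) (nat_lit 5) (nat_lit 476) (nat_lit 460) (nat_lit 204)) (XT.nd (nat_lit 78) (nat_lit 0) (nat_lit 76) (XT.lf (nat_lit 0) (nat_lit 3297478399) (nat_lit 1824) (nat_lit 5057417932) (nat_lit 1900) (nat_lit 15317519440) (nat_lit 430) (nat_lit 5) (nat_lit 454) (nat_lit 5) (nat_lit 455) (nat_lit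 5) (nat_lit 477) (nat_lit 460) (nat_lit 203)) (XT.lf (nat_lit 0) (nat_lit 4724271544) (nat_lit 1824) (nat_lit 16734565765) (nat_lit 1900) (nat_lit 2461983217) (nat_lit 431) (nat_lit 5) (nat_lit 455) (nat_lit 5) (nat_lit 456) (nat_lit 5) (nat_lit 478) (nat_lit 460) (nat_lit 202)))) (XT.nd (nat_lit 78) (nat_lit 0) (nat_lit 76) (XT.lf (nat_lit 0) (nat_lit 6265931749) (nat_lit 1824) (nat_lit 4488175171) (nat_lit 1900) (nat_lit 13418360502) (nat_lit 431) (nat_lit 5) (nat_lit 455) (nat_lit 5) (nat_lit 456) (nat_lit 5) (nat_lit 479) (nat_lit 460) (nat_lit 201)) (XT.nd (nat_lit 78) (nat_lit 0) (nat_lit 0) (XT.lf (nat_lit 0) (nat_lit 7889384115) (nat_lit 1824) (nat_lit 16322523601) (nat_lit 1900) (nat_lit 216221014) (nat_lit 432) (nat_lit 5) (nat_lit 456) (nat_lit 5) (nat_lit 457) (nat_lit 5) (nat_lit 480) (nat_lit 460) (nat_lit 200)) (XT.lf (nat_lit 0) (nat_lit 9643791812) (nat_lit 1824) (nat_lit 3750082960) (nat_lit 1900) (nat_lit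 11293059408) (nat_lit 432) (nat_lit 5) (nat_lit 456) (nat_lit 5) (nat_lit 457) (nat_lit 5) (nat_lit 481) (nat_lit 460) (nat_lit 199))))) (XT.nd (nat_lit 234) (nat_lit 1292) (nat_lit 0) (XT.nd (nat_lit 78) (nat_lit 0) (nat_lit 76) (XT.lf (nat_lit 76) (nat_lit 9191946027) (nat_lit 0) (nat_lit 2298031218) (nat_lit 1900) (nat_lit 13459805332) (nat_lit 433) (nat_lit 5) (nat_lit 432) (nat_lit 5) (nat_lit 457) (nat_lit 5) (nat_lit 482) (nat_lit 460) (nat_lit 198)) (XT.nd (nat_lit 78) (nat_lit 0) (nat_lit 0) (XT.lf (nat_lit 0) (nat_lit 13454036139) (nat_lit 1824) (nat_lit 2834926143) (nat_lit 1900) (nat_lit 8927307280) (nat_lit 433) (nat_lit 5) (nat_lit 457) (nat_lit 5) (nat_lit 458) (nat_lit 5) (nat_lit 483) (nat_lit 460) (nat_lit 197)) (XT.lf (nat_lit 76) (nat_lit 10466074705) (nat_lit 0) (nat_lit 5071586682) (nat_lit 1900) (nat_lit 9948819802) (nat_lit 434) (nat_lit 5) (nat_lit 433) (nat_lit 5) (nat_lit 458) (nat_lit 5) (nat_lit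 484) (nat_lit 460) (nat_lit 196)))) (XT.nd (nat_lit 78) (nat_lit 1444) (nat_lit 0) (XT.lf (nat_lit 0) (nat_lit 17720625783) (nat_lit 1824) (nat_lit 1734135961) (nat_lit 76) (nat_lit 6306182562) (nat_lit 434) (nat_lit 5) (nat_lit 458) (nat_lit 5) (nat_lit 435) (nat_lit 5) (nat_lit 485) (nat_lit 460) (nat_lit 195)) (XT.nd (nat_lit 78) (nat_lit 0) (nat_lit 0) (XT.lf (nat_lit 0) (nat_lit 11938438271) (nat_lit 1444) (nat_lit 8117123515) (nat_lit 1520) (nat_lit 5983169236) (nat_lit 415) (nat_lit 5) (nat_lit 434) (nat_lit 5) (nat_lit 435) (nat_lit 5) (nat_lit 486) (nat_lit 460) (nat_lit 194)) (XT.lf (nat_lit 0) (nat_lit 22468547272) (nat_lit 1520) (nat_lit 438780848) (nat_lit 76) (nat_lit 3414118906) (nat_lit 415) (nat_lit 5) (nat_lit 435) (nat_lit 5) (nat_lit 416) (nat_lit 5) (nat_lit 487) (nat_lit 460) (nat_lit 193))))))) (XT.nd (nat_lit 936) (nat_lit 1520) (nat_lit 0) (XT.nd (nat_lit 468) (nat_lit 2432) (nat_lit 0) (XT.nd (nat_lit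 234) (nat_lit 1748) (nat_lit 0) (XT.nd (nat_lit 78) (nat_lit 988) (nat_lit 0) (XT.lf (nat_lit 0) (nat_lit 13618409715) (nat_lit 912) (nat_lit 11450866897) (nat_lit 988) (nat_lit 1537751613) (nat_lit 403) (nat_lit 5) (nat_lit 415) (nat_lit 5) (nat_lit 416) (nat_lit 5) (nat_lit 488) (nat_lit 460) (nat_lit 192)) (XT.nd (nat_lit 78) (nat_lit 0) (nat_lit 0) (XT.lf (nat_lit 0) (nat_lit 821766482) (nat_lit 988) (nat_lit 25829015975) (nat_lit 76) (nat_lit 247254769) (nat_lit 390) (nat_lit 5) (nat_lit 403) (nat_lit 5) (nat_lit 391) (nat_lit 5) (nat_lit 489) (nat_lit 460) (nat_lit 191)) (XT.lf (nat_lit 0) (nat_lit 3368840939) (nat_lit 988) (nat_lit 11698302498) (nat_lit 76) (nat_lit 12124301076) (nat_lit 390) (nat_lit 5) (nat_lit 403) (nat_lit 5) (nat_lit 391) (nat_lit 5) (nat_lit 490) (nat_lit 460) (nat_lit 190)))) (XT.nd (nat_lit 78) (nat_lit 836) (nat_lit 0) (XT.lf (nat_lit 0) (nat_lit 2748660019) (nat_lit 912) (nat_lit 3233460639)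 (nat_lit 988) (nat_lit 21508294526) (nat_lit 378) (nat_lit 5) (nat_lit 390) (nat_lit 5) (nat_lit 391) (nat_lit 5) (nat_lit 491) (nat_lit 460) (nat_lit 189)) (XT.nd (nat_lit 78) (nat_lit 836) (nat_lit 0) (XT.lf (nat_lit 0) (nat_lit 8781516287) (nat_lit 988) (nat_lit 10211005680) (nat_lit 76) (nat_lit 8800166803) (nat_lit 378) (nat_lit 5) (nat_lit 391) (nat_lit 5) (nat_lit 379) (nat_lit 5) (nat_lit 492) (nat_lit 460) (nat_lit 188)) (XT.lf (nat_lit 0) (nat_lit 4647495005) (nat_lit 836) (nat_lit 7038496694) (nat_lit 912) (nat_lit 16414034786) (nat_lit 367) (nat_lit 5) (nat_lit 378) (nat_lit 5) (nat_lit 379) (nat_lit 5) (nat_lit 493) (nat_lit 460) (nat_lit 187))))) (XT.nd (nat_lit 234) (nat_lit 1596) (nat_lit 0) (XT.nd (nat_lit 78) (nat_lit 836) (nat_lit 0) (XT.lf (nat_lit 0) (nat_lit 14748536316) (nat_lit 912) (nat_lit 8506920186) (nat_lit 76) (nat_lit 5156055345) (nat_lit 367) (nat_lit 5) (nat_lit 379) (nat_lit 5) (nat_lit 368)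 (nat_lit 5) (nat_lit 494) (nat_lit 460) (nat_lit 186)) (XT.nd (nat_lit 78) (nat_lit 0) (nat_lit 0) (XT.lf (nat_lit 0) (nat_lit 6777489249) (nat_lit 836) (nat_lit 11183044924) (nat_lit 912) (nat_lit 10766929173) (nat_lit 356) (nat_lit 5) (nat_lit 367) (nat_lit 5) (nat_lit 368) (nat_lit 5) (nat_lit 495) (nat_lit 460) (nat_lit 185)) (XT.lf (nat_lit 0) (nat_lit 21299195764) (nat_lit 912) (nat_lit 6575833756) (nat_lit 76) (nat_lit 1173456348) (nat_lit 356) (nat_lit 5) (nat_lit 368) (nat_lit 5) (nat_lit 357) (nat_lit 5) (nat_lit 496) (nat_lit 460) (nat_lit 184)))) (XT.nd (nat_lit 78) (nat_lit 836) (nat_lit 0) (XT.lf (nat_lit 0) (nat_lit 9149350397) (nat_lit 760) (nat_lit 15686408261) (nat_lit 836) (nat_lit 4537548076) (nat_lit 346) (nat_lit 5) (nat_lit 356) (nat_lit 5) (nat_lit 357) (nat_lit 5) (nat_lit 497) (nat_lit 460) (nat_lit 183)) (XT.nd (nat_lit 78) (nat_lit 836) (nat_lit 0) (XT.lf (nat_lit 0) (nat_lit 25275816541) (nat_lit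 760) (nat_lit 3209058574) (nat_lit 836) (nat_lit 1218912907) (nat_lit 346) (nat_lit 5) (nat_lit 356) (nat_lit 5) (nat_lit 357) (nat_lit 5) (nat_lit 498) (nat_lit 460) (nat_lit 182)) (XT.lf (nat_lit 0) (nat_lit 2274568234) (nat_lit 836) (nat_lit 18278924194) (nat_lit 76) (nat_lit 9484368025) (nat_lit 335) (nat_lit 5) (nat_lit 346) (nat_lit 5) (nat_lit 336) (nat_lit 5) (nat_lit 499) (nat_lit 460) (nat_lit 181)))))) (XT.nd (nat_lit 56472) (nat_lit 0) (nat_lit 10032) (XT.nd (nat_lit 234) (nat_lit 0) (nat_lit 0) (XT.nd (nat_lit 78) (nat_lit 1520) (nat_lit 0) (XT.lf (nat_lit 0) (nat_lit 5870529615) (nat_lit 836) (nat_lit 2080309328) (nat_lit 76) (nat_lit 22426636036) (nat_lit 335) (nat_lit 5) (nat_lit 346) (nat_lit 5) (nat_lit 336) (nat_lit 5) (nat_lit 500) (nat_lit 460) (nat_lit 180)) (XT.nd (nat_lit 78) (nat_lit 760) (nat_lit 0) (XT.lf (nat_lit 0) (nat_lit 9663675204) (nat_lit 836) (nat_lit 16122642690) (nat_lit 76) (nat_lit 4935059015)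 (nat_lit 325) (nat_lit 5) (nat_lit 336) (nat_lit 5) (nat_lit 326) (nat_lit 5) (nat_lit 501) (nat_lit 460) (nat_lit 179)) (XT.lf (nat_lit 0) (nat_lit 519391167) (nat_lit 760) (nat_lit 13081196844) (nat_lit 836) (nat_lit 17470211188) (nat_lit 315) (nat_lit 5) (nat_lit 325) (nat_lit 5) (nat_lit 326) (nat_lit 5) (nat_lit 502) (nat_lit 460) (nat_lit 178)))) (XT.nd (nat_lit 56082) (nat_lit 0) (nat_lit 10032) (XT.lf (nat_lit 0) (nat_lit 17710474027) (nat_lit 760) (nat_lit 11809022) (nat_lit 836) (nat_lit 13702806405) (nat_lit 315) (nat_lit 5) (nat_lit 325) (nat_lit 5) (nat_lit 326) (nat_lit 5) (nat_lit 503) (nat_lit 460) (nat_lit 177)) (XT.nd (nat_lit 78) (nat_lit 0) (nat_lit 0) (XT.lf (nat_lit 0) (nat_lit 3033880877) (nat_lit 0) (nat_lit 3033880877) (nat_lit 1748) (nat_lit 4100646679) (nat_lit 447) (nat_lit 5) (nat_lit 447) (nat_lit 3) (nat_lit 470) (nat_lit 3) (nat_lit 461) (nat_lit 461) (nat_lit 218)) (XT.lf (nat_lit 0) (nat_lit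 12439733108) (nat_lit 1748) (nat_lit 4408848898) (nat_lit 1824) (nat_lit 3687911017) (nat_lit 447) (nat_lit 5) (nat_lit 470) (nat_lit 3) (nat_lit 471) (nat_lit 5) (nat_lit 462) (nat_lit 461) (nat_lit 217))))) (XT.nd (nat_lit 234) (nat_lit 0) (nat_lit 152) (XT.nd (nat_lit 78) (nat_lit 0) (nat_lit 76) (XT.lf (nat_lit 76) (nat_lit 5680703455) (nat_lit 0) (nat_lit 7142243776) (nat_lit 1824) (nat_lit 7915757982) (nat_lit 448) (nat_lit 5) (nat_lit 447) (nat_lit 5) (nat_lit 471) (nat_lit 5) (nat_lit 463) (nat_lit 461) (nat_lit 216)) (XT.nd (nat_lit 78) (nat_lit 0) (nat_lit 0) (XT.lf (nat_lit 0) (nat_lit 13257448748) (nat_lit 1748) (nat_lit 4932922277) (nat_lit 1824) (nat_lit 2753719058) (nat_lit 448) (nat_lit 5) (nat_lit 471) (nat_lit 5) (nat_lit 472) (nat_lit 5) (nat_lit 464) (nat_lit 461) (nat_lit 215)) (XT.lf (nat_lit 76) (nat_lit 5416179438) (nat_lit 0) (nat_lit 8362938935) (nat_lit 1824) (nat_lit 7372895596) (nat_lit 449) (nat_lit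 5) (nat_lit 448) (nat_lit 5) (nat_lit 472) (nat_lit 5) (nat_lit 465) (nat_lit 461) (nat_lit 214)))) (XT.nd (nat_lit 78) (nat_lit 0) (nat_lit 0) (XT.lf (nat_lit 0) (nat_lit 14351415812) (nat_lit 1748) (nat_lit 5337597689) (nat_lit 1824) (nat_lit 1674279807) (nat_lit 449) (nat_lit 5) (nat_lit 472) (nat_lit 5) (nat_lit 473) (nat_lit 5) (nat_lit 466) (nat_lit 461) (nat_lit 213)) (XT.nd (nat_lit 78) (nat_lit 0) (nat_lit 76) (XT.lf (nat_lit 76) (nat_lit 5280226358) (nat_lit 0) (nat_lit 9740764086) (nat_lit 1824) (nat_lit 6556092010) (nat_lit 450) (nat_lit 5) (nat_lit 449) (nat_lit 5) (nat_lit 473) (nat_lit 5) (nat_lit 467) (nat_lit 461) (nat_lit 212)) (XT.lf (nat_lit 0) (nat_lit 15738886370) (nat_lit 1748) (nat_lit 5616864269) (nat_lit 1824) (nat_lit 438698979) (nat_lit 450) (nat_lit 5) (nat_lit 473) (nat_lit 5) (nat_lit 474) (nat_lit 5) (nat_lit 468) (nat_lit 461) (nat_lit 211))))))))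
noncomputable def xc243 : XT := (XT.nd (nat_lit 1794) (nat_lit 5700) (nat_lit 0) (XT.nd (nat_lit 858) (nat_lit 2964) (nat_lit 0) (XT.nd (nat_lit 390) (nat_lit 1596) (nat_lit 0) (XT.nd (nat_lit 156) (nat_lit 0) (nat_lit 76) (XT.nd (nat_lit 78) (nat_lit 0) (nat_lit 0) (XT.lf (nat_lit 76) (nat_lit 5279185387) (nat_lit 0) (nat_lit 11287048543) (nat_lit 1824) (nat_lit 5448029133) (nat_lit 451) (nat_lit 5) (nat_lit 450) (nat_lit 5) (nat_lit 474) (nat_lit 5) (nat_lit 469) (nat_lit 461) (nat_lit 210)) (XT.lf (nat_lit 76) (nat_lit 16467037949) (nat_lit 0) (nat_lit 977149697) (nat_lit 1824) (nat_lit 4793604745) (nat_lit 451) (nat_lit 5) (nat_lit 450) (nat_lit 5) (nat_lit 474) (nat_lit 5) (nat_lit 470) (nat_lit 461) (nat_lit 209))) (XT.nd (nat_lit 78) (nat_lit 0) (nat_lit 0) (XT.lf (nat_lit 76) (nat_lit 5419709852) (nat_lit 0) (nat_lit 13013559192) (nat_lit 1824) (nat_lit 4030652671) (nat_lit 452) (nat_lit 5) (nat_lit 451) (nat_lit 5)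 (nat_lit 475) (nat_lit 5) (nat_lit 471) (nat_lit 461) (nat_lit 208)) (XT.nd (nat_lit 78) (nat_lit 0) (nat_lit 76) (XT.lf (nat_lit 76) (nat_lit 16903372722) (nat_lit 0) (nat_lit 2580414728) (nat_lit 1824) (nat_lit 3209953835) (nat_lit 452) (nat_lit 5) (nat_lit 451) (nat_lit 5) (nat_lit 475) (nat_lit 5) (nat_lit 472) (nat_lit 461) (nat_lit 207)) (XT.lf (nat_lit 76) (nat_lit 5708773214) (nat_lit 0) (nat_lit 14932526379) (nat_lit 1824) (nat_lit 2285138737) (nat_lit 453) (nat_lit 5) (nat_lit 452) (nat_lit 5) (nat_lit 476) (nat_lit 5) (nat_lit 473) (nat_lit 461) (nat_lit 206))))) (XT.nd (nat_lit 234) (nat_lit 0) (nat_lit 76) (XT.nd (nat_lit 78) (nat_lit 1748) (nat_lit 0) (XT.lf (nat_lit 76) (nat_lit 17496776988) (nat_lit 0) (nat_lit 4377648338) (nat_lit 1824) (nat_lit 1288315460) (nat_lit 453) (nat_lit 5) (nat_lit 452) (nat_lit 5) (nat_lit 476) (nat_lit 5) (nat_lit 474) (nat_lit 461) (nat_lit 205)) (XT.nd (nat_lit 78) (nat_lit 1824)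 (nat_lit 0) (XT.lf (nat_lit 76) (nat_lit 6153677369) (nat_lit 0) (nat_lit 17056670638) (nat_lit 1824) (nat_lit 191859318) (nat_lit 454) (nat_lit 5) (nat_lit 453) (nat_lit 5) (nat_lit 477) (nat_lit 5) (nat_lit 475) (nat_lit 461) (nat_lit 204)) (XT.lf (nat_lit 0) (nat_lit 978369709) (nat_lit 1824) (nat_lit 5396798596) (nat_lit 1900) (nat_lit 17269895365) (nat_lit 429) (nat_lit 5) (nat_lit 453) (nat_lit 5) (nat_lit 454) (nat_lit 5) (nat_lit 476) (nat_lit 461) (nat_lit 203)))) (XT.nd (nat_lit 78) (nat_lit 0) (nat_lit 0) (XT.lf (nat_lit 0) (nat_lit 2239886527) (nat_lit 1824) (nat_lit 17144312965) (nat_lit 1900) (nat_lit 4507143922) (nat_lit 430) (nat_lit 5) (nat_lit 454) (nat_lit 5) (nat_lit 455) (nat_lit 5) (nat_lit 477) (nat_lit 461) (nat_lit 202)) (XT.nd (nat_lit 78) (nat_lit 0) (nat_lit 76) (XT.lf (nat_lit 0) (nat_lit 3602157099) (nat_lit 1824) (nat_lit 4979753328) (nat_lit 1900) (nat_lit 15559128526) (nat_lit 430) (nat_lit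 5) (nat_lit 454) (nat_lit 5) (nat_lit 455) (nat_lit 5) (nat_lit 478) (nat_lit 461) (nat_lit 201)) (XT.lf (nat_lit 0) (nat_lit 5053584728) (nat_lit 1824) (nat_lit 16886493181) (nat_lit 1900) (nat_lit 2454412914) (nat_lit 431) (nat_lit 5) (nat_lit 455) (nat_lit 5) (nat_lit 456) (nat_lit 5) (nat_lit 479) (nat_lit 461) (nat_lit 200)))))) (XT.nd (nat_lit 468) (nat_lit 3116) (nat_lit 0) (XT.nd (nat_lit 234) (nat_lit 0) (nat_lit 76) (XT.nd (nat_lit 78) (nat_lit 0) (nat_lit 76) (XT.lf (nat_lit 0) (nat_lit 6621473672) (nat_lit 1824) (nat_lit 4398758381) (nat_lit 1900) (nat_lit 13631031665) (nat_lit 431) (nat_lit 5) (nat_lit 455) (nat_lit 5) (nat_lit 456) (nat_lit 5) (nat_lit 480) (nat_lit 461) (nat_lit 199)) (XT.nd (nat_lit 78) (nat_lit 0) (nat_lit 0) (XT.lf (nat_lit 0) (nat_lit 8273719353) (nat_lit 1824) (nat_lit 16466070413) (nat_lit 1900) (nat_lit 172322953) (nat_lit 432) (nat_lit 5) (nat_lit 456) (nat_lit 5) (nat_lit 457) (nat_lit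 5) (nat_lit 481) (nat_lit 461) (nat_lit 198)) (XT.lf (nat_lit 0) (nat_lit 10058773096) (nat_lit 1824) (nat_lit 3645767306) (nat_lit 1900) (nat_lit 11471643653) (nat_lit 432) (nat_lit 5) (nat_lit 456) (nat_lit 5) (nat_lit 457) (nat_lit 5) (nat_lit 482) (nat_lit 461) (nat_lit 197)))) (XT.nd (nat_lit 78) (nat_lit 0) (nat_lit 76) (XT.lf (nat_lit 76) (nat_lit 9553922542) (nat_lit 0) (nat_lit 2384761273) (nat_lit 1900) (nat_lit 13505670487) (nat_lit 433) (nat_lit 5) (nat_lit 432) (nat_lit 5) (nat_lit 457) (nat_lit 5) (nat_lit 483) (nat_lit 461) (nat_lit 196)) (XT.nd (nat_lit 78) (nat_lit 0) (nat_lit 0) (XT.lf (nat_lit 0) (nat_lit 13937472081) (nat_lit 1824) (nat_lit 2712383272) (nat_lit 1900) (nat_lit 9066407609) (nat_lit 433) (nat_lit 5) (nat_lit 457) (nat_lit 5) (nat_lit 458) (nat_lit 5) (nat_lit 484) (nat_lit 461) (nat_lit 195)) (XT.lf (nat_lit 76) (nat_lit 10853458373) (nat_lit 0) (nat_lit 5206264514) (nat_lit 1900) (nat_lit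 9932217752) (nat_lit 434) (nat_lit 5) (nat_lit 433) (nat_lit 5) (nat_lit 458) (nat_lit 5) (nat_lit 485) (nat_lit 461) (nat_lit 194))))) (XT.nd (nat_lit 234) (nat_lit 1900) (nat_lit 0) (XT.nd (nat_lit 78) (nat_lit 1444) (nat_lit 0) (XT.lf (nat_lit 0) (nat_lit 18281991649) (nat_lit 1824) (nat_lit 1589849854) (nat_lit 76) (nat_lit 6400139478) (nat_lit 434) (nat_lit 5) (nat_lit 458) (nat_lit 5) (nat_lit 435) (nat_lit 5) (nat_lit 486) (nat_lit 461) (nat_lit 193)) (XT.nd (nat_lit 78) (nat_lit 0) (nat_lit 0) (XT.lf (nat_lit 0) (nat_lit 12354998436) (nat_lit 1444) (nat_lit 8305724367) (nat_lit 1520) (nat_lit 5894659546) (nat_lit 415) (nat_lit 5) (nat_lit 434) (nat_lit 5) (nat_lit 435) (nat_lit 5) (nat_lit 487) (nat_lit 461) (nat_lit 192)) (XT.lf (nat_lit 0) (nat_lit 23117799878) (nat_lit 1520) (nat_lit 269041582) (nat_lit 76) (nat_lit 3456995404) (nat_lit 415) (nat_lit 5) (nat_lit 435) (nat_lit 5) (nat_lit 416) (nat_lit 5) (nat_lit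 488) (nat_lit 461) (nat_lit 191)))) (XT.nd (nat_lit 78) (nat_lit 988) (nat_lit 0) (XT.lf (nat_lit 0) (nat_lit 14068118352) (nat_lit 912) (nat_lit 11699657618) (nat_lit 988) (nat_lit 1367409888) (nat_lit 403) (nat_lit 5) (nat_lit 415) (nat_lit 5) (nat_lit 416) (nat_lit 5) (nat_lit 489) (nat_lit 461) (nat_lit 190)) (XT.nd (nat_lit 78) (nat_lit 0) (nat_lit 0) (XT.lf (nat_lit 0) (nat_lit 1033821196) (nat_lit 988) (nat_lit 26162699544) (nat_lit 76) (nat_lit 235525766) (nat_lit 390) (nat_lit 5) (nat_lit 403) (nat_lit 5) (nat_lit 391) (nat_lit 5) (nat_lit 490) (nat_lit 461) (nat_lit 189)) (XT.lf (nat_lit 0) (nat_lit 3628001468) (nat_lit 988) (nat_lit 11752958008) (nat_lit 76) (nat_lit 12350439942) (nat_lit 390) (nat_lit 5) (nat_lit 403) (nat_lit 5) (nat_lit 391) (nat_lit 5) (nat_lit 491) (nat_lit 461) (nat_lit 188))))))) (XT.nd (nat_lit 57018) (nat_lit 0) (nat_lit 10032) (XT.nd (nat_lit 468) (nat_lit 3116) (nat_lit 0) (XT.nd (nat_lit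 234) (nat_lit 836) (nat_lit 0) (XT.nd (nat_lit 78) (nat_lit 836) (nat_lit 0) (XT.lf (nat_lit 0) (nat_lit 2981764085) (nat_lit 912) (nat_lit 3309178776) (nat_lit 988) (nat_lit 21745459472) (nat_lit 378) (nat_lit 5) (nat_lit 390) (nat_lit 5) (nat_lit 391) (nat_lit 5) (nat_lit 492) (nat_lit 461) (nat_lit 187)) (XT.nd (nat_lit 78) (nat_lit 836) (nat_lit 0) (XT.lf (nat_lit 0) (nat_lit 9142546664) (nat_lit 988) (nat_lit 10236771129) (nat_lit 76) (nat_lit 8965479928) (nat_lit 378) (nat_lit 5) (nat_lit 391) (nat_lit 5) (nat_lit 379) (nat_lit 5) (nat_lit 493) (nat_lit 461) (nat_lit 186)) (XT.lf (nat_lit 0) (nat_lit 4917725526) (nat_lit 836) (nat_lit 7184901787) (nat_lit 912) (nat_lit 16555705286) (nat_lit 367) (nat_lit 5) (nat_lit 378) (nat_lit 5) (nat_lit 379) (nat_lit 5) (nat_lit 494) (nat_lit 461) (nat_lit 185)))) (XT.nd (nat_lit 78) (nat_lit 836) (nat_lit 0) (XT.lf (nat_lit 0) (nat_lit 15222800368) (nat_lit 912) (nat_lit 8499596213)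 (nat_lit 76) (nat_lit 5253724244) (nat_lit 367) (nat_lit 5) (nat_lit 379) (nat_lit 5) (nat_lit 368) (nat_lit 5) (nat_lit 495) (nat_lit 461) (nat_lit 184)) (XT.nd (nat_lit 78) (nat_lit 0) (nat_lit 0) (XT.lf (nat_lit 0) (nat_lit 7089333895) (nat_lit 836) (nat_lit 11407333355) (nat_lit 912) (nat_lit 10801772216) (nat_lit 356) (nat_lit 5) (nat_lit 367) (nat_lit 5) (nat_lit 368) (nat_lit 5) (nat_lit 496) (nat_lit 461) (nat_lit 183)) (XT.lf (nat_lit 0) (nat_lit 21898629011) (nat_lit 912) (nat_lit 6531005252) (nat_lit 76) (nat_lit 1196318316) (nat_lit 356) (nat_lit 5) (nat_lit 368) (nat_lit 5) (nat_lit 357) (nat_lit 5) (nat_lit 497) (nat_lit 461) (nat_lit 182))))) (XT.nd (nat_lit 234) (nat_lit 1520) (nat_lit 0) (XT.nd (nat_lit 78) (nat_lit 836) (nat_lit 0) (XT.lf (nat_lit 0) (nat_lit 9507522418) (nat_lit 760) (nat_lit 15996137195) (nat_lit 836) (nat_lit 4453656188) (nat_lit 346) (nat_lit 5) (nat_lit 356) (nat_lit 5) (nat_lit 357)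 (nat_lit 5) (nat_lit 498) (nat_lit 461) (nat_lit 181)) (XT.nd (nat_lit 78) (nat_lit 836) (nat_lit 0) (XT.lf (nat_lit 0) (nat_lit 25953082885) (nat_lit 760) (nat_lit 3269318931) (nat_lit 836) (nat_lit 1072072685) (nat_lit 346) (nat_lit 5) (nat_lit 356) (nat_lit 5) (nat_lit 357) (nat_lit 5) (nat_lit 499) (nat_lit 461) (nat_lit 180)) (XT.lf (nat_lit 0) (nat_lit 2486881401) (nat_lit 836) (nat_lit 18468292502) (nat_lit 76) (nat_lit 9680075895) (nat_lit 335) (nat_lit 5) (nat_lit 346) (nat_lit 5) (nat_lit 336) (nat_lit 5) (nat_lit 500) (nat_lit 461) (nat_lit 179)))) (XT.nd (nat_lit 78) (nat_lit 1520) (nat_lit 0) (XT.lf (nat_lit 0) (nat_lit 6151490994) (nat_lit 836) (nat_lit 1949160440) (nat_lit 76) (nat_lit 22881071216) (nat_lit 335) (nat_lit 5) (nat_lit 346) (nat_lit 5) (nat_lit 336) (nat_lit 5) (nat_lit 501) (nat_lit 461) (nat_lit 178)) (XT.nd (nat_lit 78) (nat_lit 760) (nat_lit 0) (XT.lf (nat_lit 0) (nat_lit 10018472845) (nat_lit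 836) (nat_lit 16270283613) (nat_lit 76) (nat_lit 5043787298) (nat_lit 325) (nat_lit 5) (nat_lit 336) (nat_lit 5) (nat_lit 326) (nat_lit 5) (nat_lit 502) (nat_lit 461) (nat_lit 177)) (XT.lf (nat_lit 0) (nat_lit 703440843) (nat_lit 760) (nat_lit 13328643454) (nat_lit 836) (nat_lit 17656911580) (nat_lit 315) (nat_lit 5) (nat_lit 325) (nat_lit 5) (nat_lit 326) (nat_lit 5) (nat_lit 503) (nat_lit 461) (nat_lit 176)))))) (XT.nd (nat_lit 468) (nat_lit 0) (nat_lit 152) (XT.nd (nat_lit 234) (nat_lit 0) (nat_lit 76) (XT.nd (nat_lit 78) (nat_lit 0) (nat_lit 0) (XT.lf (nat_lit 0) (nat_lit 3173339549) (nat_lit 0) (nat_lit 3173339549) (nat_lit 1748) (nat_lit 4021911564) (nat_lit 447) (nat_lit 5) (nat_lit 447) (nat_lit 3) (nat_lit 470) (nat_lit 3) (nat_lit 462) (nat_lit 462) (nat_lit 216)) (XT.nd (nat_lit 78) (nat_lit 0) (nat_lit 0) (XT.lf (nat_lit 0) (nat_lit 12996470142) (nat_lit 1748) (nat_lit 4335303342) (nat_lit 1824) (nat_lit 3609222519)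 (nat_lit 447) (nat_lit 5) (nat_lit 470) (nat_lit 3) (nat_lit 471) (nat_lit 5) (nat_lit 463) (nat_lit 462) (nat_lit 215)) (XT.lf (nat_lit 76) (nat_lit 5954976095) (nat_lit 0) (nat_lit 7427377469) (nat_lit 1824) (nat_lit 7765000106) (nat_lit 448) (nat_lit 5) (nat_lit 447) (nat_lit 5) (nat_lit 471) (nat_lit 5) (nat_lit 464) (nat_lit 462) (nat_lit 214)))) (XT.nd (nat_lit 78) (nat_lit 0) (nat_lit 0) (XT.lf (nat_lit 0) (nat_lit 13818699248) (nat_lit 1748) (nat_lit 4867161064) (nat_lit 1824) (nat_lit 2671124150) (nat_lit 448) (nat_lit 5) (nat_lit 471) (nat_lit 5) (nat_lit 472) (nat_lit 5) (nat_lit 465) (nat_lit 462) (nat_lit 213)) (XT.nd (nat_lit 78) (nat_lit 0) (nat_lit 76) (XT.lf (nat_lit 76) (nat_lit 5687840977) (nat_lit 0) (nat_lit 8658215874) (nat_lit 1824) (nat_lit 7223106166) (nat_lit 449) (nat_lit 5) (nat_lit 448) (nat_lit 5) (nat_lit 472) (nat_lit 5) (nat_lit 466) (nat_lit 462) (nat_lit 212)) (XT.lf (nat_lit 0) (nat_lit 14923272492)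 (nat_lit 1748) (nat_lit 5277623799) (nat_lit 1824) (nat_lit 1583903463) (nat_lit 449) (nat_lit 5) (nat_lit 472) (nat_lit 5) (nat_lit 473) (nat_lit 5) (nat_lit 467) (nat_lit 462) (nat_lit 211))))) (XT.nd (nat_lit 234) (nat_lit 0) (nat_lit 76) (XT.nd (nat_lit 78) (nat_lit 0) (nat_lit 76) (XT.lf (nat_lit 76) (nat_lit 5551459849) (nat_lit 0) (nat_lit 10050269272) (nat_lit 1824) (nat_lit 6401226985) (nat_lit 450) (nat_lit 5) (nat_lit 449) (nat_lit 5) (nat_lit 473) (nat_lit 5) (nat_lit 468) (nat_lit 462) (nat_lit 210)) (XT.nd (nat_lit 78) (nat_lit 0) (nat_lit 0) (XT.lf (nat_lit 0) (nat_lit 16327756475) (nat_lit 1748) (nat_lit 5560533315) (nat_lit 1824) (nat_lit 336506561) (nat_lit 450) (nat_lit 5) (nat_lit 473) (nat_lit 5) (nat_lit 474) (nat_lit 5) (nat_lit 469) (nat_lit 462) (nat_lit 209)) (XT.lf (nat_lit 76) (nat_lit 5552327675) (nat_lit 0) (nat_lit 11615036852) (nat_lit 1824) (nat_lit 5281728452) (nat_lit 451) (nat_lit 5) (nat_lit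 450) (nat_lit 5) (nat_lit 474) (nat_lit 5) (nat_lit 470) (nat_lit 462) (nat_lit 208)))) (XT.nd (nat_lit 78) (nat_lit 0) (nat_lit 76) (XT.lf (nat_lit 76) (nat_lit 16960651826) (nat_lit 0) (nat_lit 1096935179) (nat_lit 1824) (nat_lit 4619612856) (nat_lit 451) (nat_lit 5) (nat_lit 450) (nat_lit 5) (nat_lit 474) (nat_lit 5) (nat_lit 471) (nat_lit 462) (nat_lit 207)) (XT.nd (nat_lit 78) (nat_lit 0) (nat_lit 0) (XT.lf (nat_lit 76) (nat_lit 5697256173) (nat_lit 0) (nat_lit 13364467447) (nat_lit 1824) (nat_lit 3846223819) (nat_lit 452) (nat_lit 5) (nat_lit 451) (nat_lit 5) (nat_lit 475) (nat_lit 5) (nat_lit 472) (nat_lit 462) (nat_lit 206)) (XT.lf (nat_lit 76) (nat_lit 17407275592) (nat_lit 0) (nat_lit 2720882895) (nat_lit 1824) (nat_lit 3014307906) (nat_lit 452) (nat_lit 5) (nat_lit 451) (nat_lit 5) (nat_lit 475) (nat_lit 5) (nat_lit 473) (nat_lit 462) (nat_lit 205))))))))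
noncomputable def xc244 : XT := (XT.nd (nat_lit 1794) (nat_lit 2432) (nat_lit 0) (XT.nd (nat_lit 858) (nat_lit 4712) (nat_lit 0) (XT.nd (nat_lit 390) (nat_lit 0) (nat_lit 76) (XT.nd (nat_lit 156) (nat_lit 1748) (nat_lit 0) (XT.nd (nat_lit 78) (nat_lit 0) (nat_lit 0) (XT.lf (nat_lit 76) (nat_lit 5993382051) (nat_lit 0) (nat_lit 15310985740) (nat_lit 1824) (nat_lit 2075539745) (nat_lit 453) (nat_lit 5) (nat_lit 452) (nat_lit 5) (nat_lit 476) (nat_lit 5) (nat_lit 474) (nat_lit 462) (nat_lit 204)) (XT.lf (nat_lit 76) (nat_lit 18013804069) (nat_lit 0) (nat_lit 4543445258) (nat_lit 1824) (nat_lit 1063785920) (nat_lit 453) (nat_lit 5) (nat_lit 452) (nat_lit 5) (nat_lit 476) (nat_lit 5) (nat_lit 475) (nat_lit 462) (nat_lit 203))) (XT.nd (nat_lit 78) (nat_lit 0) (nat_lit 0) (XT.lf (nat_lit 0) (nat_lit 49658892) (nat_lit 1824) (nat_lit 17417527223) (nat_lit 1900) (nat_lit 6398183431) (nat_lit 429) (nat_lit 5) (nat_lit 453) (nat_lit 5)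 (nat_lit 454) (nat_lit 5) (nat_lit 476) (nat_lit 462) (nat_lit 202)) (XT.nd (nat_lit 78) (nat_lit 0) (nat_lit 76) (XT.lf (nat_lit 0) (nat_lit 1235965341) (nat_lit 1824) (nat_lit 5333457371) (nat_lit 1900) (nat_lit 17543731116) (nat_lit 429) (nat_lit 5) (nat_lit 453) (nat_lit 5) (nat_lit 454) (nat_lit 5) (nat_lit 477) (nat_lit 462) (nat_lit 201)) (XT.lf (nat_lit 0) (nat_lit 2518732427) (nat_lit 1824) (nat_lit 17311892399) (nat_lit 1900) (nat_lit 4533814935) (nat_lit 430) (nat_lit 5) (nat_lit 454) (nat_lit 5) (nat_lit 455) (nat_lit 5) (nat_lit 478) (nat_lit 462) (nat_lit 200))))) (XT.nd (nat_lit 234) (nat_lit 0) (nat_lit 152) (XT.nd (nat_lit 78) (nat_lit 0) (nat_lit 76) (XT.lf (nat_lit 0) (nat_lit 3903659230) (nat_lit 1824) (nat_lit 4907478958) (nat_lit 1900) (nat_lit 15808083777) (nat_lit 430) (nat_lit 5) (nat_lit 454) (nat_lit 5) (nat_lit 455) (nat_lit 5) (nat_lit 479) (nat_lit 462) (nat_lit 199)) (XT.nd (nat_lit 78) (nat_lit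 0) (nat_lit 0) (XT.lf (nat_lit 0) (nat_lit 5380365529) (nat_lit 1824) (nat_lit 17048556090) (nat_lit 1900) (nat_lit 2448897205) (nat_lit 431) (nat_lit 5) (nat_lit 455) (nat_lit 5) (nat_lit 456) (nat_lit 5) (nat_lit 480) (nat_lit 462) (nat_lit 198)) (XT.lf (nat_lit 0) (nat_lit 6975186582) (nat_lit 1824) (nat_lit 4314511043) (nat_lit 1900) (nat_lit 13850118997) (nat_lit 431) (nat_lit 5) (nat_lit 455) (nat_lit 5) (nat_lit 456) (nat_lit 5) (nat_lit 481) (nat_lit 462) (nat_lit 197)))) (XT.nd (nat_lit 78) (nat_lit 0) (nat_lit 0) (XT.lf (nat_lit 0) (nat_lit 8656944179) (nat_lit 1824) (nat_lit 16619590533) (nat_lit 1900) (nat_lit 129419468) (nat_lit 432) (nat_lit 5) (nat_lit 456) (nat_lit 5) (nat_lit 457) (nat_lit 5) (nat_lit 482) (nat_lit 462) (nat_lit 196)) (XT.nd (nat_lit 78) (nat_lit 0) (nat_lit 0) (XT.lf (nat_lit 0) (nat_lit 10473429379) (nat_lit 1824) (nat_lit 3546328448) (nat_lit 1900) (nat_lit 11655635405) (nat_lit 432) (nat_lit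 5) (nat_lit 456) (nat_lit 5) (nat_lit 457) (nat_lit 5) (nat_lit 483) (nat_lit 462) (nat_lit 195)) (XT.lf (nat_lit 76) (nat_lit 9916221288) (nat_lit 0) (nat_lit 2471642803) (nat_lit 1900) (nat_lit 13561125159) (nat_lit 433) (nat_lit 5) (nat_lit 432) (nat_lit 5) (nat_lit 457) (nat_lit 5) (nat_lit 484) (nat_lit 462) (nat_lit 194)))))) (XT.nd (nat_lit 468) (nat_lit 2736) (nat_lit 0) (XT.nd (nat_lit 234) (nat_lit 2280) (nat_lit 0) (XT.nd (nat_lit 78) (nat_lit 0) (nat_lit 0) (XT.lf (nat_lit 0) (nat_lit 14422253067) (nat_lit 1824) (nat_lit 2594349704) (nat_lit 1900) (nat_lit 9209821674) (nat_lit 433) (nat_lit 5) (nat_lit 457) (nat_lit 5) (nat_lit 458) (nat_lit 5) (nat_lit 485) (nat_lit 462) (nat_lit 193)) (XT.nd (nat_lit 78) (nat_lit 0) (nat_lit 76) (XT.lf (nat_lit 76) (nat_lit 11241675344) (nat_lit 0) (nat_lit 5342344916) (nat_lit 1900) (nat_lit 9923654835) (nat_lit 434) (nat_lit 5) (nat_lit 433) (nat_lit 5) (nat_lit 458) (nat_lit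 5) (nat_lit 486) (nat_lit 462) (nat_lit 192)) (XT.lf (nat_lit 0) (nat_lit 18846548582) (nat_lit 1824) (nat_lit 1449627602) (nat_lit 76) (nat_lit 6497224606) (nat_lit 434) (nat_lit 5) (nat_lit 458) (nat_lit 5) (nat_lit 435) (nat_lit 5) (nat_lit 487) (nat_lit 462) (nat_lit 191)))) (XT.nd (nat_lit 78) (nat_lit 912) (nat_lit 0) (XT.lf (nat_lit 0) (nat_lit 12772985948) (nat_lit 1444) (nat_lit 8497077591) (nat_lit 1520) (nat_lit 5812463275) (nat_lit 415) (nat_lit 5) (nat_lit 434) (nat_lit 5) (nat_lit 435) (nat_lit 5) (nat_lit 488) (nat_lit 462) (nat_lit 190)) (XT.nd (nat_lit 78) (nat_lit 912) (nat_lit 0) (XT.lf (nat_lit 0) (nat_lit 23772275889) (nat_lit 1520) (nat_lit 102839481) (nat_lit 76) (nat_lit 3501715973) (nat_lit 415) (nat_lit 5) (nat_lit 435) (nat_lit 5) (nat_lit 416) (nat_lit 5) (nat_lit 489) (nat_lit 462) (nat_lit 189)) (XT.lf (nat_lit 0) (nat_lit 14519934816) (nat_lit 912) (nat_lit 11952656328) (nat_lit 988) (nat_lit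 1201470161) (nat_lit 403) (nat_lit 5) (nat_lit 415) (nat_lit 5) (nat_lit 416) (nat_lit 5) (nat_lit 490) (nat_lit 462) (nat_lit 188))))) (XT.nd (nat_lit 234) (nat_lit 836) (nat_lit 0) (XT.nd (nat_lit 78) (nat_lit 912) (nat_lit 0) (XT.lf (nat_lit 0) (nat_lit 1242520865) (nat_lit 988) (nat_lit 26510158888) (nat_lit 76) (nat_lit 224209659) (nat_lit 390) (nat_lit 5) (nat_lit 403) (nat_lit 5) (nat_lit 391) (nat_lit 5) (nat_lit 491) (nat_lit 462) (nat_lit 187)) (XT.nd (nat_lit 78) (nat_lit 912) (nat_lit 0) (XT.lf (nat_lit 0) (nat_lit 3884898012) (nat_lit 988) (nat_lit 11815669474) (nat_lit 76) (nat_lit 12581736366) (nat_lit 390) (nat_lit 5) (nat_lit 403) (nat_lit 5) (nat_lit 391) (nat_lit 5) (nat_lit 492) (nat_lit 462) (nat_lit 186)) (XT.lf (nat_lit 0) (nat_lit 3212613194) (nat_lit 912) (nat_lit 3385982232) (nat_lit 988) (nat_lit 21994862179) (nat_lit 378) (nat_lit 5) (nat_lit 390) (nat_lit 5) (nat_lit 391) (nat_lit 5) (nat_lit 493)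 (nat_lit 462) (nat_lit 185)))) (XT.nd (nat_lit 78) (nat_lit 836) (nat_lit 0) (XT.lf (nat_lit 0) (nat_lit 9503598338) (nat_lit 988) (nat_lit 10269981500) (nat_lit 76) (nat_lit 9134514430) (nat_lit 378) (nat_lit 5) (nat_lit 391) (nat_lit 5) (nat_lit 379) (nat_lit 5) (nat_lit 494) (nat_lit 462) (nat_lit 184)) (XT.nd (nat_lit 78) (nat_lit 0) (nat_lit 0) (XT.lf (nat_lit 0) (nat_lit 5186476634) (nat_lit 836) (nat_lit 7334016162) (nat_lit 912) (nat_lit 16707455497) (nat_lit 367) (nat_lit 5) (nat_lit 378) (nat_lit 5) (nat_lit 379) (nat_lit 5) (nat_lit 495) (nat_lit 462) (nat_lit 183)) (XT.lf (nat_lit 0) (nat_lit 15699587523) (nat_lit 912) (nat_lit 8499016841) (nat_lit 76) (nat_lit 5353558236) (nat_lit 367) (nat_lit 5) (nat_lit 379) (nat_lit 5) (nat_lit 368) (nat_lit 5) (nat_lit 496) (nat_lit 462) (nat_lit 182))))))) (XT.nd (nat_lit 57096) (nat_lit 0) (nat_lit 7144) (XT.nd (nat_lit 390) (nat_lit 0) (nat_lit 0) (XT.nd (nat_lit 156) (nat_lit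 1596) (nat_lit 0) (XT.nd (nat_lit 78) (nat_lit 0) (nat_lit 0) (XT.lf (nat_lit 0) (nat_lit 7400569690) (nat_lit 836) (nat_lit 11636083186) (nat_lit 912) (nat_lit 10844320982) (nat_lit 356) (nat_lit 5) (nat_lit 367) (nat_lit 5) (nat_lit 368) (nat_lit 5) (nat_lit 497) (nat_lit 462) (nat_lit 181)) (XT.lf (nat_lit 0) (nat_lit 22503315675) (nat_lit 912) (nat_lit 6492127876) (nat_lit 76) (nat_lit 1219661100) (nat_lit 356) (nat_lit 5) (nat_lit 368) (nat_lit 5) (nat_lit 357) (nat_lit 5) (nat_lit 498) (nat_lit 462) (nat_lit 180))) (XT.nd (nat_lit 78) (nat_lit 836) (nat_lit 0) (XT.lf (nat_lit 0) (nat_lit 9866055233) (nat_lit 760) (nat_lit 16312216003) (nat_lit 836) (nat_lit 4374868057) (nat_lit 346) (nat_lit 5) (nat_lit 356) (nat_lit 5) (nat_lit 357) (nat_lit 5) (nat_lit 499) (nat_lit 462) (nat_lit 179)) (XT.nd (nat_lit 78) (nat_lit 836) (nat_lit 0) (XT.lf (nat_lit 0) (nat_lit 26637225293) (nat_lit 760) (nat_lit 3330936745) (nat_lit 836)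 (nat_lit 928944281) (nat_lit 346) (nat_lit 5) (nat_lit 356) (nat_lit 5) (nat_lit 357) (nat_lit 5) (nat_lit 500) (nat_lit 462) (nat_lit 178)) (XT.lf (nat_lit 0) (nat_lit 2696962937) (nat_lit 836) (nat_lit 18668290633) (nat_lit 76) (nat_lit 9879464138) (nat_lit 335) (nat_lit 5) (nat_lit 346) (nat_lit 5) (nat_lit 336) (nat_lit 5) (nat_lit 501) (nat_lit 462) (nat_lit 177))))) (XT.nd (nat_lit 56472) (nat_lit 0) (nat_lit 8512) (XT.nd (nat_lit 56316) (nat_lit 0) (nat_lit 8512) (XT.lf (nat_lit 0) (nat_lit 6431720724) (nat_lit 836) (nat_lit 1822096865) (nat_lit 76) (nat_lit 23344365901) (nat_lit 335) (nat_lit 5) (nat_lit 346) (nat_lit 5) (nat_lit 336) (nat_lit 5) (nat_lit 502) (nat_lit 462) (nat_lit 176)) (XT.nd (nat_lit 78) (nat_lit 0) (nat_lit 0) (XT.lf (nat_lit 0) (nat_lit 3312528230) (nat_lit 0) (nat_lit 3312528230) (nat_lit 1748) (nat_lit 3947843790) (nat_lit 447) (nat_lit 5) (nat_lit 447) (nat_lit 3) (nat_lit 470) (nat_lit 3)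 (nat_lit 463) (nat_lit 463) (nat_lit 214)) (XT.lf (nat_lit 0) (nat_lit 13552384139) (nat_lit 1748) (nat_lit 4266566757) (nat_lit 1824) (nat_lit 3534879942) (nat_lit 447) (nat_lit 5) (nat_lit 470) (nat_lit 3) (nat_lit 471) (nat_lit 5) (nat_lit 464) (nat_lit 463) (nat_lit 213)))) (XT.nd (nat_lit 78) (nat_lit 0) (nat_lit 76) (XT.lf (nat_lit 76) (nat_lit 6228495619) (nat_lit 0) (nat_lit 7712688588) (nat_lit 1824) (nat_lit 7623228755) (nat_lit 448) (nat_lit 5) (nat_lit 447) (nat_lit 5) (nat_lit 471) (nat_lit 5) (nat_lit 465) (nat_lit 463) (nat_lit 212)) (XT.nd (nat_lit 78) (nat_lit 0) (nat_lit 0) (XT.lf (nat_lit 0) (nat_lit 14379676774) (nat_lit 1748) (nat_lit 4806469243) (nat_lit 1824) (nat_lit 2592223211) (nat_lit 448) (nat_lit 5) (nat_lit 471) (nat_lit 5) (nat_lit 472) (nat_lit 5) (nat_lit 466) (nat_lit 463) (nat_lit 211)) (XT.lf (nat_lit 76) (nat_lit 5958593135) (nat_lit 0) (nat_lit 8954427251) (nat_lit 1824) (nat_lit 7081863423)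 (nat_lit 449) (nat_lit 5) (nat_lit 448) (nat_lit 5) (nat_lit 472) (nat_lit 5) (nat_lit 467) (nat_lit 463) (nat_lit 210)))))) (XT.nd (nat_lit 468) (nat_lit 1520) (nat_lit 0) (XT.nd (nat_lit 234) (nat_lit 0) (nat_lit 76) (XT.nd (nat_lit 78) (nat_lit 0) (nat_lit 0) (XT.lf (nat_lit 0) (nat_lit 15495506074) (nat_lit 1748) (nat_lit 5222924598) (nat_lit 1824) (nat_lit 1496529302) (nat_lit 449) (nat_lit 5) (nat_lit 472) (nat_lit 5) (nat_lit 473) (nat_lit 5) (nat_lit 468) (nat_lit 463) (nat_lit 209)) (XT.nd (nat_lit 78) (nat_lit 0) (nat_lit 76) (XT.lf (nat_lit 76) (nat_lit 5821686435) (nat_lit 0) (nat_lit 10361511012) (nat_lit 1824) (nat_lit 6254369878) (nat_lit 450) (nat_lit 5) (nat_lit 449) (nat_lit 5) (nat_lit 473) (nat_lit 5) (nat_lit 469) (nat_lit 463) (nat_lit 208)) (XT.lf (nat_lit 0) (nat_lit 16917760640) (nat_lit 1748) (nat_lit 5509625335) (nat_lit 1824) (nat_lit 236579255) (nat_lit 450) (nat_lit 5) (nat_lit 473) (nat_lit 5)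 (nat_lit 474) (nat_lit 5) (nat_lit 470) (nat_lit 463) (nat_lit 207)))) (XT.nd (nat_lit 78) (nat_lit 0) (nat_lit 0) (XT.lf (nat_lit 76) (nat_lit 5824426304) (nat_lit 0) (nat_lit 11945614539) (nat_lit 1824) (nat_lit 5122790487) (nat_lit 451) (nat_lit 5) (nat_lit 450) (nat_lit 5) (nat_lit 474) (nat_lit 5) (nat_lit 471) (nat_lit 463) (nat_lit 206)) (XT.nd (nat_lit 78) (nat_lit 0) (nat_lit 76) (XT.lf (nat_lit 76) (nat_lit 17457759054) (nat_lit 0) (nat_lit 1215223833) (nat_lit 1824) (nat_lit 4452620276) (nat_lit 451) (nat_lit 5) (nat_lit 450) (nat_lit 5) (nat_lit 474) (nat_lit 5) (nat_lit 472) (nat_lit 463) (nat_lit 205)) (XT.lf (nat_lit 76) (nat_lit 5973785037) (nat_lit 0) (nat_lit 13718874318) (nat_lit 1824) (nat_lit 3668398290) (nat_lit 452) (nat_lit 5) (nat_lit 451) (nat_lit 5) (nat_lit 475) (nat_lit 5) (nat_lit 473) (nat_lit 463) (nat_lit 204))))) (XT.nd (nat_lit 234) (nat_lit 1672) (nat_lit 0) (XT.nd (nat_lit 78) (nat_lit 0)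 (nat_lit 76) (XT.lf (nat_lit 76) (nat_lit 17914816928) (nat_lit 0) (nat_lit 2860709889) (nat_lit 1824) (nat_lit 2824839157) (nat_lit 452) (nat_lit 5) (nat_lit 451) (nat_lit 5) (nat_lit 475) (nat_lit 5) (nat_lit 474) (nat_lit 463) (nat_lit 203)) (XT.nd (nat_lit 78) (nat_lit 0) (nat_lit 0) (XT.lf (nat_lit 76) (nat_lit 6277064929) (nat_lit 0) (nat_lit 15693915213) (nat_lit 1824) (nat_lit 1871662453) (nat_lit 453) (nat_lit 5) (nat_lit 452) (nat_lit 5) (nat_lit 476) (nat_lit 5) (nat_lit 475) (nat_lit 463) (nat_lit 202)) (XT.lf (nat_lit 76) (nat_lit 18534683324) (nat_lit 0) (nat_lit 4709519809) (nat_lit 1824) (nat_lit 844485083) (nat_lit 453) (nat_lit 5) (nat_lit 452) (nat_lit 5) (nat_lit 476) (nat_lit 5) (nat_lit 476) (nat_lit 463) (nat_lit 201)))) (XT.nd (nat_lit 78) (nat_lit 0) (nat_lit 0) (XT.lf (nat_lit 0) (nat_lit 284013088) (nat_lit 1824) (nat_lit 17597958947) (nat_lit 1900) (nat_lit 6455988123) (nat_lit 429) (nat_lit 5) (nat_lit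 453) (nat_lit 5) (nat_lit 454) (nat_lit 5) (nat_lit 477) (nat_lit 463) (nat_lit 200)) (XT.nd (nat_lit 78) (nat_lit 0) (nat_lit 76) (XT.lf (nat_lit 0) (nat_lit 1489469960) (nat_lit 1824) (nat_lit 5275500223) (nat_lit 1900) (nat_lit 17825822428) (nat_lit 429) (nat_lit 5) (nat_lit 453) (nat_lit 5) (nat_lit 454) (nat_lit 5) (nat_lit 478) (nat_lit 463) (nat_lit 199)) (XT.lf (nat_lit 0) (nat_lit 2794066868) (nat_lit 1824) (nat_lit 17489630799) (nat_lit 1900) (nat_lit 4563484058) (nat_lit 430) (nat_lit 5) (nat_lit 454) (nat_lit 5) (nat_lit 455) (nat_lit 5) (nat_lit 479) (nat_lit 463) (nat_lit 198))))))))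
noncomputable def xc245 : XT := (XT.nd (nat_lit 58110) (nat_lit 0) (nat_lit 7144) (XT.nd (nat_lit 858) (nat_lit 5168) (nat_lit 0) (XT.nd (nat_lit 390) (nat_lit 2052) (nat_lit 0) (XT.nd (nat_lit 156) (nat_lit 0) (nat_lit 76) (XT.nd (nat_lit 78) (nat_lit 0) (nat_lit 76) (XT.lf (nat_lit 0) (nat_lit 4202281231) (nat_lit 1824) (nat_lit 4840433000) (nat_lit 1900) (nat_lit 16064434496) (nat_lit 430) (nat_lit 5) (nat_lit 454) (nat_lit 5) (nat_lit 455) (nat_lit 5) (nat_lit 480) (nat_lit 463) (nat_lit 197)) (XT.lf (nat_lit 0) (nat_lit 5704917385) (nat_lit 1824) (nat_lit 17220681618) (nat_lit 1900) (nat_lit 2445391521) (nat_lit 431) (nat_lit 5) (nat_lit 455) (nat_lit 5) (nat_lit 456) (nat_lit 5) (nat_lit 481) (nat_lit 463) (nat_lit 196))) (XT.nd (nat_lit 78) (nat_lit 0) (nat_lit 76) (XT.lf (nat_lit 0) (nat_lit 7327381045) (nat_lit 1824) (nat_lit 4235266369) (nat_lit 1900) (nat_lit 14075666839) (nat_lit 431) (nat_lit 5) (nat_lit 455) (nat_lit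 5) (nat_lit 456) (nat_lit 5) (nat_lit 482) (nat_lit 463) (nat_lit 195)) (XT.nd (nat_lit 78) (nat_lit 0) (nat_lit 0) (XT.lf (nat_lit 0) (nat_lit 9039377986) (nat_lit 1824) (nat_lit 16783007634) (nat_lit 1900) (nat_lit 87457739) (nat_lit 432) (nat_lit 5) (nat_lit 456) (nat_lit 5) (nat_lit 457) (nat_lit 5) (nat_lit 483) (nat_lit 463) (nat_lit 194)) (XT.lf (nat_lit 0) (nat_lit 10888089068) (nat_lit 1824) (nat_lit 3451593536) (nat_lit 1900) (nat_lit 11845071526) (nat_lit 432) (nat_lit 5) (nat_lit 456) (nat_lit 5) (nat_lit 457) (nat_lit 5) (nat_lit 484) (nat_lit 463) (nat_lit 193))))) (XT.nd (nat_lit 234) (nat_lit 2204) (nat_lit 0) (XT.nd (nat_lit 78) (nat_lit 0) (nat_lit 76) (XT.lf (nat_lit 76) (nat_lit 10279117315) (nat_lit 0) (nat_lit 2558740311) (nat_lit 1900) (nat_lit 13626024385) (nat_lit 433) (nat_lit 5) (nat_lit 432) (nat_lit 5) (nat_lit 457) (nat_lit 5) (nat_lit 485) (nat_lit 463) (nat_lit 192)) (XT.nd (nat_lit 78) (nat_lit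 0) (nat_lit 0) (XT.lf (nat_lit 0) (nat_lit 14908729217) (nat_lit 1824) (nat_lit 2480645356) (nat_lit 1900) (nat_lit 9357576271) (nat_lit 433) (nat_lit 5) (nat_lit 457) (nat_lit 5) (nat_lit 458) (nat_lit 5) (nat_lit 486) (nat_lit 463) (nat_lit 191)) (XT.lf (nat_lit 76) (nat_lit 11631010777) (nat_lit 0) (nat_lit 5479906071) (nat_lit 1900) (nat_lit 9922966771) (nat_lit 434) (nat_lit 5) (nat_lit 433) (nat_lit 5) (nat_lit 458) (nat_lit 5) (nat_lit 487) (nat_lit 463) (nat_lit 190)))) (XT.nd (nat_lit 78) (nat_lit 2356) (nat_lit 0) (XT.lf (nat_lit 0) (nat_lit 19414672460) (nat_lit 1824) (nat_lit 1313280623) (nat_lit 76) (nat_lit 6597452007) (nat_lit 434) (nat_lit 5) (nat_lit 458) (nat_lit 5) (nat_lit 435) (nat_lit 5) (nat_lit 488) (nat_lit 463) (nat_lit 189)) (XT.nd (nat_lit 78) (nat_lit 912) (nat_lit 0) (XT.lf (nat_lit 0) (nat_lit 13192697438) (nat_lit 1444) (nat_lit 8691277828) (nat_lit 1520) (nat_lit 5736392798) (nat_lit 415) (nat_lit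 5) (nat_lit 434) (nat_lit 5) (nat_lit 435) (nat_lit 5) (nat_lit 489) (nat_lit 463) (nat_lit 188)) (XT.lf (nat_lit 0) (nat_lit 60821572) (nat_lit 912) (nat_lit 24371954487) (nat_lit 988) (nat_lit 3487852507) (nat_lit 403) (nat_lit 5) (nat_lit 415) (nat_lit 5) (nat_lit 416) (nat_lit 5) (nat_lit 490) (nat_lit 463) (nat_lit 187)))))) (XT.nd (nat_lit 468) (nat_lit 2432) (nat_lit 0) (XT.nd (nat_lit 234) (nat_lit 1748) (nat_lit 0) (XT.nd (nat_lit 78) (nat_lit 988) (nat_lit 0) (XT.lf (nat_lit 0) (nat_lit 14974168669) (nat_lit 912) (nat_lit 12209977003) (nat_lit 988) (nat_lit 1039717245) (nat_lit 403) (nat_lit 5) (nat_lit 415) (nat_lit 5) (nat_lit 416) (nat_lit 5) (nat_lit 491) (nat_lit 463) (nat_lit 186)) (XT.nd (nat_lit 78) (nat_lit 0) (nat_lit 0) (XT.lf (nat_lit 0) (nat_lit 1448093356) (nat_lit 988) (nat_lit 26871393739) (nat_lit 76) (nat_lit 213289563) (nat_lit 390) (nat_lit 5) (nat_lit 403) (nat_lit 5) (nat_lit 391) (nat_lit 5)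 (nat_lit 492) (nat_lit 463) (nat_lit 185)) (XT.lf (nat_lit 0) (nat_lit 4139774476) (nat_lit 988) (nat_lit 11886327642) (nat_lit 76) (nat_lit 12818268849) (nat_lit 390) (nat_lit 5) (nat_lit 403) (nat_lit 5) (nat_lit 391) (nat_lit 5) (nat_lit 493) (nat_lit 463) (nat_lit 184)))) (XT.nd (nat_lit 78) (nat_lit 836) (nat_lit 0) (XT.lf (nat_lit 0) (nat_lit 3441430843) (nat_lit 912) (nat_lit 3463909374) (nat_lit 988) (nat_lit 22256456383) (nat_lit 378) (nat_lit 5) (nat_lit 390) (nat_lit 5) (nat_lit 391) (nat_lit 5) (nat_lit 494) (nat_lit 463) (nat_lit 183)) (XT.nd (nat_lit 78) (nat_lit 836) (nat_lit 0) (XT.lf (nat_lit 0) (nat_lit 9864951294) (nat_lit 988) (nat_lit 10310516604) (nat_lit 76) (nat_lit 9307328616) (nat_lit 378) (nat_lit 5) (nat_lit 391) (nat_lit 5) (nat_lit 379) (nat_lit 5) (nat_lit 495) (nat_lit 463) (nat_lit 182)) (XT.lf (nat_lit 0) (nat_lit 5453986057) (nat_lit 836) (nat_lit 7485902500) (nat_lit 912) (nat_lit 16869205631)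 (nat_lit 367) (nat_lit 5) (nat_lit 378) (nat_lit 5) (nat_lit 379) (nat_lit 5) (nat_lit 496) (nat_lit 463) (nat_lit 181))))) (XT.nd (nat_lit 234) (nat_lit 1596) (nat_lit 0) (XT.nd (nat_lit 78) (nat_lit 836) (nat_lit 0) (XT.lf (nat_lit 0) (nat_lit 16179218592) (nat_lit 912) (nat_lit 8505049373) (nat_lit 76) (nat_lit 5455592403) (nat_lit 367) (nat_lit 5) (nat_lit 379) (nat_lit 5) (nat_lit 368) (nat_lit 5) (nat_lit 497) (nat_lit 463) (nat_lit 180)) (XT.nd (nat_lit 78) (nat_lit 0) (nat_lit 0) (XT.lf (nat_lit 0) (nat_lit 7711450285) (nat_lit 836) (nat_lit 11869384593) (nat_lit 912) (nat_lit 10894457422) (nat_lit 356) (nat_lit 5) (nat_lit 367) (nat_lit 5) (nat_lit 368) (nat_lit 5) (nat_lit 498) (nat_lit 463) (nat_lit 179)) (XT.lf (nat_lit 0) (nat_lit 23113622361) (nat_lit 912) (nat_lit 6459054746) (nat_lit 76) (nat_lit 1243493401) (nat_lit 356) (nat_lit 5) (nat_lit 368) (nat_lit 5) (nat_lit 357) (nat_lit 5) (nat_lit 499) (nat_lit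 463) (nat_lit 178)))) (XT.nd (nat_lit 78) (nat_lit 836) (nat_lit 0) (XT.lf (nat_lit 0) (nat_lit 10225220211) (nat_lit 760) (nat_lit 16634765652) (nat_lit 836) (nat_lit 4301022420) (nat_lit 346) (nat_lit 5) (nat_lit 356) (nat_lit 5) (nat_lit 357) (nat_lit 5) (nat_lit 500) (nat_lit 463) (nat_lit 177)) (XT.nd (nat_lit 78) (nat_lit 836) (nat_lit 0) (XT.lf (nat_lit 0) (nat_lit 27328640263) (nat_lit 760) (nat_lit 3393933253) (nat_lit 836) (nat_lit 789343756) (nat_lit 346) (nat_lit 5) (nat_lit 356) (nat_lit 5) (nat_lit 357) (nat_lit 5) (nat_lit 501) (nat_lit 463) (nat_lit 176)) (XT.lf (nat_lit 0) (nat_lit 2905019755) (nat_lit 836) (nat_lit 18878865480) (nat_lit 76) (nat_lit 10082615441) (nat_lit 335) (nat_lit 5) (nat_lit 346) (nat_lit 5) (nat_lit 336) (nat_lit 5) (nat_lit 502) (nat_lit 463) (nat_lit 175))))))) (XT.nd (nat_lit 936) (nat_lit 1368) (nat_lit 0) (XT.nd (nat_lit 468) (nat_lit 0) (nat_lit 152) (XT.nd (nat_lit 234) (nat_lit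 0) (nat_lit 76) (XT.nd (nat_lit 78) (nat_lit 0) (nat_lit 0) (XT.lf (nat_lit 0) (nat_lit 3451560311) (nat_lit 0) (nat_lit 3451560311) (nat_lit 1748) (nat_lit 3878294317) (nat_lit 447) (nat_lit 5) (nat_lit 447) (nat_lit 3) (nat_lit 470) (nat_lit 3) (nat_lit 464) (nat_lit 464) (nat_lit 212)) (XT.nd (nat_lit 78) (nat_lit 0) (nat_lit 0) (XT.lf (nat_lit 0) (nat_lit 14107922974) (nat_lit 1748) (nat_lit 4202491469) (nat_lit 1824) (nat_lit 3464740337) (nat_lit 447) (nat_lit 5) (nat_lit 470) (nat_lit 3) (nat_lit 471) (nat_lit 5) (nat_lit 465) (nat_lit 464) (nat_lit 211)) (XT.lf (nat_lit 76) (nat_lit 6501489217) (nat_lit 0) (nat_lit 7998395234) (nat_lit 1824) (nat_lit 7490157620) (nat_lit 448) (nat_lit 5) (nat_lit 447) (nat_lit 5) (nat_lit 471) (nat_lit 5) (nat_lit 466) (nat_lit 464) (nat_lit 210)))) (XT.nd (nat_lit 78) (nat_lit 0) (nat_lit 0) (XT.lf (nat_lit 0) (nat_lit 14940822348) (nat_lit 1748) (nat_lit 4750700279) (nat_lit 1824)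 (nat_lit 2516882533) (nat_lit 448) (nat_lit 5) (nat_lit 471) (nat_lit 5) (nat_lit 472) (nat_lit 5) (nat_lit 467) (nat_lit 464) (nat_lit 209)) (XT.nd (nat_lit 78) (nat_lit 0) (nat_lit 76) (XT.lf (nat_lit 76) (nat_lit 6228664015) (nat_lit 0) (nat_lit 9251784788) (nat_lit 1824) (nat_lit 6948890094) (nat_lit 449) (nat_lit 5) (nat_lit 448) (nat_lit 5) (nat_lit 472) (nat_lit 5) (nat_lit 468) (nat_lit 464) (nat_lit 208)) (XT.lf (nat_lit 0) (nat_lit 16068553577) (nat_lit 1748) (nat_lit 5173354182) (nat_lit 1824) (nat_lit 1412030601) (nat_lit 449) (nat_lit 5) (nat_lit 472) (nat_lit 5) (nat_lit 473) (nat_lit 5) (nat_lit 469) (nat_lit 464) (nat_lit 207))))) (XT.nd (nat_lit 234) (nat_lit 0) (nat_lit 76) (XT.nd (nat_lit 78) (nat_lit 0) (nat_lit 76) (XT.lf (nat_lit 76) (nat_lit 6091135724) (nat_lit 0) (nat_lit 10674696976) (nat_lit 1824) (nat_lit 6115249618) (nat_lit 450) (nat_lit 5) (nat_lit 449) (nat_lit 5) (nat_lit 473) (nat_lit 5) (nat_lit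 470) (nat_lit 464) (nat_lit 206)) (XT.nd (nat_lit 78) (nat_lit 0) (nat_lit 0) (XT.lf (nat_lit 0) (nat_lit 17509334842) (nat_lit 1748) (nat_lit 5463994460) (nat_lit 1824) (nat_lit 138795042) (nat_lit 450) (nat_lit 5) (nat_lit 473) (nat_lit 5) (nat_lit 474) (nat_lit 5) (nat_lit 471) (nat_lit 464) (nat_lit 205)) (XT.lf (nat_lit 76) (nat_lit 6095713058) (nat_lit 0) (nat_lit 12278987566) (nat_lit 1824) (nat_lit 4970947437) (nat_lit 451) (nat_lit 5) (nat_lit 450) (nat_lit 5) (nat_lit 474) (nat_lit 5) (nat_lit 472) (nat_lit 464) (nat_lit 204)))) (XT.nd (nat_lit 78) (nat_lit 0) (nat_lit 76) (XT.lf (nat_lit 76) (nat_lit 17958677204) (nat_lit 0) (nat_lit 1332136874) (nat_lit 1824) (nat_lit 4292360074) (nat_lit 451) (nat_lit 5) (nat_lit 450) (nat_lit 5) (nat_lit 474) (nat_lit 5) (nat_lit 473) (nat_lit 464) (nat_lit 203)) (XT.nd (nat_lit 78) (nat_lit 0) (nat_lit 0) (XT.lf (nat_lit 76) (nat_lit 6249531154) (nat_lit 0) (nat_lit 14076986447)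 (nat_lit 1824) (nat_lit 3496908503) (nat_lit 452) (nat_lit 5) (nat_lit 451) (nat_lit 5) (nat_lit 475) (nat_lit 5) (nat_lit 474) (nat_lit 464) (nat_lit 202)) (XT.lf (nat_lit 76) (nat_lit 18426319557) (nat_lit 0) (nat_lit 3000016873) (nat_lit 1824) (nat_lit 2641279320) (nat_lit 452) (nat_lit 5) (nat_lit 451) (nat_lit 5) (nat_lit 475) (nat_lit 5) (nat_lit 475) (nat_lit 464) (nat_lit 201)))))) (XT.nd (nat_lit 468) (nat_lit 0) (nat_lit 152) (XT.nd (nat_lit 234) (nat_lit 0) (nat_lit 0) (XT.nd (nat_lit 78) (nat_lit 1748) (nat_lit 0) (XT.lf (nat_lit 76) (nat_lit 6560060319) (nat_lit 0) (nat_lit 16081524542) (nat_lit 1824) (nat_lit 1673236333) (nat_lit 453) (nat_lit 5) (nat_lit 452) (nat_lit 5) (nat_lit 476) (nat_lit 5) (nat_lit 476) (nat_lit 464) (nat_lit 200)) (XT.nd (nat_lit 78) (nat_lit 1748) (nat_lit 0) (XT.lf (nat_lit 76) (nat_lit 19059743746) (nat_lit 0) (nat_lit 4875995524) (nat_lit 1824) (nat_lit 630140109) (nat_lit 453) (nat_lit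 5) (nat_lit 452) (nat_lit 5) (nat_lit 476) (nat_lit 5) (nat_lit 477) (nat_lit 464) (nat_lit 199)) (XT.lf (nat_lit 0) (nat_lit 513992674) (nat_lit 1824) (nat_lit 17788519797) (nat_lit 1900) (nat_lit 6517673268) (nat_lit 429) (nat_lit 5) (nat_lit 453) (nat_lit 5) (nat_lit 454) (nat_lit 5) (nat_lit 478) (nat_lit 464) (nat_lit 198)))) (XT.nd (nat_lit 78) (nat_lit 0) (nat_lit 76) (XT.lf (nat_lit 0) (nat_lit 1739160658) (nat_lit 1824) (nat_lit 5222776573) (nat_lit 1900) (nat_lit 18116226507) (nat_lit 429) (nat_lit 5) (nat_lit 453) (nat_lit 5) (nat_lit 454) (nat_lit 5) (nat_lit 479) (nat_lit 464) (nat_lit 197)) (XT.nd (nat_lit 78) (nat_lit 0) (nat_lit 0) (XT.lf (nat_lit 0) (nat_lit 3066172536) (nat_lit 1824) (nat_lit 17677467006) (nat_lit 1900) (nat_lit 4596115547) (nat_lit 430) (nat_lit 5) (nat_lit 454) (nat_lit 5) (nat_lit 455) (nat_lit 5) (nat_lit 480) (nat_lit 464) (nat_lit 196)) (XT.lf (nat_lit 0) (nat_lit 4498311493) (nat_lit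 1824) (nat_lit 4778460867) (nat_lit 1900) (nat_lit 16328234762) (nat_lit 430) (nat_lit 5) (nat_lit 454) (nat_lit 5) (nat_lit 455) (nat_lit 5) (nat_lit 481) (nat_lit 464) (nat_lit 195))))) (XT.nd (nat_lit 234) (nat_lit 0) (nat_lit 76) (XT.nd (nat_lit 78) (nat_lit 0) (nat_lit 0) (XT.lf (nat_lit 0) (nat_lit 6027536057) (nat_lit 1824) (nat_lit 17402806138) (nat_lit 1900) (nat_lit 2443853726) (nat_lit 431) (nat_lit 5) (nat_lit 455) (nat_lit 5) (nat_lit 456) (nat_lit 5) (nat_lit 482) (nat_lit 464) (nat_lit 194)) (XT.nd (nat_lit 78) (nat_lit 0) (nat_lit 76) (XT.lf (nat_lit 0) (nat_lit 7678360356) (nat_lit 1824) (nat_lit 4160864723) (nat_lit 1900) (nat_lit 14307723681) (nat_lit 431) (nat_lit 5) (nat_lit 455) (nat_lit 5) (nat_lit 456) (nat_lit 5) (nat_lit 483) (nat_lit 464) (nat_lit 193)) (XT.lf (nat_lit 0) (nat_lit 9421333292) (nat_lit 1824) (nat_lit 16956254571) (nat_lit 1900) (nat_lit 46386710) (nat_lit 432) (nat_lit 5) (nat_lit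 456) (nat_lit 5) (nat_lit 457) (nat_lit 5) (nat_lit 484) (nat_lit 464) (nat_lit 192)))) (XT.nd (nat_lit 78) (nat_lit 0) (nat_lit 0) (XT.lf (nat_lit 0) (nat_lit 11303074131) (nat_lit 1824) (nat_lit 3361396764) (nat_lit 1900) (nat_lit 12039992384) (nat_lit 432) (nat_lit 5) (nat_lit 456) (nat_lit 5) (nat_lit 457) (nat_lit 5) (nat_lit 485) (nat_lit 464) (nat_lit 191)) (XT.nd (nat_lit 78) (nat_lit 0) (nat_lit 76) (XT.lf (nat_lit 76) (nat_lit 10642880748) (nat_lit 0) (nat_lit 2646117206) (nat_lit 1900) (nat_lit 13700233379) (nat_lit 433) (nat_lit 5) (nat_lit 432) (nat_lit 5) (nat_lit 457) (nat_lit 5) (nat_lit 486) (nat_lit 464) (nat_lit 190)) (XT.lf (nat_lit 0) (nat_lit 15397245102) (nat_lit 1824) (nat_lit 2371097035) (nat_lit 1900) (nat_lit 9509701040) (nat_lit 433) (nat_lit 5) (nat_lit 457) (nat_lit 5) (nat_lit 458) (nat_lit 5) (nat_lit 487) (nat_lit 464) (nat_lit 189))))))))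
noncomputable def xc246 : XT := (XT.nd (nat_lit 58266) (nat_lit 0) (nat_lit 2432) (XT.nd (nat_lit 858) (nat_lit 1596) (nat_lit 0) (XT.nd (nat_lit 390) (nat_lit 2736) (nat_lit 0) (XT.nd (nat_lit 156) (nat_lit 2280) (nat_lit 0) (XT.nd (nat_lit 78) (nat_lit 0) (nat_lit 76) (XT.lf (nat_lit 76) (nat_lit 12021745108) (nat_lit 0) (nat_lit 5619025776) (nat_lit 1900) (nat_lit 9929998616) (nat_lit 434) (nat_lit 5) (nat_lit 433) (nat_lit 5) (nat_lit 458) (nat_lit 5) (nat_lit 488) (nat_lit 464) (nat_lit 188)) (XT.lf (nat_lit 0) (nat_lit 19986734562) (nat_lit 1824) (nat_lit 1180627039) (nat_lit 76) (nat_lit 6700837906) (nat_lit 434) (nat_lit 5) (nat_lit 458) (nat_lit 5) (nat_lit 435) (nat_lit 5) (nat_lit 489) (nat_lit 464) (nat_lit 187))) (XT.nd (nat_lit 78) (nat_lit 912) (nat_lit 0) (XT.lf (nat_lit 0) (nat_lit 13614425062) (nat_lit 1444) (nat_lit 8888420076) (nat_lit 1520) (nat_lit 5666268920) (nat_lit 415) (nat_lit 5) (nat_lit 434) (nat_lit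 5) (nat_lit 435) (nat_lit 5) (nat_lit 490) (nat_lit 464) (nat_lit 186)) (XT.nd (nat_lit 78) (nat_lit 0) (nat_lit 0) (XT.lf (nat_lit 0) (nat_lit 222660706) (nat_lit 912) (nat_lit 24877302938) (nat_lit 988) (nat_lit 3375470028) (nat_lit 403) (nat_lit 5) (nat_lit 415) (nat_lit 5) (nat_lit 416) (nat_lit 5) (nat_lit 491) (nat_lit 464) (nat_lit 185)) (XT.lf (nat_lit 0) (nat_lit 15431125281) (nat_lit 912) (nat_lit 12471734740) (nat_lit 988) (nat_lit 881943424) (nat_lit 403) (nat_lit 5) (nat_lit 415) (nat_lit 5) (nat_lit 416) (nat_lit 5) (nat_lit 492) (nat_lit 464) (nat_lit 184))))) (XT.nd (nat_lit 234) (nat_lit 836) (nat_lit 0) (XT.nd (nat_lit 78) (nat_lit 912) (nat_lit 0) (XT.lf (nat_lit 0) (nat_lit 1650759638) (nat_lit 988) (nat_lit 27246414533) (nat_lit 76) (nat_lit 202749232) (nat_lit 390) (nat_lit 5) (nat_lit 403) (nat_lit 5) (nat_lit 391) (nat_lit 5) (nat_lit 493) (nat_lit 464) (nat_lit 183)) (XT.nd (nat_lit 78) (nat_lit 912)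 (nat_lit 0) (XT.lf (nat_lit 0) (nat_lit 4392868411) (nat_lit 988) (nat_lit 11964831567) (nat_lit 76) (nat_lit 13060118420) (nat_lit 390) (nat_lit 5) (nat_lit 403) (nat_lit 5) (nat_lit 391) (nat_lit 5) (nat_lit 494) (nat_lit 464) (nat_lit 182)) (XT.lf (nat_lit 0) (nat_lit 3668434571) (nat_lit 912) (nat_lit 3542998689) (nat_lit 988) (nat_lit 22530206195) (nat_lit 378) (nat_lit 5) (nat_lit 390) (nat_lit 5) (nat_lit 391) (nat_lit 5) (nat_lit 495) (nat_lit 464) (nat_lit 181)))) (XT.nd (nat_lit 78) (nat_lit 836) (nat_lit 0) (XT.lf (nat_lit 0) (nat_lit 10226880260) (nat_lit 988) (nat_lit 10358264301) (nat_lit 76) (nat_lit 9483982587) (nat_lit 378) (nat_lit 5) (nat_lit 391) (nat_lit 5) (nat_lit 379) (nat_lit 5) (nat_lit 496) (nat_lit 464) (nat_lit 180)) (XT.nd (nat_lit 78) (nat_lit 0) (nat_lit 0) (XT.lf (nat_lit 0) (nat_lit 5720485896) (nat_lit 836) (nat_lit 7640624410) (nat_lit 912) (nat_lit 17040885230) (nat_lit 367) (nat_lit 5)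 (nat_lit 378) (nat_lit 5) (nat_lit 379) (nat_lit 5) (nat_lit 497) (nat_lit 464) (nat_lit 179)) (XT.lf (nat_lit 0) (nat_lit 16662010306) (nat_lit 912) (nat_lit 8517568848) (nat_lit 76) (nat_lit 5559862846) (nat_lit 367) (nat_lit 5) (nat_lit 379) (nat_lit 5) (nat_lit 368) (nat_lit 5) (nat_lit 498) (nat_lit 464) (nat_lit 178)))))) (XT.nd (nat_lit 56940) (nat_lit 0) (nat_lit 7752) (XT.nd (nat_lit 56706) (nat_lit 0) (nat_lit 7676) (XT.nd (nat_lit 78) (nat_lit 760) (nat_lit 0) (XT.lf (nat_lit 0) (nat_lit 8022224082) (nat_lit 836) (nat_lit 12107329515) (nat_lit 912) (nat_lit 10952071696) (nat_lit 356) (nat_lit 5) (nat_lit 367) (nat_lit 5) (nat_lit 368) (nat_lit 5) (nat_lit 499) (nat_lit 464) (nat_lit 177)) (XT.nd (nat_lit 78) (nat_lit 760) (nat_lit 0) (XT.lf (nat_lit 0) (nat_lit 23729912851) (nat_lit 912) (nat_lit 6431646369) (nat_lit 76) (nat_lit 1267824129) (nat_lit 356) (nat_lit 5) (nat_lit 368) (nat_lit 5) (nat_lit 357) (nat_lit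 5) (nat_lit 500) (nat_lit 464) (nat_lit 176)) (XT.lf (nat_lit 0) (nat_lit 10585283893) (nat_lit 760) (nat_lit 16963909762) (nat_lit 836) (nat_lit 4231965016) (nat_lit 346) (nat_lit 5) (nat_lit 356) (nat_lit 5) (nat_lit 357) (nat_lit 5) (nat_lit 501) (nat_lit 464) (nat_lit 175)))) (XT.nd (nat_lit 78) (nat_lit 0) (nat_lit 0) (XT.lf (nat_lit 0) (nat_lit 3590546839) (nat_lit 0) (nat_lit 3590546839) (nat_lit 1748) (nat_lit 3813120537) (nat_lit 447) (nat_lit 5) (nat_lit 447) (nat_lit 3) (nat_lit 470) (nat_lit 3) (nat_lit 465) (nat_lit 465) (nat_lit 210)) (XT.nd (nat_lit 78) (nat_lit 0) (nat_lit 0) (XT.lf (nat_lit 0) (nat_lit 14663525447) (nat_lit 1748) (nat_lit 4142936316) (nat_lit 1824) (nat_lit 3398666820) (nat_lit 447) (nat_lit 5) (nat_lit 470) (nat_lit 3) (nat_lit 471) (nat_lit 5) (nat_lit 466) (nat_lit 465) (nat_lit 209)) (XT.lf (nat_lit 76) (nat_lit 6774179214) (nat_lit 0) (nat_lit 8284711536) (nat_lit 1824) (nat_lit 7365512761)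 (nat_lit 448) (nat_lit 5) (nat_lit 447) (nat_lit 5) (nat_lit 471) (nat_lit 5) (nat_lit 467) (nat_lit 465) (nat_lit 208))))) (XT.nd (nat_lit 234) (nat_lit 0) (nat_lit 76) (XT.nd (nat_lit 78) (nat_lit 0) (nat_lit 0) (XT.lf (nat_lit 0) (nat_lit 15502568475) (nat_lit 1748) (nat_lit 4699714333) (nat_lit 1824) (nat_lit 2444973795) (nat_lit 448) (nat_lit 5) (nat_lit 471) (nat_lit 5) (nat_lit 472) (nat_lit 5) (nat_lit 468) (nat_lit 465) (nat_lit 207)) (XT.nd (nat_lit 78) (nat_lit 0) (nat_lit 76) (XT.lf (nat_lit 76) (nat_lit 6498276721) (nat_lit 0) (nat_lit 9550496946) (nat_lit 1824) (nat_lit 6823920762) (nat_lit 449) (nat_lit 5) (nat_lit 448) (nat_lit 5) (nat_lit 472) (nat_lit 5) (nat_lit 469) (nat_lit 465) (nat_lit 206)) (XT.lf (nat_lit 0) (nat_lit 16642844085) (nat_lit 1748) (nat_lit 5128773488) (nat_lit 1824) (nat_lit 1330285354) (nat_lit 449) (nat_lit 5) (nat_lit 472) (nat_lit 5) (nat_lit 473) (nat_lit 5) (nat_lit 470) (nat_lit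 465) (nat_lit 205)))) (XT.nd (nat_lit 78) (nat_lit 0) (nat_lit 76) (XT.lf (nat_lit 76) (nat_lit 6360032218) (nat_lit 0) (nat_lit 10990032268) (nat_lit 1824) (nat_lit 5983606459) (nat_lit 450) (nat_lit 5) (nat_lit 449) (nat_lit 5) (nat_lit 473) (nat_lit 5) (nat_lit 471) (nat_lit 465) (nat_lit 204)) (XT.nd (nat_lit 78) (nat_lit 0) (nat_lit 0) (XT.lf (nat_lit 0) (nat_lit 18102907726) (nat_lit 1748) (nat_lit 5423501780) (nat_lit 1824) (nat_lit 43035957) (nat_lit 450) (nat_lit 5) (nat_lit 473) (nat_lit 5) (nat_lit 474) (nat_lit 5) (nat_lit 472) (nat_lit 465) (nat_lit 203)) (XT.lf (nat_lit 76) (nat_lit 6366414543) (nat_lit 0) (nat_lit 12615360027) (nat_lit 1824) (nat_lit 4825942260) (nat_lit 451) (nat_lit 5) (nat_lit 450) (nat_lit 5) (nat_lit 474) (nat_lit 5) (nat_lit 473) (nat_lit 465) (nat_lit 202))))))) (XT.nd (nat_lit 936) (nat_lit 3876) (nat_lit 0) (XT.nd (nat_lit 468) (nat_lit 0) (nat_lit 0) (XT.nd (nat_lit 234) (nat_lit 1596)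 (nat_lit 0) (XT.nd (nat_lit 78) (nat_lit 0) (nat_lit 76) (XT.lf (nat_lit 76) (nat_lit 18463720575) (nat_lit 0) (nat_lit 1447792073) (nat_lit 1824) (nat_lit 4138575780) (nat_lit 451) (nat_lit 5) (nat_lit 450) (nat_lit 5) (nat_lit 474) (nat_lit 5) (nat_lit 474) (nat_lit 465) (nat_lit 201)) (XT.nd (nat_lit 78) (nat_lit 0) (nat_lit 0) (XT.lf (nat_lit 76) (nat_lit 6524724022) (nat_lit 0) (nat_lit 14439009301) (nat_lit 1824) (nat_lit 3331497046) (nat_lit 452) (nat_lit 5) (nat_lit 451) (nat_lit 5) (nat_lit 475) (nat_lit 5) (nat_lit 475) (nat_lit 465) (nat_lit 200)) (XT.lf (nat_lit 76) (nat_lit 18942103051) (nat_lit 0) (nat_lit 3138922235) (nat_lit 1824) (nat_lit 2463369978) (nat_lit 452) (nat_lit 5) (nat_lit 451) (nat_lit 5) (nat_lit 475) (nat_lit 5) (nat_lit 476) (nat_lit 465) (nat_lit 199)))) (XT.nd (nat_lit 78) (nat_lit 1748) (nat_lit 0) (XT.lf (nat_lit 76) (nat_lit 6842601482) (nat_lit 0) (nat_lit 16474022992) (nat_lit 1824) (nat_lit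 1480000397) (nat_lit 453) (nat_lit 5) (nat_lit 452) (nat_lit 5) (nat_lit 476) (nat_lit 5) (nat_lit 477) (nat_lit 465) (nat_lit 198)) (XT.nd (nat_lit 78) (nat_lit 1748) (nat_lit 0) (XT.lf (nat_lit 76) (nat_lit 19589311128) (nat_lit 0) (nat_lit 5042993826) (nat_lit 1824) (nat_lit 420487360) (nat_lit 453) (nat_lit 5) (nat_lit 452) (nat_lit 5) (nat_lit 476) (nat_lit 5) (nat_lit 478) (nat_lit 465) (nat_lit 197)) (XT.lf (nat_lit 0) (nat_lit 739862037) (nat_lit 1824) (nat_lit 17989159159) (nat_lit 1900) (nat_lit 6583210684) (nat_lit 429) (nat_lit 5) (nat_lit 453) (nat_lit 5) (nat_lit 454) (nat_lit 5) (nat_lit 479) (nat_lit 465) (nat_lit 196))))) (XT.nd (nat_lit 234) (nat_lit 0) (nat_lit 152) (XT.nd (nat_lit 78) (nat_lit 0) (nat_lit 76) (XT.lf (nat_lit 0) (nat_lit 1985306135) (nat_lit 1824) (nat_lit 5175142854) (nat_lit 1900) (nat_lit 18415005890) (nat_lit 429) (nat_lit 5) (nat_lit 453) (nat_lit 5) (nat_lit 454) (nat_lit 5) (nat_lit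 480) (nat_lit 465) (nat_lit 195)) (XT.nd (nat_lit 78) (nat_lit 0) (nat_lit 0) (XT.lf (nat_lit 0) (nat_lit 3335324063) (nat_lit 1824) (nat_lit 17875348902) (nat_lit 1900) (nat_lit 4631676657) (nat_lit 430) (nat_lit 5) (nat_lit 454) (nat_lit 5) (nat_lit 455) (nat_lit 5) (nat_lit 481) (nat_lit 465) (nat_lit 194)) (XT.lf (nat_lit 0) (nat_lit 4792030739) (nat_lit 1824) (nat_lit 4721414943) (nat_lit 1900) (nat_lit 16599543379) (nat_lit 430) (nat_lit 5) (nat_lit 454) (nat_lit 5) (nat_lit 455) (nat_lit 5) (nat_lit 482) (nat_lit 465) (nat_lit 193)))) (XT.nd (nat_lit 78) (nat_lit 0) (nat_lit 0) (XT.lf (nat_lit 0) (nat_lit 6348510005) (nat_lit 1824) (nat_lit 17594875032) (nat_lit 1900) (nat_lit 2444244040) (nat_lit 431) (nat_lit 5) (nat_lit 455) (nat_lit 5) (nat_lit 456) (nat_lit 5) (nat_lit 483) (nat_lit 465) (nat_lit 192)) (XT.nd (nat_lit 78) (nat_lit 0) (nat_lit 76) (XT.lf (nat_lit 0) (nat_lit 8028420923) (nat_lit 1824) (nat_lit 4091153362)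 (nat_lit 1900) (nat_lit 14546342115) (nat_lit 431) (nat_lit 5) (nat_lit 455) (nat_lit 5) (nat_lit 456) (nat_lit 5) (nat_lit 484) (nat_lit 465) (nat_lit 191)) (XT.lf (nat_lit 0) (nat_lit 9803116115) (nat_lit 1824) (nat_lit 17139273149) (nat_lit 1900) (nat_lit 6157021) (nat_lit 432) (nat_lit 5) (nat_lit 456) (nat_lit 5) (nat_lit 457) (nat_lit 5) (nat_lit 485) (nat_lit 465) (nat_lit 190)))))) (XT.nd (nat_lit 468) (nat_lit 2812) (nat_lit 0) (XT.nd (nat_lit 234) (nat_lit 1292) (nat_lit 0) (XT.nd (nat_lit 78) (nat_lit 0) (nat_lit 0) (XT.lf (nat_lit 0) (nat_lit 11718700474) (nat_lit 1824) (nat_lit 3275579099) (nat_lit 1900) (nat_lit 12240441817) (nat_lit 432) (nat_lit 5) (nat_lit 456) (nat_lit 5) (nat_lit 457) (nat_lit 5) (nat_lit 486) (nat_lit 465) (nat_lit 189)) (XT.nd (nat_lit 78) (nat_lit 0) (nat_lit 76) (XT.lf (nat_lit 76) (nat_lit 11007777085) (nat_lit 0) (nat_lit 2733835867) (nat_lit 1900) (nat_lit 13783627230) (nat_lit 433)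 (nat_lit 5) (nat_lit 432) (nat_lit 5) (nat_lit 457) (nat_lit 5) (nat_lit 487) (nat_lit 465) (nat_lit 188)) (XT.lf (nat_lit 0) (nat_lit 15888140120) (nat_lit 1824) (nat_lit 2265538171) (nat_lit 1900) (nat_lit 9666228437) (nat_lit 433) (nat_lit 5) (nat_lit 457) (nat_lit 5) (nat_lit 458) (nat_lit 5) (nat_lit 488) (nat_lit 465) (nat_lit 187)))) (XT.nd (nat_lit 78) (nat_lit 1368) (nat_lit 0) (XT.lf (nat_lit 76) (nat_lit 12414154362) (nat_lit 0) (nat_lit 5759781517) (nat_lit 1900) (nat_lit 9944604460) (nat_lit 434) (nat_lit 5) (nat_lit 433) (nat_lit 5) (nat_lit 458) (nat_lit 5) (nat_lit 489) (nat_lit 465) (nat_lit 186)) (XT.nd (nat_lit 78) (nat_lit 1444) (nat_lit 0) (XT.lf (nat_lit 0) (nat_lit 20563101945) (nat_lit 1824) (nat_lit 1051491410) (nat_lit 76) (nat_lit 6807400666) (nat_lit 434) (nat_lit 5) (nat_lit 458) (nat_lit 5) (nat_lit 435) (nat_lit 5) (nat_lit 490) (nat_lit 465) (nat_lit 185)) (XT.lf (nat_lit 0) (nat_lit 14038456811)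 (nat_lit 1444) (nat_lit 9088599754) (nat_lit 1520) (nat_lit 5601920583) (nat_lit 415) (nat_lit 5) (nat_lit 434) (nat_lit 5) (nat_lit 435) (nat_lit 5) (nat_lit 491) (nat_lit 465) (nat_lit 184))))) (XT.nd (nat_lit 234) (nat_lit 912) (nat_lit 0) (XT.nd (nat_lit 78) (nat_lit 988) (nat_lit 0) (XT.lf (nat_lit 0) (nat_lit 381499448) (nat_lit 912) (nat_lit 25392062916) (nat_lit 988) (nat_lit 3267912600) (nat_lit 403) (nat_lit 5) (nat_lit 415) (nat_lit 5) (nat_lit 416) (nat_lit 5) (nat_lit 492) (nat_lit 465) (nat_lit 183)) (XT.nd (nat_lit 78) (nat_lit 988) (nat_lit 0) (XT.lf (nat_lit 0) (nat_lit 15891106147) (nat_lit 912) (nat_lit 12738045827) (nat_lit 988) (nat_lit 727948147) (nat_lit 403) (nat_lit 5) (nat_lit 415) (nat_lit 5) (nat_lit 416) (nat_lit 5) (nat_lit 493) (nat_lit 465) (nat_lit 182)) (XT.lf (nat_lit 0) (nat_lit 1850734092) (nat_lit 988) (nat_lit 27635242208) (nat_lit 76) (nat_lit 192573034) (nat_lit 390) (nat_lit 5) (nat_lit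 403) (nat_lit 5) (nat_lit 391) (nat_lit 5) (nat_lit 494) (nat_lit 465) (nat_lit 181)))) (XT.nd (nat_lit 78) (nat_lit 912) (nat_lit 0) (XT.lf (nat_lit 0) (nat_lit 4644411330) (nat_lit 988) (nat_lit 12051088379) (nat_lit 76) (nat_lit 13307368649) (nat_lit 390) (nat_lit 5) (nat_lit 403) (nat_lit 5) (nat_lit 391) (nat_lit 5) (nat_lit 495) (nat_lit 465) (nat_lit 180)) (XT.nd (nat_lit 78) (nat_lit 0) (nat_lit 0) (XT.lf (nat_lit 0) (nat_lit 3893836240) (nat_lit 912) (nat_lit 3623288813) (nat_lit 988) (nat_lit 22816085872) (nat_lit 378) (nat_lit 5) (nat_lit 390) (nat_lit 5) (nat_lit 391) (nat_lit 5) (nat_lit 496) (nat_lit 465) (nat_lit 179)) (XT.lf (nat_lit 0) (nat_lit 10589655023) (nat_lit 988) (nat_lit 10413120250) (nat_lit 76) (nat_lit 9664538247) (nat_lit 378) (nat_lit 5) (nat_lit 391) (nat_lit 5) (nat_lit 379) (nat_lit 5) (nat_lit 497) (nat_lit 465) (nat_lit 178))))))))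
noncomputable def xc247 : XT := (XT.nd (nat_lit 58344) (nat_lit 0) (nat_lit 836) (XT.nd (nat_lit 57408) (nat_lit 0) (nat_lit 5548) (XT.nd (nat_lit 56940) (nat_lit 0) (nat_lit 6916) (XT.nd (nat_lit 156) (nat_lit 836) (nat_lit 0) (XT.nd (nat_lit 78) (nat_lit 0) (nat_lit 0) (XT.lf (nat_lit 0) (nat_lit 5986202917) (nat_lit 836) (nat_lit 7798246452) (nat_lit 912) (nat_lit 17222432929) (nat_lit 367) (nat_lit 5) (nat_lit 378) (nat_lit 5) (nat_lit 379) (nat_lit 5) (nat_lit 498) (nat_lit 465) (nat_lit 177)) (XT.lf (nat_lit 0) (nat_lit 17148275639) (nat_lit 912) (nat_lit 8536457795) (nat_lit 76) (nat_lit 5666406695) (nat_lit 367) (nat_lit 5) (nat_lit 379) (nat_lit 5) (nat_lit 368) (nat_lit 5) (nat_lit 499) (nat_lit 465) (nat_lit 176))) (XT.nd (nat_lit 78) (nat_lit 0) (nat_lit 0) (XT.lf (nat_lit 0) (nat_lit 8333134530) (nat_lit 836) (nat_lit 12350011698) (nat_lit 912) (nat_lit 11017061924) (nat_lit 356) (nat_lit 5) (nat_lit 367) (nat_lit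 5) (nat_lit 368) (nat_lit 5) (nat_lit 500) (nat_lit 465) (nat_lit 175)) (XT.nd (nat_lit 56628) (nat_lit 0) (nat_lit 6916) (XT.lf (nat_lit 0) (nat_lit 24352548444) (nat_lit 912) (nat_lit 6409770384) (nat_lit 76) (nat_lit 1292662408) (nat_lit 356) (nat_lit 5) (nat_lit 368) (nat_lit 5) (nat_lit 357) (nat_lit 5) (nat_lit 501) (nat_lit 465) (nat_lit 174)) (XT.lf (nat_lit 0) (nat_lit 3729596647) (nat_lit 0) (nat_lit 3729596647) (nat_lit 1748) (nat_lit 3752186037) (nat_lit 447) (nat_lit 5) (nat_lit 447) (nat_lit 3) (nat_lit 470) (nat_lit 3) (nat_lit 466) (nat_lit 466) (nat_lit 208))))) (XT.nd (nat_lit 234) (nat_lit 0) (nat_lit 76) (XT.nd (nat_lit 78) (nat_lit 0) (nat_lit 0) (XT.lf (nat_lit 0) (nat_lit 15219621805) (nat_lit 1748) (nat_lit 4087766416) (nat_lit 1824) (nat_lit 3336528350) (nat_lit 447) (nat_lit 5) (nat_lit 470) (nat_lit 3) (nat_lit 471) (nat_lit 5) (nat_lit 467) (nat_lit 466) (nat_lit 207)) (XT.nd (nat_lit 78) (nat_lit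 0) (nat_lit 76) (XT.lf (nat_lit 76) (nat_lit 7046783341) (nat_lit 0) (nat_lit 8571847903) (nat_lit 1824) (nat_lit 7249032157) (nat_lit 448) (nat_lit 5) (nat_lit 447) (nat_lit 5) (nat_lit 471) (nat_lit 5) (nat_lit 468) (nat_lit 466) (nat_lit 206)) (XT.lf (nat_lit 0) (nat_lit 16065339645) (nat_lit 1748) (nat_lit 4653378024) (nat_lit 1824) (nat_lit 2376373859) (nat_lit 448) (nat_lit 5) (nat_lit 471) (nat_lit 5) (nat_lit 472) (nat_lit 5) (nat_lit 469) (nat_lit 466) (nat_lit 205)))) (XT.nd (nat_lit 78) (nat_lit 0) (nat_lit 76) (XT.lf (nat_lit 76) (nat_lit 6767649623) (nat_lit 0) (nat_lit 9850769152) (nat_lit 1824) (nat_lit 6706701433) (nat_lit 449) (nat_lit 5) (nat_lit 448) (nat_lit 5) (nat_lit 472) (nat_lit 5) (nat_lit 470) (nat_lit 466) (nat_lit 204)) (XT.nd (nat_lit 78) (nat_lit 0) (nat_lit 0) (XT.lf (nat_lit 0) (nat_lit 17218799233) (nat_lit 1748) (nat_lit 5089050055) (nat_lit 1824) (nat_lit 1251176088) (nat_lit 449) (nat_lit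 5) (nat_lit 472) (nat_lit 5) (nat_lit 473) (nat_lit 5) (nat_lit 471) (nat_lit 466) (nat_lit 203)) (XT.lf (nat_lit 76) (nat_lit 6628595588) (nat_lit 0) (nat_lit 11307719642) (nat_lit 1824) (nat_lit 5859191552) (nat_lit 450) (nat_lit 5) (nat_lit 449) (nat_lit 5) (nat_lit 473) (nat_lit 5) (nat_lit 472) (nat_lit 466) (nat_lit 202)))))) (XT.nd (nat_lit 468) (nat_lit 1520) (nat_lit 0) (XT.nd (nat_lit 234) (nat_lit 0) (nat_lit 152) (XT.nd (nat_lit 78) (nat_lit 0) (nat_lit 76) (XT.lf (nat_lit 76) (nat_lit 18647748034) (nat_lit 0) (nat_lit 51487340) (nat_lit 1824) (nat_lit 5336862047) (nat_lit 450) (nat_lit 5) (nat_lit 449) (nat_lit 5) (nat_lit 473) (nat_lit 5) (nat_lit 473) (nat_lit 466) (nat_lit 201)) (XT.nd (nat_lit 78) (nat_lit 0) (nat_lit 0) (XT.lf (nat_lit 76) (nat_lit 6636752468) (nat_lit 0) (nat_lit 12954934347) (nat_lit 1824) (nat_lit 4687528267) (nat_lit 451) (nat_lit 5) (nat_lit 450) (nat_lit 5) (nat_lit 474) (nat_lit 5)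 (nat_lit 474) (nat_lit 466) (nat_lit 200)) (XT.lf (nat_lit 76) (nat_lit 18973200511) (nat_lit 0) (nat_lit 1562303913) (nat_lit 1824) (nat_lit 3991020984) (nat_lit 451) (nat_lit 5) (nat_lit 450) (nat_lit 5) (nat_lit 474) (nat_lit 5) (nat_lit 475) (nat_lit 466) (nat_lit 199)))) (XT.nd (nat_lit 78) (nat_lit 0) (nat_lit 0) (XT.lf (nat_lit 76) (nat_lit 6799588212) (nat_lit 0) (nat_lit 14805147353) (nat_lit 1824) (nat_lit 3171916272) (nat_lit 452) (nat_lit 5) (nat_lit 451) (nat_lit 5) (nat_lit 475) (nat_lit 5) (nat_lit 476) (nat_lit 466) (nat_lit 198)) (XT.nd (nat_lit 78) (nat_lit 0) (nat_lit 76) (XT.lf (nat_lit 76) (nat_lit 19462484043) (nat_lit 0) (nat_lit 3277541726) (nat_lit 1824) (nat_lit 2290862167) (nat_lit 452) (nat_lit 5) (nat_lit 451) (nat_lit 5) (nat_lit 475) (nat_lit 5) (nat_lit 477) (nat_lit 466) (nat_lit 197)) (XT.lf (nat_lit 76) (nat_lit 7124916754) (nat_lit 0) (nat_lit 16871619523) (nat_lit 1824) (nat_lit 1291702806)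 (nat_lit 453) (nat_lit 5) (nat_lit 452) (nat_lit 5) (nat_lit 476) (nat_lit 5) (nat_lit 478) (nat_lit 466) (nat_lit 196))))) (XT.nd (nat_lit 234) (nat_lit 0) (nat_lit 76) (XT.nd (nat_lit 78) (nat_lit 1748) (nat_lit 0) (XT.lf (nat_lit 76) (nat_lit 20123708373) (nat_lit 0) (nat_lit 5210634163) (nat_lit 1824) (nat_lit 215272010) (nat_lit 453) (nat_lit 5) (nat_lit 452) (nat_lit 5) (nat_lit 476) (nat_lit 5) (nat_lit 479) (nat_lit 466) (nat_lit 195)) (XT.nd (nat_lit 78) (nat_lit 0) (nat_lit 0) (XT.lf (nat_lit 0) (nat_lit 961877183) (nat_lit 1824) (nat_lit 18199835234) (nat_lit 1900) (nat_lit 6652575735) (nat_lit 429) (nat_lit 5) (nat_lit 453) (nat_lit 5) (nat_lit 454) (nat_lit 5) (nat_lit 480) (nat_lit 466) (nat_lit 194)) (XT.lf (nat_lit 0) (nat_lit 2228167067) (nat_lit 1824) (nat_lit 5132462273) (nat_lit 1900) (nat_lit 18722228397) (nat_lit 429) (nat_lit 5) (nat_lit 453) (nat_lit 5) (nat_lit 454) (nat_lit 5) (nat_lit 481) (nat_lit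 466) (nat_lit 193)))) (XT.nd (nat_lit 78) (nat_lit 0) (nat_lit 0) (XT.lf (nat_lit 0) (nat_lit 3601788402) (nat_lit 1824) (nat_lit 18083233192) (nat_lit 1900) (nat_lit 4670137564) (nat_lit 430) (nat_lit 5) (nat_lit 454) (nat_lit 5) (nat_lit 455) (nat_lit 5) (nat_lit 482) (nat_lit 466) (nat_lit 192)) (XT.nd (nat_lit 78) (nat_lit 0) (nat_lit 76) (XT.lf (nat_lit 0) (nat_lit 5083712391) (nat_lit 1824) (nat_lit 4669154333) (nat_lit 1900) (nat_lit 16878423828) (nat_lit 430) (nat_lit 5) (nat_lit 454) (nat_lit 5) (nat_lit 455) (nat_lit 5) (nat_lit 483) (nat_lit 466) (nat_lit 191)) (XT.lf (nat_lit 0) (nat_lit 6668120753) (nat_lit 1824) (nat_lit 17796842478) (nat_lit 1900) (nat_lit 2446524960) (nat_lit 431) (nat_lit 5) (nat_lit 455) (nat_lit 5) (nat_lit 456) (nat_lit 5) (nat_lit 484) (nat_lit 466) (nat_lit 190))))))) (XT.nd (nat_lit 936) (nat_lit 1748) (nat_lit 0) (XT.nd (nat_lit 468) (nat_lit 3116) (nat_lit 0) (XT.nd (nat_lit 234) (nat_lit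 0) (nat_lit 76) (XT.nd (nat_lit 78) (nat_lit 0) (nat_lit 0) (XT.lf (nat_lit 0) (nat_lit 8377852624) (nat_lit 1824) (nat_lit 4025986180) (nat_lit 1900) (nat_lit 14791578800) (nat_lit 431) (nat_lit 5) (nat_lit 455) (nat_lit 5) (nat_lit 456) (nat_lit 5) (nat_lit 485) (nat_lit 466) (nat_lit 189)) (XT.nd (nat_lit 78) (nat_lit 0) (nat_lit 76) (XT.lf (nat_lit 76) (nat_lit 10151523951) (nat_lit 0) (nat_lit 33721330) (nat_lit 1900) (nat_lit 17298511516) (nat_lit 432) (nat_lit 5) (nat_lit 431) (nat_lit 5) (nat_lit 456) (nat_lit 5) (nat_lit 486) (nat_lit 466) (nat_lit 188)) (XT.lf (nat_lit 0) (nat_lit 12135278309) (nat_lit 1824) (nat_lit 3193988027) (nat_lit 1900) (nat_lit 12446467093) (nat_lit 432) (nat_lit 5) (nat_lit 456) (nat_lit 5) (nat_lit 457) (nat_lit 5) (nat_lit 487) (nat_lit 466) (nat_lit 187)))) (XT.nd (nat_lit 78) (nat_lit 0) (nat_lit 76) (XT.lf (nat_lit 76) (nat_lit 11374067499) (nat_lit 0) (nat_lit 2821957717) (nat_lit 1900)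 (nat_lit 13876090609) (nat_lit 433) (nat_lit 5) (nat_lit 432) (nat_lit 5) (nat_lit 457) (nat_lit 5) (nat_lit 488) (nat_lit 466) (nat_lit 186)) (XT.nd (nat_lit 78) (nat_lit 0) (nat_lit 0) (XT.lf (nat_lit 0) (nat_lit 16381748862) (nat_lit 1824) (nat_lit 2163808561) (nat_lit 1900) (nat_lit 9827193697) (nat_lit 433) (nat_lit 5) (nat_lit 457) (nat_lit 5) (nat_lit 458) (nat_lit 5) (nat_lit 489) (nat_lit 466) (nat_lit 185)) (XT.lf (nat_lit 76) (nat_lit 12808510451) (nat_lit 0) (nat_lit 5902250528) (nat_lit 1900) (nat_lit 9966647138) (nat_lit 434) (nat_lit 5) (nat_lit 433) (nat_lit 5) (nat_lit 458) (nat_lit 5) (nat_lit 490) (nat_lit 466) (nat_lit 184))))) (XT.nd (nat_lit 234) (nat_lit 988) (nat_lit 0) (XT.nd (nat_lit 78) (nat_lit 2356) (nat_lit 0) (XT.lf (nat_lit 0) (nat_lit 21144137814) (nat_lit 1824) (nat_lit 925704466) (nat_lit 76) (nat_lit 6917160752) (nat_lit 434) (nat_lit 5) (nat_lit 458) (nat_lit 5) (nat_lit 435) (nat_lit 5)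 (nat_lit 491) (nat_lit 466) (nat_lit 183)) (XT.nd (nat_lit 78) (nat_lit 912) (nat_lit 0) (XT.lf (nat_lit 0) (nat_lit 14465076820) (nat_lit 1444) (nat_lit 9291912768) (nat_lit 1520) (nat_lit 5543184567) (nat_lit 415) (nat_lit 5) (nat_lit 434) (nat_lit 5) (nat_lit 435) (nat_lit 5) (nat_lit 492) (nat_lit 466) (nat_lit 182)) (XT.lf (nat_lit 0) (nat_lit 537519986) (nat_lit 912) (nat_lit 25916449656) (nat_lit 988) (nat_lit 3165002082) (nat_lit 403) (nat_lit 5) (nat_lit 415) (nat_lit 5) (nat_lit 416) (nat_lit 5) (nat_lit 493) (nat_lit 466) (nat_lit 181)))) (XT.nd (nat_lit 78) (nat_lit 988) (nat_lit 0) (XT.lf (nat_lit 0) (nat_lit 16354409200) (nat_lit 912) (nat_lit 13009027804) (nat_lit 988) (nat_lit 577537727) (nat_lit 403) (nat_lit 5) (nat_lit 415) (nat_lit 5) (nat_lit 416) (nat_lit 5) (nat_lit 494) (nat_lit 466) (nat_lit 180)) (XT.nd (nat_lit 78) (nat_lit 0) (nat_lit 0) (XT.lf (nat_lit 0) (nat_lit 2048224803) (nat_lit 988) (nat_lit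 28037908013) (nat_lit 76) (nat_lit 182745927) (nat_lit 390) (nat_lit 5) (nat_lit 403) (nat_lit 5) (nat_lit 391) (nat_lit 5) (nat_lit 495) (nat_lit 466) (nat_lit 179)) (XT.lf (nat_lit 0) (nat_lit 4894628997) (nat_lit 988) (nat_lit 12145013049) (nat_lit 76) (nat_lit 13560105661) (nat_lit 390) (nat_lit 5) (nat_lit 403) (nat_lit 5) (nat_lit 391) (nat_lit 5) (nat_lit 496) (nat_lit 466) (nat_lit 178)))))) (XT.nd (nat_lit 57174) (nat_lit 0) (nat_lit 6080) (XT.nd (nat_lit 234) (nat_lit 0) (nat_lit 0) (XT.nd (nat_lit 78) (nat_lit 836) (nat_lit 0) (XT.lf (nat_lit 0) (nat_lit 4117842318) (nat_lit 912) (nat_lit 3704818555) (nat_lit 988) (nat_lit 23114079593) (nat_lit 378) (nat_lit 5) (nat_lit 390) (nat_lit 5) (nat_lit 391) (nat_lit 5) (nat_lit 497) (nat_lit 466) (nat_lit 177)) (XT.nd (nat_lit 78) (nat_lit 836) (nat_lit 0) (XT.lf (nat_lit 0) (nat_lit 10953540740) (nat_lit 988) (nat_lit 10474987674) (nat_lit 76) (nat_lit 9849059316) (nat_lit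 378) (nat_lit 5) (nat_lit 391) (nat_lit 5) (nat_lit 379) (nat_lit 5) (nat_lit 498) (nat_lit 466) (nat_lit 176)) (XT.lf (nat_lit 0) (nat_lit 6251358831) (nat_lit 836) (nat_lit 7958834174) (nat_lit 912) (nat_lit 17413796231) (nat_lit 367) (nat_lit 5) (nat_lit 378) (nat_lit 5) (nat_lit 379) (nat_lit 5) (nat_lit 499) (nat_lit 466) (nat_lit 175)))) (XT.nd (nat_lit 56784) (nat_lit 0) (nat_lit 6080) (XT.lf (nat_lit 0) (nat_lit 17638324127) (nat_lit 912) (nat_lit 8561605992) (nat_lit 76) (nat_lit 5775262119) (nat_lit 367) (nat_lit 5) (nat_lit 379) (nat_lit 5) (nat_lit 368) (nat_lit 5) (nat_lit 500) (nat_lit 466) (nat_lit 174)) (XT.nd (nat_lit 78) (nat_lit 0) (nat_lit 0) (XT.lf (nat_lit 0) (nat_lit 3868816484) (nat_lit 0) (nat_lit 3868816484) (nat_lit 1748) (nat_lit 3695360370) (nat_lit 447) (nat_lit 5) (nat_lit 447) (nat_lit 3) (nat_lit 470) (nat_lit 3) (nat_lit 467) (nat_lit 467) (nat_lit 206)) (XT.lf (nat_lit 0) (nat_lit 15776634243)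 (nat_lit 1748) (nat_lit 4036852938) (nat_lit 1824) (nat_lit 3278199511) (nat_lit 447) (nat_lit 5) (nat_lit 470) (nat_lit 3) (nat_lit 471) (nat_lit 5) (nat_lit 468) (nat_lit 467) (nat_lit 205))))) (XT.nd (nat_lit 234) (nat_lit 0) (nat_lit 152) (XT.nd (nat_lit 78) (nat_lit 0) (nat_lit 76) (XT.lf (nat_lit 76) (nat_lit 7319514993) (nat_lit 0) (nat_lit 8860011251) (nat_lit 1824) (nat_lit 7140465260) (nat_lit 448) (nat_lit 5) (nat_lit 447) (nat_lit 5) (nat_lit 471) (nat_lit 5) (nat_lit 469) (nat_lit 467) (nat_lit 204)) (XT.nd (nat_lit 78) (nat_lit 0) (nat_lit 0) (XT.lf (nat_lit 0) (nat_lit 16629552820) (nat_lit 1748) (nat_lit 4611564198) (nat_lit 1824) (nat_lit 2310964569) (nat_lit 448) (nat_lit 5) (nat_lit 471) (nat_lit 5) (nat_lit 472) (nat_lit 5) (nat_lit 470) (nat_lit 467) (nat_lit 203)) (XT.lf (nat_lit 76) (nat_lit 7036996625) (nat_lit 0) (nat_lit 10152804016) (nat_lit 1824) (nat_lit 6596989109) (nat_lit 449) (nat_lit 5) (nat_lit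 448) (nat_lit 5) (nat_lit 472) (nat_lit 5) (nat_lit 471) (nat_lit 467) (nat_lit 202)))) (XT.nd (nat_lit 78) (nat_lit 0) (nat_lit 0) (XT.lf (nat_lit 0) (nat_lit 17796833682) (nat_lit 1748) (nat_lit 5054057793) (nat_lit 1824) (nat_lit 1174589678) (nat_lit 449) (nat_lit 5) (nat_lit 472) (nat_lit 5) (nat_lit 473) (nat_lit 5) (nat_lit 472) (nat_lit 467) (nat_lit 201)) (XT.nd (nat_lit 78) (nat_lit 0) (nat_lit 0) (XT.lf (nat_lit 76) (nat_lit 6897040938) (nat_lit 0) (nat_lit 11627959703) (nat_lit 1824) (nat_lit 5741766544) (nat_lit 450) (nat_lit 5) (nat_lit 449) (nat_lit 5) (nat_lit 473) (nat_lit 5) (nat_lit 473) (nat_lit 467) (nat_lit 200)) (XT.lf (nat_lit 76) (nat_lit 19153912248) (nat_lit 0) (nat_lit 144757938) (nat_lit 1824) (nat_lit 5213590622) (nat_lit 450) (nat_lit 5) (nat_lit 449) (nat_lit 5) (nat_lit 473) (nat_lit 5) (nat_lit 474) (nat_lit 467) (nat_lit 199))))))))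
noncomputable def xc248 : XT := (XT.nd (nat_lit 1794) (nat_lit 1748) (nat_lit 0) (XT.nd (nat_lit 858) (nat_lit 2964) (nat_lit 0) (XT.nd (nat_lit 390) (nat_lit 1596) (nat_lit 0) (XT.nd (nat_lit 156) (nat_lit 0) (nat_lit 76) (XT.nd (nat_lit 78) (nat_lit 0) (nat_lit 0) (XT.lf (nat_lit 76) (nat_lit 6906943913) (nat_lit 0) (nat_lit 13297911464) (nat_lit 1824) (nat_lit 4555468723) (nat_lit 451) (nat_lit 5) (nat_lit 450) (nat_lit 5) (nat_lit 474) (nat_lit 5) (nat_lit 475) (nat_lit 467) (nat_lit 198)) (XT.lf (nat_lit 76) (nat_lit 19487425693) (nat_lit 0) (nat_lit 1675783746) (nat_lit 1824) (nat_lit 3849458942) (nat_lit 451) (nat_lit 5) (nat_lit 450) (nat_lit 5) (nat_lit 474) (nat_lit 5) (nat_lit 476) (nat_lit 467) (nat_lit 197))) (XT.nd (nat_lit 78) (nat_lit 0) (nat_lit 0) (XT.lf (nat_lit 76) (nat_lit 7074343633) (nat_lit 0) (nat_lit 15175604267) (nat_lit 1824) (nat_lit 3017927921) (nat_lit 452) (nat_lit 5) (nat_lit 451) (nat_lit 5)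 (nat_lit 475) (nat_lit 5) (nat_lit 477) (nat_lit 467) (nat_lit 196)) (XT.nd (nat_lit 78) (nat_lit 0) (nat_lit 76) (XT.lf (nat_lit 76) (nat_lit 19987776525) (nat_lit 0) (nat_lit 3415988606) (nat_lit 1824) (nat_lit 2123516002) (nat_lit 452) (nat_lit 5) (nat_lit 451) (nat_lit 5) (nat_lit 475) (nat_lit 5) (nat_lit 478) (nat_lit 467) (nat_lit 195)) (XT.lf (nat_lit 76) (nat_lit 7407229816) (nat_lit 0) (nat_lit 17274522953) (nat_lit 1824) (nat_lit 1108100493) (nat_lit 453) (nat_lit 5) (nat_lit 452) (nat_lit 5) (nat_lit 476) (nat_lit 5) (nat_lit 479) (nat_lit 467) (nat_lit 194))))) (XT.nd (nat_lit 234) (nat_lit 0) (nat_lit 76) (XT.nd (nat_lit 78) (nat_lit 1748) (nat_lit 0) (XT.lf (nat_lit 76) (nat_lit 20663255802) (nat_lit 0) (nat_lit 5379034141) (nat_lit 1824) (nat_lit 14247676) (nat_lit 453) (nat_lit 5) (nat_lit 452) (nat_lit 5) (nat_lit 476) (nat_lit 5) (nat_lit 480) (nat_lit 467) (nat_lit 193)) (XT.nd (nat_lit 78) (nat_lit 0) (nat_lit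 0) (XT.lf (nat_lit 0) (nat_lit 1180286108) (nat_lit 1824) (nat_lit 18420514842) (nat_lit 1900) (nat_lit 6725747239) (nat_lit 429) (nat_lit 5) (nat_lit 453) (nat_lit 5) (nat_lit 454) (nat_lit 5) (nat_lit 481) (nat_lit 467) (nat_lit 192)) (XT.lf (nat_lit 0) (nat_lit 2467996469) (nat_lit 1824) (nat_lit 5094604561) (nat_lit 1900) (nat_lit 19037967072) (nat_lit 429) (nat_lit 5) (nat_lit 453) (nat_lit 5) (nat_lit 454) (nat_lit 5) (nat_lit 482) (nat_lit 467) (nat_lit 191)))) (XT.nd (nat_lit 78) (nat_lit 0) (nat_lit 0) (XT.lf (nat_lit 0) (nat_lit 3865825188) (nat_lit 1824) (nat_lit 18301085200) (nat_lit 1900) (nat_lit 4711471279) (nat_lit 430) (nat_lit 5) (nat_lit 454) (nat_lit 5) (nat_lit 455) (nat_lit 5) (nat_lit 483) (nat_lit 467) (nat_lit 190)) (XT.nd (nat_lit 78) (nat_lit 0) (nat_lit 76) (XT.lf (nat_lit 0) (nat_lit 5373622930) (nat_lit 1824) (nat_lit 4621544619) (nat_lit 1900) (nat_lit 17164944229) (nat_lit 430) (nat_lit 5) (nat_lit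 454) (nat_lit 5) (nat_lit 455) (nat_lit 5) (nat_lit 484) (nat_lit 467) (nat_lit 189)) (XT.lf (nat_lit 0) (nat_lit 6986643249) (nat_lit 1824) (nat_lit 18008671240) (nat_lit 1900) (nat_lit 2450661188) (nat_lit 431) (nat_lit 5) (nat_lit 455) (nat_lit 5) (nat_lit 456) (nat_lit 5) (nat_lit 485) (nat_lit 467) (nat_lit 188)))))) (XT.nd (nat_lit 468) (nat_lit 3116) (nat_lit 0) (XT.nd (nat_lit 234) (nat_lit 0) (nat_lit 76) (XT.nd (nat_lit 78) (nat_lit 0) (nat_lit 0) (XT.lf (nat_lit 0) (nat_lit 8726939168) (nat_lit 1824) (nat_lit 3965223465) (nat_lit 1900) (nat_lit 15043494423) (nat_lit 431) (nat_lit 5) (nat_lit 455) (nat_lit 5) (nat_lit 456) (nat_lit 5) (nat_lit 486) (nat_lit 467) (nat_lit 187)) (XT.nd (nat_lit 78) (nat_lit 0) (nat_lit 76) (XT.lf (nat_lit 76) (nat_lit 10494907379) (nat_lit 0) (nat_lit 72924161) (nat_lit 1900) (nat_lit 17461985206) (nat_lit 432) (nat_lit 5) (nat_lit 431) (nat_lit 5) (nat_lit 456) (nat_lit 5) (nat_lit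 487) (nat_lit 467) (nat_lit 186)) (XT.lf (nat_lit 0) (nat_lit 12553112504) (nat_lit 1824) (nat_lit 3116477309) (nat_lit 1900) (nat_lit 12658118889) (nat_lit 432) (nat_lit 5) (nat_lit 456) (nat_lit 5) (nat_lit 457) (nat_lit 5) (nat_lit 488) (nat_lit 467) (nat_lit 185)))) (XT.nd (nat_lit 78) (nat_lit 0) (nat_lit 76) (XT.lf (nat_lit 76) (nat_lit 11742009127) (nat_lit 0) (nat_lit 2910543290) (nat_lit 1900) (nat_lit 13977517490) (nat_lit 433) (nat_lit 5) (nat_lit 432) (nat_lit 5) (nat_lit 457) (nat_lit 5) (nat_lit 489) (nat_lit 467) (nat_lit 184)) (XT.nd (nat_lit 78) (nat_lit 0) (nat_lit 0) (XT.lf (nat_lit 0) (nat_lit 16878401466) (nat_lit 1824) (nat_lit 2065754116) (nat_lit 1900) (nat_lit 9992634814) (nat_lit 433) (nat_lit 5) (nat_lit 457) (nat_lit 5) (nat_lit 458) (nat_lit 5) (nat_lit 490) (nat_lit 467) (nat_lit 183)) (XT.lf (nat_lit 76) (nat_lit 13205081470) (nat_lit 0) (nat_lit 6046509860) (nat_lit 1900) (nat_lit 9995997947)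 (nat_lit 434) (nat_lit 5) (nat_lit 433) (nat_lit 5) (nat_lit 458) (nat_lit 5) (nat_lit 491) (nat_lit 467) (nat_lit 182))))) (XT.nd (nat_lit 234) (nat_lit 988) (nat_lit 0) (XT.nd (nat_lit 78) (nat_lit 2356) (nat_lit 0) (XT.lf (nat_lit 0) (nat_lit 21730201874) (nat_lit 1824) (nat_lit 803102857) (nat_lit 76) (nat_lit 7030140716) (nat_lit 434) (nat_lit 5) (nat_lit 458) (nat_lit 5) (nat_lit 435) (nat_lit 5) (nat_lit 492) (nat_lit 467) (nat_lit 181)) (XT.nd (nat_lit 78) (nat_lit 912) (nat_lit 0) (XT.lf (nat_lit 0) (nat_lit 14894565662) (nat_lit 1444) (nat_lit 9498455578) (nat_lit 1520) (nat_lit 5489905209) (nat_lit 415) (nat_lit 5) (nat_lit 434) (nat_lit 5) (nat_lit 435) (nat_lit 5) (nat_lit 493) (nat_lit 467) (nat_lit 180)) (XT.lf (nat_lit 0) (nat_lit 690898750) (nat_lit 912) (nat_lit 26450681650) (nat_lit 988) (nat_lit 3066567434) (nat_lit 403) (nat_lit 5) (nat_lit 415) (nat_lit 5) (nat_lit 416) (nat_lit 5) (nat_lit 494) (nat_lit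 467) (nat_lit 179)))) (XT.nd (nat_lit 78) (nat_lit 988) (nat_lit 0) (XT.lf (nat_lit 0) (nat_lit 16821329113) (nat_lit 912) (nat_lit 13284799537) (nat_lit 988) (nat_lit 430525061) (nat_lit 403) (nat_lit 5) (nat_lit 415) (nat_lit 5) (nat_lit 416) (nat_lit 5) (nat_lit 495) (nat_lit 467) (nat_lit 178)) (XT.nd (nat_lit 78) (nat_lit 0) (nat_lit 0) (XT.lf (nat_lit 0) (nat_lit 2243433849) (nat_lit 988) (nat_lit 28454453334) (nat_lit 76) (nat_lit 173253433) (nat_lit 390) (nat_lit 5) (nat_lit 403) (nat_lit 5) (nat_lit 391) (nat_lit 5) (nat_lit 496) (nat_lit 467) (nat_lit 177)) (XT.lf (nat_lit 0) (nat_lit 5143741724) (nat_lit 988) (nat_lit 12246528173) (nat_lit 76) (nat_lit 13818418154) (nat_lit 390) (nat_lit 5) (nat_lit 403) (nat_lit 5) (nat_lit 391) (nat_lit 5) (nat_lit 497) (nat_lit 467) (nat_lit 176))))))) (XT.nd (nat_lit 57642) (nat_lit 0) (nat_lit 4636) (XT.nd (nat_lit 57174) (nat_lit 0) (nat_lit 6080) (XT.nd (nat_lit 156) (nat_lit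 836) (nat_lit 0) (XT.nd (nat_lit 78) (nat_lit 0) (nat_lit 0) (XT.lf (nat_lit 0) (nat_lit 4340654136) (nat_lit 912) (nat_lit 3787626927) (nat_lit 988) (nat_lit 23424181257) (nat_lit 378) (nat_lit 5) (nat_lit 390) (nat_lit 5) (nat_lit 391) (nat_lit 5) (nat_lit 498) (nat_lit 467) (nat_lit 175)) (XT.lf (nat_lit 0) (nat_lit 11318798230) (nat_lit 988) (nat_lit 10543777143) (nat_lit 76) (nat_lit 10037611344) (nat_lit 378) (nat_lit 5) (nat_lit 391) (nat_lit 5) (nat_lit 379) (nat_lit 5) (nat_lit 499) (nat_lit 467) (nat_lit 174))) (XT.nd (nat_lit 56862) (nat_lit 0) (nat_lit 6080) (XT.lf (nat_lit 0) (nat_lit 6516170567) (nat_lit 836) (nat_lit 8122454142) (nat_lit 912) (nat_lit 17614931289) (nat_lit 367) (nat_lit 5) (nat_lit 378) (nat_lit 5) (nat_lit 379) (nat_lit 5) (nat_lit 500) (nat_lit 467) (nat_lit 173)) (XT.nd (nat_lit 78) (nat_lit 0) (nat_lit 0) (XT.lf (nat_lit 0) (nat_lit 4008311137) (nat_lit 0) (nat_lit 4008311137) (nat_lit 1748)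 (nat_lit 3642518838) (nat_lit 447) (nat_lit 5) (nat_lit 447) (nat_lit 3) (nat_lit 470) (nat_lit 3) (nat_lit 468) (nat_lit 468) (nat_lit 204)) (XT.lf (nat_lit 0) (nat_lit 16334977386) (nat_lit 1748) (nat_lit 3990072882) (nat_lit 1824) (nat_lit 3223560303) (nat_lit 447) (nat_lit 5) (nat_lit 470) (nat_lit 3) (nat_lit 471) (nat_lit 5) (nat_lit 469) (nat_lit 468) (nat_lit 203))))) (XT.nd (nat_lit 234) (nat_lit 0) (nat_lit 152) (XT.nd (nat_lit 78) (nat_lit 0) (nat_lit 76) (XT.lf (nat_lit 76) (nat_lit 7592583479) (nat_lit 0) (nat_lit 9149405238) (nat_lit 1824) (nat_lit 7039572586) (nat_lit 448) (nat_lit 5) (nat_lit 447) (nat_lit 5) (nat_lit 471) (nat_lit 5) (nat_lit 470) (nat_lit 468) (nat_lit 202)) (XT.nd (nat_lit 78) (nat_lit 0) (nat_lit 0) (XT.lf (nat_lit 0) (nat_lit 17195617907) (nat_lit 1748) (nat_lit 4574151703) (nat_lit 1824) (nat_lit 2248632566) (nat_lit 448) (nat_lit 5) (nat_lit 471) (nat_lit 5) (nat_lit 472) (nat_lit 5)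 (nat_lit 471) (nat_lit 468) (nat_lit 201)) (XT.lf (nat_lit 76) (nat_lit 7306527417) (nat_lit 0) (nat_lit 10456801542) (nat_lit 1824) (nat_lit 6494551391) (nat_lit 449) (nat_lit 5) (nat_lit 448) (nat_lit 5) (nat_lit 472) (nat_lit 5) (nat_lit 472) (nat_lit 468) (nat_lit 200)))) (XT.nd (nat_lit 78) (nat_lit 0) (nat_lit 0) (XT.lf (nat_lit 0) (nat_lit 18377355577) (nat_lit 1748) (nat_lit 5023676759) (nat_lit 1824) (nat_lit 1100417176) (nat_lit 449) (nat_lit 5) (nat_lit 472) (nat_lit 5) (nat_lit 473) (nat_lit 5) (nat_lit 473) (nat_lit 468) (nat_lit 199)) (XT.nd (nat_lit 78) (nat_lit 0) (nat_lit 0) (XT.lf (nat_lit 76) (nat_lit 7165579064) (nat_lit 0) (nat_lit 11950951104) (nat_lit 1824) (nat_lit 5631103184) (nat_lit 450) (nat_lit 5) (nat_lit 449) (nat_lit 5) (nat_lit 473) (nat_lit 5) (nat_lit 474) (nat_lit 468) (nat_lit 198)) (XT.lf (nat_lit 76) (nat_lit 19665027069) (nat_lit 0) (nat_lit 236312123) (nat_lit 1824) (nat_lit 5096785286)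 (nat_lit 450) (nat_lit 5) (nat_lit 449) (nat_lit 5) (nat_lit 473) (nat_lit 5) (nat_lit 475) (nat_lit 468) (nat_lit 197)))))) (XT.nd (nat_lit 468) (nat_lit 0) (nat_lit 76) (XT.nd (nat_lit 234) (nat_lit 1672) (nat_lit 0) (XT.nd (nat_lit 78) (nat_lit 0) (nat_lit 0) (XT.lf (nat_lit 76) (nat_lit 7177201588) (nat_lit 0) (nat_lit 13644491021) (nat_lit 1824) (nat_lit 4429536469) (nat_lit 451) (nat_lit 5) (nat_lit 450) (nat_lit 5) (nat_lit 474) (nat_lit 5) (nat_lit 476) (nat_lit 468) (nat_lit 196)) (XT.nd (nat_lit 78) (nat_lit 0) (nat_lit 76) (XT.lf (nat_lit 76) (nat_lit 20006702439) (nat_lit 0) (nat_lit 1788339940) (nat_lit 1824) (nat_lit 3713662211) (nat_lit 451) (nat_lit 5) (nat_lit 450) (nat_lit 5) (nat_lit 474) (nat_lit 5) (nat_lit 477) (nat_lit 468) (nat_lit 195)) (XT.lf (nat_lit 76) (nat_lit 7349205801) (nat_lit 0) (nat_lit 15550583064) (nat_lit 1824) (nat_lit 2869302745) (nat_lit 452) (nat_lit 5) (nat_lit 451) (nat_lit 5) (nat_lit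 475) (nat_lit 5) (nat_lit 478) (nat_lit 468) (nat_lit 194)))) (XT.nd (nat_lit 78) (nat_lit 1748) (nat_lit 0) (XT.lf (nat_lit 76) (nat_lit 20518292149) (nat_lit 0) (nat_lit 3554373781) (nat_lit 1824) (nat_lit 1961100308) (nat_lit 452) (nat_lit 5) (nat_lit 451) (nat_lit 5) (nat_lit 475) (nat_lit 5) (nat_lit 479) (nat_lit 468) (nat_lit 193)) (XT.nd (nat_lit 78) (nat_lit 1824) (nat_lit 0) (XT.lf (nat_lit 76) (nat_lit 7689759963) (nat_lit 0) (nat_lit 17682942132) (nat_lit 1824) (nat_lit 928958802) (nat_lit 453) (nat_lit 5) (nat_lit 452) (nat_lit 5) (nat_lit 476) (nat_lit 5) (nat_lit 480) (nat_lit 468) (nat_lit 192)) (XT.lf (nat_lit 0) (nat_lit 180426170) (nat_lit 1824) (nat_lit 5366672723) (nat_lit 1900) (nat_lit 21026634533) (nat_lit 428) (nat_lit 5) (nat_lit 452) (nat_lit 5) (nat_lit 453) (nat_lit 5) (nat_lit 481) (nat_lit 468) (nat_lit 191))))) (XT.nd (nat_lit 234) (nat_lit 0) (nat_lit 76) (XT.nd (nat_lit 78) (nat_lit 0) (nat_lit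 0) (XT.lf (nat_lit 0) (nat_lit 1395329145) (nat_lit 1824) (nat_lit 18651173220) (nat_lit 1900) (nat_lit 6802707387) (nat_lit 429) (nat_lit 5) (nat_lit 453) (nat_lit 5) (nat_lit 454) (nat_lit 5) (nat_lit 482) (nat_lit 468) (nat_lit 190)) (XT.nd (nat_lit 78) (nat_lit 0) (nat_lit 76) (XT.lf (nat_lit 0) (nat_lit 2705040039) (nat_lit 1824) (nat_lit 5061445751) (nat_lit 1900) (nat_lit 19362300142) (nat_lit 429) (nat_lit 5) (nat_lit 453) (nat_lit 5) (nat_lit 454) (nat_lit 5) (nat_lit 483) (nat_lit 468) (nat_lit 189)) (XT.lf (nat_lit 0) (nat_lit 4127687075) (nat_lit 1824) (nat_lit 18528878668) (nat_lit 1900) (nat_lit 4755653571) (nat_lit 430) (nat_lit 5) (nat_lit 454) (nat_lit 5) (nat_lit 455) (nat_lit 5) (nat_lit 484) (nat_lit 468) (nat_lit 188)))) (XT.nd (nat_lit 78) (nat_lit 0) (nat_lit 76) (XT.lf (nat_lit 0) (nat_lit 5662022236) (nat_lit 1824) (nat_lit 4578457633) (nat_lit 1900) (nat_lit 17459177298) (nat_lit 430) (nat_lit 5) (nat_lit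 454) (nat_lit 5) (nat_lit 455) (nat_lit 5) (nat_lit 485) (nat_lit 468) (nat_lit 187)) (XT.nd (nat_lit 78) (nat_lit 0) (nat_lit 0) (XT.lf (nat_lit 0) (nat_lit 7304346204) (nat_lit 1824) (nat_lit 18230332470) (nat_lit 1900) (nat_lit 2456619556) (nat_lit 431) (nat_lit 5) (nat_lit 455) (nat_lit 5) (nat_lit 456) (nat_lit 5) (nat_lit 486) (nat_lit 468) (nat_lit 186)) (XT.lf (nat_lit 0) (nat_lit 9075958431) (nat_lit 1824) (nat_lit 3908731664) (nat_lit 1900) (nat_lit 15302153669) (nat_lit 431) (nat_lit 5) (nat_lit 455) (nat_lit 5) (nat_lit 456) (nat_lit 5) (nat_lit 487) (nat_lit 468) (nat_lit 185))))))))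
noncomputable def xc249 : XT := (XT.nd (nat_lit 58656) (nat_lit 0) (nat_lit 912) (XT.nd (nat_lit 858) (nat_lit 912) (nat_lit 0) (XT.nd (nat_lit 390) (nat_lit 3116) (nat_lit 0) (XT.nd (nat_lit 156) (nat_lit 0) (nat_lit 76) (XT.nd (nat_lit 78) (nat_lit 0) (nat_lit 76) (XT.lf (nat_lit 76) (nat_lit 10839708400) (nat_lit 0) (nat_lit 111414944) (nat_lit 1900) (nat_lit 17635814933) (nat_lit 432) (nat_lit 5) (nat_lit 431) (nat_lit 5) (nat_lit 456) (nat_lit 5) (nat_lit 488) (nat_lit 468) (nat_lit 184)) (XT.lf (nat_lit 0) (nat_lit 12972502926) (nat_lit 1824) (nat_lit 3042906742) (nat_lit 1900) (nat_lit 12875451252) (nat_lit 432) (nat_lit 5) (nat_lit 456) (nat_lit 5) (nat_lit 457) (nat_lit 5) (nat_lit 489) (nat_lit 468) (nat_lit 183))) (XT.nd (nat_lit 78) (nat_lit 0) (nat_lit 76) (XT.lf (nat_lit 76) (nat_lit 12111855344) (nat_lit 0) (nat_lit 2999652289) (nat_lit 1900) (nat_lit 14087810890) (nat_lit 433) (nat_lit 5) (nat_lit 432) (nat_lit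 5) (nat_lit 457) (nat_lit 5) (nat_lit 490) (nat_lit 468) (nat_lit 182)) (XT.nd (nat_lit 78) (nat_lit 0) (nat_lit 0) (XT.lf (nat_lit 0) (nat_lit 17378423963) (nat_lit 1824) (nat_lit 1971226623) (nat_lit 1900) (nat_lit 10162592511) (nat_lit 433) (nat_lit 5) (nat_lit 457) (nat_lit 5) (nat_lit 458) (nat_lit 5) (nat_lit 491) (nat_lit 468) (nat_lit 181)) (XT.lf (nat_lit 76) (nat_lit 13604131974) (nat_lit 0) (nat_lit 6192636446) (nat_lit 1900) (nat_lit 10032536386) (nat_lit 434) (nat_lit 5) (nat_lit 433) (nat_lit 5) (nat_lit 458) (nat_lit 5) (nat_lit 492) (nat_lit 468) (nat_lit 180))))) (XT.nd (nat_lit 234) (nat_lit 988) (nat_lit 0) (XT.nd (nat_lit 78) (nat_lit 2356) (nat_lit 0) (XT.lf (nat_lit 0) (nat_lit 22321650688) (nat_lit 1824) (nat_lit 683528910) (nat_lit 76) (nat_lit 7146365165) (nat_lit 434) (nat_lit 5) (nat_lit 458) (nat_lit 5) (nat_lit 435) (nat_lit 5) (nat_lit 493) (nat_lit 468) (nat_lit 179)) (XT.nd (nat_lit 78) (nat_lit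 912) (nat_lit 0) (XT.lf (nat_lit 0) (nat_lit 15327200637) (nat_lit 1444) (nat_lit 9708325261) (nat_lit 1520) (nat_lit 5441934139) (nat_lit 415) (nat_lit 5) (nat_lit 434) (nat_lit 5) (nat_lit 435) (nat_lit 5) (nat_lit 494) (nat_lit 468) (nat_lit 178)) (XT.lf (nat_lit 0) (nat_lit 841806655) (nat_lit 912) (nat_lit 26994980750) (nat_lit 988) (nat_lit 2972444449) (nat_lit 403) (nat_lit 5) (nat_lit 415) (nat_lit 5) (nat_lit 416) (nat_lit 5) (nat_lit 495) (nat_lit 468) (nat_lit 177)))) (XT.nd (nat_lit 78) (nat_lit 988) (nat_lit 0) (XT.lf (nat_lit 0) (nat_lit 17292157588) (nat_lit 912) (nat_lit 13565481280) (nat_lit 988) (nat_lit 286729352) (nat_lit 403) (nat_lit 5) (nat_lit 415) (nat_lit 5) (nat_lit 416) (nat_lit 5) (nat_lit 496) (nat_lit 468) (nat_lit 176)) (XT.nd (nat_lit 78) (nat_lit 0) (nat_lit 0) (XT.lf (nat_lit 0) (nat_lit 2436557571) (nat_lit 988) (nat_lit 28884929521) (nat_lit 76) (nat_lit 164081619) (nat_lit 390) (nat_lit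 5) (nat_lit 403) (nat_lit 5) (nat_lit 391) (nat_lit 5) (nat_lit 497) (nat_lit 468) (nat_lit 175)) (XT.lf (nat_lit 0) (nat_lit 5391964642) (nat_lit 988) (nat_lit 12355563757) (nat_lit 76) (nat_lit 14082397416) (nat_lit 390) (nat_lit 5) (nat_lit 403) (nat_lit 5) (nat_lit 391) (nat_lit 5) (nat_lit 498) (nat_lit 468) (nat_lit 174)))))) (XT.nd (nat_lit 57330) (nat_lit 0) (nat_lit 5320) (XT.nd (nat_lit 57096) (nat_lit 0) (nat_lit 5244) (XT.nd (nat_lit 78) (nat_lit 0) (nat_lit 0) (XT.lf (nat_lit 0) (nat_lit 4562468153) (nat_lit 912) (nat_lit 3871753169) (nat_lit 988) (nat_lit 23746394287) (nat_lit 378) (nat_lit 5) (nat_lit 390) (nat_lit 5) (nat_lit 391) (nat_lit 5) (nat_lit 499) (nat_lit 468) (nat_lit 173)) (XT.nd (nat_lit 56940) (nat_lit 0) (nat_lit 5244) (XT.lf (nat_lit 0) (nat_lit 11685684263) (nat_lit 988) (nat_lit 10619406352) (nat_lit 76) (nat_lit 10230261727) (nat_lit 378) (nat_lit 5) (nat_lit 391) (nat_lit 5) (nat_lit 379)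 (nat_lit 5) (nat_lit 500) (nat_lit 468) (nat_lit 172)) (XT.lf (nat_lit 0) (nat_lit 4148183553) (nat_lit 0) (nat_lit 4148183553) (nat_lit 1748) (nat_lit 3593542284) (nat_lit 447) (nat_lit 5) (nat_lit 447) (nat_lit 3) (nat_lit 470) (nat_lit 3) (nat_lit 469) (nat_lit 469) (nat_lit 202)))) (XT.nd (nat_lit 78) (nat_lit 0) (nat_lit 0) (XT.lf (nat_lit 0) (nat_lit 16895058767) (nat_lit 1748) (nat_lit 3947308870) (nat_lit 1824) (nat_lit 3172495949) (nat_lit 447) (nat_lit 5) (nat_lit 470) (nat_lit 3) (nat_lit 471) (nat_lit 5) (nat_lit 470) (nat_lit 469) (nat_lit 201)) (XT.nd (nat_lit 78) (nat_lit 0) (nat_lit 76) (XT.lf (nat_lit 76) (nat_lit 7866194267) (nat_lit 0) (nat_lit 9440230484) (nat_lit 1824) (nat_lit 6946125303) (nat_lit 448) (nat_lit 5) (nat_lit 447) (nat_lit 5) (nat_lit 471) (nat_lit 5) (nat_lit 471) (nat_lit 469) (nat_lit 200)) (XT.lf (nat_lit 0) (nat_lit 17763938215) (nat_lit 1748) (nat_lit 4541025185) (nat_lit 1824) (nat_lit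 2189269102) (nat_lit 448) (nat_lit 5) (nat_lit 471) (nat_lit 5) (nat_lit 472) (nat_lit 5) (nat_lit 472) (nat_lit 469) (nat_lit 199))))) (XT.nd (nat_lit 234) (nat_lit 0) (nat_lit 76) (XT.nd (nat_lit 78) (nat_lit 0) (nat_lit 76) (XT.lf (nat_lit 76) (nat_lit 7576447718) (nat_lit 0) (nat_lit 10762959339) (nat_lit 1824) (nat_lit 6399166081) (nat_lit 449) (nat_lit 5) (nat_lit 448) (nat_lit 5) (nat_lit 472) (nat_lit 5) (nat_lit 473) (nat_lit 469) (nat_lit 198)) (XT.nd (nat_lit 78) (nat_lit 0) (nat_lit 0) (XT.lf (nat_lit 0) (nat_lit 18960766992) (nat_lit 1748) (nat_lit 4997792941) (nat_lit 1824) (nat_lit 1028553649) (nat_lit 449) (nat_lit 5) (nat_lit 472) (nat_lit 5) (nat_lit 473) (nat_lit 5) (nat_lit 474) (nat_lit 469) (nat_lit 197)) (XT.lf (nat_lit 76) (nat_lit 7434416700) (nat_lit 0) (nat_lit 12276890739) (nat_lit 1824) (nat_lit 5526982945) (nat_lit 450) (nat_lit 5) (nat_lit 449) (nat_lit 5) (nat_lit 473) (nat_lit 5) (nat_lit 475)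 (nat_lit 469) (nat_lit 196)))) (XT.nd (nat_lit 78) (nat_lit 0) (nat_lit 76) (XT.lf (nat_lit 76) (nat_lit 20181392370) (nat_lit 0) (nat_lit 326254653) (nat_lit 1824) (nat_lit 4986228538) (nat_lit 450) (nat_lit 5) (nat_lit 449) (nat_lit 5) (nat_lit 473) (nat_lit 5) (nat_lit 476) (nat_lit 469) (nat_lit 195)) (XT.nd (nat_lit 78) (nat_lit 0) (nat_lit 0) (XT.lf (nat_lit 76) (nat_lit 7447734083) (nat_lit 0) (nat_lit 13994871546) (nat_lit 1824) (nat_lit 4309513561) (nat_lit 451) (nat_lit 5) (nat_lit 450) (nat_lit 5) (nat_lit 474) (nat_lit 5) (nat_lit 477) (nat_lit 469) (nat_lit 194)) (XT.lf (nat_lit 76) (nat_lit 20531334981) (nat_lit 0) (nat_lit 1900078017) (nat_lit 1824) (nat_lit 3583412282) (nat_lit 451) (nat_lit 5) (nat_lit 450) (nat_lit 5) (nat_lit 474) (nat_lit 5) (nat_lit 478) (nat_lit 469) (nat_lit 193))))))) (XT.nd (nat_lit 936) (nat_lit 2888) (nat_lit 0) (XT.nd (nat_lit 468) (nat_lit 0) (nat_lit 152) (XT.nd (nat_lit 234) (nat_lit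 1748) (nat_lit 0) (XT.nd (nat_lit 78) (nat_lit 0) (nat_lit 0) (XT.lf (nat_lit 76) (nat_lit 7624386087) (nat_lit 0) (nat_lit 15930286297) (nat_lit 1824) (nat_lit 2725820159) (nat_lit 452) (nat_lit 5) (nat_lit 451) (nat_lit 5) (nat_lit 475) (nat_lit 5) (nat_lit 479) (nat_lit 469) (nat_lit 192)) (XT.nd (nat_lit 78) (nat_lit 0) (nat_lit 76) (XT.lf (nat_lit 76) (nat_lit 21054340512) (nat_lit 0) (nat_lit 3692805935) (nat_lit 1824) (nat_lit 1803392275) (nat_lit 452) (nat_lit 5) (nat_lit 451) (nat_lit 5) (nat_lit 475) (nat_lit 5) (nat_lit 480) (nat_lit 469) (nat_lit 191)) (XT.lf (nat_lit 76) (nat_lit 7972722359) (nat_lit 0) (nat_lit 18097086096) (nat_lit 1824) (nat_lit 754051146) (nat_lit 453) (nat_lit 5) (nat_lit 452) (nat_lit 5) (nat_lit 476) (nat_lit 5) (nat_lit 481) (nat_lit 469) (nat_lit 190)))) (XT.nd (nat_lit 78) (nat_lit 0) (nat_lit 76) (XT.lf (nat_lit 0) (nat_lit 371239808) (nat_lit 1824) (nat_lit 5344843955) (nat_lit 1900)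 (nat_lit 21385340370) (nat_lit 428) (nat_lit 5) (nat_lit 452) (nat_lit 5) (nat_lit 453) (nat_lit 5) (nat_lit 482) (nat_lit 469) (nat_lit 189)) (XT.nd (nat_lit 78) (nat_lit 0) (nat_lit 0) (XT.lf (nat_lit 0) (nat_lit 1607239298) (nat_lit 1824) (nat_lit 18891793840) (nat_lit 1900) (nat_lit 6883441660) (nat_lit 429) (nat_lit 5) (nat_lit 453) (nat_lit 5) (nat_lit 454) (nat_lit 5) (nat_lit 483) (nat_lit 469) (nat_lit 188)) (XT.lf (nat_lit 0) (nat_lit 2939536497) (nat_lit 1824) (nat_lit 5032867956) (nat_lit 1900) (nat_lit 19695310975) (nat_lit 429) (nat_lit 5) (nat_lit 453) (nat_lit 5) (nat_lit 454) (nat_lit 5) (nat_lit 484) (nat_lit 469) (nat_lit 187))))) (XT.nd (nat_lit 234) (nat_lit 0) (nat_lit 76) (XT.nd (nat_lit 78) (nat_lit 0) (nat_lit 0) (XT.lf (nat_lit 0) (nat_lit 4387620078) (nat_lit 1824) (nat_lit 18766595577) (nat_lit 1900) (nat_lit 4802662901) (nat_lit 430) (nat_lit 5) (nat_lit 454) (nat_lit 5) (nat_lit 455) (nat_lit 5)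 (nat_lit 485) (nat_lit 469) (nat_lit 186)) (XT.nd (nat_lit 78) (nat_lit 0) (nat_lit 76) (XT.lf (nat_lit 0) (nat_lit 5949163918) (nat_lit 1824) (nat_lit 4539771232) (nat_lit 1900) (nat_lit 17761200312) (nat_lit 430) (nat_lit 5) (nat_lit 454) (nat_lit 5) (nat_lit 455) (nat_lit 5) (nat_lit 486) (nat_lit 469) (nat_lit 185)) (XT.lf (nat_lit 0) (nat_lit 7621492422) (nat_lit 1824) (nat_lit 18461805521) (nat_lit 1900) (nat_lit 2464368964) (nat_lit 431) (nat_lit 5) (nat_lit 455) (nat_lit 5) (nat_lit 456) (nat_lit 5) (nat_lit 487) (nat_lit 469) (nat_lit 184)))) (XT.nd (nat_lit 78) (nat_lit 0) (nat_lit 0) (XT.lf (nat_lit 0) (nat_lit 9425182789) (nat_lit 1824) (nat_lit 3856383162) (nat_lit 1900) (nat_lit 15567625190) (nat_lit 431) (nat_lit 5) (nat_lit 455) (nat_lit 5) (nat_lit 456) (nat_lit 5) (nat_lit 488) (nat_lit 469) (nat_lit 183)) (XT.nd (nat_lit 78) (nat_lit 0) (nat_lit 76) (XT.lf (nat_lit 76) (nat_lit 11186166998) (nat_lit 0) (nat_lit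 149237533) (nat_lit 1900) (nat_lit 17819932638) (nat_lit 432) (nat_lit 5) (nat_lit 431) (nat_lit 5) (nat_lit 456) (nat_lit 5) (nat_lit 489) (nat_lit 469) (nat_lit 182)) (XT.lf (nat_lit 0) (nat_lit 13393744767) (nat_lit 1824) (nat_lit 2973141930) (nat_lit 1900) (nat_lit 13098521586) (nat_lit 432) (nat_lit 5) (nat_lit 456) (nat_lit 5) (nat_lit 457) (nat_lit 5) (nat_lit 490) (nat_lit 469) (nat_lit 181)))))) (XT.nd (nat_lit 468) (nat_lit 988) (nat_lit 0) (XT.nd (nat_lit 234) (nat_lit 2204) (nat_lit 0) (XT.nd (nat_lit 78) (nat_lit 0) (nat_lit 76) (XT.lf (nat_lit 76) (nat_lit 12483856036) (nat_lit 0) (nat_lit 3089343656) (nat_lit 1900) (nat_lit 14206882611) (nat_lit 433) (nat_lit 5) (nat_lit 432) (nat_lit 5) (nat_lit 457) (nat_lit 5) (nat_lit 491) (nat_lit 469) (nat_lit 180)) (XT.nd (nat_lit 78) (nat_lit 0) (nat_lit 0) (XT.lf (nat_lit 0) (nat_lit 17882138604) (nat_lit 1824) (nat_lit 1880083512) (nat_lit 1900) (nat_lit 10337110222)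 (nat_lit 433) (nat_lit 5) (nat_lit 457) (nat_lit 5) (nat_lit 458) (nat_lit 5) (nat_lit 492) (nat_lit 469) (nat_lit 179)) (XT.lf (nat_lit 76) (nat_lit 14005923259) (nat_lit 0) (nat_lit 6340707156) (nat_lit 1900) (nat_lit 10076149898) (nat_lit 434) (nat_lit 5) (nat_lit 433) (nat_lit 5) (nat_lit 458) (nat_lit 5) (nat_lit 493) (nat_lit 469) (nat_lit 178)))) (XT.nd (nat_lit 78) (nat_lit 2356) (nat_lit 0) (XT.lf (nat_lit 0) (nat_lit 22918838003) (nat_lit 1824) (nat_lit 566830396) (nat_lit 76) (nat_lit 7265860744) (nat_lit 434) (nat_lit 5) (nat_lit 458) (nat_lit 5) (nat_lit 435) (nat_lit 5) (nat_lit 494) (nat_lit 469) (nat_lit 177)) (XT.nd (nat_lit 78) (nat_lit 912) (nat_lit 0) (XT.lf (nat_lit 0) (nat_lit 15763256051) (nat_lit 1444) (nat_lit 9921619574) (nat_lit 1520) (nat_lit 5399130016) (nat_lit 415) (nat_lit 5) (nat_lit 434) (nat_lit 5) (nat_lit 435) (nat_lit 5) (nat_lit 495) (nat_lit 469) (nat_lit 176)) (XT.lf (nat_lit 0) (nat_lit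 990409349) (nat_lit 912) (nat_lit 27549572279) (nat_lit 988) (nat_lit 2882475485) (nat_lit 403) (nat_lit 5) (nat_lit 415) (nat_lit 5) (nat_lit 416) (nat_lit 5) (nat_lit 496) (nat_lit 469) (nat_lit 175))))) (XT.nd (nat_lit 57252) (nat_lit 0) (nat_lit 4332) (XT.nd (nat_lit 78) (nat_lit 988) (nat_lit 0) (XT.lf (nat_lit 0) (nat_lit 17767183643) (nat_lit 912) (nat_lit 13851194743) (nat_lit 988) (nat_lit 145975849) (nat_lit 403) (nat_lit 5) (nat_lit 415) (nat_lit 5) (nat_lit 416) (nat_lit 5) (nat_lit 497) (nat_lit 469) (nat_lit 174)) (XT.nd (nat_lit 78) (nat_lit 0) (nat_lit 0) (XT.lf (nat_lit 0) (nat_lit 2627786844) (nat_lit 988) (nat_lit 29329397739) (nat_lit 76) (nat_lit 155217074) (nat_lit 390) (nat_lit 5) (nat_lit 403) (nat_lit 5) (nat_lit 391) (nat_lit 5) (nat_lit 498) (nat_lit 469) (nat_lit 173)) (XT.lf (nat_lit 0) (nat_lit 5639507976) (nat_lit 988) (nat_lit 12472057020) (nat_lit 76) (nat_lit 14352137348) (nat_lit 390) (nat_lit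 5) (nat_lit 403) (nat_lit 5) (nat_lit 391) (nat_lit 5) (nat_lit 499) (nat_lit 469) (nat_lit 172)))) (XT.nd (nat_lit 78) (nat_lit 0) (nat_lit 0) (XT.lf (nat_lit 0) (nat_lit 4288534953) (nat_lit 0) (nat_lit 4288534953) (nat_lit 1748) (nat_lit 3548316887) (nat_lit 447) (nat_lit 5) (nat_lit 447) (nat_lit 3) (nat_lit 470) (nat_lit 3) (nat_lit 470) (nat_lit 470) (nat_lit 200)) (XT.nd (nat_lit 78) (nat_lit 0) (nat_lit 0) (XT.lf (nat_lit 0) (nat_lit 17457279274) (nat_lit 1748) (nat_lit 3908448944) (nat_lit 1824) (nat_lit 3124896694) (nat_lit 447) (nat_lit 5) (nat_lit 470) (nat_lit 3) (nat_lit 471) (nat_lit 5) (nat_lit 471) (nat_lit 470) (nat_lit 199)) (XT.lf (nat_lit 76) (nat_lit 8140549215) (nat_lit 0) (nat_lit 9732684787) (nat_lit 1824) (nat_lit 6859904850) (nat_lit 448) (nat_lit 5) (nat_lit 447) (nat_lit 5) (nat_lit 471) (nat_lit 5) (nat_lit 472) (nat_lit 470) (nat_lit 198))))))))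
noncomputable def xc250 : XT := (XT.nd (nat_lit 1794) (nat_lit 2888) (nat_lit 0) (XT.nd (nat_lit 858) (nat_lit 0) (nat_lit 76) (XT.nd (nat_lit 390) (nat_lit 1520) (nat_lit 0) (XT.nd (nat_lit 156) (nat_lit 0) (nat_lit 76) (XT.nd (nat_lit 78) (nat_lit 0) (nat_lit 0) (XT.lf (nat_lit 0) (nat_lit 18334910896) (nat_lit 1748) (nat_lit 4512074877) (nat_lit 1824) (nat_lit 2132769867) (nat_lit 448) (nat_lit 5) (nat_lit 471) (nat_lit 5) (nat_lit 472) (nat_lit 5) (nat_lit 473) (nat_lit 470) (nat_lit 197)) (XT.lf (nat_lit 76) (nat_lit 7846959518) (nat_lit 0) (nat_lit 11071472819) (nat_lit 1824) (nat_lit 6310620821) (nat_lit 449) (nat_lit 5) (nat_lit 448) (nat_lit 5) (nat_lit 472) (nat_lit 5) (nat_lit 474) (nat_lit 470) (nat_lit 196))) (XT.nd (nat_lit 78) (nat_lit 0) (nat_lit 0) (XT.lf (nat_lit 0) (nat_lit 19547464362) (nat_lit 1748) (nat_lit 4976298057) (nat_lit 1824) (nat_lit 958898010) (nat_lit 449) (nat_lit 5) (nat_lit 472) (nat_lit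 5) (nat_lit 473) (nat_lit 5) (nat_lit 475) (nat_lit 470) (nat_lit 195)) (XT.nd (nat_lit 78) (nat_lit 0) (nat_lit 0) (XT.lf (nat_lit 76) (nat_lit 7703756759) (nat_lit 0) (nat_lit 12605973935) (nat_lit 1824) (nat_lit 5429196669) (nat_lit 450) (nat_lit 5) (nat_lit 449) (nat_lit 5) (nat_lit 473) (nat_lit 5) (nat_lit 476) (nat_lit 470) (nat_lit 194)) (XT.lf (nat_lit 76) (nat_lit 20703306222) (nat_lit 0) (nat_lit 414686982) (nat_lit 1824) (nat_lit 4881711997) (nat_lit 450) (nat_lit 5) (nat_lit 449) (nat_lit 5) (nat_lit 473) (nat_lit 5) (nat_lit 477) (nat_lit 470) (nat_lit 193))))) (XT.nd (nat_lit 234) (nat_lit 1672) (nat_lit 0) (XT.nd (nat_lit 78) (nat_lit 0) (nat_lit 0) (XT.lf (nat_lit 76) (nat_lit 7718746111) (nat_lit 0) (nat_lit 14349250622) (nat_lit 1824) (nat_lit 4195190917) (nat_lit 451) (nat_lit 5) (nat_lit 450) (nat_lit 5) (nat_lit 474) (nat_lit 5) (nat_lit 478) (nat_lit 470) (nat_lit 192)) (XT.nd (nat_lit 78) (nat_lit 0)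 (nat_lit 76) (XT.lf (nat_lit 76) (nat_lit 21061625746) (nat_lit 0) (nat_lit 2011100798) (nat_lit 1824) (nat_lit 3458499238) (nat_lit 451) (nat_lit 5) (nat_lit 450) (nat_lit 5) (nat_lit 474) (nat_lit 5) (nat_lit 479) (nat_lit 470) (nat_lit 191)) (XT.lf (nat_lit 76) (nat_lit 7900091965) (nat_lit 0) (nat_lit 16314916217) (nat_lit 1824) (nat_lit 2587267896) (nat_lit 452) (nat_lit 5) (nat_lit 451) (nat_lit 5) (nat_lit 475) (nat_lit 5) (nat_lit 480) (nat_lit 470) (nat_lit 190)))) (XT.nd (nat_lit 78) (nat_lit 1748) (nat_lit 0) (XT.lf (nat_lit 76) (nat_lit 21596229436) (nat_lit 0) (nat_lit 3831391656) (nat_lit 1824) (nat_lit 1650177113) (nat_lit 452) (nat_lit 5) (nat_lit 451) (nat_lit 5) (nat_lit 475) (nat_lit 5) (nat_lit 481) (nat_lit 470) (nat_lit 189)) (XT.nd (nat_lit 78) (nat_lit 1824) (nat_lit 0) (XT.lf (nat_lit 76) (nat_lit 8256328282) (nat_lit 0) (nat_lit 18517164228) (nat_lit 1824) (nat_lit 583158666) (nat_lit 453) (nat_lit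 5) (nat_lit 452) (nat_lit 5) (nat_lit 476) (nat_lit 5) (nat_lit 482) (nat_lit 470) (nat_lit 188)) (XT.lf (nat_lit 0) (nat_lit 558600317) (nat_lit 1824) (nat_lit 5327594139) (nat_lit 1900) (nat_lit 21753621135) (nat_lit 428) (nat_lit 5) (nat_lit 452) (nat_lit 5) (nat_lit 453) (nat_lit 5) (nat_lit 483) (nat_lit 470) (nat_lit 187)))))) (XT.nd (nat_lit 468) (nat_lit 0) (nat_lit 152) (XT.nd (nat_lit 234) (nat_lit 0) (nat_lit 76) (XT.nd (nat_lit 78) (nat_lit 0) (nat_lit 0) (XT.lf (nat_lit 0) (nat_lit 1816242571) (nat_lit 1824) (nat_lit 19142368236) (nat_lit 1900) (nat_lit 6967938758) (nat_lit 429) (nat_lit 5) (nat_lit 453) (nat_lit 5) (nat_lit 454) (nat_lit 5) (nat_lit 484) (nat_lit 470) (nat_lit 186)) (XT.nd (nat_lit 78) (nat_lit 0) (nat_lit 76) (XT.lf (nat_lit 0) (nat_lit 3171717900) (nat_lit 1824) (nat_lit 5008759158) (nat_lit 1900) (nat_lit 20037088041) (nat_lit 429) (nat_lit 5) (nat_lit 453) (nat_lit 5) (nat_lit 454) (nat_lit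 5) (nat_lit 485) (nat_lit 470) (nat_lit 185)) (XT.lf (nat_lit 0) (nat_lit 4645863889) (nat_lit 1824) (nat_lit 19014225965) (nat_lit 1900) (nat_lit 4852480344) (nat_lit 430) (nat_lit 5) (nat_lit 454) (nat_lit 5) (nat_lit 455) (nat_lit 5) (nat_lit 486) (nat_lit 470) (nat_lit 184)))) (XT.nd (nat_lit 78) (nat_lit 0) (nat_lit 76) (XT.lf (nat_lit 0) (nat_lit 6235295636) (nat_lit 1824) (nat_lit 4505369085) (nat_lit 1900) (nat_lit 18071095089) (nat_lit 430) (nat_lit 5) (nat_lit 454) (nat_lit 5) (nat_lit 455) (nat_lit 5) (nat_lit 487) (nat_lit 470) (nat_lit 183)) (XT.nd (nat_lit 78) (nat_lit 0) (nat_lit 0) (XT.lf (nat_lit 0) (nat_lit 7938339123) (nat_lit 1824) (nat_lit 18703077774) (nat_lit 1900) (nat_lit 2473880312) (nat_lit 431) (nat_lit 5) (nat_lit 455) (nat_lit 5) (nat_lit 456) (nat_lit 5) (nat_lit 488) (nat_lit 470) (nat_lit 182)) (XT.lf (nat_lit 0) (nat_lit 9774879438) (nat_lit 1824) (nat_lit 3808056063) (nat_lit 1900) (nat_lit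 15839981585) (nat_lit 431) (nat_lit 5) (nat_lit 455) (nat_lit 5) (nat_lit 456) (nat_lit 5) (nat_lit 489) (nat_lit 470) (nat_lit 181))))) (XT.nd (nat_lit 234) (nat_lit 0) (nat_lit 152) (XT.nd (nat_lit 78) (nat_lit 0) (nat_lit 76) (XT.lf (nat_lit 76) (nat_lit 11534519740) (nat_lit 0) (nat_lit 186434404) (nat_lit 1900) (nat_lit 18014279585) (nat_lit 432) (nat_lit 5) (nat_lit 431) (nat_lit 5) (nat_lit 456) (nat_lit 5) (nat_lit 490) (nat_lit 470) (nat_lit 180)) (XT.nd (nat_lit 78) (nat_lit 0) (nat_lit 0) (XT.lf (nat_lit 0) (nat_lit 13817128874) (nat_lit 1824) (nat_lit 2907054070) (nat_lit 1900) (nat_lit 13327390624) (nat_lit 432) (nat_lit 5) (nat_lit 456) (nat_lit 5) (nat_lit 457) (nat_lit 5) (nat_lit 491) (nat_lit 470) (nat_lit 179)) (XT.lf (nat_lit 76) (nat_lit 12858257863) (nat_lit 0) (nat_lit 3179675629) (nat_lit 1900) (nat_lit 14334653005) (nat_lit 433) (nat_lit 5) (nat_lit 432) (nat_lit 5) (nat_lit 457) (nat_lit 5) (nat_lit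 492) (nat_lit 470) (nat_lit 178)))) (XT.nd (nat_lit 78) (nat_lit 0) (nat_lit 0) (XT.lf (nat_lit 0) (nat_lit 18389864192) (nat_lit 1824) (nat_lit 1792187639) (nat_lit 1900) (nat_lit 10516234068) (nat_lit 433) (nat_lit 5) (nat_lit 457) (nat_lit 5) (nat_lit 458) (nat_lit 5) (nat_lit 493) (nat_lit 470) (nat_lit 177)) (XT.nd (nat_lit 78) (nat_lit 0) (nat_lit 76) (XT.lf (nat_lit 76) (nat_lit 14410713625) (nat_lit 0) (nat_lit 6490798867) (nat_lit 1900) (nat_lit 10126733626) (nat_lit 434) (nat_lit 5) (nat_lit 433) (nat_lit 5) (nat_lit 458) (nat_lit 5) (nat_lit 494) (nat_lit 470) (nat_lit 176)) (XT.lf (nat_lit 0) (nat_lit 23522115092) (nat_lit 1824) (nat_lit 452860303) (nat_lit 76) (nat_lit 7388656118) (nat_lit 434) (nat_lit 5) (nat_lit 458) (nat_lit 5) (nat_lit 435) (nat_lit 5) (nat_lit 495) (nat_lit 470) (nat_lit 175))))))) (XT.nd (nat_lit 58032) (nat_lit 0) (nat_lit 2888) (XT.nd (nat_lit 57564) (nat_lit 0) (nat_lit 4332) (XT.nd (nat_lit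 234) (nat_lit 988) (nat_lit 0) (XT.nd (nat_lit 78) (nat_lit 912) (nat_lit 0) (XT.lf (nat_lit 0) (nat_lit 16203003487) (nat_lit 1444) (nat_lit 10138437018) (nat_lit 1520) (nat_lit 5361358286) (nat_lit 415) (nat_lit 5) (nat_lit 434) (nat_lit 5) (nat_lit 435) (nat_lit 5) (nat_lit 496) (nat_lit 470) (nat_lit 174)) (XT.nd (nat_lit 78) (nat_lit 0) (nat_lit 0) (XT.lf (nat_lit 0) (nat_lit 1136867441) (nat_lit 912) (nat_lit 28114685134) (nat_lit 988) (nat_lit 2796509220) (nat_lit 403) (nat_lit 5) (nat_lit 415) (nat_lit 5) (nat_lit 416) (nat_lit 5) (nat_lit 497) (nat_lit 470) (nat_lit 173)) (XT.lf (nat_lit 0) (nat_lit 18246693889) (nat_lit 912) (nat_lit 14142063157) (nat_lit 988) (nat_lit 8095586) (nat_lit 403) (nat_lit 5) (nat_lit 415) (nat_lit 5) (nat_lit 416) (nat_lit 5) (nat_lit 498) (nat_lit 470) (nat_lit 172)))) (XT.nd (nat_lit 57174) (nat_lit 0) (nat_lit 4332) (XT.lf (nat_lit 0) (nat_lit 2817307327) (nat_lit 988) (nat_lit 29787928819)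 (nat_lit 76) (nat_lit 146646889) (nat_lit 390) (nat_lit 5) (nat_lit 403) (nat_lit 5) (nat_lit 391) (nat_lit 5) (nat_lit 499) (nat_lit 470) (nat_lit 171)) (XT.nd (nat_lit 78) (nat_lit 0) (nat_lit 0) (XT.lf (nat_lit 0) (nat_lit 4429464946) (nat_lit 0) (nat_lit 4429464946) (nat_lit 1748) (nat_lit 3506733972) (nat_lit 447) (nat_lit 5) (nat_lit 447) (nat_lit 3) (nat_lit 470) (nat_lit 3) (nat_lit 471) (nat_lit 471) (nat_lit 198)) (XT.lf (nat_lit 0) (nat_lit 18022033598) (nat_lit 1748) (nat_lit 3873386375) (nat_lit 1824) (nat_lit 3080657628) (nat_lit 447) (nat_lit 5) (nat_lit 470) (nat_lit 3) (nat_lit 471) (nat_lit 5) (nat_lit 472) (nat_lit 471) (nat_lit 197))))) (XT.nd (nat_lit 234) (nat_lit 0) (nat_lit 152) (XT.nd (nat_lit 78) (nat_lit 0) (nat_lit 76) (XT.lf (nat_lit 76) (nat_lit 8415846804) (nat_lit 0) (nat_lit 10026963333) (nat_lit 1824) (nat_lit 6780702563) (nat_lit 448) (nat_lit 5) (nat_lit 447) (nat_lit 5) (nat_lit 471) (nat_lit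 5) (nat_lit 473) (nat_lit 471) (nat_lit 196)) (XT.nd (nat_lit 78) (nat_lit 0) (nat_lit 0) (XT.lf (nat_lit 0) (nat_lit 18908927372) (nat_lit 1748) (nat_lit 4487196409) (nat_lit 1824) (nat_lit 2079034821) (nat_lit 448) (nat_lit 5) (nat_lit 471) (nat_lit 5) (nat_lit 472) (nat_lit 5) (nat_lit 474) (nat_lit 471) (nat_lit 195)) (XT.lf (nat_lit 76) (nat_lit 8118261305) (nat_lit 0) (nat_lit 11382535390) (nat_lit 1824) (nat_lit 6228712724) (nat_lit 449) (nat_lit 5) (nat_lit 448) (nat_lit 5) (nat_lit 472) (nat_lit 5) (nat_lit 475) (nat_lit 471) (nat_lit 194)))) (XT.nd (nat_lit 78) (nat_lit 0) (nat_lit 0) (XT.lf (nat_lit 0) (nat_lit 20137838898) (nat_lit 1748) (nat_lit 4959089355) (nat_lit 1824) (nat_lit 891352871) (nat_lit 449) (nat_lit 5) (nat_lit 472) (nat_lit 5) (nat_lit 473) (nat_lit 5) (nat_lit 476) (nat_lit 471) (nat_lit 193)) (XT.nd (nat_lit 78) (nat_lit 0) (nat_lit 0) (XT.lf (nat_lit 76) (nat_lit 7973798566) (nat_lit 0) (nat_lit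 12938394625) (nat_lit 1824) (nat_lit 5337544218) (nat_lit 450) (nat_lit 5) (nat_lit 449) (nat_lit 5) (nat_lit 473) (nat_lit 5) (nat_lit 477) (nat_lit 471) (nat_lit 192)) (XT.lf (nat_lit 76) (nat_lit 21231065162) (nat_lit 0) (nat_lit 501707400) (nat_lit 1824) (nat_lit 4783036055) (nat_lit 450) (nat_lit 5) (nat_lit 449) (nat_lit 5) (nat_lit 473) (nat_lit 5) (nat_lit 478) (nat_lit 471) (nat_lit 191)))))) (XT.nd (nat_lit 468) (nat_lit 0) (nat_lit 76) (XT.nd (nat_lit 234) (nat_lit 1672) (nat_lit 0) (XT.nd (nat_lit 78) (nat_lit 0) (nat_lit 0) (XT.lf (nat_lit 76) (nat_lit 7990438743) (nat_lit 0) (nat_lit 14707825067) (nat_lit 1824) (nat_lit 4086367980) (nat_lit 451) (nat_lit 5) (nat_lit 450) (nat_lit 5) (nat_lit 474) (nat_lit 5) (nat_lit 479) (nat_lit 471) (nat_lit 190)) (XT.nd (nat_lit 78) (nat_lit 0) (nat_lit 76) (XT.lf (nat_lit 76) (nat_lit 21597875624) (nat_lit 0) (nat_lit 2121508532) (nat_lit 1824) (nat_lit 3338721424) (nat_lit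 451) (nat_lit 5) (nat_lit 450) (nat_lit 5) (nat_lit 474) (nat_lit 5) (nat_lit 480) (nat_lit 471) (nat_lit 189)) (XT.lf (nat_lit 76) (nat_lit 8176527250) (nat_lit 0) (nat_lit 16704674936) (nat_lit 1824) (nat_lit 2453441679) (nat_lit 452) (nat_lit 5) (nat_lit 451) (nat_lit 5) (nat_lit 475) (nat_lit 5) (nat_lit 481) (nat_lit 471) (nat_lit 188)))) (XT.nd (nat_lit 78) (nat_lit 1748) (nat_lit 0) (XT.lf (nat_lit 76) (nat_lit 22144265246) (nat_lit 0) (nat_lit 3970235562) (nat_lit 1824) (nat_lit 1501247739) (nat_lit 452) (nat_lit 5) (nat_lit 451) (nat_lit 5) (nat_lit 475) (nat_lit 5) (nat_lit 482) (nat_lit 471) (nat_lit 187)) (XT.nd (nat_lit 78) (nat_lit 1824) (nat_lit 0) (XT.lf (nat_lit 76) (nat_lit 8540785371) (nat_lit 0) (nat_lit 18943386415) (nat_lit 1824) (nat_lit 416069914) (nat_lit 453) (nat_lit 5) (nat_lit 452) (nat_lit 5) (nat_lit 476) (nat_lit 5) (nat_lit 483) (nat_lit 471) (nat_lit 186)) (XT.lf (nat_lit 0) (nat_lit 742720913)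 (nat_lit 1824) (nat_lit 5314820094) (nat_lit 1900) (nat_lit 22131575101) (nat_lit 428) (nat_lit 5) (nat_lit 452) (nat_lit 5) (nat_lit 453) (nat_lit 5) (nat_lit 484) (nat_lit 471) (nat_lit 185))))) (XT.nd (nat_lit 234) (nat_lit 0) (nat_lit 76) (XT.nd (nat_lit 78) (nat_lit 0) (nat_lit 0) (XT.lf (nat_lit 0) (nat_lit 2022558279) (nat_lit 1824) (nat_lit 19402895839) (nat_lit 1900) (nat_lit 7056190520) (nat_lit 429) (nat_lit 5) (nat_lit 453) (nat_lit 5) (nat_lit 454) (nat_lit 5) (nat_lit 485) (nat_lit 471) (nat_lit 184)) (XT.nd (nat_lit 78) (nat_lit 0) (nat_lit 76) (XT.lf (nat_lit 0) (nat_lit 3401809961) (nat_lit 1824) (nat_lit 4989013005) (nat_lit 1900) (nat_lit 20387724888) (nat_lit 429) (nat_lit 5) (nat_lit 453) (nat_lit 5) (nat_lit 454) (nat_lit 5) (nat_lit 486) (nat_lit 471) (nat_lit 183)) (XT.lf (nat_lit 0) (nat_lit 4902652186) (nat_lit 1824) (nat_lit 19271767767) (nat_lit 1900) (nat_lit 4905089530) (nat_lit 430) (nat_lit 5)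 (nat_lit 454) (nat_lit 5) (nat_lit 455) (nat_lit 5) (nat_lit 487) (nat_lit 471) (nat_lit 182)))) (XT.nd (nat_lit 78) (nat_lit 0) (nat_lit 76) (XT.lf (nat_lit 0) (nat_lit 6520659411) (nat_lit 1824) (nat_lit 4475140469) (nat_lit 1900) (nat_lit 18388947949) (nat_lit 430) (nat_lit 5) (nat_lit 454) (nat_lit 5) (nat_lit 455) (nat_lit 5) (nat_lit 488) (nat_lit 471) (nat_lit 181)) (XT.nd (nat_lit 78) (nat_lit 0) (nat_lit 0) (XT.lf (nat_lit 0) (nat_lit 8255138252) (nat_lit 1824) (nat_lit 18954144464) (nat_lit 1900) (nat_lit 2485126439) (nat_lit 431) (nat_lit 5) (nat_lit 455) (nat_lit 5) (nat_lit 456) (nat_lit 5) (nat_lit 489) (nat_lit 471) (nat_lit 180)) (XT.lf (nat_lit 0) (nat_lit 10125310700) (nat_lit 1824) (nat_lit 3763633983) (nat_lit 1900) (nat_lit 16119299374) (nat_lit 431) (nat_lit 5) (nat_lit 455) (nat_lit 5) (nat_lit 456) (nat_lit 5) (nat_lit 490) (nat_lit 471) (nat_lit 179))))))))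
noncomputable def xc251 : XT := (XT.nd (nat_lit 59046) (nat_lit 0) (nat_lit 912) (XT.nd (nat_lit 58110) (nat_lit 0) (nat_lit 1900) (XT.nd (nat_lit 390) (nat_lit 2128) (nat_lit 0) (XT.nd (nat_lit 156) (nat_lit 0) (nat_lit 76) (XT.nd (nat_lit 78) (nat_lit 0) (nat_lit 76) (XT.lf (nat_lit 76) (nat_lit 11885000026) (nat_lit 0) (nat_lit 223046715) (nat_lit 1900) (nat_lit 18218806137) (nat_lit 432) (nat_lit 5) (nat_lit 431) (nat_lit 5) (nat_lit 456) (nat_lit 5) (nat_lit 491) (nat_lit 471) (nat_lit 178)) (XT.lf (nat_lit 0) (nat_lit 14242942050) (nat_lit 1824) (nat_lit 2844519740) (nat_lit 1900) (nat_lit 13562122409) (nat_lit 432) (nat_lit 5) (nat_lit 456) (nat_lit 5) (nat_lit 457) (nat_lit 5) (nat_lit 492) (nat_lit 471) (nat_lit 177))) (XT.nd (nat_lit 78) (nat_lit 0) (nat_lit 76) (XT.lf (nat_lit 76) (nat_lit 13235304515) (nat_lit 0) (nat_lit 3270705800) (nat_lit 1900) (nat_lit 14471050737) (nat_lit 433) (nat_lit 5) (nat_lit 432) (nat_lit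 5) (nat_lit 457) (nat_lit 5) (nat_lit 493) (nat_lit 471) (nat_lit 176)) (XT.nd (nat_lit 78) (nat_lit 0) (nat_lit 0) (XT.lf (nat_lit 0) (nat_lit 18901916394) (nat_lit 1824) (nat_lit 1707407072) (nat_lit 1900) (nat_lit 10700012846) (nat_lit 433) (nat_lit 5) (nat_lit 457) (nat_lit 5) (nat_lit 458) (nat_lit 5) (nat_lit 494) (nat_lit 471) (nat_lit 175)) (XT.lf (nat_lit 76) (nat_lit 14818758637) (nat_lit 0) (nat_lit 6642988515) (nat_lit 1900) (nat_lit 10184190184) (nat_lit 434) (nat_lit 5) (nat_lit 433) (nat_lit 5) (nat_lit 458) (nat_lit 5) (nat_lit 495) (nat_lit 471) (nat_lit 174))))) (XT.nd (nat_lit 57486) (nat_lit 0) (nat_lit 3344) (XT.nd (nat_lit 78) (nat_lit 2356) (nat_lit 0) (XT.lf (nat_lit 0) (nat_lit 24131831066) (nat_lit 1824) (nat_lit 341476619) (nat_lit 76) (nat_lit 7514781950) (nat_lit 434) (nat_lit 5) (nat_lit 458) (nat_lit 5) (nat_lit 435) (nat_lit 5) (nat_lit 496) (nat_lit 471) (nat_lit 173)) (XT.nd (nat_lit 78) (nat_lit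 912) (nat_lit 0) (XT.lf (nat_lit 0) (nat_lit 16646712072) (nat_lit 1444) (nat_lit 10358876896) (nat_lit 1520) (nat_lit 5328490940) (nat_lit 415) (nat_lit 5) (nat_lit 434) (nat_lit 5) (nat_lit 435) (nat_lit 5) (nat_lit 497) (nat_lit 471) (nat_lit 172)) (XT.lf (nat_lit 0) (nat_lit 1281336725) (nat_lit 912) (nat_lit 28690551895) (nat_lit 988) (nat_lit 2714400404) (nat_lit 403) (nat_lit 5) (nat_lit 415) (nat_lit 5) (nat_lit 416) (nat_lit 5) (nat_lit 498) (nat_lit 471) (nat_lit 171)))) (XT.nd (nat_lit 78) (nat_lit 0) (nat_lit 0) (XT.lf (nat_lit 0) (nat_lit 4571071636) (nat_lit 0) (nat_lit 4571071636) (nat_lit 1748) (nat_lit 3468689823) (nat_lit 447) (nat_lit 5) (nat_lit 447) (nat_lit 3) (nat_lit 470) (nat_lit 3) (nat_lit 472) (nat_lit 472) (nat_lit 196)) (XT.nd (nat_lit 78) (nat_lit 0) (nat_lit 0) (XT.lf (nat_lit 0) (nat_lit 18589710658) (nat_lit 1748) (nat_lit 3842019472) (nat_lit 1824) (nat_lit 3039678509) (nat_lit 447) (nat_lit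 5) (nat_lit 470) (nat_lit 3) (nat_lit 471) (nat_lit 5) (nat_lit 473) (nat_lit 472) (nat_lit 195)) (XT.lf (nat_lit 76) (nat_lit 8692282352) (nat_lit 0) (nat_lit 10323258895) (nat_lit 1824) (nat_lit 6708319322) (nat_lit 448) (nat_lit 5) (nat_lit 447) (nat_lit 5) (nat_lit 471) (nat_lit 5) (nat_lit 474) (nat_lit 472) (nat_lit 194)))))) (XT.nd (nat_lit 468) (nat_lit 1520) (nat_lit 0) (XT.nd (nat_lit 234) (nat_lit 0) (nat_lit 76) (XT.nd (nat_lit 78) (nat_lit 0) (nat_lit 0) (XT.lf (nat_lit 0) (nat_lit 19486373757) (nat_lit 1748) (nat_lit 4466290621) (nat_lit 1824) (nat_lit 2027968033) (nat_lit 448) (nat_lit 5) (nat_lit 471) (nat_lit 5) (nat_lit 472) (nat_lit 5) (nat_lit 475) (nat_lit 472) (nat_lit 193)) (XT.nd (nat_lit 78) (nat_lit 0) (nat_lit 76) (XT.lf (nat_lit 76) (nat_lit 8390548289) (nat_lit 0) (nat_lit 11696338650) (nat_lit 1824) (nat_lit 6153248038) (nat_lit 449) (nat_lit 5) (nat_lit 448) (nat_lit 5) (nat_lit 472) (nat_lit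 5) (nat_lit 476) (nat_lit 472) (nat_lit 192)) (XT.lf (nat_lit 0) (nat_lit 20732277000) (nat_lit 1748) (nat_lit 4946069429) (nat_lit 1824) (nat_lit 825824394) (nat_lit 449) (nat_lit 5) (nat_lit 472) (nat_lit 5) (nat_lit 473) (nat_lit 5) (nat_lit 477) (nat_lit 472) (nat_lit 191)))) (XT.nd (nat_lit 78) (nat_lit 0) (nat_lit 0) (XT.lf (nat_lit 76) (nat_lit 8244738082) (nat_lit 0) (nat_lit 13274345535) (nat_lit 1824) (nat_lit 5251834140) (nat_lit 450) (nat_lit 5) (nat_lit 449) (nat_lit 5) (nat_lit 473) (nat_lit 5) (nat_lit 478) (nat_lit 472) (nat_lit 190)) (XT.nd (nat_lit 78) (nat_lit 0) (nat_lit 76) (XT.lf (nat_lit 76) (nat_lit 21764964450) (nat_lit 0) (nat_lit 587411173) (nat_lit 1824) (nat_lit 4690009559) (nat_lit 450) (nat_lit 5) (nat_lit 449) (nat_lit 5) (nat_lit 473) (nat_lit 5) (nat_lit 479) (nat_lit 472) (nat_lit 189)) (XT.lf (nat_lit 76) (nat_lit 8263009639) (nat_lit 0) (nat_lit 15070791096) (nat_lit 1824) (nat_lit 3982852400)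 (nat_lit 451) (nat_lit 5) (nat_lit 450) (nat_lit 5) (nat_lit 474) (nat_lit 5) (nat_lit 480) (nat_lit 472) (nat_lit 188))))) (XT.nd (nat_lit 234) (nat_lit 1672) (nat_lit 0) (XT.nd (nat_lit 78) (nat_lit 0) (nat_lit 76) (XT.lf (nat_lit 76) (nat_lit 22140384235) (nat_lit 0) (nat_lit 2231399024) (nat_lit 1824) (nat_lit 3223885127) (nat_lit 451) (nat_lit 5) (nat_lit 450) (nat_lit 5) (nat_lit 474) (nat_lit 5) (nat_lit 481) (nat_lit 472) (nat_lit 187)) (XT.nd (nat_lit 78) (nat_lit 0) (nat_lit 0) (XT.lf (nat_lit 76) (nat_lit 8453892325) (nat_lit 0) (nat_lit 17099764585) (nat_lit 1824) (nat_lit 2324144908) (nat_lit 452) (nat_lit 5) (nat_lit 451) (nat_lit 5) (nat_lit 475) (nat_lit 5) (nat_lit 482) (nat_lit 472) (nat_lit 186)) (XT.lf (nat_lit 76) (nat_lit 22698753031) (nat_lit 0) (nat_lit 4109440421) (nat_lit 1824) (nat_lit 1356404454) (nat_lit 452) (nat_lit 5) (nat_lit 451) (nat_lit 5) (nat_lit 475) (nat_lit 5) (nat_lit 483) (nat_lit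 472) (nat_lit 185)))) (XT.nd (nat_lit 78) (nat_lit 1824) (nat_lit 0) (XT.lf (nat_lit 76) (nat_lit 8826297852) (nat_lit 0) (nat_lit 19375963200) (nat_lit 1824) (nat_lit 252580543) (nat_lit 453) (nat_lit 5) (nat_lit 452) (nat_lit 5) (nat_lit 476) (nat_lit 5) (nat_lit 484) (nat_lit 472) (nat_lit 184)) (XT.nd (nat_lit 78) (nat_lit 0) (nat_lit 76) (XT.lf (nat_lit 0) (nat_lit 923808116) (nat_lit 1824) (nat_lit 5306424139) (nat_lit 1900) (nat_lit 22519306126) (nat_lit 428) (nat_lit 5) (nat_lit 452) (nat_lit 5) (nat_lit 453) (nat_lit 5) (nat_lit 485) (nat_lit 472) (nat_lit 183)) (XT.lf (nat_lit 0) (nat_lit 2226399348) (nat_lit 1824) (nat_lit 19673383819) (nat_lit 1900) (nat_lit 7148191866) (nat_lit 429) (nat_lit 5) (nat_lit 453) (nat_lit 5) (nat_lit 454) (nat_lit 5) (nat_lit 486) (nat_lit 472) (nat_lit 182))))))) (XT.nd (nat_lit 58266) (nat_lit 0) (nat_lit 2432) (XT.nd (nat_lit 468) (nat_lit 1064) (nat_lit 0) (XT.nd (nat_lit 234) (nat_lit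 0) (nat_lit 152) (XT.nd (nat_lit 78) (nat_lit 0) (nat_lit 76) (XT.lf (nat_lit 0) (nat_lit 3630032341) (nat_lit 1824) (nat_lit 4973528622) (nat_lit 1900) (nat_lit 20747320106) (nat_lit 429) (nat_lit 5) (nat_lit 453) (nat_lit 5) (nat_lit 454) (nat_lit 5) (nat_lit 487) (nat_lit 472) (nat_lit 181)) (XT.nd (nat_lit 78) (nat_lit 0) (nat_lit 0) (XT.lf (nat_lit 0) (nat_lit 5158212938) (nat_lit 1824) (nat_lit 19539226654) (nat_lit 1900) (nat_lit 4960476574) (nat_lit 430) (nat_lit 5) (nat_lit 454) (nat_lit 5) (nat_lit 455) (nat_lit 5) (nat_lit 488) (nat_lit 472) (nat_lit 180)) (XT.lf (nat_lit 0) (nat_lit 6805491921) (nat_lit 1824) (nat_lit 4448980075) (nat_lit 1900) (nat_lit 18714849706) (nat_lit 430) (nat_lit 5) (nat_lit 454) (nat_lit 5) (nat_lit 455) (nat_lit 5) (nat_lit 489) (nat_lit 472) (nat_lit 179)))) (XT.nd (nat_lit 78) (nat_lit 0) (nat_lit 0) (XT.lf (nat_lit 0) (nat_lit 8572136775) (nat_lit 1824) (nat_lit 19215008528) (nat_lit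 1900) (nat_lit 2498082063) (nat_lit 431) (nat_lit 5) (nat_lit 455) (nat_lit 5) (nat_lit 456) (nat_lit 5) (nat_lit 490) (nat_lit 472) (nat_lit 178)) (XT.nd (nat_lit 78) (nat_lit 0) (nat_lit 0) (XT.lf (nat_lit 0) (nat_lit 10476734323) (nat_lit 1824) (nat_lit 3723005854) (nat_lit 1900) (nat_lit 16405658984) (nat_lit 431) (nat_lit 5) (nat_lit 455) (nat_lit 5) (nat_lit 456) (nat_lit 5) (nat_lit 491) (nat_lit 472) (nat_lit 177)) (XT.lf (nat_lit 76) (nat_lit 12237838330) (nat_lit 0) (nat_lit 259114360) (nat_lit 1900) (nat_lit 18433471533) (nat_lit 432) (nat_lit 5) (nat_lit 431) (nat_lit 5) (nat_lit 456) (nat_lit 5) (nat_lit 492) (nat_lit 472) (nat_lit 176))))) (XT.nd (nat_lit 234) (nat_lit 1292) (nat_lit 0) (XT.nd (nat_lit 78) (nat_lit 0) (nat_lit 0) (XT.lf (nat_lit 0) (nat_lit 14671467364) (nat_lit 1824) (nat_lit 2785420696) (nat_lit 1900) (nat_lit 13802784285) (nat_lit 432) (nat_lit 5) (nat_lit 456) (nat_lit 5) (nat_lit 457) (nat_lit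 5) (nat_lit 493) (nat_lit 472) (nat_lit 175)) (XT.nd (nat_lit 78) (nat_lit 0) (nat_lit 76) (XT.lf (nat_lit 76) (nat_lit 13615236956) (nat_lit 0) (nat_lit 3362491175) (nat_lit 1900) (nat_lit 14616012574) (nat_lit 433) (nat_lit 5) (nat_lit 432) (nat_lit 5) (nat_lit 457) (nat_lit 5) (nat_lit 494) (nat_lit 472) (nat_lit 174)) (XT.lf (nat_lit 0) (nat_lit 19418608045) (nat_lit 1824) (nat_lit 1625614883) (nat_lit 1900) (nat_lit 10888498009) (nat_lit 433) (nat_lit 5) (nat_lit 457) (nat_lit 5) (nat_lit 458) (nat_lit 5) (nat_lit 495) (nat_lit 472) (nat_lit 173)))) (XT.nd (nat_lit 78) (nat_lit 1368) (nat_lit 0) (XT.lf (nat_lit 76) (nat_lit 15230311375) (nat_lit 0) (nat_lit 6797353160) (nat_lit 1900) (nat_lit 10248429434) (nat_lit 434) (nat_lit 5) (nat_lit 433) (nat_lit 5) (nat_lit 458) (nat_lit 5) (nat_lit 496) (nat_lit 472) (nat_lit 172)) (XT.nd (nat_lit 78) (nat_lit 1444) (nat_lit 0) (XT.lf (nat_lit 0) (nat_lit 24748333193) (nat_lit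 1824) (nat_lit 232542128) (nat_lit 76) (nat_lit 7644270888) (nat_lit 434) (nat_lit 5) (nat_lit 458) (nat_lit 5) (nat_lit 435) (nat_lit 5) (nat_lit 497) (nat_lit 472) (nat_lit 171)) (XT.lf (nat_lit 0) (nat_lit 17094648731) (nat_lit 1444) (nat_lit 10583039381) (nat_lit 1520) (nat_lit 5300406287) (nat_lit 415) (nat_lit 5) (nat_lit 434) (nat_lit 5) (nat_lit 435) (nat_lit 5) (nat_lit 498) (nat_lit 472) (nat_lit 170)))))) (XT.nd (nat_lit 468) (nat_lit 0) (nat_lit 152) (XT.nd (nat_lit 234) (nat_lit 0) (nat_lit 76) (XT.nd (nat_lit 78) (nat_lit 0) (nat_lit 0) (XT.lf (nat_lit 0) (nat_lit 4713451730) (nat_lit 0) (nat_lit 4713451730) (nat_lit 1748) (nat_lit 3434085507) (nat_lit 447) (nat_lit 5) (nat_lit 447) (nat_lit 3) (nat_lit 470) (nat_lit 3) (nat_lit 473) (nat_lit 473) (nat_lit 194)) (XT.nd (nat_lit 78) (nat_lit 0) (nat_lit 0) (XT.lf (nat_lit 0) (nat_lit 19160694019) (nat_lit 1748) (nat_lit 3814251414) (nat_lit 1824) (nat_lit 3001863591)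 (nat_lit 447) (nat_lit 5) (nat_lit 470) (nat_lit 3) (nat_lit 471) (nat_lit 5) (nat_lit 474) (nat_lit 473) (nat_lit 193)) (XT.lf (nat_lit 76) (nat_lit 8970048234) (nat_lit 0) (nat_lit 10621762034) (nat_lit 1824) (nat_lit 6642565204) (nat_lit 448) (nat_lit 5) (nat_lit 447) (nat_lit 5) (nat_lit 471) (nat_lit 5) (nat_lit 475) (nat_lit 473) (nat_lit 192)))) (XT.nd (nat_lit 78) (nat_lit 0) (nat_lit 0) (XT.lf (nat_lit 0) (nat_lit 20067631256) (nat_lit 1748) (nat_lit 4449263380) (nat_lit 1824) (nat_lit 1979477524) (nat_lit 448) (nat_lit 5) (nat_lit 471) (nat_lit 5) (nat_lit 472) (nat_lit 5) (nat_lit 476) (nat_lit 473) (nat_lit 191)) (XT.nd (nat_lit 78) (nat_lit 0) (nat_lit 76) (XT.lf (nat_lit 76) (nat_lit 8664012617) (nat_lit 0) (nat_lit 12013072567) (nat_lit 1824) (nat_lit 6084041814) (nat_lit 449) (nat_lit 5) (nat_lit 448) (nat_lit 5) (nat_lit 472) (nat_lit 5) (nat_lit 477) (nat_lit 473) (nat_lit 190)) (XT.lf (nat_lit 0) (nat_lit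 21331160645) (nat_lit 1748) (nat_lit 4937146033) (nat_lit 1824) (nat_lit 762222143) (nat_lit 449) (nat_lit 5) (nat_lit 472) (nat_lit 5) (nat_lit 473) (nat_lit 5) (nat_lit 478) (nat_lit 473) (nat_lit 189))))) (XT.nd (nat_lit 234) (nat_lit 0) (nat_lit 76) (XT.nd (nat_lit 78) (nat_lit 0) (nat_lit 0) (XT.lf (nat_lit 76) (nat_lit 8516768123) (nat_lit 0) (nat_lit 13614018353) (nat_lit 1824) (nat_lit 5171883355) (nat_lit 450) (nat_lit 5) (nat_lit 449) (nat_lit 5) (nat_lit 473) (nat_lit 5) (nat_lit 479) (nat_lit 473) (nat_lit 188)) (XT.nd (nat_lit 78) (nat_lit 0) (nat_lit 76) (XT.lf (nat_lit 76) (nat_lit 22305298326) (nat_lit 0) (nat_lit 671890678) (nat_lit 1824) (nat_lit 4602449487) (nat_lit 450) (nat_lit 5) (nat_lit 449) (nat_lit 5) (nat_lit 473) (nat_lit 5) (nat_lit 480) (nat_lit 473) (nat_lit 187)) (XT.lf (nat_lit 76) (nat_lit 8536653262) (nat_lit 0) (nat_lit 15438344488) (nat_lit 1824) (nat_lit 3884459717) (nat_lit 451) (nat_lit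 5) (nat_lit 450) (nat_lit 5) (nat_lit 474) (nat_lit 5) (nat_lit 481) (nat_lit 473) (nat_lit 186)))) (XT.nd (nat_lit 78) (nat_lit 0) (nat_lit 76) (XT.lf (nat_lit 76) (nat_lit 22689450185) (nat_lit 0) (nat_lit 2340867759) (nat_lit 1824) (nat_lit 3113804270) (nat_lit 451) (nat_lit 5) (nat_lit 450) (nat_lit 5) (nat_lit 474) (nat_lit 5) (nat_lit 482) (nat_lit 473) (nat_lit 185)) (XT.nd (nat_lit 78) (nat_lit 0) (nat_lit 0) (XT.lf (nat_lit 76) (nat_lit 8732384369) (nat_lit 0) (nat_lit 17500387472) (nat_lit 1824) (nat_lit 2199188355) (nat_lit 452) (nat_lit 5) (nat_lit 451) (nat_lit 5) (nat_lit 475) (nat_lit 5) (nat_lit 483) (nat_lit 473) (nat_lit 184)) (XT.lf (nat_lit 76) (nat_lit 23259996912) (nat_lit 0) (nat_lit 4249107264) (nat_lit 1824) (nat_lit 1215454650) (nat_lit 452) (nat_lit 5) (nat_lit 451) (nat_lit 5) (nat_lit 475) (nat_lit 5) (nat_lit 484) (nat_lit 473) (nat_lit 183))))))))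
noncomputable def xc252 : XT := (XT.nd (nat_lit 59280) (nat_lit 0) (nat_lit 0) (XT.nd (nat_lit 858) (nat_lit 0) (nat_lit 380) (XT.nd (nat_lit 390) (nat_lit 0) (nat_lit 152) (XT.nd (nat_lit 156) (nat_lit 0) (nat_lit 76) (XT.nd (nat_lit 78) (nat_lit 1824) (nat_lit 0) (XT.lf (nat_lit 76) (nat_lit 9113066768) (nat_lit 0) (nat_lit 19815105932) (nat_lit 1824) (nat_lit 92493005) (nat_lit 453) (nat_lit 5) (nat_lit 452) (nat_lit 5) (nat_lit 476) (nat_lit 5) (nat_lit 485) (nat_lit 473) (nat_lit 182)) (XT.lf (nat_lit 0) (nat_lit 1102062042) (nat_lit 1824) (nat_lit 5302313909) (nat_lit 1900) (nat_lit 22916923624) (nat_lit 428) (nat_lit 5) (nat_lit 452) (nat_lit 5) (nat_lit 453) (nat_lit 5) (nat_lit 486) (nat_lit 473) (nat_lit 181))) (XT.nd (nat_lit 78) (nat_lit 0) (nat_lit 0) (XT.lf (nat_lit 0) (nat_lit 2427972611) (nat_lit 1824) (nat_lit 19953846943) (nat_lit 1900) (nat_lit 7243940723) (nat_lit 429) (nat_lit 5) (nat_lit 453) (nat_lit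 5) (nat_lit 454) (nat_lit 5) (nat_lit 487) (nat_lit 473) (nat_lit 180)) (XT.nd (nat_lit 78) (nat_lit 0) (nat_lit 76) (XT.lf (nat_lit 0) (nat_lit 3856598944) (nat_lit 1824) (nat_lit 4962210417) (nat_lit 1900) (nat_lit 21115977313) (nat_lit 429) (nat_lit 5) (nat_lit 453) (nat_lit 5) (nat_lit 454) (nat_lit 5) (nat_lit 488) (nat_lit 473) (nat_lit 179)) (XT.lf (nat_lit 0) (nat_lit 5412768689) (nat_lit 1824) (nat_lit 19816615889) (nat_lit 1900) (nat_lit 5018630025) (nat_lit 430) (nat_lit 5) (nat_lit 454) (nat_lit 5) (nat_lit 455) (nat_lit 5) (nat_lit 489) (nat_lit 473) (nat_lit 178))))) (XT.nd (nat_lit 234) (nat_lit 0) (nat_lit 76) (XT.nd (nat_lit 78) (nat_lit 0) (nat_lit 76) (XT.lf (nat_lit 0) (nat_lit 7090024791) (nat_lit 1824) (nat_lit 4426787815) (nat_lit 1900) (nat_lit 19048895641) (nat_lit 430) (nat_lit 5) (nat_lit 454) (nat_lit 5) (nat_lit 455) (nat_lit 5) (nat_lit 490) (nat_lit 473) (nat_lit 177)) (XT.nd (nat_lit 78) (nat_lit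 0) (nat_lit 0) (XT.lf (nat_lit 0) (nat_lit 8889576970) (nat_lit 1824) (nat_lit 19485680455) (nat_lit 1900) (nat_lit 2512723726) (nat_lit 431) (nat_lit 5) (nat_lit 455) (nat_lit 5) (nat_lit 456) (nat_lit 5) (nat_lit 491) (nat_lit 473) (nat_lit 176)) (XT.lf (nat_lit 0) (nat_lit 10829403775) (nat_lit 1824) (nat_lit 3686065732) (nat_lit 1900) (nat_lit 16699144735) (nat_lit 431) (nat_lit 5) (nat_lit 455) (nat_lit 5) (nat_lit 456) (nat_lit 5) (nat_lit 492) (nat_lit 473) (nat_lit 175)))) (XT.nd (nat_lit 78) (nat_lit 0) (nat_lit 76) (XT.lf (nat_lit 76) (nat_lit 12593262439) (nat_lit 0) (nat_lit 294676031) (nat_lit 1900) (nat_lit 18658243687) (nat_lit 432) (nat_lit 5) (nat_lit 431) (nat_lit 5) (nat_lit 456) (nat_lit 5) (nat_lit 493) (nat_lit 473) (nat_lit 174)) (XT.nd (nat_lit 78) (nat_lit 0) (nat_lit 0) (XT.lf (nat_lit 0) (nat_lit 15102984440) (nat_lit 1824) (nat_lit 2729643683) (nat_lit 1900) (nat_lit 14049446880) (nat_lit 432) (nat_lit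 5) (nat_lit 456) (nat_lit 5) (nat_lit 457) (nat_lit 5) (nat_lit 494) (nat_lit 473) (nat_lit 173)) (XT.lf (nat_lit 76) (nat_lit 13998293665) (nat_lit 0) (nat_lit 3455088230) (nat_lit 1900) (nat_lit 14769483175) (nat_lit 433) (nat_lit 5) (nat_lit 432) (nat_lit 5) (nat_lit 457) (nat_lit 5) (nat_lit 495) (nat_lit 473) (nat_lit 172)))))) (XT.nd (nat_lit 57954) (nat_lit 0) (nat_lit 1140) (XT.nd (nat_lit 57720) (nat_lit 0) (nat_lit 1064) (XT.nd (nat_lit 78) (nat_lit 0) (nat_lit 0) (XT.lf (nat_lit 0) (nat_lit 19940249452) (nat_lit 1824) (nat_lit 1546688954) (nat_lit 1900) (nat_lit 11081743658) (nat_lit 433) (nat_lit 5) (nat_lit 457) (nat_lit 5) (nat_lit 458) (nat_lit 5) (nat_lit 496) (nat_lit 473) (nat_lit 171)) (XT.nd (nat_lit 57564) (nat_lit 0) (nat_lit 1064) (XT.lf (nat_lit 76) (nat_lit 15645622683) (nat_lit 0) (nat_lit 6953970037) (nat_lit 1900) (nat_lit 10319368271) (nat_lit 434) (nat_lit 5) (nat_lit 433) (nat_lit 5) (nat_lit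 458) (nat_lit 5) (nat_lit 497) (nat_lit 473) (nat_lit 170)) (XT.lf (nat_lit 0) (nat_lit 4856700639) (nat_lit 0) (nat_lit 4856700639) (nat_lit 1748) (nat_lit 3402826702) (nat_lit 447) (nat_lit 5) (nat_lit 447) (nat_lit 3) (nat_lit 470) (nat_lit 3) (nat_lit 474) (nat_lit 474) (nat_lit 192)))) (XT.nd (nat_lit 78) (nat_lit 0) (nat_lit 0) (XT.lf (nat_lit 0) (nat_lit 19735362289) (nat_lit 1748) (nat_lit 3789990067) (nat_lit 1824) (nat_lit 2967121462) (nat_lit 447) (nat_lit 5) (nat_lit 470) (nat_lit 3) (nat_lit 471) (nat_lit 5) (nat_lit 475) (nat_lit 474) (nat_lit 191)) (XT.nd (nat_lit 78) (nat_lit 0) (nat_lit 76) (XT.lf (nat_lit 76) (nat_lit 9249334084) (nat_lit 0) (nat_lit 10922661290) (nat_lit 1824) (nat_lit 6583259160) (nat_lit 448) (nat_lit 5) (nat_lit 447) (nat_lit 5) (nat_lit 471) (nat_lit 5) (nat_lit 476) (nat_lit 474) (nat_lit 190)) (XT.lf (nat_lit 0) (nat_lit 20653076562) (nat_lit 1748) (nat_lit 4436025413) (nat_lit 1824)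 (nat_lit 1933475119) (nat_lit 448) (nat_lit 5) (nat_lit 471) (nat_lit 5) (nat_lit 472) (nat_lit 5) (nat_lit 477) (nat_lit 474) (nat_lit 189))))) (XT.nd (nat_lit 234) (nat_lit 0) (nat_lit 76) (XT.nd (nat_lit 78) (nat_lit 0) (nat_lit 76) (XT.lf (nat_lit 76) (nat_lit 8938843583) (nat_lit 0) (nat_lit 12332925659) (nat_lit 1824) (nat_lit 6020917591) (nat_lit 449) (nat_lit 5) (nat_lit 448) (nat_lit 5) (nat_lit 472) (nat_lit 5) (nat_lit 478) (nat_lit 474) (nat_lit 188)) (XT.nd (nat_lit 78) (nat_lit 0) (nat_lit 0) (XT.lf (nat_lit 0) (nat_lit 21934867772) (nat_lit 1748) (nat_lit 4932231914) (nat_lit 1824) (nat_lit 700458956) (nat_lit 449) (nat_lit 5) (nat_lit 472) (nat_lit 5) (nat_lit 473) (nat_lit 5) (nat_lit 479) (nat_lit 474) (nat_lit 187)) (XT.lf (nat_lit 76) (nat_lit 8790078571) (nat_lit 0) (nat_lit 13957603898) (nat_lit 1824) (nat_lit 5097516842) (nat_lit 450) (nat_lit 5) (nat_lit 449) (nat_lit 5) (nat_lit 473) (nat_lit 5) (nat_lit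 480) (nat_lit 474) (nat_lit 186)))) (XT.nd (nat_lit 78) (nat_lit 0) (nat_lit 76) (XT.lf (nat_lit 76) (nat_lit 22852360259) (nat_lit 0) (nat_lit 755235528) (nat_lit 1824) (nat_lit 4520180654) (nat_lit 450) (nat_lit 5) (nat_lit 449) (nat_lit 5) (nat_lit 473) (nat_lit 5) (nat_lit 481) (nat_lit 474) (nat_lit 185)) (XT.nd (nat_lit 78) (nat_lit 0) (nat_lit 0) (XT.lf (nat_lit 76) (nat_lit 8811561097) (nat_lit 0) (nat_lit 15810680745) (nat_lit 1824) (nat_lit 3791013069) (nat_lit 451) (nat_lit 5) (nat_lit 450) (nat_lit 5) (nat_lit 474) (nat_lit 5) (nat_lit 482) (nat_lit 474) (nat_lit 184)) (XT.lf (nat_lit 76) (nat_lit 23245371316) (nat_lit 0) (nat_lit 2450008024) (nat_lit 1824) (nat_lit 3008300117) (nat_lit 451) (nat_lit 5) (nat_lit 450) (nat_lit 5) (nat_lit 474) (nat_lit 5) (nat_lit 483) (nat_lit 474) (nat_lit 183))))))) (XT.nd (nat_lit 858) (nat_lit 0) (nat_lit 304) (XT.nd (nat_lit 390) (nat_lit 0) (nat_lit 76) (XT.nd (nat_lit 156)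 (nat_lit 1748) (nat_lit 0) (XT.nd (nat_lit 78) (nat_lit 0) (nat_lit 0) (XT.lf (nat_lit 76) (nat_lit 9012197566) (nat_lit 0) (nat_lit 17906746235) (nat_lit 1824) (nat_lit 2078389874) (nat_lit 452) (nat_lit 5) (nat_lit 451) (nat_lit 5) (nat_lit 475) (nat_lit 5) (nat_lit 484) (nat_lit 474) (nat_lit 182)) (XT.lf (nat_lit 76) (nat_lit 23828300292) (nat_lit 0) (nat_lit 4389335501) (nat_lit 1824) (nat_lit 1078212520) (nat_lit 452) (nat_lit 5) (nat_lit 451) (nat_lit 5) (nat_lit 475) (nat_lit 5) (nat_lit 485) (nat_lit 474) (nat_lit 181))) (XT.nd (nat_lit 78) (nat_lit 0) (nat_lit 0) (XT.lf (nat_lit 0) (nat_lit 63539323) (nat_lit 1824) (nat_lit 20197061211) (nat_lit 1900) (nat_lit 9337324487) (nat_lit 428) (nat_lit 5) (nat_lit 452) (nat_lit 5) (nat_lit 453) (nat_lit 5) (nat_lit 486) (nat_lit 474) (nat_lit 180)) (XT.nd (nat_lit 78) (nat_lit 0) (nat_lit 76) (XT.lf (nat_lit 0) (nat_lit 1277676681) (nat_lit 1824) (nat_lit 5302402178) (nat_lit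 1900) (nat_lit 23324542542) (nat_lit 428) (nat_lit 5) (nat_lit 452) (nat_lit 5) (nat_lit 453) (nat_lit 5) (nat_lit 487) (nat_lit 474) (nat_lit 179)) (XT.lf (nat_lit 0) (nat_lit 2627479079) (nat_lit 1824) (nat_lit 20244307434) (nat_lit 1900) (nat_lit 7343437973) (nat_lit 429) (nat_lit 5) (nat_lit 453) (nat_lit 5) (nat_lit 454) (nat_lit 5) (nat_lit 488) (nat_lit 474) (nat_lit 178))))) (XT.nd (nat_lit 234) (nat_lit 0) (nat_lit 152) (XT.nd (nat_lit 78) (nat_lit 0) (nat_lit 76) (XT.lf (nat_lit 0) (nat_lit 4081718193) (nat_lit 1824) (nat_lit 4954967911) (nat_lit 1900) (nat_lit 21493805129) (nat_lit 429) (nat_lit 5) (nat_lit 453) (nat_lit 5) (nat_lit 454) (nat_lit 5) (nat_lit 489) (nat_lit 474) (nat_lit 177)) (XT.nd (nat_lit 78) (nat_lit 0) (nat_lit 0) (XT.lf (nat_lit 0) (nat_lit 5666536838) (nat_lit 1824) (nat_lit 20103956187) (nat_lit 1900) (nat_lit 5079540803) (nat_lit 430) (nat_lit 5) (nat_lit 454) (nat_lit 5) (nat_lit 455) (nat_lit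 5) (nat_lit 490) (nat_lit 474) (nat_lit 176)) (XT.lf (nat_lit 0) (nat_lit 7374484871) (nat_lit 1824) (nat_lit 4408468650) (nat_lit 1900) (nat_lit 19391185493) (nat_lit 430) (nat_lit 5) (nat_lit 454) (nat_lit 5) (nat_lit 455) (nat_lit 5) (nat_lit 491) (nat_lit 474) (nat_lit 175)))) (XT.nd (nat_lit 78) (nat_lit 0) (nat_lit 0) (XT.lf (nat_lit 0) (nat_lit 9207696711) (nat_lit 1824) (nat_lit 19766178144) (nat_lit 1900) (nat_lit 2529029741) (nat_lit 431) (nat_lit 5) (nat_lit 455) (nat_lit 5) (nat_lit 456) (nat_lit 5) (nat_lit 492) (nat_lit 474) (nat_lit 174)) (XT.nd (nat_lit 78) (nat_lit 0) (nat_lit 0) (XT.lf (nat_lit 0) (nat_lit 11183568518) (nat_lit 1824) (nat_lit 3652712615) (nat_lit 1900) (nat_lit 16999844826) (nat_lit 431) (nat_lit 5) (nat_lit 455) (nat_lit 5) (nat_lit 456) (nat_lit 5) (nat_lit 493) (nat_lit 474) (nat_lit 173)) (XT.lf (nat_lit 76) (nat_lit 12951497683) (nat_lit 0) (nat_lit 329769268) (nat_lit 1900) (nat_lit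 18893098991) (nat_lit 432) (nat_lit 5) (nat_lit 431) (nat_lit 5) (nat_lit 456) (nat_lit 5) (nat_lit 494) (nat_lit 474) (nat_lit 172)))))) (XT.nd (nat_lit 58110) (nat_lit 0) (nat_lit 1216) (XT.nd (nat_lit 57876) (nat_lit 0) (nat_lit 1140) (XT.nd (nat_lit 78) (nat_lit 0) (nat_lit 0) (XT.lf (nat_lit 0) (nat_lit 15537769744) (nat_lit 1824) (nat_lit 2677080244) (nat_lit 1900) (nat_lit 14302184096) (nat_lit 432) (nat_lit 5) (nat_lit 456) (nat_lit 5) (nat_lit 457) (nat_lit 5) (nat_lit 495) (nat_lit 474) (nat_lit 171)) (XT.nd (nat_lit 57720) (nat_lit 0) (nat_lit 1140) (XT.lf (nat_lit 76) (nat_lit 14384710875) (nat_lit 0) (nat_lit 3548552962) (nat_lit 1900) (nat_lit 14931414888) (nat_lit 433) (nat_lit 5) (nat_lit 432) (nat_lit 5) (nat_lit 457) (nat_lit 5) (nat_lit 496) (nat_lit 474) (nat_lit 170)) (XT.lf (nat_lit 0) (nat_lit 5000912578) (nat_lit 0) (nat_lit 5000912578) (nat_lit 1748) (nat_lit 3374823533) (nat_lit 447) (nat_lit 5) (nat_lit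 447) (nat_lit 3) (nat_lit 470) (nat_lit 3) (nat_lit 475) (nat_lit 475) (nat_lit 190)))) (XT.nd (nat_lit 78) (nat_lit 0) (nat_lit 0) (XT.lf (nat_lit 0) (nat_lit 20314089517) (nat_lit 1748) (nat_lit 3769147832) (nat_lit 1824) (nat_lit 2935364890) (nat_lit 447) (nat_lit 5) (nat_lit 470) (nat_lit 3) (nat_lit 471) (nat_lit 5) (nat_lit 476) (nat_lit 475) (nat_lit 189)) (XT.nd (nat_lit 78) (nat_lit 0) (nat_lit 76) (XT.lf (nat_lit 76) (nat_lit 9530326999) (nat_lit 0) (nat_lit 11226143366) (nat_lit 1824) (nat_lit 6530228699) (nat_lit 448) (nat_lit 5) (nat_lit 447) (nat_lit 5) (nat_lit 471) (nat_lit 5) (nat_lit 477) (nat_lit 475) (nat_lit 188)) (XT.lf (nat_lit 0) (nat_lit 21243082230) (nat_lit 1748) (nat_lit 4426492139) (nat_lit 1824) (nat_lit 1889876307) (nat_lit 448) (nat_lit 5) (nat_lit 471) (nat_lit 5) (nat_lit 472) (nat_lit 5) (nat_lit 478) (nat_lit 475) (nat_lit 187))))) (XT.nd (nat_lit 234) (nat_lit 0) (nat_lit 76) (XT.nd (nat_lit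 78) (nat_lit 0) (nat_lit 76) (XT.lf (nat_lit 76) (nat_lit 9215227830) (nat_lit 0) (nat_lit 12656085173) (nat_lit 1824) (nat_lit 5963707088) (nat_lit 449) (nat_lit 5) (nat_lit 448) (nat_lit 5) (nat_lit 472) (nat_lit 5) (nat_lit 479) (nat_lit 475) (nat_lit 186)) (XT.nd (nat_lit 78) (nat_lit 0) (nat_lit 0) (XT.lf (nat_lit 0) (nat_lit 22543772658) (nat_lit 1748) (nat_lit 4931244642) (nat_lit 1824) (nat_lit 640450806) (nat_lit 449) (nat_lit 5) (nat_lit 472) (nat_lit 5) (nat_lit 473) (nat_lit 5) (nat_lit 480) (nat_lit 475) (nat_lit 185)) (XT.lf (nat_lit 76) (nat_lit 9064856579) (nat_lit 0) (nat_lit 14305292287) (nat_lit 1824) (nat_lit 5028567353) (nat_lit 450) (nat_lit 5) (nat_lit 449) (nat_lit 5) (nat_lit 473) (nat_lit 5) (nat_lit 481) (nat_lit 475) (nat_lit 184)))) (XT.nd (nat_lit 78) (nat_lit 0) (nat_lit 76) (XT.lf (nat_lit 76) (nat_lit 23406443187) (nat_lit 0) (nat_lit 837532701) (nat_lit 1824) (nat_lit 4443035418) (nat_lit 450)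 (nat_lit 5) (nat_lit 449) (nat_lit 5) (nat_lit 473) (nat_lit 5) (nat_lit 482) (nat_lit 475) (nat_lit 183)) (XT.nd (nat_lit 78) (nat_lit 0) (nat_lit 0) (XT.lf (nat_lit 76) (nat_lit 9087921855) (nat_lit 0) (nat_lit 16187995251) (nat_lit 1824) (nat_lit 3702342901) (nat_lit 451) (nat_lit 5) (nat_lit 450) (nat_lit 5) (nat_lit 474) (nat_lit 5) (nat_lit 483) (nat_lit 475) (nat_lit 182)) (XT.lf (nat_lit 76) (nat_lit 23808444954) (nat_lit 0) (nat_lit 2558911019) (nat_lit 1824) (nat_lit 2907200993) (nat_lit 451) (nat_lit 5) (nat_lit 450) (nat_lit 5) (nat_lit 474) (nat_lit 5) (nat_lit 484) (nat_lit 475) (nat_lit 181))))))))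
noncomputable def xc253 : XT := (XT.nd (nat_lit 59514) (nat_lit 0) (nat_lit 0) (XT.nd (nat_lit 858) (nat_lit 0) (nat_lit 304) (XT.nd (nat_lit 390) (nat_lit 0) (nat_lit 76) (XT.nd (nat_lit 156) (nat_lit 1748) (nat_lit 0) (XT.nd (nat_lit 78) (nat_lit 0) (nat_lit 0) (XT.lf (nat_lit 76) (nat_lit 9293523323) (nat_lit 0) (nat_lit 18319043996) (nat_lit 1824) (nat_lit 1961574119) (nat_lit 452) (nat_lit 5) (nat_lit 451) (nat_lit 5) (nat_lit 475) (nat_lit 5) (nat_lit 485) (nat_lit 475) (nat_lit 180)) (XT.lf (nat_lit 76) (nat_lit 24403966107) (nat_lit 0) (nat_lit 4530223030) (nat_lit 1824) (nat_lit 944498777) (nat_lit 452) (nat_lit 5) (nat_lit 451) (nat_lit 5) (nat_lit 475) (nat_lit 5) (nat_lit 486) (nat_lit 475) (nat_lit 179))) (XT.nd (nat_lit 78) (nat_lit 0) (nat_lit 0) (XT.lf (nat_lit 0) (nat_lit 215372265) (nat_lit 1824) (nat_lit 20497122034) (nat_lit 1900) (nat_lit 9474345923) (nat_lit 428) (nat_lit 5) (nat_lit 452) (nat_lit 5) (nat_lit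 453) (nat_lit 5) (nat_lit 487) (nat_lit 475) (nat_lit 178)) (XT.nd (nat_lit 78) (nat_lit 0) (nat_lit 76) (XT.lf (nat_lit 0) (nat_lit 1450840171) (nat_lit 1824) (nat_lit 5306606691) (nat_lit 1900) (nat_lit 23742283340) (nat_lit 428) (nat_lit 5) (nat_lit 452) (nat_lit 5) (nat_lit 453) (nat_lit 5) (nat_lit 488) (nat_lit 475) (nat_lit 177)) (XT.lf (nat_lit 0) (nat_lit 2825114219) (nat_lit 1824) (nat_lit 20544794843) (nat_lit 1900) (nat_lit 7446687390) (nat_lit 429) (nat_lit 5) (nat_lit 453) (nat_lit 5) (nat_lit 454) (nat_lit 5) (nat_lit 489) (nat_lit 475) (nat_lit 176))))) (XT.nd (nat_lit 234) (nat_lit 0) (nat_lit 152) (XT.nd (nat_lit 78) (nat_lit 0) (nat_lit 76) (XT.lf (nat_lit 0) (nat_lit 4305593301) (nat_lit 1824) (nat_lit 4951715565) (nat_lit 1900) (nat_lit 21880917170) (nat_lit 429) (nat_lit 5) (nat_lit 453) (nat_lit 5) (nat_lit 454) (nat_lit 5) (nat_lit 490) (nat_lit 475) (nat_lit 175)) (XT.nd (nat_lit 78) (nat_lit 0) (nat_lit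 0) (XT.lf (nat_lit 0) (nat_lit 5919729912) (nat_lit 1824) (nat_lit 20401275583) (nat_lit 1900) (nat_lit 5143202147) (nat_lit 430) (nat_lit 5) (nat_lit 454) (nat_lit 5) (nat_lit 455) (nat_lit 5) (nat_lit 491) (nat_lit 475) (nat_lit 174)) (XT.lf (nat_lit 0) (nat_lit 7659094506) (nat_lit 1824) (nat_lit 4393932408) (nat_lit 1900) (nat_lit 19741823446) (nat_lit 430) (nat_lit 5) (nat_lit 454) (nat_lit 5) (nat_lit 455) (nat_lit 5) (nat_lit 492) (nat_lit 475) (nat_lit 173)))) (XT.nd (nat_lit 78) (nat_lit 0) (nat_lit 0) (XT.lf (nat_lit 0) (nat_lit 9526729731) (nat_lit 1824) (nat_lit 20056526773) (nat_lit 1900) (nat_lit 2546980136) (nat_lit 431) (nat_lit 5) (nat_lit 455) (nat_lit 5) (nat_lit 456) (nat_lit 5) (nat_lit 493) (nat_lit 475) (nat_lit 172)) (XT.nd (nat_lit 78) (nat_lit 0) (nat_lit 0) (XT.lf (nat_lit 0) (nat_lit 11539474286) (nat_lit 1824) (nat_lit 3622850266) (nat_lit 1900) (nat_lit 17307851331) (nat_lit 431) (nat_lit 5) (nat_lit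 455) (nat_lit 5) (nat_lit 456) (nat_lit 5) (nat_lit 494) (nat_lit 475) (nat_lit 171)) (XT.lf (nat_lit 76) (nat_lit 13312767155) (nat_lit 0) (nat_lit 364430508) (nat_lit 1900) (nat_lit 19138022130) (nat_lit 432) (nat_lit 5) (nat_lit 431) (nat_lit 5) (nat_lit 456) (nat_lit 5) (nat_lit 495) (nat_lit 475) (nat_lit 170)))))) (XT.nd (nat_lit 58188) (nat_lit 0) (nat_lit 1292) (XT.nd (nat_lit 57954) (nat_lit 0) (nat_lit 1140) (XT.nd (nat_lit 57798) (nat_lit 0) (nat_lit 1140) (XT.lf (nat_lit 0) (nat_lit 15976096855) (nat_lit 1824) (nat_lit 2627626547) (nat_lit 1900) (nat_lit 14561073105) (nat_lit 432) (nat_lit 5) (nat_lit 456) (nat_lit 5) (nat_lit 457) (nat_lit 5) (nat_lit 496) (nat_lit 475) (nat_lit 169)) (XT.nd (nat_lit 78) (nat_lit 0) (nat_lit 0) (XT.lf (nat_lit 0) (nat_lit 5146180662) (nat_lit 0) (nat_lit 5146180662) (nat_lit 1748) (nat_lit 3349990415) (nat_lit 447) (nat_lit 5) (nat_lit 447) (nat_lit 3) (nat_lit 470) (nat_lit 3)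 (nat_lit 476) (nat_lit 476) (nat_lit 188)) (XT.lf (nat_lit 0) (nat_lit 20897245569) (nat_lit 1748) (nat_lit 3751641480) (nat_lit 1824) (nat_lit 2906510672) (nat_lit 447) (nat_lit 5) (nat_lit 470) (nat_lit 3) (nat_lit 471) (nat_lit 5) (nat_lit 477) (nat_lit 476) (nat_lit 187)))) (XT.nd (nat_lit 78) (nat_lit 0) (nat_lit 76) (XT.lf (nat_lit 76) (nat_lit 9813211734) (nat_lit 0) (nat_lit 11532393310) (nat_lit 1824) (nat_lit 6483309587) (nat_lit 448) (nat_lit 5) (nat_lit 447) (nat_lit 5) (nat_lit 471) (nat_lit 5) (nat_lit 478) (nat_lit 476) (nat_lit 186)) (XT.nd (nat_lit 78) (nat_lit 0) (nat_lit 0) (XT.lf (nat_lit 0) (nat_lit 21838017055) (nat_lit 1748) (nat_lit 4420583514) (nat_lit 1824) (nat_lit 1848600097) (nat_lit 448) (nat_lit 5) (nat_lit 471) (nat_lit 5) (nat_lit 472) (nat_lit 5) (nat_lit 479) (nat_lit 476) (nat_lit 185)) (XT.lf (nat_lit 76) (nat_lit 9493349549) (nat_lit 0) (nat_lit 12982737250) (nat_lit 1824) (nat_lit 5912249920)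 (nat_lit 449) (nat_lit 5) (nat_lit 448) (nat_lit 5) (nat_lit 472) (nat_lit 5) (nat_lit 480) (nat_lit 476) (nat_lit 184))))) (XT.nd (nat_lit 234) (nat_lit 0) (nat_lit 76) (XT.nd (nat_lit 78) (nat_lit 0) (nat_lit 0) (XT.lf (nat_lit 0) (nat_lit 23158246276) (nat_lit 1748) (nat_lit 4934106452) (nat_lit 1824) (nat_lit 582116675) (nat_lit 449) (nat_lit 5) (nat_lit 472) (nat_lit 5) (nat_lit 473) (nat_lit 5) (nat_lit 481) (nat_lit 476) (nat_lit 183)) (XT.nd (nat_lit 78) (nat_lit 0) (nat_lit 0) (XT.lf (nat_lit 76) (nat_lit 9341286773) (nat_lit 0) (nat_lit 14657273095) (nat_lit 1824) (nat_lit 4964875122) (nat_lit 450) (nat_lit 5) (nat_lit 449) (nat_lit 5) (nat_lit 473) (nat_lit 5) (nat_lit 482) (nat_lit 476) (nat_lit 182)) (XT.lf (nat_lit 76) (nat_lit 23967839759) (nat_lit 0) (nat_lit 918866651) (nat_lit 1824) (nat_lit 4370853403) (nat_lit 450) (nat_lit 5) (nat_lit 449) (nat_lit 5) (nat_lit 473) (nat_lit 5) (nat_lit 483) (nat_lit 476)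 (nat_lit 181)))) (XT.nd (nat_lit 78) (nat_lit 0) (nat_lit 0) (XT.lf (nat_lit 76) (nat_lit 9365921677) (nat_lit 0) (nat_lit 16570483425) (nat_lit 1824) (nat_lit 3618286694) (nat_lit 451) (nat_lit 5) (nat_lit 450) (nat_lit 5) (nat_lit 474) (nat_lit 5) (nat_lit 484) (nat_lit 476) (nat_lit 180)) (XT.nd (nat_lit 78) (nat_lit 0) (nat_lit 76) (XT.lf (nat_lit 76) (nat_lit 24378968151) (nat_lit 0) (nat_lit 2667665974) (nat_lit 1824) (nat_lit 2810342007) (nat_lit 451) (nat_lit 5) (nat_lit 450) (nat_lit 5) (nat_lit 474) (nat_lit 5) (nat_lit 485) (nat_lit 476) (nat_lit 179)) (XT.lf (nat_lit 76) (nat_lit 9576550465) (nat_lit 0) (nat_lit 18737484502) (nat_lit 1824) (nat_lit 1848572275) (nat_lit 452) (nat_lit 5) (nat_lit 451) (nat_lit 5) (nat_lit 475) (nat_lit 5) (nat_lit 486) (nat_lit 476) (nat_lit 178))))))) (XT.nd (nat_lit 58812) (nat_lit 0) (nat_lit 0) (XT.nd (nat_lit 468) (nat_lit 0) (nat_lit 152) (XT.nd (nat_lit 234) (nat_lit 0) (nat_lit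 76) (XT.nd (nat_lit 78) (nat_lit 1748) (nat_lit 0) (XT.lf (nat_lit 76) (nat_lit 24987297071) (nat_lit 0) (nat_lit 4671866341) (nat_lit 1824) (nat_lit 814140394) (nat_lit 452) (nat_lit 5) (nat_lit 451) (nat_lit 5) (nat_lit 475) (nat_lit 5) (nat_lit 487) (nat_lit 476) (nat_lit 177)) (XT.nd (nat_lit 78) (nat_lit 0) (nat_lit 0) (XT.lf (nat_lit 0) (nat_lit 364395353) (nat_lit 1824) (nat_lit 20807217876) (nat_lit 1900) (nat_lit 9616038672) (nat_lit 428) (nat_lit 5) (nat_lit 452) (nat_lit 5) (nat_lit 453) (nat_lit 5) (nat_lit 488) (nat_lit 476) (nat_lit 176)) (XT.lf (nat_lit 0) (nat_lit 1621735055) (nat_lit 1824) (nat_lit 5314850003) (nat_lit 1900) (nat_lit 24170271978) (nat_lit 428) (nat_lit 5) (nat_lit 452) (nat_lit 5) (nat_lit 453) (nat_lit 5) (nat_lit 489) (nat_lit 476) (nat_lit 175)))) (XT.nd (nat_lit 78) (nat_lit 0) (nat_lit 0) (XT.lf (nat_lit 0) (nat_lit 3021068214) (nat_lit 1824) (nat_lit 20855345931) (nat_lit 1900) (nat_lit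 7553695586) (nat_lit 429) (nat_lit 5) (nat_lit 453) (nat_lit 5) (nat_lit 454) (nat_lit 5) (nat_lit 490) (nat_lit 476) (nat_lit 174)) (XT.nd (nat_lit 78) (nat_lit 0) (nat_lit 76) (XT.lf (nat_lit 0) (nat_lit 4528422530) (nat_lit 1824) (nat_lit 4952372612) (nat_lit 1900) (nat_lit 22277432032) (nat_lit 429) (nat_lit 5) (nat_lit 453) (nat_lit 5) (nat_lit 454) (nat_lit 5) (nat_lit 491) (nat_lit 476) (nat_lit 173)) (XT.lf (nat_lit 0) (nat_lit 6172555823) (nat_lit 1824) (nat_lit 20708609315) (nat_lit 1900) (nat_lit 5209609566) (nat_lit 430) (nat_lit 5) (nat_lit 454) (nat_lit 5) (nat_lit 455) (nat_lit 5) (nat_lit 492) (nat_lit 476) (nat_lit 172))))) (XT.nd (nat_lit 58110) (nat_lit 0) (nat_lit 1292) (XT.nd (nat_lit 78) (nat_lit 0) (nat_lit 76) (XT.lf (nat_lit 0) (nat_lit 7944071801) (nat_lit 1824) (nat_lit 4383093625) (nat_lit 1900) (nat_lit 20100918126) (nat_lit 430) (nat_lit 5) (nat_lit 454) (nat_lit 5) (nat_lit 455) (nat_lit 5) (nat_lit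 493) (nat_lit 476) (nat_lit 171)) (XT.nd (nat_lit 78) (nat_lit 0) (nat_lit 0) (XT.lf (nat_lit 0) (nat_lit 9846905892) (nat_lit 1824) (nat_lit 20356758680) (nat_lit 1900) (nat_lit 2566556610) (nat_lit 431) (nat_lit 5) (nat_lit 455) (nat_lit 5) (nat_lit 456) (nat_lit 5) (nat_lit 494) (nat_lit 476) (nat_lit 170)) (XT.lf (nat_lit 0) (nat_lit 11897363347) (nat_lit 1824) (nat_lit 3596387047) (nat_lit 1900) (nat_lit 17623260191) (nat_lit 431) (nat_lit 5) (nat_lit 455) (nat_lit 5) (nat_lit 456) (nat_lit 5) (nat_lit 495) (nat_lit 476) (nat_lit 169)))) (XT.nd (nat_lit 78) (nat_lit 0) (nat_lit 0) (XT.lf (nat_lit 0) (nat_lit 5292597002) (nat_lit 0) (nat_lit 5292597002) (nat_lit 1748) (nat_lit 3328245906) (nat_lit 447) (nat_lit 5) (nat_lit 447) (nat_lit 3) (nat_lit 470) (nat_lit 3) (nat_lit 477) (nat_lit 477) (nat_lit 186)) (XT.nd (nat_lit 78) (nat_lit 0) (nat_lit 0) (XT.lf (nat_lit 0) (nat_lit 21485196500) (nat_lit 1748) (nat_lit 3737392006)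 (nat_lit 1824) (nat_lit 2880479490) (nat_lit 447) (nat_lit 5) (nat_lit 470) (nat_lit 3) (nat_lit 471) (nat_lit 5) (nat_lit 478) (nat_lit 477) (nat_lit 185)) (XT.lf (nat_lit 76) (nat_lit 10098170888) (nat_lit 0) (nat_lit 11841594690) (nat_lit 1824) (nat_lit 6442345553) (nat_lit 448) (nat_lit 5) (nat_lit 447) (nat_lit 5) (nat_lit 471) (nat_lit 5) (nat_lit 479) (nat_lit 477) (nat_lit 184)))))) (XT.nd (nat_lit 468) (nat_lit 1520) (nat_lit 0) (XT.nd (nat_lit 234) (nat_lit 0) (nat_lit 76) (XT.nd (nat_lit 78) (nat_lit 0) (nat_lit 0) (XT.lf (nat_lit 0) (nat_lit 22438246428) (nat_lit 1748) (nat_lit 4418223878) (nat_lit 1824) (nat_lit 1809568892) (nat_lit 448) (nat_lit 5) (nat_lit 471) (nat_lit 5) (nat_lit 472) (nat_lit 5) (nat_lit 480) (nat_lit 477) (nat_lit 183)) (XT.nd (nat_lit 78) (nat_lit 0) (nat_lit 76) (XT.lf (nat_lit 76) (nat_lit 9773390667) (nat_lit 0) (nat_lit 13313067095) (nat_lit 1824) (nat_lit 5866393314) (nat_lit 449) (nat_lit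 5) (nat_lit 448) (nat_lit 5) (nat_lit 472) (nat_lit 5) (nat_lit 481) (nat_lit 477) (nat_lit 182)) (XT.lf (nat_lit 0) (nat_lit 23778656649) (nat_lit 1748) (nat_lit 4940744097) (nat_lit 1824) (nat_lit 525378437) (nat_lit 449) (nat_lit 5) (nat_lit 472) (nat_lit 5) (nat_lit 473) (nat_lit 5) (nat_lit 482) (nat_lit 477) (nat_lit 181)))) (XT.nd (nat_lit 78) (nat_lit 0) (nat_lit 0) (XT.lf (nat_lit 76) (nat_lit 9619551437) (nat_lit 0) (nat_lit 15013735514) (nat_lit 1824) (nat_lit 4906287602) (nat_lit 450) (nat_lit 5) (nat_lit 449) (nat_lit 5) (nat_lit 473) (nat_lit 5) (nat_lit 483) (nat_lit 477) (nat_lit 180)) (XT.nd (nat_lit 78) (nat_lit 0) (nat_lit 76) (XT.lf (nat_lit 76) (nat_lit 24536842563) (nat_lit 0) (nat_lit 999319432) (nat_lit 1824) (nat_lit 4303481233) (nat_lit 450) (nat_lit 5) (nat_lit 449) (nat_lit 5) (nat_lit 473) (nat_lit 5) (nat_lit 484) (nat_lit 477) (nat_lit 179)) (XT.lf (nat_lit 76) (nat_lit 9645744325) (nat_lit 0)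 (nat_lit 16958340873) (nat_lit 1824) (nat_lit 3538688697) (nat_lit 451) (nat_lit 5) (nat_lit 450) (nat_lit 5) (nat_lit 474) (nat_lit 5) (nat_lit 485) (nat_lit 477) (nat_lit 178))))) (XT.nd (nat_lit 234) (nat_lit 1672) (nat_lit 0) (XT.nd (nat_lit 78) (nat_lit 0) (nat_lit 76) (XT.lf (nat_lit 76) (nat_lit 24957237920) (nat_lit 0) (nat_lit 2776360253) (nat_lit 1824) (nat_lit 2717564798) (nat_lit 451) (nat_lit 5) (nat_lit 450) (nat_lit 5) (nat_lit 474) (nat_lit 5) (nat_lit 486) (nat_lit 477) (nat_lit 177)) (XT.nd (nat_lit 78) (nat_lit 0) (nat_lit 0) (XT.lf (nat_lit 76) (nat_lit 9861465437) (nat_lit 0) (nat_lit 19162272280) (nat_lit 1824) (nat_lit 1739221800) (nat_lit 452) (nat_lit 5) (nat_lit 451) (nat_lit 5) (nat_lit 475) (nat_lit 5) (nat_lit 487) (nat_lit 477) (nat_lit 176)) (XT.lf (nat_lit 76) (nat_lit 25578595918) (nat_lit 0) (nat_lit 4814360617) (nat_lit 1824) (nat_lit 686970339) (nat_lit 452) (nat_lit 5) (nat_lit 451) (nat_lit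 5) (nat_lit 475) (nat_lit 5) (nat_lit 488) (nat_lit 477) (nat_lit 175)))) (XT.nd (nat_lit 78) (nat_lit 0) (nat_lit 0) (XT.lf (nat_lit 0) (nat_lit 510779418) (nat_lit 1824) (nat_lit 21127392800) (nat_lit 1900) (nat_lit 9762421182) (nat_lit 428) (nat_lit 5) (nat_lit 452) (nat_lit 5) (nat_lit 453) (nat_lit 5) (nat_lit 489) (nat_lit 477) (nat_lit 174)) (XT.nd (nat_lit 78) (nat_lit 0) (nat_lit 76) (XT.lf (nat_lit 0) (nat_lit 1790538539) (nat_lit 1824) (nat_lit 5327059323) (nat_lit 1900) (nat_lit 24608639905) (nat_lit 428) (nat_lit 5) (nat_lit 452) (nat_lit 5) (nat_lit 453) (nat_lit 5) (nat_lit 490) (nat_lit 477) (nat_lit 173)) (XT.lf (nat_lit 0) (nat_lit 3215526208) (nat_lit 1824) (nat_lit 21176004552) (nat_lit 1900) (nat_lit 7664471968) (nat_lit 429) (nat_lit 5) (nat_lit 453) (nat_lit 5) (nat_lit 454) (nat_lit 5) (nat_lit 491) (nat_lit 477) (nat_lit 172))))))))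
noncomputable def xc254 : XT := (XT.nd (nat_lit 117858) (nat_lit 0) (nat_lit 0) (XT.nd (nat_lit 58812) (nat_lit 76) (nat_lit 0) (XT.nd (nat_lit 58344) (nat_lit 0) (nat_lit 1368) (XT.nd (nat_lit 156) (nat_lit 0) (nat_lit 76) (XT.nd (nat_lit 78) (nat_lit 0) (nat_lit 76) (XT.lf (nat_lit 0) (nat_lit 4750399442) (nat_lit 1824) (nat_lit 4956862910) (nat_lit 1900) (nat_lit 22683473289) (nat_lit 429) (nat_lit 5) (nat_lit 453) (nat_lit 5) (nat_lit 454) (nat_lit 5) (nat_lit 492) (nat_lit 477) (nat_lit 171)) (XT.lf (nat_lit 0) (nat_lit 6425218120) (nat_lit 1824) (nat_lit 21025999706) (nat_lit 1900) (nat_lit 5278760788) (nat_lit 430) (nat_lit 5) (nat_lit 454) (nat_lit 5) (nat_lit 455) (nat_lit 5) (nat_lit 493) (nat_lit 477) (nat_lit 170))) (XT.nd (nat_lit 78) (nat_lit 0) (nat_lit 76) (XT.lf (nat_lit 0) (nat_lit 8229630865) (nat_lit 1824) (nat_lit 4375871384) (nat_lit 1900) (nat_lit 20468582597) (nat_lit 430) (nat_lit 5) (nat_lit 454) (nat_lit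 5) (nat_lit 455) (nat_lit 5) (nat_lit 494) (nat_lit 477) (nat_lit 169)) (XT.nd (nat_lit 58032) (nat_lit 0) (nat_lit 1216) (XT.lf (nat_lit 0) (nat_lit 10168451436) (nat_lit 1824) (nat_lit 20666913242) (nat_lit 1900) (nat_lit 2587742481) (nat_lit 431) (nat_lit 5) (nat_lit 455) (nat_lit 5) (nat_lit 456) (nat_lit 5) (nat_lit 495) (nat_lit 477) (nat_lit 168)) (XT.lf (nat_lit 0) (nat_lit 5440252793) (nat_lit 0) (nat_lit 5440252793) (nat_lit 1748) (nat_lit 3309512556) (nat_lit 447) (nat_lit 5) (nat_lit 447) (nat_lit 3) (nat_lit 470) (nat_lit 3) (nat_lit 478) (nat_lit 478) (nat_lit 184))))) (XT.nd (nat_lit 234) (nat_lit 0) (nat_lit 76) (XT.nd (nat_lit 78) (nat_lit 0) (nat_lit 0) (XT.lf (nat_lit 0) (nat_lit 22078304908) (nat_lit 1748) (nat_lit 3726324484) (nat_lit 1824) (nat_lit 2857195773) (nat_lit 447) (nat_lit 5) (nat_lit 470) (nat_lit 3) (nat_lit 471) (nat_lit 5) (nat_lit 479) (nat_lit 478) (nat_lit 183)) (XT.nd (nat_lit 78) (nat_lit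 0) (nat_lit 76) (XT.lf (nat_lit 76) (nat_lit 10385385094) (nat_lit 0) (nat_lit 12153929769) (nat_lit 1824) (nat_lit 6407188018) (nat_lit 448) (nat_lit 5) (nat_lit 447) (nat_lit 5) (nat_lit 471) (nat_lit 5) (nat_lit 480) (nat_lit 478) (nat_lit 182)) (XT.lf (nat_lit 0) (nat_lit 23044132687) (nat_lit 1748) (nat_lit 4419341809) (nat_lit 1824) (nat_lit 1772708360) (nat_lit 448) (nat_lit 5) (nat_lit 471) (nat_lit 5) (nat_lit 472) (nat_lit 5) (nat_lit 481) (nat_lit 478) (nat_lit 181)))) (XT.nd (nat_lit 78) (nat_lit 0) (nat_lit 76) (XT.lf (nat_lit 76) (nat_lit 10055531036) (nat_lit 0) (nat_lit 13647259136) (nat_lit 1824) (nat_lit 5825991841) (nat_lit 449) (nat_lit 5) (nat_lit 448) (nat_lit 5) (nat_lit 472) (nat_lit 5) (nat_lit 482) (nat_lit 478) (nat_lit 180)) (XT.nd (nat_lit 78) (nat_lit 0) (nat_lit 0) (XT.lf (nat_lit 0) (nat_lit 24405369198) (nat_lit 1748) (nat_lit 4951088693) (nat_lit 1824) (nat_lit 470160735) (nat_lit 449) (nat_lit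 5) (nat_lit 472) (nat_lit 5) (nat_lit 473) (nat_lit 5) (nat_lit 483) (nat_lit 478) (nat_lit 179)) (XT.lf (nat_lit 76) (nat_lit 9899830710) (nat_lit 0) (nat_lit 15374868507) (nat_lit 1824) (nat_lit 4852659199) (nat_lit 450) (nat_lit 5) (nat_lit 449) (nat_lit 5) (nat_lit 473) (nat_lit 5) (nat_lit 484) (nat_lit 478) (nat_lit 178)))))) (XT.nd (nat_lit 468) (nat_lit 0) (nat_lit 0) (XT.nd (nat_lit 234) (nat_lit 1596) (nat_lit 0) (XT.nd (nat_lit 78) (nat_lit 0) (nat_lit 76) (XT.lf (nat_lit 76) (nat_lit 25113744359) (nat_lit 0) (nat_lit 1078970804) (nat_lit 1824) (nat_lit 4240772274) (nat_lit 450) (nat_lit 5) (nat_lit 449) (nat_lit 5) (nat_lit 473) (nat_lit 5) (nat_lit 485) (nat_lit 478) (nat_lit 177)) (XT.nd (nat_lit 78) (nat_lit 0) (nat_lit 0) (XT.lf (nat_lit 76) (nat_lit 9927571374) (nat_lit 0) (nat_lit 17351763533) (nat_lit 1824) (nat_lit 3463399677) (nat_lit 451) (nat_lit 5) (nat_lit 450) (nat_lit 5) (nat_lit 474) (nat_lit 5)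 (nat_lit 486) (nat_lit 478) (nat_lit 176)) (XT.lf (nat_lit 76) (nat_lit 25543551466) (nat_lit 0) (nat_lit 2885079461) (nat_lit 1824) (nat_lit 2628717276) (nat_lit 451) (nat_lit 5) (nat_lit 450) (nat_lit 5) (nat_lit 474) (nat_lit 5) (nat_lit 487) (nat_lit 478) (nat_lit 175)))) (XT.nd (nat_lit 78) (nat_lit 1748) (nat_lit 0) (XT.lf (nat_lit 76) (nat_lit 10148452496) (nat_lit 0) (nat_lit 19593612774) (nat_lit 1824) (nat_lit 1633366174) (nat_lit 452) (nat_lit 5) (nat_lit 451) (nat_lit 5) (nat_lit 475) (nat_lit 5) (nat_lit 488) (nat_lit 478) (nat_lit 174)) (XT.nd (nat_lit 78) (nat_lit 1748) (nat_lit 0) (XT.lf (nat_lit 76) (nat_lit 26178165631) (nat_lit 0) (nat_lit 4957799837) (nat_lit 1824) (nat_lit 562827332) (nat_lit 452) (nat_lit 5) (nat_lit 451) (nat_lit 5) (nat_lit 475) (nat_lit 5) (nat_lit 489) (nat_lit 478) (nat_lit 173)) (XT.lf (nat_lit 0) (nat_lit 654689892) (nat_lit 1824) (nat_lit 21457697833) (nat_lit 1900) (nat_lit 9913515181)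 (nat_lit 428) (nat_lit 5) (nat_lit 452) (nat_lit 5) (nat_lit 453) (nat_lit 5) (nat_lit 490) (nat_lit 478) (nat_lit 172))))) (XT.nd (nat_lit 234) (nat_lit 0) (nat_lit 152) (XT.nd (nat_lit 78) (nat_lit 0) (nat_lit 76) (XT.lf (nat_lit 0) (nat_lit 1957422727) (nat_lit 1824) (nat_lit 5343166369) (nat_lit 1900) (nat_lit 25057524051) (nat_lit 428) (nat_lit 5) (nat_lit 452) (nat_lit 5) (nat_lit 453) (nat_lit 5) (nat_lit 491) (nat_lit 478) (nat_lit 171)) (XT.nd (nat_lit 78) (nat_lit 0) (nat_lit 0) (XT.lf (nat_lit 0) (nat_lit 3408668557) (nat_lit 1824) (nat_lit 21506821551) (nat_lit 1900) (nat_lit 7779028679) (nat_lit 429) (nat_lit 5) (nat_lit 453) (nat_lit 5) (nat_lit 454) (nat_lit 5) (nat_lit 492) (nat_lit 478) (nat_lit 170)) (XT.lf (nat_lit 0) (nat_lit 4971713141) (nat_lit 1824) (nat_lit 4965114783) (nat_lit 1900) (nat_lit 23099169492) (nat_lit 429) (nat_lit 5) (nat_lit 453) (nat_lit 5) (nat_lit 454) (nat_lit 5) (nat_lit 493) (nat_lit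 478) (nat_lit 169)))) (XT.nd (nat_lit 58188) (nat_lit 0) (nat_lit 1292) (XT.lf (nat_lit 0) (nat_lit 6677916235) (nat_lit 1824) (nat_lit 21353496060) (nat_lit 1900) (nat_lit 5350655718) (nat_lit 430) (nat_lit 5) (nat_lit 454) (nat_lit 5) (nat_lit 455) (nat_lit 5) (nat_lit 494) (nat_lit 478) (nat_lit 168)) (XT.nd (nat_lit 78) (nat_lit 0) (nat_lit 0) (XT.lf (nat_lit 0) (nat_lit 5589238406) (nat_lit 0) (nat_lit 5589238406) (nat_lit 1748) (nat_lit 3293716775) (nat_lit 447) (nat_lit 5) (nat_lit 447) (nat_lit 3) (nat_lit 470) (nat_lit 3) (nat_lit 479) (nat_lit 479) (nat_lit 182)) (XT.lf (nat_lit 0) (nat_lit 22676930289) (nat_lit 1748) (nat_lit 3718367926) (nat_lit 1824) (nat_lit 2836587569) (nat_lit 447) (nat_lit 5) (nat_lit 470) (nat_lit 3) (nat_lit 471) (nat_lit 5) (nat_lit 480) (nat_lit 479) (nat_lit 181))))))) (XT.nd (nat_lit 936) (nat_lit 0) (nat_lit 76) (XT.nd (nat_lit 468) (nat_lit 1444) (nat_lit 0) (XT.nd (nat_lit 234) (nat_lit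 0) (nat_lit 152) (XT.nd (nat_lit 78) (nat_lit 0) (nat_lit 76) (XT.lf (nat_lit 76) (nat_lit 10675033192) (nat_lit 0) (nat_lit 12469579669) (nat_lit 1824) (nat_lit 6377695825) (nat_lit 448) (nat_lit 5) (nat_lit 447) (nat_lit 5) (nat_lit 471) (nat_lit 5) (nat_lit 481) (nat_lit 479) (nat_lit 180)) (XT.nd (nat_lit 78) (nat_lit 0) (nat_lit 0) (XT.lf (nat_lit 0) (nat_lit 23656035458) (nat_lit 1748) (nat_lit 4423869988) (nat_lit 1824) (nat_lit 1737947313) (nat_lit 448) (nat_lit 5) (nat_lit 471) (nat_lit 5) (nat_lit 472) (nat_lit 5) (nat_lit 482) (nat_lit 479) (nat_lit 179)) (XT.lf (nat_lit 76) (nat_lit 10339948612) (nat_lit 0) (nat_lit 13985497186) (nat_lit 1824) (nat_lit 5790907161) (nat_lit 449) (nat_lit 5) (nat_lit 448) (nat_lit 5) (nat_lit 472) (nat_lit 5) (nat_lit 483) (nat_lit 479) (nat_lit 178)))) (XT.nd (nat_lit 78) (nat_lit 0) (nat_lit 0) (XT.lf (nat_lit 0) (nat_lit 25038747070) (nat_lit 1748) (nat_lit 4965075591) (nat_lit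 1824) (nat_lit 416390872) (nat_lit 449) (nat_lit 5) (nat_lit 472) (nat_lit 5) (nat_lit 473) (nat_lit 5) (nat_lit 484) (nat_lit 479) (nat_lit 177)) (XT.nd (nat_lit 78) (nat_lit 0) (nat_lit 0) (XT.lf (nat_lit 76) (nat_lit 10182302761) (nat_lit 0) (nat_lit 15740860958) (nat_lit 1824) (nat_lit 4803851026) (nat_lit 450) (nat_lit 5) (nat_lit 449) (nat_lit 5) (nat_lit 473) (nat_lit 5) (nat_lit 485) (nat_lit 479) (nat_lit 176)) (XT.lf (nat_lit 76) (nat_lit 25698838302) (nat_lit 0) (nat_lit 1157898339) (nat_lit 1824) (nat_lit 4182586390) (nat_lit 450) (nat_lit 5) (nat_lit 449) (nat_lit 5) (nat_lit 473) (nat_lit 5) (nat_lit 486) (nat_lit 479) (nat_lit 175))))) (XT.nd (nat_lit 234) (nat_lit 1672) (nat_lit 0) (XT.nd (nat_lit 78) (nat_lit 0) (nat_lit 0) (XT.lf (nat_lit 76) (nat_lit 10211582396) (nat_lit 0) (nat_lit 17750947826) (nat_lit 1824) (nat_lit 3392276673) (nat_lit 451) (nat_lit 5) (nat_lit 450) (nat_lit 5) (nat_lit 474) (nat_lit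 5) (nat_lit 487) (nat_lit 479) (nat_lit 174)) (XT.nd (nat_lit 78) (nat_lit 0) (nat_lit 76) (XT.lf (nat_lit 76) (nat_lit 26138206412) (nat_lit 0) (nat_lit 2993907542) (nat_lit 1824) (nat_lit 2543653389) (nat_lit 451) (nat_lit 5) (nat_lit 450) (nat_lit 5) (nat_lit 474) (nat_lit 5) (nat_lit 488) (nat_lit 479) (nat_lit 173)) (XT.lf (nat_lit 76) (nat_lit 10437693894) (nat_lit 0) (nat_lit 20031712488) (nat_lit 1824) (nat_lit 1530854661) (nat_lit 452) (nat_lit 5) (nat_lit 451) (nat_lit 5) (nat_lit 475) (nat_lit 5) (nat_lit 489) (nat_lit 479) (nat_lit 172)))) (XT.nd (nat_lit 78) (nat_lit 1748) (nat_lit 0) (XT.lf (nat_lit 76) (nat_lit 26786309676) (nat_lit 0) (nat_lit 5102276872) (nat_lit 1824) (nat_lit 441555607) (nat_lit 452) (nat_lit 5) (nat_lit 451) (nat_lit 5) (nat_lit 475) (nat_lit 5) (nat_lit 490) (nat_lit 479) (nat_lit 171)) (XT.nd (nat_lit 78) (nat_lit 0) (nat_lit 0) (XT.lf (nat_lit 0) (nat_lit 796287039) (nat_lit 1824) (nat_lit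 21798190867) (nat_lit 1900) (nat_lit 10069345630) (nat_lit 428) (nat_lit 5) (nat_lit 452) (nat_lit 5) (nat_lit 453) (nat_lit 5) (nat_lit 491) (nat_lit 479) (nat_lit 170)) (XT.lf (nat_lit 0) (nat_lit 2122554857) (nat_lit 1824) (nat_lit 5363107223) (nat_lit 1900) (nat_lit 25517066832) (nat_lit 428) (nat_lit 5) (nat_lit 452) (nat_lit 5) (nat_lit 453) (nat_lit 5) (nat_lit 492) (nat_lit 479) (nat_lit 169)))))) (XT.nd (nat_lit 58734) (nat_lit 0) (nat_lit 1520) (XT.nd (nat_lit 58500) (nat_lit 0) (nat_lit 1368) (XT.nd (nat_lit 58344) (nat_lit 0) (nat_lit 1368) (XT.lf (nat_lit 0) (nat_lit 3600671056) (nat_lit 1824) (nat_lit 21847854663) (nat_lit 1900) (nat_lit 7897380563) (nat_lit 429) (nat_lit 5) (nat_lit 453) (nat_lit 5) (nat_lit 454) (nat_lit 5) (nat_lit 493) (nat_lit 479) (nat_lit 168)) (XT.nd (nat_lit 78) (nat_lit 0) (nat_lit 0) (XT.lf (nat_lit 0) (nat_lit 5739643471) (nat_lit 0) (nat_lit 5739643471) (nat_lit 1748) (nat_lit 3280788696)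 (nat_lit 447) (nat_lit 5) (nat_lit 447) (nat_lit 3) (nat_lit 470) (nat_lit 3) (nat_lit 480) (nat_lit 480) (nat_lit 180)) (XT.lf (nat_lit 0) (nat_lit 23281429375) (nat_lit 1748) (nat_lit 3713455154) (nat_lit 1824) (nat_lit 2818586409) (nat_lit 447) (nat_lit 5) (nat_lit 470) (nat_lit 3) (nat_lit 471) (nat_lit 5) (nat_lit 481) (nat_lit 480) (nat_lit 179)))) (XT.nd (nat_lit 78) (nat_lit 0) (nat_lit 76) (XT.lf (nat_lit 76) (nat_lit 10967292406) (nat_lit 0) (nat_lit 12788724535) (nat_lit 1824) (nat_lit 6353734984) (nat_lit 448) (nat_lit 5) (nat_lit 447) (nat_lit 5) (nat_lit 471) (nat_lit 5) (nat_lit 482) (nat_lit 480) (nat_lit 178)) (XT.nd (nat_lit 78) (nat_lit 0) (nat_lit 0) (XT.lf (nat_lit 0) (nat_lit 24274311989) (nat_lit 1748) (nat_lit 4431745065) (nat_lit 1824) (nat_lit 1705217587) (nat_lit 448) (nat_lit 5) (nat_lit 471) (nat_lit 5) (nat_lit 472) (nat_lit 5) (nat_lit 483) (nat_lit 480) (nat_lit 177)) (XT.lf (nat_lit 76) (nat_lit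 10626819629) (nat_lit 0) (nat_lit 14327964596) (nat_lit 1824) (nat_lit 5761007776) (nat_lit 449) (nat_lit 5) (nat_lit 448) (nat_lit 5) (nat_lit 472) (nat_lit 5) (nat_lit 484) (nat_lit 480) (nat_lit 176))))) (XT.nd (nat_lit 234) (nat_lit 0) (nat_lit 76) (XT.nd (nat_lit 78) (nat_lit 0) (nat_lit 0) (XT.lf (nat_lit 0) (nat_lit 25679151470) (nat_lit 1748) (nat_lit 4982644234) (nat_lit 1824) (nat_lit 363998699) (nat_lit 449) (nat_lit 5) (nat_lit 472) (nat_lit 5) (nat_lit 473) (nat_lit 5) (nat_lit 485) (nat_lit 480) (nat_lit 175)) (XT.nd (nat_lit 78) (nat_lit 0) (nat_lit 0) (XT.lf (nat_lit 76) (nat_lit 10467143968) (nat_lit 0) (nat_lit 16111901824) (nat_lit 1824) (nat_lit 4759730665) (nat_lit 450) (nat_lit 5) (nat_lit 449) (nat_lit 5) (nat_lit 473) (nat_lit 5) (nat_lit 486) (nat_lit 480) (nat_lit 174)) (XT.lf (nat_lit 76) (nat_lit 26292418158) (nat_lit 0) (nat_lit 1236177528) (nat_lit 1824) (nat_lit 4128789704) (nat_lit 450) (nat_lit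 5) (nat_lit 449) (nat_lit 5) (nat_lit 473) (nat_lit 5) (nat_lit 487) (nat_lit 480) (nat_lit 173)))) (XT.nd (nat_lit 78) (nat_lit 0) (nat_lit 0) (XT.lf (nat_lit 76) (nat_lit 10497955139) (nat_lit 0) (nat_lit 18156090795) (nat_lit 1824) (nat_lit 3325182762) (nat_lit 451) (nat_lit 5) (nat_lit 450) (nat_lit 5) (nat_lit 474) (nat_lit 5) (nat_lit 488) (nat_lit 480) (nat_lit 172)) (XT.nd (nat_lit 78) (nat_lit 0) (nat_lit 76) (XT.lf (nat_lit 76) (nat_lit 26741501025) (nat_lit 0) (nat_lit 3102926882) (nat_lit 1824) (nat_lit 2462232884) (nat_lit 451) (nat_lit 5) (nat_lit 450) (nat_lit 5) (nat_lit 474) (nat_lit 5) (nat_lit 489) (nat_lit 480) (nat_lit 171)) (XT.lf (nat_lit 76) (nat_lit 10729370059) (nat_lit 0) (nat_lit 20476779128) (nat_lit 1824) (nat_lit 1431542076) (nat_lit 452) (nat_lit 5) (nat_lit 451) (nat_lit 5) (nat_lit 475) (nat_lit 5) (nat_lit 490) (nat_lit 480) (nat_lit 170))))))))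
noncomputable def xc255 : XT := (XT.nd (nat_lit 118638) (nat_lit 0) (nat_lit 1444) (XT.nd (nat_lit 59202) (nat_lit 0) (nat_lit 1444) (XT.nd (nat_lit 58734) (nat_lit 0) (nat_lit 1444) (XT.nd (nat_lit 156) (nat_lit 0) (nat_lit 0) (XT.nd (nat_lit 78) (nat_lit 1748) (nat_lit 0) (XT.lf (nat_lit 76) (nat_lit 27403332230) (nat_lit 0) (nat_lit 5247883576) (nat_lit 1824) (nat_lit 323004682) (nat_lit 452) (nat_lit 5) (nat_lit 451) (nat_lit 5) (nat_lit 475) (nat_lit 5) (nat_lit 491) (nat_lit 480) (nat_lit 169)) (XT.lf (nat_lit 0) (nat_lit 935726188) (nat_lit 1824) (nat_lit 22148936574) (nat_lit 1900) (nat_lit 10229940680) (nat_lit 428) (nat_lit 5) (nat_lit 452) (nat_lit 5) (nat_lit 453) (nat_lit 5) (nat_lit 492) (nat_lit 480) (nat_lit 168))) (XT.nd (nat_lit 58422) (nat_lit 0) (nat_lit 1444) (XT.lf (nat_lit 0) (nat_lit 2286097531) (nat_lit 1824) (nat_lit 5386822201) (nat_lit 1900) (nat_lit 25987416146) (nat_lit 428) (nat_lit 5) (nat_lit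 452) (nat_lit 5) (nat_lit 453) (nat_lit 5) (nat_lit 493) (nat_lit 480) (nat_lit 167)) (XT.nd (nat_lit 78) (nat_lit 0) (nat_lit 0) (XT.lf (nat_lit 0) (nat_lit 5891556963) (nat_lit 0) (nat_lit 5891556963) (nat_lit 1748) (nat_lit 3270662049) (nat_lit 447) (nat_lit 5) (nat_lit 447) (nat_lit 3) (nat_lit 470) (nat_lit 3) (nat_lit 481) (nat_lit 481) (nat_lit 178)) (XT.lf (nat_lit 0) (nat_lit 23892156462) (nat_lit 1748) (nat_lit 3711522671) (nat_lit 1824) (nat_lit 2803127197) (nat_lit 447) (nat_lit 5) (nat_lit 470) (nat_lit 3) (nat_lit 471) (nat_lit 5) (nat_lit 482) (nat_lit 481) (nat_lit 177))))) (XT.nd (nat_lit 234) (nat_lit 0) (nat_lit 152) (XT.nd (nat_lit 78) (nat_lit 0) (nat_lit 76) (XT.lf (nat_lit 76) (nat_lit 11262338515) (nat_lit 0) (nat_lit 13111543694) (nat_lit 1824) (nat_lit 6335178429) (nat_lit 448) (nat_lit 5) (nat_lit 447) (nat_lit 5) (nat_lit 471) (nat_lit 5) (nat_lit 483) (nat_lit 481) (nat_lit 176)) (XT.nd (nat_lit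 78) (nat_lit 0) (nat_lit 0) (XT.lf (nat_lit 0) (nat_lit 24899317474) (nat_lit 1748) (nat_lit 4442907530) (nat_lit 1824) (nat_lit 1674453934) (nat_lit 448) (nat_lit 5) (nat_lit 471) (nat_lit 5) (nat_lit 472) (nat_lit 5) (nat_lit 484) (nat_lit 481) (nat_lit 175)) (XT.lf (nat_lit 76) (nat_lit 10916318771) (nat_lit 0) (nat_lit 14674844405) (nat_lit 1824) (nat_lit 5736168792) (nat_lit 449) (nat_lit 5) (nat_lit 448) (nat_lit 5) (nat_lit 472) (nat_lit 5) (nat_lit 485) (nat_lit 481) (nat_lit 174)))) (XT.nd (nat_lit 78) (nat_lit 0) (nat_lit 0) (XT.lf (nat_lit 0) (nat_lit 26326941975) (nat_lit 1748) (nat_lit 5003738037) (nat_lit 1824) (nat_lit 312916513) (nat_lit 449) (nat_lit 5) (nat_lit 472) (nat_lit 5) (nat_lit 473) (nat_lit 5) (nat_lit 486) (nat_lit 481) (nat_lit 173)) (XT.nd (nat_lit 78) (nat_lit 0) (nat_lit 0) (XT.lf (nat_lit 76) (nat_lit 10754529093) (nat_lit 0) (nat_lit 16488180274) (nat_lit 1824) (nat_lit 4720171931) (nat_lit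 450) (nat_lit 5) (nat_lit 449) (nat_lit 5) (nat_lit 473) (nat_lit 5) (nat_lit 487) (nat_lit 481) (nat_lit 172)) (XT.lf (nat_lit 76) (nat_lit 26894778527) (nat_lit 0) (nat_lit 1313881876) (nat_lit 1824) (nat_lit 4079254373) (nat_lit 450) (nat_lit 5) (nat_lit 449) (nat_lit 5) (nat_lit 473) (nat_lit 5) (nat_lit 488) (nat_lit 481) (nat_lit 171)))))) (XT.nd (nat_lit 58968) (nat_lit 0) (nat_lit 0) (XT.nd (nat_lit 234) (nat_lit 228) (nat_lit 0) (XT.nd (nat_lit 78) (nat_lit 0) (nat_lit 0) (XT.lf (nat_lit 76) (nat_lit 10786865698) (nat_lit 0) (nat_lit 18567390247) (nat_lit 1824) (nat_lit 3261986836) (nat_lit 451) (nat_lit 5) (nat_lit 450) (nat_lit 5) (nat_lit 474) (nat_lit 5) (nat_lit 489) (nat_lit 481) (nat_lit 170)) (XT.nd (nat_lit 78) (nat_lit 0) (nat_lit 76) (XT.lf (nat_lit 76) (nat_lit 27353734434) (nat_lit 0) (nat_lit 3212218396) (nat_lit 1824) (nat_lit 2384321090) (nat_lit 451) (nat_lit 5) (nat_lit 450) (nat_lit 5) (nat_lit 474)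 (nat_lit 5) (nat_lit 490) (nat_lit 481) (nat_lit 169)) (XT.lf (nat_lit 76) (nat_lit 11023659773) (nat_lit 0) (nat_lit 20929021737) (nat_lit 1824) (nat_lit 1335288567) (nat_lit 452) (nat_lit 5) (nat_lit 451) (nat_lit 5) (nat_lit 475) (nat_lit 5) (nat_lit 491) (nat_lit 481) (nat_lit 168)))) (XT.nd (nat_lit 58578) (nat_lit 304) (nat_lit 0) (XT.lf (nat_lit 76) (nat_lit 28029538397) (nat_lit 0) (nat_lit 5394710881) (nat_lit 1824) (nat_lit 207029138) (nat_lit 452) (nat_lit 5) (nat_lit 451) (nat_lit 5) (nat_lit 475) (nat_lit 5) (nat_lit 492) (nat_lit 481) (nat_lit 167)) (XT.nd (nat_lit 78) (nat_lit 0) (nat_lit 0) (XT.lf (nat_lit 0) (nat_lit 6045067287) (nat_lit 0) (nat_lit 6045067287) (nat_lit 1748) (nat_lit 3263274040) (nat_lit 447) (nat_lit 5) (nat_lit 447) (nat_lit 3) (nat_lit 470) (nat_lit 3) (nat_lit 482) (nat_lit 482) (nat_lit 176)) (XT.lf (nat_lit 0) (nat_lit 24509463740) (nat_lit 1748) (nat_lit 3712510539) (nat_lit 1824) (nat_lit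 2790148083) (nat_lit 447) (nat_lit 5) (nat_lit 470) (nat_lit 3) (nat_lit 471) (nat_lit 5) (nat_lit 483) (nat_lit 482) (nat_lit 175))))) (XT.nd (nat_lit 234) (nat_lit 0) (nat_lit 152) (XT.nd (nat_lit 78) (nat_lit 0) (nat_lit 76) (XT.lf (nat_lit 76) (nat_lit 11560346012) (nat_lit 0) (nat_lit 13438215810) (nat_lit 1824) (nat_lit 6321905782) (nat_lit 448) (nat_lit 5) (nat_lit 447) (nat_lit 5) (nat_lit 471) (nat_lit 5) (nat_lit 484) (nat_lit 482) (nat_lit 174)) (XT.nd (nat_lit 78) (nat_lit 0) (nat_lit 0) (XT.lf (nat_lit 0) (nat_lit 25531405365) (nat_lit 1748) (nat_lit 4457301593) (nat_lit 1824) (nat_lit 1645593911) (nat_lit 448) (nat_lit 5) (nat_lit 471) (nat_lit 5) (nat_lit 472) (nat_lit 5) (nat_lit 485) (nat_lit 482) (nat_lit 173)) (XT.lf (nat_lit 76) (nat_lit 11208619338) (nat_lit 0) (nat_lit 15026319491) (nat_lit 1824) (nat_lit 5716271695) (nat_lit 449) (nat_lit 5) (nat_lit 448) (nat_lit 5) (nat_lit 472) (nat_lit 5) (nat_lit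 486) (nat_lit 482) (nat_lit 172)))) (XT.nd (nat_lit 78) (nat_lit 0) (nat_lit 0) (XT.lf (nat_lit 0) (nat_lit 26982476851) (nat_lit 1748) (nat_lit 5028304261) (nat_lit 1824) (nat_lit 263078958) (nat_lit 449) (nat_lit 5) (nat_lit 472) (nat_lit 5) (nat_lit 473) (nat_lit 5) (nat_lit 487) (nat_lit 482) (nat_lit 171)) (XT.nd (nat_lit 78) (nat_lit 0) (nat_lit 0) (XT.lf (nat_lit 76) (nat_lit 11044631445) (nat_lit 0) (nat_lit 16869885837) (nat_lit 1824) (nat_lit 4685054660) (nat_lit 450) (nat_lit 5) (nat_lit 449) (nat_lit 5) (nat_lit 473) (nat_lit 5) (nat_lit 488) (nat_lit 482) (nat_lit 170)) (XT.lf (nat_lit 76) (nat_lit 27506215048) (nat_lit 0) (nat_lit 1391083002) (nat_lit 1824) (nat_lit 4033858372) (nat_lit 450) (nat_lit 5) (nat_lit 449) (nat_lit 5) (nat_lit 473) (nat_lit 5) (nat_lit 489) (nat_lit 482) (nat_lit 169))))))) (XT.nd (nat_lit 118326) (nat_lit 0) (nat_lit 0) (XT.nd (nat_lit 59124) (nat_lit 0) (nat_lit 0) (XT.nd (nat_lit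 58890) (nat_lit 0) (nat_lit 0) (XT.nd (nat_lit 78) (nat_lit 228) (nat_lit 0) (XT.lf (nat_lit 76) (nat_lit 11078488687) (nat_lit 0) (nat_lit 18985044891) (nat_lit 1824) (nat_lit 3202563385) (nat_lit 451) (nat_lit 5) (nat_lit 450) (nat_lit 5) (nat_lit 474) (nat_lit 5) (nat_lit 490) (nat_lit 482) (nat_lit 168)) (XT.nd (nat_lit 58734) (nat_lit 228) (nat_lit 0) (XT.lf (nat_lit 76) (nat_lit 27975206843) (nat_lit 0) (nat_lit 3321861626) (nat_lit 1824) (nat_lit 2309788700) (nat_lit 451) (nat_lit 5) (nat_lit 450) (nat_lit 5) (nat_lit 474) (nat_lit 5) (nat_lit 491) (nat_lit 482) (nat_lit 167)) (XT.lf (nat_lit 0) (nat_lit 6200262351) (nat_lit 0) (nat_lit 6200262351) (nat_lit 1748) (nat_lit 3258565232) (nat_lit 447) (nat_lit 5) (nat_lit 447) (nat_lit 3) (nat_lit 470) (nat_lit 3) (nat_lit 483) (nat_lit 483) (nat_lit 174)))) (XT.nd (nat_lit 78) (nat_lit 0) (nat_lit 0) (XT.lf (nat_lit 0) (nat_lit 25133701601) (nat_lit 1748) (nat_lit 3716362263)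 (nat_lit 1824) (nat_lit 2779590358) (nat_lit 447) (nat_lit 5) (nat_lit 470) (nat_lit 3) (nat_lit 471) (nat_lit 5) (nat_lit 484) (nat_lit 483) (nat_lit 173)) (XT.nd (nat_lit 78) (nat_lit 0) (nat_lit 76) (XT.lf (nat_lit 76) (nat_lit 11861488271) (nat_lit 0) (nat_lit 13768919036) (nat_lit 1824) (nat_lit 6313803129) (nat_lit 448) (nat_lit 5) (nat_lit 447) (nat_lit 5) (nat_lit 471) (nat_lit 5) (nat_lit 485) (nat_lit 483) (nat_lit 172)) (XT.lf (nat_lit 0) (nat_lit 26170927689) (nat_lit 1748) (nat_lit 4474875069) (nat_lit 1824) (nat_lit 1618577780) (nat_lit 448) (nat_lit 5) (nat_lit 471) (nat_lit 5) (nat_lit 472) (nat_lit 5) (nat_lit 486) (nat_lit 483) (nat_lit 171))))) (XT.nd (nat_lit 234) (nat_lit 76) (nat_lit 0) (XT.nd (nat_lit 78) (nat_lit 0) (nat_lit 76) (XT.lf (nat_lit 76) (nat_lit 11503893409) (nat_lit 0) (nat_lit 15382572714) (nat_lit 1824) (nat_lit 5701204134) (nat_lit 449) (nat_lit 5) (nat_lit 448) (nat_lit 5) (nat_lit 472)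 (nat_lit 5) (nat_lit 487) (nat_lit 483) (nat_lit 170)) (XT.nd (nat_lit 78) (nat_lit 0) (nat_lit 0) (XT.lf (nat_lit 0) (nat_lit 27646113351) (nat_lit 1748) (nat_lit 5056293898) (nat_lit 1824) (nat_lit 214422923) (nat_lit 449) (nat_lit 5) (nat_lit 472) (nat_lit 5) (nat_lit 473) (nat_lit 5) (nat_lit 488) (nat_lit 483) (nat_lit 169)) (XT.lf (nat_lit 76) (nat_lit 11337623046) (nat_lit 0) (nat_lit 17257208543) (nat_lit 1824) (nat_lit 4654264490) (nat_lit 450) (nat_lit 5) (nat_lit 449) (nat_lit 5) (nat_lit 473) (nat_lit 5) (nat_lit 489) (nat_lit 483) (nat_lit 168)))) (XT.nd (nat_lit 78) (nat_lit 152) (nat_lit 0) (XT.lf (nat_lit 76) (nat_lit 28127024615) (nat_lit 0) (nat_lit 1467850729) (nat_lit 1824) (nat_lit 3992485282) (nat_lit 450) (nat_lit 5) (nat_lit 449) (nat_lit 5) (nat_lit 473) (nat_lit 5) (nat_lit 490) (nat_lit 483) (nat_lit 167)) (XT.nd (nat_lit 58812) (nat_lit 228) (nat_lit 0) (XT.lf (nat_lit 76) (nat_lit 11372997402) (nat_lit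 0) (nat_lit 19409254478) (nat_lit 1824) (nat_lit 3146792288) (nat_lit 451) (nat_lit 5) (nat_lit 450) (nat_lit 5) (nat_lit 474) (nat_lit 5) (nat_lit 491) (nat_lit 483) (nat_lit 166)) (XT.lf (nat_lit 0) (nat_lit 6357229649) (nat_lit 0) (nat_lit 6357229649) (nat_lit 1748) (nat_lit 3256479435) (nat_lit 447) (nat_lit 5) (nat_lit 447) (nat_lit 3) (nat_lit 470) (nat_lit 3) (nat_lit 484) (nat_lit 484) (nat_lit 172)))))) (XT.nd (nat_lit 59436) (nat_lit 0) (nat_lit 0) (XT.nd (nat_lit 234) (nat_lit 0) (nat_lit 76) (XT.nd (nat_lit 78) (nat_lit 0) (nat_lit 0) (XT.lf (nat_lit 0) (nat_lit 25765218949) (nat_lit 1748) (nat_lit 3723024680) (nat_lit 1824) (nat_lit 2771398346) (nat_lit 447) (nat_lit 5) (nat_lit 470) (nat_lit 3) (nat_lit 471) (nat_lit 5) (nat_lit 485) (nat_lit 484) (nat_lit 171)) (XT.nd (nat_lit 78) (nat_lit 0) (nat_lit 76) (XT.lf (nat_lit 76) (nat_lit 12165937701) (nat_lit 0) (nat_lit 14103831163) (nat_lit 1824) (nat_lit 6310762805)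 (nat_lit 448) (nat_lit 5) (nat_lit 447) (nat_lit 5) (nat_lit 471) (nat_lit 5) (nat_lit 486) (nat_lit 484) (nat_lit 170)) (XT.lf (nat_lit 0) (nat_lit 26818235339) (nat_lit 1748) (nat_lit 4495579264) (nat_lit 1824) (nat_lit 1593348403) (nat_lit 448) (nat_lit 5) (nat_lit 471) (nat_lit 5) (nat_lit 472) (nat_lit 5) (nat_lit 487) (nat_lit 484) (nat_lit 169)))) (XT.nd (nat_lit 78) (nat_lit 0) (nat_lit 76) (XT.lf (nat_lit 76) (nat_lit 11802311996) (nat_lit 0) (nat_lit 15743787062) (nat_lit 1824) (nat_lit 5690859709) (nat_lit 449) (nat_lit 5) (nat_lit 448) (nat_lit 5) (nat_lit 472) (nat_lit 5) (nat_lit 488) (nat_lit 484) (nat_lit 168)) (XT.nd (nat_lit 78) (nat_lit 0) (nat_lit 0) (XT.lf (nat_lit 0) (nat_lit 28318208016) (nat_lit 1748) (nat_lit 5087661560) (nat_lit 1824) (nat_lit 166887454) (nat_lit 449) (nat_lit 5) (nat_lit 472) (nat_lit 5) (nat_lit 473) (nat_lit 5) (nat_lit 489) (nat_lit 484) (nat_lit 167)) (XT.lf (nat_lit 76) (nat_lit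 11633674787) (nat_lit 0) (nat_lit 17650339054) (nat_lit 1824) (nat_lit 4627692664) (nat_lit 450) (nat_lit 5) (nat_lit 449) (nat_lit 5) (nat_lit 473) (nat_lit 5) (nat_lit 490) (nat_lit 484) (nat_lit 166))))) (XT.nd (nat_lit 234) (nat_lit 0) (nat_lit 0) (XT.nd (nat_lit 78) (nat_lit 0) (nat_lit 0) (XT.lf (nat_lit 0) (nat_lit 26404363501) (nat_lit 1748) (nat_lit 3732447853) (nat_lit 1824) (nat_lit 2765519297) (nat_lit 447) (nat_lit 5) (nat_lit 470) (nat_lit 3) (nat_lit 471) (nat_lit 5) (nat_lit 486) (nat_lit 485) (nat_lit 169)) (XT.nd (nat_lit 78) (nat_lit 0) (nat_lit 76) (XT.lf (nat_lit 76) (nat_lit 12473865898) (nat_lit 0) (nat_lit 14443129764) (nat_lit 1824) (nat_lit 6312683188) (nat_lit 448) (nat_lit 5) (nat_lit 447) (nat_lit 5) (nat_lit 471) (nat_lit 5) (nat_lit 487) (nat_lit 485) (nat_lit 168)) (XT.lf (nat_lit 0) (nat_lit 27473678378) (nat_lit 1748) (nat_lit 4519368871) (nat_lit 1824) (nat_lit 1569851154) (nat_lit 448) (nat_lit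 5) (nat_lit 471) (nat_lit 5) (nat_lit 472) (nat_lit 5) (nat_lit 488) (nat_lit 485) (nat_lit 167)))) (XT.nd (nat_lit 59202) (nat_lit 76) (nat_lit 0) (XT.lf (nat_lit 76) (nat_lit 12104045201) (nat_lit 0) (nat_lit 16110145783) (nat_lit 1824) (nat_lit 5685137776) (nat_lit 449) (nat_lit 5) (nat_lit 448) (nat_lit 5) (nat_lit 472) (nat_lit 5) (nat_lit 489) (nat_lit 485) (nat_lit 166)) (XT.nd (nat_lit 78) (nat_lit 0) (nat_lit 0) (XT.lf (nat_lit 0) (nat_lit 27051482079) (nat_lit 1748) (nat_lit 3744584969) (nat_lit 1824) (nat_lit 2761903292) (nat_lit 447) (nat_lit 5) (nat_lit 470) (nat_lit 3) (nat_lit 471) (nat_lit 5) (nat_lit 487) (nat_lit 486) (nat_lit 167)) (XT.lf (nat_lit 76) (nat_lit 12785443795) (nat_lit 0) (nat_lit 14786992339) (nat_lit 1824) (nat_lit 6319468499) (nat_lit 448) (nat_lit 5) (nat_lit 447) (nat_lit 5) (nat_lit 471) (nat_lit 5) (nat_lit 488) (nat_lit 486) (nat_lit 166))))))))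

set_option maxRecDepth 10000000 in
noncomputable def Tp : PT := (PT.nd (nat_lit 11708970) (PT.nd (nat_lit 10344204) (PT.nd (nat_lit 9097998) (PT.nd (nat_lit 7971132) (PT.nd (nat_lit 7081308) (PT.nd (nat_lit 6428682) pc0 pc1) (PT.nd (nat_lit 533442) pc2 pc3)) (PT.nd (nat_lit 652080) (PT.nd (nat_lit 355602) pc4 pc5) (PT.nd (nat_lit 237666) pc6 (PT.nd (nat_lit 118560) pc7 pc8)))) (PT.nd (nat_lit 712062) (PT.nd (nat_lit 414570) (PT.nd (nat_lit 178620) pc9 pc10) (PT.nd (nat_lit 120198) pc11 pc12)) (PT.nd (nat_lit 296244) (PT.nd (nat_lit 176982) pc13 pc14) (PT.nd (nat_lit 118950) pc15 (PT.nd (nat_lit 59436) pc16 pc17))))) (PT.nd (nat_lit 828282) (PT.nd (nat_lit 472680) (PT.nd (nat_lit 236964) (PT.nd (nat_lit 118638) pc18 pc19) (PT.nd (nat_lit 118014) pc20 pc21)) (PT.nd (nat_lit 178230) (PT.nd (nat_lit 61230) pc22 pc23) (PT.nd (nat_lit 60840) pc24 (PT.nd (nat_lit 58266) pc25 pc26)))) (PT.nd (nat_lit 296868) (PT.nd (nat_lit 121134)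 (PT.nd (nat_lit 60606) pc27 pc28) (PT.nd (nat_lit 60372) pc29 pc30)) (PT.nd (nat_lit 120042) (PT.nd (nat_lit 60060) pc31 pc32) (PT.nd (nat_lit 59826) pc33 (PT.nd (nat_lit 57174) pc34 pc35)))))) (PT.nd (nat_lit 831714) (PT.nd (nat_lit 472992) (PT.nd (nat_lit 237510) (PT.nd (nat_lit 119028) (PT.nd (nat_lit 59592) pc36 pc37) (PT.nd (nat_lit 59280) pc38 pc39)) (PT.nd (nat_lit 117936) (PT.nd (nat_lit 59046) pc40 pc41) (PT.nd (nat_lit 58812) pc42 (PT.nd (nat_lit 2496) pc43 pc44)))) (PT.nd (nat_lit 180024) (PT.nd (nat_lit 116844) (PT.nd (nat_lit 58500) pc45 pc46) (PT.nd (nat_lit 4992) pc47 pc48)) (PT.nd (nat_lit 115908) (PT.nd (nat_lit 58032) pc49 pc50) (PT.nd (nat_lit 57720) pc51 (PT.nd (nat_lit 2496) pc52 pc53))))) (PT.nd (nat_lit 469092) (PT.nd (nat_lit 178074) (PT.nd (nat_lit 114972) (PT.nd (nat_lit 57564) pc54 pc55) (PT.nd (nat_lit 4992) pc56 pc57)) (PT.nd (nat_lit 118872) (PT.nd (nat_lit 59124) pc58 pc59) (PT.nd (nat_lit 60138)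 pc60 (PT.nd (nat_lit 58032) pc61 pc62)))) (PT.nd (nat_lit 414492) (PT.nd (nat_lit 177840) (PT.nd (nat_lit 65676) pc63 pc64) (PT.nd (nat_lit 117936) pc65 (PT.nd (nat_lit 59280) pc66 pc67))) (PT.nd (nat_lit 305292) (PT.nd (nat_lit 126984) pc68 pc69) (PT.nd (nat_lit 227682) pc70 (PT.nd (nat_lit 129246) pc71 pc72)))))))

set_option maxRecDepth 10000000 in
noncomputable def Tx : XT := (XT.nd (nat_lit 18796830) (nat_lit 0) (nat_lit 1064) XT.nil (XT.nd (nat_lit 10089300) (nat_lit 0) (nat_lit 0) (XT.nd (nat_lit 4688424) (nat_lit 0) (nat_lit 5016) (XT.nd (nat_lit 3203382) (nat_lit 0) (nat_lit 2432) (XT.nd (nat_lit 2252796) (nat_lit 0) (nat_lit 1216) (XT.nd (nat_lit 1598766) (nat_lit 0) (nat_lit 608) (XT.nd (nat_lit 1068366) (nat_lit 0) (nat_lit 304) (XT.nd (nat_lit 769938) (nat_lit 0) (nat_lit 0) (XT.nd (nat_lit 533052) (nat_lit 0) (nat_lit 0) (XT.nd (nat_lit 355524) (nat_lit 0) (nat_lit 0) xc0 xc1) (XT.nd (nat_lit 118716) (nat_lit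 0) (nat_lit 0) xc2 xc3)) (XT.nd (nat_lit 177996) (nat_lit 0) (nat_lit 304) (XT.nd (nat_lit 60606) (nat_lit 0) (nat_lit 152) xc4 xc5) (XT.nd (nat_lit 60294) (nat_lit 0) (nat_lit 0) xc6 xc7))) (XT.nd (nat_lit 294606) (nat_lit 0) (nat_lit 76) (XT.nd (nat_lit 175734) (nat_lit 0) (nat_lit 0) (XT.nd (nat_lit 116064) (nat_lit 0) (nat_lit 0) xc8 xc9) (XT.nd (nat_lit 59514) (nat_lit 0) (nat_lit 76) xc10 xc11)) (XT.nd (nat_lit 118170) (nat_lit 0) (nat_lit 0) (XT.nd (nat_lit 59124) (nat_lit 0) (nat_lit 0) xc12 xc13) (XT.nd (nat_lit 58890) (nat_lit 0) (nat_lit 152) xc14 xc15)))) (XT.nd (nat_lit 356226) (nat_lit 0) (nat_lit 76) (XT.nd (nat_lit 178776) (nat_lit 0) (nat_lit 76) (XT.nd (nat_lit 62166) (nat_lit 0) (nat_lit 0) (XT.nd (nat_lit 3588) (nat_lit 304) (nat_lit 0) xc16 xc17) (XT.nd (nat_lit 58344) (nat_lit 0) (nat_lit 0) xc18 xc19)) (XT.nd (nat_lit 61698) (nat_lit 0) (nat_lit 0) (XT.nd (nat_lit 58032) (nat_lit 0) (nat_lit 1292) xc20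 xc21) (XT.nd (nat_lit 57954) (nat_lit 0) (nat_lit 0) xc22 xc23))) (XT.nd (nat_lit 176202) (nat_lit 0) (nat_lit 380) (XT.nd (nat_lit 61230) (nat_lit 0) (nat_lit 228) (XT.nd (nat_lit 3588) (nat_lit 380) (nat_lit 0) xc24 xc25) (XT.nd (nat_lit 57564) (nat_lit 0) (nat_lit 152) xc26 xc27)) (XT.nd (nat_lit 60840) (nat_lit 0) (nat_lit 0) (XT.nd (nat_lit 3588) (nat_lit 3800) (nat_lit 0) xc28 xc29) (XT.nd (nat_lit 3666) (nat_lit 760) (nat_lit 0) xc30 xc31))))) (XT.nd (nat_lit 532116) (nat_lit 0) (nat_lit 532) (XT.nd (nat_lit 293904) (nat_lit 0) (nat_lit 228) (XT.nd (nat_lit 120900) (nat_lit 0) (nat_lit 0) (XT.nd (nat_lit 60528) (nat_lit 0) (nat_lit 0) (XT.nd (nat_lit 56862) (nat_lit 0) (nat_lit 2888) xc32 xc33) (XT.nd (nat_lit 56706) (nat_lit 0) (nat_lit 912) xc34 xc35)) (XT.nd (nat_lit 113022) (nat_lit 0) (nat_lit 228) (XT.nd (nat_lit 56550) (nat_lit 0) (nat_lit 228) xc36 xc37) (XT.nd (nat_lit 3666) (nat_lit 5548) (nat_lit 0) xc38 xc39)))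 (XT.nd (nat_lit 119418) (nat_lit 0) (nat_lit 152) (XT.nd (nat_lit 59748) (nat_lit 0) (nat_lit 152) (XT.nd (nat_lit 3588) (nat_lit 4028) (nat_lit 0) xc40 xc41) (XT.nd (nat_lit 3666) (nat_lit 2736) (nat_lit 0) xc42 xc43)) (XT.nd (nat_lit 59436) (nat_lit 0) (nat_lit 0) (XT.nd (nat_lit 3588) (nat_lit 2432) (nat_lit 0) xc44 xc45) (XT.nd (nat_lit 3666) (nat_lit 2204) (nat_lit 0) xc46 xc47)))) (XT.nd (nat_lit 235794) (nat_lit 0) (nat_lit 380) (XT.nd (nat_lit 118170) (nat_lit 0) (nat_lit 228) (XT.nd (nat_lit 59124) (nat_lit 0) (nat_lit 76) (XT.nd (nat_lit 3588) (nat_lit 2280) (nat_lit 0) xc48 xc49) (XT.nd (nat_lit 3666) (nat_lit 2508) (nat_lit 0) xc50 xc51)) (XT.nd (nat_lit 58812) (nat_lit 0) (nat_lit 152) (XT.nd (nat_lit 3588) (nat_lit 3496) (nat_lit 0) xc52 xc53) (XT.nd (nat_lit 3666) (nat_lit 4560) (nat_lit 0) xc54 xc55))) (XT.nd (nat_lit 117078) (nat_lit 0) (nat_lit 304) (XT.nd (nat_lit 58578) (nat_lit 0) (nat_lit 76) (XT.nd (nat_lit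 3588) (nat_lit 6612) (nat_lit 0) xc56 xc57) (XT.nd (nat_lit 3666) (nat_lit 9348) (nat_lit 0) xc58 xc59)) (XT.nd (nat_lit 7254) (nat_lit 1368) (nat_lit 0) (XT.nd (nat_lit 3588) (nat_lit 11704) (nat_lit 0) xc60 xc61) (XT.nd (nat_lit 54678) (nat_lit 0) (nat_lit 3876) xc62 xc63)))))) (XT.nd (nat_lit 766974) (nat_lit 0) (nat_lit 1292) (XT.nd (nat_lit 410982) (nat_lit 0) (nat_lit 608) (XT.nd (nat_lit 231582) (nat_lit 0) (nat_lit 456) (XT.nd (nat_lit 116064) (nat_lit 0) (nat_lit 152) (XT.nd (nat_lit 58110) (nat_lit 0) (nat_lit 152) (XT.nd (nat_lit 54444) (nat_lit 0) (nat_lit 7904) xc64 xc65) (XT.nd (nat_lit 54288) (nat_lit 0) (nat_lit 13452) xc66 xc67)) (XT.nd (nat_lit 57798) (nat_lit 0) (nat_lit 0) (XT.nd (nat_lit 3588) (nat_lit 1672) (nat_lit 0) xc68 xc69) (XT.nd (nat_lit 3666) (nat_lit 5396) (nat_lit 0) xc70 xc71))) (XT.nd (nat_lit 64818) (nat_lit 0) (nat_lit 0) (XT.nd (nat_lit 7254) (nat_lit 608) (nat_lit 0) (XT.nd (nat_lit 3588)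 (nat_lit 10944) (nat_lit 0) xc72 xc73) (XT.nd (nat_lit 53898) (nat_lit 0) (nat_lit 5092) xc74 xc75)) (XT.nd (nat_lit 57330) (nat_lit 0) (nat_lit 152) (XT.nd (nat_lit 53664) (nat_lit 0) (nat_lit 12540) xc76 xc77) (XT.nd (nat_lit 3666) (nat_lit 988) (nat_lit 0) xc78 xc79)))) (XT.nd (nat_lit 177996) (nat_lit 0) (nat_lit 456) (XT.nd (nat_lit 64350) (nat_lit 0) (nat_lit 228) (XT.nd (nat_lit 57018) (nat_lit 0) (nat_lit 2964) (XT.nd (nat_lit 3588) (nat_lit 6840) (nat_lit 0) xc80 xc81) (XT.nd (nat_lit 3666) (nat_lit 14364) (nat_lit 0) xc82 xc83)) (XT.nd (nat_lit 56862) (nat_lit 0) (nat_lit 76) (XT.nd (nat_lit 53196) (nat_lit 0) (nat_lit 11096) xc84 xc85) (XT.nd (nat_lit 3666) (nat_lit 152) (nat_lit 0) xc86 xc87))) (XT.nd (nat_lit 64116) (nat_lit 0) (nat_lit 0) (XT.nd (nat_lit 56784) (nat_lit 0) (nat_lit 3800) (XT.nd (nat_lit 3588) (nat_lit 7220) (nat_lit 0) xc88 xc89) (XT.nd (nat_lit 3666) (nat_lit 15200) (nat_lit 0) xc90 xc91)) (XT.nd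 (nat_lit 56862) (nat_lit 0) (nat_lit 228) (XT.nd (nat_lit 53196) (nat_lit 0) (nat_lit 12996) xc92 xc93) (XT.nd (nat_lit 3666) (nat_lit 836) (nat_lit 0) xc94 xc95))))) (XT.nd (nat_lit 357786) (nat_lit 0) (nat_lit 532) (XT.nd (nat_lit 178620) (nat_lit 0) (nat_lit 304) (XT.nd (nat_lit 64272) (nat_lit 0) (nat_lit 304) (XT.nd (nat_lit 57018) (nat_lit 0) (nat_lit 3876) (XT.nd (nat_lit 3588) (nat_lit 7752) (nat_lit 0) xc96 xc97) (XT.nd (nat_lit 3588) (nat_lit 14820) (nat_lit 0) xc98 xc99)) (XT.nd (nat_lit 57096) (nat_lit 0) (nat_lit 0) (XT.nd (nat_lit 53430) (nat_lit 0) (nat_lit 11400) xc100 xc101) (XT.nd (nat_lit 3666) (nat_lit 228) (nat_lit 0) xc102 xc103))) (XT.nd (nat_lit 64506) (nat_lit 0) (nat_lit 0) (XT.nd (nat_lit 57174) (nat_lit 0) (nat_lit 1976) (XT.nd (nat_lit 3588) (nat_lit 6232) (nat_lit 0) xc104 xc105) (XT.nd (nat_lit 3666) (nat_lit 12996) (nat_lit 0) xc106 xc107)) (XT.nd (nat_lit 57252) (nat_lit 0) (nat_lit 228) (XT.nd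 (nat_lit 53586) (nat_lit 0) (nat_lit 8360) xc108 xc109) (XT.nd (nat_lit 53742) (nat_lit 0) (nat_lit 17404) xc110 xc111)))) (XT.nd (nat_lit 179868) (nat_lit 0) (nat_lit 532) (XT.nd (nat_lit 114972) (nat_lit 0) (nat_lit 304) (XT.nd (nat_lit 57408) (nat_lit 0) (nat_lit 228) (XT.nd (nat_lit 3588) (nat_lit 3040) (nat_lit 0) xc112 xc113) (XT.nd (nat_lit 3666) (nat_lit 9348) (nat_lit 0) xc114 xc115)) (XT.nd (nat_lit 7254) (nat_lit 3344) (nat_lit 0) (XT.nd (nat_lit 3588) (nat_lit 15200) (nat_lit 0) xc116 xc117) (XT.nd (nat_lit 53976) (nat_lit 0) (nat_lit 9272) xc118 xc119))) (XT.nd (nat_lit 115362) (nat_lit 0) (nat_lit 0) (XT.nd (nat_lit 57642) (nat_lit 0) (nat_lit 0) (XT.nd (nat_lit 53976) (nat_lit 0) (nat_lit 17556) xc120 xc121) (XT.nd (nat_lit 3666) (nat_lit 2812) (nat_lit 0) xc122 xc123)) (XT.nd (nat_lit 57720) (nat_lit 0) (nat_lit 2128) (XT.nd (nat_lit 3588) (nat_lit 8512) (nat_lit 0) xc124 xc125) (XT.nd (nat_lit 3666) (nat_lit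 13984) (nat_lit 0) xc126 xc127))))))) (XT.nd (nat_lit 1777464) (nat_lit 0) (nat_lit 4788) (XT.nd (nat_lit 830154) (nat_lit 0) (nat_lit 1520) (XT.nd (nat_lit 413634) (nat_lit 0) (nat_lit 608) (XT.nd (nat_lit 231738) (nat_lit 0) (nat_lit 608) (XT.nd (nat_lit 115674) (nat_lit 0) (nat_lit 380) (XT.nd (nat_lit 57798) (nat_lit 0) (nat_lit 0) (XT.nd (nat_lit 54132) (nat_lit 0) (nat_lit 6916) xc128 xc129) (XT.nd (nat_lit 54210) (nat_lit 0) (nat_lit 13224) xc130 xc131)) (XT.nd (nat_lit 57954) (nat_lit 0) (nat_lit 0) (XT.nd (nat_lit 3588) (nat_lit 608) (nat_lit 0) xc132 xc133) (XT.nd (nat_lit 3666) (nat_lit 4408) (nat_lit 0) xc134 xc135))) (XT.nd (nat_lit 65442) (nat_lit 0) (nat_lit 0) (XT.nd (nat_lit 58110) (nat_lit 0) (nat_lit 1292) (XT.nd (nat_lit 3588) (nat_lit 8664) (nat_lit 0) xc136 xc137) (XT.nd (nat_lit 3666) (nat_lit 13224) (nat_lit 0) xc138 xc139)) (XT.nd (nat_lit 58188) (nat_lit 0) (nat_lit 0) (XT.nd (nat_lit 54522) (nat_lit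 0) (nat_lit 4560) xc140 xc141) (XT.nd (nat_lit 54600) (nat_lit 0) (nat_lit 8664) xc142 xc143)))) (XT.nd (nat_lit 233376) (nat_lit 0) (nat_lit 608) (XT.nd (nat_lit 116532) (nat_lit 0) (nat_lit 304) (XT.nd (nat_lit 58266) (nat_lit 304) (nat_lit 0) (XT.nd (nat_lit 54600) (nat_lit 0) (nat_lit 13604) xc144 xc145) (XT.nd (nat_lit 3588) (nat_lit 1292) (nat_lit 0) xc146 xc147)) (XT.nd (nat_lit 58344) (nat_lit 0) (nat_lit 76) (XT.nd (nat_lit 3588) (nat_lit 3876) (nat_lit 0) xc148 xc149) (XT.nd (nat_lit 3666) (nat_lit 7296) (nat_lit 0) xc150 xc151))) (XT.nd (nat_lit 65832) (nat_lit 0) (nat_lit 0) (XT.nd (nat_lit 58500) (nat_lit 0) (nat_lit 1368) (XT.nd (nat_lit 3588) (nat_lit 11400) (nat_lit 0) xc152 xc153) (XT.nd (nat_lit 3666) (nat_lit 13984) (nat_lit 0) xc154 xc155)) (XT.nd (nat_lit 58578) (nat_lit 0) (nat_lit 304) (XT.nd (nat_lit 54912) (nat_lit 0) (nat_lit 3952) xc156 xc157) (XT.nd (nat_lit 55068) (nat_lit 0) (nat_lit 5776) xc158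 xc159))))) (XT.nd (nat_lit 471198) (nat_lit 0) (nat_lit 1368) (XT.nd (nat_lit 235014) (nat_lit 0) (nat_lit 684) (XT.nd (nat_lit 117390) (nat_lit 0) (nat_lit 380) (XT.nd (nat_lit 58656) (nat_lit 0) (nat_lit 0) (XT.nd (nat_lit 54990) (nat_lit 0) (nat_lit 8740) xc160 xc161) (XT.nd (nat_lit 55068) (nat_lit 0) (nat_lit 11704) xc162 xc163)) (XT.nd (nat_lit 58734) (nat_lit 0) (nat_lit 0) (XT.nd (nat_lit 55068) (nat_lit 0) (nat_lit 14592) xc164 xc165) (XT.nd (nat_lit 3666) (nat_lit 988) (nat_lit 0) xc166 xc167))) (XT.nd (nat_lit 117936) (nat_lit 0) (nat_lit 304) (XT.nd (nat_lit 58890) (nat_lit 0) (nat_lit 304) (XT.nd (nat_lit 3588) (nat_lit 2204) (nat_lit 0) xc168 xc169) (XT.nd (nat_lit 3666) (nat_lit 3496) (nat_lit 0) xc170 xc171)) (XT.nd (nat_lit 59046) (nat_lit 0) (nat_lit 380) (XT.nd (nat_lit 3588) (nat_lit 4788) (nat_lit 0) xc172 xc173) (XT.nd (nat_lit 3666) (nat_lit 5852) (nat_lit 0) xc174 xc175)))) (XT.nd (nat_lit 237432) (nat_lit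 0) (nat_lit 760) (XT.nd (nat_lit 118560) (nat_lit 0) (nat_lit 304) (XT.nd (nat_lit 59202) (nat_lit 0) (nat_lit 304) (XT.nd (nat_lit 3588) (nat_lit 6916) (nat_lit 0) xc176 xc177) (XT.nd (nat_lit 3666) (nat_lit 7068) (nat_lit 0) xc178 xc179)) (XT.nd (nat_lit 59358) (nat_lit 0) (nat_lit 456) (XT.nd (nat_lit 3588) (nat_lit 7600) (nat_lit 0) xc180 xc181) (XT.nd (nat_lit 3666) (nat_lit 7144) (nat_lit 0) xc182 xc183))) (XT.nd (nat_lit 119184) (nat_lit 0) (nat_lit 304) (XT.nd (nat_lit 59514) (nat_lit 0) (nat_lit 304) (XT.nd (nat_lit 3588) (nat_lit 7144) (nat_lit 0) xc184 xc185) (XT.nd (nat_lit 3666) (nat_lit 6308) (nat_lit 0) xc186 xc187)) (XT.nd (nat_lit 59670) (nat_lit 0) (nat_lit 380) (XT.nd (nat_lit 3588) (nat_lit 5776) (nat_lit 0) xc188 xc189) (XT.nd (nat_lit 3666) (nat_lit 3952) (nat_lit 0) xc190 xc191)))))) (XT.nd (nat_lit 1131156) (nat_lit 0) (nat_lit 5472) (XT.nd (nat_lit 534846) (nat_lit 0) (nat_lit 2052) (XT.nd (nat_lit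 240084) (nat_lit 0) (nat_lit 836) (XT.nd (nat_lit 119808) (nat_lit 0) (nat_lit 380) (XT.nd (nat_lit 59826) (nat_lit 0) (nat_lit 380) (XT.nd (nat_lit 3588) (nat_lit 2508) (nat_lit 0) xc192 xc193) (XT.nd (nat_lit 3588) (nat_lit 836) (nat_lit 0) xc194 xc195)) (XT.nd (nat_lit 60060) (nat_lit 0) (nat_lit 380) (XT.nd (nat_lit 56394) (nat_lit 0) (nat_lit 10564) xc196 xc197) (XT.nd (nat_lit 56550) (nat_lit 0) (nat_lit 6460) xc198 xc199))) (XT.nd (nat_lit 173706) (nat_lit 0) (nat_lit 760) (XT.nd (nat_lit 60216) (nat_lit 0) (nat_lit 380) (XT.nd (nat_lit 56550) (nat_lit 0) (nat_lit 3116) xc200 xc201) (XT.nd (nat_lit 56706) (nat_lit 0) (nat_lit 0) xc202 xc203)) (XT.nd (nat_lit 60450) (nat_lit 0) (nat_lit 456) (XT.nd (nat_lit 3588) (nat_lit 10108) (nat_lit 0) xc204 xc205) (XT.nd (nat_lit 3666) (nat_lit 4484) (nat_lit 0) xc206 xc207)))) (XT.nd (nat_lit 297024) (nat_lit 0) (nat_lit 1900) (XT.nd (nat_lit 121446) (nat_lit 0) (nat_lit 912) (XT.nd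 (nat_lit 60606) (nat_lit 0) (nat_lit 456) (XT.nd (nat_lit 3588) (nat_lit 456) (nat_lit 0) xc208 xc209) (XT.nd (nat_lit 57174) (nat_lit 0) (nat_lit 4028) xc210 xc211)) (XT.nd (nat_lit 114504) (nat_lit 0) (nat_lit 456) (XT.nd (nat_lit 57174) (nat_lit 0) (nat_lit 0) xc212 xc213) (XT.nd (nat_lit 3666) (nat_lit 6232) (nat_lit 0) xc214 xc215))) (XT.nd (nat_lit 176358) (nat_lit 0) (nat_lit 988) (XT.nd (nat_lit 61074) (nat_lit 0) (nat_lit 0) (XT.nd (nat_lit 57408) (nat_lit 0) (nat_lit 6992) xc216 xc217) (XT.nd (nat_lit 57564) (nat_lit 0) (nat_lit 456) xc218 xc219)) (XT.nd (nat_lit 61386) (nat_lit 0) (nat_lit 0) (XT.nd (nat_lit 3588) (nat_lit 6004) (nat_lit 0) xc220 xc221) (XT.nd (nat_lit 57876) (nat_lit 0) (nat_lit 4028) xc222 xc223))))) (XT.nd (nat_lit 828126) (nat_lit 0) (nat_lit 6232) (XT.nd (nat_lit 356538) (nat_lit 0) (nat_lit 2280) (XT.nd (nat_lit 177762) (nat_lit 0) (nat_lit 1064) (XT.nd (nat_lit 115986) (nat_lit 0) (nat_lit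 1064) (XT.nd (nat_lit 57876) (nat_lit 0) (nat_lit 532) xc224 xc225) (XT.nd (nat_lit 58110) (nat_lit 0) (nat_lit 5092) xc226 xc227)) (XT.nd (nat_lit 116610) (nat_lit 0) (nat_lit 1216) (XT.nd (nat_lit 58188) (nat_lit 0) (nat_lit 684) xc228 xc229) (XT.nd (nat_lit 58500) (nat_lit 0) (nat_lit 1900) xc230 xc231))) (XT.nd (nat_lit 234936) (nat_lit 0) (nat_lit 2508) (XT.nd (nat_lit 117234) (nat_lit 0) (nat_lit 1216) (XT.nd (nat_lit 58500) (nat_lit 0) (nat_lit 608) xc232 xc233) (XT.nd (nat_lit 58812) (nat_lit 0) (nat_lit 76) xc234 xc235)) (XT.nd (nat_lit 118092) (nat_lit 0) (nat_lit 684) (XT.nd (nat_lit 58968) (nat_lit 0) (nat_lit 0) xc236 xc237) (XT.nd (nat_lit 59202) (nat_lit 0) (nat_lit 684) xc238 xc239)))) (XT.nd (nat_lit 535236) (nat_lit 0) (nat_lit 5320) (XT.nd (nat_lit 238368) (nat_lit 0) (nat_lit 2888) (XT.nd (nat_lit 118950) (nat_lit 0) (nat_lit 1368) (XT.nd (nat_lit 59358) (nat_lit 0) (nat_lit 684) xc240 xc241) (XT.nd (nat_lit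 59670) (nat_lit 0) (nat_lit 0) xc242 xc243)) (XT.nd (nat_lit 119808) (nat_lit 0) (nat_lit 836) (XT.nd (nat_lit 59826) (nat_lit 0) (nat_lit 0) xc244 xc245) (XT.nd (nat_lit 60138) (nat_lit 0) (nat_lit 760) xc246 xc247))) (XT.nd (nat_lit 356928) (nat_lit 0) (nat_lit 4636) (XT.nd (nat_lit 177918) (nat_lit 0) (nat_lit 1748) (XT.nd (nat_lit 60372) (nat_lit 0) (nat_lit 836) xc248 xc249) (XT.nd (nat_lit 60762) (nat_lit 0) (nat_lit 988) xc250 xc251)) (XT.nd (nat_lit 237978) (nat_lit 0) (nat_lit 0) (XT.nd (nat_lit 118716) (nat_lit 0) (nat_lit 0) xc252 xc253) (XT.nd (nat_lit 177996) (nat_lit 0) (nat_lit 0) xc254 xc255)))))))) XT.nil))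

set_option maxRecDepth 10000000 in
noncomputable def Te : XT := XT.nil

set_option maxRecDepth 10000000 in
noncomputable def Tz : ZL := (ZL.cons (nat_lit 76) (nat_lit 3) (nat_lit 154584339677409121062) (ZL.cons (nat_lit 152) (nat_lit 6) (nat_lit 306201117478298950110) (ZL.cons (nat_lit 684) (nat_lit 3) (nat_lit 101848329867993764742) (ZL.cons (nat_lit 760) (nat_lit 6) (nat_lit 201851410656451964312) (ZL.cons (nat_lit 836) (nat_lit 6) (nat_lit 200046377004213689240) (ZL.cons (nat_lit 912) (nat_lit 3) (nat_lit 100004099291986052193) (ZL.cons (nat_lit 1064) (nat_lit 6) (nat_lit 198205242678930648666) (ZL.cons (nat_lit 1140) (nat_lit 6) (nat_lit 196441835899796208348) (ZL.cons (nat_lit 1216) (nat_lit 3) (nat_lit 98202203038014974343) (ZL.cons (nat_lit 1368) (nat_lit 6) (nat_lit 194643160985079079222) (ZL.cons (nat_lit 1444) (nat_lit 6) (nat_lit 192920816721728647774) (ZL.cons (nat_lit 1520) (nat_lit 3) (nat_lit 96442060408037726015)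 (ZL.cons (nat_lit 1596) (nat_lit 6) (nat_lit 191236697856855771824) (ZL.cons (nat_lit 1672) (nat_lit 6) (nat_lit 191164025573111207700) (ZL.cons (nat_lit 1748) (nat_lit 6) (nat_lit 189482200709032242608) (ZL.cons (nat_lit 1824) (nat_lit 3) (nat_lit 94723112165470437114) (ZL.cons (nat_lit 1900) (nat_lit 6) (nat_lit 187837986684676172844) (ZL.cons (nat_lit 1976) (nat_lit 6) (nat_lit 187766739347671698212) (ZL.cons (nat_lit 2128) (nat_lit 6) (nat_lit 186124912001741613306) (ZL.cons (nat_lit 2204) (nat_lit 3) (nat_lit 93044820521414253527) (ZL.cons (nat_lit 2280) (nat_lit 6) (nat_lit 184520098439289470460) (ZL.cons (nat_lit 2356) (nat_lit 6) (nat_lit 184450248108892926704) (ZL.cons (nat_lit 2508) (nat_lit 6) (nat_lit 182847917646675178504) (ZL.cons (nat_lit 2584) (nat_lit 3) (nat_lit 91406669137595870500) (ZL.cons (nat_lit 2660) (nat_lit 6) (nat_lit 181282021291288118240) (ZL.cons (nat_lit 2736) (nat_lit 6) (nat_lit 181213540575213075340)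 (ZL.cons (nat_lit 2812) (nat_lit 6) (nat_lit 179751944965729633334) (ZL.cons (nat_lit 2888) (nat_lit 6) (nat_lit 179650227637309879264) (ZL.cons (nat_lit 2964) (nat_lit 3) (nat_lit 89808163146359136934) (ZL.cons (nat_lit 3040) (nat_lit 6) (nat_lit 178122786397584935832) (ZL.cons (nat_lit 3116) (nat_lit 6) (nat_lit 178055648440648619266) (ZL.cons (nat_lit 3192) (nat_lit 6) (nat_lit 176630617859473647030) (ZL.cons (nat_lit 3268) (nat_lit 6) (nat_lit 176530894988473888138) (ZL.cons (nat_lit 3344) (nat_lit 3) (nat_lit 88248829188064588484) (ZL.cons (nat_lit 3496) (nat_lit 6) (nat_lit 175041467993663815886) (ZL.cons (nat_lit 3572) (nat_lit 6) (nat_lit 174975646467255662390) (ZL.cons (nat_lit 3648) (nat_lit 6) (nat_lit 173586783367200829932) (ZL.cons (nat_lit 3724) (nat_lit 6) (nat_lit 173489015846612831018) (ZL.cons (nat_lit 3800) (nat_lit 3) (nat_lit 86728215466274694346) (ZL.cons (nat_lit 3952) (nat_lit 6) (nat_lit 172037183521800430762)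 (ZL.cons (nat_lit 4028) (nat_lit 6) (nat_lit 171972652613557143018) (ZL.cons (nat_lit 4104) (nat_lit 6) (nat_lit 170619580146808731264) (ZL.cons (nat_lit 4180) (nat_lit 6) (nat_lit 170523729636428340172) (ZL.cons (nat_lit 4256) (nat_lit 3) (nat_lit 85245891821124247377) (ZL.cons (nat_lit 4332) (nat_lit 6) (nat_lit 169235649798745578924) (ZL.cons (nat_lit 4408) (nat_lit 6) (nat_lit 169109093796073910036) (ZL.cons (nat_lit 4484) (nat_lit 6) (nat_lit 169045828199756961270) (ZL.cons (nat_lit 4560) (nat_lit 6) (nat_lit 167728190333340772442) (ZL.cons (nat_lit 4636) (nat_lit 6) (nat_lit 167634219244732545880) (ZL.cons (nat_lit 4712) (nat_lit 3) (nat_lit 83801449821297721266) (ZL.cons (nat_lit 4788) (nat_lit 6) (nat_lit 166380477717459228120) (ZL.cons (nat_lit 4864) (nat_lit 6) (nat_lit 166256403205036023330) (ZL.cons (nat_lit 4940) (nat_lit 6) (nat_lit 166194378110607642186) (ZL.cons (nat_lit 5092) (nat_lit 6) (nat_lit 164911839760651826350)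 (ZL.cons (nat_lit 5168) (nat_lit 6) (nat_lit 164819711242408466978) (ZL.cons (nat_lit 5244) (nat_lit 3) (nat_lit 82394502875058594591) (ZL.cons (nat_lit 5320) (nat_lit 6) (nat_lit 163600001631797843492) (ZL.cons (nat_lit 5396) (nat_lit 6) (nat_lit 163478359952951564286) (ZL.cons (nat_lit 5472) (nat_lit 6) (nat_lit 163417551036845308262) (ZL.cons (nat_lit 5548) (nat_lit 6) (nat_lit 162320374372149033980) (ZL.cons (nat_lit 5624) (nat_lit 6) (nat_lit 162169798222123421606) (ZL.cons (nat_lit 5700) (nat_lit 6) (nat_lit 162079476145414245748) (ZL.cons (nat_lit 5776) (nat_lit 3) (nat_lit 81024686360799633760) (ZL.cons (nat_lit 5852) (nat_lit 6) (nat_lit 160893512888460969072) (ZL.cons (nat_lit 5928) (nat_lit 6) (nat_lit 160774256340572460046) (ZL.cons (nat_lit 6004) (nat_lit 6) (nat_lit 160714639756154561984) (ZL.cons (nat_lit 6080) (nat_lit 6) (nat_lit 159649003447911790042) (ZL.cons (nat_lit 6156) (nat_lit 6) (nat_lit 159501379771416091632)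 (ZL.cons (nat_lit 6232) (nat_lit 6) (nat_lit 159412828715818860402) (ZL.cons (nat_lit 6308) (nat_lit 3) (nat_lit 79691657777607970284) (ZL.cons (nat_lit 6460) (nat_lit 6) (nat_lit 158260347270663118404) (ZL.cons (nat_lit 6536) (nat_lit 6) (nat_lit 158143429086458697790) (ZL.cons (nat_lit 6612) (nat_lit 6) (nat_lit 158084981454676444788) (ZL.cons (nat_lit 6688) (nat_lit 6) (nat_lit 157050672158901480366) (ZL.cons (nat_lit 6764) (nat_lit 6) (nat_lit 156905943064297854478) (ZL.cons (nat_lit 6840) (nat_lit 6) (nat_lit 156819128303908412092) (ZL.cons (nat_lit 6916) (nat_lit 3) (nat_lit 78395096916364539462) (ZL.cons (nat_lit 6992) (nat_lit 6) (nat_lit 155871880053734408252) (ZL.cons (nat_lit 7068) (nat_lit 6) (nat_lit 155699885360700188954) (ZL.cons (nat_lit 7144) (nat_lit 6) (nat_lit 155585259689911541294) (ZL.cons (nat_lit 7220) (nat_lit 6) (nat_lit 155527958090125018742) (ZL.cons (nat_lit 7296) (nat_lit 6) (nat_lit 154524783011860368808)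 (ZL.cons (nat_lit 7372) (nat_lit 6) (nat_lit 154382891742641127738) (ZL.cons (nat_lit 7448) (nat_lit 6) (nat_lit 154297779232455399912) (ZL.cons (nat_lit 7524) (nat_lit 3) (nat_lit 77134706051924105264) (ZL.cons (nat_lit 7600) (nat_lit 6) (nat_lit 153380175193327868614) (ZL.cons (nat_lit 7676) (nat_lit 6) (nat_lit 153211552945255104596) (ZL.cons (nat_lit 7752) (nat_lit 6) (nat_lit 153099174836638783360) (ZL.cons (nat_lit 7828) (nat_lit 6) (nat_lit 153042996797632388702) (ZL.cons (nat_lit 7980) (nat_lit 6) (nat_lit 152070783949205477348) (ZL.cons (nat_lit 8056) (nat_lit 6) (nat_lit 151931674861735633164) (ZL.cons (nat_lit 8132) (nat_lit 6) (nat_lit 151848231224298645096) (ZL.cons (nat_lit 8208) (nat_lit 3) (nat_lit 75910210156949719911) (ZL.cons (nat_lit 8284) (nat_lit 6) (nat_lit 150960137394101638298) (ZL.cons (nat_lit 8360) (nat_lit 6) (nat_lit 150794821464618536320) (ZL.cons (nat_lit 8436) (nat_lit 6) (nat_lit 150684646848328025304)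 (ZL.cons (nat_lit 8512) (nat_lit 6) (nat_lit 150629570339498226620) (ZL.cons (nat_lit 8588) (nat_lit 6) (nat_lit 149879177732274919272) (ZL.cons (nat_lit 8664) (nat_lit 6) (nat_lit 149688168820425878282) (ZL.cons (nat_lit 8740) (nat_lit 6) (nat_lit 149551787362122109472) (ZL.cons (nat_lit 8816) (nat_lit 6) (nat_lit 149469979874438787840) (ZL.cons (nat_lit 8892) (nat_lit 3) (nat_lit 74721357138004097215) (ZL.cons (nat_lit 8968) (nat_lit 6) (nat_lit 148611282947728563890) (ZL.cons (nat_lit 9044) (nat_lit 6) (nat_lit 148449208507058856068) (ZL.cons (nat_lit 9120) (nat_lit 6) (nat_lit 148341194177362276642) (ZL.cons (nat_lit 9196) (nat_lit 6) (nat_lit 148287197600078160284) (ZL.cons (nat_lit 9272) (nat_lit 6) (nat_lit 147563741538341221648) (ZL.cons (nat_lit 9348) (nat_lit 6) (nat_lit 147376477899273534400) (ZL.cons (nat_lit 9424) (nat_lit 6) (nat_lit 147242770587211015962) (ZL.cons (nat_lit 9500) (nat_lit 6) (nat_lit 147162567167913641810)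 (ZL.cons (nat_lit 9576) (nat_lit 3) (nat_lit 73567918094530059431) (ZL.cons (nat_lit 9652) (nat_lit 6) (nat_lit 146545133791711150636) (ZL.cons (nat_lit 9728) (nat_lit 6) (nat_lit 146333174860096424738) (ZL.cons (nat_lit 9804) (nat_lit 6) (nat_lit 146174278349635926874) (ZL.cons (nat_lit 9880) (nat_lit 6) (nat_lit 146068381947972613710) (ZL.cons (nat_lit 9956) (nat_lit 6) (nat_lit 146015444127105832968) (ZL.cons (nat_lit 10032) (nat_lit 6) (nat_lit 145318890251080790956) (ZL.cons (nat_lit 10108) (nat_lit 6) (nat_lit 145135298448073254442) (ZL.cons (nat_lit 10184) (nat_lit 6) (nat_lit 145004212848011961852) (ZL.cons (nat_lit 10260) (nat_lit 6) (nat_lit 144925582044779242098) (ZL.cons (nat_lit 10336) (nat_lit 3) (nat_lit 72449687601382992152) (ZL.cons (nat_lit 10412) (nat_lit 6) (nat_lit 144333226313556430850) (ZL.cons (nat_lit 10488) (nat_lit 6) (nat_lit 144125423439424346636) (ZL.cons (nat_lit 10564) (nat_lit 6) (nat_lit 143969642546816015396)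 (ZL.cons (nat_lit 10640) (nat_lit 6) (nat_lit 143865822545185316216) (ZL.cons (nat_lit 10716) (nat_lit 6) (nat_lit 143813922720806119410) (ZL.cons (nat_lit 10868) (nat_lit 6) (nat_lit 143144257294274047028) (ZL.cons (nat_lit 10944) (nat_lit 6) (nat_lit 142964265330541168088) (ZL.cons (nat_lit 11020) (nat_lit 6) (nat_lit 142835750036363430258) (ZL.cons (nat_lit 11096) (nat_lit 6) (nat_lit 142758661013586254026) (ZL.cons (nat_lit 11172) (nat_lit 3) (nat_lit 71366484015610157507) (ZL.cons (nat_lit 11248) (nat_lit 6) (nat_lit 142191415241585041764) (ZL.cons (nat_lit 11324) (nat_lit 6) (nat_lit 141987686933612410182) (ZL.cons (nat_lit 11400) (nat_lit 6) (nat_lit 141834960568310124652) (ZL.cons (nat_lit 11476) (nat_lit 6) (nat_lit 141733176252985909770) (ZL.cons (nat_lit 11552) (nat_lit 6) (nat_lit 141682294072221991332) (ZL.cons (nat_lit 11628) (nat_lit 6) (nat_lit 141266523617807256734) (ZL.cons (nat_lit 11704) (nat_lit 6) (nat_lit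 141039524384109377460) (ZL.cons (nat_lit 11780) (nat_lit 6) (nat_lit 140863061674567339288) (ZL.cons (nat_lit 11856) (nat_lit 6) (nat_lit 140737066288118576706) (ZL.cons (nat_lit 11932) (nat_lit 6) (nat_lit 140661488814807619618) (ZL.cons (nat_lit 12008) (nat_lit 3) (nat_lit 70318149808204820096) (ZL.cons (nat_lit 12084) (nat_lit 6) (nat_lit 140119405853581284420) (ZL.cons (nat_lit 12160) (nat_lit 6) (nat_lit 139919672218313998556) (ZL.cons (nat_lit 12236) (nat_lit 6) (nat_lit 139769940487625483332) (ZL.cons (nat_lit 12312) (nat_lit 6) (nat_lit 139670151943189978544) (ZL.cons (nat_lit 12388) (nat_lit 6) (nat_lit 139620267452244960468) (ZL.cons (nat_lit 12464) (nat_lit 6) (nat_lit 139226970511231845532) (ZL.cons (nat_lit 12540) (nat_lit 6) (nat_lit 139004422242900591344) (ZL.cons (nat_lit 12616) (nat_lit 6) (nat_lit 138831419586486828428) (ZL.cons (nat_lit 12692) (nat_lit 6) (nat_lit 138707894697811570998) (ZL.cons (nat_lit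 12768) (nat_lit 6) (nat_lit 138633799135742005222) (ZL.cons (nat_lit 12844) (nat_lit 3) (nat_lit 69304551921597483286) (ZL.cons (nat_lit 12920) (nat_lit 6) (nat_lit 138361868382417002196) (ZL.cons (nat_lit 12996) (nat_lit 6) (nat_lit 138116952826768132004) (ZL.cons (nat_lit 13072) (nat_lit 6) (nat_lit 137921135537290400764) (ZL.cons (nat_lit 13148) (nat_lit 6) (nat_lit 137774339722889895642) (ZL.cons (nat_lit 13224) (nat_lit 6) (nat_lit 137676507816580577224) (ZL.cons (nat_lit 13300) (nat_lit 6) (nat_lit 137627601452908990874) (ZL.cons (nat_lit 13376) (nat_lit 6) (nat_lit 137256915942694607806) (ZL.cons (nat_lit 13452) (nat_lit 6) (nat_lit 137038731365899260562) (ZL.cons (nat_lit 13528) (nat_lit 6) (nat_lit 136869120918434787116) (ZL.cons (nat_lit 13604) (nat_lit 6) (nat_lit 136748018086400221006) (ZL.cons (nat_lit 13680) (nat_lit 6) (nat_lit 136675375378488882014) (ZL.cons (nat_lit 13756) (nat_lit 3) (nat_lit 68325582153682167157)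 (ZL.cons (nat_lit 13832) (nat_lit 6) (nat_lit 136423974321313715408) (ZL.cons (nat_lit 13908) (nat_lit 6) (nat_lit 136183861031461881884) (ZL.cons (nat_lit 13984) (nat_lit 6) (nat_lit 135991883296679792434) (ZL.cons (nat_lit 14060) (nat_lit 6) (nat_lit 135847965831581258000) (ZL.cons (nat_lit 14136) (nat_lit 6) (nat_lit 135752052197944671316) (ZL.cons (nat_lit 14212) (nat_lit 6) (nat_lit 135704104782580370974) (ZL.cons (nat_lit 14288) (nat_lit 6) (nat_lit 135617801318852364262) (ZL.cons (nat_lit 14364) (nat_lit 6) (nat_lit 135356189290709857916) (ZL.cons (nat_lit 14440) (nat_lit 6) (nat_lit 135142282842871282186) (ZL.cons (nat_lit 14516) (nat_lit 6) (nat_lit 134975998090455131748) (ZL.cons (nat_lit 14592) (nat_lit 6) (nat_lit 134857269823754576740) (ZL.cons (nat_lit 14668) (nat_lit 6) (nat_lit 134786051482665028706) (ZL.cons (nat_lit 14744) (nat_lit 3) (nat_lit 67381157569212638032) (ZL.cons (nat_lit 14820) (nat_lit 6) (nat_lit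 134555391566489952570) (ZL.cons (nat_lit 14896) (nat_lit 6) (nat_lit 134319986380360704018) (ZL.cons (nat_lit 14972) (nat_lit 6) (nat_lit 134131772914888067300) (ZL.cons (nat_lit 15048) (nat_lit 6) (nat_lit 133990677360869896288) (ZL.cons (nat_lit 15124) (nat_lit 6) (nat_lit 133896644386716379930) (ZL.cons (nat_lit 15200) (nat_lit 6) (nat_lit 133849637116751379596) (ZL.cons (nat_lit 15276) (nat_lit 6) (nat_lit 133781153820478942352) (ZL.cons (nat_lit 15352) (nat_lit 6) (nat_lit 133524671439947073388) (ZL.cons (nat_lit 15428) (nat_lit 6) (nat_lit 133314959236183763848) (ZL.cons (nat_lit 15504) (nat_lit 6) (nat_lit 133151934969109106556) (ZL.cons (nat_lit 15580) (nat_lit 6) (nat_lit 133035534707637974194) (ZL.cons (nat_lit 15656) (nat_lit 6) (nat_lit 132965712804609005536) (ZL.cons (nat_lit 15732) (nat_lit 3) (nat_lit 66471220939441878922) (ZL.cons (nat_lit 15808) (nat_lit 6) (nat_lit 133033172430031332750) (ZL.cons (nat_lit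 15884) (nat_lit 6) (nat_lit 132756026133418463378) (ZL.cons (nat_lit 15960) (nat_lit 6) (nat_lit 132525236735252533426) (ZL.cons (nat_lit 16036) (nat_lit 6) (nat_lit 132340713729887203312) (ZL.cons (nat_lit 16112) (nat_lit 6) (nat_lit 132202384755359584670) (ZL.cons (nat_lit 16188) (nat_lit 6) (nat_lit 132110195565013000008) (ZL.cons (nat_lit 16264) (nat_lit 6) (nat_lit 132064110006223783992) (ZL.cons (nat_lit 16340) (nat_lit 6) (nat_lit 132013749031242901990) (ZL.cons (nat_lit 16416) (nat_lit 6) (nat_lit 131762295716995971630) (ZL.cons (nat_lit 16492) (nat_lit 6) (nat_lit 131556695517228021104) (ZL.cons (nat_lit 16568) (nat_lit 6) (nat_lit 131396867804409729640) (ZL.cons (nat_lit 16644) (nat_lit 6) (nat_lit 131282749901006658698) (ZL.cons (nat_lit 16720) (nat_lit 6) (nat_lit 131214297054899826678) (ZL.cons (nat_lit 16796) (nat_lit 3) (nat_lit 65595741210917929177) (ZL.cons (nat_lit 16872) (nat_lit 6) (nat_lit 131297549044360712532)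 (ZL.cons (nat_lit 16948) (nat_lit 6) (nat_lit 131025836988857899422) (ZL.cons (nat_lit 17024) (nat_lit 6) (nat_lit 130799572873008948488) (ZL.cons (nat_lit 17100) (nat_lit 6) (nat_lit 130618667965788036612) (ZL.cons (nat_lit 17176) (nat_lit 6) (nat_lit 130483051324094292848) (ZL.cons (nat_lit 17252) (nat_lit 6) (nat_lit 130392669764930974548) (ZL.cons (nat_lit 17328) (nat_lit 6) (nat_lit 130347487844549390220) (ZL.cons (nat_lit 17404) (nat_lit 6) (nat_lit 130607145310031941202) (ZL.cons (nat_lit 17480) (nat_lit 6) (nat_lit 130315571743493948924) (ZL.cons (nat_lit 17556) (nat_lit 6) (nat_lit 130069048886389115240) (ZL.cons (nat_lit 17632) (nat_lit 6) (nat_lit 129867480063087202956) (ZL.cons (nat_lit 17708) (nat_lit 6) (nat_lit 129710786226990838780) (ZL.cons (nat_lit 17784) (nat_lit 6) (nat_lit 129598905929536847658) (ZL.cons (nat_lit 17860) (nat_lit 6) (nat_lit 129531795296098777050) (ZL.cons (nat_lit 17936) (nat_lit 3) (nat_lit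 64754714004390580523) (ZL.cons (nat_lit 18088) (nat_lit 6) (nat_lit 129631221445513781334) (ZL.cons (nat_lit 18164) (nat_lit 6) (nat_lit 129364837077373768482) (ZL.cons (nat_lit 18240) (nat_lit 6) (nat_lit 129143009512815973448) (ZL.cons (nat_lit 18316) (nat_lit 6) (nat_lit 128965651760638608864) (ZL.cons (nat_lit 18392) (nat_lit 6) (nat_lit 128832694268781997330) (ZL.cons (nat_lit 18468) (nat_lit 6) (nat_lit 128744084897053253900) (ZL.cons (nat_lit 18544) (nat_lit 6) (nat_lit 128699788896679151616) (ZL.cons (nat_lit 18620) (nat_lit 6) (nat_lit 128972517722251522078) (ZL.cons (nat_lit 18696) (nat_lit 6) (nat_lit 128686661284469176710) (ZL.cons (nat_lit 18772) (nat_lit 6) (nat_lit 128444972208876202508) (ZL.cons (nat_lit 18848) (nat_lit 6) (nat_lit 128247355715442955174) (ZL.cons (nat_lit 18924) (nat_lit 6) (nat_lit 128093734307505343232) (ZL.cons (nat_lit 19000) (nat_lit 6) (nat_lit 127984047741373979390) (ZL.cons (nat_lit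 19076) (nat_lit 6) (nat_lit 127918253002709204284) (ZL.cons (nat_lit 19152) (nat_lit 3) (nat_lit 63948162144826359002) (ZL.cons (nat_lit 19228) (nat_lit 6) (nat_lit 128339202258521578110) (ZL.cons (nat_lit 19304) (nat_lit 6) (nat_lit 128034255556384004784) (ZL.cons (nat_lit 19380) (nat_lit 6) (nat_lit 127773094411148698066) (ZL.cons (nat_lit 19456) (nat_lit 6) (nat_lit 127555616406680271564) (ZL.cons (nat_lit 19532) (nat_lit 6) (nat_lit 127381736257486776872) (ZL.cons (nat_lit 19608) (nat_lit 6) (nat_lit 127251385775274412622) (ZL.cons (nat_lit 19684) (nat_lit 6) (nat_lit 127164513842207017104) (ZL.cons (nat_lit 19760) (nat_lit 6) (nat_lit 127121086390859858002) (ZL.cons (nat_lit 19836) (nat_lit 6) (nat_lit 127731026695318565142) (ZL.cons (nat_lit 19912) (nat_lit 6) (nat_lit 127407364047734689896) (ZL.cons (nat_lit 19988) (nat_lit 6) (nat_lit 127127112638144155220) (ZL.cons (nat_lit 20064) (nat_lit 6) (nat_lit 126890162564033396202)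 (ZL.cons (nat_lit 20140) (nat_lit 6) (nat_lit 126696420903804722342) (ZL.cons (nat_lit 20216) (nat_lit 6) (nat_lit 126545811680336475342) (ZL.cons (nat_lit 20292) (nat_lit 6) (nat_lit 126438275831188079416) (ZL.cons (nat_lit 20368) (nat_lit 6) (nat_lit 126373771185438299902) (ZL.cons (nat_lit 20444) (nat_lit 3) (nat_lit 63176136223573813540) (ZL.cons (nat_lit 20520) (nat_lit 6) (nat_lit 126805740918713918588) (ZL.cons (nat_lit 20596) (nat_lit 6) (nat_lit 126506773563677081992) (ZL.cons (nat_lit 20672) (nat_lit 6) (nat_lit 126250733225211095016) (ZL.cons (nat_lit 20748) (nat_lit 6) (nat_lit 126037519495340088640) (ZL.cons (nat_lit 20824) (nat_lit 6) (nat_lit 125867048760836662472) (ZL.cons (nat_lit 20900) (nat_lit 6) (nat_lit 125739254170432383796) (ZL.cons (nat_lit 20976) (nat_lit 6) (nat_lit 125654085608601603874) (ZL.cons (nat_lit 21052) (nat_lit 6) (nat_lit 125611509675908310640) (ZL.cons (nat_lit 21128) (nat_lit 6) (nat_lit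 126229150238682859186) (ZL.cons (nat_lit 21204) (nat_lit 6) (nat_lit 125911833917522197178) (ZL.cons (nat_lit 21280) (nat_lit 6) (nat_lit 125637077633609908282) (ZL.cons (nat_lit 21356) (nat_lit 6) (nat_lit 125404773639383673948) (ZL.cons (nat_lit 21432) (nat_lit 6) (nat_lit 125214830835237915264) (ZL.cons (nat_lit 21508) (nat_lit 6) (nat_lit 125067174733798457420) (ZL.cons (nat_lit 21584) (nat_lit 6) (nat_lit 124961747430711794748) (ZL.cons (nat_lit 21660) (nat_lit 6) (nat_lit 124898507581937501106) (ZL.cons (nat_lit 21736) (nat_lit 3) (nat_lit 62438715193767440347) (ZL.cons (nat_lit 21812) (nat_lit 6) (nat_lit 125677365893649342644) (ZL.cons (nat_lit 21888) (nat_lit 6) (nat_lit 125342060390014341998) (ZL.cons (nat_lit 21964) (nat_lit 6) (nat_lit 125048955139978227690) (ZL.cons (nat_lit 22040) (nat_lit 6) (nat_lit 124797935200305691436) (ZL.cons (nat_lit 22116) (nat_lit 6) (nat_lit 124588902131804704794) (ZL.cons (nat_lit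 22192) (nat_lit 6) (nat_lit 124421773960722914434) (ZL.cons (nat_lit 22268) (nat_lit 6) (nat_lit 124296485146601072594) (ZL.cons (nat_lit 22344) (nat_lit 6) (nat_lit 124212986556570896202) (ZL.cons (nat_lit 22420) (nat_lit 6) (nat_lit 124171245446087275382) (ZL.cons (nat_lit 22496) (nat_lit 6) (nat_lit 125150171497595708762) (ZL.cons (nat_lit 22572) (nat_lit 6) (nat_lit 124797229540554493764) (ZL.cons (nat_lit 22648) (nat_lit 6) (nat_lit 124486135108044040818) (ZL.cons (nat_lit 22724) (nat_lit 6) (nat_lit 124216766202247679152) (ZL.cons (nat_lit 22800) (nat_lit 6) (nat_lit 123989017188300390590) (ZL.cons (nat_lit 22876) (nat_lit 6) (nat_lit 123802798752863372272) (ZL.cons (nat_lit 22952) (nat_lit 6) (nat_lit 123658037869099197916) (ZL.cons (nat_lit 23028) (nat_lit 6) (nat_lit 123554677768033842356) (ZL.cons (nat_lit 23104) (nat_lit 6) (nat_lit 123492677916294338786) (ZL.cons (nat_lit 23180) (nat_lit 3) (nat_lit 61736007000106669189)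 (ZL.cons (nat_lit 23256) (nat_lit 6) (nat_lit 124277127709986001556) (ZL.cons (nat_lit 23332) (nat_lit 6) (nat_lit 123948396824069334258) (ZL.cons (nat_lit 23408) (nat_lit 6) (nat_lit 123661038735798633954) (ZL.cons (nat_lit 23484) (nat_lit 6) (nat_lit 123414940755727519980) (ZL.cons (nat_lit 23560) (nat_lit 6) (nat_lit 123210006374844199742) (ZL.cons (nat_lit 23636) (nat_lit 6) (nat_lit 123046155226724797428) (ZL.cons (nat_lit 23712) (nat_lit 6) (nat_lit 122923323056017109352) (ZL.cons (nat_lit 23788) (nat_lit 6) (nat_lit 122841461693242426614) (ZL.cons (nat_lit 23864) (nat_lit 6) (nat_lit 122800539035905543456) (ZL.cons (nat_lit 23940) (nat_lit 6) (nat_lit 123781550936806681652) (ZL.cons (nat_lit 24016) (nat_lit 6) (nat_lit 123435529410295686558) (ZL.cons (nat_lit 24092) (nat_lit 6) (nat_lit 123130534868618771902) (ZL.cons (nat_lit 24168) (nat_lit 6) (nat_lit 122866447706073319290) (ZL.cons (nat_lit 24244) (nat_lit 6) (nat_lit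 122643164359066173640) (ZL.cons (nat_lit 24320) (nat_lit 6) (nat_lit 122460597265500469406) (ZL.cons (nat_lit 24396) (nat_lit 6) (nat_lit 122318674830437553372) (ZL.cons (nat_lit 24472) (nat_lit 6) (nat_lit 122217341398020538118) (ZL.cons (nat_lit 24548) (nat_lit 6) (nat_lit 122156557229648475792) (ZL.cons (nat_lit 24624) (nat_lit 3) (nat_lit 61068149244196296521) (ZL.cons (nat_lit 24700) (nat_lit 6) (nat_lit 123310304877183914710) (ZL.cons (nat_lit 24776) (nat_lit 6) (nat_lit 122947331742247108052) (ZL.cons (nat_lit 24852) (nat_lit 6) (nat_lit 122625046559975865600) (ZL.cons (nat_lit 24928) (nat_lit 6) (nat_lit 122343322944024198636) (ZL.cons (nat_lit 25004) (nat_lit 6) (nat_lit 122102050414542714348) (ZL.cons (nat_lit 25080) (nat_lit 6) (nat_lit 121901134354853184702) (ZL.cons (nat_lit 25156) (nat_lit 6) (nat_lit 121740495974343966748) (ZL.cons (nat_lit 25232) (nat_lit 6) (nat_lit 121620072277571723536) (ZL.cons (nat_lit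 25308) (nat_lit 6) (nat_lit 121539816039557328694) (ZL.cons (nat_lit 25384) (nat_lit 6) (nat_lit 121499695787266266776) (ZL.cons (nat_lit 25460) (nat_lit 6) (nat_lit 122863204728741378074) (ZL.cons (nat_lit 25536) (nat_lit 6) (nat_lit 122483612369857697334) (ZL.cons (nat_lit 25612) (nat_lit 6) (nat_lit 122144375579160643318) (ZL.cons (nat_lit 25688) (nat_lit 6) (nat_lit 121845361322614648558) (ZL.cons (nat_lit 25764) (nat_lit 6) (nat_lit 121586452339726949918) (ZL.cons (nat_lit 25840) (nat_lit 6) (nat_lit 121367547097563081634) (ZL.cons (nat_lit 25916) (nat_lit 6) (nat_lit 121188559750930038268) (ZL.cons (nat_lit 25992) (nat_lit 6) (nat_lit 121049420108711493136) (ZL.cons (nat_lit 26068) (nat_lit 6) (nat_lit 120950073606341870336) (ZL.cons (nat_lit 26144) (nat_lit 6) (nat_lit 120890481284408475902) (ZL.cons (nat_lit 26220) (nat_lit 3) (nat_lit 60435309886686648367) (ZL.cons (nat_lit 26296) (nat_lit 6) (nat_lit 122044189442393184048)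 (ZL.cons (nat_lit 26372) (nat_lit 6) (nat_lit 121688333427749255950) (ZL.cons (nat_lit 26448) (nat_lit 6) (nat_lit 121372367562777449626) (ZL.cons (nat_lit 26524) (nat_lit 6) (nat_lit 121096167939295423190) (ZL.cons (nat_lit 26600) (nat_lit 6) (nat_lit 120859626243725340554) (ZL.cons (nat_lit 26676) (nat_lit 6) (nat_lit 120662649714617958550) (ZL.cons (nat_lit 26752) (nat_lit 6) (nat_lit 120505161106275588006) (ZL.cons (nat_lit 26828) (nat_lit 6) (nat_lit 120387098658459663286) (ZL.cons (nat_lit 26904) (nat_lit 6) (nat_lit 120308416072171040894) (ZL.cons (nat_lit 26980) (nat_lit 6) (nat_lit 120269082491493529210) (ZL.cons (nat_lit 27056) (nat_lit 6) (nat_lit 121628890637136915446) (ZL.cons (nat_lit 27132) (nat_lit 6) (nat_lit 121256741265682326482) (ZL.cons (nat_lit 27208) (nat_lit 6) (nat_lit 120924156176763646076) (ZL.cons (nat_lit 27284) (nat_lit 6) (nat_lit 120631004944855808076) (ZL.cons (nat_lit 27360) (nat_lit 6) (nat_lit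 120377172608691397644) (ZL.cons (nat_lit 27436) (nat_lit 6) (nat_lit 120162559626177801288) (ZL.cons (nat_lit 27512) (nat_lit 6) (nat_lit 119987081835361092106) (ZL.cons (nat_lit 27588) (nat_lit 6) (nat_lit 119850670421421341974) (ZL.cons (nat_lit 27664) (nat_lit 6) (nat_lit 119753271889686417662) (ZL.cons (nat_lit 27740) (nat_lit 6) (nat_lit 119694848044653678020) (ZL.cons (nat_lit 27816) (nat_lit 3) (nat_lit 59837687987505672752) (ZL.cons (nat_lit 27892) (nat_lit 6) (nat_lit 121237553091812320442) (ZL.cons (nat_lit 27968) (nat_lit 6) (nat_lit 120849429841131593374) (ZL.cons (nat_lit 28044) (nat_lit 6) (nat_lit 120500551395402252102) (ZL.cons (nat_lit 28120) (nat_lit 6) (nat_lit 120190780939547540020) (ZL.cons (nat_lit 28196) (nat_lit 6) (nat_lit 119919996994957318024) (ZL.cons (nat_lit 28272) (nat_lit 6) (nat_lit 119688093371849393872) (ZL.cons (nat_lit 28348) (nat_lit 6) (nat_lit 119494979127626470338) (ZL.cons (nat_lit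 28424) (nat_lit 6) (nat_lit 119340578531212381568) (ZL.cons (nat_lit 28500) (nat_lit 6) (nat_lit 119224831033353631844) (ZL.cons (nat_lit 28576) (nat_lit 6) (nat_lit 119147691242874590282) (ZL.cons (nat_lit 28652) (nat_lit 6) (nat_lit 119109128908877029808) (ZL.cons (nat_lit 28728) (nat_lit 6) (nat_lit 120870023340715350172) (ZL.cons (nat_lit 28804) (nat_lit 6) (nat_lit 120466239424126644572) (ZL.cons (nat_lit 28880) (nat_lit 6) (nat_lit 120101387099171165196) (ZL.cons (nat_lit 28956) (nat_lit 6) (nat_lit 119775323286505792248) (ZL.cons (nat_lit 29032) (nat_lit 6) (nat_lit 119487920117968696170) (ZL.cons (nat_lit 29108) (nat_lit 6) (nat_lit 119239064886434960454) (ZL.cons (nat_lit 29184) (nat_lit 6) (nat_lit 119028660001617709124) (ZL.cons (nat_lit 29260) (nat_lit 6) (nat_lit 118856622951797406002) (ZL.cons (nat_lit 29336) (nat_lit 6) (nat_lit 118722886271464317640) (ZL.cons (nat_lit 29412) (nat_lit 6) (nat_lit 118627397514861450666)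 (ZL.cons (nat_lit 29488) (nat_lit 6) (nat_lit 118570119235417588272) (ZL.cons (nat_lit 29564) (nat_lit 3) (nat_lit 59275514485531180157) (ZL.cons (nat_lit 29640) (nat_lit 6) (nat_lit 120526157254531848964) (ZL.cons (nat_lit 29716) (nat_lit 6) (nat_lit 120107019743915713430) (ZL.cons (nat_lit 29792) (nat_lit 6) (nat_lit 119726506753052255522) (ZL.cons (nat_lit 29868) (nat_lit 6) (nat_lit 119384469061160744470) (ZL.cons (nat_lit 29944) (nat_lit 6) (nat_lit 119080772535812987526) (ZL.cons (nat_lit 30020) (nat_lit 6) (nat_lit 118815298080332377728) (ZL.cons (nat_lit 30096) (nat_lit 6) (nat_lit 118587941587089314834) (ZL.cons (nat_lit 30172) (nat_lit 6) (nat_lit 118398613896674683916) (ZL.cons (nat_lit 30248) (nat_lit 6) (nat_lit 118247240762935381202) (ZL.cons (nat_lit 30324) (nat_lit 6) (nat_lit 118133762823858175590) (ZL.cons (nat_lit 30400) (nat_lit 6) (nat_lit 118058135578290487784) (ZL.cons (nat_lit 30476) (nat_lit 6) (nat_lit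 118020329368488957906) (ZL.cons (nat_lit 30552) (nat_lit 6) (nat_lit 120205819983816254658) (ZL.cons (nat_lit 30628) (nat_lit 6) (nat_lit 119771629930035972130) (ZL.cons (nat_lit 30704) (nat_lit 6) (nat_lit 119375763345145084288) (ZL.cons (nat_lit 30780) (nat_lit 6) (nat_lit 119018064987345594704) (ZL.cons (nat_lit 30856) (nat_lit 6) (nat_lit 118698394582771699656) (ZL.cons (nat_lit 30932) (nat_lit 6) (nat_lit 118416626770480428992) (ZL.cons (nat_lit 31008) (nat_lit 6) (nat_lit 118172651053290492016) (ZL.cons (nat_lit 31084) (nat_lit 6) (nat_lit 117966371754450049534) (ZL.cons (nat_lit 31160) (nat_lit 6) (nat_lit 117797707980116419024) (ZL.cons (nat_lit 31236) (nat_lit 6) (nat_lit 117666593587632999060) (ZL.cons (nat_lit 31312) (nat_lit 6) (nat_lit 117572977159590972616) (ZL.cons (nat_lit 31388) (nat_lit 6) (nat_lit 117516821983665617326) (ZL.cons (nat_lit 31464) (nat_lit 3) (nat_lit 58749053019109657703) (ZL.cons (nat_lit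 31540) (nat_lit 6) (nat_lit 119459938457070212934) (ZL.cons (nat_lit 31616) (nat_lit 6) (nat_lit 119049019329015178098) (ZL.cons (nat_lit 31692) (nat_lit 6) (nat_lit 118675967377188258580) (ZL.cons (nat_lit 31768) (nat_lit 6) (nat_lit 118340636306706385000) (ZL.cons (nat_lit 31844) (nat_lit 6) (nat_lit 118042894615188976232) (ZL.cons (nat_lit 31920) (nat_lit 6) (nat_lit 117782625541188378390) (ZL.cons (nat_lit 31996) (nat_lit 6) (nat_lit 117559727018401061826) (ZL.cons (nat_lit 32072) (nat_lit 6) (nat_lit 117374111635641619752) (ZL.cons (nat_lit 32148) (nat_lit 6) (nat_lit 117225706602563871992) (ZL.cons (nat_lit 32224) (nat_lit 6) (nat_lit 117114453721115631196) (ZL.cons (nat_lit 32300) (nat_lit 6) (nat_lit 117040309362715937268) (ZL.cons (nat_lit 32376) (nat_lit 6) (nat_lit 117003244451145809936) (ZL.cons (nat_lit 32528) (nat_lit 6) (nat_lit 117932543864913834708) (ZL.cons (nat_lit 32604) (nat_lit 6) (nat_lit 118081254596200378242)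 (ZL.cons (nat_lit 32680) (nat_lit 6) (nat_lit 118253000776113125214) (ZL.cons (nat_lit 32756) (nat_lit 6) (nat_lit 118447849756095178660) (ZL.cons (nat_lit 32832) (nat_lit 6) (nat_lit 118665877947511237428) (ZL.cons (nat_lit 32908) (nat_lit 6) (nat_lit 118907170851612837224) (ZL.cons (nat_lit 32984) (nat_lit 6) (nat_lit 119171823093068253190) (ZL.cons (nat_lit 33060) (nat_lit 6) (nat_lit 118746146569754250712) (ZL.cons (nat_lit 33136) (nat_lit 6) (nat_lit 118358042074763184200) (ZL.cons (nat_lit 33212) (nat_lit 6) (nat_lit 118007357410253880686) (ZL.cons (nat_lit 33288) (nat_lit 6) (nat_lit 117693955052828493386) (ZL.cons (nat_lit 33364) (nat_lit 6) (nat_lit 117417712099601757440) (ZL.cons (nat_lit 33440) (nat_lit 6) (nat_lit 117178520220003780010) (ZL.cons (nat_lit 33516) (nat_lit 6) (nat_lit 116976285613297463854) (ZL.cons (nat_lit 33592) (nat_lit 6) (nat_lit 116810928971793904530) (ZL.cons (nat_lit 33668) (nat_lit 6) (nat_lit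 116682385449751335938) (ZL.cons (nat_lit 33744) (nat_lit 6) (nat_lit 116590604637945427658) (ZL.cons (nat_lit 33820) (nat_lit 6) (nat_lit 116535550543900961688) (ZL.cons (nat_lit 33896) (nat_lit 3) (nat_lit 58258600788888568138) (ZL.cons (nat_lit 33972) (nat_lit 6) (nat_lit 116939646840957458466) (ZL.cons (nat_lit 34048) (nat_lit 6) (nat_lit 116962690892929159732) (ZL.cons (nat_lit 34124) (nat_lit 6) (nat_lit 117008788033755688422) (ZL.cons (nat_lit 34200) (nat_lit 6) (nat_lit 117077956340747172590) (ZL.cons (nat_lit 34276) (nat_lit 6) (nat_lit 117170222938729883404) (ZL.cons (nat_lit 34352) (nat_lit 6) (nat_lit 117285624010683421922) (ZL.cons (nat_lit 34428) (nat_lit 6) (nat_lit 117424204811930122872) (ZL.cons (nat_lit 34504) (nat_lit 6) (nat_lit 117586019687882239860) (ZL.cons (nat_lit 34580) (nat_lit 6) (nat_lit 117771132095353871754) (ZL.cons (nat_lit 34656) (nat_lit 6) (nat_lit 117979614627445987822) (ZL.cons (nat_lit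 34732) (nat_lit 6) (nat_lit 118211549042014310464) (ZL.cons (nat_lit 34808) (nat_lit 6) (nat_lit 118467026293731219414) (ZL.cons (nat_lit 34884) (nat_lit 6) (nat_lit 118064164403481185260) (ZL.cons (nat_lit 34960) (nat_lit 6) (nat_lit 117698427195807734752) (ZL.cons (nat_lit 35036) (nat_lit 6) (nat_lit 117369671244354917518) (ZL.cons (nat_lit 35112) (nat_lit 6) (nat_lit 117077767625220203040) (ZL.cons (nat_lit 35188) (nat_lit 6) (nat_lit 116822601866396087506) (ZL.cons (nat_lit 35264) (nat_lit 6) (nat_lit 116604073902879110484) (ZL.cons (nat_lit 35340) (nat_lit 6) (nat_lit 116422098037428677078) (ZL.cons (nat_lit 35416) (nat_lit 6) (nat_lit 116276602906960296922) (ZL.cons (nat_lit 35492) (nat_lit 6) (nat_lit 116167531454560060846) (ZL.cons (nat_lit 35568) (nat_lit 6) (nat_lit 116094840907109380524) (ZL.cons (nat_lit 35644) (nat_lit 6) (nat_lit 116058502758511216474) (ZL.cons (nat_lit 35720) (nat_lit 3) (nat_lit 58190360230155948012)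 (ZL.cons (nat_lit 35796) (nat_lit 6) (nat_lit 116392356565762953098) (ZL.cons (nat_lit 35872) (nat_lit 6) (nat_lit 116427269445294732582) (ZL.cons (nat_lit 35948) (nat_lit 6) (nat_lit 116485472790232541054) (ZL.cons (nat_lit 36024) (nat_lit 6) (nat_lit 116566989425417530600) (ZL.cons (nat_lit 36100) (nat_lit 6) (nat_lit 116671851318157616896) (ZL.cons (nat_lit 36176) (nat_lit 6) (nat_lit 116800099590763678410) (ZL.cons (nat_lit 36252) (nat_lit 6) (nat_lit 116951784536675952814) (ZL.cons (nat_lit 36328) (nat_lit 6) (nat_lit 117126965640186954724) (ZL.cons (nat_lit 36404) (nat_lit 6) (nat_lit 117325711599768649240) (ZL.cons (nat_lit 36480) (nat_lit 6) (nat_lit 117548100355013029182) (ZL.cons (nat_lit 36556) (nat_lit 6) (nat_lit 117794219117196660978) (ZL.cons (nat_lit 36632) (nat_lit 6) (nat_lit 117413724514264242828) (ZL.cons (nat_lit 36708) (nat_lit 6) (nat_lit 117069916019647278600) (ZL.cons (nat_lit 36784) (nat_lit 6) (nat_lit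 116762658806485134188) (ZL.cons (nat_lit 36860) (nat_lit 6) (nat_lit 116491832381753040122) (ZL.cons (nat_lit 36936) (nat_lit 6) (nat_lit 116257330539009924996) (ZL.cons (nat_lit 37012) (nat_lit 6) (nat_lit 116059061316748830724) (ZL.cons (nat_lit 37088) (nat_lit 6) (nat_lit 115896946962333576486) (ZL.cons (nat_lit 37164) (nat_lit 6) (nat_lit 115770923901507528846) (ZL.cons (nat_lit 37240) (nat_lit 6) (nat_lit 115680942713462520728) (ZL.cons (nat_lit 37316) (nat_lit 6) (nat_lit 115626968111458142326) (ZL.cons (nat_lit 37392) (nat_lit 3) (nat_lit 57804489464491901844) (ZL.cons (nat_lit 37468) (nat_lit 6) (nat_lit 115855797472435006660) (ZL.cons (nat_lit 37544) (nat_lit 6) (nat_lit 115879302405446141952) (ZL.cons (nat_lit 37620) (nat_lit 6) (nat_lit 115926321489089201218) (ZL.cons (nat_lit 37696) (nat_lit 6) (nat_lit 115996873162220515068) (ZL.cons (nat_lit 37772) (nat_lit 6) (nat_lit 116090985092162880096) (ZL.cons (nat_lit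 37848) (nat_lit 6) (nat_lit 116208694185555489388) (ZL.cons (nat_lit 37924) (nat_lit 6) (nat_lit 116350046602827124356) (ZL.cons (nat_lit 38000) (nat_lit 6) (nat_lit 116515097776298283682) (ZL.cons (nat_lit 38076) (nat_lit 6) (nat_lit 116703912431919348214) (ZL.cons (nat_lit 38152) (nat_lit 6) (nat_lit 116916564614653306604) (ZL.cons (nat_lit 38228) (nat_lit 6) (nat_lit 117153137717512995700) (ZL.cons (nat_lit 38304) (nat_lit 6) (nat_lit 116794571827637063830) (ZL.cons (nat_lit 38380) (nat_lit 6) (nat_lit 116472262071310772424) (ZL.cons (nat_lit 38456) (nat_lit 6) (nat_lit 116186082052551248424) (ZL.cons (nat_lit 38532) (nat_lit 6) (nat_lit 115935919543900154766) (ZL.cons (nat_lit 38608) (nat_lit 6) (nat_lit 115721676442412922390) (ZL.cons (nat_lit 38684) (nat_lit 6) (nat_lit 115543268731187007286) (ZL.cons (nat_lit 38760) (nat_lit 6) (nat_lit 115400626446414085564) (ZL.cons (nat_lit 38836) (nat_lit 6) (nat_lit 115293693649943265882)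 (ZL.cons (nat_lit 38912) (nat_lit 6) (nat_lit 115222428407344559684) (ZL.cons (nat_lit 38988) (nat_lit 6) (nat_lit 115186802771464006694) (ZL.cons (nat_lit 39064) (nat_lit 3) (nat_lit 57676401598807301788) (ZL.cons (nat_lit 39140) (nat_lit 6) (nat_lit 115364672025174681794) (ZL.cons (nat_lit 39216) (nat_lit 6) (nat_lit 115400283162297096868) (ZL.cons (nat_lit 39292) (nat_lit 6) (nat_lit 115459650574133661512) (ZL.cons (nat_lit 39368) (nat_lit 6) (nat_lit 115542797542022350844) (ZL.cons (nat_lit 39444) (nat_lit 6) (nat_lit 115649756672617238868) (ZL.cons (nat_lit 39520) (nat_lit 6) (nat_lit 115780569910675421614) (ZL.cons (nat_lit 39596) (nat_lit 6) (nat_lit 115935288555505941504) (ZL.cons (nat_lit 39672) (nat_lit 6) (nat_lit 116113973281087163452) (ZL.cons (nat_lit 39748) (nat_lit 6) (nat_lit 116316694159860491858) (ZL.cons (nat_lit 39824) (nat_lit 6) (nat_lit 116543530690209759402) (ZL.cons (nat_lit 39900) (nat_lit 6) (nat_lit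 116206463538624500354) (ZL.cons (nat_lit 39976) (nat_lit 6) (nat_lit 115905230976700829360) (ZL.cons (nat_lit 40052) (nat_lit 6) (nat_lit 115639714874022305768) (ZL.cons (nat_lit 40128) (nat_lit 6) (nat_lit 115409811106627094860) (ZL.cons (nat_lit 40204) (nat_lit 6) (nat_lit 115215429516175041652) (ZL.cons (nat_lit 40280) (nat_lit 6) (nat_lit 115056493874591459064) (ZL.cons (nat_lit 40356) (nat_lit 6) (nat_lit 114932941854173765300) (ZL.cons (nat_lit 40432) (nat_lit 6) (nat_lit 114844725003149247538) (ZL.cons (nat_lit 40508) (nat_lit 6) (nat_lit 114791808726674366752) (ZL.cons (nat_lit 40584) (nat_lit 3) (nat_lit 57387086136634076200) (ZL.cons (nat_lit 40660) (nat_lit 6) (nat_lit 114883176488644951532) (ZL.cons (nat_lit 40736) (nat_lit 6) (nat_lit 114907151520316309532) (ZL.cons (nat_lit 40812) (nat_lit 6) (nat_lit 114955110985632229984) (ZL.cons (nat_lit 40888) (nat_lit 6) (nat_lit 115027073692226170110) (ZL.cons (nat_lit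 40964) (nat_lit 6) (nat_lit 115123067860767382438) (ZL.cons (nat_lit 41040) (nat_lit 6) (nat_lit 115243131136027843916) (ZL.cons (nat_lit 41116) (nat_lit 6) (nat_lit 115387310601644911584) (ZL.cons (nat_lit 41192) (nat_lit 6) (nat_lit 115555662798585494096) (ZL.cons (nat_lit 41268) (nat_lit 6) (nat_lit 115748253747318979918) (ZL.cons (nat_lit 41344) (nat_lit 6) (nat_lit 115965158973707617478) (ZL.cons (nat_lit 41420) (nat_lit 6) (nat_lit 115649169016524978842) (ZL.cons (nat_lit 41496) (nat_lit 6) (nat_lit 115368600370682308256) (ZL.cons (nat_lit 41572) (nat_lit 6) (nat_lit 115123343009259667414) (ZL.cons (nat_lit 41648) (nat_lit 6) (nat_lit 114913300752899635674) (ZL.cons (nat_lit 41724) (nat_lit 6) (nat_lit 114738391232089914982) (ZL.cons (nat_lit 41800) (nat_lit 6) (nat_lit 114598545854861560352) (ZL.cons (nat_lit 41876) (nat_lit 6) (nat_lit 114493709779890168508) (ZL.cons (nat_lit 41952) (nat_lit 6) (nat_lit 114423841894989476158)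 (ZL.cons (nat_lit 42028) (nat_lit 6) (nat_lit 114388914800988934010) (ZL.cons (nat_lit 42104) (nat_lit 3) (nat_lit 57217313487038959950) (ZL.cons (nat_lit 42180) (nat_lit 6) (nat_lit 114446733178189199682) (ZL.cons (nat_lit 42256) (nat_lit 6) (nat_lit 114483056538054063060) (ZL.cons (nat_lit 42332) (nat_lit 6) (nat_lit 114543611298127358994) (ZL.cons (nat_lit 42408) (nat_lit 6) (nat_lit 114628421205373822116) (ZL.cons (nat_lit 42484) (nat_lit 6) (nat_lit 114737519518580607898) (ZL.cons (nat_lit 42560) (nat_lit 6) (nat_lit 114870949021399954298) (ZL.cons (nat_lit 42636) (nat_lit 6) (nat_lit 115028762039127084588) (ZL.cons (nat_lit 42712) (nat_lit 6) (nat_lit 115211020459219930974) (ZL.cons (nat_lit 42788) (nat_lit 6) (nat_lit 115417795755568725950) (ZL.cons (nat_lit 42864) (nat_lit 6) (nat_lit 115122469714467087722) (ZL.cons (nat_lit 42940) (nat_lit 6) (nat_lit 114862159809880299886) (ZL.cons (nat_lit 43016) (nat_lit 6) (nat_lit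 114636763959492838212) (ZL.cons (nat_lit 43092) (nat_lit 6) (nat_lit 114446193772775138988) (ZL.cons (nat_lit 43168) (nat_lit 6) (nat_lit 114290374516320646254) (ZL.cons (nat_lit 43244) (nat_lit 6) (nat_lit 114169245084538593544) (ZL.cons (nat_lit 43320) (nat_lit 6) (nat_lit 114082757975691027112) (ZL.cons (nat_lit 43396) (nat_lit 6) (nat_lit 114030879273264673400) (ZL.cons (nat_lit 43472) (nat_lit 3) (nat_lit 57006794316335172802) (ZL.cons (nat_lit 43548) (nat_lit 6) (nat_lit 114018847579703168458) (ZL.cons (nat_lit 43624) (nat_lit 6) (nat_lit 114043302112007953618) (ZL.cons (nat_lit 43700) (nat_lit 6) (nat_lit 114092220766630192478) (ZL.cons (nat_lit 43776) (nat_lit 6) (nat_lit 114165622727356011408) (ZL.cons (nat_lit 43852) (nat_lit 6) (nat_lit 114263536779268047984) (ZL.cons (nat_lit 43928) (nat_lit 6) (nat_lit 114386001320033718688) (ZL.cons (nat_lit 44004) (nat_lit 6) (nat_lit 114533064374963127710) (ZL.cons (nat_lit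 44080) (nat_lit 6) (nat_lit 114704783615842521874) (ZL.cons (nat_lit 44156) (nat_lit 6) (nat_lit 114901226383550677414) (ZL.cons (nat_lit 44232) (nat_lit 6) (nat_lit 114626159083704921936) (ZL.cons (nat_lit 44308) (nat_lit 6) (nat_lit 114385710690153313268) (ZL.cons (nat_lit 44384) (nat_lit 6) (nat_lit 114179786909408184110) (ZL.cons (nat_lit 44460) (nat_lit 6) (nat_lit 114008306987045712844) (ZL.cons (nat_lit 44536) (nat_lit 6) (nat_lit 113871203676037522030) (ZL.cons (nat_lit 44612) (nat_lit 6) (nat_lit 113768423210379294732) (ZL.cons (nat_lit 44688) (nat_lit 6) (nat_lit 113699925284006066938) (ZL.cons (nat_lit 44764) (nat_lit 6) (nat_lit 113665683034985927578) (ZL.cons (nat_lit 44840) (nat_lit 3) (nat_lit 56811663463292149883) (ZL.cons (nat_lit 44916) (nat_lit 6) (nat_lit 113635675254777805144) (ZL.cons (nat_lit 44992) (nat_lit 6) (nat_lit 113672725081839965786) (ZL.cons (nat_lit 45068) (nat_lit 6) (nat_lit 113734490937114727642)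 (ZL.cons (nat_lit 45144) (nat_lit 6) (nat_lit 113820997042506120026) (ZL.cons (nat_lit 45220) (nat_lit 6) (nat_lit 113932277321977041524) (ZL.cons (nat_lit 45296) (nat_lit 6) (nat_lit 114068375414852774850) (ZL.cons (nat_lit 45372) (nat_lit 6) (nat_lit 114229344692934447746) (ZL.cons (nat_lit 45448) (nat_lit 6) (nat_lit 114415248281429151064) (ZL.cons (nat_lit 45524) (nat_lit 6) (nat_lit 114160042492618574754) (ZL.cons (nat_lit 45600) (nat_lit 6) (nat_lit 113939066168709298602) (ZL.cons (nat_lit 45676) (nat_lit 6) (nat_lit 113752232652319397402) (ZL.cons (nat_lit 45752) (nat_lit 6) (nat_lit 113599468675403228056) (ZL.cons (nat_lit 45828) (nat_lit 6) (nat_lit 113480714330518862654) (ZL.cons (nat_lit 45904) (nat_lit 6) (nat_lit 113395923047334973994) (ZL.cons (nat_lit 45980) (nat_lit 6) (nat_lit 113345061574367960552) (ZL.cons (nat_lit 46056) (nat_lit 3) (nat_lit 56664054982971074494) (ZL.cons (nat_lit 46132) (nat_lit 6) (nat_lit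 113260016112694115620) (ZL.cons (nat_lit 46208) (nat_lit 6) (nat_lit 113284959735644996480) (ZL.cons (nat_lit 46284) (nat_lit 6) (nat_lit 113334856763359680118) (ZL.cons (nat_lit 46360) (nat_lit 6) (nat_lit 113409726763300015428) (ZL.cons (nat_lit 46436) (nat_lit 6) (nat_lit 113509599096250292734) (ZL.cons (nat_lit 46512) (nat_lit 6) (nat_lit 113634512927831276854) (ZL.cons (nat_lit 46588) (nat_lit 6) (nat_lit 113784517243859274054) (ZL.cons (nat_lit 46664) (nat_lit 6) (nat_lit 113959670869556256104) (ZL.cons (nat_lit 46740) (nat_lit 6) (nat_lit 113723937150388012310) (ZL.cons (nat_lit 46816) (nat_lit 6) (nat_lit 113522051090833964116) (ZL.cons (nat_lit 46892) (nat_lit 6) (nat_lit 113353933519890364836) (ZL.cons (nat_lit 46968) (nat_lit 6) (nat_lit 113219518509098020902) (ZL.cons (nat_lit 47044) (nat_lit 6) (nat_lit 113118753346687994138) (ZL.cons (nat_lit 47120) (nat_lit 6) (nat_lit 113051598516910319830) (ZL.cons (nat_lit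 47196) (nat_lit 6) (nat_lit 113018027684537634184) (ZL.cons (nat_lit 47272) (nat_lit 3) (nat_lit 56458088684223131995) (ZL.cons (nat_lit 47348) (nat_lit 6) (nat_lit 112928772663203639472) (ZL.cons (nat_lit 47424) (nat_lit 6) (nat_lit 112966563486807043328) (ZL.cons (nat_lit 47500) (nat_lit 6) (nat_lit 113029564659187300420) (ZL.cons (nat_lit 47576) (nat_lit 6) (nat_lit 113117800886686520652) (ZL.cons (nat_lit 47652) (nat_lit 6) (nat_lit 113231306771746860580) (ZL.cons (nat_lit 47728) (nat_lit 6) (nat_lit 113370126826480108574) (ZL.cons (nat_lit 47804) (nat_lit 6) (nat_lit 113534315490123414928) (ZL.cons (nat_lit 47880) (nat_lit 6) (nat_lit 113317672035310399092) (ZL.cons (nat_lit 47956) (nat_lit 6) (nat_lit 113134501921202652818) (ZL.cons (nat_lit 48032) (nat_lit 6) (nat_lit 112984733316382878950) (ZL.cons (nat_lit 48108) (nat_lit 6) (nat_lit 112868307488064873654) (ZL.cons (nat_lit 48184) (nat_lit 6) (nat_lit 112785178779061061242)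 (ZL.cons (nat_lit 48260) (nat_lit 6) (nat_lit 112735314589877714730) (ZL.cons (nat_lit 48336) (nat_lit 3) (nat_lit 56359347682965420324) (ZL.cons (nat_lit 48412) (nat_lit 6) (nat_lit 112604024183311015800) (ZL.cons (nat_lit 48488) (nat_lit 6) (nat_lit 112629466678720914278) (ZL.cons (nat_lit 48564) (nat_lit 6) (nat_lit 112680361646989891588) (ZL.cons (nat_lit 48640) (nat_lit 6) (nat_lit 112756729046929033602) (ZL.cons (nat_lit 48716) (nat_lit 6) (nat_lit 112858598826538316456) (ZL.cons (nat_lit 48792) (nat_lit 6) (nat_lit 112986010934750920258) (ZL.cons (nat_lit 48868) (nat_lit 6) (nat_lit 113139015337099477406) (ZL.cons (nat_lit 48944) (nat_lit 6) (nat_lit 112941087827732763490) (ZL.cons (nat_lit 49020) (nat_lit 6) (nat_lit 112776266679748842628) (ZL.cons (nat_lit 49096) (nat_lit 6) (nat_lit 112644487257403407398) (ZL.cons (nat_lit 49172) (nat_lit 6) (nat_lit 112545697882491616454) (ZL.cons (nat_lit 49248) (nat_lit 6) (nat_lit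 112479859814082131838) (ZL.cons (nat_lit 49324) (nat_lit 6) (nat_lit 112446947233324596890) (ZL.cons (nat_lit 49400) (nat_lit 3) (nat_lit 56155293471811034765) (ZL.cons (nat_lit 49476) (nat_lit 6) (nat_lit 112323434144274592526) (ZL.cons (nat_lit 49552) (nat_lit 6) (nat_lit 112361980784350064458) (ZL.cons (nat_lit 49628) (nat_lit 6) (nat_lit 112426241980177926690) (ZL.cons (nat_lit 49704) (nat_lit 6) (nat_lit 112516242932227131326) (ZL.cons (nat_lit 49780) (nat_lit 6) (nat_lit 112632018934988678054) (ZL.cons (nat_lit 49856) (nat_lit 6) (nat_lit 112773615390816591010) (ZL.cons (nat_lit 49932) (nat_lit 6) (nat_lit 112594036847573702506) (ZL.cons (nat_lit 50008) (nat_lit 6) (nat_lit 112447204882064120282) (ZL.cons (nat_lit 50084) (nat_lit 6) (nat_lit 112333061913124899404) (ZL.cons (nat_lit 50160) (nat_lit 6) (nat_lit 112251563178807436256) (ZL.cons (nat_lit 50236) (nat_lit 6) (nat_lit 112202676718823763204) (ZL.cons (nat_lit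 50312) (nat_lit 3) (nat_lit 56093191681006551169) (ZL.cons (nat_lit 50388) (nat_lit 6) (nat_lit 112048345870709471668) (ZL.cons (nat_lit 50464) (nat_lit 6) (nat_lit 112074297216027568118) (ZL.cons (nat_lit 50540) (nat_lit 6) (nat_lit 112126210083661924972) (ZL.cons (nat_lit 50616) (nat_lit 6) (nat_lit 112204104831599849826) (ZL.cons (nat_lit 50692) (nat_lit 6) (nat_lit 112308012006801318336) (ZL.cons (nat_lit 50768) (nat_lit 6) (nat_lit 112437972357178174218) (ZL.cons (nat_lit 50844) (nat_lit 6) (nat_lit 112276382996409624352) (ZL.cons (nat_lit 50920) (nat_lit 6) (nat_lit 112147187484306256480) (ZL.cons (nat_lit 50996) (nat_lit 6) (nat_lit 112050335155961363398) (ZL.cons (nat_lit 51072) (nat_lit 6) (nat_lit 111985788030069711814) (ZL.cons (nat_lit 51148) (nat_lit 6) (nat_lit 111953520794032912844) (ZL.cons (nat_lit 51224) (nat_lit 3) (nat_lit 55902046990135606222) (ZL.cons (nat_lit 51300) (nat_lit 6) (nat_lit 111817198124936785898)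 (ZL.cons (nat_lit 51376) (nat_lit 6) (nat_lit 111856515697813767270) (ZL.cons (nat_lit 51452) (nat_lit 6) (nat_lit 111922062117558186746) (ZL.cons (nat_lit 51528) (nat_lit 6) (nat_lit 112013863088648375474) (ZL.cons (nat_lit 51604) (nat_lit 6) (nat_lit 112131954611465153138) (ZL.cons (nat_lit 51680) (nat_lit 6) (nat_lit 111988001704102817624) (ZL.cons (nat_lit 51756) (nat_lit 6) (nat_lit 111876096832593777548) (ZL.cons (nat_lit 51832) (nat_lit 6) (nat_lit 111796196112674696030) (ZL.cons (nat_lit 51908) (nat_lit 6) (nat_lit 111748268210729918528) (ZL.cons (nat_lit 51984) (nat_lit 3) (nat_lit 55866147165751890212) (ZL.cons (nat_lit 52060) (nat_lit 6) (nat_lit 111590582687904741026) (ZL.cons (nat_lit 52136) (nat_lit 6) (nat_lit 111617053060129199402) (ZL.cons (nat_lit 52212) (nat_lit 6) (nat_lit 111670004185116243396) (ZL.cons (nat_lit 52288) (nat_lit 6) (nat_lit 111749456828012926746) (ZL.cons (nat_lit 52364) (nat_lit 6) (nat_lit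 111855442146718424628) (ZL.cons (nat_lit 52440) (nat_lit 6) (nat_lit 111728779879950416910) (ZL.cons (nat_lit 52516) (nat_lit 6) (nat_lit 111633826616867188398) (ZL.cons (nat_lit 52592) (nat_lit 6) (nat_lit 111570545120894980962) (ZL.cons (nat_lit 52668) (nat_lit 6) (nat_lit 111538910575760864326) (ZL.cons (nat_lit 52744) (nat_lit 3) (nat_lit 55697181018066298702) (ZL.cons (nat_lit 52820) (nat_lit 6) (nat_lit 111407728263691482326) (ZL.cons (nat_lit 52896) (nat_lit 6) (nat_lit 111447832188026003324) (ZL.cons (nat_lit 52972) (nat_lit 6) (nat_lit 111514689536165311192) (ZL.cons (nat_lit 53048) (nat_lit 6) (nat_lit 111608326526677303696) (ZL.cons (nat_lit 53124) (nat_lit 6) (nat_lit 111498615868335107542) (ZL.cons (nat_lit 53200) (nat_lit 6) (nat_lit 111420281829198753112) (ZL.cons (nat_lit 53276) (nat_lit 6) (nat_lit 111373293690037206542) (ZL.cons (nat_lit 53352) (nat_lit 3) (nat_lit 55678816512064614005) (ZL.cons (nat_lit 53428)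 (nat_lit 6) (nat_lit 111228459220345150268) (ZL.cons (nat_lit 53504) (nat_lit 6) (nat_lit 111255459000014097812) (ZL.cons (nat_lit 53580) (nat_lit 6) (nat_lit 111309469147500882684) (ZL.cons (nat_lit 53656) (nat_lit 6) (nat_lit 111390510843255499706) (ZL.cons (nat_lit 53732) (nat_lit 6) (nat_lit 111297419408860177634) (ZL.cons (nat_lit 53808) (nat_lit 6) (nat_lit 111235378726534484070) (ZL.cons (nat_lit 53884) (nat_lit 6) (nat_lit 111204364466599075604) (ZL.cons (nat_lit 53960) (nat_lit 3) (nat_lit 55539587814252288607) (ZL.cons (nat_lit 54036) (nat_lit 6) (nat_lit 111092809180614639836) (ZL.cons (nat_lit 54112) (nat_lit 6) (nat_lit 111133715183435851254) (ZL.cons (nat_lit 54188) (nat_lit 6) (nat_lit 111201909678537945280) (ZL.cons (nat_lit 54264) (nat_lit 6) (nat_lit 111125111600953284074) (ZL.cons (nat_lit 54340) (nat_lit 6) (nat_lit 111079044797853728614) (ZL.cons (nat_lit 54416) (nat_lit 3) (nat_lit 55531845601913149340)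 (ZL.cons (nat_lit 54492) (nat_lit 6) (nat_lit 110959818945584727648) (ZL.cons (nat_lit 54568) (nat_lit 6) (nat_lit 110987358720847054144) (ZL.cons (nat_lit 54644) (nat_lit 6) (nat_lit 111042449071283574716) (ZL.cons (nat_lit 54720) (nat_lit 6) (nat_lit 110981624872925051614) (ZL.cons (nat_lit 54796) (nat_lit 6) (nat_lit 110951218735733474686) (ZL.cons (nat_lit 54872) (nat_lit 3) (nat_lit 55428218070945508093) (ZL.cons (nat_lit 54948) (nat_lit 6) (nat_lit 110870342365043280060) (ZL.cons (nat_lit 55024) (nat_lit 6) (nat_lit 110912066487920915710) (ZL.cons (nat_lit 55100) (nat_lit 6) (nat_lit 110866902955470371140) (ZL.cons (nat_lit 55176) (nat_lit 3) (nat_lit 55425925206153112073) (ZL.cons (nat_lit 55252) (nat_lit 6) (nat_lit 110782620227257547130) (ZL.cons (nat_lit 55328) (nat_lit 6) (nat_lit 110810710798025120158) (ZL.cons (nat_lit 55404) (nat_lit 6) (nat_lit 110780900859602005522) (ZL.cons (nat_lit 55480) (nat_lit 3) (nat_lit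 55362078953325754004) (ZL.cons (nat_lit 55556) (nat_lit 6) (nat_lit 110738342254266817162) (ZL.cons (nat_lit 55632) (nat_lit 3) (nat_lit 55361792429503924760) (ZL.cons (nat_lit 55708) (nat_lit 6) (nat_lit 110694932476824925034) (ZL.cons (nat_lit 55784) (nat_lit 1) (nat_lit 18446744073709551617) ZL.nil))))))))))))))))))))))))))))))))))))))))))))))))))))))))))))))))))))))))))))))))))))))))))))))))))))))))))))))))))))))))))))))))))))))))))))))))))))))))))))))))))))))))))))))))))))))))))))))))))))))))))))))))))))))))))))))))))))))))))))))))))))))))))))))))))))))))))))))))))))))))))))))))))))))))))))))))))))))))))))))))))))))))))))))))))))))))))))))))))))))))))))))))))))))))))))))))))))))))))))))))))))))))))))))))))))))))))))))))))))))))))))))))))))))))))))))))))))))))))))))))))))))))))))))))))))))))))))))))))))))))))))))))))))))))))))))))))))))))))))))))))))))))))))))))))))))))))))))))))))))))))))))))))))))))))))))))))))))))))))))))))))))))))))))))))))))))))))))))))))))))))))))))))))))))))))))))))))))))))))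

noncomputable def vl : XL := ⟨(nat_lit 0), (nat_lit 76), (nat_lit 182362646), (nat_lit 152), (nat_lit 101994117), (nat_lit 152), (nat_lit 101994117), (nat_lit 1), (nat_lit 4), (nat_lit 2), (nat_lit 5), (nat_lit 2), (nat_lit 4), (nat_lit 0), (nat_lit 0), (nat_lit 0)⟩

noncomputable def cp0 : Nat := (nat_lit 274829916435256193637130309878237440420055102203734375717616503069485001306841039185374638391304032953611684253801708771907390807159739977010896407029201091470796736844629526605585685480348998819443829623901192394943511446805433661097276714877287656536714553370903494395830487988264794942015543335874496885931431040128284833830968025235546398333827542990462502315444337153938633699548458912980767588179074793958376212573261472951335703673880602854376692950870630159647496899850612001607298154722032196756675269066728953549567066534047739162556155057823047000935332179540323634117130540409370827370871057341090921832901420236199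1826700434248067731854530271119307237972494681729059401277500191767480543900967355684242254019702636451644127567849722660075631870238000758718301806292249267983278391420655919984748333210865655389642778637167816178995958530964235838117013420592378299737247852413820893363588389098396996275724737252310915190243870469680124924394598014073352317031586715317093657332820978066143768815200690800574507000013870310032306032043862865405603213361332943260012274193047090159163010850753352845082636563841965016952271573398542632763388375736122785094238281293673594801207999125792443562248193508530822837057645931898790019966781977576076815880242012167885166408999499442836013945306605773546721670679520509676730505892222644186973186689988261806460230876617906127375028538651894347298122429634791946179073281081868003962662877712412549984199494120512976481899668387120211609443248926717139815052370926334991586780604466868795875222134287504896992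7112870564655709335355809098956274972788992917514112717236646622293467078382504902835508429225342380209587635539102822306927288105987803999105275529413078605893523395195606350911581607705812789534238965146082226877091183358993433486585741991574033343759852496506414708891344630481254595501508182163140583176854849345297577393017257900546935807680553086236878894896037676945829392331519458022494103417496445448776052293152204724131605031483498586274423591969997373711461552651259567218398255208235400579487224105777170797575364862708955895847910518990776482644502366499149588196201930197732686984736791227710977537869958003754870152836862695580353605372525951895392961150162165835098145130419712161531136849748395218090554383082368774577243689079925526978587784529358110450441074003089789605076395870182398536068429491711505455642325889429002697004561253072854265901147430225497497981702510626609400125463245946268563763722009334796795130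7409055498437198267916526969645335428433463005311572890060781192086911445847148844438141866995147392841938400031204030353967714802989227903443009337382953083295805604428414079416940751769097024643764533630418185133377467488976673575288158932544924899949148069613530020775301524310064082424521059506342450890125570869084249616059613664544982467057335621583583309496992281522030802239064921304678291584543681347191361530434122915711244256628864070308016667547741542568881197769997314328413241532899630088927115928214359269553651717668792717833693229756365047688499693100224786197401395108932676713539877052394702537348115280155912804212563292118482139585403456325902966996012193617133379472160776408656646293414859318214807896827553841408769285638397899845134570267873012911948546163018901382809440540090917312922200737489452439270503677980159801687207153106613487481065951928843142265371347518993416372125646122253058154848859620717906410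9649827005698542516557305102216604936697644191189797109257862772806799667796000050566222588387889044945441260012877168081905643804778898788168923739297313471633701676158105155046022155495751763257289616898747896872140922297677964524235722764019289131113477266593218300362574145227083728318168193809961427740150770955484356890104647038757607517419132120128748868061396921527186859132304825125441366507558122983021647323777149352192790204807688931532427167568317330588661525537871211149461793867603343892183186470554036603127876096308679757608149781186441052198722467713411127414013023980618178770379452303850662845508254063518880335931655926914421742473562405043742906219840284785211920089713033341364856561810066323503677607468989864159018606402392886089838245120602976533973956978382705496728879064597255856484876114938173908035919357051493155179319583642254183220352505009064276039348720637342221032935457583299713163956359660799047009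3839353816648373464201349173825209799556447215693271762973935763680994042356734010660487806038861862346726004466911190379381351539999198049415948383796880070761385035116719441572005314063118735108750145242902077697315414649259885520300884585734733977511415871463486490392418862969504145340860457155286609033388617979564724831503344707426931876386544201361507441917445143283421982682683170180722235418873433837029653622168923558684084436463145556705125880894654956789167921754527060650651253884101122756114230167841243188588218244658628046702386425377243649557616145481016550907285194482517157581921958781672945431709868619491060983116702332179306731713584678667384844916100823586595153787188336451212095559872490158170163836780096105357028406880655914259903484746722033086669457212118047586136815394586785914510610652987021361300392854619463391575939011000708619815962901291101052546139909401774414045996206630017359066210553012690989163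2566346858227495455313767542101085443750980502692126391012453761318472079080399212597644259148119856357768035878259321988866639685251788262841159741518529652012219883067730442047215446535381447957254808352593169181294458765759192486007484684871913434621908032230735564205950540550309534544495006621081810132520477389341325918257759591421183753135052844551542012585495124333321258025423517688920615450388626507326770388660188588825626614507411589074394369225428572899086785512284484080550270941695243316579637295912343183810603265608965331831242325287492769025226776591817220438683423408829703796488124114151634119539099375628741133678943751938382465540325135345460723580278418204387108572694169656398165679284405306591948345805746763116481452891568910613140977149652326844953244339306975679917946624583239303070436418055429878491887613019740795597066694669878534524438116287520329304173808634189610769889039049992825348036637257765509810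9103090234468980448288772602481481147952231187716983276528474053581892292013228942873070118431642622277903835893780635445244898984924097063969239173747302471568337848569281276503210718412341889863309669275275971325138039905816823316640316757894451823222736662472947780704044015606734826590941708498315805970995333971205701016173875446182958234423674843146949422847766929170240607243083814616565137692645217492319633998302857101434174514176933359846362400761966634228223450456785643370741549412237304127405736757899631226636066374503823445426880415598443012770669766275822604403981707216820030707991174971110779858933502647974779397421584895944068491415636398650553648475481908141431753005303936233574483118445890101685004577434653366245813953164432313233220713831234060911396986342164213622236367917794398245135821857192176548731172027778862437385580245356293700257626849621032054748091630040246745209441329117160546228513592353380813905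8023538302764250418568018330919308693013114816015450882343047821491448083222265010410183341978658527845946517663615971037549735019663348120172538591578084978549560064297453684656543585517428730586813650178145998074971499470060507198923314819920207916927989478877787882493689668990937932968002090558986407645132848964330344954235205914409258167990673226444374124631907903454220507846066000813525779537138476496031378642160221744997676389863539860873529677875264916690914738251527470668861402397935270078438460996288203728290944933086461021496075582729103394431738574436855773971430598303467424776675312733346057773095837317016221962472378767964378416910514612443205822874023969286022950164284283726399622621163721165837341538466292706804599720713499559227779886954935915623983850482878582258462442374249810605860194839586126054074296971543484230591290997458412330025228723301154032315593095126805608456724615680947417034827776645150092686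0369385621406410731139410179586459784357481108094422305307765418908102181541892701113667435130531281070769765207672173079500048736817467899817354004489089492862439374050218770228849188522363057572645664033681280300543111003971670022763457397472221074131036394718944395616816298184278154485856730934072903687140344103423474316951384052705701375348951049733677493325636506813492122040240304852309045677810695400111380160752871743023791861387854311745873156344704071173466529343729420428529969628263228124744891323819342952551114172332596495595534268086641611567289178987859128818495139229851879651451033228432174453308153493344145804109595151175065533302195438804869601073166260723792236821945926119667278285850567658531747364487079158009378067417541019108529701549072868180521725442005598867502523095471587709304105543994731980879713744176818563877738672211633949715764221465708047189215136652347554669294884879465132124747505197690383911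2111703213753702387186229441041253525778188579012371332261519206606547555167754431228760356771032582246052961173903303644777812627156028566630038461932285136427688342610871065152034160318254396045791494367840657304034859412927484538866124699027878534497435653623064236313811545936720389117301881653539543795910030906239265826374648647473428714736782460169452195718925763113682793930457176149352340709072979312788951281802362251257724156342740502834477623352676687630226372957778160867443313584375365169745324669174317890329246023527730123713332678478041826774035178608664051752253058724963555497593438287516059565293272022056522419249113722761061280064455232749346426820384228631051825029117619459433661336437951889075229262616477207360207349828328212621697855187557820243869807831413310883246358040291363959644420701749935516053161382682018923371624549068569148730165895321045116712975653656219217258098733383047295135682032586638395265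4361896052057116907385540565986895698499158678076953672481941489710766554781876421557557038431795836036883294577671863358922071602772302703364539946256063285937167023444731970289846179787255779164693787106887588696332478074987069750395848539765594583718434904954512045308621660785773817305136034595975923150992167027597717528339442437691361087668970618644168861827819581356369249810848177638380662745978303449285174783373287137787347811014991766712094986784968227913411503839314078366489574183494665157354687909682105241058860691746838673005466582293924534216287964776771516877732740575884253568227159796437755097029227520086708168784452237346884544767860453683742948614386435281350272056685298348333487937947335571653672825340656428589879611112446456326943307333063615149094089996706678845681422040556975928598912282534297685159438435788335899066762300829216759089170702289891627072871188179961164517197883100376721402582544906293892776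1928736449426508662613455535204989457623389238057047918313907589644977967511764128156567360506126369590690875357922585773881538224546713286902819612046075912780587741163752651282314391043857109101523992571273139471388069804973643830029312709365374979550281590389569432209140629572105604202348126229459958819657575078687883656567471119850500264821047934883461139807208119204340623054374555158220938543443243488601862320250475540655105457764449611573692068496867185951616348918750219231205242451138849243840347448344087147063411409539729164673100437082871040016730906813969074569924049054008661055687071295593451473393011770649006531835653949353115337112820261582438924172318992906586809727498181892982399180346092385340621753690252441482304981315002334941646218810218003684585873647162185575571672040334124744493723231142242860814046306871799084596696058648974778561313076096313309282863763866969606615506123776740608840093749573068963347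0936838704683174861047148735130062057773991399819755178678278304968609782591902924123964747108921808072671895753532284722474294976233487327246526515979581306011688697825549843244328535801437959266023637506095766437264074255548994672820552898115046042767164274822134323369163815358574943812861628133904909847675867669755554111310770514056125374884073487504934616943961488944511407215844183095042527777778674402964235726373843835830627306467994888526795437233900213585540514882460803184598388270601029416298595487947022259656317997321353179189486840181530829661418044363819644345761537538403866484730365131206137025933433753163166416379772255587035718144067641966434798680086319145840830273832892941269564349275999260562988195871603463257246056654192960610951407721226031791148235826883665176229665291586219709428295532295790065491995686691647762055605949053231550369715904615926110813683800657975059893824332063867134097246370846291113684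1393198076873486085626691256159572457885379719849920824653635022988146773845186230947146557793431994041312729905997521551158132873084337991969008091447990666794734344025280144230249960509583314071849094375376725403724021766414096625703710522191988682043073418572930724012320950155928145483314900770812341642485238472523000877708978231989523596062266847408781247153427540562802307883890279750635013585838245930670646567382314953791209914402663075706486029805989829462037152435702042573111994504697260705633955883778438776672355391231310113755415801830749792307419120657874761213602980032088011179879178982545460910172218173921289500080431648332371627293327034782849386036372478226694663339980226747345647903219468214445710543649482757852637525524939932475853028330073701312353540126577181368281739668739447447757732810877956424233932407070801546124832210076437863288860123816983971778554034405803399844394748810278659535195596067916259087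1953055029080576784443685530474087069838650394279069739457404265434200708136276659008918003528572611243666311536714806852967608588337221639265811327720777880083705592240871045233753374628182047333975534240972815644201487348798329408353408003110397862042299415596906767244571670388030960635911191256906934404042624509365199955950202865995627927497992537648459852809409988978643762056810062266083229406026013191845020488123939417468635346896456887823899954027411759659772555931538623545015293274843666430842797959078767057445781509397637781178288641882414344984014244790528624823952571387010112724924616025976067509248928648648234253458225339000542756510453961896156261224189618770951579764243371312686537078392827244916428670400596398265924129854511394401632699570042063077823180258754882037663906725787275556941366246162980268465984739305567824042001126441973335201365831794435018008922356020364886425922073553603120113418456127021689736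7833283133752033858229870213469622831263340605939103549920068616143607890070229157329280726282586238739079651942019140305264742961971530861624588084010586206275406849411966211104807512146797917624681753082649036238736198130553678297658011679503662471346316126956276816215797834624336224101221107622818568093585360472078183480319066078648768738910486316795904993556454261774091315185450046957817826350007548068406131598412597165110090912875945650399103182735447181671172215840309509977578878987757502969871266095349788554839536367597271920215733090838915822125673358236787576411686931808837744559851313775214231338324979570069629875655221104397294580630847743895569065961581379105977664921025621226798237072318129591344731130716293408955749872177495857812461086534956315480842278952288487669710072836786872720502322866770503582241236419268824365157909497940588664434478064232878126593012315561091763610032191955881773280751332534046661585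04100715277197204983971965075476637792891176542704731940235266648739177032424916070781636990468436227247104502338083166414456213929239649878824517221415294783903372171685921328316046480745682057842017268310131538122419457099592781717084494577725173851675794036115730750733220364190169641064631738797983642983500961571584116319570172077650888528742805635936679551897390655166957534167764440393484831739856559906996949124988239938424409444707642388207375581719651985489796151644132572070819361750195840469011251583006281345837130387054979881493205802540905331584364071774174623792384902252466733390759327348091486208152447054312190644804526575403485597722864318843950625845675471651652471739357512376143739603727679854453860319737198599005578908461683745494597513030945383883770020994780077646922135506077037826140300500684840100805724105228653679044352730801316066378023771095057598643728903228016650151047686807256973522257064093395911368986686609375977006198488634894840711697106915417845417918697749504428311603112804627863127534442915115922872217929445804500691992918245503862564701986308871309702048799821628727247526996729523347049268637081288137292034903533323768408761042242960262955008)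

noncomputable def cp1 : Nat := (nat_lit 2828050743917737890964431710948748162615543602589502530589221033823159924420851789547606546668272061987520342039977293328981704007322670960008577458842434262638188921749851342623862762140161718112738257702736220929262823149167028412773407212729441299272817595542434335640581444678201916243002596046913463510878532650140146740061252916331471902799372654732066651100361452733643675342678514871816756448267735189242004283365851991577211803980976783262423902573262538879497259243633422428383163073538092195083633278021350229357446624398764518720827055183077034325660484498154323144604433862336756766850682087079446080436755862813092690726853137124950189288773245426397707725293911790112253436637045486191905729002126661903852689611692558355079520795523228922358399283648067864607636491853597347763882454625051820700914582598178176671880255895546886987390063093641039122439631524708728772214062319313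5656876348173837283252921925219868544178635051143056452039591140898105129043209510027173566976672334611720789589536185959063884565275132208352753851981543546558097155987438925215577482310696156135060526937364786306125797447263885967004576516238085154639304609662649519240475697932818902201925359237185164540873682978555734007752050374550465041621801644566976087379799289888462792946177854808457160481645941925665084240902702363931552683110986385821933193408530782806343802025925006719634045089185495978003271450318432562303279105867225563413496020620254097313044799275061335272468074016815011055065487108686220560998948718323280042427027582925475545502782869034028490148470176420207011456023536213444245129967513668857230979062579067798290909530737392593244351053560150023816092107743243517083972464499343559759561778775986509940427849157785087941995051244895179274448467627060079448487833684844795120325615583976609160856486319819633364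1325214465386034203690449459726808451285349445010336852042680186420688683205531488477849632870215689581032268929683856257725235055693716222301362229067705625826066221305693307852139303469487313951659117506439857278530209041604039191774085108366407296495117994040329077612230825374233033980141174516158359831203846051999854061020205073202143169310842156718700398454100339802215558409548323790857465842236940346118758783309850693856053347707201487717346928217997080418298222144686379174047631412277898713690902045934564919683196944811685665148322007069482628107819635291779206310373121759806576113060308029481314155628181188436467820066609508161240626590192155293721475939882696689760609477241891523984991535587991660372347318321260590986152737533322173705095528289228497227539859899662510604720942162280677125518866730204494285672972382383273317840217574385393784942047800281103310223312455578045898592005085483384808939574059153480428171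3839285540020419010224321672238616218770813071779981515256564886956058867024375444489829106705098790855671736102449731600754149797615351309397075338669680888499982374972335533111147540389869798588852055626311304118388624741561322588655336101424398918110298927841614482551858289384290490895477698664620782259535644531261130681968622717725311895422786308180838183924589592835592256735005037846124383137986154219378103517659052321498677013226563573574368769961470315215888807203137594381350974571553026279123050332748881836479216520675654650386740448273358355402555065319166740643420119213369770801175627328787837751302511722783534574771052437997865104439734593503059677325657698609493089495956495715751169226638902555209487147687540937319911143717406537383704964998081999542669173075964713196670427851015912707259939524557235892721292953892588909987187824444777338211935998617975812970750253198966988191619444919282510071482474664096557019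6311785289094693449024604556403122682764809221825929492899276491080515510880185899035028768756763296529880115284072236987795572998336124941936053818431091306352315411861219966516196350300263889932681411700474686846396508116078132263716340322506406302671761299524616490042993137947316798985333308981327945528232449252956812240123522940323656365101047538231171537102239104389667423164598051640070247512019476023722093567134432975048445730427309398630431523935097575496508304813575265150245212364484882412811909455186180572062071309001911747007723888653674275133973431210515643454137761795510379600151082338836259036943853730672532547552467457645355471726109998677249907498756844709131790876121224597353391549960496616874244912655062307498992378965640360438253165380711469321401994476042083818638099586081769220830251559774011618866099429900326797001668662760137564492053530945480112013190866985862620707837172103481884875849064863699539424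8086441473324383909836594925313982129621930237037706689627698434239103218645689534151506459378288990824435920820469846159937899240217589336413514149354876026307148929499033208216114559774311198385495172581571221090727802043919756412002983281333414392589733666526576576000679062699102684797551299667544112490006162889655475889325312505217322046380552511785379143477529604330758568042457224904208610123488112259170580963884702536023699817713446332909742620487995930115316499896263194058972803582905480125669779993783383561637969454339344831167302163312028572072645355856703752374712438855997328098903077448062951021887152916654684887342863103712675432712722930297555008122968125468541566463645686421892113465070461811253580991757098681131390603203409191967894728084745610098318357755547765373645673721470838006031180721078840403395635534485224527758725216606858690463524686272049622111957566288209743295550665045649964705214955945167296629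6565732093514283449906176684723706684875694372105208787070442309864860626814681828692762130410108255483391658401404533754560036589354857425642813119066342147125523336676835027913098003448634976195965211228546609420634850649751377802398068461631289720846717876793818097537253452874014494296923332565998815004544904166505877100645289933752670963142587997825611222786374467071356391419640703389267305096571458695631791761341150665587362287702710976364917048087549778692244745961038992498951956043030714205214240645895237646685646355383905383809190525609500414144495992188722051300675672457252160769661036651953812849379712623811861825283879302255357051839846797713519018369303020953816967635307517278965769433677544732177970391072948410506893351159618926935322527177801183363373117010803427286865211206882525836661122192167962851684260539426478342994894952501221494436110972892025967476602633352140301572172346220440107964401950481135388742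6558710796665169259439305473806072709470708742509802853690362048117944551334807893734061456124112515420759131320458262111776154969763981865348008765087167995179501629447196192962042379359959006209921993110464662838807653111147704302522344500744894967912477207202187434884849286173811537312146287687810930519264437378797523345718997759285732697747104507207612736476393779074073540918415931163893652004382074631855583980005105633420628225540987071549017176697811877066251448869847755736090166918581916639625635924073430520526944326541653311453155980207551687102378389341523585133142847425578304191868307589310625878073518678900562748509658893782648802308370795092390430430555883009059767403774914023311805208266885728566195827129903063396680965926620636051660945945609256448177336604486906954479876503552395866333209760261370430916499328703528847191337391121260873055171306640736070205888460278611503325249242959467133947587790886469364593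1149536466061841487033141105226720761363189672026321860294629777477593459274737114162709317242883278928650395407441533756691412713420437714671284471594247204209078225687896525129588965874569662332904201023426772319051597002635244773931362420676231269000205686232003144411585711719673776829250990275503309129035394352609984930756357822754007851294147082234047877607575723723357661927331399806495964938038774441524296720358169797419136695824025775232201467500667388804723368455414040787074714173437303992838805732692954795790970152531832929541134169144971331149986669276328097693068426438430904585654384948034550572057137198588500945526422194197251607885697323709840429876343363209564210603923917156178436958939574758057697453296327210223247681083536376505480564790303424118963662402470121731668606818702461642534547805478685174811322846458823364083344551596875147875503524717110553951305802119991981819158500964099370198769031618106146964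3380171053022131357973030899675343691243949435716139416106925121918750075201589805260188621978840561618549587675386585401170239795605012644870641066903734560283548154132706069894050442713118584745847435395916930629657855115309575867082441825042621487790957589620376363374898217454343778016575213171022522185437495890352497839829011560945308202283799922168720057102312634897772071918386369965506350278515036863299244051872190345687032521065317534510829019193150140465204950397900394722801514357764686983903828687804862524277345626055339839014753669445724819540380916847317890496425944734546079097810934832377841516148803370660407685682500374145360261704046091850216985002133023061119332236167647086196685254146415669431951082435980632815366590180221070522896816221108694447004074547227765149562032764633097226238238317006283981579261434928130388234636545194892496995871859152994744253179844024057250386750990128412590742784944172584047518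9917117697363372302631760943465549751634613961904595031102057558253372442455329975017561535749432292483868575293501910334156269030483078870897802569607133464047085504400437218217959674328805242187117803186670588469335296523334533410303335511879968509451260345664225907849258272628269431106041244070377452328159697708393076853655828559415958701454275568141227333763465410606526275153539287275920349295522358573067337220524314558585333687191347945604476484182341762547383443883041735274248362016511328763591802414657731763780849594273279129648326542720785557662477119176110594991535375989078028822562682885638034300176848375671138940973273163451796334400697561792536863021163764768543165007068466586256997524812058238407467267634401865072830981548067302410325713302400804302137859862136346722265524052584189473749301765777649141147584603850648137265431925561182842760038992204596398196761029791407621476845986919341626691179808945200756758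3591034532938917304667591437605894006881260174261275730948721501028229067914414350532771978689822920371558203698812428769374909144652007031002020505506228231866283481862429734103584367234048414479361378313249460024375866383352244521689680939806373103204356442130364433866235192339186356225294250138764370880469202267905721476514101658971054925431200091627057509785249404408383495453238465612637813243647400958644285095395077947154879850305277964336395609200602957553390291342862259188720134856203191607163335581542551950913841226308060236930196068969989523465328526165958284246730845097851850704246215244141990021784887110100161161184519706351440943380295693789173872562010491925259531680853657577046609952555811836505875343501776469000367145144678179613562280289334543931790235377183180828671723639368287371809991015787333657240971495725617248360687794226291567320257355634304143333025917357636456985670093204832132564499268173693717021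8145661597009360176487096908032065058568542329722050842376277193197530395468692360982528390053243800663430416813903341241273045706052194692476178310461302643153322848412255514900624031297766395263302368453129569991669128448573736499386387616689309346610056698714169412525602823561795994278299075379032137494092995796621102319901686857622747679162770115555485097588667429532344912613976019276009990368179240138428724163637045809963709349296160513184582012142214912476295297062364324370052746654031688043734030507616119149632098465733596490120786841085000948337922240268585104341415042766540568580583011197282449218467773951064344456499948646990635800113925530837890596346921182710409608610216839154967407345744560546604032651909133113237875040517390006006158293614409583770977859371353177111670683154702276829566639708497039082127270031885809786757355300244556920988241017241947880211016762449648451036861297697229117046956322545983607930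4329361935012057894161940625370196620567726831410857825795271983496085342225690768199747069147754420478471585801957369044908731136542989669698652238860280324934408163027130672772258927800118495443600436023753226311669601212965900064889420126981279812875095675488709751708753744811834742236152399580622092497028498358729029058935618507906799922346633544934100292102616534599459423449434830810197893237642014493638892962930213813204469980561617444892537700755305391090994453937767295816963220337639684567171442932065190232274659314658361993571044308201378320135829063388847992533082589081748401043918978346652366264909331899441780699872015424908832534815367180464323642591177107053846183348477425176688062013250259174552233683101222506838233203545078728441964199585233196004611847956518675582245668001154733174937711683010551931442949961651697749945032645265236616981624537426922810155800124763818186153592439132675366973872369815476196420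0665949926002752369490519347507765372421383604553434319417126956163374412821881005579639014890088167386650925765757443572436787385748646102873378757525737838462683272247860426315859999825450432513944940921972748406453210800327859450520306346241975380696818389957403139489211629501558186869540625338439914382263714549970516451247014879440434793654944150874182980963380255516152302147082798643110135541611506851541789049857319544827089805444821805834682108630780653355552818155486018713207832458284317640557740696775936261870608629845999031190124908049909977699799377026314270227795371259008527856404573731359354187254954602003825401986394339130000198342152654291213733049974284477635272964091181292856724358553514154266834138304780054690370182500616838745882563133264098320338822747153107462496901974522196810511817146923311366435295714573569623087415055218935161345345045819513274146965293427483505539079098654213701403867585058259275824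5310760115529566198359271300360426870254993700317256676054871907849551809824516287931421937540489901898044963874513132127811779123540599916924935032128941205773794126140734554812099397790503527430688326712053257412490807014441718294521176302486118098867731518602877590169545343005212879888311537446038399149504341040660796614038630334939582680883845490245992261953735877666860312760657454400444644475246849508942929541019754032731052749554165674478669755211259774448177399990800387417470921883305928265257480861557279394669288021338685538361636227983192150151396197105447255356251340534250243711011143756956512546710234789063193811525778862514577292776254580830572433846031523689134830970628570733296433998589799305850310973829247525131153547332469072865847219522163419375700745534589732328024847674011816762879022781073387093537470049205353393387894225219050520577797243508400399912939709460174397228149877424680980716499633952038751599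3732045249082736472547943421112020361935015095228669673703328154745507798231370585587854347665200799020227282644227065075944748055415428274741352691810098277134810218955082306432686060139012173379476031911787890962937799215694175093077290171471021254531873716136836552110441346162001631770666096139717599190239653057156306501022424577864839286737269049461482636753011596308449594269141743322797779753270658219615311411000389524208399780061671018683626344300932431040127382569537337816668262904118637343262820160101021012544508817695454751728780425919706656202622557458138416158281129191762933857925451360597925842777451340180161025070345653036264432766217477118693751255652492286006604344254336015473013162575846570699063625527242485638353517696330463916391615312424115115425447050402536609288164952346694882142648984708611436763433235474619188670643201681539282475683530748073181400636603508327773858174884361284132125562982403626988288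2024471322767263490689172579785007436213343038475377823311408732425178969935376576275190331719088405332225888449335107141582013458409320631402660425965073252688205592558191109902253773915742395220742122308974096935575772095043008512794065980728156992472993754483951541295810918940269186647880452090314237520388682138247829364570030527151366064434642399965522909945916346857525330728967413577886099214368378657099541837779578070610904144264719347877355750643800712447193951216091602973028887738484833418029672376651236137259765215978540826017097162027342340922145387861483871830916569933725364702853848607320728671062648322480648857729371879554952948329798434996679412163635640576404180324040828043027193297742059386054457680653200009157817365479690360235577762896456431786441829099730755152530098900864847294202341276654227403142433418875683318629050829929071205053601810291664776827499561929597885172277298662976296350384128)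

noncomputable def rc0 : Nat := (nat_lit 2609344107791135897575310496476565894975666231199581420133133776142183790316988407316371032752372921183578319757957521970563015111717094107435496387810438067941625538998184746387804431334317399509906222616522031762535937613433823332290446618419160948082178849738886772869554691507666775930282379959720328392324533504594124370768619502667308269448743521818985491987167270349388083257687091327486258865862451607289716214155146559312108343568493174551799704741433721014048638861959837081916959951602071688903909152665630191262927694529496371688580865800844691161611061046485943104242426253533799221681285491985045618806070700777227051012852850138573578651768912123645110121742943837458900088441487568062838573955775381324765259249699661952457529796077337939341656010320534286755704892916634975115627887620142291072961747429918033869907619854735098484991437408266858274864727805991044788938880086243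7709173582580583941981448277062650460526477553392027897530395840997186550641427041944475495469601624722011700118764982454440824294244908491114510007869994679398292986948585471422191762200987605727613042986657448116708676042889560631422102695999263541546580674128276849162392227698815829751215830579233198636241233593405978978874454831324289382077146309830997801328152865371656335561674773174757078140923036142680225674521218551345719401755035795876653785215811671622430469238121377756447236296169867014388301362276114521883345974954067704871342403518146331003314685370583936748552910427020154543682878615225347881175024756386237346016115348901488058623511244609463715523585443656971286016343504705630149245480033542242056872653243351282940374263112344185094279978176627532992330141798696644292240047775684066667577077133296752060416651292732105665307335686701342695939855110084744787197620067559678425227028122652462313032479799770561180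5378236922217668444478681367933162796430782314225851637057549747500504607573435485878523755086559734141946029448030722838161564359368107889133049298927833708951467703953880135033420397882992811308597727597668570393154104549207974654553489089154105258979552457727542110604333216022529637351950393340825299524313619510485262725299184467358880396176765397869768842535725662086298063875436152879254423330080730426035398017982500362946088052457489279793160207792634624900197448764568098568577728267646157595808876497018703166371578715424831688961709702895362564984141343559109485025820613630998644187019943470379088149869962342327873875806592453522961064437784838327460264801895032185547479891126905783504862665194489031447626374737187216509359722566681502704281080834003167360841122991545712230388764808663164537759082234042846142423886073750484243250391888293466312309370648389281742078245242908245158662936990430588259296613558286703885125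5025985483746546509177305310985887075760985105648735307658169720270790799522070585673481365118319704933133913788962044662614999621862731510040611875832613165746233823290956537004898889065301878743892646848222467707562859264827846713813486554114155318573103844876264228537291693452494779814642900040837832894352809667424972063722169764975478805125506375539801236342144882217108334498754901980075357682320162444615109696309031622038771008523459990668341608937492530163508352750311069825009126727315460218147258731745253491654891368498628360420912547032907847339458325357283917561460308776144061492206999583816534509509482942419595381485636629850582341217267776468091537165388915207339469070402621394804058773233588686545968133116374300138324654600212088102991252781570717014087185973867358371116102110429137119356962560050483666838232379341590630046891698805943143007225978296319666299637878466725989989912338331648599944289084461804149509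9062641581607657696795221328070206107520335162981246263524881032626455742812424912173514800002431711065522301523152985480475260258193747452112317907032986703278000085096873189033372306040853844050396359918158154294312594472374616726407202046706044001050724325931082832835456021108707457212198747631389749239998374442074241620616301304575431022665080842952255056120158289722343501612172362826384657765438326589418768117444112293799615875857235164353710577545693194356389343409456318860968249819425245290553541701024098292264513182279471623711588214520493663390558460491710401282199382159500362880928896377171579168509725432627892043723777180231947447761569003130685080004916530353680532646054125310996274707061742622726233793534543901400935522103003411596562640805555789184052934664744166419380438456892089975288094628545257984319974427266530836094868952601636926220590599480444603851540823814834337030437849474608742109883779976158584216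2251331206189013009247849416872112058248279551673082051262356667549219481248747991327771352116137975886398998788844126385245524506435418927524939263259224624038692778567214274412117403484838434798047410357140730289893565692992291437012653087822640371794008222354897543817690650941210270500824803136345343306431202205161293530079201761016958221626192132754402471538496627185606682367846022712779536870047150970641075477060033308527305796227602179695234179246075711685551763115515835954759764029667876722710353705104326976082874255958482765808016608166506667136081585556639842454616610220977088687164447713797149416848342024796179307933425767175572037190041373083115199927585322870498389461475956031054168949549941005047460285221221761676818978642999357386299488903036607254478778713905020107047033912018609025204524961892795247900271194573488139064998895506796291205072241052344387946592494231548475099910861914375056384879626105449101808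2184906511818795792064742113907302740447839458037430639543010132236757373322091801589521991622291041704608820574624608676769350662200201054725886634877621236720301264026209345345028679108394691288090692590471661795593471724958889070517276922207640998650635457310519914485021056575208985000522881702076598639505015765312078881143183105231402060087824710372920051849171594790649134486582191635864109828099109339165814082566444079721990928352145288289707468542936425654933682618997160004440655575547907577522989060790864266343708923705179174755348075601207167881629555269734343722802551623395651566565689895497772623665978278051244916684562655641347038381024130489794524171575638145388208774148105449530814392364335845244484375703898629547968753990080837115160691079920242701478571235799567114626744894854906385448533604467861052394775390964309684609820085778246650158156659946234476715997344149949830325600472419298506859650059116732044137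1443555291525992549049389571027395018124298240644853014197374596078302738505561341215919356595170624736464179646415410450375411853398320471864051865450582755295931883841598715994292888713131935237735163093012828180992813182355709409002712889384912887831766086854385397784759148415852105709921550245709954625514809368443967336705430399098015582428065575821789710940546338324688712800410307329421590269326858236391591268526554968827528219509751579174953015851081946776122912913147568549379874498738823108298196329691857674166265311802995599892797707922101577247351541325234116280777829691610923450662387157811657708839521979583295166490579962091307419737449239850102669391444564072453414039821652469348579919397784567897077822983084229177456685387283377071773205398693369236023212584499141685376371011764369427609664313781756969058156628271525134093055278508895550511731713767001214074752243882957513046511325361031155338292837121339783224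5003313039864754464012707299393617974093834133711469463656508713418061328069036886772429891840675650511728560745125474434866716269735027516113685648309377101329231423444554023638398688077734092104396983569417663211888302871560968493114622538838244340251537404241780522949630826109283098566874532128607434226547994017929676639217469515862521801954267939048038018434706788284878977197210726737338096005207750128286130716603491606940793697357961769168845341051123954006155705800130938660561917367399086119658783694957141688847456844709973676249619471367336601403515714242345369030658595356935275809270610871809286048641619938473395663929123111077202950000565606412507919848399413125808481614420932636012660476428432754193118688941667186980770011185932092370893370372390227600600515403074250745983973256818556945377084586827626286339870548633027133007216886349045754417492443880180425552465140197794140802992868727199256998554350603124064830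7285164992410574035540814086838513569963851825144313972053518168537125727093097072220112520110052884004236195458419273969765405286753209662458923960827487784564298094586504263861628132811355355829297663218357172391143134146921972524467705422518937030413787265325120171785172604727419655288034923926427887364274061202058531025312327833909709812212165134449084357575091801902989172771072492779875185047439953847145936451025172937370544949626518495501083292325377347479333572012284959818578396747333916918680335644987109662325438190035918385502837460068460026852798753600943721899145524085718440276221913688715595070542685861782232107477351114146944459788743380111907921894913352867512404207542607771181199806535761829731923912360182323075352740457666374483017895620409093736938163071490369133360931646814783310102084057140547430701147806534226388480568425429084989966107563066610930427892835105485849064364878745301694070899731486273505956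9304430791448624562539931333715272053431570086861833618604680399401251946343845597988515141707622445490078564728794635869651368786477876604526891200119396484833642073645649293780280248671413888187856751517053643067298480663868450783312520128502413227495687357089207463212706226810934821163138467772010373416938506670936132005389928151180993217949643305375069727044036647708078356135657762539575875403193082015940150560138290328904276386360549422011241235367093357284834138116831453332090505278475806262526099329470770392162156401255582502470069705240556708601229882949725940279300795101552034448977284970383514400422150545980983747433360028512480237731563617643703730748477267728897249605023304959426011021139525743842207821212262876090566282418324242554293353965036011162317658914841639751527779651570622868224359234015726607575387076312958410654110558908163431153745014235201225300983599527370756177890545503128542329632212275139792987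0721769547438124252043929083881045511197999909509909761076824133957103764378491403412587917165444699149224292547578367124555524463100657155574244818225154818451565565010422081988005553130661797603080061925512534349092743574995617093883013436235174607546642504549154426819398000480330270427123641193540299343183716009478752985916467252999679571295540038252989448223029723704258338162986610919526579411103073895352689286279317335897722220085403840689847582688490404725827624817297623583989409680571378671821931984800827273816883861743628227979403788335952344482844290915159650484264308399462086896079538821309518436689289257692015962152004274986428062059034390984857178517847369726813599359422782454138568792262636727098240742656277688258658342513910344856021257404246852575560420869138233115634569431771668697673615816826059345425652221483127662685002468724101044301907561228684493606314831855605249750105020445926971779479538605266941426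8660352031358582553631666399540306251894394238974643263910926478520074647065966102211893202373402870405994872839285518796727477554465075180278770004368237190930259332134488818237639180766375065255914347325791176529905411425726190423463509638615382911158500702203508894482571665806198059020387240761042454139038888625283471586098792638165954976412808388092272377856800217102381875874970840137270075045558693617254743542664927629147511927706119554845730660983470039696962937341025600754939758803019726793241128167542823006534681056991178095356134148396645996790444545708466234287336212190673423765659839125258660989732676327176102366048565311792788913688217145591717758606504589861613950944286127537561982777339269429535044982050547628411072695403572152975443555979964766134337464352827378321212311778905002364223449871330525003614681402533512748902605192281294957081948971754097444814243672963329804957324800157465305571684253201557904406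6240945869136114083017835605610296689170994384007526082009096140297638850504459788033032089010087507941326961374595938466662562397059367655543703942593941602386468470571061038307036088131968944571234370249001910683833266364065078715304350060886944119727050205485849342091545721062823032930608221459908947738772949003141336316488734066387913157068290269266936026584446484762187355439824722724022925988681117617190394459642308520346641208358054922366806543670663089757283534548768281767686880704426687506064041341599203763523708632602069975453137362481007386244652649972761443351275609403057905623654317476957173979693481659207499789747774509134767058504270572817782503653729502374793866815815684834057935452766870837976504126009899627649769438327025458971708417235416803583429093767862456016868663646148113099728192229587050026462362376664764509990170698921283169202893494249234700187849437547594497670148964903185401426520320381308701438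5937450576460783769921897442003007664332797397489425894649612253739278726720363145618537966160598446830553389862100898846424941617452627487465133415984984586302841062057372535696161312435716212023827685861582954720277631665639764074363371824324753209161634039868412747316998390405809103878476921459452782571893067450366506960601992353943204227807231220669543373305938509506251422963503994409806981717356537360071970116186840906130760053745848260500960948993695319012605318125592334818624509928700786563068074013044489484765372049758570926273114583917040514508284551373264825391564714930815304499585194938308340289182469278397025536020462120750888031673380392241031518845412129983240699411598763707408093192908336886944936546443479728862493213480201774606303338454474785749660057309814635861766109643306423816504747370906272075907673023295103548936129768863389141894441589879592830527008294274569062302521566100758588084628600838578461284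7848921932032990689743819776067578396179643229162933428401892980335907834219022051520968621563491816538730541686189853054318572441731665745358681778892652428278802943866743926330305190872850616566520032534862358653955107696415761232296616009851613347029509986523695115079971413960344741066205097733739421124756925725174753740472626729148650593174818939931449297410140512336860807092702477680512419706069936115016648703079786221908896693324480794577472644190298226788455400450860993304831471909730254225746040685866207425718584807749471869804560218601365669365559733667195317256743222632655682201921792324202261782820983022724472503608947523007934469227647595257825098979387648019404903151518999818210917725056791578766294746881104486251717074857706241583915412992240603565169109495801947706049553031142886535683168519813010028341666479906877015654761451782175200932828959441069115117267260526176851852888599154669053923252730145301647836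1168787208090107684972602825927089098702185661902942036153537987001545182974007816005443440136095713949297713339731504984706384259110905004285606816318517042258225892319494728393333878674193114593701403079650255950924181275909978881669003977905131352097980850565031149754774384467404561096494254012033893793403860691584674644893487253167306284030872823702989651435069908570174010990396334329254888291174278911188932962513894432807358229776846622488508912117885511921699879430368587538479174407842844982181057558381271289284379913881661169497126766561964863459573142138666670984815062798052767918299375913532981084686314014374898748370889786933114027894946378099018748724652346637347444803259220542047484934039760500965807734418731117701857630221691041263468853444949917320651329526534150915416919583978634524797636927687374859376925872551602662800710321060056759044361218045018902425228195136888114583832486393776745115315938040347141459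7385725376072015676712581382297119385354544879036529818612595512546208287214958599163383315115443366222727946226773520413474864864037936137326310407851232957868597403274814483913051656307114168702364937334697464520104246516865436483888989766349795682311867087600526746288229697268643959923398194116840793816350286340607406063005702664313814077257393297578361498233766149065307639169920382670685681774731886545337474049167035042362083731214521888899448102654847281652066879585812304898321695606646655676324730571085524113623353828403349328507941760672620017842832032138166130237002017970698269769200013121048844115540849701873395025512371542101754172104461539732955269499981520144570479786502005087584596764292629764521724139022070129301775482007890158624037517447797056716867530968835383060915303305669568501069782517728047141067775730730864309520092666670964374945575952027717460567135433073807820849067962265285870135279616)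

noncomputable def rc1 : Nat := (nat_lit 2624228717790030658227006087938892331621261725625335558613408775033656895708406827801054498986279054331238920534776429144877355548694377730125913103324525886253431297546877129479792322266314027347055363712709343842006263192312332140139479865567139721722752413542543635800967655513155154542391890313833161499160483141677449637285501555294024565738208094165505102423824624421504373865885528165153071831010472514908453531805915502296230648518901504204308013163733283903400371303782545364193063636596294554666521369156793910514890678200419124805813500885848163880070583815844766069925165111169811638135708912272037652686091863963993044806542212878765133815861345956176504413997495369215217130548954700327358596704684475896840971968536433481630600105791903271750811538068219650683300471019902367007932973779630636363089586281819926272224499094693611174936315102281526350193052913216788331850585679993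5949119052337948528226472977536241153635613171138698520163731663983429967105137863164669630725149388453948995718273010986145426465698883449284081883602584590745581883164875505360482653769514492977032137834913528683446247848991634346456788176184335185338334828392979099712842361517270762082875244327928490834880976280975773862707374513659823090745787842822208744802861121584334970411246740148088650984903656626208214780730223371797285146226369817983113101963550818102266945981805644671961120927000671639228979951583363946988066071808297541113077450223732011473499324620121832634259293582540136093661749213341611726164926293771044739716178172701875875999512472073314846159306325380773823508799925540832299959759916666438717869579180545099980804702904890758770264088751138060210559753265849031037293708625638470960029478085539708879014816108970144367451030125106798083038834423531535383457090069086260080332811298501464958157270532622540313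4862675618718686911459299217635561577140112816618534481373079451591966126996754871484342330354455705496965601108216364346011186701844140561731765298478257517911966814871670186623680901736340389132043472724188591727632510306401262251730306842454763391996170922104520378131556099851336290589549085849996135477236317380534624766767644371020346310070098649602377493600204102166176870495674109836948627489855136531028788156570747291205888424343255264408625802921073019454645511811626911618618295255080047621661187080876945765700937213519759913124073122687154399831470827389150854268040972802490294754309080073090941768411419818249858093446641422799443717796355938763743095851863659103234600638221373784481784823486777713079445653032575930454790084075277658419623872317835053143405388900997771405711328774147351771339742603184846490947725454525688788030660200693341414759353005177083489485569646981256937875783471958418744512291164591396626024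7703914979231706578403407194393876469265239643006615742184536338274219901642924477597174918109437140100554364454555822848646684401040897124144113113596226390106658999103141513903273046375193832548041854233567763423347586606788198752733448319447519808973933039517071453869344965292924708144061655505840232060022627830447169969113196115547462600960441133602842802905254455553672797872873957125135153970678234125057269828297714112642894547649945255256504829843342547404737835007545483347231454530205154900091748168059087049562632714543541266096111605351686301684564640834756772459925650962170839898617943626950212532857773154149940733080696552000920470016221005170630321855959834188997641324370381488494436041526053711729137931301572201171153705855729929004374100738390343122413078337753629568045322140259645350856527817323373058298648485790622719524715246876422217607391397080495828139868516892347565819560133928881432248723806508303693820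0451490563724996199249045927888052802409089724117192523047441519660216675344626498772425899241710526582856892313627068959154966682449339435269783828409404449717657325519628471311404985522387828484086827297992454494618788639221269776330196557291553408921654609000326792129981092602821528111786301049760267310167898676584636805535515526431086213206864977279944003807434409818833699457685169474582090509864870653516241101958757980708433172824830995020365445652018165291165527135263754275936568971047274871182357687964888056467929528759459107092086668462996851989374448513046395270264456019500481055550370754175946412669283512805365518232487510942670127198047279407363306454062399094403582048456161755511339081220235575978268730276545208879648023203821554583883639390813503210897197372420722780847099986799599669416956558738302280653472713763380977365283539307903335232819612909352353073591816058500441945856406926077816798376159299276399651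2355706130521691971791766321434269223950856538983962554409722273534912117896947361857145523887109984345376118830322158190240632119971908015625725241624472645215030453664423851324588571571809546988918194709605684937878316226957161297133239781938672145704530896019674477348645518087077599620756180381434529871953919915057676370218734435134613451821942549013838794668816710976082062201997087789717389701936332294197373706739152437932179891365195248337048582778323307870817548523588234199009656769359535991488778688815887657215372115581107270727670180339774237519282053349032976485144055023480080237628472465269247675972500417437626865004179510227698895367833553402600180396716829799012404123623768193658460682824968854567914861019262196957884271334844960475091826061108220883984960341286491386881022048706833183793249228018576878719633745861451473952487284797443475181915217196766939162078060808920932796711458999646018051807209768574613668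7039333501589051452608307878222908154734361397553912138910785846729379348602887384228706678282186890912585030597644614774362444616901332855015770066751398022364169606204657099461661017219246688548474125711149889104261933545067550207165335363284048443136606573045122997739674400024730992307890493727751324437236257821874927370215410952703830367050867767245106984362753682244646345233533412506602049882261528922572294065105167867960410604029555380981949093821088345542877028277599588138941687586519221897740629118542136209378025411494282612588570924248443469036122747900746313163704700037023675245155195501257620276009378904722782236633717746168271805081230567959578110299134638702124767463426709337182103350845978061955291983335542415195361832510145531862243894586356785436304517456794170642140560150384148746981711694870278441515680460711257405746152492828719249821979891828260399773053232371654859503552431759107136523097464891320748179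9236280098993746820337933690629168073590707728169832403713625945194285031559762963644161461473583410443393433140715159612173660769158874036018030985789806915761299245451130041906886281335607966101882721266767328379517096003013454093363439754043057188571653676368709447156969654511455301842347179641449521233357137573808939903304228463494231115206031574260750489930092717259758276958913177205862932541491753045182343148499796504882346159339817932601940224458379596459998072199261795990444133422706904857168377308938292402938432291355066973210843028853482353373686082823140197740351742035479574766551814968929866524879467582551136661383822016917718841454105474533619960346156760580086797319240175155374766214073796376908382398726011938287669571591003630996949171751955004070565529032898465970246613303657946459182779060095174145925871606811141220550639879819824224773454525264827151391113035483271370736646521091782511353864531700283841485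4541212868197370692790135021837563343244866412590206402537247016744823273686448401249998899874551009214716604243484434888745593111204302086092473277677114340119166485841412959763487136825444701801366693249848227029173314908335790620426234094832224530543894200432293530729368525071720227119145834882400334308853712114476027321644830007998514938853260938096574230557436875546515475458909052213773773605995956269041621878838347391172358675292161230588334201532683099565053650901861136157730049216669186958252421825266426070867140922236594854450341978282874243974236487055063718759100142618846072848339648367476793149761985894157626429424811427130008049250998263233486494150641305845015756192251619403010685706994136074387494067912077356033650934418483808164967698044196963960873490827060767103669942813613222798242935710980035936319015469891965872696331204800423084143905689916966113860072544712103734932577403021490845746808023510892373480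0030651494245857052649027626477133063353041691551256321491620785559987239281005667750210211107295112908732765975808958854637466697143909786522403410156730117123970161033933321957743820691803077990367780369733178122515293896256405593617327527158386989552450824740317845401881304514716022086119542136573403424404899145010439986853527801404463404700406323043918577625493966887745184858037482978164675263385887897461244348317684868354815060637689659515450393088182210916484244205470308650607768143100059591965707669729847176540236862553763465956062142070729345580655093341734269125299769035371053386615897446483878017964386778117314728154671606459648944517970225409602119531622318573168714038100634295437980337140290917507619942013873032832985827526868270662313578573630983871660554730491737678601819518565746829022334114814818561461252206670476625386146349532747508441450570958440807002119778428416348465746128925537585387546598311388027392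0503887883194262654567556067666866971959663631575942167695392704286532625937841123651474442635425208820451741132606799031992205072357193620876635085956377419583330518882844616316016316311511785031562137616332655876960020110795883684677240965786212130559959851132076422240548743567334885062545138404562489878159820761857786299711843806191454167528152483200625207845431741159201515704623242423111836463597614599075245836226650024463022233972027165273367288409177731218786333646409790598350104515080466412245408653069601937974273740467373355538371209887739382780414064530539090358957748598794363900041205000631824195786680225656305897414752060609004661623507725391161552164424887832765943833317790394604690639091047065046135670019872265917498328693083464006163100670059068986428931631091547418990285933352524236520547268651505774961575386016984038769570666082124386105393396163096991511930989848514003611007521280723879814745572655506946585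7247463344100113095393515356219392077248640221376901984803282757589175636014535677474867366146942470021224517109288448461802749119320986012616360601625903445229211467463801278749786030050326097519302206114004795847465152585954244552022168390848971860834917983342775166984362724558859097431892966571883130818776596704542567514922759562924782282656744568332979538792047698395569997317511204047098222379772205420951015363206176480041497087610795595901671276400342094747634742571706291066522705215041260274476762697415434419377056519313179481232441759156715395274002105015394578592080426316247030892828985812255152001385358441946421912721844546745411990952505203972967988291408467904414663294840190368774451545840986979623327075181288541977244842698845607263959775046424563875658342976551251807093554863083179638482166551844648545960375261001890857503614444161559126258600412687745552714815687217677341385193664714348365758769650588307242246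9140754905759590443565025227693662355509585408352282990907627860263177389600746617982563712021969475350163647421579346482143178060153640666130519270330282869996856530721618322193072849399828254232106261385998093362927175025015324736107696839181996795186739680898016129182037704879879316899072158892125915249405567835149140160802076421406856477635947035985706515978827706371957468974106946277554378828061325511166823435623665208801324546214427914221797447280597164363807141887935100075191716146932003042171616429323110733707141948971306189956761225155950142709095970321509466672813230676618888542416329697086672538844465157434302668326586710013511467299996460945202934026885098013521965568274059974822211340038215304426907371955151565017407772875765523896812232652183724024695758770019862005063625976916835216319459764449212057510195887724232261206310695064588162251849429632668559729443232173909811327142588579576723188291706499162624754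7115881672891604917905730905068822449485659872528210962022332406514121030274000698495023590667382117941725776311262188441816097234579581704844415578915835375019906899198573281303757535314990834067807688751360164347232833644599648424003166722807713365937765301655120896401359403018435410461785501279558442463582823338753070067331932496957144453535523289615884065907414919585316099312792513567457997017631382880637011107713461908398451869756842342570849774007896970880377339033406880709879717637447637425566983737297445619640955756774952729191270357671497991547876672700155083027443128080744553549433136941848166371473126923286049701262126355271176997732420806543555423269965647596061247144090137388718123422120483763000408218805726976159742903752901596962190997724152247385776376687132912458722192866475196635059106145779551093869826956901406293380543936195685551451769439077590306873419686132320124017972353539651499453587310384447357860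0391849768338012506526226978917861943114777580280710637382886865742015253672775914989056760230270450947824129836080191714626902944051334108193248650157766010328243345618905995634917587409950622176282217018369170248413466930615613138444993635815558549107197371312201230207020712790378769975932174207418627209034222294333683015863343330331697958462221944967488958058779674805503372817610811064209775278019967126316284140699194922255691986799782272031517759044907944953570136089790456519737786891183772852579410870671906190656533304311807764299665039362354217938110926943574505480633511744720774035461522002630548450006754565312631295067895882504181375906230387682764083370439293904154047472216175244041380956820774917101689972230031285235549501576436823296105622671187125979222721022733761549961467272543087498510034157328478440867931038928878493042474823664757095128547150118697219322613107813590780068362876794798892090729052019830926503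1392527973716983127134485447173056464014155836998618763332934293553660300946559126277505065256469224361583027161271013718397635201447667879645115170877830018896964879857798546650514263678512622464527636364327918947581114435960540319105594155351379538502561928417015761936376526309811851886185368579948211196231278111771417269469918108176104197454217840429995150372477939842343343726726191282248171224572772198620473176974697782818628931386487017016568565374888165463107413552728701358015961571495971528589268779450457383324601809749251142778162564492309256886422012681479939920061967648055313234349542843880609060077308681666577240590980717222526537866598406401794476163264634145531188481330557459105348850050424615219405496339059347879990123603910597077574332120485143385556579509698561198551729192980908171468777820866121170894762698717982620080716080404573383160417418543209675044924105685816252749659754275804302763569659171148180098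1017408477177551860834311969738177703022155704157164539494467875329943343668255264845331332486449588342284795454614409749462866425637648664174225360194568405206774952799936305807957629394847309243413712948464375511804374906217898287998918022292981685423466106948338413262641302632981875268703985552611053828217278769641343665706062665803809252235374551727777004205286883864075701171696592306444682731867788284370746194397866319077676320720058301333206087124774494984216762419035184872528678426700258523644326813306731696129525337349467207772525351755002674282738464172998655074620116714777230969482189093861914690174457204469601554339529582476930777886901972551332461280743570221151687842361488340619555252165119651447507340977253946347663506174120564451176263385057479461143207574427155334273077654379313215691228907320337040898876774929298231484092539662915048243736900538384042020976630393408248560222918465607379827847045475024672583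2679309327619312593159078624564260784596644961516388693753534399451710257937764587504557712842404145943297660625226963774319658634194545283676979380802542003281278067828910743987654299137264956495920228856682069671471741528255831680597132651602914893343468534592678942550345694887138204694929860378551956627683852117655350641239092745580828462621344592172205719134580990342205823042961366489193032293993243560912849798224262530677010677004991204044298250072322403629447923572518691010504820594600832144055378897358139851695713528682596719881314166351860722641085705925946551358328195684555651261907787837788799456460897318785293182364269316264527542821129778679157793914835197304565988617938133988403390522608542537682740258383769679788808891873559211056299596969566165230044749359039619744523060435393923579528606993939466394875469731242557203701861517092335273006656772715695887980898432177684219260232711937762993452875776)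

noncomputable def rc2 : Nat := (nat_lit 2638976126757201539291451759414466951142237876933953318899526040745907165031827229065151181723138047806983572757532748351415950587931158633033267899750982845158262338051882047926396224223570865651355532081504854483581323455020560754638260615326345771420846135669538557738053066836449493030988554042060900790994561367864621886879916782343379620439131495134565189321298425089435920014553765682200399364059438956020105573806872029912961748829557142047515209880605690979317400373427370427676375927098755817367481301279358650629679278540292326933459156208569700976133790692966733898409571176016608530529901181489617090239343512113513042938726443629707959825824893490519723256324462221376697045490331499555846916385281102178441287802640431226688796919096638278707160540940409332054491229105981401337921590264440705168217464457671552553677370861419980251807811373925583650943081491679927388432505071851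7959837130964019079738754643392569306393816032763251209617352330795210906314952755039014464914421935792725180950216364454306709288595321137112259826761682603157405051495711458667264824086356527159799034972278858691665216698377562607171981630510647576349499001494605490133345146614643231750256743885746054716081532601106431302065517116861164502052038100864627734079938439055578042826230133503815049380973378083566191312558437996721852470265707402132805059431547614808040856539208243316581927263593419248754304641472030058304734545548289731303245328066472926018824851776892602140314057386236737326799485136118002534549743545970794540999013138733975116480375745655059380963751945881310273876219569826051444566989422642449351379369048372206688991429558531911574725538646648406844858821837736547277739413321941421187932510427135880524992755006168062573004341204052761878104354528973168226788393593774044934771953322995464628162047258485128668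7284924527084964906400726922785567560401962745015414016862679320460702429215720737060826345275372387246317797586791278438783489933030254743125934929481265236387467106659032473007588414761904027599755720766712260700695755151222226395697226489849161682639170627726530749141612551456056658080232661920569556408337004914195682511975597524069516309720513542459959291684839127947029109936034448600243633068135556374211487868679261230530739129564828421595482380588027056454698298418617295903578948420956154251427172305348172130581275829465992142901614504420121231107626009666808356209269406602497694856108347469298735457653114072044188162607534193573890124967012067800586526192764102125649553308753680975426431489081028872862949806535829498764685535454341692374550348660978216256935254584114082700460535979126531677774299571329038291392621911439827925769768945063322115042822983558710563489829120545632111066966655309430505564057402370889939005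5234394636622317288359194329304234118198836965755086136179047026263342402874513634916740229035240187387398740163660536490574183765722889147667975050339384480094497119826388542437345936385605524527600975426996430883781553637032537410610736005303764185013550107063524260604946005873686562174139134226470665247790680555194779935250581899497046082512605548132176150953973902596483428990709706041373171286171631667331794982486342007489815337604967772129452579902884040750903462319808349570638095364843562084618495210959717388617741822556492764403529363328216771045114538515498324828813491981403485095185796516463587064870689211596855024851741768020018032029126306082757992232482637408571875252837608613148089139553404042604610627787042702832452105811767056663584224129207059633726381022168721103452237737834863013353776820736673094820224014851309738519598407302049468537321269845771140440087806199924878219912760449362184327654091818159435553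9320117426506689199439778974272281795123671050769446371007149260022755412689225572430733001722638956060172802267873429796124904166958527151569745616479363695086413245608483713232768093355428400147875163265851708562767328737779081900588759192353085354024792642721009712388741983238145613224865141258882617355262277024412418441321634970869607164927302410400431658017613808209390908313665695455670004872110044757201056542921127914799214694742422453869264511685296075577018907262318755947543226364979934601522677573108239595205582264446521925381254364970109832483131870132659493158210878933876057520057258509865621610679644528453321751335273987613793233630380538501545839878814979556378529428946613835339819963918632346923609338012725607360033030347162067020188355749034157584039323281507215994973843756748760158343976581046286794208103970978616898515153286359243443836121635640038512659205258494934202784584497276918503947290949298453980295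7675616505455502229100260882838890019964227073591760715286276524080086923007982407977369203802900877683991488041149424657710402843191156677780656278852060408859507213046416653918840118626410776424546803009782481468038987981551293867176741330963933167782142368544228112235617238293503133132463181494731941785766137445821404035374282642731453340347505370053037130275553755586354619259252633567562764369854376967431435472719317231428064146223746485555699742696663325195669001572359550993971264326240126313619639183825535301483016184435110850441158152026630915887275272920541834144409433974447506775024264667796266453663534950066598524063619557339855267360221931200825805740644673573224133705492008722807613839446548181012364176870843075296416525096920566414182915103438420658532706541409967909685296608452446988453867367859148172859680575284187479451749091846158665688244171650593855177265630962878074056398565809088065394813692027502121844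0600581244737894751524320390160415759640188919396592475387811455891912343770750882275110526934331250595647509081177028727352491169067269496945618276887591606291825782265190762955361189979572786522672667183264328036368501131380932092799738484952352604931007414453439745900019589346262507840742120347441771421293362402394125567864993592226624198173561282922443745617483027946864813328937848868969747318247086153463945985306153671004011627798666680640370155952819792528743210724362364801651258256907150420943191373400186424770420924125746066892959755616994059171602593758333560121833958760241596549575948613486801708483649712370062750283017039598863778446499839070435793356664725516995050810994711830187827317935393606322382290609269252113343768151940378325676154631074436804925438949492852269546827696865858078126615484199505430253319908806856934594427959573315188219247477250350808644010778679656536783626707703103409258451368924640470213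3039910604834076960275733784980862588152076011354882346417335982061535425363893576815219304031473460072658401299483832085948705150966271552004858743281622987995749073650832936116848513198102455352093949756849578734634976457251003653514254354432312900846772231116624000392730744250340229039291670711978092557355650357581810693239976792705008115292335276204744079366092356243608449334379286544366232284170345331523960381920263356220454496288686966919835306397688884037382673948552064618709708960530708851007931673196821300009928912728351422923321343406009764234803243278284124562038244298801603392163673783741608010484772928366742836656123523155846778989507436719166748890196473623130661919610640175405448017651002006090533489683176537860739347289872114768446043002753180316768867997018485139191814412738941503099412369306381257330444823977449989690587757589334022593971318037351380393041150848342053920111990111628622255193169122774908723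0563630346762073144367979681895403386541240936587456503417066188204095029662440833506928683080893129506487693965033156146130073128050453459263572897523405569354550430372877030847685052639870166634396831633556336598999545483515512309316224207092679864785940747629316457578575643644501130731542389419905656434881174986364695642156526008979380791465687039992762960673437507784028056742123621743016393566267667315867472850325703527374480701166475776967102876367243736745288267063433319578142864599186689970120980307300084826359178201269703659556243285654673949431029787085091678129407696271751979780646734485728215993461754866348670670872396674891170275804510509569708746770502748634558813564993539444612772410920714547247386043168941285894065566234350242680321463367139144405283615600510103115189929195551441549613136978449245655774880411753948901914398251509564246615468363640922180455225179117408594441056580134038369677119642804219164757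5647289248871193432539637227908483118346090720243146152767519102622784896938440861280658333365614184035464029476870729488144375300973477442657328801638036134995240032898005242438716175133471529422850545811517646294829428484206979560034167641917072054849679470266006632953080786743638833779053147401762605145626486163267814279007188120430733335178315683098184566916307938342239483584937806540488350408472653879279452833738775906437516676443897979856329674355528100692434589982436496266904730630983641265904409414898568568900071361861712432029423283389630256373209396161577244656818457801463551534179834702390665894824164722936703969451863155017558382861824376211023829450550149500056321086353220435668871056808920555646442559686481255515595919170611656899604892026908015244743864490845369755548684587898338449773800687382544688290579064476602728266350913697053156683855791364521558147999721594405794658651192135352656881581607950431845701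9433656905451551597534098473874392920292853142262028635440516936994804554959355585159709907325909685030148791293461134418165463000755111288125371459689435820757843328126049563416616973838080012810459059382865619496838754519544824654650617891701303400490263739553264060790811707469297165077387690816355583002582924008806183627015131237389391711445870125782638539802983282556841606918609474972665420976441105171887428177278048567877654113037052406801162059180390841010715821798633103389749264270350621547710745261012990127170307186358346638040838898748888046585245271367511949754951689992424491679442638619772260659946955774232220717436597709642835090490906758273337731573067682333250055095462192392458275556743542464335025658661541571467403684650318727251337396080789122106505037026101298049313532339348383249662034812541231301334086884572537605669698721854001862554724845533693880695496641928597005813115840060232285990892226845085416704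7227061065322814035728992548090670767658098463057382691332496749576051859896163754948617902021966045223329300886033550390294987206607579803148001249536311521051792385122147061025716200255518276492584964397328719245509926100295772857334512229942732054849433990694974659660332487247892136982138404020067085911921388938739032878475149051413910249340437309516612400734750917985398876779745198057061244305876909500766928316887327848148063610716590853375894731256011264042051231474634165091341841348103614090722027678213917499003979501688197348233813463958725441377361563408745671791556496202046634731748521381193470962479545975302643057544660443906289063170182942876866678387390758532343288400555097959113618692037994117815341435996376670324439380824347726163375102636141145473601419489748811312987321716137612696422989332309013655200110491655977726475297816996072687108365338639667867853706298959644154761731325220524668758580616588316624952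4904306058769641682150851046956458312814007599423171038854643154328178673905951318903433211087699593565704044642373510146898069756606334393489645158669808599716238550600679822653332894199244326895113847518912829040303183139146977960749194716759331021282972194204210067170981273492928361795814533021592244874482427661542969916832631582296342635146388261234346584149399406628045320932887779123737738150653678095412012859925834871883806507538324193606526743739290097157831670228256368107955408664666868846574219754359636232706728135193237798656596175774038957836209216974375903776393425418813956526780948775518680710343856836713045605619862424871162235553605898682963996273186681776476314358178317444197414174990717146431838214029034217297008360356460971123128100012971471856771635556083613787617699543007794426553586993958045159835727826224182299192825857195060653222823233973916601259883405646929710772911466829109288972023153416100065233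3379485646718992822817099366393211141875671925853192052877696195340626565688950539484562289151387823550623508469618628861976705001525027827688142334721258599646646774267170729660410703986783416511245515764228895802166976475421980455228744915691012709502948536788425949994364851101400381867980399500079062282652682070170022053135592310700624694455940230946779608054279351182874387027012356259009000658090401533663696197786043191309987315334096708359712119283986150582946107576755316087300209789555097812957418561714628753149150123116287549549289816369387118167997203088902116706373895817784924600492055252938420502342782587748486630479539805193182618356498431399342540766056965380879850543321269889754131511494836631092529344819344177170895188481510245045588038285799739552539072497996156142664101080099231807209838155947763671280991394558929385555933701450127033260207928475621239792118419073670584057745802990285177654040142373335619515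7119927905847599925328453718139637504431862557740629763104553789243163294572740815485003158077059788807083877194823834156607541322043062369619816665979035439328221645685311662941976938120488602728404551589171821759791071789000884392322514819959713739719050060427698293367319630665942514037198980440512291282670613600617336693596545482852751125535017857355302593331905993247961465931869980222009052309915175929668940774204470347346119415989243727237114399213454906161088489733830562980780348987225283993154829392556234688498822951721720916659462338935075786084274266791410380907440907639308404937349872577966737538368313942336917438125260236746860679336402745647868941754165498040891312895581954850440537073407178794669036729445909559749282704077601106324311180040604559445948323155311970952778066115835860448649423979788188441255647576071059211163561086802685943858014543391720535485484436750718341622247043878140085332795985682326555515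8220070617184926674500548444698453896953781075490833831353197653926874183672976183882091262698773963120766080788751323622852944110045626045625638635701192393406565270386554299119416852892875732723080889278922930570463871134620573140489592634718775096838865039489248720231780058798773088632542799719022975540533691660888835240475316731497970413533048260259813186131444422693656775010938230738448565457902685594200176186436592545362184022103663715146247700978233806893898809976579460258127298905340847223861117137508084235733067803871576106003126208369493502622840243771986752997535521366030962083847490420684226209743283644507766864512543938635324685502059501649492231477034330220188323916255188490278352126353549786957610459351643668423763040617496698646481289304430254728498401963442955526390361025525539760146153873266849209723180701650526812083364266642760698049284116278756202847040390247875487188581612934527069944669405459039703805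4177052823997013069789696533296358360019505542840904434069942557657760465960571494371777625814655649006671898425261746965140949523654135904463636954822236684479526294930911688360218697924767330309759468685212935139868196747751377516493319568495759698879882138027350378927487629608828270537599187483818843096263650657762822249496569044833648965844379175266486020719103154767517463400277656803409624615467719860132287177044164318572585257819084145271181185196782982510433099242620791438483850087651346973877249953648352433108038567368773318276822321963914981172447890138979457718940458896721030372853585662910807937457447952641707028701013148581658426561271925746642613686441698418976711853513822873658016053342519884665469577385638537440613950791324094358334952527389605321592488323114921482182879585627572659105398676452798246785768672072790409653852170374452274223738583278711084153738750129166529732241171103961417638147867495097763649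3504213572133069419937775856134363057222489674095111176545467710672771101792916967412904199015077842758062548598360547207496162649075707398616027496930914214419820660565830059959100290079518650789871850905446462020399163019864034614389868351616096644393884634251267506298063263916716565002596000311872800378056442930503005783962051359386743527541363762135817867621155238575898745577293466784875059314606962840529782258705537712782580452188657126022886177862072576193332852884041384810217216885131766202232025873795947347672397701587363863645998083808401502050445049604638633511597151750158752608084554279851609606032874920724042026482125532608171686506617300767813780605244360530196523638243178750706433012864263025823547655001677555673727250014629603556051224949068660757217153447245938798298165730538801966441765117678830520927996893595142078904889111348766256295954245313079611275520892750227417182563950919254664019968000)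

noncomputable def rc3 : Nat := (nat_lit 2653486496067172726214827382839742771536729474406024072539131282148919846529743605279564359872422866309636323073724554580361423670937560121961076486616571081015696237583662187439479768517980025555343847946232413459718113817683756444773103787649273408445855978457329795815043115345557185101823588595192741233322626414756498616213536784991150463983168285325591502289465253926457274660961966256029741307350918572591332830399961169969717365388340969234097938234852096778646857727260895891037652564243146171265237682810834124625841548528804087788439386778613383373038308375745328290270814109546715661127654231011306326467470051955576291619835756294155772745991365454635206731211613360093109899736073917343004274878955304042763612148041905851337608057716135224693504714816311598651778965820456353080968118907750189830916423244594573012451681024252138698308030848541348581220478458555620553036591222616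4907016407330357647687109472955397045657052763145395519400322045002354801138347867742719832879609145362837901353997039674050926369078942281636537193952751233737964942161374123976447547066206747132708759257343906101418350365519515207262770811603615150730732057433381429482930773684075993201635396030345815955742084034981376416985094805606829002056514652908477869048308078639298787078767064882457944201565562512785032637979782649754263655525454166506907796188659289117117920889593364026803250662291259371589261007022475870564080898303886596002626194774566814812171748208589796327284666822736058719274543079305619699108733391955314609624773699094460422042382554209880013237949135436424938204513270774938367140243119699647220978198498269967919290988864393840839084963523347583235453606818464232469079242904412583246420586109397935759717508548612464477311661399334806059011949937605779609912371329963195319563949860222466021028235559980991379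2938188376128008018683683136502290191307723276237611038162720018965942211369025753698873149393964872349184998001545558778654059054163876306213043759680384235349367139604903236502531884970753431548118075740681794563497586308717352208108998200532411187098054488163342493641839774283055659588307466706504559493505937414357353093410009007886310248611546918779249259963545742693074884643720915502936350416865592984580574194240293762507000821275538709406370974198906843772827524709841241292113554468641259222426603068365403582672180538233109537477851778610181945684300468358770517528411032629035875881703894715282193177027976330898416860680171890216209372532468310271707263757751464583951427480138137322501953799061689965913231102902380767708357671358850999335124653986412529889502874854101399843282939960516689924990831044064695190078533094717300732932941940679265858156192174485226279824989351487731502064431804926800919444331754188081762885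5480197253235543901235025119885472398978611940035103767518228579393611836334840501685242049883111667385087767714101998050497323342388099597521581327044622304926954111473390309633708682455710433490561120843384546910600971943353875491694546981450234283342934482314612252727721394608052765137090963558377930850228808576652120093359497709120372094402507263075454054999504920590413797449359854746382681865264348385369285743807308038764619737107680259511886833558560475282785751221030094398882406357204264639247274855883874323699812374110420383427367621474206306229269107267629349112499454207684284213796276206834442452113635450850217040613167471015982598497711149586159893125351289237046853259928998313304505592143896910733310389377510304614018445984184686916287120276114809379007908955918353591772442202202147756633574764399431960751418035185249579666029592156274854080856807010653602260522871325477434742886878183543480104136294165982812709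5704026956991891678794980497201007072859113509906677049424626489435759455667060716168308467692864540675619591260936845547110229546411972880236270796690840995449949678777327542205136628487115414330840411428136364722819751241153831407881469054213564166434964688756406212841406946383617139638163350515962252302403309048504975281281561049992687115922707425150315396596152680203714337113104538486988526233260227489524380534092598881870989794041338975918290013244572104046305399712402214883265460276985096487163978244326852029105773365676161799647331479221169777197481495968653424720114243654927855953901042988312060787787611662835943787305212585126997646643522844513237349388713677900118365803630834092357546908051313549716801784649581353212684859596093714458106944949009105647364615933703807865240557308901301241889496900658917299109100026461147176128701467272739998660589876645198298976540213640988481530655042174810967079953824720871340003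9590113145391555241047223049465684993848232923611765737335469692720379070120044165438221919367123596317061349416573092930362037933290330559335066567740463388449075919788011404218434508976531838432815384427015877443003781683074534915035714026504693333967668660018158926815231372241996694370101750628481086423102624055254463925369476123523253876671564426657781967891682514251001508503319682559858983941990625787904408274406539101870149756000367073744762735844551230860139125205171434155911910079683752311411636606873319962328021632421339133653673437810938566699477462509444918065078167104029805779335596680446639080327551979706417731872710504509967596498938877081300223541334409900980538151425114184261860804997284131487531063153661675707833740634445325227275026576066719514243297586008491079953143625786810266250625147954586019889689062479356807472528475251539665118880924432913553617344770080566070591274650239436789279650249916906755589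8358296278140178363185041693818008949460323253875917365916480213153698495860460064965432128875742982222918028097490065983557335640399557362265758592133849917429423462718749348253664969060106736026198151372822330887761442247280689451497338551970758766085806961853599575341832049015268157398761624446435708621515080251564704567104272924594641428622555526757607361203059242770702976515464436494006851773533489807315123164316483399842066509307159938398293591029965201191100815673632772033592451635747124175501543826724184276635962459099302513811325518320704961033392085055374895680246363542850959515682026566165953268228594627024356423366077989529241515275835071406967223472364939348399511601445323000031806463218414132428193927762610965768347497925166743998727591582625661433461873712902428877407214703867250953427762833587117598882267816413748169656742737520135897211324567139254588508128542950988305192030966102191053376062658968100273136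1918337442983558407906763088350102624155667568222019266801653197185221488999063364241645093968500967340743979934949482721005231412950550705835868337419136138475643640777240610690211900942279679851218169464754353087599871501610918015912206480036989379202079831677696797166032113510331277476565019805322465696791317430479772301599754024113583323682247062889745163036659061245230987283119576919173932591100220344844559091796842229730134174458240700925576604347029664777252161562314787931870292362310133340332623520843449951226506994106784429435110308621815729547669227150580336849937063742764054895207043556435676307370614259427698934000539008050168091912866132898923353909320708896783006369379702443690076950122762470448010409729768234427587639215555712076629513119563015976571308345118968409303915936338463839910259467165085728944671474181873514213724509417968643924381213652968529939672766991227883973106105287180848161318521427880147926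6649670267942985752575973585743003456106050458173268752398800667066128237334653044915050223699602944474381219288577438807685427397046494418067104579287009306045791984688117877231575316812958321237517614474377283444600052057491481454175262653960613698859276563347405775004322394595120385083544930627577021730165460834147256100393745512118066713341103713656449140002536360633987663820583291423405250665235111706282250479099829156835014851116638336145679177576027428062867015640972101702574705593180846333066595201871200356048854132782593349324906298164708847153799103032972381573714950701802547084966428721060043979371948611131746159466323161925858349317700926826397328996813571446837902829926920413337930647129613468559643158412354425623364597562079581011881069722700882596125514097396483356933363505553763456333515506834518994176845089405663541880597295664543860074612276267762390490669671119610147183182638496411714425594254197098073411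8164621746964569676684205341352307843421147953520020479914294130178043230360403604743457185686993670937709337274463816683911880388306404178195474999008711224178318214020621646239869642545794381604036432731433193104905258690774475747048797815329918687644812964209854477343982828237222043111594027701294703687564302067289597150777223176793332038435875325940391375155017461650226319752109617843766370767696283932962327319682431173755274088715066603943270051343780836780422835808901234051473814071096137345186682738931787083627599833126042095104961095575600022739960371774447023041105469378984103342770500934199985197506556292725134115027490125002241720019284334008131731315554645707732592725856053923071978218830165191011729943023473636106464330305983557358850017578444681760078991885352390060515829153141982366880455590948408183656409326266286428675596425128111313195686748862815933441720573872643748109736661812454519464802881717369672286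2512877742947839729100757329300284860697274052440719853413827152398522208688141352071204758847665725816388078908406480242760197337620383403870523250601622012489750698300734568337580926225312922344602042359125036356687451216941168644245586057347403339972840900856406474817063809646568665297730612846717654308117839833224402029113073950610428676984362442385684917068190819757508705543352676006271989666711144332293212040410199229425224988770723669606529395680177120986347459438756487647752291416136073523887573702489392802826880212938263138139336294649142576653226854377672391510973758548444768925903792065270949764429779605437197070148944599188677957673421816945130917482008295910840871197560768267878424515540162098328130774261929444513996511027713673932326197809386734515538450367248111685690336331145800596502901417277105078892942777572152018531660887508272263945879543235644456170123642880744251380675194773266343323917488064793407940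9245989684734967468038514208574064360765714874328297133616138042470747129017791383770677135265251192138969976107109107326611483081587628618096173727336928280217676837602312759557525267170456546103481705179651592144862868264904150931323200768891284894399550999557604078529001294217603832351539927031783702873882458762176192847327166686461174515812503085876480078598996968010492845658759255249584746669928392917492425989465087251532494258611231063252555276448550083304048376941391867908610762395110937330166227630975369262979057772170914736168241506522263114464863669244905064678162827470543375512331480192420587812648808497992641361132872265832581940053035130703480525842379079785962270055102930327101429096324694133579763956021743949366544159322021392054052680151267251848419402730212352828252466136931474793984903395922994612373774712615124833893486150812803038498772841825567830096252034073334066061600919905716251142175094383482458073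6442686694223371011183884430607882099818067840116165412158020827887068229385227587725132965770211178103075035707305720804914912692926537404571332020775811725363148281788762394565555747114647583030204226342010478950547190315345581072920409403398046383486694307459632535399010672447290088980715696535014249461270504749380172026553347203481805510950847108362076340973625568219285226699158075760115419128408786276505680362094768512289126163891740253168091900814997462667431153828652337318904408119417588689674260842991302527974452658355856542725160331418503150254359404637621137885028651058794353972952028565943325121873463623149469892094160968033994980369000805291256905058991752416997047115818541630545398561270240330617808085040039012435879815491636697366327762955123075024650194122352528103041122272840618721873874902881646449736124955462353506613804024133938148356576777314935000018210438307931550651938799132398517440949348994520083776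6121284104300415571430217509810902548003759523228033071882245760633593999108236890743114226166829566895963729552260318716996342272730721528365917950228183509277845246856895236368123056028771896209445678276351249889309471997904208459521726808029291545456680870926791231503948140496551430584601718401315130315180484100666827964714164901688745364827861134819746814173845483168405552437803163368101854432207861959368801668439960399025008210603218404132428061942981917955102821780348857503537434073326339379803228168920552461388733875980279234823658624357279777166752200361624338300042566119311744268699215561201806889096228791250852833576484521171892601809878641749630542632134621147120903128087361008888617205832809084265734890664934106670323909111836212428706991810411822243748202367237389047810325250646520537160080926629650243743297889116352110504817919640061364342698732998013012938803691211140304881281831137120637029200713389079176149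4101639950946914990071338765724394621631396282966957998486435321397298284660977858067039313226534039650037561754146109766461342547504718574873089684499113915246110741052693922488965290125208145941256556219341234264762268243776098097872115102371284732181594604703446504220776291314473044458644853672806769775405203527759996048354311784056003763663712406553325496780463767871173593968404853672148356515769669428693276930480048002375561550770085297240829562679865283883006571745165148895273221263806845999758061291853579699483043060005229110263346518798607893320321173609276354042650256800292775914073450901646571121573613855137043296318997341773315659091919977065870754613400830034051189126443876113199596718538074793997970111718739039832354465952339034059028279686932669490235766060229467029347420943616551546370620103165470407292769531004805424687099548346721196898050736166964926576991147299241368066588921895085810216439546774352773490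9982703996620118984270344123932760475682575817021198999323924570670411746781669845601211975883232294581354886999579699660948109839954619423106587684456980690038829593216728149469351398267078412035149260284441051545530585227799464810510474536207431228516372828316900712816088388507913661555702577100765856638342808339452785937261245867182572395441475770215429377291789238247742404956427752831547275491164562024355568169586469539791410870508673356701197562050331738767307979528149086375474624545597554323253909291315877228145231589205904001046124913819443398853545302097739995531714535956499347670888596779851249532753682804310500521840039346961666658498146999387877238959387273515160581450195899566340785925152280457781267442376732007998812037232928666319708658896915682185309179652979988932209311004422137868268744125767648148372057073720087257069519297526035652041522104436701622479164062502980789007890892452765365811986208100678283710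1122334087579924044635475156701534497290705535099420506532514603773529885183467784247409380742754680487592369037598439070114279393294581492283780937309409091053577420434889552770388574632986395163272179030494378010909733667905743198792535332662159667937211295761445322322804581732896245858714930113365258067194730030366121625303114494103519887635723275920140832371347911246154915881565498867898867691277474470324972198168269050207539187260407159491996437862014047286096885718487101496075732650357195333646940684975225827856228877704028374759255252784211815212573692321544137179878861873906032441349650178503297862612897088010744803931343673615447206541195472015361460463254861325818254651232607134245975661188826431215670880627642364455042938243945055648676236192278403387361036568889884037528665061444544493674939046845256417363032052087591889824415026087353061876838404437902937449736901978625322945903944623692893692187532700063962701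1490334630849952704849053634241777991173983570590176825574146040899093328276740151294622243347380939377547081426599668694507272762904130941722508427463797064790135204623186493308313502734265743989593140345846062950143205717460285295769527167924877552712549127702327424012158542951754333525429459195939864173007214287747810251980864063544732528304246361722218969502860424059691281098355328346340864121830193751342762933206752404405891552626081238055935186372453840900660875133743971023483648486725071332572799213620200141553516028498292659717417512417756846459609949556194801488716697374066122045113934320384811401827996248958142684841344090044542184812900734587903574593292241320283081753622222113517471964738748130552496122938826736759348363476965321816948012180422264779358162320369514889692736649240324667333683252082839269469667264965033234280426431595074093634461817643709663560607221291448901542097638981008695823958016)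

noncomputable def rc4 : Nat := (nat_lit 2667783832348878115665727964514680158499750416363185945921560278023113062206688000187200777696490773861155007232727655178500845343018604649056915162276603862324398226438780295079548786724987685345409666074132056590979994214950777795084005208872660965167265861270592651472052185528812790465135849293393206915005566389764439383336499065660655244128144632806244929482653812231809772930278082465991948021189907033453890122929497709121636488010600062777569094175197126158220570573741343856141467098084094111782060538743955499516243057306164888220928671461333507817880330313717034963986626061853268335488811098087410789492235525790766494167962918846772789571005037788723540836531364794044506089262695611790761828246662896310674437798518020554301697267900163523224312413337048411412463354408394765462907028650099275735017401748206698067094095744602586151377934121336086505446998296717957113705166087506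4074927429994619670801794426314138277612935660507146361398147815734088183727661575580740624275160952260185796111589061280902373183415058658460069651002376665137790319900755096576197640955476187530729615905380836833173529136946876827840098528406507293932401260404099039448820067276620943139732975891223600461174343256529237763216410032792487609224586722102481579466548072911112300901318197775740629278054760423225839124284713084740021402821960518821391234886793855052385353173565158867491466053759325253262757979710015856604625173284191285996327731453289030376146417523755123831346402277295759642725754213122244783740757003322601959741594840778468485685925283828750916865475167357363224469363621857293100881772311124194918759266535970314519591203669435346248294363485981434666097814199939800984779425326321855850335008403029511007072515800396991782498743003420859746890091919282102376047479147119608650606402681701173214415543911545823658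0590482984366190449790287437056919764479576353900286846274870968824780811748179138471696951361731395038787860171549460342209650441766114329057326769463554785436580420309881825374082129544038569037525398082009462104356855044969698382887912800343227708987878922952913242961295007560971060479981917553620946815430786982351973689975371384113183511871755793938128129026183976540564811149547912534679788839049603849766514944725999315497700279174861934571235542309326779811674134362680417593221716686144274223419624521351149664178628002454413638360324055204010621676751698543389312781196848239640347181909721773636114048016455238274793106381281189582690553036871602776209308740643876813436836245727583955322815705724857524877875945665598101068625706393958316622496105085555686261909304195300629284518558241757766999617824634644640122588794081333329028911253259404504265829561951795457141167985305431303164443638476395879374915469939957935175247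2433797580905529710082806405849620124147108911443426515330498969790264107574842730359346914873985939713760555275705299523901807474306408570877071802437046989478133704667330607723745647987776052352642134619016941743961564689444725564378774391871406828579457674481068494109450950168787134919841212222250062419286272267233782851208493954640288708641726652114083439330545186222875993832789077494714625170882747202460500929911783807643647248501795898024061221190519706014013917484814823366718215266441601678467021946663652835874351662592078533261637156449598037669361949357816287643667007014875868460787501225746591832043712763932569994005345335213179552821031798368520697110810539978965051834042784765265231556789702613311154541445882395778186988741470484575453251176591692367970179205323712666875347423740363202328926782100643423099981133201261946352953278660235509909135207420919913683262295969516256105523023392212859851790292429068048715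6982662978004849510127941941224388851556423591508797613892561621016521491614428068800938910916382094746454390327860158123552443751690725978829390236594275217705889366121012232731119357391231018905822510708050912659491830988184631945179377647569418187910728232161220410120576365604790573588672061721186666741234193358481202616910082126255035627670235142363615192667419881665785434463833534666138100650067784323545142265873992602447973509926294043977203016706325507472903239597426728658033522454135650130091138939583837596032175534946170572500993842005487240844914486045232021419951564486313450470688342432661591152534968782563363620701026359465560338129729725688888682795027038225988726432271168525572266497770377186594061469528524375588143646232112325972450603591771528573227375438855080318096663255322864701796686224611973110666954690005787426284069109561426977704166621969697234563907727926286206873188261074688676392050642615267787782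7973901818868202924744317222125925580169125322083588179195730149027571449886880936825111418712016486710549086811541965687788760771465794519136785268992705804235695485924294793862934798578418616875132203428426917130649504086399143562854091213736725766919731287047139502468220140187858409718256827138654401297518268729502031888426810802057580513075674018060391193447906295748366333710342835978747253284329610435457898009621466280812115968662889518155114001472318079234395575919912415729092661535332101309128314043236970760395805345890213231432309647520793313794142654176420359860424317298950285458262673386850812596752955364285093018470079797158371090936124679958444771570677532101965066692634707238264320841679396793782287606739905172834597171663650298790062278372652288926816764640196119103158172938230147603752714332843748529347435525747808033301198961170772391969535383457277737245082080012650398792657600448562476809141529266988961209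5671507156857969269644296322053667072762715849689711761830011173667755512681979697793630316426354125280359183083859435177280892101113793633961782584689377072773569861658545765952980398847392363059718046415727718144540326490450194926001090349737823187824698854243095768466454284655379545956801845377024042772144815930626012327292171041457303129553516004992210846663294246596933680423600543422437322764088926100996825102204768091461600746028557467799376120062381978786272276835609271020636105915855382119799665325461382078780490558127146016757584996813291823604091051008403032604710791393997552593204225464511722657554127170416720708338189795014785530699543634815168314241906439190512778330701339894548891061671100139311857841353449809769284829400939054714466210816519642648077765848834417080334168408572913906611996246941602926698051400005821272067501959015404277233099457181878918471670725211687712413822803324568870242322866726938150632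5875137724903450595601772295377353505514265163140044597721364183446144147032317172220513326107536514693685554609990775961110436471273084850548596602592298508218235566754309006096902690195871261778675209054961368397952228570323467952073318987615999233720225016200607142209240253875169023242160477198873833649450770714820789105546671807659173553569003138247667338373562474181408090510588546226542634230035440590510956106040939539844428139465293284070504226791086064586199425035149624278467434190182639675641303619689408511397491882844752952649098522393634314132491173927182761655370252746523041577249103893629648522199040861979993214787960213292745067075901951424839447535399633390240676281351205839870722471455669457970224335335807881947025998660711074455720584788697242026500850955593747150472454891901313979715890544152120231050057732731509580522184251914926302316259779282548798668548764421285602666263828100755864022167632117759865519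9462801706977349008282358026407138128952175077953013327337715095393137198792438224046046601067234871886950759139434779360733531034033665287852052247234482598966219224722772730238505428803354596072517372512870506082322232466557194084995718817679517193797831676893108609233082970409778474860821531464087537306965932756046329073862867412635824335323606868437529090074471527671026552669861817225058475250833109437978989954885338357622731434195296649603500604459538030526791140836564934795193910719379270678377638619904980264658238812998659140399427344136197109560108730565513463145729936047015905672513559246700611761916968794223803640452619368413433772237058741904976861254683131210844981122824755641855522489262619987997687341424428673840441148412733294971816071712186705606271693718603651169239406792430561774638078402308079484823774988919161360252070461363743549356272315787028171096506881520985895262473063939288221819189336095092725355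6064106050011536928379935860499581140344767324564418433159848786693056510022378045398540121761502467413906357517874403799709602373009063694156363505333248791592994901100546284306680136884248596199428268592854449868744333454846285466765673090175273310671711400553770528904816883663429590428744385235801963967423826227534994674207043077408292871872278490699109481210908482790462863676407392592740872457086068646640983527486269880220339455698019348575549189503274380286455020786749848361285979607341956565747442711161894332634109421738766612431210260740534815147753435187184800541819444539438154096388561000217788677301365358164456710048982257496764143854464380494404503849767956892089673886067832743005496607780316281235435190841353452691107358358494723443417307761513774833816892609357123870899142657685984833331708848945131435158703067262050148658661470991989512391132708082518184306969332075014496875751071850358860073890563962220945587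5233862102293546667180540269498267134144971307834636465725166676229604402942054177282149357973454733706753586536488936254607145592079808219672106844505230622502558303643151635543931846984716026614333181935767940553501254449688561386934081373290094773229219561984666436414062615741433624855767385836585881967023007209961034819906621536747744107278503605497406101015771461262551597781419540294515415812657985869244132424642180447857943643446572663374010437195510177677778266592272936947714459545959485621958260810233705223583159467259778773981487855377495590706127470129819464359979325312805870588716874364901262826640290077300711739208607712611350748616970727531435018077579789789246598231361187275175262611112345915726911779505509557274300934647590246582497925935633808155977382407037470110182009697450379721533582485329218549656596413682649202256014892530112194874394201804441128469181686348835890495140338080387319064633094462884520585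9595992433365920706910505492975938292740374556008488183668927298765312519831225242359313961508515240698963174277254309183045696625549102967093107055251864767516181012734703820408312802929226066512980308725493730639530350375895139342681799818032339541765911451388759019776189401006468574633726259409738323037766625704213880608926780662460903404725405039482323664758475628346571443648469895855761735886514132420637025866753860031285502062955699169186075165158487159020661133909162148365943847392017701654434118223296682536437400269338888232709805784622124082699977204567646853684568868932247631445125847718340301514306619730443157372391640928913577054377302440067767970762830310113400087097817948944785751879674478055517747644975215875164864825443100749631697459147971679542687140542702935820749827925678630112631843762204421150915055916753655455708679270269279265527561014933807372521446493646917559072116302974602346545975122151505858007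5012106525705214916032250659886223822765862310091679227316549803002444781036937399164806503458380768705296020732092891137606340537486290330535034682469264449852115487161692467048213950123699015543381281936179119807123367003102177548129429916043232822061391465761268412248276076621409993162130284996380339329154729041217900519399901644013845127162361745284032653347586252341702384976511087471203334902187743242840734631514451597441234194590750335328354623625036510778665713641006859470972992093688627025191761819470389466377501055734167597643268270640658965649708031360117271347772544802867363524666088487608039399268034291876432619770063071731725190550876218819149826348074044657998692639096599094179148266109432931928660161612209434446769426919449591517854342909335104226031663891453155717251362324374206976413421638043754636197917982517828724540411060147924890899269832986883875450527135154285256975265524492002141543416812080294257262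5950208655696059948887857745418697976758780013607954399807306361307360916819707484409387142269854616953807003664627894693707638037539792286058617684979456873743859038317827709736354219687605041408865731694474462531232257621667543263561973931881026837894650893410850956847127988003277467422094885459182807922879285694895281327913811535578534264031815712266061724803882155343283761936510963723743679437703226853538116468433943853960117030529604018641738667514885668973940918213159472981326252704126360249567244084409276184911165843263444786430514257535372023387489284662961798356026552706620044011736574137165508001689600279626063480771575799963595849678395285847801310820254498540626564679470401068337528778602379259721200449148982997513991084735299650468170856420923515121789358516505764503464018915700328408338676898382171752447402192405874805393576355023159065940454370532855262442090600261375027169860003668513174028866594127398763853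9960702081198402058315394553140486317046483228804719660233212697212049284127237164874342133061626362538738406060060350859208926214209926363822542444762394475203237889696256749372018674207603621143883201802465831154626752168227067549108668177402121861559073660165404381312002004131629939842741273556195331144912187370066781556924672600457313898884375219312695169778462760024418751908499696040005311460623476415942538505704735813447545123848533776866866031378771849439475188803923467486608752540289139996946039748163081918446008254577621773013928627093074633170711720522560231587960014968232044534716089671450038429732260629204113175793925123290816512638604312989960889175971336141951463507204689351520547867805541740564508729669139797136933672042520253018588251208963749773334810465013603667829533285849727859613819743077702111625248990198821630459584034883487901277486811202831081367015328288595878436721987504037136668411919951494159249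1510436409008690058478701125389147211157148409470923489376153386248338913429707791146482181258480841753054174060564733323279757670018693913821892023991535793160543708194858259613192542699916559362041886600232265818136417571965052196124646370900048617110980317547971417069364721069662222704137571082509725380763326471421866089415941783988092204777601149808847496428076504836905385119816291428027118765966745771118661965592921566981907268996905258532212301667075588808978931978208286134906233106650080243081271326000060728685421596029389268456767495983717533816182008152489717892045890721472145559356754822355630151990627794508743338693940875483798014670365339286620438450452160775084150486785266802448947525268129325726151180763638832507045932793680531203033895934965564234343631630683998116627711893133893852452831364906190508075552120236225659284335731647150560203935455675371297812669954791135189634143886891278163024384215368091434002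9459706491629764008771328592716313584636819854235240632788828572181022300010082524520337466335634552031026332586316358473211823099731466987425153680737918764010138354648879995409340915268169022872743894986794017278222026000951599606135541707755303635014555606381666757149550335578458567977666269799201169519510763796994640331223650077569864914392195788730543397142123298486803060702285939026583906186694941117420189159812038917599144995541553350976598690980121210401055208001350159398044716649262346184604411239302434031204917181951639323152490851255917063890102984793418159665875991597886267687808647897735442200130027060383743376401158533726133387016861363479016563332545181205437787976979199067991730632483776442549886993637464280389843002068438978394392738667360293468379169723539530254672379286195668832134935927109913451748779302512441122589432572742312521680245602546048618850374647547393636532942130846939921139702128732890153184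1018364476783582738004825424041146496652435297733249889924467466486599888114922459378689277237991608099239412944131485536140567214091794921282339576288533627606540346356204625773999162126266409268770985062344543862574766857422100539959614703707928659116454651956565368789840272215228314683560251360752023019373556553919734335165293395829002320454798649796315274384286932109864190161917754243488524844348792864891550071764684514703702990046072875635237435836141684384196643229747029276960129438922151534470286074255134661385645057827727162799630227318579213319543205164070558170940059423570403657642494607531989526354264001625985295345756585851341704810163571798850600999543475073578240918901747061652865546871388176798841920120827089296082587398190922628728703564185264864193156772415930193260993922691102608552321101455775783524201222432581562995979641258399386926557007404703045705460977348843715574428026424061831113867264)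

noncomputable def rc5 : Nat := (nat_lit 2681874113676757998123515020073698807402480767331000080468283179551579062310205519078100759966056999387364292311440285396242480326358808422310946391737660803516481812085216750541866581968990397985835942856727361745266186353582755096230718426107179756357418259571131565907126916177917971050296052779732212617091271122258749271687374207405986585501597729577116880709055342380780089261618612182243563589458396112927323857747140712796235518829768695368733666515393521468999581400041169849729671375305244993717119230568062614651969376380941399667930871089135235063400544617741463530481577793971968706663329453752007741772506076542491980614383217877468524772908422539682413024078109686244393431202197251614571820991997655736594926443810556065691618606763246743321878405725133159659530284361360782573466832892399475663876834198960920657809966662232204631203219149486722071363023965903851434714112990480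1138786084993170290113281890612753882181449551553510890388631876637456308551002438358187050234764394216547103327543249847927663454465104799265055139756794689751114589131712955768082202525603841643278359884810465259060839227396925635954011541074128357357709273609224000309329020596075152940845519007491126294109823621395051396033549173234766609360763021800415537659787204794890200020370872998274678049413157557235264588842041226297768567569779930718448192697311950135064818658410720401318864672132005013702047913143134623875196993760177781102600056231877724528203928711104493960676749357070713753858055388878243626135962917557843100182585751367822352316539988803791888386717272776111798055188709659404067747720010000453847597906075453420605203235923062222362060712363892750201457291123553375508208421170812006689440488756759196856872093559216001891586247225328280137302964744051964881624971008731852434409353315839420272530713502591198252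3971346878019206069318732331816496679581518544371256980800883728644565638138802520327346748468910631891967787871968742339655073043721680091125828023556821622691484218361610735203299025820641156753116444262955823723114680980406207161860145917251728272168888786395303502316234369670242390328584468470187951347398981562610697245620427119033593011766423123518642372309179339935059036134687878862960501164593554951850538493256543555980805452554960236362559567953528608978598602651918006679453833807793668866356683872929790948175987294898905856835244620433440844903968886829505245912547346666473905446455993799571907571210971502920230123431926337879608018705567624379726794391075263814496616521216122977017141988194503899859686816759478651659231765291440914716313432670680721366517702861281328650390642657721788696895202214736311985425468640832293746269086797628971520804748143642757358833162057130682345630227261559475333946934933493459632823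2962403483878010833417571793963183502378116557932850347302829574250570727237446160183511507062446123241936559752870808590693826649199192167424952558732406773796703620790556035587629225164273020164427547260023890603357370584544367889547568957940833502385308294223567435227703512262509928551590965618575677632874816639377819536601248742007037583551673853028398201295606106728639126280415696087107391296987680856231809488401785969290696689339667739006235917055039135476230601035887466510443189804444320863291669118767831173170692610799198597676749116299363673731671121543362212672874949636220903693150187888222096999856751614828919237758473182836778634173414344338283771087222825274132849951865379411678724180742329757830957466292902238174667641111181130425050900372994730483390876102350320385751823364615480216229452896089636289714359194846847062374239535440816740817346455836275592673836729641841902160703533859804069395699939601311458091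8067612142820999889968659768455974114994917885663993390439256357050259470587561108502556610688228332623484918800962811986651852031936618245492902868555675105719581697912365042848102415457078010421547765803917169172216569889158580851185732406706885442986287535320496396184034991274073164137378001997889923745731628478180908287896891264984745394498382790421570052648277832480266000330364896327941152017558250377195280662347214756811355566339823648074658958671061654849808538658515653577925222022397816428719614618524913799756149220122512286696315988377639970842105396010096770396177651712580730210130383407518441585347251069226323535443737993034713536954844935805452804805918339102439035808857150008737059737894552109972401322748334684642535974396928876091111518913631252035800981172295811189368879785605283456271808313097796241523363958388444890623063787144587945643865033708342449220539523710552588822686319543346278151099200354223811183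7642767063506803490726862769589252520184943274810664734115932262344632516118108421897664936760382436183647480433459306180979428007902888523280197775936805956540845090930299507071064206635710129594459005188252853648022355784377120497629981620024989203883799091691828101803121482463135204969615382391943758251518733652678787728326626377196937473661900250553674135654274816092916904554310970596604176587066442695484058156026963881591873834936611462729172098606224847813566579936992556613470753156097296981745441813748580281520656025734294682343494063908945677339586252413280394042164060667223849382347347570060736857757049018943561669618898483899224481661689657461695732795334730749758782729188442735630029016907742644706191749425613691735311833841130284844462671276265748975280977515004218270394517545036995036128139657963219136819269082328161099798106502549172593780895702964370383249534565742433839296438884937959417814651625349047993726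6548701750390502994245198647921138147520967502623198605059550533219148436631044202684818399538214683990424296816037825406787676791963357179844302029397286828249836658315273799093062571378530857235209525312986744114479319487915194087960321486240042291623078346292894042297292113926638347533546397644835817731438932449753561400040787708168762950077523440823875557491323186278463346201847331686982498668527866188632647885376665688735208676774401556602262762846138948646894838313433073166421974337552665769253629002905540722139790358654597532775972331501656625526529520941617045562574785557144243135696980295372764752247097418080696209907845192565497749496010493586227600026463030464862280805479083230266572142040322696924036546013136320557423502818956966598502855623315464589185785799873083950033210460533403273958785665044767381365470534290487330495935419661110966233187157066111103029351245385792314841878883764072915149966366539603267782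1187168123727358172111781723866502288136695716255939537188427985122945389731234103948052877737923212871807896140092668984059773405704618839021430040257853555349535295235061130405411423568236834160467760238825207752737724691529467661305213973560197141776048680655039903951559962908749017516026222600105419132702986930710059473571124206063532096764207608640430125623405613895858034679713934082996101830143472640220140622980020073279183151111610811066188318489401634695235875651897572537225136298524155433045547377044213270521431345961605518456632464945692471727363235836181533375188223993819551455778906848167714186058751018990333993879144296144903319356026929591834859340250473149428132250527369280214170153528695472918810577402379482166456578739214970225959165711610300080773538619902774484219644447979152368693873424860840828815347486900572271046223220690251989258098717919099659940357994030872047264057683966264417283976930004309755040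0975999669995655048581876738940756416858106702555840525523554428110481139848886346057928400001030258134712761628467571528843437599909369419789878842220022721388013858846967887801577132430623572697598982056478777594165358634794691574281593572970822185751789439250827780065120376453257656013329111676593430023668804061686481242894834357568076670886448179943688975441791475273119708925175366629871605326442249753468117687392138704225740375956120429507858931172637937845977909044159815451156519711175244526903523305613983278231648999260183338385629784941253535651058890150012410683937559900607003751638282766467491193299218829771881761848110194521647143353387237934898620243621823984439691700850743511884027885467096818157513375353295845676501279053522933158715773643967256415011395342082659234518975214041633548250310543801835941061049159878047437938533871377860031981811166951587089809400713221533557397401282867656800059803046812659101923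6531306205443450526252203708021626314792142672859819079361548296782087799772342292293553369617998369902135124912239961364386322467443462455262808024314483919037328496947269544404259297597826309929595628816422860534850581660699172242525224974891763272533938958279342210960503909874154833535132113582361056890364813222968252460525239886160119117068878585228452919604896397129661790632108978236975446177746510040157210254881027169902810865926573517057126537315301291963814456738146627390306121106131333917068574323516826332850406141738910439584836096421996262484323502267805671523725552627341536741519181361894904312189297572742618094885147147932474784969458013690418825093615436400527005098091833942650152808775627063999651894447219934581975525368450511344739642376911149975436812398748690687219085154125957015134302435003705153563805527391210757167485139681462488865968707076393487193593459902752662492856978816969016613469083416125759308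2341913352699654411406507220856481620190993070045958579151267435506067222431605727503571446458180343964776590865756197104332513211621671866925249812201048481046211909991672697459925626398677290732857027533339767873391939353422542036849524660951806821140024958168643413799042423707123407643212607535456461136954190174174938335598190931293542136632586482194089344194636262727050369297521812875712955884918728276925702261948929800770624052761404667975311571058547627431411093688474071823824451689623074667401310830945198682287684189922788882499272512393959350163676897750970384607495175888176601641043602825844204224441736720783343693859023350812184644019756376606080495926754998237490106715307189570010475409766117348232074863826318417071035279745649558972217207080442472950180005448724900926295425412590805792636401311366101939513744379335857768996089261149977498988508699923038698299850728178379924910569454501900775373912182818206704388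5798231993739217493986590095146941598801769229484999367466758789061244223557448300105917918061497071739828761732290446411082471399348504363541396718055449814413221392356518227180318984707553106223214977094188832896886739105262410141797089154295411151102207140275099075128776507964223459233893015848864325036545168499388954341378691497987362567479528085231145124117452835810858855185165388438234168439830724233708752562555162969534359337913294817430616486690508285144183789829532472991638251284227526779237062502345718713301200470048274010439847908589608914032932770012235791141152475403688183686356053593927570120049902733923236067426238504781486988111786449574511899388550068318017028441102896609471537217392775566886370471458441048807456212852641025758674181242952156658273614233078640027484836421185139479580946783447706102001981250148072462024910045354939666760958759615220778567187726901871853035903140651940982069143949909617246180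2992370573516006164464199186092210409717622943951004297068032366774178857682938918708527084494717749596825748705585279155714179135157283948517643634436828653571528023162829089709137077147171304377293272374569018135897051478967249451746998219035685423876466261751997219475776409947970911371322975932947436622194397380503809586140820025309427692061331462358557381985883918102301391671169575653371365943486770584078293907330988764030084559525065980844763342457459721488532878960259249481498345750121618724353879823166695497581862743560158410579233469386557243755455548226458294881512202990909213028025288556572691025242737196493087447514292245078104464788748264620372403468117107973481996151659494516064852566257363386864698854277622819529233184310822148076735812687108912150169850769236683724048236712853683934573516977125392919739838329591959911351347444331453911529003783969455477269542335186132716560579546595602307547804451649573094823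2495549550049684152511226447240258522203915547683215751285842410302852688265949450770547809199761293871308885147285000090505556533915167398165575735225984316246734058578012276044298834486607738718207180383499994226967833020666891822534448820231082374576209035225806794522674920671160873867169957888963193270864710110397300253730402143961755093551361014984065185614569840350076323106600477151489178531257867646414055430535068159773657148769698459835624418638274277411041846026415033895170369728375417823449075841792497078697337570272897573928925026047069670636040530590637960492023098567264098559652102008802069005895930449870916280534183897644735918645727725313055677418540764489243365202318408487478180917432358056220322085921218526080105154991763581787997001787160906233939026648699706084967492049957989672866954739808805279725593488883576505307927032795104620692607006437509275439610725368338901322146779547427361170111128983599611970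0730647909826758680061420158637439357558944596279257348242872180952159313761653474810910004043576371537774510640587880430788198023868480429757192699061992391598838309208649426658910033960698288530960987305683364985817387489521440958844011165510955811782116955930758305987791995700749079747459501385317542736481587991829437775670544627385228878323856162113851068891917360289009155244892315514216788556199484965811080870471632878429998130462729292703275131683344866377963162752830567037295300406362107913186060406067395358938417348926560071741629316075638412382944069710987207416541273631963327907620623376523271514912726615492338514279361745940354020705860460673541804674393307588859584408189150602970416994496293021573337663534862952127002321265579124295802668558122767359393907763131483503988800584864550474448470107074888121899117930762148328556853878385799892510909009308698238414774532670781609568881205646746665397176040638930528240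3594966749331811111697114298182813068312320266998535471383964692714735926381100378559662604025262824354939835016697663687003430308325807216242135076840499794960714650301443042393055828542507350491731390866489224104392368572681996475166787384120317465996921120037955002156514253815827632097122471335223919297857556173692090842247844759379565067856400388669564366044622245512962333393820437552531894920470854471441198274309925887511260796994985089599215751391991910785802514208664262620955355764588522165751545434842226032540846978922258895244136055463612518697711470502316794732735637872641391226800669708187949815907708677444612413775349184073164614467181434463420835095517723448060823728694766288535512031823482817915316595371591048908122893789046147058401608803042701604537471581222035347098331514648541089820923588344219785678027371942835197195317960144300066972495346126333623104516075971828288618534261211864812006978090574451262124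5192964747153195157511311920504064914565547856382301950989725356459552556933353498187108197500182749907617419333962611041531982378133579058604231025309144317364791074142094656123844662013306931878052327807254890664956676345470995295544225335945882574772156301502136663850095388471564222164179031980881971141426617965662453942206778375218257580152372869912688208133079961575657071762449642020098706170182177037535886905299648502952916838193287139812749191887312722051215125480884596181611102506260733511003213973411030245060461555139016025555000106599782934564526029657016867966330836055479363098036208051968325428936052209640130619982834528361834538035263586407414092065197801432406389954357962436398108282370020687154275923811813279336755142137277068018962314133203950163600540543491000251312374377161808622661886603395828612133148876856103939373899408271551957635108298482231486544414441240998684786201059742357378163512938662030943555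3615337706580572216117383620830472039505409944934780287454154164615634124033219584542965061807180927226756042353363632859585570399522556182458857276567263001546805941943449208503906993239032450833560919575095118137584424831919982094230450846674159232056549912113587384547764481198057024453208587993663167620718978585626464229704326051452991160621820350408525974777978692035352973824784337824431063801152472158351045583845067663244878397765038752899493388821425668355102342991958973668300150756000954637685419189358107996586138401675183602152333942994917879900904944503707729938555708392114081203817310362796348057768242058994251535620722308731908956206361587445586906669164312677381597027731732314110396039146786173894858274274143385530787110757434408179946369266767799171354983616629943333739542310479896445795471939473167435619398804398340465059000157734260955987269105913032758468330558298133106612174680027930661308334080)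

noncomputable def rc6 : Nat := (nat_lit 2695755533358956612943283662589400310739192124313516552525561679327288573066018265878723542088612949191327752439821140771380849387311259917450339600792141451794982174249812466768425155159062934383144002160357419405632061369663274126360158518669245784043919433821233484611842420165102476959243810178037330576386623394303775100360804266873870617359857043281628443179948813528927164067486243172127484247454685570205029270379878656778880680551575584502266292928564927734592481296375604040767070777257941841579676492404695297385690428946409500446928347961301310560840813488827195345513357259176180856939297421336171125106875130491119199304883872892128035171355689585858590865580680562050891302350514713051097169889402906184698100326411714773545943678113945585682116658307444151680485245054880213381650993287303076103325532230724432609854486632888473639531221637422832527445458382055543729200867535506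1157081876740003048326280041357131927326624780943587682186672465424599344085168301903163859763048795449513422210243491549061691581539957078989414656308220082836091436898507358396632414780221175411401042872622839973118600954527676257579071319808864403587356672981776350945750376391459370196924783299303826820743630859903801411809182244927556263870945454575552431888800139940996093731891315723443979865669065719445082897919137851571719052828863562566042622520334139032981603548191509432788700570329513449181464645218442502224777587144176930970277215721935375841059530650555303407050856935030698882874197668876981624739186522078416737466310724566186247870111287493428477384792512357837995705798077209592656028092643086939450360290237251872554766397985218651967198068141470218018415245483937912750956187860702408453248583963155346941985260439116253955523204391863633719348711208573860520879265424036252157413490808015029489817638608213721974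0694918228128479299625747218086023752198335511955973672809652899180357027038805721287351074885017724240876462674709029847377649741182740302341163026191301546717242942459444394960625057291524686619149209027574902660943470959122635868742174175650347685675968043633835646005169940875876603579860601936744974972381145075502870374217744394150609611564016821504103508101456543262079811434097900003280688169897964272962835729522676535810721989458153367156308270006861915010070669480291759244175427707741798186653813371658797701506961811897197927852825893425697158413884126148175095891127506374495013335443617084817644401885315695399593431168911845865455627980412070260532359231056036182287777785858056973204891840996588033112363239938977868544630596047014778084897837478510634314523718232296696417221390188007716819105272773213955917819523115346682873502439167900986277496890962718389786278342728481398725087328983589870734673677831394411987354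6394818752673592733704914509812604029539153067721227103021478973456680203242918324785556933356232074763327316346042318620603503432752305405404593270237267418600952845654967332732066661841325747012229005465166244486338370720604905184918886306579038878870255802781237783687623401154761907812089601373943518123769428889726173195852789193530548499489137624342033687223375226142311596804146420274670080022571885007441133395572994902043450910099201087669900034754774945152118672795804574934823920608891589918159322891163504972676639047291338075451387392225753834932304900947537200636095946648320393324686373232581537692403006866044615648075902915751686924082322826698309567837714710367757596357594630945105940397745070759254804732689962293968520577799558535535864183645231969981242375515903518967478137001237743407537283155069051670043766812692954454806597851543441401098227280254780196686553540018854279477677201601519332611296203788329872604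5430935026414905627576484258370599940422239733033927217753297735640467024526784907313786194836239574567251798915278502331162894717921467361292943446385836810632634472279933440600254503747027466551407817753450388872934864912820975768807111434986377137044481523351961465229371194144174492649149431889724286011761179524824262091300019056326200381601272317610031267872167860934873371250729705315272418548493933996180920792098238742518790595126602649404072048293212631994462138958894829006952505463079013706732625883080063866427598958556957007250153896553643817146482826899344828969014515845675905993455884782790037218085371053890751684463500504988062846014732292944719001758514851545364954261006130797275903479688884000500734767536920466657249074735170959125999176163081677753995995246508586183790231323121115027584759591769757046261825521996386987542437929236097221676781578920367827741653148770036621557209297935380334677777215429044345544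7840495333816827011224962986822443891509755811551162713130354593252361941259977297006874784380036915519175334891048397870076086294484282924376719772941634804085109769757807466025938876538307712923888842045238058142269313239831405807656300107562616984039506344084838951523415888274433714364109288839906979307462808386388400638122947711016730900046054888322497541178576115526882095497822708356335390968026295597513986969327728873101104039820290984678584445340365011672338280990590858479040390483954154867324335607655089006601002630763225977601860486228968236099712323986524955150165237662659467913966252149942055409925372076249299318335726757878566648310757022413662863736379646955175794702821294971448453238190798255519062361691664464696194219825626149249579692366826814928368063254594679114781521407978884043845867612813053517081241954485942438024163181024446828805155666269992273317487793257029178242082788440197736810618415240147541869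6808077242807792045085430004014361234251732225109749780803321940828418662885619012526014437956753970738528043996859080486080163747727152242933591305486330233857081556470488187591320503195545937130389806669387993263324352595697739041418760254637624457944558147938206164520521818678064884800900776179031454704514771797163468745362021121647275191088624639337441726733855848418327333571401835693029059530917452376573378989012316132174521091679902000403015832147129761793033883751509678875875214066685035959773778857740714388209865124450889664517043593767609200278561451083816137591722585111481240883792376188692646277564898143335145264197729248706135748470229879541680586423958696956457517237544008013000249023141028181743670065207575879208102195299403057490559617199520057169280325075382712215410825686766533315639479523931571886067789869478937819370356925612868341663320109793398872922170596016324230020577524171727829645390134787866141790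2516059378422676404631376510887980561668346665500125244355189406445950058426522507731708271925667779161498885104320836799000780906639550704716236075359055399154371558523716930904631273762961458112382151669747066161932481122403555691294785079865228945027947971267263856498088423635697802430307166476166686773527155141845299086443851546148132337212075814925823983587497612395490513809753374555551619060462127341603209862661671422355644919168808643833616053028969376228632104628623690237265674685373714406777651427045317938280714245659879046660315071399330695224624400990202459863602463047992247730825668370443220786251120449834541951243026441175508318175698985682271185017621046369919706505155410357548082049305304888284017788305226034545186611385410604773928936720111647804465284183517713049004895190220330940934174155476373920443877505007862374328739313120992224468802401298841889695603687375086511225897713678273429658771737139821837778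7088586078757631730109927035809069504015573159923550804613562862462893208874368471681540140762626128363874899333065808755858304814700149331724990518876360358459487256638927636792628893955638290209930288456815305671293303788949541454546339538312847529643697629312797977587179177094916940996799862307534413445406798576837181388960512739626343246322298862211451494446502099275150241770386953190888716471680801228663223257333450541975554659255951322880695185141232022686924623979066982007430831899158275486058178325014769061884143986805545757862254487413424519514290160812026748840212005103236832404326583506002843550934805496750782471732214308502869274477954522037484337102818293034440757353055736852407628999883112472470019441855605505056924588079874960174688866373429026556414060531953192444130113297384878074651759081781125679760783708578958851111975752697967617954579015311360487040418291387465965028402387077733939821411142332335131808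4571083930144653678344843216866595103288487058015397219443856318207636754996444641349862596404798404410426837401173472002563892927738694605070563846301123450732561608331659674613082005709692248693149632936643753278421082754492566301514965542185182557056546374348303551798423433319928985687544773629240295930252865885763015482348153107559841210926127397678551684413426864153452398808732339433788940011383239479056572299092106927037418323101002322014601670515091967488257788975321347443084596380308488634244084186540132195325387866904323446745993319895823579295072901098387425347581627583904072905201401457834155594043666840811979897458392874787425155618440933507450622484154084964861390421769131854579591425859705060983976957100363882255900155144055255752403255403542777156522850856199774283497315316478824015674839830922947066763073039176175433182941813814446583406406602684959892304206205802310673895865287360721104257898449763021569009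8308059226133709795310347083896542222561105238681947378197101889272819632682983924570079975316086402207089597848137261352664112117565260907870257817937012643016840348769455552798518554385230231648368686030099868560972524759131109807473205392811632499876928887812318405437948913608617568762742913434406181059904206952817966461152487836829824875707547818625522283133861397399689997865783365752039624096523479296465445964047965296622983710047423436468218895861007059998245465663226884440447826552342170252770780738303259670863097266846963337436782366328287960333119650553536943061862555388033808887199787690334233522371585657418852714305624797157247612121831831297648959344115655544006095987591753211364023877887464759196120299567774530341166854655293443646209901136604519514592617739605264281008140021536489681515430559615917358315743401182404126497469212834134598055728055861120903846282712900785530635572475051147564201223289780073312578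3704944511875014622892218697182747603047603831955537310913618620923983470817030489774601606881666133636402830661202699632902290893818942896263389210622435471341617089323152621841772584976753869061518118325305590881673407799519303046849435678062541488545165805501947221283735048887293085863893805908701259784947478253522892784794692988558202648028999054349836519881438247547343539621292611075969060691628920827173582736649335640942793927852248991020720015206351201029858961693760069678935143940572420175060010384952338485813418560399450954607427235670718075853339950682824022774415719794891289704206384235839732995304783481049519124917858559642000444743921190838843370798825972336226282990715996725180332524094773958021654933496437737647669976191473937195129845192276367254015279432019877901178430080780295668200401690470366726501320993627492664791508913431757054069385708038338822171381847587667308772334423234146141331267118130930189994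2139590842682055814762936187136745497748122633946489706200250879403347713056804021571342901002419173420165473005813608582674573535742264684351984479974965563578769681044615701034515420016672617379341888565748490972715138096334121533172838496657320608138372538165670740725431519608147886645754118798721999573837541531244913567268954847873862302906474575207945181440957667463572537515189149115503506081732210433421656103204205667059995364831295001570231967136122718707188973269291987465014436621705592826574642693282490737310234962446653145469354565004493023225055641886520584880976748672968542833943268895159041683751695500813279220377990549442477393117649676820914219045937287067564411667228501201062448254762547287630905437140633569172840671185249677874594736276581086411473393783672403360952495544653541105161694127099448873070405504525909011287133755616223425115954308650109235538156308017178422324223189998792686854228375457350307087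1711521579378792469101315328100705619501095219691904861903399709236567747940809936369865999006932466420226997322013294819274281265722790976696659726192364035180341962958636344784884510560858272750746916306122527030989130773814432629697864083290381608565193604364184443642673521959917666634643999159950820080485689310962479429616728284089893808611756688033168980149540205480503649042174668329674870223417419695453379431255954225239115699256150284166641578398094232978333731395054290291537433671280786649476253054037014864830341877348474377419210202147227039943355364602877101755264381415280328165248940376164807732863043759664229925780387955873452625531559983621970846655379849198308772733408121272102777579944982926522886148845712549525594071561330073838333700553307953205963208438037217019442879066226743909387978524929261472625253397644741124260036455745117614058883466219930451958767636890640419446176034319861656090666267515980517198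9962059177191865819947310398140062396016720860706500433984242940564058493474538792265859716558203771821285689163202237738783779562150539345643965305802580955700475606832973542486893877663811564167748679007360371363925466053599735855025328721191503591199518094248296609733264127825522662131202942480282987950828281382463851125932296515406067557851980438096385815203676213739379837836653672377193948062464740295868814253570538133760683611150373112586348717387303154515459866503490771501611036002493100580384985410221870920729750158726707864208897529282709029807530700025521894559075881921022336684207378907473113298874567143701055410671718395282288776549186202526175892048467866269263973247593074063637386168983589274007618597975171329259986016748035624202310417687043299290008623773255665477423105364202629950669581723071917011750235809030367919586170942690799358174399238593764956812490988858007683008464266294525148105666627274149865670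6535255139258637232207089488635275828645829398422189607225313840170993086013496998612903568953214801573973343325467902201664705650821395585835035177220320846061530593027724031743094484846212842989378153621373052929224826907438394608808168292326423137044109583487029436958450775600613874650701383627108735133485664427644016451446644779779798149549307088254885469207552099688187607396967140937055756490209680709665961785917850805492401101641654095050976815947428338395135697730866995562958365106682843214080416543343639489856467520273918396327681335809362648721738368745701472044406388944596422219918040732712843779930534238451834039872065506862712636530706534422091727544773303227670783789345143987314783462881233846763988233578061318237828009730828856827703387609911891905841408092893957646263288579140130377830307876862170776071722314126094111414305833113342827147391627086462646828491852425222549876224819793049442736566072596353109137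7585842717197686286605312971640169529362590690995868057296805483951716795691121876990761325913562480036583710271176281718799540846372678611595434105875410868515735121004903969872342267759028029521389556006856490218462278282530290994945544925818436052932364532168174350300648963138979842175224144578689580215556135547700929692547533788079057004095498846053062458514698090444352997566985708207309183313220282673929208968652998830370916981686432051468075342229271564209905024659274550397409329627226439604203494040069333232451889615995226519199179460179955733784033500967053481236235284228292823952953912941794632595045617494504197684124639937060525708734507782012437839620701024762078546134677140385892766039363231992340601317700493114408457509626952126263829172308171565064141526927143325541173372278552221698614294961233082991668070043994158526814820501031294755362485816094233139365365958986652977441841696986662418242211798225798684260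1452198497282629152236200984105298770851871278686895226472870162655957188511895267519424301220678092569589202107931765029937344221660111663916083283385332145501866967550757308305325060268839652935037609208570887858536261272742076236203784403194362937725479491856399664958675752468156502284380192952334381452266069130301405861680184045485512104304550712975167325213746083128146789034389783151202707839367963560321202229832911592980782182632440370234724663298714630059223892473897329946176494611409830394252563388501324396993666640761207373563672912117923457730956990940213026401788453409861899222628492204118150960600369839068724489892340997551492068270472629086376107782460491407368261047473040737744244137635242162634296370180076355488339764827623939518355379749477805059339244199250196193841449356359665815594824152578124356914688695186811749109376661141367403004758886963001414166118888877275424106557729831962211854057472)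

noncomputable def rc7 : Nat := (nat_lit 2709423802879930796973738288155230703856845075632072502456130189914925784982005443030426373416477415764920725708747550204963371097871717700175841095294982347964300042928163146131062074410827289736835303611895182661542675157157647278268538101374350336142106782755702724582869279776793302265632192947433914893742811449313432106801077671206605338756048540285532004719532285888528446561377561011692717528504631362749824180253153659904023578592315905848121734420411602435040031389910837487491081122273143389948017260023770061160673122920261919646140555722329117808145833337341003335059497279101836471322660789183929078949921035539076849135305466421738161391623800948420772387200892884351284515147167523960364963641998694426514321472897640569889329418164274196836777922953254450796808786667601448766234124927872971439618381424103241323134794553970033742278946434768455204132978438685125610850344546488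3496981313482542018508137485462160708809271077251275710357803565000832276119661602408184952615270533592441360665410523573597184885955089125232345404247365685920020789482880954722768274747465908085793908185125283222772857909105784461286000105736408357542749229399833580616589765078673599074185325695888028319974788138907585613219129061678034668048567320212131659457767783891045672179177585761131383817637722513037783833359945175725190862767716887693223890967739872422245824725715974478799650366366444145063916798445661084126121780489900456141711570288974976055943281278833087950382419374115320390408833222424391237956363701071563884951900943462414592476744410314621959197931303602150439445236250525650567648125991530015637495814616033731458963535392802965439160490960687497208510126418173262763944555629615461352962786188946130404467389754609161793169788263318348690194836881458236491828614519619776630436601747402668330992117922321479874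2030338795143501277790069439576120110737178739809307226505981139971524430943894579318193025235554048587900476497851161310686060372943452356027459753727129780942151140882794727320827565455709321590397193707685635232178822657617060308460164410045825413823346404757506375431610920374152162205678643357247168582188628957666481326037798420227178560561193365590083439138356895846872901522272202395644164086814656013543907281489060261076032161393502804491741267673122303682461052586371045746643089645983832784117615080213220033781014840589129176905141679994348048492918556195701105346391120090621898450100915354121914583168982996069565903661437613204955974996326696240896017901464677064660291212975796000289671914442488105939358674062620513504976183199492434464148631162433181758239656672244584656925423704816645979542939122158300436984270178429673375405466285803446071400154715131938002146038167596810217093311691680795107827593346384396691712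5371780479578151690932200469658533495772996323767568506937000190448127165783215096055534966542546142354751813402859083228400140357336881882894666811094363250222534144848399859700100308120100618799248895594775235228789121454153170897860462033413465318100203144233013274553113413446955567921779831474559654977915192209747552696293577629487246817729503279160887285762191160235704825270454507454742018741117273371062093015958029350751007892136854611289574411788333444278189352514002310865456896567732985571578171511444388770077222048091058089372313754675399442514482238696235171917612207410963667996421685162801008876180224075125327008346339959734328122953330796850865012861570762179044186270191296022340580606708615903644665720944700676093552142671323120011586388184377413505246337771242721507342398311681428860920660946836444249014410219384282182276050269563088966361517011525549238149823184484203650158035654707162436467800395697906954032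8748906992418896482810908495237145005118706085141341270046055354697849865960664285633737042355572586820746718649358631943078671901426425930411256720079553847205009519303275032518731115118218453431953171680143231335690414367687518257892340041263013356893087917844059328160700362124523724251985880770191163169366870322843850254193006955337961278446284358032917795372785934310037406381349672572611519009847169908871388408491555014780413948666632802226159573030922217018205597880819148613501559513821899090371265606364751923745692504729847335983876738202189963477413023278842677127039209168503365833295405806985202690563009439710905679798540854134367733353437425625405051667637793420302996423919250456421325317495653580927760123917176574866566923770247798731978541871621775790652670286510084513447173921265260804101787514389231085737735418176691007103149594889072381345788371989645483886516093259241148861445668594794303383139597731398971248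1720203255588441928566289294464594393313352178156597337537955877414562099745980459272876012564068786530626039945804892725741311877658926637982308648279731698210975766867108977889713801533874016549522147301986568534385267690366105898184065816842197164009083626188137427203930971369755066442586274767389952546095658725068842661302965913563981289609643282460044262191155604382510082746465505727973407222348038190263267554259400552352125632847809046043308785064367841951543762191369494293999920914736724830571656640563092808076494991149641483464995075946237726491165325226271163695897894060649519108406951757985756373016233908663259082772698547240198740382899681455378137630095173491692849608770617095068308958024319556318788383809993669724690231169386354807418815637094869867522536372024620712615375690865834338548859732833765916030083060633026965494066322538126895247392600777008389379736541894616056754927215752278288311665693018209912428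1151258429508951166544642542654797510035513137352227077365476651936737225501875855736747253541837805923261064868716874023276538188838358442482615025090880814917821807845666209999794830371195622423496297079030098624589645288110535215333120542174333839509895768994657734172704318400964345468684230784952736622845651230447555277816283264808617767802467407370467331958435443177937436380540210513279448959862623657427353707480587403642515254260273417461966354235376544771734951760949823768855510906875594853631766785616766754111184352666770378674596111144462465066419791893050922954061909340501361175301485559627676737294909829024726394657990199665309497153571168831688189352664158013294328915542137962956965057279218564260269550374515516974404042380105276146935701793890330994342438819714891760084865422521583884563657242310471928485136750899375165231083671729270965716676260843132202759309139805802951396788843524842970562896597356938690426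6339233530472311440737163439980018579708931705664176582893942982326076275270291538405842296463241135093757228352864525286839102276481057663514860120898201252835618105324722512741549106236891089846947075630412839219425590612417104175160644299199129023252655225414258548985799532587355685932747237319575972953070645274128277766286222669275111208654622672945849638029628323739181011564134777397020539959883627315609187924427076695405440884098219135172403168662900140195311807808337112676194044819912997280487142993583855005684247900412795667619680612807113592347694959186032791298287408616194092908004847628079435055273215143801936710719504783815182905081665975958223140528718690629082577190268766300058095138626287090982897108847185808200974063605886508101852091848066104029543626997920611543456925233152270657210302715664755227338544533049154137370031751521428521969540771560321380925211521016362085313658647449448479901545245580085554037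4789324054666396413871164850470522829964990690722194193605567939854979136281104581833325453364678565627687984434561158707536265487577564375024076985550114552020109776058496428511556736436746999036067327739217266612184850193577559324046506806967485791458485667650405538578684801729367039906578164946734775113369372279143966315199496292376993761059785541938597905619310324412940808962461891869736008256246409323063771510564070373204300857146486686701865702959056866831974561100157536663698666398264625226382026106981678104109027512331232797711339818417933136840183461535116423287610584295258013321729079744510552939868535784807350947314577593710388506794915503020289093286254306378132777889464022615017474976394917215683198317354583907399941244707043364992429485866667711116958896965433744250244541151725634239182624771439306249793625685367501985400239799832021930813831211206458909098394256314488366542093311356657270839125505536513198486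9088967025608437846829982763546201747504183093331095270455404905541202609252106852068117318389198698155167219570361062651141146901833457747590831012431566848518720457485424386884734524375771992726108658750732637460415198778866661090653031690664684035576836736535886763275906649923028469301674657873609186022812300634574465282053852877910921398522426362706479310258800683674582186510310852178724059331378061199177621321080511824449542193509500995228743816945129922054703125684184149103969080220234636571789548142568873862136985948908044854184414498439849113638149087187683789900571758803407749471744406372479314217854109171418264680266496441159656225697753089606415705856558998180115062414317898551779353547771822692368944986179520263485699074527757738652007230074371957506341572702349040179794590790673342541414933881821035944922960580533049060443856066137331388852382124325370681317484288936132083428891380307259942551756193404867014607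1615022472632048368874506329420930770917400928581709125204221753793003394269521563564880892873167828007857564684400942902306282012132206112827634412851292582795239589275574888291269145931535222409893340703566091219488932721014181434359648442622919880112829658346518151845290459093766941986390897623076314930257274623543925003359760754931127211048360350008413498453173048458988454639859716445228528521938824960921831036598740404690814841639483331232492364162646497221084186792545261958226246547264492242550180560748874612478119266063507594334719540526150009562913713307881632909119164244247245956308069240742689640874067302850880670476332638052893557107758354955039989925055251232720053364882545064609710915029421772256884993045656739283311336806778152924783324968404224141300989764224319203458597677904847015351347511319783690545484091799485774280321143646301643112644247330523706384251258506621825478994233282052570878955696751650460055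4313755500289889758400504171766765315003228390232218870722938708298421946909662835034428310241773882980126869551815422517592830166988038664742636607538826513102521720214699962297317055967689859640342504820455906293272131551461858131630440001973676402309597674794179534956542044957048612439208595997310027826736715084171012767772313820905841775471072414201152239774933907432186566004697846080784295441282924332149196362547865151119452191340022978940171583010150010093117549069976224838733676223482755252524578429669174089800796331109887532589625054498489641601199463076531422363101898018455756189764784948981299532677037501542166751041368292085278835265326409651065102600233913823073687958327795115100092782767723358004751567766036182519969744651499353849974249354363750068540722905883667725492712809317626107857490117203492188043544796936731062836964246714953960756107117774095613162139134754059204198321871862100172761509140004523624622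4079900170183542090305840700142314407445457848308688574079792985041229434336168859498204114127669595780796542627837047321730528074067406808592119279466298733017082355669513112497550156565339843577870760493641750721597899343282116886305064661671667690791365371600802468998499760535170178088264964789178126232676974253597767690023380078025882319190076947155806568733893930697435780781745946582423185439453826814181236646735720362680856899212641396986424685514181797353821940231738693299101128371397074666967315372353025854696094207922007246894338826242221976233146412663822761821197688791011186633723952154833367277356614545905859817904139558927873903843057693109302248143243158280750130544828205491922073678503071316846618854916780085898974977475863427986129039136087341259093866025375256882065106962752060585229371159041741415705603565046958935488790219112622795563669663963128497843812539169313645635983067277665966850020780358980197828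6718033613285298032027677577016009863035864595523704505606144408085152457436439174637076303983170893782498522786188920481549901142333996758311732655680289913949254291039324717504271291666521900029689389680692145898101876018663274442738526371864771820826180375052792205677079733419616794722590533172216354620095194752813684562881798738381530606025905975696285275218893446281807944158752454823828167804028516779086378796101409653199503775078548725889373024928623288540949617573727838698429046259703649155079574053075345104390259679126089062743482070602488280940368965078914818171977541514222025569435906728182398539209547033596349599206136273001199582763441315569574012519268745778681396966166068744454964281876748595638644736481721315266303774838152966734097732915991199564663796700258940284204213314557238840588184218739341353662341457481724313159496075355926946641450075054506276298491496846788722726227946705274641859369299366475591771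3534620589084548687682423860932970872315422129807978540905436724113258285661649280188108717042340864762074218909671504984169128121672306859051439708170875572575044619495157914115851618532493654066731958653817964651235305494306034396312234621328087205325769640102174498786471361622459442145669269401762844635230512769532642485082654630619006675877591420369579468935076912165148316124142959807724054283350573773570057818180775044800028356740797231395912925735450001810180731242489123072739171328965329082825116966068164426704859049434506934937139735772930720175165968391902648452046022605049081495510355789609978392319365198997049483203044918972620425106406879200030447777901196730254035639088063048312625581689574326343203439292825077973062863564077050811393999610219419641379618893738102030703487986792369435413168008818503652932457705906210138096207222660367615929440706657956304230862948943695855293711274213193370154259069388970076461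0920060860975129864232107801595562732836405182497071082014095636461885245827341353538549190101381333495131934150573118247646225341982598343440016238517869956233166969140995892298911648795312836955360247805122777344284402739975542997516586465616834587763474298258939418220248288082070885706705347891252797678695720922826473537329068727189389418805571366430867776035061817018597444434773011109519286323199794319536706228480816805065440567838905081822420400703664906746819314186021287723272068820746259646720226043741112985631760395268664169342308860450889005194856330190816131726590154757141915537457402481129691155636597951251077590035026563265204784776345120821444478635136734421605856931824955007403268353845325340348763147763060572660620843024041487046546767482289625267837738339593185886725431202100857114806133982231804855993003741620467147272682053282761088863407184135271741954198444160465864374672525070281624347506577608896173658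4691948859193858728592147560852250186367254163287881423104887935456103740867216942022705349218925188134609042043058646455851748052269024004113687430245896235723778258786947300225457713299084201623953218075356998242718182724974649569701640875350283156326514703046671470185535614470017289984159300070404343205788145590822241025736907640983607513578589260240062870756178140018478842710299698440010530508919041462159858611282361294742862302067034114915970581678613105488293010224244711996566680074546221194936511084393092866750837022950681388589657192816306975116789310786688282106257392037091784113928369626985456433546485161927152105568944126819575658161850011122203296971890675558353982977287913740643170599607668626304133697073884341610506663105788012233857139418638986415998755833955890732056715243381262999828035426167810659057331366408547298638593013789432854386429714043959577373743136346729712225804367091217049911443710715922719438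7409475169023486763170876046777075709965204331399829648698147231138286125385120993775594456113263622504381112034861290740584455141101033564857348006921703215542146360698208783036030011443025451418623961682884698367951338497206164306171120848724143749311754288376836831613190377837632713881260171231545193544906614011194476188986688644250732634975594786558651059384684435262305458020930765554429872379900750112647908517107653408353717910361023611896031527808190648883695694349797089990568588936387737905014066353495581551591608453527216947922823795095883772603195116947385739210139115340224493292811517227584833591119777954453708205194966762215769869013772360503448498758143981232907607584918188577333964515354847694946137089211175323766386925856550587732499659876378082505210082385820346171403380929506609906180095462997511961736594110384176482999465520440589481807856252071973132825639869789364410983419415673609418549755904)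

noncomputable def rc8 : Nat := (nat_lit 2722874434963185799640224577201669526797266511763987389447478057086924581528657036524124602362982167547060557113994187642175628915535736000554485489020824018843385128942332577656228801144566726856617152194452839938235780177686571812086419681545911226920008212491555581587084554973867698401964243570501982257736897195435918344525957205702946216204584854100410813770373051194132405835031254515267869780067976725426411406682224090616998838492805090354985289939024526462880811199489019123221342228032264606260684615422328517498737276600262378137735395336936100624673869782455894898327202227192649963277548448951785422784381908706699274916959283459130846565001014694134489660143873148292931075349646239579071951825679823733629283965243182547595475167084071991944112015017001868323181153758412662964312178006813995055084493005403644765183500770754848145771911305108893147540785058758703076505340796423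1477667802235518428237902494406530142598956690992267242223726571541201791296547068723470653003501653163738436942673311837738037320055107749944686147093317565134779106178305011211275131987843901971618135908172688158899408059058610194631207715753970264630452023509392838933158973352574449334117759670069886850624703155927109813134655997425841678092316044174143788449724535266050791200011079402687267786187881850896159336463349196252207974113268564563775869388504903162981563415568804526759184721930622411810223469235530588045485824727948260233983779325436130255516685118733648556224659010949319375688690014331868077715114828338307744734538094072033778599850811425400076168788803865494132987841976952541969109809735849826849892450030690417578503446085025277471203336263833847130664052875961898035281682920626562780153729235616621880197138405996896999678817066823586871339433534851773397494542676215787182148440699244038719879764203915525909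3157834764998753322058188602912046153282113027487848199738312696050016976226809146982480946679821974464929707601309536656959082908307972676658535578787814671002013667041644747788419302584452823100857268208867443015443221880133942080358874199379744902571362801069391491407056978610494439803048323395369368271994677844486158696930069517118924679580563891774639307219742032573425116297948133681879076050544180052492054126811150662451395478951801830248822668071175364477155077686982898922478905735945264647832921147021263239940909006961338766844426515985646201017467385916424781834288202696453495250811965565406292493109810577465298239403646312794736494986308504494297398229916127585949163764878444362542394953452118960860521956682589742350752540494247518914687815112287216348469088396384976246130780481931752420376978444704145909689664562424792426387644340788733416081003010542832523929077294159290005766867483630176845487302443138054648327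8603457248806336642387406799990236601876924940803211342721585018293929627120335892007041003575172607098995776554372050699271384737563136507150571783843135070508814323004376214859008312999070297155455040388313621919581547794711643858905030604141278074200229911313967939040076855500252853033583141001922013798706973174186977982551842321558395804698519592485333444321766448978456317346386550258594174965767082585818081305405000896442851758211917815956210763717331037029938624579650940752909972874724480052888074290578951804718935986735436624629621786364946181277554125039750097210992950710296421237301065485038245826870441314850010854905845245255870597290253102323001748034370051129808342032323086685344819067259623147158933572354362423639056777191455126180859469073292035079451984672230700087365004748045747150719330375148317307694125016522800487099256030217100305392723386950870290950918705295816646821199039656409670230625938819404929429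6109810775536466670338488631470034506909093650125441974536579870634910881052002456402198741273074660492077710210870790238294547341851992220203384018504338167880648238516810533076343376742519399397162156575105254244727997958468023664978003204660711987876134230306440358699026808809425178547471138120814182102773952286145632718201802044332898574498256943177002375808315165985675843736474442850427306960504656443688708196950329978706495281325945103057231295617942289456488029036928558269936859917708901120009883241882346840958106169492546981160841490242378309413205676348191077397423724252791564457592066892238702437125344489731437800723879260545320123879744945088352845188293498471961692785299945199145329060255793825408655001654537549808833514066211010270977401513575522997312265416085346937356734036798742586158740659046884899248777952747793879820385218791578614837387370525460028835774434456634608205755843129946525167151771506526665356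2555660261470335511162571544752726186166306037561418357454759948175319326683403576608543917703473182950547146879883350273589939370379277531957011628156912781619956157061836887390668018425792380645381794371099852986343887102853176704109223383685181466438881548577504865609954996730827472716128244522767056317113149411845359505604702443099808970541342713421338472612553712208697403221455431245398135929642167251982801866332455978813158211763656020038973440746068965927289411811892644831504234765102785526119471507500745092458529494659147064055947188994527883090888035399176831356226129052685279425581199982468839274836192931113801837346951184045288550471383233067129344835334863152123543468077827670083323707467002105856844385232045994410618878161378007713128178009139852264964945344738111721429348185784069081451823653932895360888567698101456651533785435900471489634661209535562262653517765691699611539498518941888145898824181277651834772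3002656231441417248054147179277504411941778703825755553676172150686016072813173946721366632455168315644824250382581452877674878486862684083485061865866407862228552910133927380916072299664518110827145159003976613866173031564528398351008443998993746472249925419379641732851991421409810118447645633346394655073519555174837352118735475048269979970330805212339706760477002572850480074954238986548948447868353060677734905281667697126263517466397464539681615594441034507364349122615612630979469514647144769296055175374230029035980743326403823127297434980747625280773459668237198198682143190588406908221533844950836185926544763874294136479435531374097421565672929743856597591593437864712893903037444985245313247078189652061717008624789375192907080841994360721259033855032203400638013492774522718457065955234943832598366748337658019497384058361565235750490374294629618696504793405986055295488344632799534568148953459505832577287041754624346326118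8031239741272239650360316531216190135548768985905406482707036262503939857113695494350963043434931179724728398894454115482094949177199884781501421252221846044193170432640803226517583580558298809050817774936036789521785723272720155693965780478033096588125949959803998606440610189496632796679317405066928767644205385880271109669314534964818593330101327860569504846515769336232277991557564128526076222561615826929316663187276112881093593584617094971446847989082828812238575616002193585369661544942026355973465641295636675338956230807013370992334047133998542452139420158832494145175505958370223868158081173073781181694359167345451075188682418533138765842327277796726240732731999418300048217663776233494621801728796582241577088296166548061008109959044416308215646332331161067743013016132196287678417147833846754681496905660630947024383139504055805370406151299645980876276836834330990989827255530729907404030316742434260714673513626100879847286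4457896210041188476912517887699261170810827884380750116977079781952615444068918114769596094666814434025713109465982530833204242005890714676607451751732637809957889964685290676318929085056716841136986296545547263656810714328050361885686664476230915030904815610006441594380956113131616914466606282511363008612651356527524482874150009994666673994309023062431610108612004791962739943578664634518258810317539270775771484210756632542192633582144191586910988742092102020253733480466223916563135608537914021713695056035617988072824434811595178307042821817594966068528235008274941797176213907422188402347895082021218593125110127282929851166463449673110575832495390570023763436444226331812882191979435665757515566227843365894461123515894108501368406888086035630561928504949774359806390176989740719306827019484451813049895081969043948161749154981661901400343698148495885338438485777081822450427810255824757862495834497521717904859206662904507792525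6454074010017133586758901519638819011281159735707084763638605343393945418977970763069887275574216485496186259775829478904146715409283485114522823539945755996682475140311280690333260726235183570818053440600601444516073915683103585700120471991534208938714172549807783652985944624880091840747904796169248440360194012145256881013758726432316797678179211701781159531165323309317426622598866033118707538589438359410594661313903425655842665546286028223734921888512682035450886398510093954199333690450913990926375800127289433783035314576685543751508280830472776365108929958557905772147474844888107825261636669078294764387859486354752730412740033563973044479721986950586092231916092666493470213923987618865641243298153741811667250744203617088934064089371549768128626144302163685422175049745605902157234019346982432124491874010211645649888957913358947339003368671184500309242081934831950396410675179669283575252098323590978732683850926930313234153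7034405523752107515753315590491014921395264158027882939431173439637570558683245396155031933202973851287245451641947224099891894623688290745711207509249156458779580981751411248359659158023783583146059324797414900168553520775336496656067534632769278611095669566605814668716052653945277391642587314858792723020619313417984310215815368330074310977537529808126812150349311596857780679405351481694012627123047598662290474745128404883796986133905584555540523456649637651460241020626090004152329772932938444684416278741207982145596220370520111034462753063415017295801821635310022366829951316572463524741739691354869434419284410575421641251500338798936316827146916920540017291194170895395720440099560304040892305176342323465379711580082643021215239698728689463688438505801960687325928470466141437933841592900564477078438644782761087635205558513868607224886074904446238318391678364872335061266965936306855479089703306789085180964848101171606474852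9074341743925017651199667407207531327835925302243323707410784316420909982065010321185078263794952672209729610872171477190094936028910278952653005790960823355472309488385353893745962256952968071242372503695145873081350562881506167999862586825098173454096192965572202975318984084422485667464708928998344161301295335955718364055168168013801783056330276713492721997834076803512366249417244252624634246449222160775506866577908173456728618472261298558264213348366138558171871735361858727207671377181739292305946169609481149587221130070328581659165016041068144190116789155804740060282736896667696920006703866897201670119505630809467562327203550058976043319793437249249163049941574805984140561210760835312500045796842271805825929195626655599821835143968057134778839048814557572912904891421084574817721416299994716980632060637326058252875180747235993191147793205204536452482298323142630617723655378452183713393375155365258669358583537329953473416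4662149833242605653782892627952556419502905480417497965746380720692035054908338261745237945261733698768296576715009995178903843171286224809928245988655916045150988707324593221298398110211134223029831794668470957470101871851267450447225449281123891352703437533087064150889699492096866034069181368995484143403982629330994759107136391149753874525712667905785082090345652759450562582090844438597971665490401438356821228938176338213329319724538252928927419114701434347880765400535095136560736017072609792618131435241505889777956389165435069041218861469415948881913699877269443510084299555994458763914626938962664210838453313424891000946439062033556361684588261020427618048736516327025011258930604059069083386221012322402297539339334888543934738205928216492803463919968298913011284332324794697190444828586030116009009423260741824945754279515671156737946416951001841102381996675055452091300452608532978680139910440463627852220319652319104067229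1325139736750823701853693351626365338802184820256943331836633338495905817317585107911408902674740015666141446721021097222107477887614996025366630220869647886282756801367246117456199733962898827968223086531066527042506123671895320768916545542444177144435560870448693255967082233465200314550467094737485068778660090545916845724264921679215359242383267811188068349247189424338742847361424057835899726860871442852160081663653563374634864525149224808920301315658058786081651034807130476307997253953310485600145983897080467854135071801304520274126752369112017400231771540993790955703505019040536086031807408597286350799035854023971788741507206053003342554628583358383782323341277384811258588828764941579476861307234017879895524114824169424803219184963895919904506106670098566586363415866645557596825056930146283289727027994982683783472509535480026919692785439254032210292592952623392111238082833883174500546870965120080126185847564477105917669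6347460849585401448474975408028181773620351044564683999149161224016355036712941949847719155116390596210892844460640074945180723515348093123901784491249731720766018626505474014086330208169862508631520166522140363875649431285806831568769865629464985272736454086318703556242689497063884287444797061625787120922119449608334319325668293569389339102196331164160121971098797923620276110502243933890079475481251201646504956957853612284890368318640777651859447588798749987848581737681643060705243302048171266975487560123960180500018775706431929822675782375381408567883296599769501444833802767576270376892707875118345506862729685676486889762495503881536855257558799052312551358920116409177858535884992174419468875433349253255062227114236165489806537317292056706953514521847175029382273189750006192925371216837189552520658723261429013221923266154062286364298335082988822106904125851224607021426878349820854044074306151361039905723260716174978427089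5899959127990414053582079896959587175517380191582120398396908925607398639347280207125891096366684576239281982943090356247208013768651880830264156323886490703152096169544517155375757579118970838333406974491386184351132273417254091038200165463085400124569361208085684356346922984066390824083349249627436910161514933062718441692821866129284235243135659746529292158440874982109243419685310915607211579041018273884606587433529517723548218770132159949168770936605705715582506529135492604038703546676461709121233178678008996398404228938905237859267983679879261353227451931612981894912641705748882919932567170989298689138118801031423206795320237506382714364232307530840747868542240481300209279014976698369106313253829077063018049753071658103372148488262970781129625051621370929595049272488549914205135828732110176466259226370180387515834995654818468671815417860920957019418524413568854944495960579010843829393161534030672272366120638010402728814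4114598055439521736409897245685468861933087415293140582629640582952130003509409869950968663676751414908693663257615098471025146594026531500824065958461985323814572325555374924157297958388608244010910169792080095705873902061484726796672881932193765419718219476796064081493811927993111626472109420236274894264926690173939556263202352968697902171506861664449873540713657116151172150321960579657565127448453489268861607711462162156950297671272478611629138967825720083813021523352799817576125297123793985692646068476254617014575945806476079607100077944114363236234934217284794283418519641154582087196192146730245341433871199593053052976032160426464231574076298474277683297994683765423251061514516894572194761621624644675291983063985666697290218331488420664694555004767944485039114410407995260736057463864796729988211868229011562061970236318302259978272557616447109259235501969648723706615233869543762133271686773695155103705221886482496792520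7983657617465080656082185972656119376647035558058809315990954368324671039375327329297336419989777170201593475735879860916064978459131203144868437647793140800086456794072479622261603913267284816530373986277694004402662389843420943385233504461546277898028941128554070241674736623454435697751865177691853398183826488468405287008529562513782740757405669566974529850459795706330114976968113428661913064913293832179778564934932638829320455027390449364932074011029383875873270406861684365108498703572865034287456422206887959093888357503879419828265539635250586891059277043680216434248587067079240731519159354277124807175129847402522370913270100104076568791668896861568152387322471785643866697492443683958685194827955579954821156328551276256580288165901544046359591978857131104939785198057906346300889627864677874174333233641304786636419201480249707850890482089406314700194828795200790505697154854679643910914861058748600980231684096)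

noncomputable def rc9 : Nat := (nat_lit 2736103974460891251764894056808501002485748628141299083223908974136249621403516776596777965399355465291386445742398803009651881744139831213593286105894016286646114889578356258050656721071075244529235426655931184198539382955252344179587206016126212679408641419006294363715130481304342087437554632893413678437377159403156291587022334716467823754639347606771510660329995917672116133619880952337910148084777057455453098498307969529777142567913149502642054433210923729734821544780215737549365395956030670539211811808320594512679046287376931866338404588846952359548887540167583448763937763329448547103304748189281936569763963813639850287251211524662628014201734865763504161517279270010931020472672561537947094983867462208902781697977256378113457405812274922934770373040730861797804107150599803898071724440022484947859247691548487236446776735532773043079990902343829047686416650386254261737774904893184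3214107798879040272427658164703352694873416277875053157373400529846191036307659518930287439098298132179221959420566123400854122761541984498449594871524070884047302267465826918392578645747675164929163613199344304739007286510318977080020551228659958198981546345531414220508788908657576658665416275271387493963566426697431614893476363554877635175873694227522999311298543162867604662645153869179146390059295987195909316676555232217945904885216646680593595900035731447280778133505662738410661241102365025838391937129524736361604832734129529545575295859488821291333258706625086721330644875529907713579924257468673799995654877859498036651812357780478471311153729140539561910234908930719438784644243715965200892558871551179921579081829343250217091740552497460760986031634768054416336516709469795818723369290256537333653684943364856588452448415618057200606312199267355114386380119644090820995449587916752286213651973253021465118397306280808546366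1076547599133133787692774381702751705897278024946307325193448682479621575418751720573629124242927065507290897411922083862499815249126996854252964400689160483076592827784490890711008976270123030960925510289234787314141579839317489207980790572927448427597812201516408015791548282157095310754482910215913285827919555148799400016562178208718945450936777187598019975719752292466042478980354136918667043837100653146567045476753982688228964736295255996464148383409178024377071965813374086150032483528361808140226685505404353171831623280441839086034298918830256462257545352129104169190310019330048243638980483994866092997601773479178612527823177483190113981491805313821643262290490306396076098544181480551617117778546510378316603342686484833281756014987274332944582288762407469377482772994496049942940909807262607549840379036339815652200671848363412874884798202143728833156307476371477395087791989514267739519364067012983294545342564983674355093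5507526349758330889847611323214788405571420538551566340522203931780518969815008646853123925825384472489054677267776083008354477553242259147983601163272372169422063492046272778682559333053536490566809662832701692619108450086980627858902595420619306360365462113311652604461149729098673347726264265443710801864214896144180629439697791061729188629432971546835884376964149119993919060874195506080160323194143952255822428570188218224003579779492897352858011643096154503887918679704048157070777935251728848632444870558726100645906333191459081219506555015381511544576200750690990063448896560454499944896264462161027531039430081723011310019490884187480644398319698723392291771919600312899113412087101478251800042513270871554799258560115369271057137778915295601398144026674001254876743042880762445412138880103581119878756554738744397029538564765222806103908067331370738132556067362109777047953329397513232176655010055729507024863882444719089142312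2621593301896508571396129491445345854276588481845909214695442813721286247619660303368310590244473369589062446441474877754631930239752142570357885447394495198541318142946666033441180545708462530188955685019478660377561652583223382890136204013023512219512750337483463417833465531966592820137381315672500716917307838354731841858907182611188746731885451362286956760387453318332464310826681843528145503747240419281297074998124307122166410607879838849322601564928291230270667466753139908745047816049076501525630845058453061017098757453080235602533874464166060618898544728783066406307953131999966895393744004706708762792599957511195634674728182087985000890374840542292996859071746468138633685158288225924842576849088741273981702482448754342617863161086018441657565675355098876929073617120942480598913839912489572228352107916113829354930639727411331668245397345938428066338562443850551989490512678931224608512564373318833639236893499726154997789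9690468218472994713781694375014669269720666314569281991395934516113345069044044722714351557148559807970897044473081123387053695790685950732355052526770729918393597218880308532684695639152728902265866879230074471278159921697046244075319243347374254382586584166390523425415522815861698081575665216937674498985651050504035730867892091967212045990367309613905532685641477622618379999235137371327122706296079652957827881716184695445591655311927716018420475188525551687335096379525614189710664959581069750161708930753269865536113631930386907172489725570010891456973089268388745017233242070042159566524934520036715654598826175343712855394373540145028293225322232620724040127595534876299968460459851507665628984743693155977902808797979127218697949005362185881234740115244095819700049736419925904513136919422446828127114734367453570797052487566576746949110766152950911486647663997766479976395281926528396469682896952175709135111557588599215149858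8923888127594814770904667347824441626414153558342573313573895305216379585765630242306426193754353866135480551491045883747089825097354717458049584187435159429571941955077979511192271446731159581939814489692346038649654033482489539277165204071014530715390663142407059645579750827897011240281955338899412826113047276322387179280698976498696958164234651034318731289307514578327987755934998088218753391819862615684895612387155030282140789715850649725786357804023115765611301110397270628496265985595280109865188704950050521237212283866216337982362976232317943332899005207865386424836024423873832384869847785972511251068495528122832364398242684746484890344628417824310474668122097883952394959658613742859363850432692441362497678850417365730999688656765593171527382333814668519167132655424588081895135953412872529733944244896256176791559766194483672619183056118665666155738138390235554700779083435494680907871877813872007053815543603771222346568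7520175978691611892540209373847860505051868852277154487232825251222805237376288168470321811724283511709065054097918345405566597054381207612689070249240690732766038917399294612625936424037306738053119754049479808207853555118044955563346850479069161939885583571347115258294229327000890079458199144010356393723061230005307632696809787368387504536445541540697110212306571862854661317579560072842384762548944693063786078591698712448712200187607664107198421086802253969718048905223370020218084019022889331882861123533697162210678582288147213399320780143490489290297938121115082252203406352546505704067959350244168255325488876063061593344542002218290054428963100231953204552853276641483872529796195175680150168954467306406640625316559627970195574819590160615503194853269405936820734267709837312280440683806632003359323056773295987566176487135725542294618923782658108025264209213922571104973303586966577040710773373777805590793170446553718053274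9501314210142021045339212573698033093481610005692102365805248551501465742459293750630464366616849670702914121910398034590587951553815355393627496005649139675409396244562020569501978972630119073156656975818987856378242502520664957189320243150304370208840809447497851668630338819223596668418422998973125091013968438973632842199947699342656800334306969890010790284708543122482123056300287833471919882901193013263879787561363741990476491698847500735083741308827195105632236002992543617377907548090772005611326205274810023144181685587248496375452964355091348880091395769666520782844958836977984259236104661206408433300548762886481278268648519828072799632222653118380224567375047302924178300113521135988509247598899781785489144666526178780175488908181147153840856387019361665703116424351023004590357008215414799450236895822244632389924168465136234045222936947722118867132482504846315055518047240436657733415497154099415264512754692673751361677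3206450535326286855476598648666004495424247855040670704000326021238066575878547662668051901185672104470617658243857540193352166747001134479821980158039945354667227514127716789417629942287084908735547914850134605427489989713956739792250573531132621241388600486711952107151418018177243931704577159819584308376748171580575816724526673609765238718957055136834761505873611852480937890500570956671437670525298100452079378485285847900990301141958516533662569152272700081538775266272222168410783646059196777519636739766380002637456833359804758349089326947304778390992254246552010089072767954929085014977367848403750704583289924090796338563601529928747712708376404631518419052159772013886517425091938476846404089290663489429561607642952142516347294763133608519828749234520039970127264470496989669429812762513053372960257494429979623388799771851240499221508908738599921605132066183763770785342091116597299305520464540735843941631339480056613829417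8525202157863639982313870725661291085178801751594315569556573958679770485285666303984503014147546716228265943038589392334670194875757057479525740011776691868356928892301768743754656712737959831203559460409838494025035305773436057164825945812577700882223273235270245664323629177386475277673514689201606149645538493781015310235874091497927269480920726920913834492331078283811144662968627006505656085646778898009633022941991572726809068818698014270430022129747317040133152850127978334311222145635453108186939947982746184589580674677673983236526737967606536193590269281737257724186881781066943711521902720530988110101907174654323514504244349533230630937030955121920105934660321106613762576187897940701781133196213224204981409386578386516515554961673688150660521546921476527516320045964273531103937711731278749007823018068414173827070641045738241620680462902902943037338735293576655445353834558401011836257523910794186014923415112478239213078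5602026467593007044626069654613756202323218464793506044579028308410319803423012755410638889490535670225564370063085240982182729314055935030180837959429939000248015925115180709157622005274835945718253297129236437745715476453742792267161395818619182665607223824022246494497989046975183660564813297466739889878807700553128145788398371595764400640937864037054255798636794225301862690882851919934383793707277640142484101804812855611055514851758020783593642531405959296517416325195776849478986470627635511935761397208847782560245698384644977612912732785782955501968647222845390812936355615359331750668026722600751623632505064496564437147621779019138190292214564870531324739033381366854479130241608111061013326295675394563400703438285772174054865088588847081797947047005435754999063320423228185420659430717188123164996050704766231614576543261308619723975935116986278203222352345012723339719058715280996205958770896057164951154399753488783000607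7095189297228927001340054721576689988768614162367315879733896633038354728482487527768942816640553994108390228996449858938557548258482465009282895806420984476470574781920030866579595823030409736682142962032679767972219037747068847193176988407860959967125374478753284716217326516238742712271494640687374775436812700027730429834970190469600816510033491348610800416310795630407415732213562054062668660081933935702678086034762446206951078658585654885934523886536208696426950538576363825738962790333531383287394256640068119102893852211198867405181578981492314753233616142049153035765026895488237215395095062091416508741807756254110704375364232285950001043194808717502279275401524495749937772821977536236666711895440454852633794934532590753404904224850989082048395351027515457673453307112710470695577612506342267012831822958104093319949401903956891629696466984534755919650502607760969140070775277500257241530307724186581086895449641818698932636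8999792219639291322759190045368993150169461055502965527424407772354982962478538857717175936075850699115804611674507099650841267009108088256877826026593062416513715761456780377507615762939408619272381976419335927256062421082618184257622157656023840688348648964410765295634123964505906609823565725365815974016950450609285637060878803159201953035550415601611987756201934420277914568853874451578827872327113288965021396464700995436944054360851802227107746755865965922069797674441178706962378080966550045096524989987344387436031712543402294615119824907436910320909504216598903556122668833135327049685932159953139199196076443191307794616331726207376708077238992152388885388640699239020650686464815584710102646310733248480773194267273843811593925745852422545825090734992457311498870131732181744816456847787878919905950723151781074626746853271665834802461867352054746928873894637208821197383156221038026178959572390477639205861201973535892482206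0924147769936991257388894926244274495841393788659386323697198837795536211241579659534079176610889669300273632641756202417416232394362406846516183240749788753442041302514048733310762567186302328980920610303210939651748441444619276722711838956097080813071839075123889037567140949902494895196546068006582161406212968225687284743324603093448919479839993389001409058842956690940857692469155382331718926806479938919247314108510603538541642572417903921814142460728205810701934851352938221937606697025591607380349693864995744856241629516150764621349251714020759748592100300370429028686393529299881334364193974725608119178799212071907547940292725744571873625661288878675227198515556045827979515889889134617405547851334210820509163604349394023107244493897750789464332650362717626607900211849016785395738964561787724162783339529714760507140295657293715685071456671773734489471645950405552185269144032051934902363098512675826640001497444421573105759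7606790734077220159800845872812501839661284357586024984142314277689967091501362104165957422984271661208528432241844324662386738650430560335817235926558136578499983313244357675495970877738383359831082298567663378251636452441103063028721120502083695545859211896674259055393788305851398732780094800585700950759235393035541771912271949032932359510449863579095392720441255230820478664635702316401222848606737484143988050636764931952103860437386412333697024309422332400786626943566906107707729800914069692188855295646548086856595738436449265265172968813315353217279843468539788898225965736697871856653741489807378787739257354575457306852242670204654952116955300357846991166731958714163239674572330612295594088384520553509190931805439905633734624385662987944772525713939548296048353584088183395603368368253582174285107779424206647153926759835881208958228774895580842178675268496177418981355626246235012807611190991983867880756594533303904577293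4241577332185952635191974003481351805359521991591347633712549613334189761130562397067919210047477800018430494209086451100972973239189743560198401365567820537988782300830482101648811494588750194637545320753497252242711655791497652821441426992578740611747117500220016419448284375253147886523671246114793331842996604620904488445060605523725024104907331480798319346264454395780236528641249183710422224111043798063598549085159309494960558653388685459150335738692247368465814155125118911767222909896870183051978784539904271688025729984802652326484253530347109254890934280099792909162339222809121569913017142802345587129662633342969355268934800950153002563574058761175330268234682640060805858947453001174998736562796418469517867017256109705134532659596209282176540923785460822959371704823174853948426690672256358471039791176691616417149076697015212947368745347144266780342331408598207944106358451216607720935312199318322859245374277200334282265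4635774055295462228985390379056625045605733324367262748436974431944637703780189409026030062063440822772236073059447358830700580146987814583452833198365969360017759818618172709321951269507382708093526422448959827121586140845404542784317888568578784757066718293636466202445028831753414104682435252274229952183401100134113110471901441052644133150508074593387133013908341391915708759382972163012393006469693239891007328951764182540010531679217689613860460998006477275651151873438627429970535667769061095211287348656685907689053715493897027979266960343905293906652561317845130136591656134637133661934998509013285314262633792583070893530128901444754887549142106671883060985732296372519003636717289405521149109952381293499823701918162104327746541879097607505724695086765087020644383522592687676877739822893602504139269417677716337866469819207083340269281681603458267392223818977094488288683028970254345377256912430256103491758981120)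

noncomputable def rc10 : Nat := (nat_lit 274910893531774791070119641979747364927419304587110180963069455370458510581341957215059730077890371606930558353826991378083327600458992757419544363518889611642109387928761553656902906282176138485789202648250069373033999153214685024649294268243174517738231913899397515353992323214830043716374784365391766600502979678805017367404045584788343910670781157123351807138519590936395133950868507733388114689094589193886333770092272480993272874155972583130400780309307721593087392478374526337472315314075106818062425270238351010322358169428324819975238774542472370035029814299173305888019388608184881622939638932414272290476346702768712307142312942097301091393384780643785655480851828150696854831803483939323886953229472844701638782728432428377064084604843076067069019107449167796446167787599880493387289007991224246319724607619035320468689568763243904570405844393472058767410708180980168052777645042619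7705166467372710957895185975801322361972968210805504660147948192277085023510061146406981410470489971710596929858613506313316871978107262592065654662752528633616255840634556052459494566663181878100182791343497165314919804716382800301663501187256298626017358304344357501748105316030703568380667846762597479089569283090927224499766928378430819122210173690979700903344587089678933336590699495093446510713360240718443787302407733690823731147299504465485891331884541573106144448199207795154082866583113818762303367320410022143682966707677241313320630056686613616768861235509370540569320760906491477691574629451554805657206894425738368571335460268162440887735525637487847940825574157701370518066233370397816102487208595279196429415483760195572891165218537607190470878015878792088929474642493480880438519737355368298258787705385633030165590805519923225742592301184093486290796535385083149116799653979089942660000951267051276046184292502150643166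0404738322922287438212378026352940865415190385377644345036034109574640431428412281200412727903498169813532786115095705849313765086194842453223452623885554816193432196442940794042013878886507793204191974452416755415666913037103684290665310824677128735551893949792464770422393592314726792109023718252143459292249344920344938502321674817943425914351547111924904650200922386605611709238103752669781964295559167660081449066944338178638438641830304944205027896764191083425761406705522364293463224111715961243382447212353186805023925234933916578118803632411843481854376215969125896891845443933611084864618591087515626927995041095315467120791919290483734089118536854681504831164476966385070798051914196456727842956421855726632944624614966604870594595390559487334164065852969482063978396033386100212583683710545167589891329801179996436060178111731789790353241222562985429488691935761288640731860221623222391298562811960684470047024386517081617210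0580280858596392917653620342511467114159290476014605739399534085364171332767835054399339477808760502942265587362228973499010959771732987897346115033901745535374001009435366735189538626100513768797949973616420443832524970017985751495554721745396757627057502618965962519032807824726333874388989912341290638311066736092637590993760509590364237722776996024761445906133828941256222940371352911653414191055113537055565432833585522815178342971076346568707983305637057459950691737505273824534434067817675716349145745520168113387561526339789844838781604283565314632531494000999009928097485544893529125388266489386536160690362866089397609604692305970016053673372440522465207006868673985540290081326203822255288991024039738596587857113244823519460527064344574788200651897449333057853075657142882084696561377882322684027739608978432344148914342844578818754681595499381077095546400801714974553099946535973625941802054606379131768375584330327213522793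1136238191569922179872773800482278251482257400291141527952583554553571607109777301740055318910895943488413151209785826406012990354053317869651984445474695789418097443282874583144136779772584870484994875328999190663584669519971409868242932738471357948141805933472333768242831861802233515498992480211695172917887172549892545603460493447465722929307181841663562113814435743448989595339324053927245891610498216827393960005106776269155485558388085231243635349277159274091872451784506264542540383022530678415986715609049628335676381876957496787775090795257638617599514014782346018209660744607233960643827673278472525221375620537807212512971190013564575827896113796011164478702748997289313128426811633318377491727907416249016505666534965463077590654886905765875773872889415336098692243729957701835462394225098559861095450918641764007184600975653687097655737683912785186277154820763529050809394844073431095052048091025727040552784632602376614351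9589928117857547618032811310567677989760818563375835731283915951942629033695334933195337167511268011676254144669064204482965133049409486129602022232513398184918674740753863216385618055358002357814674453214535247955680656893948094080118970479262401034951214563661187287906681869377468034260707242264414380830885767705929460487456775370358014118805109709230113181553617960744669926293279784842904257300623502062702389135648956657416519260808970930799722465478230156889019181923354477280711052471034490698248186597584052372030148531378427933814594693683105728068064917110077653802674982601261651587668098769211173398720252994876140075380332720271031780691247792530542543600470917916094592148368368515455370543140156591543725564732195599684081983939634296849805096644436878825139689641874070792043678179762864505902494821481809794677466153852950635455349641350342600560408378880970878212416985952684379211087724796157647402170510414878837765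6640270525519615924162660095073786393777114405646134371687502820645009258449436915216908758137867788006665831234450423638739200900792631313886274185768639790200744660099953929493569941950029076010461911373300398249010553634260265308122493790622415479310040109129047889211222393300301178645609268943449975268438667673241241574599084845804628571192400772794166951564815527752014671653149830951028759303276039723566783238313641422725200800379652908453353739929678471949160452136998352668924120588632761340651199086013222792766641136606628723635193049533320987446344484036274647001374726385962301050961008582160659051298262673749752302263494118552071040761476265965832078057264426809236180511359837759483060753598471907272305306338254654881995430449303225928267669022821456907897633892611895465371355073464052262089946129957601119401277665896181599766378274351891484049368301077751426165306598353836050402709221676974171429110678080346178112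6987414184882109658750650968507526858043938021118366304858859599454468833009638501464978668589708198353630649775215166485078795047312391027793573977436981255352034987099828444435714438689519179579839254336596713235078518646315923613645145315374392363676713289368067363628602909577056168875937126310981305225662558705450923456485200855969581466150466850525190145625361275771832409205378850643992018160233099500377989400718732243520202483576025973164029572443219604808728003237680385130095318616600833493921569976491956018475082403119554843911913307099444187254274925254118392960312764560647561001243212832737135881572955045857459213736140614426118246441963141304417488485548348213821076370916278254703956837179492147622605649632213419051126152460903326722383813366130680231176453957886583022477757818268680405004709408135620231123270352658086777818417392798395887397351298098183388068293940997430329441347005877031549518130803570193109413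4139050048218906490558244794343210482440094207269349682834393298374129958202944246936372997981068789177273345060685811355739702231064767729003739228394101015830393722514229816714243489886930213454966680245653608839240248423971670619384337535564765035020850176922512732558304270437393069974530242891669273028489945540760398186745237361023526872777096759159621140869037257607321682829010262200672046243994450563274126423975641294639234869559235719782241725549345011734526609221674345465985204982221505204329989004283904727621991312630572369107735957379659811597421221571351290103621085722496776276505209503970216287281563614107738519665229599181961281859634720864142572637659514499930606519793320153015274864587069633330477082513772289126174706352179545106085136701646102999943526953753969035726615784592083825331943796249746709591681976276861640699680858917238923237893345351273305915322015141936898849322385190585194601907400284848726931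3011644005192694383484323807110792411744406217916542462567048602288580683638510551666660314817890127449695850074181262724579513214994976029625922460769731919970812622266621117127459225512159803939885671834885074904233263780816310168920901263900068027269619694388119113352071726845522756979651267249625863180782257585736539179841698366691213582372386004352331754681491811755201546542384439678294182521471088812522230885764900958478450847972223808268600153756268569619230976003421993251145073578458339168814486979261593502446582985412633514394887094813708348947481994939536336355554928784302159334691260365764108948213626386066903934085563681818145565076899441957843480654086032434528066727252118271252716882738081764605275942619061774363926770120881104296571904511448418047024595905947690431489835754525912373509985770835303839372605224597582468731854013312905892731603238601770158509465137392405344795176716400946991541343922122497571155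8715735443906357737405845741878443582359046167333082970299777874074310318774021870989054769221444143073534754060165430757736035740007977134917056246163936367769677268673966147016504356682039718569473865997605852119021087944477215128243159970567537238575700916549514838260300557676504933837506329133829623730458775726726706377256464834060267935283562633662876960377629968925039470888769853390682705146524077748346334853451549656482977481127649346955817155652202988281045346982046244083294876706048137836618658918288525244736224047861543965362963376155451337529020646334778357092184543144533299265067506877470381484751935467417543376688685701964188021195710294743891051154326100621080977004277557034488337614642977667688612219146829682413317020199911195470782585964612421035069745885113995241334904661411659558787612497050899983554648552483559462807979554759949703013314668139358475844366510397343206380008602107996187954582975367421665051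4734213894701116607721023240858271887913260307176626149951659081537485461794165938546871796223701723268309178156689220061742149682190354342290044813095739707211594150751958023283924117791526970794306431174928364764293744448138977585253422169441514498694943073945312816172960610795790704567517751735634780993371666341112577261278382265670989256029056276016267111929145206798574567438348718099175927184560212147688983528104190697811133261016101203304740110309830581769093616218788681063100666643160972010255583735023370417169412496193684055706327502166826945803881945659794136288542539257849589672932053159681425601508083847377901969605813651582092312180573925944690264278930577072518728630262505931766563022909685169372176309139116706050278963942717551041379822458704941009825611259611940371592456570607154508927132910448171881757539305183249131338605340839520823940021297015294841712814306532826727569354546749137129383058262670799870937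8703046487811271267920257726107752219743760418701173550264010132584084457523786884601741987610063306971211458107605096023618642692329010943380308850621610530591134850198058319971401578635781322149902241640896014331543130250899340957345242635455823692359458728105699701930948313633104611567532905993817193295769053424127551942342317191095753682419237446967223764537608352109025724930145274791044218143344891973951543761647076918377622998734019619169642977211006740232028927835320138156460443563398472822675852406457690573391613203585554817233095451847755121426127753430408647205271578099576231481291639046945390511379363273749569306142934315780668391356452269931313333803161565944266654933123785893393486404319352316805316196368947740678488374943536378473001092923316444083669792753538138789083851702398468636981880430922436570292325383892540431083971126096823472935037949425406398131247504568554883106389896200351951030293364075219560065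7861874808296385763166281126811204332590854007114284519445627028313672854017048812990208603963581520532032150474223537649581492847464260851040209605985784993853670038617501103759068525678359764068606263814252935100178799806233486203298928744818058339073750210097949059887774167055417343559277210848865283174521975235194652756739573203875909358270446277268297807771538231771180826770737091554717614019364841967159147372484259677513692878354511538669213787664657801826007589518712584494722298833788360237272628102625996206100757508746527644491425554248618874425828030489726161557263166452629464994461996372819072130923491480473110791095389098366557456303117585990871135880155400979621663143028173362292655638896754807867744002373079957085402243066077612083833781164839267536715047043232120318816505661259586310001047875062638365085555299069227155449701469504836625060410544339007120257187839324706296675182655153029890244083775428226228819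8411783779632714858064043189086148753803187191806142811467508471649194498313032775979525894370236982429514063020795323172425129126705418545670597997043329139747767682414036533608391170092956039557445880000637987647313615815498798449735378328889740282426609336598264355798909654404054272146645316469764535032411361553504087634124502340816392020237329565600447254585038732159446214764491362633984766250769227155171226436361695432797432544784438061101506026572402129245398804490469830702048129925307080214332659812279958357117032264923884404525922987767408176257194942720505691951100705571293454003402576055859615853109390697970877710192961001238966211334807833084108247218965662084469663722597852422728712859731716765787917079023171723412662379712988119187271465367715035722166590945340298696351653409305412018335282908737994222073738860125380412272391797672779938669037389059882562804697602864225720228488302668735433431156207987504935862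8545319849917370902113333837371407189199578410208363376567190287261926724013630961417186743865712772663023175895366817777060624022535682023567515320416684162595394964566574066424438822071359367259108416883484503247130448338266360946687207545711449811486610621163411789789871369554019644394216254032656418760828751816206291219331557142176916374929482698518500752139656922390747858239476170762851827143832630564193473313133411114120723121811991187680039396669203498104715231664973758588551937608673079918511148442693820437536432974158321919235103687234713791864235196423174180569268522143127123195748950327471296902796783544943759038940692415894040634396663920180190598410627954914041466551274034179943712401303234279423982637434749819367423118270915311905086603794504493935001967961627211263371351704499277279840217456151758078549864377435262402336988248113843704583150556817593487665946160952568825132839514322635426425378589350515764262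8712093911258933640896841042560359125803463645298694590416359234944399770401068413031170128968613726850831109734736392355544024877762314882244736754117594181890284299321801345078312162922913278702044543302622859442830505343957559390077695190982402978136407953892006870229017629720544324328781772586064106055035894539288174075811384025329915430595340051626550959727839021720799996970622391984776740480572679751042865579726215628745492811677594531935312752091469679108473557133382185406658958338740270261100765803735857290484585581090244823862303911675223785634693871793694735154410451736059070267155756028373719895391878037676113814392879433635460004784753523188718397936068421088889044954976341944167452504146419565754114813818355239520032185024850869525071205136694365356578030904185958829532960536013969010217033795784349087544001024913666296827978974477964018791939057724768582725790352140781586870055402826938844760569302464661756308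96185817386399381099341242981305281060011376984005298744071008606391895205302075613430761788914892334151173168914571390841407322561268021645580828193742401711631522410322345059663894551569070975320560032652828819063303251385504431177793458136572725824634637905732469929193966178857110573583169588062996232460836246981043123400708402522947493524265028423711583923368634381250082670295477890526861910039987059182704772096997922444252590277278447673063860903601165457936928329798446700016779446329816629418500291555084130668382857976650028428766081848575450421171101816022205866435465177627388538260554821691315295665692417107713804649066274953070186481974992911756810778704642207958173915764787548048840577304515233297976189079752110690204100429802382609912784179866855739936300187781673246806096507180704868832873400460159741289712035845212861370287815020318448247622122120700378660267062601187876981608015409845134308906369024)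

noncomputable def rc11 : Nat := (nat_lit 276188690129739454385874621764985397473894742287957529969527404549315202435048677318536109541855632530719177211083471687023547037315541658871623180194015139251439035297749051011658480162273394309469251000454775823265233147893622474765105753244441079651334948197347406686814373480649197883794814993133696982647098019861473961352139940419251337350334240182210386812807343371344693372985757864117342923916434949145907022811401689190339791580969449706117746329401507897216330931640474102178482052655414332303208626300364531947525606101309307970150075058471534183484502045803181841648274357959561584264658092767305241010354057603246079985579830400958681806784422259099751680075100753676923295572703766199566122710175781682298913719679629466442907205155263536534349428896478190465243414715743392032835717335682953158349604189661652576593603370106813022878773159365782181785527557572834678211685094199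8973346218989603439934842955086099924531626269429383723519880428550529483093823597325978842442755156957522414390961374478723481271556451975574944131172650292937145505811084844648746646855012956878516403772222752521339018298180136780572035925297030158554446352651337255202513074696251080763970050179205628473434673403418738942030052840370206715904204486435313666360511591007803475435808528503233314118166491268862365138440469802570529019056354358585536496997088590805675826895622985803057784333644342836774884302087976028205602975664235791846689789382003889262715202094333726186906255643084391004536627930583367840457284035385911958092688639159562646616265839978697324017032917863039508134474449648190589583378922668462499891750136774950126983570421062381386202770679821385541188229701340718309350254698460650257138979142369011376046173638574128599486365757971233405326003648717255094761468797019587100810930875380393535426273870174863616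2861982945968392029563300588041017714922470953744420209445451802262010542878596904782861641167491310221538629133236494894268880918523180537861758206790845945411091877291160496534426102253613782259064058447007281492826891098526304819601154655979709819680799300488804641181279604024759407190637887734622986717658367417584689518183184970070611783650967280543130848068505766480046003614393706984799245327365794314220350237623549187353156564501522307477727592981856947630787284201650824168022351484855027941073626317362067874613058915722961020607799207654531090748092176428695700344830069014888426127509557662867233256102420190285814382124758675532769656409959904742170258528857135806459145632339299212138121011030133913227467147296469409552995160370329697842574890327196817485607104247880676791922870437709955051584799240273805130330153322281878493632963694245258005766590730235684290025660545351751468511562929547052183323742166053508326984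3978248183450171250376486442007147718447142623643045399062567354184739561603921560893625503890043615223025930829719686289855641560692174251069099853614953350618255616683634542008566011283700353707145591969103211075355529003327628421188345749885615652205943239635990902773183995203697990286748864680797571812654785825443488751356707051369424737019524979533812574386791144429835354306755160663116373618266443925655811711620281409464571822263247284082917170160777622666307133439187128409382338038973427469081499514962314555249451601715775574865276612319263827614979620471665048987310723473111648333689618032782929149804946404267843962559022359059570263326851592050678370378647494900645447033673435011572317604708904933338166410665809586648943465784405498293790861652410275964780613531376077762051576512969646834246090348415920544720357305991647981432274102622883002758127336396461702102413338810896934416283424522278220995824471646268973444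7079199107843568976444874709898443448166611320569983918081586009773059432741723608250224774137729701695197902425778196067887153847978946134244474963046242243500886530928520316228236477484811653924099743575904530301348337533497312626667194175771299625834288069141287046982951214813614550958406046114222924728993667956532768829854207739993848469611302975363873365508723267306010863797378651767181340825855235704980105028682131951081095927853221609925978357776085067204362468183494370442803110863092303336541789712809151129759084730597276535399717001984201278895567123727769546976484812045077461120853058102509211087371919635473114931845436742020672160287286214289406949504558803964507794246944592095399610508761151161116354907766512532643334334385653657676422667193596844980300589049421614628057915368784480977591954342799568016629769085011351718669176469703819654051885624634958107574241085147389953749640236109302217430154480137405329400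7676281544208019201196880460174141520207798796336059323100413781493502713748384405681357139209318120505152509893141890861519629604783033547299821115629184742723179843549732374898204624151995632519854204668279842571280473406609754226691844184014266980195589080178526857300244002548631925526352417949876422159676033539057583241333934304837259474917497592605325428736540794727963894916504261988480003124053629499171156965601618281972754842298176973196416800790891348759584367065221276665009344121724307406690093666877863573259282574584720754192677668284256793372103762035850473305161204036842866753377963791952921599075224431913203922502108238770418418882371255630314776858135660852833316866912134940580175667664970329857525459276829783815911661179008525746319951062298552824595494344217661033902753827513493575706675245981536189226663667025355921368117978147415704269445397009714360309563727113295933237444821958055178147340072435864231264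2863401812450226670290346417716649281059041256538766778640084999361235265469570022711869119061693460601973962838616607464690379812032024174824369460777182192957221600857742224856621468642005301967936721245011577137258615122850127509024971967115098002697777526820997479146051003755786933016424604581163661538097503985155564964397206740793661632933516087640118919493959847649940161500363508775942318829913384244688457483701263581665303159212686103626393051218427767243350983623703127321897464301650326076399951808285865219465782100098306814016485234218630226313396130437192229376403571793578601247078290389331516207529206923906979932147714667164701633878867650795504508474232851639924601797681662449454920233567893934856114412667727258209631019576433940592575880436151948882783004439062913919148142642640553353798872976647302076111376946892475430039695800591013558443883690788245453357667278908291242741248292433079134822995794291446077306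2435902020713818443452208615259257046531317815712749308950894540453413251293217303669602285925861893610058883291454111505499977794556716388985065130986907993652622708275783593353468974737326078075576814271974509864511534717787336525536229064630069163710220101521268354056265767802929200948490171613794263651619170255453290059112112713440471095819567234764483749058005594193895029255685877337146914290396820408071785881364329894121723708718310336108953646126468416514269316688463232157037167988283747689462542883133783434436950818015577767547141760525530909631702757180368858202387414907740063880188746792389829602097862339924328223514982645063656585056635522410994806605572772038055239807343146745514915454491448965140679347411497992422137814468379572688632353934241160426068472516347130225362195538884640767044577565894413186104564788978200724329440411987305417212305764846928939205824252054721573809232261915862939698709271014167920744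1589877047522217478655990587121144601333018812365725881046475833984648678926034547362386104904318689646423294054532701552243041586109435419518733539661795801231582739159478774767317797732998586958107027092513892429200342076752257853538602659771558627741849107345907847122229480583680572117583366506937900461152113639241998374649959810693238731826624366341576938993635663919000124740511000471019637478981305915642087190099954109894472484523149345164915456785202173858286678128084904020861175911311957309425526398439608611499658655095040332184025033788191044270104470010521984648945501432730632686742570534284528491714053016810074977808418938444587967099937307908948886822077455288246734502741796227921588331692233719312197757789303218229841950307431401462206446842045730894447438478831817839591470936585264561095638076794757076461468927986088615228757022643093371078276247106705580220849412474033290866306436143115307314003044291271935213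1431912990749777312885084189033253147087221592834489969140219960298382740864634001814414505021340058892237186584088885449411733243457596870257799478557870265420539918833179000441251115819388734639090176087501135040697065743408342424116911734232134954946948001334032539702676633057352192196256598518079543631569474280389636260019995808219529417235662390106820487743719647778624132596714453505508978781628359593770231191809954750558634439411460355782999586593910316444272615282743840465398666004056055820030210870117358977316224299887969973593640054614694981161620598256058582801793884155459359802584966488102935353899816448264124152738263540201290128819802116402297827752355620004882992503070760021272243491454211985992247830614299442814954021013645003983986097524837625726297650815024959544449473728145738496030991546923038649083254924065144464606770631937800491445049658021038754528703748852575607763516509062896923942164337744781480654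6077418331201199411446685396110912715253468566375491765403149607349483081191804555384351878032632182639187562965517753122067296866452044053562463243385530861853445544346580422433936351969776966253912022292442401535989574710901418767754547826080142336121823089027716356316402235681457699187977104814250987740369535054736936314707187525973105414139151004196139307943115905003152749535259591417617443907840263095181184447046900695116472536552474041726365639243510436261859402663972111606651081273679467625257636678272774891885481801390731605148355365224364128045638022431412391860754712282160431785898683114864004288783391151111754617218485393958544571277793498835900927750843151335703570594794337631590298035198597667258779751826037718220772082352318091151547071430964335947851043348126760316025610518437810874327380961126703038764101357360153749834858585408759984409212556854986865433316899735653616398540357281208548706260387458962079034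7852341157310495024536374795576203375366235067848566927252162231375013540801863130209638127630355912380105669355061087074184056818742938047342529982065680017944396529364316050686426319957173697603127442616920364612081686308547200548119517040257835535992474203246841172737806982911072010729019839054216848178403629237744917045423199662479336968277491753297846749864258649487605495250845249253602679221436821649602778278530351479078832868973709457337028060421080657451287964762739276129867618081968363346023973104364269206965289531385890553986640287648138850679545981046308007716903218131788283215939410308284502123991099307426899100033126429232528838275052182310353453114009544790736984990060827751597868831885604863107583782163042856746431794430649782893585176299907895397530362148135478923884265896333345756156442574206173925999557523663413254574308783607369682980147592876354859492304306702315571686660604319818209460683332772357698246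2153961434698168186324331582061627846076798465408962173354628263250355296975320734138511306368364330337204890750284297226131523976337265652780189690790387064560632315646024866052997142016216978767949750722294892096492317595036610577167469566659192959811659751975355228739481952341205743742317718534296432149039161099494878916729018666543845156178082163966054403255585905501073498709735042357485142198150622563150337209854156551584310005418745786064470722297346979815687206401112966106624619997603820654208332465388221983592655905241018536324312946122858889628805818037212948223041350413656872300401340459418318903604901096168373652112818333834484011070425218597236759653853008632683330078386313529174256144215132380382269977106052892737049386183515727540436425486669056376536490798232364411067020362925559869087372090270092894603665346455280176185380160542953988380662234915543435929909332270088744191986939187180488063457503977641148311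2324559692508878528453001715218743998181561633907745255992958891534815429855574955165041141432409067507672393369258694592901373795591463186563887964326078150235124042177130442627242587417178720468842733641293668935394706666986906529206239041095082326978130569062118946033396159795139495546060118049472017100237370565662280285289494745825077970112030631591178032586577167521320845752338541854822796197714688137613596450085184840509829092037951964857825687905950236606401258266332262870053262343927015374275503782097406506160922997624705178993447560812052655354247656768309790225267695364544294250592301272639127261451170495551456205891237104930675868942650206279248784900210810841055675932495555880943704093192185195435745538451966969984500229401312515456653505763174534731645809914635057082769782388064380366029086283050763521363944281595241073397178502593017109262159626030942879757351000207492957234381833683125319036178740031630374042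3273962239370426712325038945562294208297213488454663919210522324176956557138461442473243557726489548421100590329311069584513292125431431246611031228199163934057304515174162894811632521757595738430600888735614579564627072744113958617451868680627689536753371210236374604961865562439323600622569086122730683726164702672248435114722167764392338571295251090582238658139976028638658762020064953698940746303409245069134556739133423893520878840909956942624713281566586453200585530198890141192597973633041503372415104189161350345995807322629845488594518616883006224504922242215174218051000052636419139145025895257356112982268940066826854303084914769616798094301002069564741748221618286312345851229658319743759784235634128260343435361144783959232843170502227214014324747905906353515498530870029976696876480944177749049797841142660476962093915634529229057219866442417041392961472210353201959760556696130085503035346873194869855660351102269574892781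3567442754130934942453214029512268828712552131176983757157250765583041866363197660698321936734104848838869932510671783523837405951642784641645474128955288595927996803224516443760362509409089577356929554028894251675475807249577277193344877018642932788564855099772469090240262636868993798497630921293887868283683127074175817993475648299576569623621207295899767124559018665685537342665877941003422549722915699305534907594985338758486752339071221501443353888990323058695843923482132646478471391986903270582456463957044313078010610325613981119267788199821095938176567522059938746781200054785353717873325999555888418423188354503827050441530038256850382007394382267641402546895010682394543293987069533001731505491172985358802092457113986057596278677564864549051576507920706226880923464401249023467799529197581896357306360656797631348945210113343599520609480198135987767832678164512126622766339619438581506410260356586479994341617295151454619045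4115969693435160050396922832941245322411488798208236673738987367175689044772789009953770728032004571615081458065236695397130852900589335042420458722062521696560597940461135327411799329188465802927473358987302189898333809390777130584237398292643453430521689899233806257135544806159325840207396843438763785335962850702675250114427421948405530401822421701785303626217728679087726018267249610695147996233280611388749775886192986736948911604112409718535604547929959869077231499589619475747488465086778556531909627023764444552796803115058791419560600527343065780484717948858981192213443525266744925076023208265441630832263877578100005686871920264923755037067364048843519616268971192917619767163922154086284075325951278077189189108739149817948387273569968169579875817196057326932277299799133614285441747874018128140551376123987343984223876620424726494591285020687954442965442704958177959438982892926289751281398168136603751005017926756687136766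25458795292801224824577382803239364044179146854574814061253261025524043039236072198907299583870444977558536822111356761208044779059711230239229262844558772990173321608997149960231143918050531408427486135115860770035269040551938543244805644880612263157846236766755537799128934257650330679289281960686561230385862199704487709544573891119963642887114804553206468123316709432680801500552344329133997571154724226349736244982909370858499070221709059738760763460923370279229327852572437416520028051698483547648879517859841813356831101393383927554540651165147276491765266151499391776127029622869355376863924436989800660614289658144568834420783776376899773362997746837551783500615657850040874486392300494390923991189455591553196496470755888323204692117353680954953991037005862032637124752176324468476311868690879374217863750318369931709330843667290951798085534846264760895246666360229119264016364666589665756442268691866624786142593024)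

noncomputable def rc12 : Nat := (nat_lit 277443615158301867855343769602175716361176354916234064060511936036481133455868972019823587803424946322500906162189885458723656388982429589849735769229809410260155762267534082604676444596558031733046618603713851466154287755355580075012788251071453452523129075153098845635396751224122997352015852079090950263914167639489348891078224986242844486955249803379916170641036532615266387370819836647461113515734648399110414679284410846532649234411217828471907995976857353890450709720871518764984879680035608110429088467161440197471953730817469105132648217810051224131233432773347038223366527966650546777156214105344252717272339912333484002785870085802820359500286840056431403711884953070769117177242768749003190437606357565185313876825404251455900542766848970140902900804658004853437071606901501225766844180140680345480430907143521188107993542189989540949130344586256991280694138998348088809728728085698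5288614666288022068279799195374682162786158210610856446740410126224738537157524148250905204444750732024355286669746830651195580456600219822142630371734150603982002583674379698725923166657963941169417144285421120205453484314972220493327915295707311399368933976511477053579733153713425214970121041926331237207137605463127821808377684628265192598060666989239684176357776328246393295605426482550825231337255017087781818445943661707834404415916500587854927744116395069050840666770086326133971483498825941894329037998257335963885554026408177276694728744356293656889701451063239549939803991953130410781829519116430388647976420522905876118368721685668228922677054173723446437019610752602960360166719706308521423929360291245512176371971472743358298917450828700647084866330591618904206193214898834741114598683650533485294723567355194573614987434741190464543572427952000465801145308791557611843795110849317411513655141230184807456289477777862377600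7422792566966817774969792182916722674291532658571321430188631613724867775919390475009260361510961516564747677137815190017294849735680776369157513242291051918434307784411662902457005279288584057266894484977640680922012268834484588023953162578487579798651845384480380482959694234228857913528449627489920326903882592883291598895642449751646023127248360750831095099336927162614356074930054994793314920843915234777709050506485951976815315910037452244334474515390681140766879371198955058990284880012799164264872886188912466244640745406895124806273872613205039416248883785077120764729324718921097061999150606872267603893309361378722815639011321735667233019803916179363316799123895740935816536466633786310646240298586454166636079495231205493851670051841736684491735663335958231249709880061801950117726142226100218357352275267950830291789349962520492712092732124223561101455290032566666860125473975293849908478420295617611712870312730635369860750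4443891017045863209091304694498406107051999084576228836850810649427920092890992345184229768577464866116557032307124253206939560376150091914257501971349429970860636672810158916460623502088346231061403153565755558777914303056651773002891204643199446175648839083902594773239104038814914562528803946313758528693234497850373490087170465849724471543378734987887315886286782334377464471142484119574175401557258774367264591153750173808448007994499562747317151373899647347563868991240846261558544423913185092535622578147154566002908587988186025156191354147732634549774079341755109729444499846610518700495796176580370975661879009589364129492652482330466187829619060090532285732715637404734108127147237872705308631415051535969433584966007916687727224389311979387233439202844940917894068053124412312113973795733301667457589786774335930979483114127150431064644743038815345033059796799446009840438710789653321035882971121130920776547194292957590229313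6918380496969083734017788000881839620059746004470858238366163191921066046166987662550746532977412397862280990813874008323573946433451824059948932345032175761443158707487026286439146291517971818539996467321285117969708456528677300757743001512413211643464069140687075906081431547791237330063996659568645013038598858940199313606935638697924397552980745791246282232536944780468976455322359150276354096832347622439821376093064627889185191961700658710099767005876004760693060585377387859144179903314496466822186889971624482130635968461531362228384859275066842608284740237106422991227957446939881003485790002712601216486792787377312865810529537447944655820344870543803833252979746910962494597059130936437253611063845056891889472047657903360716740707874982816222303319156314931651500292979173589208490761979271876842130107398592411649437340539996796693740789037500196650778276430659909983948199343672185982604514611722860350368473927719487556962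0448778587925789357302106396503142892393644002591995993601315631565412817070763514498167130310923741751621597337171111162085534907340907501936117511303664043341690411189670156519251884986944981351662949119135743792219688756482644258367685285891903034705684367702508816980580420815776522081995898040980365165179776839255442848676328519581907590842658645010270084714402411780460076369642768238299989608463241452302073105718246854659056985580960057730079004562291653904134696611581086918016558072787212029332390092224647579387469055591094023081717676160704249597351561145847487030929547677917033249114489196379077565097437844170602936240206415731589473990326903145947427166762134101208354617418692213370809641394945275870332403402745071235709311584083499939727533282873562149037608563806781793423788845639671371687101999628627157254587831273834151164727534327474880652587129014895351706484503582863035507755723797983679430374673525061310464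1617841758279120919570373396449019306366670039477122637235817715439401281143279092839332433567298531627190233548400544818514177248567403188327593838155979974014438613331183793387023086228477872053086853837567377447763258582162936841401203213215449791284946202244251585088514892000915114371464189755578270365784074945271848669707333646894883570909992273463162155951525060016289833751832511770203200526154177438299656293889599466400258183787144312072507985745464903412272175376316959169292698449406082445494787545964554538493625030851365684845161624269506437796736276508725895721881379148181812470819300795121642367909614247042273565473007119666682219848907975229550006230797513785095861439517735310555178114006956775617178957682172229891683568168230652717823996751625008358314990618207719910546335660118160907593453446632968246425866323761670621915866939691587129338068798302133623285442941735628143729525511046021608356367628278537040524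6511933132031869129115467552305476778284726748360772849683573022340773982993298551379750990204406667752849909915856744287409694759758774147241504258762640006732903306304725562018757052810283043142613200631698428705558878070477033569100374602310449624311736445969458279541763848042493415344133270859721577073708775326301458008293577717560047728948819913024382515688090294761334414580065703601439365112563239989030397507178037389258107730252342545886060599846371205286280875794642463476199611747865313175707936348013291982234687363995121368259069245598591426319650540120930197591916222289026372231369622973259783797189010798393631820461202690806934594662485674442192169582769302177392482291034143859884419543524044969419740875817797844902723928545470292319886185277422077278954813661921972811442738077821969520172068810905232767276191856247852656912190506498982247660395373193356145124623003579839554595214461770593433207639249470340201685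3755655619714175433379043859008312449152943511505897919074977327059397229013547500675431842716787278239342211599501905825356811409459346043859588307077827025958866391939741634031426433759431060922467828852854374806671289445711011114776659346665620255171749081237078319077943749993008888998190402017950994059729135532574212857344842360074627467806127611256709485421943510584865026634040581116123364919791527877054316301153188290513856768535567372923180763508180012732449629171517190616089739260735827054169461828138423158610448876751596267805428248351582495798692786561934450770896273701732057975291906850668865867069516021983144223155222813160759275887627272532569911258669759171081903074116878401279179676593144425818416757356435327415023136685044660027235088624145752233469094566593056260972562444459191232845485929678603323616329588458773601234563465815604762028706609273944200961685389008589423910095793503506118918747972940241385086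6366293111569873102003849369529679190196963807982947514184070223772607464583286256422464760547560594981806181651858075821249654346804900459616130732539455242336997543730211022572163543113993408242963069253709733629039260380880648832640531938552960507862829403549529763678671930293126276754462467850282578429171967488740147726937197645811260999972495739638496623298796763430819686395946268821721588161010827506935598131036690248642380508881616093808843298588149428635674443003494745426369055928123878082378889604732360738224637189843131158780878412228591813183005736306482062600218634602603247859625492111052132748151396046778765409899327474651671055223161407124512853564434864886167678819352839441535730532058146865594065582376442990419653719199357187104486883849639031282992376216962180409589356378877120346488884770953553912133290658378109508881659235214858015657411954386417316805098929668107101514928433156453170713234675558609768913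8046720508239236767686654277236138031864660936070163112035402786760073803178006194802068064308449750250400037902670281978879660577209700304255027899282947242266401072448737132177594086879569889433941114435581348970375380225533240581054691790021586487621908819973364378286713371001365861785334238384927794441715744290404057266853965993997484038654411079929819808162356358570913819000554010135118439703887570423994947772871967426290216900962095774754123571947285817834967091911614613760199998353299081375751040687423817139994629784804543540018191760171514991606706122617628204331289784274677267801224478860077560621579588088304197405434888778412656118530236309257979327160210883234392829173271475127896874388502488932343878511686513347253574743006820870544974313256750704978273935435140125249310499239818985119951656423974647787656769225200716895299087282323826279447296862603525239061163439206232858248269429019208983150222177557349115692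9267361035818637357288493659962313952052068797404533091270612963130777407130106368309371915836122937791972331748299174950995261197329058904249415423904853167532220668126311159718942653517349569608932024433684572986785368353611558348534029246289120185836475616774859972471923262468136333922306512213742946039606916241930974428163874126559075091102240977379463313752636748268432319009601845861105243280711655809969611474138546710145115595315806553087209190874679483335474853077375296133280818734400650484325003848248313840691242233159547222941473664609085778856688006822013375344123351631496001481345915278435637775379222476964031028455361029884902875700062390063194130448128448429735027651370804704345050901782915905053848356405387937494231565756467879463490237968366470048052326869336542222058082682114622604159619186166095880874973330346088019846136799454531335400576421440703532519257120570404283755271043885494377938641236406465199214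2254857331423841167905780469117815268782182648203676925743578406892333281218472121288083344345495079206921888548375666135593380738839824563936373432417050275775460149702050602161498387866955048861449750487446233083229265355188296816010478287491274764637690132599160450628564379117911251229147961124446581055075756543478866072511594896447639919440654584827121808397359504859264875399803582097689435384023287904625845359881566767698985577946711753447617352232322621825878580600030281102213485913984424611184910267182062428808518602459852614553975106555037177545286393223457062410585649699021894846210718891852811531640830947386558607484301990936187087734341782617418738617916822950318399856107992737866969022473517211606397635104752649057497802605179373933545030843688248781506793202110825066450070298470088937154589947402059268136622297551868902350990876937065063992317790789411998463254398944123490968782105918774878457533529658464601367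0799469162564361299191469148826648336170808761759913781398842033822446352616826771868523288663499935919323210761103986708091374788258481320020534142925755079879329090355605594217522021194771803149770217516890776573525621314113922478576917158736540747880274979977830183024487630681114010217872674290443958280660920131333226886297148424104749944101677253888415203250661432507780308033502751109656283540681532727270541903161969155982884534540154233980389267593142135444532395340589317694756139693908237481243746196786643215059142974432356700242227611784820111622561520855631003874781101344660080551746372043978830991701595859268834520723264714522983299945104036285447695688730179327380020048340864429338198878377336341999686186814233539271571733416722288842601983693010334110731185395539838672674561178043021459244613042621215496981833853188756029625527186274830008672701640884031537613048580188595519517986143628573093130317048164772386135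9762915826007516539885707828418225644486454125821445913149717710245169750034043746497731205722188754291410814676706791523504796031983835546884585892748582077693864363222347193805279945988782266846091939084830042497600826214047164346854037090670589644438817510715110358470149462499084812038176481678822597332170218053824414171114010747741498513800448792790848835204871358501478319590119867289254823309725095031829811269193461292157864154731624732914809932284025156883734804403594567172001718371729439727928248498114799397936129685037025001804926764957799513502575498884321797488584311397458479921268979609511657251434931646901143289237253376418833784772035903313607131196820577423999484381342701403332994959342010131198558969718562938401878852922762222701621494005865973475295503974740475784224003223671858567561133034825899579988915695970165365902304264697336304005549198073193820284863114557972496102142566415498060031691438263441133812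7342142086493785736738270805839536813702582695971929802877327135970285394937503390541525371814674459307048002201790636440514926070865901811280210364882583025212444296823156306419405352022658484559164846818944642717945240095177748088793772247023708857329460733280830794407352154194622349870528956027078915832056824668414826002026601638427051685012343368240528962965929602285399707493087006779674140773571236091036944661107169310921841562085842018974444140292444157970258616439092883467760897743586625455158262809379155941083743786758763478477577077574338294848625913643647467011044107472054625888129977127801931142254458666092359546999560182201028542075198328196765395113596068883040610900884512635836618606797455723695614112350045548169350136025097940488691431835667181117957547564912658904464929644193272491369546257819873088432100847954444444362037403335004679004510500555374243437565085999213637146592150553512728008623426146391394901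3878071156148609541456155876117860299395347882332590040991124248585815407567626602256129844703138197233314819057586245822686156776963695653476034114254250249749046713993096931397891894793630139991231646193379594089112331721327714676323769264448113001524991779404656655069297441890985722177791956205914851435328474980367593612796749756238094211405228926539012615088518843862957670964867359604811544665462269469229750399173584271788195432438141923315574006581893232207394593146936451448138628237963115856676909769229284375012244012968218875838141158391984904986259228703424552580978049861706055832177588101753584950176958497424237918414540700457782542587632230420793454623159136660905780795435674435204537466021809163857298603284196588492047835666202509895471738942823477288827705454664400382463042912760909722578917369700082698376477483487567957189564557395673078427566671851775243447103379723602058373428416711685371191237410671318886504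29156753160806080552776000497771482445523875376157285240418751097203256656482736411047365067503229317079113052820497438957745803114795156404105630789689830281171304168445284933306408121655043195258447855505981212741698660366445526777759690246158869524695749851629010274736762097076155792220440985911160126118660079939371269756816803172772852141953239593181222204542202167596528076989051090713772301744792997826643374557182501112687103142751066944458891667284756899993218920124651338329771296719289540421684453246345498107709521510831436319122009681168327776279951499073691021170231362118802812018876271031801164735054939532807701332126263859126615032195739411292545087817825959511247526137746568069385377961843797146684879899872381711725563937539952670386703029709839847684059920963095986126768059072638165654029994352826783649992299422566003088492751357249187524087515142060025724156020182857805379561246700526450839562223616)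

noncomputable def rc13 : Nat := (nat_lit 278675516775335681032265930061224230786390938537742992090157414849486404868872472459071073442942527870448073292950049934955964437164692324971511673183945803068194472913103410504501604220476452668799157533850409493125182090425815392951630473100994031381313530661200060500121316951876749499429223864232788736214963342514098073519879170532921467065816508872552833341650375714699541373968322941981786049008036850504874925521479450853959877201805392297429114364561144763251897614067195718359685611639715140292254488459647752633582066043203884700398878230036859507709866447648341500183220206890742805000830270629613920209223458501929933706754335765047004815234424560652426941123082854198009563169243181595703368103519557904591589327722730692964114467377025645095454216881747539808836112161096692302984482946961951123376937719084900269079085012387210055182026228165572260166303270536205825891825221460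3930481673541652593116637936345356450154605152451505524930638993906953097342842264655270325023076186769613300383505053124917476522705850982765611237963203734859527810111576037096089779983382641499694994727819020386026675930701180686940007820425481978285579757538571016515870852164934466758239746503030544342968059029113925144577098984560444702607884684873677883063274746413093987073420368647430044926122026926603997769719463638952851022188821697573451882579779445434625444086742266922256869826361997075612717947720365536847317162917153204032514989685066136702048894691488594687098224872600711089627367042476559515001246820626158864940658310932459352223603427160335040044588441068644942220414614693234603880285663808338945236784896001839339144674911623966890060314286612200627804665247652023355243559514764805449155377998512988594572708442347316129501138424984220848416934593491007449930422933280720182310618303024935255585095229825127142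3534116084855464065761249918783234493330369591740505137035997314466465594454277944048398309351510645932270050644724820017642959236488296720927325838530343076173590584462581095906217193649813327097916743979666990742827212619765921389214358492239264817758810172095423518328553720974610335269551388375231429312051843193487453624354946448968693236209985644778143201930989440444643149569274207563913533750252536549051525862291418737644699852102612180861735587532608873548752197619340602369632738857351961787034017422129505760121464185580566190096656090815966791806327191010512039277769008036845360062534046930635329804094665653299390981128566066082914210703649151135918091025775275283950276918820349311740661799458107936880611392183822846118824924964016161455497631748451289925533144471175452866065767224002836633447669859070671462378949879957028578481303273112049581771583438671837787014255822269123607576415152445805390118465000982171994284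1124946339808907101525003078076619421531190218978691122343449528278624342121427582011775338542375556854760684068536828754614880201401003729634030891133526111158064132622796616650742250649465931991114341758478325384301606244892626262839528876875585681103305941865806713659187960109085213354115553533467768058776972868865434610644086482977291348186530034719085630615859013749010916517583812634709002401863291964612414572835118855664266995079279813739212252614022239331772793435862165941003968634809090979027875092796023379350558053267787650944286552800622645828939076114486623549217262715423503840709987947829779741647521297670992862406925503399610731513736856660576635243516681813941180713062596118909177459673320745666544217964194110878486268005582678677447701126757202875523404830703017204356522359147071574922485968013480309752710037493262623595800171163246562685524215646062598973230373636152599655231099888317560949588977859049874383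9901993032878673363804418979215494509616256242672690700617765814413431109957907452037237719269939106722950085512800171861398306369833108097321629833155522061244109818902834381176974532628593522520457911933511109151647126371517142177142808356030109451567211641977308538687554496610528445568095946644456893793957105640965150948948358308326182517786803748026912937218239147235381706107816351612123740251869139516778555842334766434019724205441414303365455952457807228200308936779459364628148378302911634193622300599262419734525899860021409895687793990437468999704006467615717220868852828184088586535774954424529978761655714476910299510149233060330483413368147976280684433089583530514712254232305706193128880747893799021271947893193700476919366301070305258554229048732058274778424098191136050014021563608142879075103986489806860998941511598012759382015725274288403643961729718992471734494061160644249289778395698081543535223196792614790714744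0712365779972104284589156426011961079628890049782375238947609885523366505402119467390695719859976439120481208870978830693629857633679193722174326705888397269316771079618488350618953209556024506723900254886589757983306802685734317621317512315527891343806060518880675242686018353544565074893105367035249661877582007938796628939545141501318443883785664807423354512927303685877792677271108077482123060920808961258660503032267564789094812359289132032093418220722273542704774787552295901872874266312246564714768547192739759194645365800475755952336325578031298780733420731837940133665155713684274588942067916755942662943396621465461931951178477499518113869153905797580818405208597114685085844002771159698260736319937557713689058752546298337037720173863343259933035462525008513350599903253835619597377838855450898862115673815761387774403558348542217708760443530032061952072752447549785290755054300042729027479842481315858383444945157749535186073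6121262066172895784921881050844151254552422001863276249935079539037716308463784771533674626889667965924793032113424746783679009748409921060910306061447461122233103236730695263653828708054811167750224179690323863939142682040210096085123872587704273499985405369498248762582988590870144468094748750887644648221791666652158406829694155130143384997968061636816879951969800345904406898660807634693304570470675617891843325289795556896285813567742495760004477698145415046098867748254604742994686842254616576488631046591302314334422608788472963054488341452225931885485297851659500712646799983157284325293214373688050816608478379117050230944353761796884390146972870972712657955970168352623593968928544140759373793140660743332262360675847069186821904415188266760283969973580071416715291156079411953398457660301396642875903589117835096446839212719468858413637115754350038700263701231081747516803729068602782909473386784233768478425859485288678084599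5936328683874771154088471000071306230251602234513490296947517793618392544291156778958565458526140544666734423062297864849696130677617948964137094778839728838012554868235978366541416945420659752838400581804195546239770905692826796774797158828049723249911629962403556050592365938187512299626477889633738219580606431142820627905654848989996465373010848789180563524735999712953781607305176800005419498693381232619335745189806734342429960180482491214945570334999154117364729617022733065793773133234779925424188215322048113234225629552407252770299853063238726868700576354571080624335819420891043964658630017908054257064524820348101309974222579228119495192342189653335523494968259877818270325518529220446549980679092447385770087615909165563207418096900669213251376314228651739401881307053054412847932431852314581479601413630397390697968795727879742846060830544524416190461793450769514994158151754547036660393590074144201705193681255584164244248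5630261181889554429711940954488619366985319285650282429731168892495669294017211768812241039306496313961678445827847480157097694728650676726437956098707372840722846319245763241056888904759656746876587737766934079068829497590044611559804006892872027809930766736575172930406252051608416786550112102060848761827633294841221565967496248232853733675678433209375461315278052360098143960068867066652858017713928354498215458986134911653032252986951794895279678250666394090190949091064041625750463149830544289210409147605861752976213664820120139671852983462813283146417302853643175234727420566443360332810558610356110037912069742647984644638596919849646721169593238599790660194350158970886901285637981157979419732440301605104431763500273549985796449957259880911934922284743875627653297979951756674106595913509106032411597321355221557472218200093955004472380947598200161302883735248750686469184587366983256063539557943305793010397407164242663044872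0273129316948506840609312715985801875870137570059714019173145694946320160863496001465175406409173667193289294717766867285639864980878326989853429868553666716738559984458076006587802281820087225094071953269141715422654965739438852285978183603367674155148577717183657474097749978213145779992156359864136429730486354584900915214007840476282715045348474166539072381784695611019194032593908322269918775606890688896528370926084388173974147063629128726392470760996836651403510452251820028368835386629827197641889675002161602500812658850938706083869238403341037371801559339089154204573523007205343502942858311916540861817047094907292676841986199379336395477406974873761965865564025624936550009872949053310114105901689924417510304637818892546682323019646378550756440362861434184417260764653296036498244062993266188003245595907273050719398810362124541654175166719315996457396388465915773660340424942042652653199326219426923492224437253383307503229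2561552632223847772117144102209352664430864421028460687599283565284486407877309692000100579960146776691117280991764143138129056297141317897850488774429260519250884580344469757858422603067759167010146340535552082590336027575128505098174680404630813321488191012042475226885364278160071537784669250484997424133049590711770018146022432179687011503664281624048325456050229290681821252526765179471229613397983291036599753297504828563435442772622000845278819078224464130576732551801768640221484435428905835025358909152224652674767944494221758269275893474229004510304956759527616115498801044101184590913368169525814397865281234333543986387333688013151414235826878503955026004909411194737797272614409026385384733389191728480739074139167775416224217905453185755554240675874218619231562124368603447946556196332544286397292070781391720305491884424389785594179525045440864827999150820936535929899279364754676111396678471321061503258064195883885561956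8674064781844335425342256430169668923952480891682167428720766405858678192936432032094465757751130438619299435216164395803484123488931269336826550006894751313923779233664839850628878665739310339804682117003636980223373853143709162952949454193353414580015240890422923799379175280640909542343930363726273594359618482290820530762394207889461347173826635442131902516590568173214486251149534148127964492993075041656066055697967335938675032889102219779361068840842041169472654866625939407004624313913076679874844903947684492330745131285555199064825713524214175928429456517892326674490648892640632799182361419108402433527538852444978630411617056752825696390334295845550696780043107190462018723671315901629195922049713968456416442922661311702233043721487251334664764344592001784056775348699668213024698559052756438770934435378927691380284194302156874607712540572364618179250882038919754013217791640411875113337870517805859749722988757491391012423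2301108624667279574251010166437889874703428379277145965075703007903999461517787926403895010621744382093795916406356701683118988938654506378223274199009538838849773065295493115546741583828492466757230728783529289336595865405844508499950789387294572795982684086964770496259564188498908290669692128917496624617012779648846698230643101521920829389307228889814676661891291080042953355809966360767031608423833516475963841492260103890243156464948793588303772755242525329332678250866129362403461502761372367196755762806271749072257372155727812860438561464754670493755283577559628249922897013730392549462452948337822045442864652085841698542980260930181791005533600198069657583528192612664243278724359544832203973806610366505598671028215895272032880645918782172326953255589593503227987840434171945621260192054768747168877446822860648586694662452312556445849045932023350242974931329217151949043841734184046790668685766474516817040667674826976209149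2850479292401117962318626236493169786110880558442798143565575320948152166327643575462503391818556909350420000363868325935073638534528084362982695053181855235810382264505531602689999392250399968610307861269908570128215734047755038188323829012550949709711243805590746955976793063153980810293681444623666334493823341284897656984372862605243489544518304290704233749007485550432023982478186429950056770626457033133109640246916789442319951340223930837737524422196663001610098941565802183787056421995237859254669708765419434074001267010353727281306130771249513163951740679282350557506356084995604409341179147880188728235921132193879846220924763371663432921841179053988592971762255266700075688562485236456786464199173178202436058330238742733813654194913700777457749688627066192646153101477022641916863877501135848208455065112446975612358985323251928856804832025407611421653861653387840956509878359600736025614628744841385723174801851822719663055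6890364845746490583062822609670265064576849194827393759326927492891869398424362834766069480965550259453452955090803363114502067511211933546293926982672928262502684719131576161313569651907459809012460218919588411337963669531780774008339314029207366999206762356293065847874643257740237877937966854500720062615903690315812816073475138728815673855444101787742163369072165818625456229642817945775458397781548781199833157121556906133819816311043999276979016750434847088298034379141829989146951551848729759105692570930815628852909830222837757201680359827247961986286502560096599279913277033393000634877416168934295153762561948585702001315473974778847175778162531458031700743911342207148869289690618283521893311274185195126554312245133642280212724282283344774524628433243404780032281261963732245902806602245046712319119157819777142657865903898506772089895485138150442872784055337087208319547703912429059509997443067824828801481588544747159078867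9985129897099318254770650872226571225177274723271342974147962825333459604643865110470361498210272109780164967238818674343981459770834870246861209801511513207859458884388098605323607562412605817955594066335643582257107658038111384067531856497099417635426085488301909064097837618624136586410371097836284495190416815347523990125911753488231488331689636498288550040870590433585446216783485857341661557946975707917902710801391600674420568934161456159463552674714012796142938342043433351627077115028713557045660092979615350138066265920776786171466732260736324225037296333319663021676732167434812764685754922478439696398421143995765798640562917319319493581031650036130039973926145025817634347594717987550788268166558402005725264216672172034685617477115923553389788672211717068238007052593145441281034349970408192202734025764082034814804062376940484571209845122200217993121131792129104858997165900252950265589220886987768084545184330496622808141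6781943557040017315144334968691787751485081900979042033505631815492856240083770674300382453940106597789681469607357656983224740358187606158390602879679906522763779989448752600238599299849066203535893509765514805800349613944790560867006811946412147680322169587733562937081113812781033702375744294411619929169235738470943865065356800893040986829887221210966202114520700996362971322631741660089146285109065112633354366201391556174583412476357028882072494052848527222094316512233033025365024958827619146025419586310072894061040892594989466286932974420566477125913682499034648370154170194136513326041663336607404815345360518478379886594587278467936944140496124845728737436745393451771905799373219516652958681257455222433575378655140383440153750493326561299808984756614170575043841585588240367634665990789844169628686438467171830096606060144834167454318534488159268214324284196929959867281083882063557413091812640943766702967624173501675797323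35730026558271357943363193883741628497778530978283344467561120211142312889800459295791106657212659695163644146264938674840931402400423104498459293468738747848842619270797326011700826517703704446302417111038941495873063929825425776097538420709458443164432871816363870956264743844247400822141915066386191186365623692246968237460106013025375815283316973708157581881476896729973693881176996090190383775914699953115154799519624429451251441480469579209039185818312947709731255033877184300067222042244550148879537645860239586811334925811479561835543219374075197528711653588378266635909530527778952883451428053026194803468255964612304369345116175021595357048177512437590221757006975636530165961281617816171542989747299524595000968186436193025984388618144246116074457755106928019664209175300250168189734071852719124622419072639873378040083001989005936160594667837472577992382733523372953016320571600885012559834955399709523814891126784)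

noncomputable def rc14 : Nat := (nat_lit 279884298247544495153196351059786474201758700454084207886787689975684925208896098793715497334439165676746804736556048686763458583024707011067914581024188763428911638258779282989548620692560735058548620546895333319245493130889665285371074082193436340254987872777235246345939728540896448925663020399433284042538864331596696121729345699527987038048088034672716461657915729052292404435602695200633899633351558832619811726021726351364689700207000718028996674318284042114012822438255916921630473643060444320281340226009864293531802065496788368598244561704926876361498275284259754416515758666049892437111067781026492480991417788211919334552593499849090604637734095633351671440574656104478351932012761055572337087775861052379449709857405901934952106016799360416443970741459988504417557732020145164103891814879924702583815484656730290274780676583710107166270261567948515065586361032660575685347150551245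2122826881019426404626695175207089331436963267095770384097334352035672705358999025256279842584594551832277633832574884229518841186370138196006695005871162525845438646966497157490414198105181072146608596097005247856708405512561058539973882614791273267822298297526487274749137411462221070595291707462067073046858421335140881414341277764662083266617242292188841195813216878287561311046427574930549948348707577558657335930800282358475186096412728977007368779182383386298013184757648606279284793910932938763764445531045182680411309931151555972902118440196502815474767625294635680287618581012191632379985936894152471230898132283317319176067755957409860747453067208313923342222610132654207140053150836740913165337437325483882632470802491827190218097328294918969150731844610046802875918933540713169693298370395812081488575797889592677327686579864520540860881724067586991733343642896973070670589038292184138124999568373344750120516188229572954038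6677641478172299022589279191974947771094619243573741333918670979842238440114981980771522476537486335835405196929509190673748539034852179573019855826838869388170411511778237292008462122742477866345687828299348950345048912400357952378651931821024800758963011913728329335810337113750485946447792894744343346677375178539842247406013446816455639632274920877320153864816392655915847018106302329311535159146061590894241642540690150713716477748626528388591170129788391124234600214350214692185562112813537736444220643017155573464145382080146868326957309850869469753161872126914291221392142428763755740260205816437751424526222702660471453640664835597301206201543933290494504928156980064218982958405428620585536987119216582495523107624747708121268357245049438221147662662183915943791746399524007873012611537597436600516295340414130073277104597868744456540291453781832810527217605504039750614520177992904228787923625738572284924900170430797176715838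0299417518928833972648719796792194782178637391472462150445592077942417589978261172091230469210739057555731233156018408103532675562466054631880268533849617072768434251987401469535205857715862650232491251802900011154639474356698649849472846628835940610205923480858493389756490585873344584774018804376605977422681122437658213722923658470898117829927240140662307018156471376272148864810658248431402176222227860055339459854824279672408548836502150136957682876193521841461464335506899222456941628538995357437685774858548024326400014192734343119785169718351809662466785990943029052227250700188105332131650057136106881147132599711263268154832687803935230622216628979061487463548621357710806146276233590840078962005365492819719574731936247699049846177080291915710659128631060927986652628763535941764896818825124504933274055348949372711938726132197656297329578068301488228790244756936777674057849364700680458385521884180778557527796936743205102732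3943619097057263211001938131937017517015993616647984672711625537295859895454427943567693974022144538223605733697121667685712324593023563489773741911974711211248403768903051427592235009625933175654093551864263491851558080649660826976956342912930244157655121386008729827059454583392324841115546198302626372122413711694546990020723453733894081725059672897547975629108446990290354811688801244246150122465677180895176430268817041633964398122908809337959439650122343773448411772961940823150473333248276573807366163740866718564073886709444503033068546009261523075807618685839510144599269128663125738367262856437631658523873464883037759082183254137179578212788679928099174824593615707549620265812545794889451596793975453675254905265282943129966990498382980797621373469347879696590289831208867664978909715405904232562650713161515783649641948624603411912308357049066181158567263320955401543606162246370647164649108924796020069312123094703824136487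4111653342415799827959490645064254119069074007889269981565979626624580279483850633480426731095507342731704255894217825599521152604490237530895710839829651321543226194950629794558089790011802797190990808241631792855849115641757168517875268552523575017894524380696393811144943665427086929210426646372713979563821937028749448145188160745485676274679035962241675880261582870112883144166528236253415510812734324198557494781612048484090518799094569411864788941601342060994249077264274560780518907116665837106618382491456299261793248882549888330736139907786710721423029279726101460451661483754920602529713010350587837100444318527217521119496879067979942222838311827615857080436481122239621070213163622924456039489880128828980010614339094358187589398675285624742523151007192273229844499116503359240788945971171275521337328294069702296115465836656354187192019816386383479546129484807938083374471445103335950892722756262206447613973754146517422257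0630409561686297597896894583235347124568241632993982442330387523548476986047470354192371147578690619337658094927498681622729628246220236495797835033877301269906894784016889642341074375675440951225310956303116183797442950125142554599481184797724097896640821044392720944521915482764169505436556452819190668695973903167293874069645813049782698453210919842412992407070704760587937633454977220888028852076468923217542840946683591343127695274083081032820496092661875560453347543466134303452317824449077380916258975632701696973125570281264822876992649978205213562682200066766684430691351814649957281221075211082871957148977457936664914767389896016332778967428718374229711748627197935143008117646232023598805664589219779435211489260199641222183294537698184017430392635549341455191642113358957313673180270000117046945381566283647760923681537221030761145615091109787977866897165521230344149857261710305400865387032882546231272544286323818692829500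5192282632454916144705334265329926298498186513723648898863046592536309980770415431924481680129792497717006853164671561612449163077136086182939246025278007616352704387094011314770884643115849459467246981812741667507271257432973801678316849984127816429620157691624697672776532417628738695203694300275136180259052759283103424114330963486091328932040939845583245831566197151187760708045563038669266868954582938325118788708448632595106545986703052943321280657397293279244989395415591774634404443633154830612104845057675731520081971680123646914183236787933054390583669162340881551507203643356818151679279136905437903570436811217817910124565322144025972851256966603542781787408297074232512506028610364540926900146654993452881720443726442414357076414116851198232296628441500405374230975305842510683336742345090161833992010244953016251009338358252614711727556104167647592809954898156924845681994526196349261096547575439800988781853149312151540396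6635390072867257229068668586985790082374009433926292757804818800177726136859160182459090236020035505547565511734134509031065428343202349474256095197477632960171037972174105063331306808766345219595770986687438718932764378863842474726216701033810797844207065826154881652507276004610364830153654990630572642202071222237359382250878210551126819415068221074237025483707485596469836310358554222243499567855880534062648952272127731076225183265131338588513509924457098044005018683703059863154389225787082208053124646272132461616540013247647736305912572471007768442049156420872934092976334366352071649871061182081735863774152312454204052949306239921792247256823470271116910464138255585053574704600104947304506263788568537916812376481311164407227404084569736918559035991133771578514594329197103024453678197277586851621166956109529786118504820825976998508468013427561236757613650257754997416694438852696601199954435013915256972630239608241863525308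7305528533481393832531431146110176999413376806766654787742627517483974211861435488928111073004189894993778660261559061814046115645514228295043052124505026404031669306550571943644112171564328041758315964107563727225237210526534675802876689726189350864398059552584088150591373747828660197759502863291059998006543407015939717526234815406310597592794457500587558213114301552566853103120148952051487226697082127217864674839852869970157694252484473298940172334758301570180615560185709815703694646114507571402887648617157959498869418086448641030542620208769898258533651824163079834678141044034515694672501860770496970528661907921103250968793317686093472825518118497052284156853107036915603876800426259875163588392732089836112290026782247800915486305308580857475993131623798980258441878295498434569267097908441581874062707221004409898575802412289556044724310893185707630986803415526874025029450494891723880574963674793362740279230468852350859495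0826504933851194749677701254798217945545971716758252540547307498093245545349621797278943047950561404488702724876664814006279018093284053337248144790037619978291321996237180220162180411759292613182306067679795984887393676554861578360602545317860649758158888333656862678504164886340882544806396227049439873749187476883463217568415131462553452001772296774481927213787104234985142975244552253496985386704404884449419574057859039972268310943654325731080245139807200510688662798774959400134192283050848758637053882505218938773804332519708285488461392412332597170646141510794553373023450067316214916096683042925909415549694768058264740798281840241298503941008779195307156193021906583531980517832525026608435778714041122406435526528940549679335047243621854244209240477296857271213000795977264437131746870832520321928886518043566093031689036602478242413533165970655487574588087214137189498407287400555458984377593850788177321591523887616161743106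1159260209302217762757246013797978803606949477796031429250807734051439292759342533613386220964107725687305792649708127518007171712086597144157047366408725026510314549931084118360588761720110338768618958850657296263808916667894210094610973688566895363016477044325566503305172576921777439102914053354716991294766599272029661544716032808149652556849946786274196783821465732386469957867646829538873767104174793362919519610207070006726978874251290801565389252140380246167380022834768648944931638426486402874428075572073058797444918099891869416222684552017851597604148269044686312378929863810935883321072141690102774930504009932629486019241706416927971597688249468202054794165323049664118959829765925142350585085877453700556843672621241244712452152106156175796033820962008009420042857555711205268307667307558770743345109607247455514443117652360084784634182617502615970100807830416791377749877506053859487690119293810421413047872675855126071699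9197737244398406861923570415903370758317407637193944020069077271106483205804953816606325302932465719807115461921266680163783695498032688498490065945684889427749364960772434879456846134231653109054575792623707908954407725311954873520264997396448014120160584293912646674705462437800046031171326675122562520078658196690109075562960376664449784170938687976769305732542378497680633185801045220500716428037026820446055135586836448151600103208538949961949552426790669961887996110289981953285190649996635948202183284068975955599789177216381709448947789808482234781826907715322382903227390942150291218545958857588159408285639159351855958722603703575487943595681291205680765269112391237738732932802097866398283038376766128267107240085185739384906521936188214855021682672718576213860706417302706545481219207092498546840587821898275759908204336048597069795228633643601806502214231100361538750906456942958070357078280784451536706693332708005802317182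6714854546670184339280534321144506908287157547273181036593433227495594629156565971112711828856772033544020124944483337322608993490703206454962486647979653851931065931362414352920481606222418784235884212474078152480693452926311251802057205310081801990767975211336991634053911912218032346155686046742379787190754203603987263330056158761485276643370940418678617078080398634623910671758707984434609231887975830461705161901043185856165143771821639670179044405004413670090609257355380823593351835078749001315116164267842309102797513197923689042203373565258787396549371272174535994993107452647984870053704314720488084781928728415429557750285774811078920829862701128935101990316614520455066954158968774547243526220792703646041979478156884474388150383349252969746101147230182453793297455071340993822901728141077082430794987417275808190152528483933360796855082790060328406231383934002169762848170057709403980001569612615699721055559464773867638460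9655045971647126702991661927140442953440615431377038425307865278413058345489996453194273867667053153160603950018897896890908067110357389862132895592126515675845169197674518278979368569003571579445058489175820690013251908387432666840140629395421713710661254915049765054729001703915152112979710973986875104973239648100225194618630434244702109624429193814302108421950629587503967759070073087575173670924934640519989670563773407445531964751050829417068468441461872289477995800200551449494834746080542411117931912501229635232808452369939214344559658555508083687588648595156907342215347118997370994015173120432317154249227141190498608205935620660997783581829085334270713093123181668667467229880944575816722457283065847460746444715012477532265451722788457494129461039990183218399153450974793670346109196355910847532860836329078996184279339723797674907275480170326289875574678129388004860432153255117388009478750886604255490310004538304895852692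9991394496275065134005841515788491300800999846061813082955129884537743470609997194413191381343966331063669225059372401854730029342593517634445302927080268115139809123511905154524468711793355182618365754728781613900206957385804960897463497369447019242678662724681402513817337571479256877715876841716660396222335328771240739394162795961272172831743951415105090084491121473691731430156112459855136642841573615659257085494796518300383020985629819486464009705720761243422243405508542158304965964309135631391161389257221208490945092167698146664694407969838193127449201096486090663952501761032647575114318766298910421295836610364785871984974327758546739916512543361845374228176665795743045911917775210439544218429959791025110060068975101136577656401757779914161304591750488470019561466008087453735030688390236449401442254242804738973686541228228353157689370885757563211096102813592971082088183892459505299003217871802722308909336566216678350750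8537572921334521538520289423106374216548032145273526184160254663739119618061097512136993477810411929502055883691286548061707924744802281431010297681685521626178961516740477213464499830821746413627522468641044683625751690662395870226803085114655080416215888764461367001414587530837501355938843451355497611879626452966530270042997862023011159910084712798573476069263341839036948007095253450574460421317148900985780378723527790864783566250193865517967408474423587093830744470399404075021746841667791594240370000113156147251940239289518247376177226496028961592073526876551688717149157543476721135671185322779078411686023674375720533662560059570126793592608678618987791927391462392209182902520913823921876977849928357643535073796389573603324000364838358924513115028828726048917474315404473542189037990351909633425213999971062530241417444635272085056788866889924799445752947071996069410650944505429676190096083575643485020296372397687560360859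73595482313190361431366044803453232708608457150295272274843575718682692800225296668670614925264532573554410850291804324956294241310440926746125760880840070185928859823358322035075515363301635934582248194108537534767048624286613984253261584867135730414532369798341112775921130756527754572059085057424544317926873060148169922049258221393683586021077311467742113334265181177838802013597299382085352207987299112555158350014063464962902462041297278653018610033292055834920754300790284687180060402049397880579689370335287549255036065450948596188440400245801623323001198283429423316025423321891013698544619934803518331867617978976277154533944763159394240115022771667259128314213125921005651995582988896972407213045582285160369578559338451342263060316359761663364819342647250955633384836769810167362089095309744677343163474095655015681014691692457673447434674765057008329590612365427036446034293215411061040080827821087300176035446784)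

noncomputable def rc15 : Nat := (nat_lit 281069946777918318814868302492952686233658184912886199068917846623123970183921107858840712417586383201476052115099602423044121714257289056308431001962672739358485395846133169903304745075256460717213692465286551184102327197038098365591631220457689794291634689703855714892762162411098698348590136175586517646749092596771865363839547361485824929248898777424070707039308393188372290813836535367758730568663460640839140347282907809183169787000497520466493339524987691906112812252451593366136242621663425984043439859318338823824657911514059538484298419692234173176713661501986939373468163250174606324210574714397659298495997617491860992687150773228737464472155401687968267434399371086770734758394468987694790688900522134650804360636624480278815877755257536558231784777809060335507296264128551518747369925329056684654023278258028343301495334685842345533664133458529847803821952693380589223332771232224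6747217214263493620162185284163674083604645999333935088196873916109725752963665914208428227256420742083302469241282147731370686323927784499697514220594490950317105646794345658866898444788042005328803295412837760755969039269692537872492822348376031385729186277552212528286763442249705728954680945988064629529880956130455027199040149836141318701497616289012383235457586922999346518165808237511333325402354261228205696400401921887073464882741711971060377859509238112419754081472137675287311762044384168275522683930733416863362828467673591109604908864383351825949766575908127297969256436400839038488489775951991743137564081201896058312317994582352404636611026317525214645134030859907683499685330113428739251107182150740414552637401547665844863435305511342882832625379906167951226745780569134381651330330044663986906293636822764896011064517405151446220533487682327474597829420132795423135575234483096698842858727057441156799338084269391281684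1894567949605451736340784692384323339406462409593403900221903292652582431728408094338677254497379464169517327269467136667659392608939510800959565205972063096543510620371484341903694260436176429468416344652002627295947853011870767246875987853619691230389808797092474411458913802633386351789888390917278638616706499031792856571277842448005035506415421745775204875506690221438077752410641784134764035034130898482637564355610316448310746575496462886303672229338735112267877026381346343065334335484987295322526246910896387016373137753014149747655429432570265170972185277749133136700298567670056452953274931958051204191828571768012114585002058850724184250178709876309342210453951527000066281464022182900704424761827540377998655712316592721182630938882831334789593517306893219063458630919866622111518246534667945422502492193368500617596292095181112330051170770093745409311232334213825209385792181863710559455074094273125488629110265111257006077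3466599398218781098127220513164133503944415031477480334498780955897746490468922421377031789439143994899636540088436583349777064907477743906628726633879987122709530146237166389491348748140849018007555734016255402119084940481438247898820596349632263128985822141019852545113155114720035318342156072885732334727588073860126331493129721076214281136269278882676168104403270086512539515519176564951177884045078064389776661616937201412032243283688760555549136520675726404791803003884056944343303415128314086848104247693364478779306452983866733033015386494131009938803302240006370273638658578408989145596933696315455510025972179960060540101080581181427152724201814263760221048977874100018113742715825670070013612802161698081305673439029731684729219725721491378027811642307459029621040401645516902957097290892539124130747890186177923817507323490850869522143533011950127717679313319368808951167886966952992294674325010988412533564712277393424942200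1709971258079883875099229984117557811215454892936155640573485985703844544993046411188420238958470592619546597719004272619586844628984320602949383258631195171955343823199046333991143837935148373943564049587130105584152249389084505021053140746344322987237549696054014539635837229395936116710102381008006072208312077972535441937935044845751003081560201623599744451883426477789794869370933452066025139824672139886384198653292027077191571545353384220684918657923299670207562395450396021887839777817675591337183808518538562191344763599034685631185172164198710417996562856722360911121847246562042692967795784441052264692846032710050281373819274560335092397762063024042829241429199615434641309209304128994010394594632191091236356392571385997836579728955356722760346236898165979200091601322390239182123602456931269613141074652847817440209301233387938968850709167088544589220479616889395573386498557268439177589633654646907233937674599889631985079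2727804829710769846341233758879767777938479792590834843283217332391548776747794675297924368014895489689766370073169980135922476071975727564034237402690128971763324412169697451495903482323328063408534056970830010387676292690179157553065177198915770744638004125903621514725871428996696742355788007107233406390438622531760962337426883449111039939629497382119614537967673118095674689977776368482331493013603750316506915028930323364179750966554473601875781628213322629750051749502595197154647919520749886614029111157196642204993357569296064133153800530156452267835780697788805219975958404238047242986055056069251442491875305116979797599496321262541968481068355185652353289754450061163779919538053580927475486112785766253171124621339551588088557205315582590642903047423101185795994161546513180362895209875999551503518814893981166031094533067255881897801276577359418498977974935064425468533948472121394498384239775909333846668832470798583055394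4581042633602149373973961294070270542712787509521295689404583435686733240538808105642181862757406208014870049102701232513625583847921480078285433075179965601768695087650298331020629713289087919199033675729538515133973895459819307687905482954339561931288968607084411227568468867466029923113959106954425156250907099678603018428419264133219083612755858033776139306443806249555746177396425681912148598961388100697361239300462567418467669366233016720711995223207777317621173221535391028575858667634289276446376952336927963972504363053207614580803492301523891271780274546214284360505420878689515919590112085668007537825253685729093439737226620003729143962053032391011194860193659189188273387363072190633203517732313308452198528052407025198686679858839364513007334247959240565242294801919400984108156746032200128827825497206476392328060298765340419867959668759738773391358332082368437242199654862822524506276291993996728866158618010318057194328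6221493278922340279328129544229830882037271417595925309657692004348327741966079292186591982370209878117922794288317402612034462017398482883396090970760684941072565918520006075908729352991275857373904024017475540043704181214261259669672128627971654849342618009282573470685318048428465832234171723534242018235537094656078365082434219914134327815392298947256690397186196923139715413044834247662921530060215135337123012404026084569913827916093136597199664299836553052537508937411545809804768276643928823689205910492619935257308434298701833331905332890742460770600793606892492677912589419985472512003948570572160948716005345661666741468649505385106798207785744199644208941224513552667039439358710749778049770202914108671000622458745411417013098624887792835928970578314791507427099603127069460561980586711600762809531549496172680643549422728088254854899130406305138204780459678779890413012581286626222673081050744398204462932360280262892804293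1679522518727418786172258510065638022182885482166277747454331748759331353553090379905918209050602245265589969954932268496240910026259300424372696023684026473773005415251193573967575356982239853448813006098179106346343441079515208953604315137572015572929924437420154341297970507838020140900303747550347055960618932341083910509951387155146970985183106680204590297163881324867122981852419039800960329047050660921276884336706039734946955719732489394542137541237701604652351941755569621083417124188831403933996540604985101046087538420218502695697359398444276456767685394989709434725170071186735995312277712097577749299973689664066899599586383393714502856392579200321008207298936421793536902881496369448919185032207970397457572051707555518100971578352236163090526433023698054398800147055838064651402740120508781000515360239916167008572729001268700040070226108225889873863895084940152093637063386667317046346036004532395023066708832089776577183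3180299805759913432145019958407388586936994996212418971758831541100235319805579005573712918034380860964896225052529989062103334487509938275577994217761992330261286775474288540514521533301856349949985942563887641550946223375574552489639327192588786353474054345603921107971912362886017723042233448267023486754653304182393017015770695034208191083370981521707271011187762380161924048299692792048112849192161023483663576480358333096593335504470630381835651063485229596439227891017800277500509523839727379823517160624486158089336704050021510459248996476435170173636612253860956671820862185621923338151774827102153483042948929388912202567419250564336168081249215054361824965304278339129190950977062537208262741077692951689067147736097378803317897951005685318188071917860620411328429552647883284468454093478141943876291099127591433148257791248257584510210163999853791908909112304611051342936954556607518392612183745635498616509569238125715302146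1635652663508567789167345941810478395709377146939133191670659764707133067991270285630021282159440783324692055074847995023041788777692574897942284703360488831390429224127578262816833158305779947594947910953025063758273659206693531674351925313358215838319397697842707476737725325023994603248093508518048560594072989493346397745134512409290955040656172336359474963517924065792568133880850110480858013586875951486695729253614344085423455653531827767923341107423869890252487858523770260504291308902398282567746465917558841559089063455299635730034526360322987881134335965336695159295198821739726899714887271353114215237405157420794953171121092156773147273247260484414625866299395499635311520780812673306001476339132279745242320926838385400463916493409802311656750052467841745626269604896469326030775433632205075121475132947237769031677670074664233817194611747535531270493055432004820292003069711615086017766697416281177376342102562383827073597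5562705402467493561775771259902554591717874519313952997833774241860762355467609117615946689410886641793033966148660441169997190534471668338310851805740017553354366078664570445635847073500695782281384910153836854793463618755911750419680497532288225818995374763192776275604050568745524735395473065049444805663539293829493170790049210284701040103300938959168472701909256066896422004549699259855027575886035541248679167658515065103731001222555522403363461483606603864733306233301381623496310664094270158296335522990798076790424011540299927999841043779519659818462495809217025285566735591072897625948089806230614833172338453535624573091921590902953744255897813900165381959461753412368985277476448946874363892897237266158069669451252374079938856141134099585028774852657764477997612389882743687421128461285380742337142713940718600810299546347271033121434983546735320958689073010286685490644824979324467349789012352595611555611497180234772000357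5950510748808563433441071190539622286140806197791889470458143373353685119668562169207769010485756211134317239443330723998309667431259726334140528612797672978509846204590616313930862125158552596518355046167239468531368189540248090442242310603853680151549072624734421544254581524468433731243407618249417861397252499939882807811516538566675445735803124776800270005973540048681307407215858225681579037094102650254992067813036689899261301172297250089087616921199766538001699560742640495729425644385903365298695241617829096948599245430556020515460990843885702412859825020142989956124351114794101232768315304788189903200849874433167288934662415702923301722891264321950432090227677981169046392681635041101061916600558017935844562539946432807568732951690611485557027084818517231122715143646347491396943210352377719781061127358575176592912904955381821970490448023728188665547203645057895878260584627178966004894364850063517908902669053179011709307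0874849083294405798819002627951640663493861303655640939637657809902237113743776159255568209814513690760399895428581280526803307970943944658108758600239560812485170749609651003473953322392595846130723428445626592074167271607258753691426530942838679432200313477553188503364008598132251576692646907512260661993516867383531999012368255268830620817629819692085887820247693027354343700282887084214227961980066016351869871221620242726246818041271669746102320413147615172766373980625285363964414151473375829882392995591186724490601926491365279765491500654068636476922474084574256753663842250261578893602915455066404854813165884505281000633829716143661001230419443830818405800789239962704150052375344796598816112951813105721710309335780102856662412320705925261355647260313229951495647455103438140591961851493642087194038341737986446203086149300539253125051372783765084386413279427050405600263241247295955127061924857876871265770131484042071117270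0473552206632743077681858507464616394790088777513286231350997618834707103589950264883947324505902689699364639207786962074305703213117460333933811880308221339291897453322906208622738338336278981867936870132127086561185586129521681264670922811987213057465247709675133082388778879234786385588475977101292754502610836669327775406544697318459479818081527167083834886053339308482545002063866266521581757408805934066326825320951806370567731764290965027396713489150303705376481710176602965089778628691315725797078561307558034139693658276505406655871068497724831357448968616656818688761531780179349436062418192704902570044943792262824137536494137957947153534929538571672315403351597872765901539753609161177738248841892661205138004443238081829064740923838721871578913235977760846094260858964837241954812180335475558648257613349003181537119328871627540966134132983192146470538443645022811980799388178130523148187347663650010729349291937724766621981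1510008607227629093949873796183690205043125992638617791052402085030762039268229393961335036858611428323036547978611225060222573870535500683588780485804649366260172247605339594525006929026232519305066772958511189904555166516758440177672283548408386202877322919831657153630883723497599460037357828861639979396945240160889671718991883704373479156670873675961439933591131593294764944358104323941790803958876379138885546346577082876037606592814228254656510131017053009511710049786921330199053539657797797997014705418084180122644687861256838539965484630176680551234476441509135529514774915785990652934496320391563311302004453369702821888963995443598237919441434108709224974843366881445287619583496379677103073721413453581966817356157936515286102097585666727508417084853495330713502811628094383474598902918872238106209308978196507559304046666756750706807728323314267505713310860623127906074992884054772074954474985052662849800286317147302422018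1848941179339627404975435002384623537266127149269481130919744293595510441369984675955769050201427253044618052946311081910786549009416459969850957087616671567638776792281379846916694839630705272615707230292073443167416231594987821401758531614230516620850412760740929525692164033139344659335734349103819645142707831062593148363403288754673496067956102141261229086963095872678068163598987019801886909860533649793457698847584619212063508919647644875759739823312568394238495661430995052323269070207046363052775265386997634516040940089278073816424176973948211576040137997143072229231001886089045968028039319913050798521416555217536335847521213612670660067325493072886941440520339676276300354204737249509500078645108503522952768005666183837296650390622384294902995663683079673592846265148329339899139027517216787543524685907996136158934821401224434940147618068162615786467014782823105132912631098243690998396229594543875424926540120520183432862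42390960954914020599646258211653916783183877875166560477353810696812097737047638259143184638028796373042366694696051451303916999469081758963350295963933734583544005962383816671398151947505343659429556455039672637952236791312127959247595783930625656599710776153951425726748716099861226635038764505356236814308510894753108444657732636679132414559684681026870824195490863277999243118954799342640216032116268448953572236438648993611785541794806705227312655128927320378244668332608115561571681975976852749983253789551939978308551035519931018634972377245249807515126104620867425504221715803707179180022907969038425719349332701545892718751522942944717857771055930058364506573404826356672013653223998154317958863270880620068583574734002469085333827937154935699884377609450316908698577098510573975727639373400710127214908359887447809535550372914245820262157117346428376840997031935373422732333798413092933538315586809986025313919827968)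

noncomputable def rc16 : Nat := (nat_lit 282232474135186640065559721821534523932232496214675565986036912201224054689299248916192864621501953281299881046890137891721155302216719772097256652369742552647915925524279431064309314370185056645692255256306719435437111919527510604518044258165904986608993630136732625514403747541780021673904251797994360750834405346321772130723441357139302985785715976563080116425955658455124949174576693873905251447477486917832828342409950912344828230245292353938218236691938175051474841936547906429241434290062230432079645965812285506750783944181611556040227342870142630728961616601568015592720176330788368838419037923307055676661214000349056883566862337514973202661010350690893400397617557192644470596797626137501568010347681710551281321235047509055851285682916593793189224551841382325024655660242830722039191337143496502523849590955203444465435881316435607009717082757280398725497838646532169518331573804954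6034495907550753102191336377578005702516593935246962769480634393366977129414715730039322762716975739014723833918007220716005033603773337035530004538458496992424482580736787813175945000645062209204964267036759698330551104274191123401844052674858371337518098386218072258317271007764737903044961341743627141889265911630212689414080612377116612725037675465090268481419090547292521796224268042163226841131202462796918720470748450808839545528647021042668015903633866984860471471823376695164695552005186682281875749272008394237475123549179955987282588182011386433911208733688410716479732420476979546571725576890326450134241895671505174454008469721035971736794073927670785868104871550766063896393120994815731385376765615236751660281177076452805245124499731404814176834099991939644955384456556452210567531649553976966924144289426222943749534090821556373122308270955665615483145049679333800588621602575559701158299367414258338608946842450108459567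6094206945798584409975842501496801781712371833523659884543338556316160371762762425355158592077454876494414285531516559498805813713618682558862000314511924020819958171402219400265985219922001102593545615682043241450693639992910549723716654697620051606632693405220731410528190176815820575579660930891411467968294192027709325544922929712226062375065442790270585051400794144005016403912984072576763446322072542665030981304315576462594797130006271902967630116204752164504590962470382885392464187437468218875183923421867721538735811180110821051031526067187537321074678955021905938231440598054818954061071125792943488183287031459680476162448575304267554357317858537338563531880198018997531840517261898513722120260312003858619058124339119626552753564827334368886471276901799576662498934069902560229775594248981238801144077589421854205705374771624977269785038285822821488363782598023142014601064691840632866209014137998259757558637338856825442107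4050099443428706598645782073061813913767648350998708754098534346121015571736635540658033888335054857130994376357339429917093156439989330855603517993078025299622408260989952283922645825381500181434002233962793268368134476450352755213685729974174486134472337389714129482565130915725417828172930126798211789326113911920431085810555352487273134346287082110238896756751796498661883117376353364206372895972027082845045306529168082319560720240216062563981580394108144289260237428841013387849773759317421592898548910202642968422495142600519599800087107927781090800372465084590689660632781671091780792799764782308636418307955752348050480875478091466061691821126762007161603598477102175668561916670949982260421706063955311205269076284818079610850643754448769018334739567679400202126323363489807056812695439647674261669483701166229076467506437464434278673264582089330149532624393976355095183163402048457517041841579117967179710550101151577146338247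8572490696918555492313922194489933149978376294783944713149630340310033797103091130414243725850232577214402015908521642890456636117932278566658615061974277176706147847419912610021017799226772782596962670658242691131598205086821164617836136093208293275990468107315451380093292784123644763189080559600878662302157465183292850540241040311034778143087793483296505703856446115635715516595693850466060197262033389592476619694872495849789445209252890304715241795002741343933500426615222165327354728275111544821209929251613200953960983420816027448748325763142703675752893366983287539705347943123869415343778022504760782413399544235997973584652870941652837964779038042958200027441843364735674293094815559446830640870436985102234423144952243138180772344570527074051755961478058931045254018902514768989134664152483243878134783028555739099265805307552948674563056140328040732114360696906675420300317611215029652902190789911438368507369175780627704220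5351982058768340575404213277059934448374200122653011847049998666325413951089664824259261179055635275251264868737063723087218072417139114973990499838076442500409169381434812022219692237923075971454648796442136614185262918097775274128909552730998263479405701821157705040166980650834761295093810894099721468401662488388595759176593232752845672650622184000701116296477212687693380123374988919406998189038719952056639065745756264520631100282373121041817239064011338693524863685490185319060985565546985590778537935542949912639638652240213586494387247560708342566276889742299916863346239238700190614506512243655034148363784161270976649522049416785975400344063199239693415791194788401574148921598476386990575263489794507742534530148812755518832300961460174136364159841208681318741430532406233757440083853042796275813341842568550502057038373565572817251161104259934957375430289447170784019919060161076097267001882386181110797849189926578329530517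8583570774897505364581547978762993399443839402815054995357146348756399303462933227242799701736731973020137123481493756476221737148811693324180533647849582619550031049721550410866939958886976134360865217471168913384041983751675962241737471236191992471612615895831626567815552285044941809411457514474600697760441376914558614280301029598332943903894674952594154043054055799830749212096064894314170172854921298671607868807855305312506229105936134301869408513696848127385093956137976704180699047196436078506236999481883321926821714397385217019124081851499185415208080180668209789069567690544211444762346003588523797955587931029628437918144405139661831621725529164523989027959900875516548033321366148353376855462312662009194669021458697382942531953613172668802281189713908861469547177273314148093688071956404830346128349098269689705683235989865728982055946809542175743940894527467130150598629069579216054886463136508818981032510597624883976613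9442924670519918051401644306752762757799904406618239775889298319175503486479785616474004729605621584216777144794425980975458696256223343485036340404088902284717752785439593936110318571022096070709955226666671350313311746363110543907079108523163967740820046709688064199185960879384174086361009951483579225832554191373492731385782637732590928438863294345080165590167388680643158885005445285854195624241887092551076424043944855539636674130414554773231235093880539082854709701328747710432405699980268022112193065647467914430402005812950264593004446551522119765369942210814472061340509872957908344202315734913547804531320103504273317679484305631276622493888270139208184788601814133653185352998650023585740728155744011910572410243696945945232653952833913273913422177024411258031072910336221136588128062100343887101358795809717901514525431235096914366814989559475558809121146929239078409152968722988818218264496500875828943254301802207233619948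3336963805231527275167342421335931910519863040103578818637706118420418935741951314009153050089033278009751577226934764091930610192325475065898543603647266379153033325300610362052437076395012729668157624925150068119828019206990343561996884827490325696300712701779956962373083609465408151063211583676012830042030373928434096337189196935646857626050219362956351513581802096046344756861482819880759228388442636046048633240440859880213727460880036757846107084029962724880590076504349584225066552550664316115552244748956410493962407461203326411425439094528708760439774569922094566952481016653905421343743033790124080919391850548773844720180614866539537844288668498901412381178629488369111562867317116618333702603465212241828134536635090389121332186110467171843351496516099981485673027486055757623580460756669648830422947006054100345856853866923577686126864058122442394357318349415035190345413018364105830426973649381019257233102164222335501293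9039212621308710410454285050650855274502270272907510803979980687794038552060909061958353381635835579891878786468402493525438698931474197018359266745029617153370157292280664948298550434319850432978324487595185650991246285590011953729649916895178005425890913558682418836423126430572196188531815106510747567904872448994854447958259746747853553730486663919920643867472658282978060725563263826628299377395770884301873597915706269451664667043946234397228836145675486724785734409992673727346860865810657619234605502289767961661810790501972420706437967454362705520106884323003102719236453542674503127404907057793153694452316156444603872204368962682122037740210831252980847125963855908815425214923102222983105267970667462589048087449773539628901634991160884756802843551386799620357958388327627283023867792105442185627442259679438342425141425405235624237757814412837774361717828840839388268344653865015416942324441325300701112497084386413652405449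2569251443611723031051009498783171090966434680318282304014018966976299073589224564313008818025845286035391554017942306221679045189079583216695144938378299860585030444012353224212973326183810536330992753846279623027972864681527892320735191720855447473740878950723000123296580878378482338006093845924032359780130826112837599186248298871158536234588386922127620115211423391562414024201957896214457753332387104719694410029452797374046924200184662999427887471564239824387033225878942630175216856780301462881009505955584103429909145602870468599327666860245195543117148689968553972538966703971059130469041391721516655019016603125248148098794853077327708478041433874342796151072287631159097671228272843698345464584631490451830305158827403766216013690019260061275634770732798779396498864652176791496886583866846906280406043456409686652960538356205367112159063193052953786047177225326703065312123835522017436309309879043253086720746679021429782054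9407086534817729910122319564386520724044080708672772039507702954312660003042095230025564708881121822977111523780551564171810690327321010338716023811756287664890297877096960671410018926623017351489342570341234657170274192469205803141209234352261806567895004867921286822921545107085202413381078749877770161465913049314687260185180418206051827230462617726087971246627966874813570835805164540138811547133418962377482474902973336651980771410854350736680809870636528341865085433346091449559399316984518376544843167047728378897494951019098467318155826727860630229524810173583186668794100348065189142729958742557083479541114543065939177415118188873198795055582232709785190428814064946756743714867952751614909121307551097191085665941393693227440725495928465533424412616690452292265955168231814912551946426620367354029522061887802869564220290287936158685025398816489051799218829213077066306146940844151585481969245178926662008165360158536012651392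6236829949086176969319841207063653540499009388110986384034674934393062800646146508054777833994845287628640921305339817298992193251247121532747301537382444814496082986556711693734289187544810645528938942706320514485136656155293391772818891643278565041695208845969045050102764393260766455013252533565367476646444121863411428453163499745160185576118825438277004789316858148268940536709505569432624552526957851417984463619974517063464569476532731565091611742490358510467859370970276384961240194046705191107986446015591151370151008371060198602696991528245641527753354492418463422221067242499188588264753090496294017402706520105295265765431604800166374832626036915869962009530515741157412717764968853106242089025487183276707723338882133067068393602459691860195060609567659942347716511886996997145993136935872757771457708780137963565109152042184253653618029184417586359371358944220375584391173040054855035518535098918102663536667567231034693333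5507019282529863926467131341732026428898745956478685890492851574625501406242905110743635937801198190166286552185884728431304569167203407228009623643511654660622525984338929601113260231385435506437714739832631465935163761252727745007629000101518264984057399513471980018323091915816910211904219963955241338027974190469649674063317794240428363444743971676840099726011453001685847614753056894143210639744585315448720101538281828696383882177908218320029097661026131711254786773779385140764591917731056871085783056074482531870248856821845011629197789279586870275998090829379909022490142434385460422595076578227613480355501788518874535004740518129960611139123667516066984114375869120178241176404627841810921504233683712173324382818784438508300968398736109747142102337699902664431687713794041810955575235459800574986216381165599418754836079537976102335781467266304733347834793758764925846454018124651278880200584571924949377125287159783895308704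1329176947355488527134380440499119654033627704687130859978542653418432787889121091850025431602776310037987338417860157708394641643690600659451601070283476270689138881263877872163109517243240270580010239424927615725190395487355015670444155910331902821278835090888634251814402745217123980206687240708466538596592354647175811120093611937305149392935013208385175141440392855681952430639246057744326474149428174357178052490343863018345390289004565819078723367476619142989450347982217444019603717038966754847943144942148332296679259160801660043431920611233096055411289390640170030076043569878177681507493426682116924398724762475139667567540853946136457736859215976389594792129638525810497296832091873023578742019409269461780803188119533786160433262433564129200140871054289895688407537205623363627756057440231510703675228110497889009801752967380189623568619889961898433320320687186270994413073389506107167254319861289700940196488193075173727024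1731191515233499065922163354579669316038520393253153982913337710169692056674721667847064723439504049350156251367693869348174004491295429879758677485921985361633460091319619399268368713905212490185603654285881035497021376898668888224768211900907331194962627950432820620189872987831885935379162141097096631581704202120068459174323651617465996594045262395477321762033357577052405316314464819236700049863855377847020133541235377281245418748039389794815810188074491957853597891392419887792953300828092743124270837308379557799009604339145144247737608149260420310649474777692369438455345839781765192408094250171788021290183249480376486545473491080413348303325103124284400989548571268857502540045680409592139348248145299384740759953518062020417657485032643740148978912015936669310020671270631506485300180716715000082997424663744593136581610478255575623331513200373553615748679062069559276185380056221877044426276099436271028434259793381924004136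8888723665925241817233753247866573301683873836395928892259115042903913377260705515166274780209418497089031370927170616523370401399043402643039704443310971307047190168128271786269668252822771653818842218857025736254585333303828484008489734224214703101159901830216339622807708012702771011553622576295131073974772742913797946240801945763441050579056597546213423078807033616697047603054595681282260282583406875901872784227692606783523158506777145437730927772969117381117622950417061073496227715458466976633568492029752957040684926327726296824835257405375104279612346597972292326699185820502478812799447410524754821515062797425448175746265981590702311067490549036229607867812330758139796730134633101625593123512346172867431297932153132522600122663902764626344192803215668794695589857710618250414009166599082440859489552664759052272295059535067563393575247803349125103504041244466822495216508733520016229716218567315749236977425424838380288527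35323276643917788581459130627372164947686315298488770273340730926480749288087227067011770952138088852120073722659258438229268968339813956266163117680170690525047968795466984330557498500794144879298511428852990507901737423121695613536432562470685859254670260521853807728132718229924724252371713667642268787014592005662993173433134490597819084037567608282104007494213406428740997419289444019423748862515012142788124729152137507318132314892462167666563875697016834298602357120736635185674207659616735495317322618897312359135421820958482295601000994951164629145413040793524492608358269709026114215825254901808706755232996640721806250504260379399118482741505389755661079361533859336979398811611489829673543343151995748785992129020758510445445050140388957099542604597142260825531622130640531095486800968537775571361232249976030167564738751123100049927296219385984051010935743049609046646967734460726935137880487117725900173584891904)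

noncomputable def rc17 : Nat := (nat_lit 282805074391773789096443171094874816261554360258950253058922103382315992442085178954760654666827206198752034203997729332898170400732267096000857745884243426263818892174985134262386276214016171811273825770273622092926282314916702841277340721272944129927281759554243433564058144467820191624300259604691346351087853265014014674006125291633147190279937265473206665110036145273364367534267851487181675644826773518924200428336585199157721180398097678326242390257326253887949725924363342242838316307353809219508363327802135022935744662439876451872082705518307703432566048449815432314460443386233675676685068208707944608043675586281309269072685313712495018928877324542639770772529391179011225343663704548619190572900212666190385268961169255835507952079552322892235839928364806786460763649185359734776388245462505182070091458259817817667188025589554688698739006309364103912243963152470872877221406231931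3565687634817383728325292192521986854417863505114305645203959114089810512904320951002717356697667233461172078958953618595906388456527513220835275385198154354655809715598743892521557748231069615613506052693736478630612579744726388596700457651623808515463930460966264951924047569793281890220192535923718516454087368297855573400775205037455046504162180164456697608737979928988846279294617785480845716048164594192566508424090270236393155268311098638582193319340853078280634380202592500671963404508918549597800327145031843256230327910586722556341349602062025409731304479927506133527246807401681501105506548710868622056099894871832328004242702758292547554550278286903402849014847017642020701145602353621344424512996751366885723097906257906779829090953073739259324435105356015002381609210774324351708397246449934355975956177877598650994042784915778508794199505124489517927444846762706007944848783368484479512032561558397660916085648631981963336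4132521446538603420369044945972680845128534944501033685204268018642068868320553148847784963287021568958103226892968385625772523505569371622230136222906770562582606622130569330785213930346948731395165911750643985727853020904160403919177408510836640729649511799404032907761223082537423303398014117451615835983120384605199985406102020507320214316931084215671870039845410033980221555840954832379085746584223694034611875878330985069385605334770720148771734692821799708041829822214468637917404763141227789871369090204593456491968319694481168566514832200706948262810781963529177920631037312175980657611306030802948131415562818118843646782006660950816124062659019215529372147593988269668976060947724189152398499153558799166037234731832126059098615273753332217370509552828922849722753985989966251060472094216228067712551886673020449428567297238238327331784021757438539378494204780028110331022331245557804589859200508548338480893957405915348042817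1383928554002041901022432167223861621877081307177998151525656488695605886702437544448982910670509879085567173610244973160075414979761535130939707533866968088849998237497233553311114754038986979858885205562631130411838862474156132258865533610142439891811029892784161448255185828938429049089547769866462078225953564453126113068196862271772531189542278630818083818392458959283559225673500503784612438313798615421937810351765905232149867701322656357357436876996147031521588880720313759438135097457155302627912305033274888183647921652067565465038674044827335835540255506531916674064342011921336977080117562732878783775130251172278353457477105243799786510443973459350305967732565769860949308949595649571575116922663890255520948714768754093731991114371740653738370496499808199954266917307596471319667042785101591270725993952455723589272129295389258890998718782444477733821193599861797581297075025319896698819161944491928251007148247466409655701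9631178528909469344902460455640312268276480922182592949289927649108051551088018589903502876875676329652988011528407223698779557299833612494193605381843109130635231541186121996651619635030026388993268141170047468684639650811607813226371634032250640630267176129952461649004299313794731679898533330898132794552823244925295681224012352294032365636510104753823117153710223910438966742316459805164007024751201947602372209356713443297504844573042730939863043152393509757549650830481357526515024521236448488241281190945518618057206207130900191174700772388865367427513397343121051564345413776179551037960015108233883625903694385373067253254755246745764535547172610999867724990749875684470913179087612122459735339154996049661687424491265506230749899237896564036043825316538071146932140199447604208381863809958608176922083025155977401161886609942990032679700166866276013756449205353094548011201319086698586262070783717210348188487584906486369953942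4808644147332438390983659492531398212962193023703770668962769843423910321864568953415150645937828899082443592082046984615993789924021758933641351414935487602630714892949903320821611455977431119838549517258157122109072780204391975641200298328133341439258973366652657657600067906269910268479755129966754411249000616288965547588932531250521732204638055251178537914347752960433075856804245722490420861012348811225917058096388470253602369981771344633290974262048799593011531649989626319405897280358290548012566977999378338356163796945433934483116730216331202857207264535585670375237471243885599732809890307744806295102188715291665468488734286310371267543271272293029755500812296812546854156646364568642189211346507046181125358099175709868113139060320340919196789472808474561009831835775554776537364567372147083800603118072107884040339563553448522452775872521660685869046352468627204962211195756628820974329555066504564996470521495594516729662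9656573209351428344990617668472370668487569437210520878707044230986486062681468182869276213041010825548339165840140453375456003658935485742564281311906634214712552333667683502791309800344863497619596521122854660942063485064975137780239806846163128972084671787679381809753725345287401449429692333256599881500454490416650587710064528993375267096314258799782561122278637446707135639141964070338926730509657145869563179176134115066558736228770271097636491704808754977869224474596103899249895195604303071420521424064589523764668564635538390538380919052560950041414449599218872205130067567245725216076966103665195381284937971262381186182528387930225535705183984679771351901836930302095381696763530751727896576943367754473217797039107294841050689335115961892693532252717780118336337311701080342728686521120688252583666112219216796285168426053942647834299489495250122149443611097289202596747660263335214030157217234622044010796440195048113538874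2655871079666516925943930547380607270947070874250980285369036204811794455133480789373406145612411251542075913132045826211177615496976398186534800876508716799517950162944719619296204237935995900620992199311046466283880765311114770430252234450074489496791247720720218743488484928617381153731214628768781093051926443737879752334571899775928573269774710450720761273647639377907407354091841593116389365200438207463185558398000510563342062822554098707154901717669781187706625144886984775573609016691858191663962563592407343052052694432654165331145315598020755168710237838934152358513314284742557830419186830758931062587807351867890056274850965889378264880230837079509239043043055588300905976740377491402331180520826688572856619582712990306339668096592662063605166094594560925644817733660448690695447987650355239586633320976026137043091649932870352884719133739112126087305517130664073607020588846027861150332524924295946713394758779088646936459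3114953646606184148703314110522672076136318967202632186029462977747759345927473711416270931724288327892865039540744153375669141271342043771467128447159424720420907822568789652512958896587456966233290420102342677231905159700263524477393136242067623126900020568623200314441158571171967377682925099027550330912903539435260998493075635782275400785129414708223404787760757572372335766192733139980649596493803877444152429672035816979741913669582402577523220146750066738880472336845541404078707471417343730399283880573269295479579097015253183292954113416914497133114998666927632809769306842643843090458565438494803455057205713719858850094552642219419725160788569732370984042987634336320956421060392391715617843695893957475805769745329632721022324768108353637650548056479030342411896366240247012173166860681870246164253454780547868517481132284645882336408334455159687514787550352471711055395130580211999198181915850096409937019876903161810614696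4338017105302213135797303089967534369124394943571613941610692512191875007520158980526018862197884056161854958767538658540117023979560501264487064106690373456028354815413270606989405044271311858474584743539591693062965785511530957586708244182504262148779095758962037636337489821745434377801657521317102252218543749589035249783982901156094530820228379992216872005710231263489777207191838636996550635027851503686329924405187219034568703252106531753451082901919315014046520495039790039472280151435776468698390382868780486252427734562605533983901475366944572481954038091684731789049642594473454607909781093483237784151614880337066040768568250037414536026170404609185021698500213302306111933223616764708619668525414641566943195108243598063281536659018022107052289681622110869444700407454722776514956203276463309722623823831700628398157926143492813038823463654519489249699587185915299474425317984402405725038675099012841259074278494417258404751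8991711769736337230263176094346554975163461396190459503110205755825337244245532997501756153574943229248386857529350191033415626903048307887089780256960713346404708550440043721821795967432880524218711780318667058846933529652333453341030333551187996850945126034566422590784925827262826943110604124407037745232815969770839307685365582855941595870145427556814122733376346541060652627515353928727592034929552235857306733722052431455858533368719134794560447648418234176254738344388304173527424836201651132876359180241465773176378084959427327912964832654272078555766247711917611059499153537598907802882256268288563803430017684837567113894097327316345179633440069756179253686302116376476854316500706846658625699752481205823840746726763440186507283098154806730241032571330240080430213785986213634672226552405258418947374930176577764914114758460385064813726543192556118284276003899220459639819676102979140762147684598691934162669117980894520075675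8359103453293891730466759143760589400688126017426127573094872150102822906791441435053277197868982292037155820369881242876937490914465200703100202050550622823186628348186242973410358436723404841447936137831324946002437586638335224452168968093980637310320435644213036443386623519233918635622529425013876437088046920226790572147651410165897105492543120009162705750978524940440838349545323846561263781324364740095864428509539507794715487985030527796433639560920060295755339029134286225918872013485620319160716333558154255195091384122630806023693019606896998952346532852616595828424673084509785185070424621524414199002178488711010016116118451970635144094338029569378917387256201049192525953168085365757704660995255581183650587534350177646900036714514467817961356228028933454393179023537718318082867172363936828737180999101578733365724097149572561724836068779422629156732025735563430414333302591735763645698567009320483213256449926817369371702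1814566159700936017648709690803206505856854232972205084237627719319753039546869236098252839005324380066343041681390334124127304570605219469247617831046130264315332284841225551490062403129776639526330236845312956999166912844857373649938638761668930934661005669871416941252560282356179599427829907537903213749409299579662110231990168685762274767916277011555548509758866742953234491261397601927600999036817924013842872416363704580996370934929616051318458201214221491247629529706236432437005274665403168804373403050761611914963209846573359649012078684108500094833792224026858510434141504276654056858058301119728244921846777395106434445649994864699063580011392553083789059634692118271040960861021683915496740734574456054660403265190913311323787504051739000600615829361440958377097785937135317711167068315470227682956663970849703908212727003188580978675735530024455692098824101724194788021101676244964845103686129769722911704695632254598360793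0432936193501205789416194062537019662056772683141085782579527198349608534222569076819974706914775442047847158580195736904490873113654298966969865223886028032493440816302713067277225892780011849544360043602375322631166960121296590006488942012698127981287509567548870975170875374481183474223615239958062209249702849835872902905893561850790679992234663354493410029210261653459945942344943483081019789323764201449363889296293021381320446998056161744489253770075530539109099445393776729581696322033763968456717144293206519023227465931465836199357104430820137832013582906338884799253308258908174840104391897834665236626490933189944178069987201542490883253481536718046432364259117710705384618334847742517668806201325025917455223368310122250683823320354507872844196419958523319600461184795651867558224566800115473317493771168301055193144294996165169774994503264526523661698162453742692281015580012476381818615359243913267536697387236981547619642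0066594992600275236949051934750776537242138360455343431941712695616337441282188100557963901489008816738665092576575744357243678738574864610287337875752573783846268327224786042631585999982545043251394494092197274840645321080032785945052030634624197538069681838995740313948921162950155818686954062533843991438226371454997051645124701487944043479365494415087418298096338025551615230214708279864311013554161150685154178904985731954482708980544482180583468210863078065335555281815548601871320783245828431764055774069677593626187060862984599903119012490804990997769979937702631427022779537125900852785640457373135935418725495460200382540198639433913000019834215265429121373304997428447763527296409118129285672435855351415426683413830478005469037018250061683874588256313326409832033882274715310746249690197452219681051181714692331136643529571457356962308741505521893516134534504581951327414696529342748350553907909865421370140386758505825927582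4531076011552956619835927130036042687025499370031725667605487190784955180982451628793142193754048990189804496387451313212781177912354059991692493503212894120577379412614073455481209939779050352743068832671205325741249080701444171829452117630248611809886773151860287759016954534300521287988831153744603839914950434104066079661403863033493958268088384549024599226195373587766686031276065745440044464447524684950894292954101975403273105274955416567447866975521125977444817739999080038741747092188330592826525748086155727939466928802133868553836163622798319215015139619710544725535625134053425024371101114375695651254671023478906319381152577886251457729277625458083057243384603152368913483097062857073329643399858979930585031097382924752513115354733246907286584721952216341937570074553458973232802484767401181676287902278107338709353747004920535339338789422521905052057779724350840039991293970946017439722814987742468098071649963395203875159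9373204524908273647254794342111202036193501509522866967370332815474550779823137058558785434766520079902022728264422706507594474805541542827474135269181009827713481021895508230643268606013901217337947603191178789096293779921569417509307729017147102125453187371613683655211044134616200163177066609613971759919023965305715630650102242457786483928673726904946148263675301159630844959426914174332279777975327065821961531141100038952420839978006167101868362634430093243104012738256953733781666826290411863734326282016010102101254450881769545475172878042591970665620262255745813841615828112919176293385792545136059792584277745134018016102507034565303626443276621747711869375125565249228600660434425433601547301316257584657069906362552724248563835351769633046391639161531242411511542544705040253660928816495234669488214264898470861143676343323547461918867064320168153928247568353074807318140063660350832777385817488436128413212556298240362698828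82024471322767263490689172579785007436213343038475377823311408732425178969935376576275190331719088405332225888449335107141582013458409320631402660425965073252688205592558191109902253773915742395220742122308974096935575772095043008512794065980728156992472993754483951541295810918940269186647880452090314237520388682138247829364570030527151366064434642399965522909945916346857525330728967413577886099214368378657099541837779578070610904144264719347877355750643800712447193951216091602973028887738484833418029672376651236137259765215978540826017097162027342340922145387861483871830916569933725364702853848607320728671062648322480648857729371879554952948329798434996679412163635640576404180324040828043027193297742059386054457680653200009157817365479690360235577762896456431786441829099730755152530098900864847294202341276654227403142433418875683318629050829929071205053601810291664776827499561929597885172277298662976296350384128)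

end Vale.Agent.Lib.P154.PChain.BF.S8
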